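import Crest.Agent.R096.Rel1_628
import Crest.Agent.R096.Grd8_714
import Crest.Agent.R096.Brk5_582
import Crest.Agent.R096.Bsp9_628
import Crest.Agent.R096.Mal10_874

-- ▼ part R096/Fbr1_628
section

/-!
# Row 96, FAN (helper628), part 1: the flags of a cell of a simple foam

For a cell `c` of a foam in dimension 3, a flag is `(a1, a2, a3)` with `fc P {c, a1, a2, a3} ≠ ∅`;
its three directions `b {c,a1} - b {c}`, .. are a basis, and `sc` is linear on its cone.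
-/

set_option autoImplicit false
set_option linter.unusedSectionVars false

open Set

namespace Crest.Agent.R096.Fbr_628

open Crest.Agent.R096.Brk1_582 Crest.Agent.R096.Brk2_582 Crest.Agent.R096.Grd_714

/-- a full flag of the cell `c` -/
structure Flg {E I : Type*} (P : I → Set E) (c : I) where
  a1 : I
  a2 : I
  a3 : I
  h1 : a1 ≠ c
  h2 : a2 ≠ c
  h3 : a3 ≠ c
  h12 : a1 ≠ a2
  h13 : a1 ≠ a3
  h23 : a2 ≠ a3
  ne : (fc P {c, a1, a2, a3}).Nonempty

/-- the other flag of the same quadrilateral -/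
def Flg.sw {E I : Type*} {P : I → Set E} {c : I} (f : Flg P c) : Flg P c where
  a1 := f.a1
  a2 := f.a3
  a3 := f.a2
  h1 := f.h1
  h2 := f.h3
  h3 := f.h2
  h12 := f.h13
  h13 := f.h12
  h23 := f.h23.symm
  ne := by
    have e : ({c, f.a1, f.a3, f.a2} : Set I) = {c, f.a1, f.a2, f.a3} := by
      ext x; simp only [mem_insert_iff, mem_singleton_iff]; tauto
    rw [e]; exact f.ne

section main

variable {E : Type*} [NormedAddCommGroup E] [NormedSpace ℝ E] [CompleteSpace E] {I : Type*}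
variable {La : Set E} {P : I → Set E} {b : Set I → E} {N : ℕ} {c : I}

/-- the three directions of a flag -/
def dir (b : Set I → E) (f : Flg P c) : Fin 3 → E :=
  ![b {c, f.a1} - b {c}, b {c, f.a1, f.a2} - b {c}, b {c, f.a1, f.a2, f.a3} - b {c}]

theorem Flg.ne2 (f : Flg P c) : (fc P {c, f.a1, f.a2}).Nonempty :=
  f.ne.mono (fc_anti (by intro x; simp only [mem_insert_iff, mem_singleton_iff]; tauto))

theorem Flg.ne1 (f : Flg P c) : (fc P {c, f.a1}).Nonempty :=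
  f.ne.mono (fc_anti (by intro x; simp only [mem_insert_iff, mem_singleton_iff]; tauto))


/-- a point of the simplex of a flag -/
def fpt (b : Set I → E) (f : Flg P c) (x y z : ℝ) : E :=
  b {c} + (x • dir b f 0 + y • dir b f 1 + z • dir b f 2)

variable (F : Foam La P b N)
include F

/-- **the coordinates on the simplex of a flag** -/
theorem sc_fpt (f : Flg P c) {x y z : ℝ} (hx : 0 ≤ x) (hy : 0 ≤ y) (hz : 0 ≤ z)
    (h : x + y + z ≤ 1) :
    sc P b (fpt b f x y z) c = 0 ∧ sc P b (fpt b f x y z) f.a1 = 1 - (x + y + z) ∧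
      sc P b (fpt b f x y z) f.a2 = 1 - (y + z) ∧ sc P b (fpt b f x y z) f.a3 = 1 - z ∧
      ∀ a, a ≠ c → a ≠ f.a1 → a ≠ f.a2 → a ≠ f.a3 → sc P b (fpt b f x y z) a = 1 := by
  classical
  let A : Fin 4 → Set I := ![{c}, {c, f.a1}, {c, f.a1, f.a2}, {c, f.a1, f.a2, f.a3}]
  let w : Fin 4 → ℝ := ![1 - (x + y + z), x, y, z]
  have hA : Monotone A := by
    refine Fin.monotone_iff_le_succ.2 fun i => ?_
    fin_cases i <;> (intro a ha; simp [A] at ha ⊢; tauto)
  have h0 : (A 0).Nonempty := ⟨c, by simp [A]⟩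
  have hl : (fc P (A (Fin.last 3))).Nonempty := f.ne
  have hw : ∀ i, 0 ≤ w i := by
    intro i
    fin_cases i
    · simp [w]; linarith
    · simpa [w] using hx
    · simpa [w] using hy
    · simpa [w] using hz
  have hs : ∑ i, w i = 1 := by simp [w, Fin.sum_univ_succ]; ring
  have e : ∑ i, w i • b (A i) = fpt b f x y z := by
    simp only [fpt, dir, w, A, Fin.sum_univ_succ, Fin.isValue, Matrix.cons_val_zero,
      Matrix.cons_val_succ, Matrix.cons_val_one, Matrix.cons_val, Finset.univ_unique,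
      Fin.default_eq_zero, Matrix.cons_val_fin_one, Finset.sum_const, Finset.card_singleton,
      one_smul]
    module
  have key : ∀ a, sc P b (fpt b f x y z) a = ∑ i, if a ∈ A i then 0 else w i := by
    intro a
    rw [← e]
    exact sc_chain F A hA h0 hl w hw hs a
  have n1 := f.h1
  have n2 := f.h2
  have n3 := f.h3
  have n12 := f.h12
  have n13 := f.h13
  have n23 := f.h23
  refine ⟨?_, ?_, ?_, ?_, fun a g1 g2 g3 g4 => ?_⟩
  · rw [key]; simp [A, w, Fin.sum_univ_succ]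
  · rw [key]; simp [A, w, Fin.sum_univ_succ, n1]
  · rw [key]; simp [A, w, Fin.sum_univ_succ, n2, n12.symm]; ring
  · rw [key]; simp [A, w, Fin.sum_univ_succ, n3, n13.symm, n23.symm]; ring
  · rw [key]; simp [A, w, Fin.sum_univ_succ, g1, g2, g3, g4]; ring

theorem li (f : Flg P c) : LinearIndependent ℝ (dir b f) := by
  rw [Fintype.linearIndependent_iff]
  intro g hg
  obtain ⟨ε, hε, hε1⟩ : ∃ ε > 0, ∀ i, |ε * g i| ≤ 1 / 16 := by
    obtain ⟨M, hM⟩ : ∃ M : ℝ, ∀ i, |g i| ≤ M :=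
      ⟨|g 0| + |g 1| + |g 2|, fun i => by
        fin_cases i <;> simp <;> linarith [abs_nonneg (g 0), abs_nonneg (g 1), abs_nonneg (g 2)]⟩
    have hM0 : 0 ≤ M := (abs_nonneg _).trans (hM 0)
    refine ⟨1 / (16 * (M + 1)), by positivity, fun i => ?_⟩
    rw [abs_mul, abs_of_pos (by positivity : (0:ℝ) < 1 / (16 * (M + 1))), div_mul_eq_mul_div, one_mul,
      div_le_iff₀ (by positivity)]
    have := hM i
    linarith
  have h4 : (1 / 4 : ℝ) + 1 / 4 + 1 / 4 ≤ 1 := by norm_num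
  have e0 := abs_le.1 (hε1 0)
  have e1 := abs_le.1 (hε1 1)
  have e2 := abs_le.1 (hε1 2)
  obtain ⟨-, p1, p2, p3, -⟩ := sc_fpt F f (x := 1 / 4) (y := 1 / 4) (z := 1 / 4) (by norm_num)
    (by norm_num) (by norm_num) h4
  obtain ⟨-, q1, q2, q3, -⟩ := sc_fpt F f (x := 1 / 4 + ε * g 0) (y := 1 / 4 + ε * g 1)
    (z := 1 / 4 + ε * g 2) (by linarith) (by linarith) (by linarith) (by linarith)
  have he : fpt b f (1 / 4 + ε * g 0) (1 / 4 + ε * g 1) (1 / 4 + ε * g 2) =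
      fpt b f (1 / 4) (1 / 4) (1 / 4) := by
    have h5 : g 0 • dir b f 0 + g 1 • dir b f 1 + g 2 • dir b f 2 = 0 := by
      rw [← hg, Fin.sum_univ_three]
    unfold fpt
    have h6 : (1 / 4 + ε * g 0) • dir b f 0 + (1 / 4 + ε * g 1) • dir b f 1 +
        (1 / 4 + ε * g 2) • dir b f 2 = ((1 / 4 : ℝ) • dir b f 0 + (1 / 4 : ℝ) • dir b f 1 +
        (1 / 4 : ℝ) • dir b f 2) + ε • (g 0 • dir b f 0 + g 1 • dir b f 1 + g 2 • dir b f 2) := by
      module
    rw [h6, h5, smul_zero, add_zero]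
  rw [he] at q1 q2 q3
  have g2 : ε * g 2 = 0 := by linarith
  have g1 : ε * g 1 = 0 := by linarith
  have g0 : ε * g 0 = 0 := by linarith
  intro i
  fin_cases i
  · exact (mul_eq_zero.1 g0).resolve_left hε.ne'
  · exact (mul_eq_zero.1 g1).resolve_left hε.ne'
  · exact (mul_eq_zero.1 g2).resolve_left hε.ne'

/-- the basis of a flag -/
noncomputable def bas (h3 : Module.finrank ℝ E = 3) (f : Flg P c) : Module.Basis (Fin 3) ℝ E :=
  basisOfLinearIndependentOfCardEqFinrank (li F f) (by rw [h3]; rfl)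

omit F in
theorem fd_of (h3 : Module.finrank ℝ E = 3) : FiniteDimensional ℝ E :=
  Module.finite_of_finrank_pos (by rw [h3]; norm_num)

/-- the coordinate functionals of a flag -/
noncomputable def cf (h3 : Module.finrank ℝ E = 3) (f : Flg P c) (k : Fin 3) : E →L[ℝ] ℝ :=
  haveI := fd_of h3
  LinearMap.toContinuousLinearMap ((bas F h3 f).coord k)

variable (h3 : Module.finrank ℝ E = 3)

theorem cf_apply (f : Flg P c) (k : Fin 3) (u : E) : cf F h3 f k u = (bas F h3 f).repr u k := rfl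

theorem bas_eq (f : Flg P c) (k : Fin 3) : bas F h3 f k = dir b f k := by
  simp [bas]

theorem cf_sum (f : Flg P c) (u : E) :
    cf F h3 f 0 u • dir b f 0 + cf F h3 f 1 u • dir b f 1 + cf F h3 f 2 u • dir b f 2 = u := by
  have := (bas F h3 f).sum_repr u
  rw [Fin.sum_univ_three] at this
  simpa only [bas_eq, cf_apply] using this

theorem cf_dir (f : Flg P c) (k l : Fin 3) : cf F h3 f k (dir b f l) = if l = k then 1 else 0 := by
  rw [cf_apply, ← bas_eq F h3, (bas F h3 f).repr_self, Finsupp.single_apply]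

theorem cf_comb (f : Flg P c) (x y z : ℝ) :
    cf F h3 f 0 (x • dir b f 0 + y • dir b f 1 + z • dir b f 2) = x ∧
    cf F h3 f 1 (x • dir b f 0 + y • dir b f 1 + z • dir b f 2) = y ∧
    cf F h3 f 2 (x • dir b f 0 + y • dir b f 1 + z • dir b f 2) = z := by
  simp only [map_add, map_smul, cf_dir, smul_eq_mul]
  refine ⟨?_, ?_, ?_⟩ <;> simp

/-- the gauge functional of a flag -/
noncomputable def wf (f : Flg P c) : E →L[ℝ] ℝ := cf F h3 f 0 + cf F h3 f 1 + cf F h3 f 2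

theorem wf_apply (f : Flg P c) (u : E) :
    wf F h3 f u = cf F h3 f 0 u + cf F h3 f 1 u + cf F h3 f 2 u := rfl

theorem fpt_cf (f : Flg P c) (u : E) :
    fpt b f (cf F h3 f 0 u) (cf F h3 f 1 u) (cf F h3 f 2 u) = b {c} + u := by
  rw [fpt, cf_sum]

omit F in
theorem dir_sw_zero (f : Flg P c) : dir b f.sw 0 = dir b f 0 := rfl

omit F in
theorem dir_sw_two (f : Flg P c) : dir b f.sw 2 = dir b f 2 := by
  have e : ({c, f.a1, f.a3, f.a2} : Set I) = {c, f.a1, f.a2, f.a3} := by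
    ext x; simp only [mem_insert_iff, mem_singleton_iff]; tauto
  change b {c, f.a1, f.a3, f.a2} - b {c} = _
  rw [e]; rfl

/-- **the change of coordinates between the two flags of a quadrilateral** -/
theorem cf_sw (hQ : Quads P b) (f : Flg P c) : ∃ l m : ℝ, 0 ≤ l ∧ 0 < m ∧ l - m < 1 ∧ ∀ u,
    cf F h3 f.sw 0 u = cf F h3 f 0 u + l * cf F h3 f 1 u ∧
    cf F h3 f.sw 1 u = -(m * cf F h3 f 1 u) ∧
    cf F h3 f.sw 2 u = cf F h3 f 2 u + (1 - l + m) * cf F h3 f 1 u := by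
  have n1 := f.h1
  have n2 := f.h2
  have n3 := f.h3
  have n12 := f.h12
  have n13 := f.h13
  have n23 := f.h23
  have s1 : insert f.a3 (insert f.a2 {c, f.a1}) = ({c, f.a1, f.a2, f.a3} : Set I) := by
    ext x; simp only [mem_insert_iff, mem_singleton_iff]; tauto
  have s2 : insert f.a3 {c, f.a1} = ({c, f.a1, f.a3} : Set I) := by
    ext x; simp only [mem_insert_iff, mem_singleton_iff]; tauto
  have s3 : insert f.a2 {c, f.a1} = ({c, f.a1, f.a2} : Set I) := by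
    ext x; simp only [mem_insert_iff, mem_singleton_iff]; tauto
  obtain ⟨-, x, y, hx, hy, hxy, hv⟩ := hQ {c, f.a1} f.a2 f.a3 (ncard_pair n1.symm)
    (by simp [n2, n12.symm]) (by simp [n3, n13.symm]) n23 (by rw [s1]; exact f.ne)
  rw [s1, s2, s3] at hv
  refine ⟨(x + y - 1) / y, x / y, by apply div_nonneg <;> linarith, by positivity, ?_, fun u => ?_⟩
  · rw [← sub_div, div_lt_one hy]; linarith
  have hd : dir b f 1 = ((x + y - 1) / y) • dir b f.sw 0 + (-(x / y)) • dir b f.sw 1 +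
      (1 - (x + y - 1) / y + x / y) • dir b f.sw 2 := by
    have e0 : dir b f.sw 0 = b {c, f.a1} - b {c} := rfl
    have e1 : dir b f.sw 1 = b {c, f.a1, f.a3} - b {c} := rfl
    have e2 : dir b f.sw 2 = b {c, f.a1, f.a2, f.a3} - b {c} := dir_sw_two f
    have e3 : dir b f 1 = b {c, f.a1, f.a2} - b {c} := rfl
    rw [e0, e1, e2, e3]
    have h5 : b {c, f.a1, f.a2, f.a3} = b {c, f.a1} + (x • (b {c, f.a1, f.a3} - b {c, f.a1}) +
        y • (b {c, f.a1, f.a2} - b {c, f.a1})) := by rw [← hv]; abel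
    rw [h5]
    have hy' := hy.ne'
    match_scalars <;> (field_simp; ring)
  have hu : u = (cf F h3 f 0 u + (x + y - 1) / y * cf F h3 f 1 u) • dir b f.sw 0 +
      (-(x / y * cf F h3 f 1 u)) • dir b f.sw 1 +
      (cf F h3 f 2 u + (1 - (x + y - 1) / y + x / y) * cf F h3 f 1 u) • dir b f.sw 2 := by
    conv_lhs => rw [← cf_sum F h3 f u, hd, ← dir_sw_zero f, ← dir_sw_two f]
    module
  have := cf_comb F h3 f.sw (cf F h3 f 0 u + (x + y - 1) / y * cf F h3 f 1 u)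
    (-(x / y * cf F h3 f 1 u)) (cf F h3 f 2 u + (1 - (x + y - 1) / y + x / y) * cf F h3 f 1 u)
  rw [← hu] at this
  exact this

/-! ### the flags cover -/

theorem finite_flg (c : I) : Finite (Flg P c) := by
  classical
  have hfin := finite_touch F c
  set S := {a | (P a ∩ P c).Nonempty} with hS
  have : Finite S := hfin
  have hm : ∀ (f : Flg P c), f.a1 ∈ S ∧ f.a2 ∈ S ∧ f.a3 ∈ S := by
    intro f
    obtain ⟨y, hy⟩ := f.ne
    rw [mem_fc] at hy
    exact ⟨⟨y, hy _ (by simp), hy _ (by simp)⟩, ⟨y, hy _ (by simp), hy _ (by simp)⟩,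
      ⟨y, hy _ (by simp), hy _ (by simp)⟩⟩
  let g : Flg P c → S × S × S := fun f => (⟨f.a1, (hm f).1⟩, ⟨f.a2, (hm f).2.1⟩, ⟨f.a3, (hm f).2.2⟩)
  refine Finite.of_injective g fun f f' h => ?_
  simp only [g, Prod.mk.injEq, Subtype.mk.injEq] at h
  cases f; cases f'
  simp only [Flg.mk.injEq]
  exact h

/-- a ball around the centre is inside the cell -/
theorem exists_ball (c : I) (hc : (P c).Nonempty) : ∃ r > 0, Metric.ball (b {c}) r ⊆ P c := by
  have hfc : (fc P {c}).Nonempty := by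
    obtain ⟨y, hy⟩ := hc
    exact ⟨y, by rw [mem_fc]; simpa using hy⟩
  have h1 := F.act_b (singleton_nonempty c) hfc
  have hL : b {c} ∈ La := F.fc_sub_La (singleton_nonempty c) (F.mem _ (singleton_nonempty c) hfc)
  obtain ⟨r, hr, hf⟩ := F.lf _ hL
  obtain ⟨r', hr', hb⟩ := Metric.isOpen_iff.1 F.op _ hL
  have hcl : IsClosed (⋃ a ∈ {a | (P a ∩ Metric.ball (b {c}) r).Nonempty} \ {c}, P a) :=
    (hf.subset sdiff_subset).isClosed_biUnion fun a _ => (F.cpt a).isClosed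
  have hn : b {c} ∉ ⋃ a ∈ {a | (P a ∩ Metric.ball (b {c}) r).Nonempty} \ {c}, P a := by
    intro h
    obtain ⟨a, ha, hy⟩ := mem_iUnion₂.1 h
    have : a ∈ act P (b {c}) := hy
    rw [h1] at this
    exact ha.2 this
  obtain ⟨r2, hr2, hb2⟩ := Metric.isOpen_iff.1 hcl.isOpen_compl _ hn
  refine ⟨min r (min r' r2), lt_min hr (lt_min hr' hr2), fun y hy => ?_⟩
  have y1 := Metric.ball_subset_ball (min_le_left _ _) hy
  have y2 := Metric.ball_subset_ball ((min_le_right _ _).trans (min_le_left _ _)) hy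
  have y3 := Metric.ball_subset_ball ((min_le_right _ _).trans (min_le_right _ _)) hy
  obtain ⟨a, ha⟩ := F.cov y (hb y2)
  by_cases hac : a = c
  · rw [← hac]; exact ha
  · exfalso
    exact hb2 y3 (mem_iUnion₂.2 ⟨a, ⟨⟨y, ha, y1⟩, hac⟩, ha⟩)

/-- a point with full support lies in the simplex of a flag -/
theorem exists_of_full {f : Flg P c} {y : E} (hy : y ∈ P c)
    (hs : ∀ a, sc P b y a < 1 → a = c ∨ a = f.a1 ∨ a = f.a2 ∨ a = f.a3) :
    ∃ g : Flg P c, ∃ x1 x2 x3 : ℝ, 0 ≤ x1 ∧ 0 ≤ x2 ∧ 0 ≤ x3 ∧ y = fpt b g x1 x2 x3 := by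
  have hyL := F.sub c hy
  have hK := F.sc_mem_K hyL
  have h0 : sc P b y c = 0 := (F.sc_eq_zero hyL).2 hy
  set s := sc P b y with hsdef
  have hs01 : ∀ a, 0 ≤ s a ∧ s a ≤ 1 := fun a => hK.1 a
  -- sorted permutation
  obtain ⟨g, hg, l12, l23⟩ : ∃ g : Flg P c, (∀ a, s a < 1 → a = c ∨ a = g.a1 ∨ a = g.a2 ∨ a = g.a3) ∧
      s g.a1 ≤ s g.a2 ∧ s g.a2 ≤ s g.a3 := by
    have hperm : ∀ x1 x2 x3 : I, ({x1, x2, x3} : Set I) = {f.a1, f.a2, f.a3} → x1 ≠ x2 → x1 ≠ x3 →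
        x2 ≠ x3 → s x1 ≤ s x2 → s x2 ≤ s x3 → ∃ g : Flg P c,
        (∀ a, s a < 1 → a = c ∨ a = g.a1 ∨ a = g.a2 ∨ a = g.a3) ∧
        s g.a1 ≤ s g.a2 ∧ s g.a2 ≤ s g.a3 := by
      intro x1 x2 x3 hX n12 n13 n23 l1 l2
      have hmem : ∀ a, a ∈ ({x1, x2, x3} : Set I) ↔ a ∈ ({f.a1, f.a2, f.a3} : Set I) := fun a => by
        rw [hX]
      have hne : ∀ a ∈ ({x1, x2, x3} : Set I), a ≠ c := by
        intro a ha
        rw [hmem] at ha
        rcases ha with rfl | rfl | rfl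
        · exact f.h1
        · exact f.h2
        · exact f.h3
      refine ⟨⟨x1, x2, x3, hne _ (by simp), hne _ (by simp), hne _ (by simp), n12, n13, n23, ?_⟩,
        ?_, l1, l2⟩
      · have : ({c, x1, x2, x3} : Set I) = {c, f.a1, f.a2, f.a3} := by rw [hX]
        rw [this]; exact f.ne
      · intro a ha
        have := hs a ha
        by_cases hac : a = c
        · exact Or.inl hac
        · right
          have h2 : a ∈ ({f.a1, f.a2, f.a3} : Set I) := by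
            simp only [mem_insert_iff, mem_singleton_iff]; tauto
          rw [← hmem] at h2
          simpa only [mem_insert_iff, mem_singleton_iff] using h2
    have c123 : ({f.a1, f.a3, f.a2} : Set I) = {f.a1, f.a2, f.a3} := by
      ext; simp only [mem_insert_iff, mem_singleton_iff]; tauto
    have c213 : ({f.a2, f.a1, f.a3} : Set I) = {f.a1, f.a2, f.a3} := by
      ext; simp only [mem_insert_iff, mem_singleton_iff]; tauto
    have c231 : ({f.a2, f.a3, f.a1} : Set I) = {f.a1, f.a2, f.a3} := by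
      ext; simp only [mem_insert_iff, mem_singleton_iff]; tauto
    have c312 : ({f.a3, f.a1, f.a2} : Set I) = {f.a1, f.a2, f.a3} := by
      ext; simp only [mem_insert_iff, mem_singleton_iff]; tauto
    have c321 : ({f.a3, f.a2, f.a1} : Set I) = {f.a1, f.a2, f.a3} := by
      ext; simp only [mem_insert_iff, mem_singleton_iff]; tauto
    rcases le_total (s f.a1) (s f.a2) with u1 | u1 <;> rcases le_total (s f.a2) (s f.a3) with u2 | u2
    · exact hperm _ _ _ rfl f.h12 f.h13 f.h23 u1 u2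
    · rcases le_total (s f.a1) (s f.a3) with u3 | u3
      · exact hperm _ _ _ c123 f.h13 f.h12 f.h23.symm u3 u2
      · exact hperm _ _ _ c312 f.h13.symm f.h23.symm f.h12 u3 u1
    · rcases le_total (s f.a1) (s f.a3) with u3 | u3
      · exact hperm _ _ _ c213 f.h12.symm f.h23 f.h13 u1 u3
      · exact hperm _ _ _ c231 f.h23 f.h12.symm f.h13.symm u2 u3
    · exact hperm _ _ _ c321 f.h23.symm f.h13.symm f.h12.symm u2 u1
  refine ⟨g, s g.a2 - s g.a1, s g.a3 - s g.a2, 1 - s g.a3, by linarith, by linarith,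
    by linarith [(hs01 g.a3).2], ?_⟩
  have hsum : s g.a2 - s g.a1 + (s g.a3 - s g.a2) + (1 - s g.a3) ≤ 1 := by
    linarith [(hs01 g.a1).1]
  obtain ⟨q0, q1, q2, q3, q4⟩ := sc_fpt F g (x := s g.a2 - s g.a1) (y := s g.a3 - s g.a2)
    (z := 1 - s g.a3) (by linarith) (by linarith) (by linarith [(hs01 g.a3).2]) hsum
  set y' := fpt b g (s g.a2 - s g.a1) (s g.a3 - s g.a2) (1 - s g.a3) with hy'
  have heq : sc P b y' = s := by
    funext a
    by_cases a0 : a = c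
    · subst a0; rw [q0, h0]
    by_cases a1 : a = g.a1
    · subst a1; rw [q1]; ring
    by_cases a2 : a = g.a2
    · subst a2; rw [q2]; ring
    by_cases a3 : a = g.a3
    · subst a3; rw [q3]; ring
    rw [q4 a a0 a1 a2 a3]
    by_contra h
    have := hg a (lt_of_le_of_ne (hs01 a).2 (Ne.symm h))
    tauto
  -- y' is in P c
  have hy'c : y' ∈ P c := by
    have hm : ∀ A : Set I, c ∈ A → A ⊆ {c, g.a1, g.a2, g.a3} → b A ∈ P c := fun A hA hA' =>
      mem_fc.1 (F.mem A ⟨c, hA⟩ (g.ne.mono (fc_anti hA'))) c hA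
    have h1 : y' = (1 - ((s g.a2 - s g.a1) + (s g.a3 - s g.a2) + (1 - s g.a3))) • b {c} +
        (s g.a2 - s g.a1) • b {c, g.a1} + (s g.a3 - s g.a2) • b {c, g.a1, g.a2} +
        (1 - s g.a3) • b {c, g.a1, g.a2, g.a3} := by
      rw [hy', fpt]
      simp only [dir, Matrix.cons_val_zero, Matrix.cons_val_one, Matrix.cons_val]
      module
    rw [h1]
    have m0 := hm {c} (by simp) (by intro x; simp only [mem_insert_iff, mem_singleton_iff]; tauto)
    have m1 := hm {c, g.a1} (by simp)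
      (by intro x; simp only [mem_insert_iff, mem_singleton_iff]; tauto)
    have m2 := hm {c, g.a1, g.a2} (by simp)
      (by intro x; simp only [mem_insert_iff, mem_singleton_iff]; tauto)
    have m3 := hm {c, g.a1, g.a2, g.a3} (by simp) subset_rfl
    have hcv := (F.cvx c).sum_mem (t := Finset.univ)
      (w := ![1 - ((s g.a2 - s g.a1) + (s g.a3 - s g.a2) + (1 - s g.a3)), s g.a2 - s g.a1,
        s g.a3 - s g.a2, 1 - s g.a3])
      (z := ![b {c}, b {c, g.a1}, b {c, g.a1, g.a2}, b {c, g.a1, g.a2, g.a3}])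
      (by
        intro i _
        have := (hs01 g.a1).1
        have := (hs01 g.a3).2
        fin_cases i <;> simp <;> linarith)
      (by simp [Fin.sum_univ_succ])
      (by
        intro i _
        fin_cases i <;> simp <;> assumption)
    simp only [Fin.sum_univ_succ, Matrix.cons_val_zero, Matrix.cons_val_succ,
      Finset.univ_unique, Fin.default_eq_zero, Matrix.cons_val_fin_one, Finset.sum_const,
      Finset.card_singleton, one_smul] at hcv
    rw [← add_assoc, ← add_assoc] at hcv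
    exact hcv
  rw [← F.T_sc hyL, ← F.T_sc (F.sub c hy'c), heq]

theorem mem_span_of_small {y : E} (hy : y ∈ P c) {a1 a2 : I}
    (hfc : (fc P {c, a1, a2}).Nonempty) (hs : ∀ a, sc P b y a < 1 → a = c ∨ a = a1 ∨ a = a2)
    (h12 : sc P b y a1 ≤ sc P b y a2) :
    y - b {c} ∈ Submodule.span ℝ {b {c, a1} - b {c}, b {c, a1, a2} - b {c}} := by
  classical
  have hyL := F.sub c hy
  have hK := F.sc_mem_K hyL
  have h0 : sc P b y c = 0 := (F.sc_eq_zero hyL).2 hy
  set s := sc P b y with hsdef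
  have hs01 : ∀ a, 0 ≤ s a ∧ s a ≤ 1 := fun a => hK.1 a
  let A : Fin 3 → Set I := ![{c}, {c, a1}, {c, a1, a2}]
  let w : Fin 3 → ℝ := ![s a1, s a2 - s a1, 1 - s a2]
  have hA : Monotone A := by
    refine Fin.monotone_iff_le_succ.2 fun i => ?_
    fin_cases i <;> (intro a ha; simp [A] at ha ⊢; tauto)
  have hw : ∀ i, 0 ≤ w i := by
    intro i
    have := (hs01 a1).1
    have := (hs01 a2).2
    fin_cases i <;> simp [w] <;> linarith
  have hsum : ∑ i, w i = 1 := by simp [w, Fin.sum_univ_succ]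
  set y' : E := ∑ i, w i • b (A i) with hy'
  have hkey : ∀ a, sc P b y' a = ∑ i, if a ∈ A i then 0 else w i := fun a =>
    sc_chain F A hA ⟨c, by simp [A]⟩ hfc w hw hsum a
  have hyc : y' ∈ P c := (F.cvx c).sum_mem (fun i _ => hw i) hsum fun i _ => by
    have hc : c ∈ A i := by fin_cases i <;> simp [A]
    exact mem_fc.1 (F.mem (A i) ⟨c, hc⟩ (hfc.mono (fc_anti (hA (Fin.le_last i))))) c hc
  have heq : sc P b y' = s := by
    funext a
    rw [hkey]
    by_cases a0 : a = c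
    · subst a0; simp [A, h0, Fin.sum_univ_succ]
    by_cases e1 : a = a1
    · subst e1; simp [A, w, Fin.sum_univ_succ, a0]
    by_cases e2 : a = a2
    · subst e2; simp [A, w, Fin.sum_univ_succ, a0, e1]
    have : s a = 1 := by
      by_contra h
      have := hs a (lt_of_le_of_ne (hs01 a).2 h)
      tauto
    rw [this]
    simp [A, w, Fin.sum_univ_succ, a0, e1, e2]
  have hyy : y = y' := by rw [← F.T_sc hyL, ← F.T_sc (F.sub c hyc), heq]
  have h5 : y - b {c} = (s a2 - s a1) • (b {c, a1} - b {c}) +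
      (1 - s a2) • (b {c, a1, a2} - b {c}) := by
    rw [hyy, hy']
    simp only [w, A, Fin.sum_univ_succ, Fin.isValue, Matrix.cons_val_zero,
      Matrix.cons_val_succ, Finset.univ_unique, Fin.default_eq_zero, Matrix.cons_val_fin_one,
      Finset.sum_const, Finset.card_singleton, one_smul]
    module
  rw [h5]
  exact add_mem (Submodule.smul_mem _ _ (Submodule.subset_span (by simp)))
    (Submodule.smul_mem _ _ (Submodule.subset_span (by simp)))

/-- **the cones of the flags cover the space** -/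
theorem exists_flag (hN : N ≤ 4) (c : I) (hc : (P c).Nonempty) (u : E) :
    ∃ f : Flg P c, ∀ k, 0 ≤ cf F h3 f k u := by
  classical
  by_contra hcon
  have := fd_of h3
  have := finite_flg F c
  obtain ⟨r, hr, hball⟩ := exists_ball F c hc
  set C : Set E := ⋃ f : Flg P c, {u | ∀ k, 0 ≤ cf F h3 f k u} with hC
  have hCc : IsClosed C := isClosed_iUnion_of_finite fun f => by
    have : {u | ∀ k, 0 ≤ cf F h3 f k u} = ⋂ k, {u | 0 ≤ cf F h3 f k u} := by ext; simp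
    rw [this]
    exact isClosed_iInter fun k => isClosed_le continuous_const (cf F h3 f k).continuous
  have huC : u ∉ C := by
    rw [hC]; simp only [mem_iUnion, mem_ofPred_eq]; exact hcon
  set V : Set E := Cᶜ ∩ Metric.ball 0 r with hV
  have hVo : IsOpen V := hCc.isOpen_compl.inter Metric.isOpen_ball
  have hVne : V.Nonempty := by
    have h1 : ‖u‖ + 1 > 0 := by positivity
    refine ⟨(r / (2 * (‖u‖ + 1))) • u, ?_, ?_⟩
    · intro h
      apply huC
      rw [hC] at h ⊢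
      simp only [mem_iUnion, mem_ofPred_eq] at h ⊢
      obtain ⟨f, hf⟩ := h
      refine ⟨f, fun k => ?_⟩
      have := hf k
      rw [map_smul, smul_eq_mul] at this
      exact nonneg_of_mul_nonneg_right this (by positivity)
    · rw [mem_ball_zero_iff, norm_smul, Real.norm_eq_abs, abs_of_pos (by positivity)]
      rw [div_mul_eq_mul_div, div_lt_iff₀ (by positivity)]
      have := norm_nonneg u
      nlinarith
  have hfin := finite_touch F c
  set S := {a | (P a ∩ P c).Nonempty} with hS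
  have hsub : V ⊆ ⋃ p ∈ S ×ˢ S, (Submodule.span ℝ {b {c, p.1} - b {c}, b {c, p.1, p.2} - b {c}} :
      Set E) := by
    rintro x ⟨hxC, hxr⟩
    set y := b {c} + x with hy
    have hyP : y ∈ P c := hball (by
      rw [Metric.mem_ball, dist_eq_norm, hy, add_sub_cancel_left]
      exact mem_ball_zero_iff.1 hxr)
    have hyL := F.sub c hyP
    have hK := F.sc_mem_K hyL
    have h0 : sc P b y c = 0 := (F.sc_eq_zero hyL).2 hyP
    set L := {a | sc P b y a < 1} with hL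
    have hcL : c ∈ L := by rw [hL, mem_ofPred_eq, h0]; exact one_pos
    obtain ⟨z, hz⟩ := hK.2.2
    have hzL : z ∈ La := F.fc_sub_La ⟨c, hcL⟩ hz
    have hLz : L ⊆ act P z := mem_fc'.1 hz
    have hLf : L.Finite := (F.finite_act hzL).subset hLz
    have hL4 : L.ncard ≤ 4 := (ncard_le_ncard hLz (F.finite_act hzL)).trans ((F.card z hzL).trans hN)
    have hSL : ∀ a ∈ L, a ∈ S := fun a ha => ⟨z, mem_fc.1 hz a ha, mem_fc.1 hz c hcL⟩
    have hD : (L \ {c}).ncard ≤ 3 := by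
      have := ncard_sdiff_singleton_of_mem hcL
      omega
    have hyx : x = y - b {c} := by rw [hy, add_sub_cancel_left]
    have main : ∀ p q : I, p ∈ L → q ∈ L → (∀ a ∈ L, a = c ∨ a = p ∨ a = q) →
        x ∈ ⋃ p ∈ S ×ˢ S, (Submodule.span ℝ {b {c, p.1} - b {c}, b {c, p.1, p.2} - b {c}} :
          Set E) := by
      intro p q hp hq hall
      rcases le_total (sc P b y p) (sc P b y q) with h | h
      · refine mem_iUnion₂.2 ⟨(p, q), ⟨hSL p hp, hSL q hq⟩, ?_⟩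
        rw [hyx]
        exact mem_span_of_small F hyP ⟨z, fc_anti (A := {c, p, q}) (A' := L) (by
          rintro a (rfl | rfl | rfl) <;> assumption) hz⟩ hall h
      · refine mem_iUnion₂.2 ⟨(q, p), ⟨hSL q hq, hSL p hp⟩, ?_⟩
        rw [hyx]
        exact mem_span_of_small F hyP ⟨z, fc_anti (A := {c, q, p}) (A' := L) (by
          rintro a (rfl | rfl | rfl) <;> assumption) hz⟩ (fun a ha => by
            have := hall a ha; tauto) h
    have hmemD : ∀ a, a ∈ L \ {c} ↔ a ∈ L ∧ a ≠ c := fun a => by simp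
    have hD' : (L \ {c}).ncard = 0 ∨ (L \ {c}).ncard = 1 ∨ (L \ {c}).ncard = 2 ∨
        (L \ {c}).ncard = 3 := by omega
    rcases hD' with h | h | h | h
    · rw [ncard_eq_zero (hLf.subset sdiff_subset)] at h
      refine main c c hcL hcL fun a ha => ?_
      by_contra hn
      have : a ∈ L \ {c} := (hmemD a).2 ⟨ha, fun e => hn (Or.inl e)⟩
      rw [h] at this
      exact this
    · obtain ⟨p, hp⟩ := ncard_eq_one.1 h
      have hpL : p ∈ L \ {c} := by rw [hp]; simp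
      refine main p p hpL.1 hpL.1 fun a ha => ?_
      by_cases hac : a = c
      · exact Or.inl hac
      · have : a ∈ L \ {c} := (hmemD a).2 ⟨ha, hac⟩
        rw [hp] at this
        exact Or.inr (Or.inl this)
    · obtain ⟨p, q, -, hpq⟩ := ncard_eq_two.1 h
      have hpL : p ∈ L \ {c} := by rw [hpq]; simp
      have hqL : q ∈ L \ {c} := by rw [hpq]; simp
      refine main p q hpL.1 hqL.1 fun a ha => ?_
      by_cases hac : a = c
      · exact Or.inl hac
      · have : a ∈ L \ {c} := (hmemD a).2 ⟨ha, hac⟩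
        rw [hpq] at this
        exact Or.inr this
    · exfalso
      obtain ⟨p, q, t, n1, n2, n3, hpqt⟩ := ncard_eq_three.1 h
      have hpL : p ∈ L \ {c} := by rw [hpqt]; simp
      have hqL : q ∈ L \ {c} := by rw [hpqt]; simp
      have htL : t ∈ L \ {c} := by rw [hpqt]; simp
      let f : Flg P c := ⟨p, q, t, hpL.2, hqL.2, htL.2, n1, n2, n3, ⟨z, fc_anti (A' := L) (by
        rintro a (rfl | rfl | rfl | rfl)
        · exact hcL
        · exact hpL.1
        · exact hqL.1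
        · exact htL.1) hz⟩⟩
      obtain ⟨g, x1, x2, x3, e1, e2, e3, hyg⟩ := exists_of_full F (f := f) hyP (by
        intro a ha
        by_cases hac : a = c
        · exact Or.inl hac
        · have : a ∈ L \ {c} := (hmemD a).2 ⟨ha, hac⟩
          rw [hpqt] at this
          exact Or.inr this)
      apply hxC
      rw [hC]
      refine mem_iUnion.2 ⟨g, fun k => ?_⟩
      have hx' : x = x1 • dir b g 0 + x2 • dir b g 1 + x3 • dir b g 2 := by
        rw [hyx, hyg, fpt, add_sub_cancel_left]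
      have hc' := cf_comb F h3 g x1 x2 x3
      rw [← hx'] at hc'
      fin_cases k
      · show 0 ≤ cf F h3 g 0 x
        rw [hc'.1]; exact e1
      · show 0 ≤ cf F h3 g 1 x
        rw [hc'.2.1]; exact e2
      · show 0 ≤ cf F h3 g 2 x
        rw [hc'.2.2]; exact e3
  -- measure
  borelize E
  have : ProperSpace E := FiniteDimensional.proper ℝ E
  let μ : MeasureTheory.Measure E := MeasureTheory.Measure.addHaar
  have h1 : 0 < μ V := hVo.measure_pos μ hVne
  have h2 : μ V = 0 := by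
    refine MeasureTheory.measure_mono_null hsub ?_
    rw [MeasureTheory.measure_biUnion_null_iff (hfin.prod hfin).countable]
    rintro ⟨p, q⟩ -
    refine MeasureTheory.Measure.addHaar_submodule μ _ fun htop => ?_
    have h4 := finrank_span_finset_le_card (R := ℝ)
      ({b {c, p} - b {c}, b {c, p, q} - b {c}} : Finset E)
    rw [Finset.coe_pair, Set.finrank] at h4
    simp only at htop
    rw [htop, finrank_top, h3] at h4
    have := (Finset.card_le_two (a := b {c, p} - b {c}) (b := b {c, p, q} - b {c}))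
    omega
  exact h1.ne' h2

end main

end Crest.Agent.R096.Fbr_628
end

-- ▼ part R096/Fbr2_628
section

/-!
# Row 96, FAN (helper628), part 2: the fan of a brick

The cones, with centre `b {c}`, over the cells `T ([j/M,(j+1)/M] × [i/M,(i+1)/M])` of the boundary of
the cell `c`: four linear inequalities `ineq F h3 t k u ≤ 0`; they cover, are disjoint, and the
functional `wf` is the gauge of `P c - b {c}`.
-/

set_option autoImplicit false
set_option linter.unusedSectionVars false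

open Set

namespace Crest.Agent.R096.Fbr_628

open Crest.Agent.R096.Brk1_582 Crest.Agent.R096.Brk2_582 Crest.Agent.R096.Grd_714

/-- the cells of the boundary: a flag and `j ≤ i`; on the diagonal the order of `a2, a3` is fixed -/
def Tc {E I : Type*} (P : I → Set E) (c : I) (M : ℕ) : Type _ :=
  {t : Flg P c × Fin M × Fin M // t.2.1 < t.2.2 ∨ (t.2.1 = t.2.2 ∧ WellOrderingRel t.1.a2 t.1.a3)}

section main

variable {E : Type*} [NormedAddCommGroup E] [NormedSpace ℝ E] [CompleteSpace E] {I : Type*}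
variable {La : Set E} {P : I → Set E} {b : Set I → E} {N : ℕ} {c : I}

theorem finite_Tc (F : Foam La P b N) (c : I) (M : ℕ) : Finite (Tc P c M) := by
  have := finite_flg F c
  unfold Tc
  infer_instance

variable (F : Foam La P b N) (h3 : Module.finrank ℝ E = 3)

theorem wf_sw (hQ : Quads P b) (f : Flg P c) (u : E) : wf F h3 f.sw u = wf F h3 f u := by
  obtain ⟨l, m, -, -, -, h⟩ := cf_sw F h3 hQ f
  obtain ⟨e0, e1, e2⟩ := h u
  rw [wf_apply, wf_apply, e0, e1, e2]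
  ring

/-- points of the cone of a flag, projected to the boundary -/
theorem proj_mem (f : Flg P c) {u : E} (h0 : 0 ≤ cf F h3 f 0 u) (h1 : 0 ≤ cf F h3 f 1 u)
    (h2 : 0 ≤ cf F h3 f 2 u) (hw : 0 < wf F h3 f u) :
    b {c} + (wf F h3 f u)⁻¹ • u ∈ fc P {c, f.a1} ∧
      sc P b (b {c} + (wf F h3 f u)⁻¹ • u) c = 0 ∧
      sc P b (b {c} + (wf F h3 f u)⁻¹ • u) f.a1 = 0 ∧
      sc P b (b {c} + (wf F h3 f u)⁻¹ • u) f.a2 = cf F h3 f 0 u / wf F h3 f u ∧
      sc P b (b {c} + (wf F h3 f u)⁻¹ • u) f.a3 = (cf F h3 f 0 u + cf F h3 f 1 u) / wf F h3 f u ∧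
      ∀ a, a ≠ c → a ≠ f.a1 → a ≠ f.a2 → a ≠ f.a3 →
        sc P b (b {c} + (wf F h3 f u)⁻¹ • u) a = 1 := by
  set w := wf F h3 f u with hwdef
  have hsum : cf F h3 f 0 u + cf F h3 f 1 u + cf F h3 f 2 u = w := (wf_apply F h3 f u).symm
  have hS : w⁻¹ * cf F h3 f 0 u + w⁻¹ * cf F h3 f 1 u + w⁻¹ * cf F h3 f 2 u = 1 := by
    rw [← mul_add, ← mul_add, hsum, inv_mul_cancel₀ hw.ne']
  have hi : 0 < w⁻¹ := inv_pos.2 hw
  have hpt : b {c} + w⁻¹ • u = fpt b f (w⁻¹ * cf F h3 f 0 u) (w⁻¹ * cf F h3 f 1 u)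
      (w⁻¹ * cf F h3 f 2 u) := by
    rw [← fpt_cf F h3 f]
    simp only [map_smul, smul_eq_mul]
  obtain ⟨q0, q1, q2, q3, q4⟩ := sc_fpt F f (mul_nonneg hi.le h0) (mul_nonneg hi.le h1)
    (mul_nonneg hi.le h2) hS.le
  rw [← hpt] at q0 q1 q2 q3 q4
  have hmem : b {c} + w⁻¹ • u ∈ fc P {c, f.a1} := by
    have hm : ∀ A : Set I, ({c, f.a1} : Set I) ⊆ A → A ⊆ {c, f.a1, f.a2, f.a3} →
        b A ∈ fc P {c, f.a1} := fun A hA hA' =>
      fc_anti hA (F.mem A ⟨c, hA (by simp)⟩ (f.ne.mono (fc_anti hA')))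
    have m1 := hm {c, f.a1} subset_rfl
      (by intro x; simp only [mem_insert_iff, mem_singleton_iff]; tauto)
    have m2 := hm {c, f.a1, f.a2}
      (by intro x; simp only [mem_insert_iff, mem_singleton_iff]; tauto)
      (by intro x; simp only [mem_insert_iff, mem_singleton_iff]; tauto)
    have m3 := hm {c, f.a1, f.a2, f.a3}
      (by intro x; simp only [mem_insert_iff, mem_singleton_iff]; tauto) subset_rfl
    have e : b {c} + w⁻¹ • u = (w⁻¹ * cf F h3 f 0 u) • b {c, f.a1} +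
        (w⁻¹ * cf F h3 f 1 u) • b {c, f.a1, f.a2} +
        (w⁻¹ * cf F h3 f 2 u) • b {c, f.a1, f.a2, f.a3} := by
      rw [hpt, fpt]
      simp only [dir, Matrix.cons_val_zero, Matrix.cons_val_one, Matrix.cons_val]
      have h5 : b {c} = (w⁻¹ * cf F h3 f 0 u + w⁻¹ * cf F h3 f 1 u + w⁻¹ * cf F h3 f 2 u) • b {c} := by
        rw [hS, one_smul]
      nth_rw 1 [h5]
      module
    rw [e]
    have := F.convex_fc (A := {c, f.a1}).sum_mem (t := Finset.univ)
      (w := ![w⁻¹ * cf F h3 f 0 u, w⁻¹ * cf F h3 f 1 u, w⁻¹ * cf F h3 f 2 u])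
      (z := ![b {c, f.a1}, b {c, f.a1, f.a2}, b {c, f.a1, f.a2, f.a3}])
      (by
        intro i _
        have t0 := mul_nonneg hi.le h0
        have t1 := mul_nonneg hi.le h1
        have t2 := mul_nonneg hi.le h2
        fin_cases i <;> simp <;> assumption)
      (by rw [Fin.sum_univ_three]; exact hS)
      (by
        intro i _
        fin_cases i <;> simp <;> assumption)
    rw [Fin.sum_univ_three] at this
    exact this
  refine ⟨hmem, q0, ?_, ?_, ?_, q4⟩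
  · rw [q1, hS]; ring
  · rw [q2, div_eq_inv_mul]
    linarith
  · rw [q3, div_eq_inv_mul, mul_add]
    linarith

/-- **the gauge functional of a flag is at most one on the cell** -/
theorem wf_le_one (f : Flg P c) {z : E} (hz : z ∈ P c) : wf F h3 f (z - b {c}) ≤ 1 := by
  by_contra hcon
  push Not at hcon
  -- an interior point of the triangle of `f`
  set q : E := (1 / 3 : ℝ) • dir b f 0 + (1 / 3 : ℝ) • dir b f 1 + (1 / 3 : ℝ) • dir b f 2 with hq
  obtain ⟨c0, c1, c2⟩ := cf_comb F h3 f (1 / 3) (1 / 3) (1 / 3)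
  rw [← hq] at c0 c1 c2
  set v : E := z - b {c} with hv
  -- a small step towards `z`
  obtain ⟨τ, hτ0, hτ1, k0, k1, k2⟩ : ∃ τ : ℝ, 0 < τ ∧ τ < 1 ∧ 0 ≤ cf F h3 f 0 ((1 - τ) • q + τ • v) ∧
      0 ≤ cf F h3 f 1 ((1 - τ) • q + τ • v) ∧ 0 ≤ cf F h3 f 2 ((1 - τ) • q + τ • v) := by
    set B : ℝ := |cf F h3 f 0 v| + |cf F h3 f 1 v| + |cf F h3 f 2 v| with hB
    have hB0 : 0 ≤ B := by positivity
    have n0 := neg_abs_le (cf F h3 f 0 v)
    have n1 := neg_abs_le (cf F h3 f 1 v)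
    have n2 := neg_abs_le (cf F h3 f 2 v)
    have a0 := abs_nonneg (cf F h3 f 0 v)
    have a1 := abs_nonneg (cf F h3 f 1 v)
    have a2 := abs_nonneg (cf F h3 f 2 v)
    refine ⟨1 / (6 * (B + 1)), by positivity, ?_, ?_, ?_, ?_⟩
    · rw [div_lt_one (by positivity)]; linarith
    all_goals
      have hτ : (0:ℝ) < 1 / (6 * (B + 1)) := by positivity
      have hτ' : 1 / (6 * (B + 1)) * (6 * (B + 1)) = 1 := by field_simp
      simp only [map_add, map_smul, smul_eq_mul, c0, c1, c2]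
      set τ := 1 / (6 * (B + 1))
    · nlinarith
    · nlinarith
    · nlinarith
  set u : E := (1 - τ) • q + τ • v with hu
  have hwu : 1 < wf F h3 f u := by
    have e1 : wf F h3 f q = 1 := by rw [wf_apply, c0, c1, c2]; norm_num
    have e2 : wf F h3 f u = (1 - τ) * 1 + τ * wf F h3 f v := by
      rw [hu, map_add, map_smul, map_smul, e1]; rfl
    rw [e2]
    nlinarith
  obtain ⟨hm, -⟩ := proj_mem F h3 f k0 k1 k2 (by linarith)
  -- the point `b + u` is in the cell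
  have hbc : b {c} + u ∈ P c := by
    have hq' : b {c} + q ∈ P c := by
      have e1 : wf F h3 f q = 1 := by rw [wf_apply, c0, c1, c2]; norm_num
      obtain ⟨h5, -⟩ := proj_mem F h3 f (u := q) (by rw [c0]; norm_num) (by rw [c1]; norm_num)
        (by rw [c2]; norm_num) (by rw [e1]; exact one_pos)
      rw [e1, inv_one, one_smul] at h5
      exact mem_fc.1 h5 c (by simp)
    have e : b {c} + u = (1 - τ) • (b {c} + q) + τ • z := by
      rw [hu, hv]; module
    rw [e]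
    exact (F.cvx c) hq' hz (by linarith) hτ0.le (by ring)
  -- contradiction with `rel`
  have hfc : b {c} + u ∈ fc P {c} := by rw [mem_fc]; simpa using hbc
  have hr := F.rel {c} (singleton_nonempty c) (b {c} + u) hfc (wf F h3 f u)⁻¹
    ⟨inv_nonneg.2 (by linarith), inv_lt_one_of_one_lt₀ hwu⟩
  rw [add_sub_cancel_left] at hr
  have h6 : f.a1 ∈ act P (b {c} + (wf F h3 f u)⁻¹ • u) := mem_fc.1 hm f.a1 (by simp)
  rw [hr] at h6
  exact f.h1 h6

/-! ### the cones -/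

variable {M : ℕ}

/-- the four inequalities of a cell: flag, coefficients of `cf 0`, `cf 1`, and of `wf` -/
noncomputable def dat (t : Tc P c M) : Fin 4 → Flg P c × ℤ × ℤ × ℤ :=
  if t.1.2.1 < t.1.2.2 then
    ![(t.1.1, 1, 0, (t.1.2.1 : ℕ) + 1), (t.1.1, -1, 0, -(t.1.2.1 : ℕ)),
      (t.1.1, 1, 1, (t.1.2.2 : ℕ) + 1), (t.1.1, -1, -1, -(t.1.2.2 : ℕ))]
  else
    ![(t.1.1, -1, 0, -(t.1.2.1 : ℕ)), (t.1.1, 1, 1, (t.1.2.1 : ℕ) + 1),
      (t.1.1.sw, -1, 0, -(t.1.2.1 : ℕ)), (t.1.1.sw, 1, 1, (t.1.2.1 : ℕ) + 1)]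

/-- the four functionals of a cell -/
noncomputable def ineq (t : Tc P c M) (k : Fin 4) : E →L[ℝ] ℝ :=
  (M : ℝ) • (((dat t k).2.1 : ℝ) • cf F h3 (dat t k).1 0 + ((dat t k).2.2.1 : ℝ) • cf F h3 (dat t k).1 1)
    - ((dat t k).2.2.2 : ℝ) • wf F h3 (dat t k).1

theorem ineq_apply (t : Tc P c M) (k : Fin 4) (u : E) : ineq F h3 t k u =
    M * ((dat t k).2.1 * cf F h3 (dat t k).1 0 u + (dat t k).2.2.1 * cf F h3 (dat t k).1 1 u) -
      (dat t k).2.2.2 * wf F h3 (dat t k).1 u := rfl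

theorem ineq_off {t : Tc P c M} (h : t.1.2.1 < t.1.2.2) (u : E) :
    ineq F h3 t 0 u = M * cf F h3 t.1.1 0 u - ((t.1.2.1 : ℕ) + 1) * wf F h3 t.1.1 u ∧
    ineq F h3 t 1 u = (t.1.2.1 : ℕ) * wf F h3 t.1.1 u - M * cf F h3 t.1.1 0 u ∧
    ineq F h3 t 2 u = M * (cf F h3 t.1.1 0 u + cf F h3 t.1.1 1 u) -
      ((t.1.2.2 : ℕ) + 1) * wf F h3 t.1.1 u ∧
    ineq F h3 t 3 u = (t.1.2.2 : ℕ) * wf F h3 t.1.1 u -
      M * (cf F h3 t.1.1 0 u + cf F h3 t.1.1 1 u) := by
  simp only [ineq_apply, dat, if_pos h, Matrix.cons_val_zero, Matrix.cons_val_one, Matrix.cons_val]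
  refine ⟨?_, ?_, ?_, ?_⟩ <;> (push_cast; ring)

theorem ineq_diag {t : Tc P c M} (h : ¬ t.1.2.1 < t.1.2.2) (u : E) :
    ineq F h3 t 0 u = (t.1.2.1 : ℕ) * wf F h3 t.1.1 u - M * cf F h3 t.1.1 0 u ∧
    ineq F h3 t 1 u = M * (cf F h3 t.1.1 0 u + cf F h3 t.1.1 1 u) -
      ((t.1.2.1 : ℕ) + 1) * wf F h3 t.1.1 u ∧
    ineq F h3 t 2 u = (t.1.2.1 : ℕ) * wf F h3 t.1.1.sw u - M * cf F h3 t.1.1.sw 0 u ∧
    ineq F h3 t 3 u = M * (cf F h3 t.1.1.sw 0 u + cf F h3 t.1.1.sw 1 u) -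
      ((t.1.2.1 : ℕ) + 1) * wf F h3 t.1.1.sw u := by
  simp only [ineq_apply, dat, if_neg h, Matrix.cons_val_zero, Matrix.cons_val_one, Matrix.cons_val]
  refine ⟨?_, ?_, ?_, ?_⟩ <;> (push_cast; ring)

omit [CompleteSpace E] in
theorem diag_eq {t : Tc P c M} (h : ¬ t.1.2.1 < t.1.2.2) :
    t.1.2.1 = t.1.2.2 ∧ WellOrderingRel t.1.1.a2 t.1.1.a3 := t.2.resolve_left h

/-- a cell as seen from a flag: closed (`≤`) form -/
theorem cone_cases (hQ : Quads P b) {t : Tc P c M} {u : E} (h : ∀ k, ineq F h3 t k u ≤ 0) :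
    ∃ g : Flg P c, (g = t.1.1 ∨ g = t.1.1.sw ∧ t.1.2.1 = t.1.2.2) ∧
      wf F h3 t.1.1 u = wf F h3 g u ∧ 0 ≤ cf F h3 g 0 u ∧ 0 ≤ cf F h3 g 1 u ∧ 0 ≤ cf F h3 g 2 u ∧
      (t.1.2.1 : ℕ) * wf F h3 g u ≤ M * cf F h3 g 0 u ∧
      M * cf F h3 g 0 u ≤ ((t.1.2.1 : ℕ) + 1) * wf F h3 g u ∧
      (t.1.2.2 : ℕ) * wf F h3 g u ≤ M * (cf F h3 g 0 u + cf F h3 g 1 u) ∧
      M * (cf F h3 g 0 u + cf F h3 g 1 u) ≤ ((t.1.2.2 : ℕ) + 1) * wf F h3 g u := by
  have hM : (0 : ℝ) < M := by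
    have := t.1.2.1.pos
    exact_mod_cast this
  have hj : (((t.1.2.1 : ℕ) : ℝ)) + 1 ≤ M := by exact_mod_cast t.1.2.1.2
  have hi : (((t.1.2.2 : ℕ) : ℝ)) + 1 ≤ M := by exact_mod_cast t.1.2.2.2
  have hj0 : (0 : ℝ) ≤ (t.1.2.1 : ℕ) := Nat.cast_nonneg _
  by_cases hlt : t.1.2.1 < t.1.2.2
  · obtain ⟨e0, e1, e2, e3⟩ := ineq_off F h3 hlt u
    have g0 := h 0
    have g1 := h 1
    have g2 := h 2
    have g3 := h 3
    rw [e0] at g0
    rw [e1] at g1
    rw [e2] at g2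
    rw [e3] at g3
    have hji : (((t.1.2.1 : ℕ) : ℝ)) + 1 ≤ (t.1.2.2 : ℕ) := by
      have : (t.1.2.1 : ℕ) + 1 ≤ (t.1.2.2 : ℕ) := hlt
      exact_mod_cast this
    set w := wf F h3 t.1.1 u with hw
    have hsum : cf F h3 t.1.1 0 u + cf F h3 t.1.1 1 u + cf F h3 t.1.1 2 u = w :=
      (wf_apply F h3 t.1.1 u).symm
    have hw0 : 0 ≤ w := by linarith
    have p1 : 0 ≤ ((t.1.2.1 : ℕ) : ℝ) * w := mul_nonneg hj0 hw0
    have p2 : 0 ≤ ((((t.1.2.2 : ℕ) : ℝ)) - (((t.1.2.1 : ℕ) : ℝ) + 1)) * w :=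
      mul_nonneg (by linarith) hw0
    have p3 : 0 ≤ ((M : ℝ) - (((t.1.2.2 : ℕ) : ℝ) + 1)) * w := mul_nonneg (by linarith) hw0
    have p4 : M * cf F h3 t.1.1 2 u = M * w - M * (cf F h3 t.1.1 0 u + cf F h3 t.1.1 1 u) := by
      rw [← hsum]; ring
    refine ⟨t.1.1, Or.inl rfl, rfl, ?_, ?_, ?_, by linarith, by linarith, by linarith, by linarith⟩
    · have : 0 ≤ M * cf F h3 t.1.1 0 u := by linarith
      exact nonneg_of_mul_nonneg_right this hM
    · have : 0 ≤ M * cf F h3 t.1.1 1 u := by linarith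
      exact nonneg_of_mul_nonneg_right this hM
    · have : 0 ≤ M * cf F h3 t.1.1 2 u := by linarith
      exact nonneg_of_mul_nonneg_right this hM
  · obtain ⟨e0, e1, e2, e3⟩ := ineq_diag F h3 hlt u
    have hd := (diag_eq hlt).1
    have g0 := h 0
    have g1 := h 1
    have g2 := h 2
    have g3 := h 3
    rw [e0] at g0
    rw [e1] at g1
    rw [e2, wf_sw F h3 hQ] at g2
    rw [e3, wf_sw F h3 hQ] at g3
    obtain ⟨l, m, hl, hm, hlm, hs⟩ := cf_sw F h3 hQ t.1.1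
    obtain ⟨s0, s1, s2⟩ := hs u
    rw [← hd]
    set w := wf F h3 t.1.1 u with hw
    have hsum : cf F h3 t.1.1 0 u + cf F h3 t.1.1 1 u + cf F h3 t.1.1 2 u = w :=
      (wf_apply F h3 t.1.1 u).symm
    rcases le_total 0 (cf F h3 t.1.1 1 u) with hc | hc
    · have hMc : 0 ≤ M * cf F h3 t.1.1 1 u := mul_nonneg hM.le hc
      have hw0 : 0 ≤ w := by linarith
      have p1 : 0 ≤ ((t.1.2.1 : ℕ) : ℝ) * w := mul_nonneg hj0 hw0
      have p3 : 0 ≤ ((M : ℝ) - (((t.1.2.1 : ℕ) : ℝ) + 1)) * w := mul_nonneg (by linarith) hw0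
      have p4 : M * cf F h3 t.1.1 2 u = M * w - M * (cf F h3 t.1.1 0 u + cf F h3 t.1.1 1 u) := by
        rw [← hsum]; ring
      refine ⟨t.1.1, Or.inl rfl, rfl, ?_, hc, ?_, by linarith, by linarith, by linarith,
        by linarith⟩
      · have : 0 ≤ M * cf F h3 t.1.1 0 u := by linarith
        exact nonneg_of_mul_nonneg_right this hM
      · have : 0 ≤ M * cf F h3 t.1.1 2 u := by linarith
        exact nonneg_of_mul_nonneg_right this hM
    · have hc' : 0 ≤ cf F h3 t.1.1.sw 1 u := by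
        rw [s1]
        have := mul_nonneg hm.le (neg_nonneg.2 hc)
        linarith
      have hMc : 0 ≤ M * cf F h3 t.1.1.sw 1 u := mul_nonneg hM.le hc'
      have hsum' : cf F h3 t.1.1.sw 0 u + cf F h3 t.1.1.sw 1 u + cf F h3 t.1.1.sw 2 u = w := by
        rw [hw, ← wf_sw F h3 hQ, wf_apply]
      have hw0 : 0 ≤ w := by linarith
      have p1 : 0 ≤ ((t.1.2.1 : ℕ) : ℝ) * w := mul_nonneg hj0 hw0
      have p3 : 0 ≤ ((M : ℝ) - (((t.1.2.1 : ℕ) : ℝ) + 1)) * w := mul_nonneg (by linarith) hw0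
      have p4 : M * cf F h3 t.1.1.sw 2 u =
          M * w - M * (cf F h3 t.1.1.sw 0 u + cf F h3 t.1.1.sw 1 u) := by
        rw [← hsum']; ring
      refine ⟨t.1.1.sw, Or.inr ⟨rfl, rfl⟩, ?_, ?_, hc', ?_, ?_, ?_, ?_, ?_⟩
      · rw [wf_sw F h3 hQ]
      · have : 0 ≤ M * cf F h3 t.1.1.sw 0 u := by linarith
        exact nonneg_of_mul_nonneg_right this hM
      · have : 0 ≤ M * cf F h3 t.1.1.sw 2 u := by linarith
        exact nonneg_of_mul_nonneg_right this hM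
      all_goals
        rw [wf_sw F h3 hQ, ← hw]
        linarith

/-- `wf` is the gauge on the cone -/
theorem wf_max (hQ : Quads P b) {t : Tc P c M} {u : E} (h : ∀ k, ineq F h3 t k u ≤ 0)
    (f : Flg P c) : wf F h3 f u ≤ wf F h3 t.1.1 u := by
  obtain ⟨g, -, hw, h0, h1, h2, -⟩ := cone_cases F h3 hQ h
  rw [hw]
  have hsum : cf F h3 g 0 u + cf F h3 g 1 u + cf F h3 g 2 u = wf F h3 g u :=
    (wf_apply F h3 g u).symm
  rcases (show 0 ≤ wf F h3 g u by linarith).eq_or_lt with h5 | h5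
  · have z0 : cf F h3 g 0 u = 0 := by linarith
    have z1 : cf F h3 g 1 u = 0 := by linarith
    have z2 : cf F h3 g 2 u = 0 := by linarith
    have : u = 0 := by rw [← cf_sum F h3 g u, z0, z1, z2]; simp
    rw [this, map_zero, map_zero]
  · obtain ⟨hm, -⟩ := proj_mem F h3 g h0 h1 h2 h5
    have h6 := wf_le_one F h3 f (mem_fc.1 hm c (by simp))
    rw [add_sub_cancel_left, map_smul, smul_eq_mul, inv_mul_le_iff₀ h5, mul_one] at h6
    exact h6

theorem exists_tc_of_flag (hQ : Quads P b) (hM : 0 < M) {u : E} (f : Flg P c)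
    (h0 : 0 ≤ cf F h3 f 0 u) (h1 : 0 ≤ cf F h3 f 1 u) (h2 : 0 ≤ cf F h3 f 2 u) :
    ∃ t : Tc P c M, (∀ k, ineq F h3 t k u ≤ 0) ∧ (t.1.1 = f ∨ t.1.1 = f.sw) := by
  classical
  have hM' : (0 : ℝ) < M := by exact_mod_cast hM
  set w := wf F h3 f u with hw
  have hsum : cf F h3 f 0 u + cf F h3 f 1 u + cf F h3 f 2 u = w := (wf_apply F h3 f u).symm
  have hw0 : 0 ≤ w := by linarith
  -- integer parts
  have key : ∀ x : ℝ, 0 ≤ x → x ≤ w → ∃ j : Fin M, (j : ℕ) * w ≤ M * x ∧ M * x ≤ ((j : ℕ) + 1) * w ∧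
      ∀ n : ℕ, (n : ℝ) * w ≤ M * x → n < M → (0 < w → n ≤ (j : ℕ)) := by
    intro x hx hxw
    rcases hw0.eq_or_lt with hz | hz
    · have : x = 0 := by linarith
      refine ⟨⟨0, hM⟩, ?_, ?_, fun n _ _ h => absurd hz h.ne⟩
      · rw [← hz, this]; simp
      · rw [← hz, this]; simp
    · set y : ℝ := M * x / w with hy
      have hy0 : 0 ≤ y := by positivity
      have hyM : y ≤ M := by
        rw [hy, div_le_iff₀ hz]
        exact mul_le_mul_of_nonneg_left hxw hM'.le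
      have hyw : y * w = M * x := by rw [hy]; field_simp
      by_cases hlt : y < M
      · have h5 : ⌊y⌋₊ < M := (Nat.floor_lt hy0).2 hlt
        refine ⟨⟨⌊y⌋₊, h5⟩, ?_, ?_, ?_⟩
        · rw [← hyw]; exact mul_le_mul_of_nonneg_right (Nat.floor_le hy0) hz.le
        · rw [← hyw]; exact mul_le_mul_of_nonneg_right (Nat.lt_floor_add_one y).le hz.le
        · intro n hn _ _
          rw [← hyw] at hn
          exact Nat.le_floor (le_of_mul_le_mul_right hn hz)
      · have hyM' : y = M := le_antisymm hyM (not_lt.1 hlt)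
        refine ⟨⟨M - 1, by omega⟩, ?_, ?_, ?_⟩
        · rw [← hyw, hyM']
          refine mul_le_mul_of_nonneg_right ?_ hz.le
          have : M - 1 ≤ M := Nat.sub_le _ _
          exact_mod_cast this
        · rw [← hyw, hyM']
          refine mul_le_mul_of_nonneg_right ?_ hz.le
          have : M ≤ M - 1 + 1 := by omega
          exact_mod_cast this
        · intro n _ hn _
          show n ≤ M - 1
          omega
  obtain ⟨j, j1, j2, -⟩ := key (cf F h3 f 0 u) h0 (by linarith)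
  obtain ⟨i, i1, i2, i3⟩ := key (cf F h3 f 0 u + cf F h3 f 1 u) (by linarith) (by linarith)
  have hMc : 0 ≤ M * cf F h3 f 1 u := mul_nonneg hM'.le h1
  rcases hw0.eq_or_lt with hz | hz
  · -- `u = 0`
    have z0 : cf F h3 f 0 u = 0 := by linarith
    have z1 : cf F h3 f 1 u = 0 := by linarith
    have z2 : cf F h3 f 2 u = 0 := by linarith
    have hu : u = 0 := by rw [← cf_sum F h3 f u, z0, z1, z2]; simp
    have hz' : ∀ t : Tc P c M, ∀ k, ineq F h3 t k u ≤ 0 := fun t k => by rw [hu, map_zero]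
    rcases trichotomous_of WellOrderingRel f.a2 f.a3 with h | h | h
    · exact ⟨⟨(f, ⟨0, hM⟩, ⟨0, hM⟩), Or.inr ⟨rfl, h⟩⟩, hz' _, Or.inl rfl⟩
    · exact absurd h f.h23
    · exact ⟨⟨(f.sw, ⟨0, hM⟩, ⟨0, hM⟩), Or.inr ⟨rfl, h⟩⟩, hz' _, Or.inr rfl⟩
  have hji : (j : ℕ) ≤ (i : ℕ) := i3 j (by linarith) j.2 hz
  rcases hji.lt_or_eq with hlt | heq
  · refine ⟨⟨(f, j, i), Or.inl hlt⟩, fun k => ?_, Or.inl rfl⟩
    obtain ⟨e0, e1, e2, e3⟩ := ineq_off F h3 (t := ⟨(f, j, i), Or.inl hlt⟩) hlt u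
    fin_cases k
    · refine (le_of_eq e0).trans ?_
      simp only [← hw]; linarith
    · refine (le_of_eq e1).trans ?_
      simp only [← hw]; linarith
    · refine (le_of_eq e2).trans ?_
      simp only [← hw]; linarith
    · refine (le_of_eq e3).trans ?_
      simp only [← hw]; linarith
  · have hij : j = i := Fin.ext heq
    subst hij
    obtain ⟨l, m, hl, hm, hlm, hs⟩ := cf_sw F h3 hQ f
    obtain ⟨s0, s1, s2⟩ := hs u
    have hsw : wf F h3 f.sw u = w := by rw [wf_sw F h3 hQ]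
    have hlc : 0 ≤ M * (l * cf F h3 f 1 u) := by positivity
    have hlc2 : M * ((l - m) * cf F h3 f 1 u) ≤ M * (1 * cf F h3 f 1 u) := by
      gcongr
    have b0 : (j : ℕ) * w ≤ M * cf F h3 f.sw 0 u := by rw [s0]; linarith
    have b1 : M * (cf F h3 f.sw 0 u + cf F h3 f.sw 1 u) ≤ ((j : ℕ) + 1) * w := by
      rw [s0, s1]; linarith
    rcases trichotomous_of WellOrderingRel f.a2 f.a3 with h | h | h
    · refine ⟨⟨(f, j, j), Or.inr ⟨rfl, h⟩⟩, fun k => ?_, Or.inl rfl⟩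
      obtain ⟨e0, e1, e2, e3⟩ := ineq_diag F h3 (t := ⟨(f, j, j), Or.inr ⟨rfl, h⟩⟩) (lt_irrefl j) u
      fin_cases k
      · refine (le_of_eq e0).trans ?_
        simp only [← hw]; linarith
      · refine (le_of_eq e1).trans ?_
        simp only [← hw]; linarith
      · refine (le_of_eq e2).trans ?_
        simp only [hsw]; linarith
      · refine (le_of_eq e3).trans ?_
        simp only [hsw]; linarith
    · exact absurd h f.h23
    · refine ⟨⟨(f.sw, j, j), Or.inr ⟨rfl, h⟩⟩, fun k => ?_, Or.inr rfl⟩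
      obtain ⟨e0, e1, e2, e3⟩ :=
        ineq_diag F h3 (t := ⟨(f.sw, j, j), Or.inr ⟨rfl, h⟩⟩) (lt_irrefl j) u
      have hss : (f.sw).sw = f := rfl
      fin_cases k
      · refine (le_of_eq e0).trans ?_
        simp only [hsw]; linarith
      · refine (le_of_eq e1).trans ?_
        simp only [hsw]; linarith
      · refine (le_of_eq e2).trans ?_
        simp only [hss, ← hw]; linarith
      · refine (le_of_eq e3).trans ?_
        simp only [hss, ← hw]; linarith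


/-! ### cells and coordinates -/

/-- the coordinates on a closed cell -/
theorem cell_sc (hQ : Quads P b) {t : Tc P c M} {u : E} (h : ∀ k, ineq F h3 t k u ≤ 0)
    (hw : 0 < wf F h3 t.1.1 u) :
    b {c} + (wf F h3 t.1.1 u)⁻¹ • u ∈ fc P {c, t.1.1.a1} ∧
      sc P b (b {c} + (wf F h3 t.1.1 u)⁻¹ • u) t.1.1.a2 ∈
        Icc ((t.1.2.1 : ℕ) / M : ℝ) (((t.1.2.1 : ℕ) + 1) / M) ∧
      sc P b (b {c} + (wf F h3 t.1.1 u)⁻¹ • u) t.1.1.a3 ∈
        Icc ((t.1.2.2 : ℕ) / M : ℝ) (((t.1.2.2 : ℕ) + 1) / M) ∧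
      ∀ a, a ≠ c → a ≠ t.1.1.a1 → a ≠ t.1.1.a2 → a ≠ t.1.1.a3 →
        sc P b (b {c} + (wf F h3 t.1.1 u)⁻¹ • u) a = 1 := by
  have hM : (0 : ℝ) < M := by
    have := t.1.2.1.pos
    exact_mod_cast this
  obtain ⟨g, hg, hwg, h0, h1, h2, k1, k2, k3, k4⟩ := cone_cases F h3 hQ h
  rw [hwg] at hw ⊢
  obtain ⟨m0, m1, m2, m3, m4, m5⟩ := proj_mem F h3 g h0 h1 h2 hw
  have I0 : cf F h3 g 0 u / wf F h3 g u ∈ Icc ((t.1.2.1 : ℕ) / M : ℝ) (((t.1.2.1 : ℕ) + 1) / M) := by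
    constructor
    · rw [div_le_div_iff₀ hM hw]; linarith
    · rw [div_le_div_iff₀ hw hM]; linarith
  have I1 : (cf F h3 g 0 u + cf F h3 g 1 u) / wf F h3 g u ∈
      Icc ((t.1.2.2 : ℕ) / M : ℝ) (((t.1.2.2 : ℕ) + 1) / M) := by
    constructor
    · rw [div_le_div_iff₀ hM hw]; linarith
    · rw [div_le_div_iff₀ hw hM]; linarith
  rcases hg with rfl | ⟨rfl, hd⟩
  · exact ⟨m0, by rw [m3]; exact I0, by rw [m4]; exact I1, m5⟩
  · rw [← hd] at I1 ⊢
    refine ⟨m0, ?_, ?_, fun a a0 a1 a2 a3 => m5 a a0 a1 a3 a2⟩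
    · have : t.1.1.sw.a3 = t.1.1.a2 := rfl
      rw [← this, m4]; exact I1
    · have : t.1.1.sw.a2 = t.1.1.a3 := rfl
      rw [← this, m3]; exact I0

/-- the coordinates on an open cell -/
theorem open_sc (hQ : Quads P b) {t : Tc P c M} {u : E} (h : ∀ k, ineq F h3 t k u < 0) :
    0 < wf F h3 t.1.1 u ∧
      sc P b (b {c} + (wf F h3 t.1.1 u)⁻¹ • u) c = 0 ∧
      sc P b (b {c} + (wf F h3 t.1.1 u)⁻¹ • u) t.1.1.a1 = 0 ∧
      sc P b (b {c} + (wf F h3 t.1.1 u)⁻¹ • u) t.1.1.a2 ∈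
        Ioo ((t.1.2.1 : ℕ) / M : ℝ) (((t.1.2.1 : ℕ) + 1) / M) ∧
      sc P b (b {c} + (wf F h3 t.1.1 u)⁻¹ • u) t.1.1.a3 ∈
        Ioo ((t.1.2.2 : ℕ) / M : ℝ) (((t.1.2.2 : ℕ) + 1) / M) ∧
      ∀ a, a ≠ c → a ≠ t.1.1.a1 → a ≠ t.1.1.a2 → a ≠ t.1.1.a3 →
        sc P b (b {c} + (wf F h3 t.1.1 u)⁻¹ • u) a = 1 := by
  have hM : (0 : ℝ) < M := by
    have := t.1.2.1.pos
    exact_mod_cast this
  obtain ⟨g, hg, hwg, h0, h1, h2, -⟩ := cone_cases F h3 hQ (fun k => (h k).le)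
  have hMc : 0 ≤ M * cf F h3 g 1 u := mul_nonneg hM.le h1
  -- strict inequalities in the flag `g`
  have hstrict : (t.1.2.1 : ℕ) * wf F h3 g u < M * cf F h3 g 0 u ∧
      M * cf F h3 g 0 u < ((t.1.2.1 : ℕ) + 1) * wf F h3 g u ∧
      (t.1.2.2 : ℕ) * wf F h3 g u < M * (cf F h3 g 0 u + cf F h3 g 1 u) ∧
      M * (cf F h3 g 0 u + cf F h3 g 1 u) < ((t.1.2.2 : ℕ) + 1) * wf F h3 g u := by
    have g0 := h 0
    have g1 := h 1
    have g2 := h 2
    have g3 := h 3
    by_cases hlt : t.1.2.1 < t.1.2.2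
    · have hgt : g = t.1.1 := by
        rcases hg with h | ⟨-, h⟩
        · exact h
        · exact absurd h hlt.ne
      subst hgt
      obtain ⟨e0, e1, e2, e3⟩ := ineq_off F h3 hlt u
      rw [e0] at g0
      rw [e1] at g1
      rw [e2] at g2
      rw [e3] at g3
      exact ⟨by linarith, by linarith, by linarith, by linarith⟩
    · obtain ⟨e0, e1, e2, e3⟩ := ineq_diag F h3 hlt u
      have hd := (diag_eq hlt).1
      rw [e0] at g0
      rw [e1] at g1
      rw [e2] at g2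
      rw [e3] at g3
      rw [← hd]
      rcases hg with rfl | ⟨rfl, -⟩
      · exact ⟨by linarith, by linarith, by linarith, by linarith⟩
      · exact ⟨by linarith, by linarith, by linarith, by linarith⟩
  obtain ⟨k1, k2, k3, k4⟩ := hstrict
  have hw : 0 < wf F h3 g u := by linarith
  rw [hwg]
  obtain ⟨m0, m1, m2, m3, m4, m5⟩ := proj_mem F h3 g h0 h1 h2 hw
  have I0 : cf F h3 g 0 u / wf F h3 g u ∈ Ioo ((t.1.2.1 : ℕ) / M : ℝ) (((t.1.2.1 : ℕ) + 1) / M) := by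
    constructor
    · rw [div_lt_div_iff₀ hM hw]; linarith
    · rw [div_lt_div_iff₀ hw hM]; linarith
  have I1 : (cf F h3 g 0 u + cf F h3 g 1 u) / wf F h3 g u ∈
      Ioo ((t.1.2.2 : ℕ) / M : ℝ) (((t.1.2.2 : ℕ) + 1) / M) := by
    constructor
    · rw [div_lt_div_iff₀ hM hw]; linarith
    · rw [div_lt_div_iff₀ hw hM]; linarith
  refine ⟨hw, m1, ?_⟩
  rcases hg with rfl | ⟨rfl, hd⟩
  · exact ⟨m2, by rw [m3]; exact I0, by rw [m4]; exact I1, m5⟩
  · rw [← hd] at I1 ⊢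
    refine ⟨m2, ?_, ?_, fun a a0 a1 a2 a3 => m5 a a0 a1 a3 a2⟩
    · have : t.1.1.sw.a3 = t.1.1.a2 := rfl
      rw [← this, m4]; exact I1
    · have : t.1.1.sw.a2 = t.1.1.a3 := rfl
      rw [← this, m3]; exact I0

theorem nat_of_Ioo {x : ℝ} {m n : ℕ} {M : ℝ} (hM : 0 < M) (h1 : x ∈ Ioo ((m : ℝ) / M) ((m + 1) / M))
    (h2 : x ∈ Ioo ((n : ℝ) / M) ((n + 1) / M)) : m = n := by
  have a1 := h1.1.trans h2.2
  have a2 := h2.1.trans h1.2
  rw [div_lt_div_iff_of_pos_right hM] at a1 a2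
  have b1 : m < n + 1 := by exact_mod_cast a1
  have b2 : n < m + 1 := by exact_mod_cast a2
  omega

/-- **the open cones are disjoint** -/
theorem tc_dis (hQ : Quads P b) {t t' : Tc P c M} {u : E} (h : ∀ k, ineq F h3 t k u < 0)
    (h' : ∀ k, ineq F h3 t' k u < 0) : t = t' := by
  have hM : (0 : ℝ) < M := by
    have := t.1.2.1.pos
    exact_mod_cast this
  obtain ⟨w0, p0, p1, p2, p3, p4⟩ := open_sc F h3 hQ h
  obtain ⟨w0', q0, q1, q2, q3, q4⟩ := open_sc F h3 hQ h'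
  have hww : wf F h3 t.1.1 u = wf F h3 t'.1.1 u :=
    le_antisymm (wf_max F h3 hQ (fun k => (h' k).le) _) (wf_max F h3 hQ (fun k => (h k).le) _)
  rw [← hww] at q0 q1 q2 q3 q4
  set s := sc P b (b {c} + (wf F h3 t.1.1 u)⁻¹ • u) with hs
  have hj0 : ∀ n : ℕ, (0 : ℝ) ≤ (n : ℝ) / M := fun n => by positivity
  have hi1 : ∀ n : Fin M, (((n : ℕ) : ℝ) + 1) / M ≤ 1 := fun n => by
    rw [div_le_one hM]; exact_mod_cast n.2
  have P2 : 0 < s t.1.1.a2 ∧ s t.1.1.a2 < 1 := ⟨(hj0 _).trans_lt p2.1, p2.2.trans_le (hi1 _)⟩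
  have P3 : 0 < s t.1.1.a3 ∧ s t.1.1.a3 < 1 := ⟨(hj0 _).trans_lt p3.1, p3.2.trans_le (hi1 _)⟩
  have Q2 : 0 < s t'.1.1.a2 ∧ s t'.1.1.a2 < 1 := ⟨(hj0 _).trans_lt q2.1, q2.2.trans_le (hi1 _)⟩
  have Q3 : 0 < s t'.1.1.a3 ∧ s t'.1.1.a3 < 1 := ⟨(hj0 _).trans_lt q3.1, q3.2.trans_le (hi1 _)⟩
  -- the first cell
  have e1 : t.1.1.a1 = t'.1.1.a1 := by
    by_contra hne
    by_cases a2 : t.1.1.a1 = t'.1.1.a2
    · rw [← a2, p1] at Q2; exact lt_irrefl _ Q2.1
    by_cases a3 : t.1.1.a1 = t'.1.1.a3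
    · rw [← a3, p1] at Q3; exact lt_irrefl _ Q3.1
    have := q4 _ t.1.1.h1 hne a2 a3
    rw [p1] at this
    exact zero_ne_one this
  have mem : ∀ a, 0 < s a → s a < 1 → (a = t.1.1.a2 ∨ a = t.1.1.a3) ∧ (a = t'.1.1.a2 ∨ a = t'.1.1.a3) := by
    intro a ha0 ha1
    constructor
    · by_contra hn
      push Not at hn
      have n0 : a ≠ c := by rintro rfl; rw [p0] at ha0; exact lt_irrefl _ ha0
      have n1 : a ≠ t.1.1.a1 := by rintro rfl; rw [p1] at ha0; exact lt_irrefl _ ha0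
      have := p4 a n0 n1 hn.1 hn.2
      rw [this] at ha1; exact lt_irrefl _ ha1
    · by_contra hn
      push Not at hn
      have n0 : a ≠ c := by rintro rfl; rw [p0] at ha0; exact lt_irrefl _ ha0
      have n1 : a ≠ t'.1.1.a1 := by rintro rfl; rw [q1] at ha0; exact lt_irrefl _ ha0
      have := q4 a n0 n1 hn.1 hn.2
      rw [this] at ha1; exact lt_irrefl _ ha1
  have m2 := (mem _ P2.1 P2.2).2
  have m3 := (mem _ P3.1 P3.2).2
  have n23 := t.1.1.h23
  rcases m2 with m2 | m2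
  · have m3' : t.1.1.a3 = t'.1.1.a3 := m3.resolve_left fun h => n23 (m2.trans h.symm)
    rw [m2] at p2
    rw [m3'] at p3
    have hj := nat_of_Ioo hM p2 q2
    have hi := nat_of_Ioo hM p3 q3
    have hf : t.1.1 = t'.1.1 := by
      have : ∀ f f' : Flg P c, f.a1 = f'.a1 → f.a2 = f'.a2 → f.a3 = f'.a3 → f = f' := by
        intro f f' h1 h2 h3
        cases f; cases f'
        simp only [Flg.mk.injEq]
        exact ⟨h1, h2, h3⟩
      exact this _ _ e1 m2 m3'
    exact Subtype.ext (Prod.ext hf (Prod.ext (Fin.ext hj) (Fin.ext hi)))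
  · -- swapped: impossible
    exfalso
    have m3' : t.1.1.a3 = t'.1.1.a2 := m3.resolve_right fun h => n23 (m2.trans h.symm)
    rw [m2] at p2
    rw [m3'] at p3
    have hj := nat_of_Ioo hM p2 q3
    have hi := nat_of_Ioo hM p3 q2
    rcases t.2 with h5 | ⟨h5, h6⟩
    · have h5' : (t.1.2.1 : ℕ) < (t.1.2.2 : ℕ) := h5
      rcases t'.2 with h7 | ⟨h7, -⟩
      · have h7' : (t'.1.2.1 : ℕ) < (t'.1.2.2 : ℕ) := h7
        omega
      · have h7' : (t'.1.2.1 : ℕ) = (t'.1.2.2 : ℕ) := congrArg Fin.val h7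
        omega
    · have h5' : (t.1.2.1 : ℕ) = (t.1.2.2 : ℕ) := congrArg Fin.val h5
      rcases t'.2 with h7 | ⟨-, h8⟩
      · have h7' : (t'.1.2.1 : ℕ) < (t'.1.2.2 : ℕ) := h7
        omega
      · rw [m2, m3'] at h6
        exact asymm h6 h8

/-- a point of the open cell -/
noncomputable def vt (b : Set I → E) (t : Tc P c M) : E :=
  ((2 * (t.1.2.1 : ℕ) + 1) / (2 * M) : ℝ) • dir b t.1.1 0 +
    ((((t.1.2.2 : ℕ) : ℝ) - (t.1.2.1 : ℕ)) / M : ℝ) • dir b t.1.1 1 +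
    (1 - (2 * (t.1.2.2 : ℕ) + 1) / (2 * M) : ℝ) • dir b t.1.1 2

theorem vt_spec (hQ : Quads P b) (t : Tc P c M) :
    wf F h3 t.1.1 (vt b t) = 1 ∧ ∀ k, ineq F h3 t k (vt b t) < 0 := by
  have hM : (0 : ℝ) < M := by
    have := t.1.2.1.pos
    exact_mod_cast this
  obtain ⟨c0, c1, c2⟩ := cf_comb F h3 t.1.1 ((2 * (t.1.2.1 : ℕ) + 1) / (2 * M) : ℝ)
    ((((t.1.2.2 : ℕ) : ℝ) - (t.1.2.1 : ℕ)) / M : ℝ) (1 - (2 * (t.1.2.2 : ℕ) + 1) / (2 * M) : ℝ)
  change cf F h3 t.1.1 0 (vt b t) = _ at c0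
  change cf F h3 t.1.1 1 (vt b t) = _ at c1
  change cf F h3 t.1.1 2 (vt b t) = _ at c2
  have hw : wf F h3 t.1.1 (vt b t) = 1 := by
    rw [wf_apply, c0, c1, c2]
    field_simp
    ring
  have d0 : M * cf F h3 t.1.1 0 (vt b t) = (t.1.2.1 : ℕ) + 1 / 2 := by
    rw [c0]; field_simp
  have d1 : M * (cf F h3 t.1.1 0 (vt b t) + cf F h3 t.1.1 1 (vt b t)) = (t.1.2.2 : ℕ) + 1 / 2 := by
    rw [c0, c1]; field_simp; ring
  refine ⟨hw, ?_⟩
  by_cases hlt : t.1.2.1 < t.1.2.2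
  · obtain ⟨e0, e1, e2, e3⟩ := ineq_off F h3 hlt (vt b t)
    rw [hw] at e0 e1 e2 e3
    intro k
    fin_cases k
    · refine (lt_of_eq_of_lt e0 ?_); linarith
    · refine (lt_of_eq_of_lt e1 ?_); linarith
    · refine (lt_of_eq_of_lt e2 ?_); linarith
    · refine (lt_of_eq_of_lt e3 ?_); linarith
  · obtain ⟨e0, e1, e2, e3⟩ := ineq_diag F h3 hlt (vt b t)
    have hd := (diag_eq hlt).1
    obtain ⟨l, m, hl, hm, hlm, hs⟩ := cf_sw F h3 hQ t.1.1
    obtain ⟨s0, s1, s2⟩ := hs (vt b t)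
    have z1 : cf F h3 t.1.1 1 (vt b t) = 0 := by rw [c1, hd]; simp
    rw [z1] at s0 s1 d1
    rw [← hd] at d1
    rw [wf_sw F h3 hQ] at e2 e3
    rw [hw] at e0 e1 e2 e3
    rw [z1] at e1
    rw [s0] at e2 e3
    rw [s1] at e3
    intro k
    fin_cases k
    · refine (lt_of_eq_of_lt e0 ?_); linarith
    · refine (lt_of_eq_of_lt e1 ?_); linarith
    · refine (lt_of_eq_of_lt e2 ?_); linarith
    · refine (lt_of_eq_of_lt e3 ?_); linarith

theorem cf_of_sc (f : Flg P c) {y : E} (hy : y ∈ P c) (h1 : sc P b y f.a1 = 0)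
    (h23 : sc P b y f.a2 ≤ sc P b y f.a3)
    (ho : ∀ a, a ≠ c → a ≠ f.a1 → a ≠ f.a2 → a ≠ f.a3 → sc P b y a = 1) :
    cf F h3 f 0 (y - b {c}) = sc P b y f.a2 ∧
      cf F h3 f 0 (y - b {c}) + cf F h3 f 1 (y - b {c}) = sc P b y f.a3 ∧
      wf F h3 f (y - b {c}) = 1 := by
  have hyL := F.sub c hy
  have hK := F.sc_mem_K hyL
  have h0 : sc P b y c = 0 := (F.sc_eq_zero hyL).2 hy
  set s := sc P b y with hs
  have b2 := hK.1 f.a2
  have b3 := hK.1 f.a3
  set u : E := s f.a2 • dir b f 0 + (s f.a3 - s f.a2) • dir b f 1 + (1 - s f.a3) • dir b f 2 with hu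
  obtain ⟨c0, c1, c2⟩ := cf_comb F h3 f (s f.a2) (s f.a3 - s f.a2) (1 - s f.a3)
  rw [← hu] at c0 c1 c2
  have hw : wf F h3 f u = 1 := by rw [wf_apply, c0, c1, c2]; ring
  obtain ⟨m0, m1, m2, m3, m4, m5⟩ := proj_mem F h3 f (u := u) (by rw [c0]; exact b2.1)
    (by rw [c1]; linarith) (by rw [c2]; linarith [b3.2]) (by rw [hw]; exact one_pos)
  rw [hw, inv_one, one_smul] at m0 m1 m2 m3 m4 m5
  rw [div_one, c0] at m3
  rw [div_one, c0, c1] at m4
  have heq : sc P b (b {c} + u) = s := by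
    funext a
    by_cases a0 : a = c
    · subst a0; rw [m1, h0]
    by_cases a1 : a = f.a1
    · subst a1; rw [m2, h1]
    by_cases a2 : a = f.a2
    · subst a2; rw [m3]
    by_cases a3 : a = f.a3
    · subst a3; rw [m4]; ring
    rw [m5 a a0 a1 a2 a3, ho a a0 a1 a2 a3]
  have hyu : y = b {c} + u := by
    rw [← F.T_sc hyL, ← F.T_sc (F.sub c (mem_fc.1 m0 c (by simp))), heq]
  rw [hyu, add_sub_cancel_left, c0, c1]
  exact ⟨rfl, by ring, hw⟩

/-- **a point of the boundary with coordinates in the square is in the cell** -/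
theorem mem_cell_of_sc (hQ : Quads P b) (t : Tc P c M) {y : E} (hy : y ∈ P c)
    (h1 : sc P b y t.1.1.a1 = 0)
    (h2 : sc P b y t.1.1.a2 ∈ Icc ((t.1.2.1 : ℕ) / M : ℝ) (((t.1.2.1 : ℕ) + 1) / M))
    (h3' : sc P b y t.1.1.a3 ∈ Icc ((t.1.2.2 : ℕ) / M : ℝ) (((t.1.2.2 : ℕ) + 1) / M))
    (ho : ∀ a, a ≠ c → a ≠ t.1.1.a1 → a ≠ t.1.1.a2 → a ≠ t.1.1.a3 → sc P b y a = 1) :
    wf F h3 t.1.1 (y - b {c}) = 1 ∧ ∀ k, ineq F h3 t k (y - b {c}) ≤ 0 := by
  have hM : (0 : ℝ) < M := by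
    have := t.1.2.1.pos
    exact_mod_cast this
  have key : ∀ {x m : ℝ}, x ∈ Icc (m / M) ((m + 1) / M) → m ≤ M * x ∧ M * x ≤ m + 1 := by
    intro x m hx
    rw [mem_Icc, div_le_iff₀ hM, le_div_iff₀ hM] at hx
    exact ⟨by linarith [hx.1], by linarith [hx.2]⟩
  obtain ⟨k1, k2⟩ := key h2
  obtain ⟨k3, k4⟩ := key h3'
  by_cases hlt : t.1.2.1 < t.1.2.2
  · have h23 : sc P b y t.1.1.a2 ≤ sc P b y t.1.1.a3 := by
      refine h2.2.trans (le_trans ?_ h3'.1)
      rw [div_le_div_iff_of_pos_right hM]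
      have : (t.1.2.1 : ℕ) + 1 ≤ (t.1.2.2 : ℕ) := hlt
      exact_mod_cast this
    obtain ⟨c0, c1, hw⟩ := cf_of_sc F h3 t.1.1 hy h1 h23 ho
    refine ⟨hw, fun k => ?_⟩
    obtain ⟨e0, e1, e2, e3⟩ := ineq_off F h3 hlt (y - b {c})
    rw [hw, c0] at e0 e1
    rw [hw, c1] at e2 e3
    fin_cases k
    · refine (le_of_eq e0).trans ?_; linarith
    · refine (le_of_eq e1).trans ?_; linarith
    · refine (le_of_eq e2).trans ?_; linarith
    · refine (le_of_eq e3).trans ?_; linarith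
  · have hd := (diag_eq hlt).1
    rw [← hd] at k3 k4
    obtain ⟨l, m, hl, hm, hlm, hs⟩ := cf_sw F h3 hQ t.1.1
    rcases le_total (sc P b y t.1.1.a2) (sc P b y t.1.1.a3) with h23 | h23
    · obtain ⟨c0, c1, hw⟩ := cf_of_sc F h3 t.1.1 hy h1 h23 ho
      obtain ⟨s0, s1, s2⟩ := hs (y - b {c})
      have hc1 : 0 ≤ cf F h3 t.1.1 1 (y - b {c}) := by linarith
      refine ⟨hw, fun k => ?_⟩
      obtain ⟨e0, e1, e2, e3⟩ := ineq_diag F h3 hlt (y - b {c})
      rw [wf_sw F h3 hQ] at e2 e3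
      rw [hw] at e0 e1 e2 e3
      have q1 : 0 ≤ M * (l * cf F h3 t.1.1 1 (y - b {c})) := by positivity
      have q2 : M * ((l - m) * cf F h3 t.1.1 1 (y - b {c})) ≤ M * (1 * cf F h3 t.1.1 1 (y - b {c})) := by
        gcongr
      have q3 : M * (cf F h3 t.1.1 0 (y - b {c}) + cf F h3 t.1.1 1 (y - b {c})) ≤
          (t.1.2.1 : ℕ) + 1 := by rw [c1]; exact k4
      have q4 : ((t.1.2.1 : ℕ) : ℝ) ≤ M * cf F h3 t.1.1 0 (y - b {c}) := by rw [c0]; exact k1
      fin_cases k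
      · refine (le_of_eq e0).trans ?_; linarith
      · refine (le_of_eq e1).trans ?_; linarith
      · refine (le_of_eq e2).trans ?_; rw [s0]; linarith
      · refine (le_of_eq e3).trans ?_; rw [s0, s1]; linarith
    · obtain ⟨c0, c1, hw⟩ := cf_of_sc F h3 t.1.1.sw hy h1 h23 fun a a0 a1 a2 a3 => ho a a0 a1 a3 a2
      have x2 : t.1.1.sw.a2 = t.1.1.a3 := rfl
      have x3 : t.1.1.sw.a3 = t.1.1.a2 := rfl
      rw [x2] at c0
      rw [x3] at c1
      obtain ⟨l', m', hl', hm', hlm', hs'⟩ := cf_sw F h3 hQ t.1.1.sw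
      obtain ⟨s0, s1, s2⟩ := hs' (y - b {c})
      have hss : (t.1.1.sw).sw = t.1.1 := rfl
      rw [hss] at s0 s1 s2
      have hw' : wf F h3 t.1.1 (y - b {c}) = 1 := by rw [← wf_sw F h3 hQ]; exact hw
      have hc1 : 0 ≤ cf F h3 t.1.1.sw 1 (y - b {c}) := by linarith
      refine ⟨hw', fun k => ?_⟩
      obtain ⟨e0, e1, e2, e3⟩ := ineq_diag F h3 hlt (y - b {c})
      rw [hw'] at e0 e1
      rw [hw] at e2 e3
      have q1 : 0 ≤ M * (l' * cf F h3 t.1.1.sw 1 (y - b {c})) := by positivity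
      have q2 : M * ((l' - m') * cf F h3 t.1.1.sw 1 (y - b {c})) ≤
          M * (1 * cf F h3 t.1.1.sw 1 (y - b {c})) := by gcongr
      have q3 : M * (cf F h3 t.1.1.sw 0 (y - b {c}) + cf F h3 t.1.1.sw 1 (y - b {c})) ≤
          (t.1.2.1 : ℕ) + 1 := by rw [c1]; exact k2
      have q4 : ((t.1.2.1 : ℕ) : ℝ) ≤ M * cf F h3 t.1.1.sw 0 (y - b {c}) := by rw [c0]; exact k3
      fin_cases k
      · refine (le_of_eq e0).trans ?_; rw [s0]; linarith
      · refine (le_of_eq e1).trans ?_; rw [s0, s1]; linarith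
      · refine (le_of_eq e2).trans ?_; linarith
      · refine (le_of_eq e3).trans ?_; linarith

end main

end Crest.Agent.R096.Fbr_628
end

-- ▼ part R096/Fbr3_628
section

/-!
# Row 96, FAN (helper628), part 3: permutations of flags; the facets of a brick

`cf_sv`, `perm1`, `perm2`: flags through a point of the boundary with prescribed first labels.
`Fct c a l ε`: the cell `a` lies across the facet `(l, ε)` of the box `c`; `wf_of_fct`: the gauge
functional of a flag with `a1 = a` is `ε u l / hs c l`; `exists_fct`: every point of a facet is in a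
cell across it.
-/

set_option autoImplicit false
set_option linter.unusedSectionVars false

open Set

namespace Crest.Agent.R096.Fbr_628

open Crest.Agent.R096.Brk1_582 Crest.Agent.R096.Brk2_582 Crest.Agent.R096.Grd_714
  Crest.Agent.R096.Brk3_582 Crest.Agent.R096.Bsp_628

/-- the flag with the first two labels exchanged -/
def Flg.sv {E I : Type*} {P : I → Set E} {c : I} (f : Flg P c) : Flg P c where
  a1 := f.a2
  a2 := f.a1
  a3 := f.a3
  h1 := f.h2
  h2 := f.h1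
  h3 := f.h3
  h12 := f.h12.symm
  h13 := f.h23
  h23 := f.h13
  ne := by
    have e : ({c, f.a2, f.a1, f.a3} : Set I) = {c, f.a1, f.a2, f.a3} := by
      ext x; simp only [mem_insert_iff, mem_singleton_iff]; tauto
    rw [e]; exact f.ne

section perm

variable {E : Type*} [NormedAddCommGroup E] [NormedSpace ℝ E] [CompleteSpace E] {I : Type*}
variable {La : Set E} {P : I → Set E} {b : Set I → E} {N : ℕ} {c : I}

theorem dir_sv_one (f : Flg P c) : dir b f.sv 1 = dir b f 1 := by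
  have e : ({c, f.a2, f.a1} : Set I) = {c, f.a1, f.a2} := by
    ext x; simp only [mem_insert_iff, mem_singleton_iff]; tauto
  change b {c, f.a2, f.a1} - b {c} = _
  rw [e]; rfl

theorem dir_sv_two (f : Flg P c) : dir b f.sv 2 = dir b f 2 := by
  have e : ({c, f.a2, f.a1, f.a3} : Set I) = {c, f.a1, f.a2, f.a3} := by
    ext x; simp only [mem_insert_iff, mem_singleton_iff]; tauto
  change b {c, f.a2, f.a1, f.a3} - b {c} = _
  rw [e]; rfl

variable (F : Foam La P b N) (h3 : Module.finrank ℝ E = 3)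
include F

theorem cf_sv (f : Flg P c) {u : E} (h0 : cf F h3 f 0 u = 0) :
    cf F h3 f.sv 0 u = 0 ∧ cf F h3 f.sv 1 u = cf F h3 f 1 u ∧
      cf F h3 f.sv 2 u = cf F h3 f 2 u := by
  have hu : u = (0 : ℝ) • dir b f.sv 0 + cf F h3 f 1 u • dir b f.sv 1 +
      cf F h3 f 2 u • dir b f.sv 2 := by
    conv_lhs => rw [← cf_sum F h3 f u, h0, ← dir_sv_one f, ← dir_sv_two f]
    simp
  have := cf_comb F h3 f.sv 0 (cf F h3 f 1 u) (cf F h3 f 2 u)
  rw [← hu] at this
  exact this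

theorem cf_sw0 (f : Flg P c) {u : E} (h1 : cf F h3 f 1 u = 0) :
    cf F h3 f.sw 0 u = cf F h3 f 0 u ∧ cf F h3 f.sw 1 u = 0 ∧
      cf F h3 f.sw 2 u = cf F h3 f 2 u := by
  have hu : u = cf F h3 f 0 u • dir b f.sw 0 + (0 : ℝ) • dir b f.sw 1 +
      cf F h3 f 2 u • dir b f.sw 2 := by
    conv_lhs => rw [← cf_sum F h3 f u, h1, ← dir_sw_zero f, ← dir_sw_two f]
    simp
  have := cf_comb F h3 f.sw (cf F h3 f 0 u) 0 (cf F h3 f 2 u)
  rw [← hu] at this
  exact this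

/-- `u` is in the cone of the flag, on the wall of the flag -/
def InC (f : Flg P c) (u : E) : Prop := (∀ k, 0 ≤ cf F h3 f k u) ∧ wf F h3 f u = 1

theorem InC.spec {f : Flg P c} {u : E} (h : InC F h3 f u) : b {c} + u ∈ fc P {c, f.a1} ∧
      sc P b (b {c} + u) c = 0 ∧ sc P b (b {c} + u) f.a1 = 0 ∧
      sc P b (b {c} + u) f.a2 = cf F h3 f 0 u ∧
      sc P b (b {c} + u) f.a3 = cf F h3 f 0 u + cf F h3 f 1 u ∧
      ∀ a, a ≠ c → a ≠ f.a1 → a ≠ f.a2 → a ≠ f.a3 → sc P b (b {c} + u) a = 1 := by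
  have := proj_mem F h3 f (h.1 0) (h.1 1) (h.1 2) (by rw [h.2]; exact one_pos)
  rw [h.2, inv_one, one_smul, div_one, div_one] at this
  exact this

theorem InC.mem {f : Flg P c} {u : E} (h : InC F h3 f u) : b {c} + u ∈ P c :=
  mem_fc.1 (h.spec F h3).1 c (by simp)

theorem InC.sc_zero {f : Flg P c} {u : E} (h : InC F h3 f u) {a : I} (ha : b {c} + u ∈ P a) :
    sc P b (b {c} + u) a = 0 := (F.sc_eq_zero (F.sub c (h.mem F h3))).2 ha

/-- **a flag through the point with prescribed first label** -/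
theorem perm1 {f : Flg P c} {u : E} (h : InC F h3 f u) {a : I} (hac : a ≠ c)
    (ha : b {c} + u ∈ P a) : ∃ g : Flg P c, g.a1 = a ∧ InC F h3 g u := by
  obtain ⟨s0, s1, s2, s3, s4, s5⟩ := h.spec F h3
  have hz := h.sc_zero F h3 ha
  have hw := h.2
  rw [wf_apply] at hw
  by_cases e1 : a = f.a1
  · exact ⟨f, e1.symm, h⟩
  by_cases e2 : a = f.a2
  · rw [e2, s3] at hz
    obtain ⟨t0, t1, t2⟩ := cf_sv F h3 f hz
    refine ⟨f.sv, e2.symm, ?_, ?_⟩
    · intro k
      fin_cases k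
      · exact t0.ge
      · exact (h.1 1).trans_eq t1.symm
      · exact (h.1 2).trans_eq t2.symm
    · rw [wf_apply, t0, t1, t2]; linarith
  by_cases e3 : a = f.a3
  · rw [e3, s4] at hz
    have p0 := h.1 0
    have p1 := h.1 1
    have z0 : cf F h3 f 0 u = 0 := by linarith
    have z1 : cf F h3 f 1 u = 0 := by linarith
    obtain ⟨q0, q1, q2⟩ := cf_sw0 F h3 f z1
    rw [z0] at q0
    obtain ⟨t0, t1, t2⟩ := cf_sv F h3 f.sw q0
    refine ⟨f.sw.sv, e3.symm, ?_, ?_⟩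
    · intro k
      fin_cases k
      · exact t0.ge
      · exact (q1.ge).trans_eq t1.symm
      · exact ((h.1 2).trans_eq q2.symm).trans_eq t2.symm
    · rw [wf_apply, t0, t1, t2, q1, q2]; linarith
  · have := s5 a hac e1 e2 e3
    rw [this] at hz
    exact absurd hz one_ne_zero

/-- **a flag through the point with prescribed first two labels** -/
theorem perm2 {f : Flg P c} {u : E} (h : InC F h3 f u) {a a' : I} (hac : a ≠ c) (hac' : a' ≠ c)
    (haa : a ≠ a') (ha : b {c} + u ∈ P a) (ha' : b {c} + u ∈ P a') :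
    ∃ g : Flg P c, g.a1 = a ∧ g.a2 = a' ∧ InC F h3 g u ∧ cf F h3 g 0 u = 0 := by
  obtain ⟨g, hg, hi⟩ := perm1 F h3 h hac ha
  obtain ⟨s0, s1, s2, s3, s4, s5⟩ := hi.spec F h3
  have hz := hi.sc_zero F h3 ha'
  have hw := hi.2
  rw [wf_apply] at hw
  have p0 := hi.1 0
  have p1 := hi.1 1
  by_cases e2 : a' = g.a2
  · rw [e2, s3] at hz
    exact ⟨g, hg, e2.symm, hi, hz⟩
  by_cases e3 : a' = g.a3
  · rw [e3, s4] at hz
    have z0 : cf F h3 g 0 u = 0 := by linarith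
    have z1 : cf F h3 g 1 u = 0 := by linarith
    obtain ⟨q0, q1, q2⟩ := cf_sw0 F h3 g z1
    refine ⟨g.sw, hg, e3.symm, ⟨?_, ?_⟩, by rw [q0, z0]⟩
    · intro k
      fin_cases k
      · exact p0.trans_eq q0.symm
      · exact q1.ge
      · exact (hi.1 2).trans_eq q2.symm
    · rw [wf_apply, q0, q1, q2]; linarith
  · have := s5 a' hac' (by rw [hg]; exact haa.symm) e2 e3
    rw [this] at hz
    exact absurd hz one_ne_zero

end perm

/-! ### box foams -/

section box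

variable {La : Set (Fin 3 → ℝ)} {F : Set (Bx (Fin 3))} {δ κ0 : ℝ} {N : ℕ} {c : F}

/-- half the side -/
noncomputable def hs (c : F) (l : Fin 3) : ℝ := (c.1.hi l - c.1.lo l) / 2

theorem hs_pos (BF : BoxFoam La F δ κ0) (c : F) (l : Fin 3) : 0 < hs c l := by
  have := BF.pos _ c.2 l
  unfold hs
  linarith

theorem bc_single (c : F) (l : Fin 3) : bc ({c} : Set F) l = (c.1.lo l + c.1.hi l) / 2 := by
  unfold bc loA hiA
  simp

theorem mem_Pc {u : Fin 3 → ℝ} : bc ({c} : Set F) + u ∈ Pc F c ↔ ∀ l, |u l| ≤ hs c l := by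
  change _ ∈ c.1.set ↔ _
  rw [Bx.mem_set]
  refine forall_congr' fun l => ?_
  rw [Pi.add_apply, bc_single, hs, abs_le]
  constructor
  · rintro ⟨h1, h2⟩
    constructor <;> linarith
  · rintro ⟨h1, h2⟩
    constructor <;> linarith

/-- `a` is across the facet `(l, ε)` of `c` -/
def Fct (c a : F) (l : Fin 3) (ε : ℝ) : Prop :=
  (ε = 1 ∧ a.1.lo l = c.1.hi l) ∨ (ε = -1 ∧ a.1.hi l = c.1.lo l)

theorem Fct.eps {a : F} {l : Fin 3} {ε : ℝ} (h : Fct c a l ε) : ε = 1 ∨ ε = -1 := by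
  rcases h with ⟨h, -⟩ | ⟨h, -⟩
  · exact Or.inl h
  · exact Or.inr h

theorem Fct.coord {a : F} {l : Fin 3} {ε : ℝ} (h : Fct c a l ε) {u : Fin 3 → ℝ}
    (h1 : bc ({c} : Set F) + u ∈ Pc F c) (h2 : bc ({c} : Set F) + u ∈ Pc F a) :
    u l = ε * hs c l := by
  have h3 := (Bx.mem_set.1 h1) l
  have h4 := (Bx.mem_set.1 h2) l
  rw [Pi.add_apply, bc_single] at h3 h4
  unfold hs
  rcases h with ⟨rfl, h⟩ | ⟨rfl, h⟩
  · linarith
  · linarith

theorem exists_fct_of (BF : BoxFoam La F δ κ0) {a : F} (hac : a ≠ c) {y : Fin 3 → ℝ}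
    (h1 : y ∈ Pc F c) (h2 : y ∈ Pc F a) : ∃ l ε, Fct c a l ε := by
  obtain ⟨k, h | h⟩ := opp_of_pair BF hac.symm h1 h2
  · exact ⟨k, 1, Or.inl ⟨rfl, by rw [h.1, h.2]⟩⟩
  · exact ⟨k, -1, Or.inr ⟨rfl, by rw [h.1, h.2]⟩⟩

/-- **every point of a facet lies in a cell across it** -/
theorem exists_fct (BF : BoxFoam La F δ κ0) (hLa : IsOpen La) {u : Fin 3 → ℝ} {l : Fin 3} {ε : ℝ}
    (hε : ε = 1 ∨ ε = -1) (hu : ∀ j, |u j| ≤ hs c j) (hul : u l = ε * hs c l) :
    ∃ a : F, a ≠ c ∧ bc ({c} : Set F) + u ∈ Pc F a ∧ Fct c a l ε := by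
  set y := bc ({c} : Set F) + u with hy
  have hyc : y ∈ Pc F c := mem_Pc.2 hu
  have hyL : y ∈ La := BF.sub _ c.2 hyc
  have hlc := hs_pos BF c l
  obtain ⟨a, ha, t, ht, hat⟩ := cover_dir BF hLa hyL (fun j => if j = l then ε else -u j)
  have hcoord : ∀ j, y j = (c.1.lo j + c.1.hi j) / 2 + u j := fun j => by
    rw [hy, Pi.add_apply, bc_single]
  have hac : a ≠ c := by
    rintro rfl
    have h1 := (Bx.mem_set.1 hat l)
    simp only [Pi.add_apply, Pi.smul_apply, if_true, smul_eq_mul] at h1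
    rw [hcoord, hul] at h1
    unfold hs at h1
    rcases hε with rfl | rfl
    · linarith [h1.2]
    · linarith [h1.1]
  refine ⟨a, hac, ha, ?_⟩
  obtain ⟨j, hj⟩ := opp_of_pair BF hac.symm hyc ha
  have hjp := hs_pos BF c j
  have h4 := Bx.mem_set.1 hat j
  simp only [Pi.add_apply, Pi.smul_apply, smul_eq_mul] at h4
  have hyj := hcoord j
  unfold hs at hjp hul
  rcases hj with ⟨h1, h2⟩ | ⟨h1, h2⟩
  · by_cases hjl : j = l
    · subst hjl
      rcases hε with rfl | rfl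
      · exact Or.inl ⟨rfl, by rw [h1, h2]⟩
      · exfalso
        linarith
    · exfalso
      rw [if_neg hjl] at h4
      have : 0 < u j := by linarith
      nlinarith [h4.1]
  · by_cases hjl : j = l
    · subst hjl
      rcases hε with rfl | rfl
      · exfalso
        linarith
      · exact Or.inr ⟨rfl, by rw [h1, h2]⟩
    · exfalso
      rw [if_neg hjl] at h4
      have : u j < 0 := by linarith
      nlinarith [h4.2]

variable (FF : Foam La (Pc F) (bc (F := F)) N) (h3 : Module.finrank ℝ (Fin 3 → ℝ) = 3)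

theorem dir_mem (FF : Foam La (Pc F) (bc (F := F)) N) (f : Flg (Pc F) c) (j : Fin 3) :
    bc ({c} : Set F) + dir (bc (F := F)) f j ∈ fc (Pc F) {c, f.a1} := by
  have hm : ∀ A : Set F, ({c, f.a1} : Set F) ⊆ A → A ⊆ {c, f.a1, f.a2, f.a3} →
      bc A ∈ fc (Pc F) {c, f.a1} := fun A hA hA' =>
    fc_anti hA (FF.mem A ⟨c, hA (by simp)⟩ (f.ne.mono (fc_anti hA')))
  fin_cases j
  · have : bc ({c} : Set F) + dir (bc (F := F)) f 0 = bc {c, f.a1} := by
      show bc ({c} : Set F) + (bc {c, f.a1} - bc ({c} : Set F)) = _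
      abel
    refine this ▸ hm _ subset_rfl ?_
    intro x; simp only [mem_insert_iff, mem_singleton_iff]; tauto
  · have : bc ({c} : Set F) + dir (bc (F := F)) f 1 = bc {c, f.a1, f.a2} := by
      show bc ({c} : Set F) + (bc {c, f.a1, f.a2} - bc ({c} : Set F)) = _
      abel
    refine this ▸ hm _ ?_ ?_
    · intro x; simp only [mem_insert_iff, mem_singleton_iff]; tauto
    · intro x; simp only [mem_insert_iff, mem_singleton_iff]; tauto
  · have : bc ({c} : Set F) + dir (bc (F := F)) f 2 = bc {c, f.a1, f.a2, f.a3} := by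
      show bc ({c} : Set F) + (bc {c, f.a1, f.a2, f.a3} - bc ({c} : Set F)) = _
      abel
    refine this ▸ hm _ ?_ subset_rfl
    intro x; simp only [mem_insert_iff, mem_singleton_iff]; tauto

/-- the directions of a flag are on the facet -/
theorem dir_coord (FF : Foam La (Pc F) (bc (F := F)) N) {f : Flg (Pc F) c} {l : Fin 3} {ε : ℝ}
    (h : Fct c f.a1 l ε) (j : Fin 3) : dir (bc (F := F)) f j l = ε * hs c l := by
  have hm := dir_mem FF f j
  exact h.coord (mem_fc.1 hm c (by simp)) (mem_fc.1 hm f.a1 (by simp))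

/-- **the gauge functional of a flag** -/
theorem wf_of_fct {f : Flg (Pc F) c} {l : Fin 3} {ε : ℝ} (h : Fct c f.a1 l ε) (u : Fin 3 → ℝ) :
    hs c l * wf FF h3 f u = ε * u l := by
  have h1 := congrFun (cf_sum FF h3 f u) l
  simp only [Pi.add_apply, Pi.smul_apply, smul_eq_mul, dir_coord FF h] at h1
  have he : ε * ε = 1 := by rcases h.eps with rfl | rfl <;> norm_num
  rw [wf_apply, ← h1]
  linear_combination (-(cf FF h3 f 0 u + cf FF h3 f 1 u + cf FF h3 f 2 u) * hs c l) * he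

include FF in
/-- the facet is unique -/
theorem fct_unique (BF : BoxFoam La F δ κ0) {f f' : Flg (Pc F) c} (hff : f.a1 = f'.a1)
    {l l' : Fin 3} {ε ε' : ℝ} (h : Fct c f.a1 l ε) (h' : Fct c f'.a1 l' ε') : l = l' ∧ ε = ε' := by
  have h3 : Module.finrank ℝ (Fin 3 → ℝ) = 3 := by simp
  have p1 := hs_pos BF c l
  have p2 := hs_pos BF c l'
  rw [← hff] at h'
  have e1 := wf_of_fct FF h3 h (Pi.single l 1)
  have e2 := wf_of_fct FF h3 h' (Pi.single l 1)
  rw [Pi.single_eq_same, mul_one] at e1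
  have hne : wf FF h3 f (Pi.single l 1) ≠ 0 := by
    intro h0
    rw [h0, mul_zero] at e1
    rcases h.eps with h5 | h5 <;> rw [h5] at e1 <;> norm_num at e1
  by_cases hl : l = l'
  · subst hl
    rw [Pi.single_eq_same, mul_one] at e2
    exact ⟨rfl, by rw [← e1, ← e2]⟩
  · rw [Pi.single_eq_of_ne (Ne.symm hl), mul_zero] at e2
    rcases mul_eq_zero.1 e2 with h5 | h5
    · exact absurd h5 p2.ne'
    · exact absurd h5 hne

/-- a point on the boundary of the box is in the cone of a flag -/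
theorem exists_inC (hN : N ≤ 4) (BF : BoxFoam La F δ κ0) {u : Fin 3 → ℝ} (hu : ∀ j, |u j| ≤ hs c j)
    {l : Fin 3} {ε : ℝ} (hε : ε = 1 ∨ ε = -1) (hul : u l = ε * hs c l) (hLa : IsOpen La) :
    ∃ f : Flg (Pc F) c, InC FF h3 f u := by
  have hyc : bc ({c} : Set F) + u ∈ Pc F c := mem_Pc.2 hu
  obtain ⟨f, hf⟩ := exists_flag FF h3 hN c ⟨_, hyc⟩ u
  refine ⟨f, hf, ?_⟩
  have hle : wf FF h3 f u ≤ 1 := by
    have := wf_le_one FF h3 f hyc
    rwa [add_sub_cancel_left] at this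
  have hl := hs_pos BF c l
  have h0 : 0 ≤ wf FF h3 f u := by
    rw [wf_apply]
    have a0 := hf 0
    have a1 := hf 1
    have a2 := hf 2
    linarith
  have hun : u ≠ 0 := by
    rintro rfl
    rw [Pi.zero_apply] at hul
    rcases hε with rfl | rfl <;> linarith
  have hpos : 0 < wf FF h3 f u := by
    refine lt_of_le_of_ne h0 fun h => hun ?_
    have hsum := wf_apply FF h3 f u
    rw [← h] at hsum
    have a0 := hf 0
    have a1 := hf 1
    have a2 := hf 2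
    have z0 : cf FF h3 f 0 u = 0 := by linarith
    have z1 : cf FF h3 f 1 u = 0 := by linarith
    have z2 : cf FF h3 f 2 u = 0 := by linarith
    rw [← cf_sum FF h3 f u, z0, z1, z2]
    simp
  have hm := (proj_mem FF h3 f (hf 0) (hf 1) (hf 2) hpos).1
  have h5 := (mem_Pc.1 (mem_fc.1 hm c (by simp))) l
  rw [Pi.smul_apply, hul, smul_eq_mul, abs_mul, abs_mul, abs_of_pos (inv_pos.2 hpos),
    abs_of_pos hl] at h5
  have he : |ε| = 1 := by rcases hε with rfl | rfl <;> simp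
  rw [he, one_mul] at h5
  have h6 : (wf FF h3 f u)⁻¹ ≤ 1 := by
    by_contra hcon
    push Not at hcon
    nlinarith
  have h7 : 1 ≤ wf FF h3 f u := (inv_le_one₀ hpos).1 h6
  linarith

/-- **a flag on a given facet** -/
theorem exists_fct_flag (hN : N ≤ 4) (BF : BoxFoam La F δ κ0) (hLa : IsOpen La) {u : Fin 3 → ℝ}
    (hu : ∀ j, |u j| ≤ hs c j) {l : Fin 3} {ε : ℝ} (hε : ε = 1 ∨ ε = -1)
    (hul : u l = ε * hs c l) : ∃ f : Flg (Pc F) c, InC FF h3 f u ∧ Fct c f.a1 l ε := by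
  obtain ⟨f, hf⟩ := exists_inC FF h3 hN BF hu hε hul hLa
  obtain ⟨a, hac, ha, hfa⟩ := exists_fct BF hLa hε hu hul
  obtain ⟨g, hg, hi⟩ := perm1 FF h3 hf hac ha
  exact ⟨g, hi, by rw [hg]; exact hfa⟩

/-- **a flag on a given edge of the box** -/
theorem exists_fct_flag2 (hN : N ≤ 4) (BF : BoxFoam La F δ κ0) (hLa : IsOpen La) {u : Fin 3 → ℝ}
    (hu : ∀ j, |u j| ≤ hs c j) {l l' : Fin 3} (hll : l ≠ l') {ε ε' : ℝ} (hε : ε = 1 ∨ ε = -1)
    (hε' : ε' = 1 ∨ ε' = -1) (hul : u l = ε * hs c l) (hul' : u l' = ε' * hs c l') :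
    ∃ f : Flg (Pc F) c, InC FF h3 f u ∧ Fct c f.a1 l ε ∧ Fct c f.a2 l' ε' ∧
      cf FF h3 f 0 u = 0 := by
  obtain ⟨a', hac', ha', hfa'⟩ := exists_fct BF hLa hε' hu hul'
  obtain ⟨f, hf, hfl⟩ := exists_fct_flag FF h3 hN BF hLa hu hε hul
  have hne : f.a1 ≠ a' := by
    intro h
    rw [← h] at hfa'
    exact hll (fct_unique FF BF rfl hfl hfa').1
  have hm := (hf.spec FF h3).1
  obtain ⟨g, h1, h2, h4, h5⟩ := perm2 FF h3 hf f.h1 hac' hne (mem_fc.1 hm f.a1 (by simp)) ha'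
  exact ⟨g, h4, by rw [h1]; exact hfl, by rw [h2]; exact hfa', h5⟩

/-- every flag lies on a facet -/
theorem exists_fct_of_flag (BF : BoxFoam La F δ κ0) (f : Flg (Pc F) c) : ∃ l ε, Fct c f.a1 l ε := by
  obtain ⟨y, hy⟩ := f.ne1
  exact exists_fct_of BF f.h1 (mem_fc.1 hy c (by simp)) (mem_fc.1 hy f.a1 (by simp))

end box

end Crest.Agent.R096.Fbr_628
end

-- ▼ part R096/Fni1_447
section

/-!
# Row 96, FAN-INT (helper447, for 628): the directions of the flags of a dyadic box foam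

`dir_int`: on the half grid of the star of a cell `c` the three directions of every flag of `c` are
integer vectors bounded by `2 R M`; `cf_int`: so the coordinate functionals are, up to one positive
factor, integer vectors bounded by `2 (2 R M)^2`.
-/

set_option autoImplicit false
set_option linter.unusedSectionVars false

open Set

namespace Crest.Agent.R096.Fni_447

open Crest.Agent.R096.Brk1_582 Crest.Agent.R096.Brk2_582 Crest.Agent.R096.Brk3_582
  Crest.Agent.R096.Brk5_582 Crest.Agent.R096.Bsp_628 Crest.Agent.R096.Fbr_628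
  Crest.Agent.R096.Grd_714

section gen

variable {κ : Type*} [Fintype κ] [Nonempty κ] {La : Set (κ → ℝ)} {F : Set (Bx κ)} {δ κ0 : ℝ}

/-- centres of faces of `c`: on the half grid, within half a side of the centre of `c` -/
theorem bc_int (BF : BoxFoam La F δ κ0) {c : F} {o : κ → ℝ} {W : ℝ} {z : κ → ℤ}
    (hg : ∀ c' : F, (Pc F c ∩ Pc F c').Nonempty → ∀ i, ∃ m n : ℤ,
      c'.1.lo i = o i + ((z i : ℝ) + m) * W ∧ c'.1.hi i = o i + ((z i : ℝ) + n) * W)
    {A : Set F} (hc : c ∈ A) (hne : (fc (Pc F) A).Nonempty) (i : κ) :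
    (∃ n : ℤ, bc A i = o i + (2 * (z i : ℝ) + n) * (W / 2)) ∧
      |bc A i - bc {c} i| ≤ c.1.sz / 2 := by
  classical
  obtain ⟨y, hy⟩ := hne
  have hyc : y ∈ Pc F c := mem_fc.1 hy c hc
  have hyLa : y ∈ La := BF.sub _ c.2 hyc
  have hA : A.Finite := (finite_act' BF hyLa).subset (mem_fc'.1 hy)
  have hAne : A.Nonempty := ⟨c, hc⟩
  obtain ⟨a, ha, ha'⟩ := (exists_loA hA hAne i).1
  obtain ⟨b, hb, hb'⟩ := (exists_hiA hA hAne i).1
  have hle1 := (exists_loA hA hAne i).2 c hc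
  have hle2 := (exists_hiA hA hAne i).2 c hc
  have hyk := (mem_fc_iff hA hAne).1 hy i
  constructor
  · obtain ⟨m, _, hm, _⟩ := hg a ⟨y, hyc, mem_fc.1 hy a ha⟩ i
    obtain ⟨_, n, _, hn⟩ := hg b ⟨y, hyc, mem_fc.1 hy b hb⟩ i
    refine ⟨m + n, ?_⟩
    unfold bc
    rw [← ha', ← hb', hm, hn]
    push_cast
    ring
  · have hb1 : bc ({c} : Set F) i = (c.1.lo i + c.1.hi i) / 2 := by
      unfold bc loA hiA
      simp
    have hs : c.1.hi i - c.1.lo i ≤ c.1.sz := c.1.side_le_sz i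
    rw [hb1]
    unfold bc
    rw [abs_le]
    constructor <;> linarith [hyk.1, hyk.2]

end gen

variable {La : Set (Fin 3 → ℝ)} {F : Set (Bx (Fin 3))} {δ κ0 : ℝ}

/-- **FAN-INT, directions** -/
theorem dir_int (BF : BoxFoam La F δ κ0) (hLa : IsOpen La) {R : ℝ} (hR : 1 ≤ R)
    (hcmp : Cmp F R) {o : Fin 3 → ℝ} {u M : ℝ} (hu : 0 < u) (hM : 0 < M)
    (hdy : ∀ C ∈ F, Dy o u M C) (c : F) :
    ∃ w > 0, (∃ z : Fin 3 → ℤ, ∀ i, bc (F := F) {c} i = o i + z i * w) ∧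
      c.1.sz ≤ 2 * R * M * w ∧
      ∀ f : Flg (Pc F) c, ∃ D : Matrix (Fin 3) (Fin 3) ℤ, D.det ≠ 0 ∧
        (∀ i j, |(D i j : ℝ)| ≤ 2 * R * M) ∧ ∀ i j, dir (bc (F := F)) f j i = w * D i j := by
  classical
  obtain ⟨k, z, hs, hz, hst⟩ := Dy.star BF hR hcmp hu hM hdy c
  set W : ℝ := u * (2 : ℝ) ^ (-k) with hW
  have hW0 : 0 < W := by positivity
  have hg : ∀ c' : F, (Pc F c ∩ Pc F c').Nonempty → ∀ i, ∃ m n : ℤ,
      c'.1.lo i = o i + ((z i : ℝ) + m) * W ∧ c'.1.hi i = o i + ((z i : ℝ) + n) * W := by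
    intro c' hc' i
    obtain ⟨m, n, _, _, h1, h2⟩ := hst c' hc' i
    exact ⟨m, n, h1, h2⟩
  have hcc : (fc (Pc F) ({c} : Set F)).Nonempty :=
    ⟨c.1.lo, by
      rw [mem_fc]
      rintro x rfl
      exact Bx.mem_set.2 fun i => ⟨le_rfl, (BF.pos _ x.2 i).le⟩⟩
  refine ⟨W / 2, by positivity, ?_, ?_, ?_⟩
  · choose n hn using fun i => (bc_int BF hg (mem_singleton c) hcc i).1
    refine ⟨fun i => 2 * z i + n i, fun i => ?_⟩
    rw [hn i]
    push_cast
    ring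
  · have : 2 * R * M * (W / 2) = R * M * W := by ring
    rw [this]
    exact hs
  · intro f
    have hd : ∀ j i, ∃ d : ℤ, dir (bc (F := F)) f j i = (W / 2) * d ∧
        |dir (bc (F := F)) f j i| ≤ c.1.sz / 2 := by
      intro j i
      obtain ⟨⟨n0, hn0⟩, -⟩ := bc_int BF hg (mem_singleton c) hcc i
      have key : ∀ A : Set F, c ∈ A → (fc (Pc F) A).Nonempty →
          ∃ d : ℤ, bc A i - bc {c} i = (W / 2) * d ∧ |bc A i - bc {c} i| ≤ c.1.sz / 2 := by
        intro A hcA hA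
        obtain ⟨⟨n, hn⟩, h2⟩ := bc_int BF hg hcA hA i
        refine ⟨n - n0, ?_, h2⟩
        rw [hn, hn0]
        push_cast
        ring
      fin_cases j
      · exact key {c, f.a1} (by simp) f.ne1
      · exact key {c, f.a1, f.a2} (by simp) f.ne2
      · exact key {c, f.a1, f.a2, f.a3} (by simp) f.ne
    choose d hd1 hd2 using hd
    refine ⟨Matrix.of fun i j => d j i, ?_, ?_, ?_⟩
    · intro hdet
      have hFo := foam BF hLa
      have hli := li hFo f
      have h1 : LinearIndependent ℝ (fun j => (W / 2) • fun i => (d j i : ℝ)) := by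
        have : (fun j => (W / 2) • fun i => (d j i : ℝ)) = dir (bc (F := F)) f := by
          funext j i
          simp only [Pi.smul_apply, smul_eq_mul]
          exact (hd1 j i).symm
        rw [this]
        exact hli
      have h2 : LinearIndependent ℝ (fun j => fun i => (d j i : ℝ)) := by
        have h3 := h1.units_smul (fun _ => (Units.mk0 (W / 2) (by positivity))⁻¹)
        convert h3 using 1
        funext j i
        simp only [Pi.smul_apply', Pi.smul_apply, Units.smul_def, Units.val_inv_eq_inv_val,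
          Units.val_mk0, smul_eq_mul]
        field_simp
      have h3 : IsUnit (Matrix.of fun j i => (d j i : ℝ)) :=
        Matrix.linearIndependent_rows_iff_isUnit.1 h2
      have h4 : (Matrix.of fun j i => (d j i : ℝ)).det ≠ 0 := by
        have := (Matrix.isUnit_iff_isUnit_det _).1 h3
        exact this.ne_zero
      apply h4
      have h5 : (Matrix.of fun j i => (d j i : ℝ)) =
          ((Matrix.of fun i j => d j i).map (Int.castRingHom ℝ)).transpose := by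
        ext j i
        simp
      rw [h5, Matrix.det_transpose]
      have h6 := (Int.castRingHom ℝ).map_det (Matrix.of fun i j => d j i)
      rw [hdet] at h6
      simpa using h6.symm
    · intro i j
      have h1 := hd2 j i
      rw [hd1 j i, abs_mul, abs_of_pos (by positivity : 0 < W / 2)] at h1
      have h2 : W / 2 * |((d j i : ℤ) : ℝ)| ≤ W / 2 * (2 * R * M) := by
        refine h1.trans ?_
        have h3 : 0 ≤ R * M * W := by positivity
        nlinarith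
      exact le_of_mul_le_mul_left h2 (by positivity)
    · intro i j
      exact hd1 j i

/-- Cramer's rule for the coordinate functionals of a flag with integer directions -/
theorem cf_cramer {b : Set F → (Fin 3 → ℝ)} {N : ℕ} (FF : Foam La (Pc F) b N)
    (h3 : Module.finrank ℝ (Fin 3 → ℝ) = 3) {c : F} (f : Flg (Pc F) c) {w : ℝ}
    {D : Matrix (Fin 3) (Fin 3) ℤ} (hD : ∀ i j, dir b f j i = w * D i j) (k : Fin 3)
    (x : Fin 3 → ℝ) :
    w * (D.det : ℝ) * cf FF h3 f k x = ∑ i, (D.adjugate k i : ℝ) * x i := by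
  have h1 := cf_sum FF h3 f x
  have hx : ∀ i, x i = w * ∑ j, (D i j : ℝ) * cf FF h3 f j x := by
    intro i
    have h2 := congrFun h1 i
    simp only [Pi.add_apply, Pi.smul_apply, smul_eq_mul, hD] at h2
    rw [← h2, Fin.sum_univ_three]
    ring
  have h4 : ∀ j, ∑ i, (D.adjugate k i : ℝ) * (D i j : ℝ) = if k = j then (D.det : ℝ) else 0 := by
    intro j
    have h5 := congrFun (congrFun (Matrix.adjugate_mul D) k) j
    rw [Matrix.mul_apply] at h5
    have h6 : ((∑ i, D.adjugate k i * D i j : ℤ) : ℝ) = ((D.det • (1 : Matrix (Fin 3) (Fin 3) ℤ)) k j : ℤ) := by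
      rw [h5]
    rw [Matrix.smul_apply, Matrix.one_apply] at h6
    push_cast at h6
    rw [h6]
    split_ifs <;> simp
  calc w * (D.det : ℝ) * cf FF h3 f k x
      = w * ∑ j, (if k = j then (D.det : ℝ) else 0) * cf FF h3 f j x := by
        simp [mul_assoc]
    _ = w * ∑ j, (∑ i, (D.adjugate k i : ℝ) * (D i j : ℝ)) * cf FF h3 f j x := by
        simp only [h4]
    _ = ∑ i, (D.adjugate k i : ℝ) * x i := by
        simp only [Finset.sum_mul, Finset.mul_sum]
        rw [Finset.sum_comm]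
        apply Finset.sum_congr rfl
        intro i _
        rw [hx i]
        simp only [Finset.mul_sum]
        apply Finset.sum_congr rfl
        intro j _
        ring

theorem adj_bound {D : Matrix (Fin 3) (Fin 3) ℤ} {B : ℝ} (hB : ∀ i j, |(D i j : ℝ)| ≤ B)
    (k i : Fin 3) : |((D.adjugate k i : ℤ) : ℝ)| ≤ 2 * B ^ 2 := by
  have hB0 : 0 ≤ B := (abs_nonneg _).trans (hB 0 0)
  have h2 : ∀ a b c d : Fin 3, |((D a b : ℝ) * (D c d : ℝ))| ≤ B ^ 2 := by
    intro a b c d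
    rw [abs_mul, sq]
    exact mul_le_mul (hB a b) (hB c d) (abs_nonneg _) hB0
  have key : ∀ a b c d a' b' c' d' : Fin 3,
      |((D a b : ℝ) * (D c d : ℝ)) - ((D a' b' : ℝ) * (D c' d' : ℝ))| ≤ 2 * B ^ 2 := by
    intro a b c d a' b' c' d'
    refine (abs_sub _ _).trans ?_
    linarith [h2 a b c d, h2 a' b' c' d']
  have key2 : ∀ a b c d a' b' c' d' : Fin 3,
      |-((D a b : ℝ) * (D c d : ℝ)) + ((D a' b' : ℝ) * (D c' d' : ℝ))| ≤ 2 * B ^ 2 := by
    intro a b c d a' b' c' d'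
    have := key a' b' c' d' a b c d
    rw [show -((D a b : ℝ) * (D c d : ℝ)) + ((D a' b' : ℝ) * (D c' d' : ℝ)) =
      ((D a' b' : ℝ) * (D c' d' : ℝ)) - ((D a b : ℝ) * (D c d : ℝ)) by ring]
    exact this
  rw [Matrix.adjugate_fin_three]
  fin_cases k <;> fin_cases i <;> simp <;> first | exact key _ _ _ _ _ _ _ _ | exact key2 _ _ _ _ _ _ _ _

/-- the same functionals with one POSITIVE factor for the three of them -/
theorem cf_int_of {b : Set F → (Fin 3 → ℝ)} {N : ℕ} (FF : Foam La (Pc F) b N)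
    (h3 : Module.finrank ℝ (Fin 3 → ℝ) = 3) {c : F} (f : Flg (Pc F) c) {w B : ℝ} (hw : 0 < w)
    {D : Matrix (Fin 3) (Fin 3) ℤ} (h0 : D.det ≠ 0) (hB : ∀ i j, |(D i j : ℝ)| ≤ B)
    (hD : ∀ i j, dir b f j i = w * D i j) :
    0 < w * |(D.det : ℝ)| ∧ ∃ ν : Fin 3 → Fin 3 → ℤ, (∀ k i, |(ν k i : ℝ)| ≤ 2 * B ^ 2) ∧
      ∀ k x, w * |(D.det : ℝ)| * cf FF h3 f k x = ∑ i, (ν k i : ℝ) * x i := by
  have hd0 : (D.det : ℝ) ≠ 0 := by exact_mod_cast h0
  refine ⟨mul_pos hw (abs_pos.2 hd0), fun k i => D.det.sign * D.adjugate k i, ?_, ?_⟩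
  · intro k i
    have h1 : |((D.det.sign : ℤ) : ℝ)| = 1 := by
      rcases lt_or_gt_of_ne h0 with h | h
      · rw [Int.sign_eq_neg_one_of_neg h]; norm_num
      · rw [Int.sign_eq_one_of_pos h]; norm_num
    rw [Int.cast_mul, abs_mul, h1, one_mul]
    exact adj_bound hB k i
  · intro k x
    have h1 : |(D.det : ℝ)| = ((D.det.sign : ℤ) : ℝ) * (D.det : ℝ) := by
      rcases lt_or_gt_of_ne h0 with h | h
      · rw [Int.sign_eq_neg_one_of_neg h, abs_of_neg (by exact_mod_cast h)]; push_cast; ring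
      · rw [Int.sign_eq_one_of_pos h, abs_of_pos (by exact_mod_cast h)]; push_cast; ring
    have h2 := cf_cramer FF h3 f hD k x
    calc w * |(D.det : ℝ)| * cf FF h3 f k x
        = ((D.det.sign : ℤ) : ℝ) * (w * (D.det : ℝ) * cf FF h3 f k x) := by rw [h1]; ring
      _ = _ := by
        rw [h2, Finset.mul_sum]
        apply Finset.sum_congr rfl
        intro i _
        push_cast
        ring

/-- integer combinations of the three functionals -/
theorem comb_int {g : Fin 3 → (Fin 3 → ℝ) → ℝ} {s B : ℝ} {ν : Fin 3 → Fin 3 → ℤ}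
    (hν : ∀ k i, |(ν k i : ℝ)| ≤ 2 * B ^ 2)
    (h : ∀ k x, s * g k x = ∑ i, (ν k i : ℝ) * x i) {K : ℝ} {p : Fin 3 → ℤ}
    (hp : ∀ k, |(p k : ℝ)| ≤ K) :
    ∃ μ : Fin 3 → ℤ, (∀ i, |(μ i : ℝ)| ≤ 6 * K * B ^ 2) ∧
      ∀ x, s * (p 0 * g 0 x + p 1 * g 1 x + p 2 * g 2 x) = ∑ i, (μ i : ℝ) * x i := by
  refine ⟨fun i => p 0 * ν 0 i + p 1 * ν 1 i + p 2 * ν 2 i, ?_, ?_⟩
  · intro i
    have hK : 0 ≤ K := (abs_nonneg _).trans (hp 0)
    have h1 : ∀ k, |(p k : ℝ) * (ν k i : ℝ)| ≤ K * (2 * B ^ 2) := by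
      intro k
      rw [abs_mul]
      exact mul_le_mul (hp k) (hν k i) (abs_nonneg _) hK
    push_cast
    have h2 := abs_add_le ((p 0 : ℝ) * ν 0 i + p 1 * ν 1 i) (p 2 * ν 2 i)
    have h3 := abs_add_le ((p 0 : ℝ) * ν 0 i) (p 1 * ν 1 i)
    linarith [h1 0, h1 1, h1 2]
  · intro x
    have h0 := h 0 x
    have h1 := h 1 x
    have h2 := h 2 x
    calc s * (p 0 * g 0 x + p 1 * g 1 x + p 2 * g 2 x)
        = p 0 * (s * g 0 x) + p 1 * (s * g 1 x) + p 2 * (s * g 2 x) := by ring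
      _ = _ := by
        rw [h0, h1, h2, Finset.mul_sum, Finset.mul_sum, Finset.mul_sum, ← Finset.sum_add_distrib,
          ← Finset.sum_add_distrib]
        apply Finset.sum_congr rfl
        intro i _
        push_cast
        ring

/-- **FAN-INT, functionals** -/
theorem cf_int (BF : BoxFoam La F δ κ0) (hLa : IsOpen La) {R : ℝ} (hR : 1 ≤ R)
    (hcmp : Cmp F R) {o : Fin 3 → ℝ} {u M : ℝ} (hu : 0 < u) (hM : 0 < M)
    (hdy : ∀ C ∈ F, Dy o u M C) {N : ℕ} (FF : Foam La (Pc F) (bc (F := F)) N)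
    (h3 : Module.finrank ℝ (Fin 3 → ℝ) = 3) (c : F) :
    ∃ w > 0, (∃ z : Fin 3 → ℤ, ∀ i, bc (F := F) {c} i = o i + z i * w) ∧
      c.1.sz ≤ 2 * R * M * w ∧
      ∀ f : Flg (Pc F) c, ∃ D : Matrix (Fin 3) (Fin 3) ℤ, D.det ≠ 0 ∧
        (∀ i j, |(D i j : ℝ)| ≤ 2 * R * M) ∧ (∀ i j, dir (bc (F := F)) f j i = w * D i j) ∧
        ∃ s > 0, s = w * |(D.det : ℝ)| ∧ ∃ ν : Fin 3 → Fin 3 → ℤ,
          (∀ k i, |(ν k i : ℝ)| ≤ 2 * (2 * R * M) ^ 2) ∧
          (∀ k x, s * cf FF h3 f k x = ∑ i, (ν k i : ℝ) * x i) ∧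
          ∀ (K : ℝ) (p : Fin 3 → ℤ), (∀ k, |(p k : ℝ)| ≤ K) →
            ∃ μ : Fin 3 → ℤ, (∀ i, |(μ i : ℝ)| ≤ 6 * K * (2 * R * M) ^ 2) ∧
              ∀ x, s * (p 0 * cf FF h3 f 0 x + p 1 * cf FF h3 f 1 x + p 2 * cf FF h3 f 2 x) =
                ∑ i, (μ i : ℝ) * x i := by
  obtain ⟨w, hw, hz, hs, h⟩ := dir_int BF hLa hR hcmp hu hM hdy c
  refine ⟨w, hw, hz, hs, fun f => ?_⟩
  obtain ⟨D, h0, hB, hD⟩ := h f
  obtain ⟨hpos, ν, hν, hcf⟩ := cf_int_of FF h3 f hw h0 hB hD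
  exact ⟨D, h0, hB, hD, _, hpos, rfl, ν, hν, hcf, fun K p hp =>
    comb_int (g := fun k x => cf FF h3 f k x) hν hcf hp⟩

end Crest.Agent.R096.Fni_447
end

-- ▼ part R096/Fbr4_628

/-!
# Row 96, FAN (helper628), part 4: the prism shell of a brick (`Mal10_874.PS`)

`BD`: integer data of a brick (unit `w`, centre `z`, half sides `h`, coordinate functionals `ν`);
`vec`: the integer inequality of a wall of an `M`-cell on a face of the brick; `faceF`: the tiling of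
a facet by the `M`-cells; `edgeF`: the tiling of a box edge by the `M`-edges.
-/

set_option autoImplicit false
set_option linter.unusedSectionVars false

open Set

namespace Crest.Agent.R096.Fbr_628

open Crest.Agent.R096.Brk1_582 Crest.Agent.R096.Brk2_582 Crest.Agent.R096.Grd_714
  Crest.Agent.R096.Brk3_582 Crest.Agent.R096.Brk5_582 Crest.Agent.R096.Bsp_628
  Crest.Agent.R096.Mal_874 Crest.Agent.R096.Cut_874

variable {La : Set (Fin 3 → ℝ)} {F : Set (Bx (Fin 3))} {δ κ0 : ℝ} {N : ℕ}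

/-- integer data of a brick -/
structure BD (FF : Foam La (Pc F) (bc (F := F)) N) (h3 : Module.finrank ℝ (Fin 3 → ℝ) = 3)
    (c : F) (o : Fin 3 → ℝ) (B : ℝ) where
  w : ℝ
  w0 : 0 < w
  z : Fin 3 → ℤ
  ctr : ∀ l, bc ({c} : Set F) l = o l + z l * w
  h : Fin 3 → ℤ
  h0 : ∀ l, 0 < h l
  side : ∀ l, hs c l = h l * w
  dle : ∀ (f : Flg (Pc F) c) j l, |dir (bc (F := F)) f j l| ≤ B * w
  s : Flg (Pc F) c → ℝ
  s0 : ∀ f, 0 < s f
  ν : Flg (Pc F) c → Fin 3 → Fin 3 → ℤ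
  rep : ∀ f k x, s f * cf FF h3 f k x = ∑ i, (ν f k i : ℝ) * x i
  bnd : ∀ f k i, |(ν f k i : ℝ)| ≤ 2 * B ^ 2

/-- **the integer data of the bricks of a dyadic box foam** -/
theorem exists_BD (BF : BoxFoam La F δ κ0) (hLa : IsOpen La) {R : ℝ} (hR : 1 ≤ R)
    (hcmp : Cmp F R) {o : Fin 3 → ℝ} {u Md : ℝ} (hu : 0 < u) (hMd : 0 < Md)
    (hdy : ∀ C ∈ F, Dy o u Md C) (FF : Foam La (Pc F) (bc (F := F)) N) (hN : N ≤ 4)
    (h3 : Module.finrank ℝ (Fin 3 → ℝ) = 3) (c : F) : Nonempty (BD FF h3 c o (2 * R * Md)) := by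
  obtain ⟨w, hw, ⟨z, hz⟩, hsz, hf⟩ :=
    Fni_447.cf_int BF hLa hR hcmp hu hMd hdy FF h3 c
  choose D hD0 hDB hD s hs0 hsw ν hν hrep hcomb using hf
  have hh : ∀ l, ∃ h : ℤ, hs c l = h * w := by
    intro l
    obtain ⟨f, -, hfl⟩ := exists_fct_flag FF h3 hN BF hLa (c := c) (l := l)
      (u := hs c l • (Pi.single l 1 : Fin 3 → ℝ)) (ε := 1) (by
        intro j
        rw [Pi.smul_apply, smul_eq_mul]
        by_cases hj : j = l
        · subst hj
          rw [Pi.single_eq_same, mul_one, abs_of_pos (hs_pos BF c j)]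
        · rw [Pi.single_eq_of_ne hj, mul_zero, abs_zero]
          exact (hs_pos BF c j).le) (Or.inl rfl) (by simp)
    refine ⟨D f l 0, ?_⟩
    have h1 := dir_coord FF hfl 0
    rw [hD, one_mul] at h1
    rw [← h1]; ring
  choose h hh using hh
  refine ⟨⟨w, hw, z, hz, h, fun l => ?_, hh, fun f j l => ?_, s, hs0, ν, hrep, hν⟩⟩
  · have h1 := hs_pos BF c l
    rw [hh l] at h1
    have : (0 : ℝ) < h l := pos_of_mul_pos_left h1 hw.le
    exact_mod_cast this
  · rw [hD, abs_mul, abs_of_pos hw, mul_comm]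
    exact mul_le_mul_of_nonneg_right (hDB f l j) hw.le

namespace BD

variable {FF : Foam La (Pc F) (bc (F := F)) N} {h3 : Module.finrank ℝ (Fin 3 → ℝ) = 3} {c : F}
  {o : Fin 3 → ℝ} {B : ℝ} (D : BD FF h3 c o B) (M : ℕ)

include D in
theorem hs_pos' (l : Fin 3) : 0 < hs c l := by
  rw [D.side]
  have h1 : (0 : ℝ) < D.h l := by exact_mod_cast D.h0 l
  exact mul_pos h1 D.w0

/-- lower corner -/
def lo : Fin 3 → ℤ := fun l => M * (D.z l - D.h l)

/-- upper corner -/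
def hi : Fin 3 → ℤ := fun l => M * (D.z l + D.h l)

/-- the point with integer coordinates `X` -/
noncomputable def pt (X : Fin 3 → ℝ) : Fin 3 → ℝ := fun l => o l + D.w / M * X l

/-- displacement from the centre of the point with integer coordinates `X`, projected on the face
`σ` of the brick -/
noncomputable def dsp (σ : Fin 3 → SignType) (X : Fin 3 → ℝ) : Fin 3 → ℝ :=
  fun l => if σ l = 0 then D.w / M * (X l - M * D.z l) else ((σ l : SignType) : ℝ) * hs c l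

/-- the integer inequality of a wall -/
def vec (σ : Fin 3 → SignType) (f : Flg (Pc F) c) (p0 p1 n : ℤ) : (Fin 3 → ℤ) × ℤ :=
  (fun l => if σ l = 0 then p0 * D.ν f 0 l + p1 * D.ν f 1 l else 0,
    ∑ l, if σ l = 0 then (p0 * D.ν f 0 l + p1 * D.ν f 1 l) * (M * D.z l) else
      -((M * (p0 * D.ν f 0 l + p1 * D.ν f 1 l) - n * (D.ν f 0 l + D.ν f 1 l + D.ν f 2 l)) *
        ((σ l : SignType) : ℤ) * D.h l))

/-- the functional of a wall -/
noncomputable def fun' (FF : Foam La (Pc F) (bc (F := F)) N)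
    (h3 : Module.finrank ℝ (Fin 3 → ℝ) = 3) (M : ℕ) (f : Flg (Pc F) c) (p0 p1 n : ℤ) :
    (Fin 3 → ℝ) →L[ℝ] ℝ :=
  (M : ℝ) • ((p0 : ℝ) • cf FF h3 f 0 + (p1 : ℝ) • cf FF h3 f 1) - (n : ℝ) • wf FF h3 f

variable {M}

theorem vec_eq (hM : 0 < M) {σ : Fin 3 → SignType} {f : Flg (Pc F) c}
    (hσ : ∀ l, σ l = 0 → D.ν f 0 l + D.ν f 1 l + D.ν f 2 l = 0) (p0 p1 n : ℤ) (X : Fin 3 → ℝ) :
    D.s f / D.w * fun' FF h3 M f p0 p1 n (D.dsp M σ X) =
      dt (rv (D.vec M σ f p0 p1 n).1) X - (D.vec M σ f p0 p1 n).2 := by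
  have hM' : (M : ℝ) ≠ 0 := by exact_mod_cast hM.ne'
  have hw := D.w0.ne'
  set u := D.dsp M σ X with hu
  have e1 : D.s f * fun' FF h3 M f p0 p1 n u =
      M * (p0 * (∑ i, (D.ν f 0 i : ℝ) * u i) + p1 * ∑ i, (D.ν f 1 i : ℝ) * u i) -
      n * ((∑ i, (D.ν f 0 i : ℝ) * u i) + (∑ i, (D.ν f 1 i : ℝ) * u i) +
        ∑ i, (D.ν f 2 i : ℝ) * u i) := by
    rw [← D.rep, ← D.rep, ← D.rep]
    have : fun' FF h3 M f p0 p1 n u = M * (p0 * cf FF h3 f 0 u + p1 * cf FF h3 f 1 u) -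
      n * (cf FF h3 f 0 u + cf FF h3 f 1 u + cf FF h3 f 2 u) := rfl
    rw [this]; ring
  have e2 : D.s f / D.w * fun' FF h3 M f p0 p1 n u =
      ∑ i, (1 / D.w * ((M * (p0 * D.ν f 0 i + p1 * D.ν f 1 i) -
        n * (D.ν f 0 i + D.ν f 1 i + D.ν f 2 i)) * u i)) := by
    rw [div_mul_eq_mul_div, e1, Fin.sum_univ_three, Fin.sum_univ_three, Fin.sum_univ_three,
      Fin.sum_univ_three]
    ring
  rw [e2]
  unfold dt vec
  simp only [Int.cast_sum, ← Finset.sum_sub_distrib, rv]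
  refine Finset.sum_congr rfl fun l _ => ?_
  by_cases hl : σ l = 0
  · have hn : ((D.ν f 0 l : ℝ) + D.ν f 1 l + D.ν f 2 l) = 0 := by exact_mod_cast hσ l hl
    rw [hn, hu]
    simp only [dsp, if_pos hl]
    push_cast
    field_simp
    ring
  · rw [hu]
    simp only [dsp, if_neg hl, D.side]
    push_cast
    field_simp
    ring

theorem null_of_fct {f : Flg (Pc F) c} {l0 : Fin 3} {ε : ℝ} (h : Fct c f.a1 l0 ε) {l : Fin 3}
    (hl : l ≠ l0) : D.ν f 0 l + D.ν f 1 l + D.ν f 2 l = 0 := by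
  have h1 := wf_of_fct FF h3 h (Pi.single l 1)
  rw [Pi.single_eq_of_ne hl.symm, mul_zero] at h1
  have h2 : wf FF h3 f (Pi.single l 1) = 0 := (mul_eq_zero.1 h1).resolve_left (D.hs_pos' l0).ne'
  have h4 : ∀ k, D.s f * cf FF h3 f k (Pi.single l 1) = D.ν f k l := by
    intro k
    rw [D.rep, Finset.sum_eq_single l]
    · simp
    · intro m _ hm
      simp [Pi.single_eq_of_ne hm]
    · intro h
      exact absurd (Finset.mem_univ l) h
  have h5 : ((D.ν f 0 l : ℝ) + D.ν f 1 l + D.ν f 2 l) = 0 := by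
    rw [← h4, ← h4, ← h4, ← mul_add, ← mul_add, ← wf_apply, h2, mul_zero]
  exact_mod_cast h5

theorem fac_pos (f : Flg (Pc F) c) : 0 < D.s f / D.w := div_pos (D.s0 f) D.w0

theorem vec_le (hM : 0 < M) {σ : Fin 3 → SignType} {f : Flg (Pc F) c} {l0 : Fin 3} {ε : ℝ}
    (h : Fct c f.a1 l0 ε) (h0 : σ l0 ≠ 0) {p0 p1 n : ℤ} {X : Fin 3 → ℝ} :
    dt (rv (D.vec M σ f p0 p1 n).1) X ≤ (D.vec M σ f p0 p1 n).2 ↔
      fun' FF h3 M f p0 p1 n (D.dsp M σ X) ≤ 0 := by
  have h1 := D.vec_eq hM (σ := σ) (f := f)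
    (fun l hl => D.null_of_fct h fun e => h0 (e ▸ hl)) p0 p1 n X
  have h2 := D.fac_pos f
  constructor
  · intro h5
    by_contra h6
    push Not at h6
    have := mul_pos h2 h6
    linarith
  · intro h5
    have := mul_nonpos_of_nonneg_of_nonpos h2.le h5
    linarith

theorem vec_lt (hM : 0 < M) {σ : Fin 3 → SignType} {f : Flg (Pc F) c} {l0 : Fin 3} {ε : ℝ}
    (h : Fct c f.a1 l0 ε) (h0 : σ l0 ≠ 0) {p0 p1 n : ℤ} {X : Fin 3 → ℝ} :
    dt (rv (D.vec M σ f p0 p1 n).1) X < (D.vec M σ f p0 p1 n).2 ↔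
      fun' FF h3 M f p0 p1 n (D.dsp M σ X) < 0 := by
  have h1 := D.vec_eq hM (σ := σ) (f := f)
    (fun l hl => D.null_of_fct h fun e => h0 (e ▸ hl)) p0 p1 n X
  have h2 := D.fac_pos f
  constructor
  · intro h5
    by_contra h6
    push Not at h6
    have := mul_nonneg h2.le h6
    linarith
  · intro h5
    have := mul_neg_of_pos_of_neg h2 h5
    linarith

theorem vec_zero (σ : Fin 3 → SignType) (f : Flg (Pc F) c) (p0 p1 n : ℤ) {l : Fin 3}
    (hl : σ l ≠ 0) : (D.vec M σ f p0 p1 n).1 l = 0 := by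
  simp only [vec, if_neg hl]

theorem vec_bnd (σ : Fin 3 → SignType) (f : Flg (Pc F) c) {p0 p1 : ℤ} (n : ℤ) (h0 : |p0| ≤ 1)
    (h1 : |p1| ≤ 1) (l : Fin 3) : |((D.vec M σ f p0 p1 n).1 l : ℝ)| ≤ 4 * B ^ 2 := by
  by_cases hl : σ l = 0
  · simp only [vec, if_pos hl]
    push_cast
    have a0 := D.bnd f 0 l
    have a1 := D.bnd f 1 l
    have b0 : |(p0 : ℝ)| ≤ 1 := by exact_mod_cast h0
    have b1 : |(p1 : ℝ)| ≤ 1 := by exact_mod_cast h1
    have := abs_add_le ((p0 : ℝ) * D.ν f 0 l) (p1 * D.ν f 1 l)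
    rw [abs_mul, abs_mul] at this
    have c0 : |(p0 : ℝ)| * |(D.ν f 0 l : ℝ)| ≤ 1 * (2 * B ^ 2) :=
      mul_le_mul b0 a0 (abs_nonneg _) zero_le_one
    have c1 : |(p1 : ℝ)| * |(D.ν f 1 l : ℝ)| ≤ 1 * (2 * B ^ 2) :=
      mul_le_mul b1 a1 (abs_nonneg _) zero_le_one
    linarith
  · rw [D.vec_zero σ f p0 p1 n hl, Int.cast_zero, abs_zero]
    positivity

/-- the range of a free coordinate -/
theorem dsp_range (hM : 0 < M) {σ : Fin 3 → SignType} {X : Fin 3 → ℝ} {l : Fin 3} (hl : σ l = 0) :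
    |D.dsp M σ X l| ≤ hs c l ↔ (D.lo M l : ℝ) ≤ X l ∧ X l ≤ D.hi M l := by
  have hM' : (0 : ℝ) < M := by exact_mod_cast hM
  have hw := D.w0
  simp only [dsp, if_pos hl, D.side, lo, hi]
  push_cast
  have e : D.w / M * (X l - M * D.z l) = D.w * ((X l - M * D.z l) / M) := by ring
  rw [e, abs_mul, abs_of_pos hw, mul_comm (D.h l : ℝ), mul_le_mul_iff_right₀ hw, abs_le,
    le_div_iff₀ hM', div_le_iff₀ hM']
  constructor
  · rintro ⟨h1, h2⟩
    constructor <;> linarith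
  · rintro ⟨h1, h2⟩
    constructor <;> linarith

theorem sign_cast {ε : SignType} (h : ε ≠ 0) : (ε : ℝ) = 1 ∨ (ε : ℝ) = -1 := by
  rcases ε with _ | _ | _
  · exact absurd rfl h
  · right; simp
  · left; simp

theorem dsp_abs {σ : Fin 3 → SignType} {X : Fin 3 → ℝ} {l : Fin 3} (hl : σ l ≠ 0) :
    |D.dsp M σ X l| ≤ hs c l := by
  simp only [dsp, if_neg hl]
  rw [abs_mul, abs_of_pos (D.hs_pos' l)]
  rcases sign_cast hl with h | h <;> rw [h] <;> simp

theorem dsp_coord {σ : Fin 3 → SignType} {X : Fin 3 → ℝ} {l : Fin 3} (hl : σ l ≠ 0) :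
    D.dsp M σ X l = ((σ l : SignType) : ℝ) * hs c l := by
  simp only [dsp, if_neg hl]

theorem abs_dsp_le (hM : 0 < M) {σ : Fin 3 → SignType} {X : Fin 3 → ℝ}
    (h : ∀ l, σ l = 0 → (D.lo M l : ℝ) ≤ X l ∧ X l ≤ D.hi M l) (l : Fin 3) :
    |D.dsp M σ X l| ≤ hs c l := by
  by_cases hl : σ l = 0
  · exact (D.dsp_range hM hl).2 (h l hl)
  · exact D.dsp_abs hl

/-- a point of the face from its displacement -/
theorem exists_X (hM : 0 < M) {σ : Fin 3 → SignType} {u : Fin 3 → ℝ}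
    (hu : ∀ l, σ l ≠ 0 → u l = ((σ l : SignType) : ℝ) * hs c l) : ∃ X, D.dsp M σ X = u := by
  have hM' : (M : ℝ) ≠ 0 := by exact_mod_cast hM.ne'
  have hw := D.w0.ne'
  refine ⟨fun l => M / D.w * u l + M * D.z l, funext fun l => ?_⟩
  by_cases hl : σ l = 0
  · simp only [dsp, if_pos hl]
    field_simp
    ring
  · rw [D.dsp_coord hl, hu l hl]

/-- real points -/
theorem pt_eq (hM : 0 < M) {σ : Fin 3 → SignType} {X : Fin 3 → ℝ}
    (h1 : ∀ l, σ l = 1 → X l = D.hi M l) (h2 : ∀ l, σ l = -1 → X l = D.lo M l) :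
    D.pt M X = bc ({c} : Set F) + D.dsp M σ X := by
  have hM' : (M : ℝ) ≠ 0 := by exact_mod_cast hM.ne'
  funext l
  rw [Pi.add_apply, D.ctr]
  simp only [pt, dsp]
  rcases hl : σ l with _ | _ | _
  · have : (SignType.zero : SignType) = 0 := rfl
    rw [if_pos this]
    field_simp
    ring
  · have h3 := h2 l hl
    have : (SignType.neg : SignType) ≠ 0 := by decide
    rw [if_neg this, h3, D.side]
    simp only [lo]
    have e : ((SignType.neg : SignType) : ℝ) = -1 := by simp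
    rw [e]
    push_cast
    field_simp
    ring
  · have h3 := h1 l hl
    have : (SignType.pos : SignType) ≠ 0 := by decide
    rw [if_neg this, h3, D.side]
    simp only [hi]
    have e : ((SignType.pos : SignType) : ℝ) = 1 := by simp
    rw [e]
    push_cast
    field_simp
    ring

/-! ### the facets -/

theorem dat_a1 (t : Tc (Pc F) c M) (k : Fin 4) : (dat t k).1.a1 = t.1.1.a1 := by
  unfold dat
  split_ifs with h
  · fin_cases k <;> rfl
  · fin_cases k <;> rfl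

theorem ineq_eq (t : Tc (Pc F) c M) (k : Fin 4) :
    ineq FF h3 t k = fun' FF h3 M (dat t k).1 (dat t k).2.1 (dat t k).2.2.1 (dat t k).2.2.2 := rfl

/-- the inequalities of an `M`-cell -/
noncomputable def cellG (σ : Fin 3 → SignType) (t : Tc (Pc F) c M) :
    Finset ((Fin 3 → ℤ) × ℤ) :=
  Finset.univ.image fun k : Fin 4 =>
    D.vec M σ (dat t k).1 (dat t k).2.1 (dat t k).2.2.1 (dat t k).2.2.2

theorem forall_cellG {σ : Fin 3 → SignType} {t : Tc (Pc F) c M}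
    {Q : (Fin 3 → ℤ) × ℤ → Prop} : (∀ p ∈ D.cellG σ t, Q p) ↔
      ∀ k, Q (D.vec M σ (dat t k).1 (dat t k).2.1 (dat t k).2.2.1 (dat t k).2.2.2) := by
  unfold cellG
  simp only [Finset.mem_image, Finset.mem_univ, true_and, forall_exists_index,
    forall_apply_eq_imp_iff]

theorem mem_ZP_cell (hM : 0 < M) {σ : Fin 3 → SignType} {t : Tc (Pc F) c M} {l0 : Fin 3} {ε : ℝ}
    (h : Fct c t.1.1.a1 l0 ε) (h0 : σ l0 ≠ 0) {X : Fin 3 → ℝ} :
    X ∈ ZP (D.cellG σ t) ↔ ∀ k, ineq FF h3 t k (D.dsp M σ X) ≤ 0 := by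
  unfold ZP
  rw [mem_ofPred_eq, D.forall_cellG]
  refine forall_congr' fun k => ?_
  rw [D.vec_le hM (l0 := l0) (ε := ε) (by rw [dat_a1]; exact h) h0, ineq_eq]

theorem mem_ZI_cell (hM : 0 < M) {σ : Fin 3 → SignType} {t : Tc (Pc F) c M} {l0 : Fin 3} {ε : ℝ}
    (h : Fct c t.1.1.a1 l0 ε) (h0 : σ l0 ≠ 0) {X : Fin 3 → ℝ} :
    X ∈ ZI (D.cellG σ t) ↔ ∀ k, ineq FF h3 t k (D.dsp M σ X) < 0 := by
  unfold ZI
  rw [mem_ofPred_eq, D.forall_cellG]
  refine forall_congr' fun k => ?_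
  rw [D.vec_lt hM (l0 := l0) (ε := ε) (by rw [dat_a1]; exact h) h0, ineq_eq]

include D in
theorem wf_one {f : Flg (Pc F) c} {l0 : Fin 3} {ε : ℝ} (h : Fct c f.a1 l0 ε) {u : Fin 3 → ℝ}
    (hu : u l0 = ε * hs c l0) : wf FF h3 f u = 1 := by
  have h1 := wf_of_fct FF h3 h u
  rw [hu] at h1
  have h2 : ε * ε = 1 := by rcases h.eps with h | h <;> rw [h] <;> norm_num
  have h5 : hs c l0 * (wf FF h3 f u - 1) = 0 := by linear_combination h1 + hs c l0 * h2
  have := (mul_eq_zero.1 h5).resolve_left (D.hs_pos' l0).ne'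
  linarith

include D in
theorem inC_of_cell (hQ : Quads (Pc F) (bc (F := F))) {t : Tc (Pc F) c M} {l0 : Fin 3} {ε : ℝ}
    (h : Fct c t.1.1.a1 l0 ε) {u : Fin 3 → ℝ} (hu : u l0 = ε * hs c l0)
    (hi : ∀ k, ineq FF h3 t k u ≤ 0) :
    ∃ g, (g = t.1.1 ∨ g = t.1.1.sw ∧ t.1.2.1 = t.1.2.2) ∧ InC FF h3 g u ∧
      (t.1.2.1 : ℕ) ≤ M * cf FF h3 g 0 u ∧ M * cf FF h3 g 0 u ≤ (t.1.2.1 : ℕ) + 1 ∧
      (t.1.2.2 : ℕ) ≤ M * (cf FF h3 g 0 u + cf FF h3 g 1 u) ∧
      M * (cf FF h3 g 0 u + cf FF h3 g 1 u) ≤ (t.1.2.2 : ℕ) + 1 := by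
  obtain ⟨g, hg, hw, g0, g1, g2, k1, k2, k3, k4⟩ := cone_cases FF h3 hQ hi
  have hwt := D.wf_one h hu
  rw [hwt] at hw
  rw [← hw] at k1 k2 k3 k4
  rw [mul_one] at k1 k2 k3 k4
  refine ⟨g, hg, ⟨?_, hw.symm⟩, k1, k2, k3, k4⟩
  intro k
  fin_cases k
  · exact g0
  · exact g1
  · exact g2

variable (hN : N ≤ 4) (BF : BoxFoam La F δ κ0) (hLa : IsOpen La)
  (hQ : Quads (Pc F) (bc (F := F)))

/-- **the tiling of a facet by the `M`-cells** -/
noncomputable def faceF (hM : 0 < M) {σ : Fin 3 → SignType} {l0 : Fin 3} (h0 : σ l0 ≠ 0)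
    (h1 : ∀ l, l ≠ l0 → σ l = 0) : PF 3 (D.lo M) (D.hi M) σ where
  Tc := {t : Tc (Pc F) c M // Fct c t.1.1.a1 l0 ((σ l0 : SignType) : ℝ)}
  fin := by
    haveI := finite_Tc FF c M
    exact Fintype.ofFinite _
  G t := D.cellG σ t.1
  z t := D.forall_cellG.2 fun k l hl => D.vec_zero _ _ _ _ _ hl
  sub t X hX l hl := by
    rw [D.mem_ZP_cell hM t.2 h0] at hX
    obtain ⟨g, -, hi, -⟩ := D.inC_of_cell hQ t.2 (D.dsp_coord h0) hX
    exact (D.dsp_range hM hl).1 (mem_Pc.1 (hi.mem FF h3) l)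
  cov X hX := by
    obtain ⟨f, hf, hfl⟩ := exists_fct_flag FF h3 hN BF hLa (D.abs_dsp_le hM hX) (sign_cast h0)
      (D.dsp_coord h0)
    obtain ⟨t, ht, htf⟩ := exists_tc_of_flag FF h3 hQ hM f (hf.1 0) (hf.1 1) (hf.1 2)
    have hfc : Fct c t.1.1.a1 l0 ((σ l0 : SignType) : ℝ) := by
      rcases htf with h | h <;> rw [h] <;> exact hfl
    exact ⟨⟨t, hfc⟩, (D.mem_ZP_cell hM hfc h0).2 ht⟩
  ne t := by
    obtain ⟨hw, hi⟩ := vt_spec FF h3 hQ t.1
    have hu : ∀ l, σ l ≠ 0 → vt (bc (F := F)) t.1 l = ((σ l : SignType) : ℝ) * hs c l := by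
      intro l hl
      have hll : l = l0 := by
        by_contra h
        exact hl (h1 l h)
      subst hll
      have h5 := wf_of_fct FF h3 t.2 (vt (bc (F := F)) t.1)
      rw [hw, mul_one] at h5
      rw [h5, ← mul_assoc]
      have : ((σ l : SignType) : ℝ) * ((σ l : SignType) : ℝ) = 1 := by
        rcases sign_cast hl with h | h <;> rw [h] <;> norm_num
      rw [this, one_mul]
    obtain ⟨X, hX⟩ := D.exists_X hM hu
    refine ⟨X, (D.mem_ZI_cell hM t.2 h0).2 ?_⟩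
    rw [hX]
    exact hi
  dis t t' hne := by
    rw [Set.disjoint_left]
    intro X hX hX'
    rw [D.mem_ZI_cell hM t.2 h0] at hX
    rw [D.mem_ZI_cell hM t'.2 h0] at hX'
    exact hne (Subtype.ext (tc_dis FF h3 hQ hX hX'))

/-! ### the box edges -/

include D BF in
theorem edge_cf0 {f : Flg (Pc F) c} {l1 l2 : Fin 3} (hl : l1 ≠ l2) {ε1 ε2 : ℝ}
    (h1 : Fct c f.a1 l1 ε1) (h2 : Fct c f.a2 l2 ε2) {u : Fin 3 → ℝ}
    (hu1 : u l1 = ε1 * hs c l1) (hu2 : u l2 = ε2 * hs c l2) :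
    cf FF h3 f 0 u = 0 ∧ cf FF h3 f 1 u + cf FF h3 f 2 u = 1 := by
  have w1 := D.wf_one h1 hu1
  have w2 : wf FF h3 f.sv u = 1 := D.wf_one (f := f.sv) h2 hu2
  have key : ∀ v, wf FF h3 f.sv v = cf FF h3 f 0 v * wf FF h3 f.sv (dir (bc (F := F)) f 0) +
      cf FF h3 f 1 v + cf FF h3 f 2 v := by
    intro v
    have e1 : wf FF h3 f.sv (dir (bc (F := F)) f 1) = 1 := by
      rw [← dir_sv_one, wf_apply, cf_dir, cf_dir, cf_dir]; simp
    have e2 : wf FF h3 f.sv (dir (bc (F := F)) f 2) = 1 := by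
      rw [← dir_sv_two, wf_apply, cf_dir, cf_dir, cf_dir]; simp
    conv_lhs => rw [← cf_sum FF h3 f v]
    rw [map_add, map_add, map_smul, map_smul, map_smul, e1, e2]
    simp only [smul_eq_mul, mul_one]
  set κ := wf FF h3 f.sv (dir (bc (F := F)) f 0) with hκ
  have hκ1 : κ ≠ 1 := by
    intro h
    have k1 := wf_of_fct FF h3 h1 (Pi.single l1 1)
    have k2 := wf_of_fct FF h3 (f := f.sv) h2 (Pi.single l1 1)
    rw [Pi.single_eq_same, mul_one] at k1
    rw [Pi.single_eq_of_ne hl.symm, mul_zero] at k2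
    have k3 := key (Pi.single l1 1)
    rw [h, mul_one, ← wf_apply] at k3
    rw [k3] at k2
    have k4 := (mul_eq_zero.1 k2).resolve_left (D.hs_pos' l2).ne'
    rw [k4, mul_zero] at k1
    rcases h1.eps with h | h <;> rw [h] at k1 <;> norm_num at k1
  have k5 := key u
  rw [w2] at k5
  rw [wf_apply] at w1
  have h5 : cf FF h3 f 0 u * (κ - 1) = 0 := by linarith
  have h6 := (mul_eq_zero.1 h5).resolve_right (sub_ne_zero.2 hκ1)
  exact ⟨h6, by linarith⟩

theorem exists_fin (hM : 0 < M) {x : ℝ} (h0 : 0 ≤ x) (h1 : x ≤ 1) :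
    ∃ i : Fin M, ((i : ℕ) : ℝ) ≤ M * x ∧ M * x ≤ (i : ℕ) + 1 := by
  have hM' : (0 : ℝ) < M := by exact_mod_cast hM
  have hx : 0 ≤ M * x := by positivity
  rcases h1.eq_or_lt with rfl | h1
  · refine ⟨⟨M - 1, by omega⟩, ?_, ?_⟩
    · show (((M - 1 : ℕ) : ℝ)) ≤ _
      rw [Nat.cast_sub hM]; simp
    · show _ ≤ (((M - 1 : ℕ) : ℝ)) + 1
      rw [Nat.cast_sub hM]; simp
  · have h2 : M * x < M := by nlinarith
    refine ⟨⟨⌊M * x⌋₊, by rw [Nat.floor_lt hx]; exact h2⟩, Nat.floor_le hx,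
      (Nat.lt_floor_add_one _).le⟩

/-- the inequalities of an `M`-edge -/
noncomputable def edgG (σ : Fin 3 → SignType) (x : Flg (Pc F) c × Fin M) :
    Finset ((Fin 3 → ℤ) × ℤ) :=
  {D.vec M σ x.1 1 1 ((x.2 : ℕ) + 1), D.vec M σ x.1 (-1) (-1) (-(x.2 : ℕ))}

theorem forall_edgG {σ : Fin 3 → SignType} {x : Flg (Pc F) c × Fin M}
    {Q : (Fin 3 → ℤ) × ℤ → Prop} : (∀ p ∈ D.edgG σ x, Q p) ↔
      Q (D.vec M σ x.1 1 1 ((x.2 : ℕ) + 1)) ∧ Q (D.vec M σ x.1 (-1) (-1) (-(x.2 : ℕ))) := by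
  unfold edgG
  simp only [Finset.mem_insert, Finset.mem_singleton, forall_eq_or_imp, forall_eq]

include BF in
theorem mem_ZP_edg (hM : 0 < M) {σ : Fin 3 → SignType} {x : Flg (Pc F) c × Fin M} {l1 l2 : Fin 3}
    (hl : l1 ≠ l2) (h1 : Fct c x.1.a1 l1 ((σ l1 : SignType) : ℝ))
    (h2 : Fct c x.1.a2 l2 ((σ l2 : SignType) : ℝ)) (h01 : σ l1 ≠ 0) (h02 : σ l2 ≠ 0)
    {X : Fin 3 → ℝ} : X ∈ ZP (D.edgG σ x) ↔
      ((x.2 : ℕ) : ℝ) ≤ M * cf FF h3 x.1 1 (D.dsp M σ X) ∧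
        M * cf FF h3 x.1 1 (D.dsp M σ X) ≤ (x.2 : ℕ) + 1 := by
  unfold ZP
  rw [mem_ofPred_eq, D.forall_edgG, D.vec_le hM h1 h01, D.vec_le hM h1 h01]
  have w1 := D.wf_one h1 (D.dsp_coord h01 (M := M) (X := X))
  have w2 := (D.edge_cf0 BF hl h1 h2 (D.dsp_coord h01 (M := M) (X := X))
    (D.dsp_coord h02 (M := M) (X := X))).1
  have e : ∀ p0 p1 n : ℤ, fun' FF h3 M x.1 p0 p1 n (D.dsp M σ X) =
      M * (p0 * cf FF h3 x.1 0 (D.dsp M σ X) + p1 * cf FF h3 x.1 1 (D.dsp M σ X)) -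
      n * wf FF h3 x.1 (D.dsp M σ X) := fun _ _ _ => rfl
  rw [e, e, w1, w2]
  push_cast
  constructor
  · rintro ⟨h, h'⟩
    constructor <;> linarith
  · rintro ⟨h, h'⟩
    constructor <;> linarith

include BF in
theorem mem_ZI_edg (hM : 0 < M) {σ : Fin 3 → SignType} {x : Flg (Pc F) c × Fin M} {l1 l2 : Fin 3}
    (hl : l1 ≠ l2) (h1 : Fct c x.1.a1 l1 ((σ l1 : SignType) : ℝ))
    (h2 : Fct c x.1.a2 l2 ((σ l2 : SignType) : ℝ)) (h01 : σ l1 ≠ 0) (h02 : σ l2 ≠ 0)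
    {X : Fin 3 → ℝ} : X ∈ ZI (D.edgG σ x) ↔
      ((x.2 : ℕ) : ℝ) < M * cf FF h3 x.1 1 (D.dsp M σ X) ∧
        M * cf FF h3 x.1 1 (D.dsp M σ X) < (x.2 : ℕ) + 1 := by
  unfold ZI
  rw [mem_ofPred_eq, D.forall_edgG, D.vec_lt hM h1 h01, D.vec_lt hM h1 h01]
  have w1 := D.wf_one h1 (D.dsp_coord h01 (M := M) (X := X))
  have w2 := (D.edge_cf0 BF hl h1 h2 (D.dsp_coord h01 (M := M) (X := X))
    (D.dsp_coord h02 (M := M) (X := X))).1
  have e : ∀ p0 p1 n : ℤ, fun' FF h3 M x.1 p0 p1 n (D.dsp M σ X) =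
      M * (p0 * cf FF h3 x.1 0 (D.dsp M σ X) + p1 * cf FF h3 x.1 1 (D.dsp M σ X)) -
      n * wf FF h3 x.1 (D.dsp M σ X) := fun _ _ _ => rfl
  rw [e, e, w1, w2]
  push_cast
  constructor
  · rintro ⟨h, h'⟩
    constructor <;> linarith
  · rintro ⟨h, h'⟩
    constructor <;> linarith

include D BF in
/-- a point of a closed `M`-edge -/
theorem inC_of_edg {f : Flg (Pc F) c} {i : Fin M} {l1 l2 : Fin 3} (hl : l1 ≠ l2) {ε1 ε2 : ℝ}
    (h1 : Fct c f.a1 l1 ε1) (h2 : Fct c f.a2 l2 ε2) {u : Fin 3 → ℝ}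
    (hu1 : u l1 = ε1 * hs c l1) (hu2 : u l2 = ε2 * hs c l2)
    (k1 : ((i : ℕ) : ℝ) ≤ M * cf FF h3 f 1 u) (k2 : M * cf FF h3 f 1 u ≤ (i : ℕ) + 1) :
    InC FF h3 f u := by
  have hM : (0 : ℝ) < M := by
    have := i.pos
    exact_mod_cast this
  obtain ⟨e0, e1⟩ := D.edge_cf0 BF hl h1 h2 hu1 hu2
  have hi : (((i : ℕ) : ℝ)) + 1 ≤ M := by exact_mod_cast i.2
  have hi0 : (0 : ℝ) ≤ (i : ℕ) := Nat.cast_nonneg _
  have p1 : 0 ≤ cf FF h3 f 1 u := nonneg_of_mul_nonneg_right (hi0.trans k1) hM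
  have p2 : cf FF h3 f 1 u ≤ 1 := by
    by_contra h
    push Not at h
    nlinarith
  refine ⟨?_, by rw [wf_apply, e0]; linarith⟩
  intro k
  fin_cases k
  · exact e0.ge
  · exact p1
  · show 0 ≤ cf FF h3 f 2 u
    linarith

/-- **the tiling of a box edge by the `M`-edges** -/
noncomputable def edgeF (hM : 0 < M) {σ : Fin 3 → SignType} {l1 l2 : Fin 3} (hl : l1 ≠ l2)
    (h01 : σ l1 ≠ 0) (h02 : σ l2 ≠ 0) (h1 : ∀ l, l ≠ l1 → l ≠ l2 → σ l = 0) :
    PF 3 (D.lo M) (D.hi M) σ where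
  Tc := {x : Flg (Pc F) c × Fin M // Fct c x.1.a1 l1 ((σ l1 : SignType) : ℝ) ∧
    Fct c x.1.a2 l2 ((σ l2 : SignType) : ℝ)}
  fin := by
    haveI := finite_flg FF c
    exact Fintype.ofFinite _
  G x := D.edgG σ x.1
  z x := D.forall_edgG.2 ⟨fun l hl => D.vec_zero _ _ _ _ _ hl, fun l hl => D.vec_zero _ _ _ _ _ hl⟩
  sub x X hX l hl' := by
    rw [D.mem_ZP_edg BF hM hl x.2.1 x.2.2 h01 h02] at hX
    have hi := D.inC_of_edg BF hl x.2.1 x.2.2 (D.dsp_coord h01) (D.dsp_coord h02) hX.1 hX.2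
    exact (D.dsp_range hM hl').1 (mem_Pc.1 (hi.mem FF h3) l)
  cov X hX := by
    obtain ⟨f, hf, hf1, hf2, hf0⟩ := exists_fct_flag2 FF h3 hN BF hLa (D.abs_dsp_le hM hX) hl
      (sign_cast h01) (sign_cast h02) (D.dsp_coord h01) (D.dsp_coord h02)
    have hw := hf.2
    rw [wf_apply, hf0] at hw
    have p1 := hf.1 1
    have p2 := hf.1 2
    obtain ⟨i, hi1, hi2⟩ := exists_fin hM p1 (by linarith)
    exact ⟨⟨(f, i), hf1, hf2⟩, (D.mem_ZP_edg BF hM hl hf1 hf2 h01 h02).2 ⟨hi1, hi2⟩⟩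
  ne x := by
    obtain ⟨⟨f, i⟩, hf1, hf2⟩ := x
    have hM' : (0 : ℝ) < M := by exact_mod_cast hM
    set p : ℝ := (2 * (i : ℕ) + 1) / (2 * M) with hp
    obtain ⟨c0, c1, c2⟩ := cf_comb FF h3 f 0 p (1 - p)
    set u := (0 : ℝ) • dir (bc (F := F)) f 0 + p • dir (bc (F := F)) f 1 +
      (1 - p) • dir (bc (F := F)) f 2 with hu
    have hul : ∀ l, σ l ≠ 0 → u l = ((σ l : SignType) : ℝ) * hs c l := by
      intro l hll
      have : l = l1 ∨ l = l2 := by
        by_contra h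
        push Not at h
        exact hll (h1 l h.1 h.2)
      rcases this with rfl | rfl
      · rw [hu]
        simp only [Pi.add_apply, Pi.smul_apply, smul_eq_mul, dir_coord FF hf1]
        ring
      · have e1 := dir_coord FF (f := f.sv) hf2 1
        have e2 := dir_coord FF (f := f.sv) hf2 2
        rw [dir_sv_one] at e1
        rw [dir_sv_two] at e2
        rw [hu]
        simp only [Pi.add_apply, Pi.smul_apply, smul_eq_mul, e1, e2]
        ring
    obtain ⟨X, hX⟩ := D.exists_X hM hul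
    refine ⟨X, (D.mem_ZI_edg BF hM hl hf1 hf2 h01 h02).2 ?_⟩
    rw [hX, c1]
    have : M * p = (i : ℕ) + 1 / 2 := by rw [hp]; field_simp
    rw [this]
    constructor <;> linarith
  dis x x' hne := by
    rw [Set.disjoint_left]
    intro X hX hX'
    apply hne
    have hM' : (0 : ℝ) < M := by exact_mod_cast hM
    obtain ⟨⟨f, i⟩, hf1, hf2⟩ := x
    obtain ⟨⟨f', i'⟩, hf1', hf2'⟩ := x'
    rw [D.mem_ZI_edg BF hM hl hf1 hf2 h01 h02] at hX
    rw [D.mem_ZI_edg BF hM hl hf1' hf2' h01 h02] at hX'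
    set u := D.dsp M σ X with hu
    have hu1 : u l1 = ((σ l1 : SignType) : ℝ) * hs c l1 := D.dsp_coord h01
    have hu2 : u l2 = ((σ l2 : SignType) : ℝ) * hs c l2 := D.dsp_coord h02
    have I1 := D.inC_of_edg BF hl hf1 hf2 hu1 hu2 hX.1.le hX.2.le
    have I2 := D.inC_of_edg BF hl hf1' hf2' hu1 hu2 hX'.1.le hX'.2.le
    have z1 := (D.edge_cf0 BF hl hf1 hf2 hu1 hu2).1
    have z2 := (D.edge_cf0 BF hl hf1' hf2' hu1 hu2).1
    obtain ⟨-, p0, p1, p2, p3, p4⟩ := I1.spec FF h3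
    obtain ⟨-, q0, q1, q2, q3, q4⟩ := I2.spec FF h3
    simp only [z1] at p2 p3
    simp only [z2] at q2 q3
    rw [zero_add] at p3 q3
    simp only at hX hX'
    have hr : ∀ n : Fin M, (((n : ℕ) : ℝ)) + 1 ≤ M := fun n => by exact_mod_cast n.2
    have hr0 : ∀ n : Fin M, (0 : ℝ) ≤ (n : ℕ) := fun n => Nat.cast_nonneg _
    have c1 : 0 < cf FF h3 f 1 u := by
      by_contra h; push Not at h; nlinarith [hX.1, hr0 i]
    have c2 : cf FF h3 f 1 u < 1 := by
      by_contra h; push Not at h; nlinarith [hX.2, hr i]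
    have c1' : 0 < cf FF h3 f' 1 u := by
      by_contra h; push Not at h; nlinarith [hX'.1, hr0 i']
    have c2' : cf FF h3 f' 1 u < 1 := by
      by_contra h; push Not at h; nlinarith [hX'.2, hr i']
    -- the third label
    have e3 : f.a3 = f'.a3 := by
      by_contra h
      by_cases h1 : f.a3 = c
      · exact f.h3 h1
      by_cases h2 : f.a3 = f'.a1
      · rw [h2, q1] at p3; linarith
      by_cases h4 : f.a3 = f'.a2
      · rw [h4, q2] at p3; linarith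
      · rw [q4 _ h1 h2 h4 h] at p3; linarith
    have hsv : f'.sv.a1 = f'.a2 := rfl
    have e1 : f.a1 = f'.a1 := by
      by_contra h
      by_cases h4 : f.a1 = f'.a2
      · exact hl (fct_unique FF BF (f := f) (f' := f'.sv) h4 hf1 hf2').1
      · have h5 : f.a1 ≠ f'.a3 := by rw [← e3]; exact f.h13
        rw [q4 _ f.h1 h h4 h5] at p1
        exact one_ne_zero p1
    have e2 : f.a2 = f'.a2 := by
      by_contra h
      have h4 : f.a2 ≠ f'.a1 := by rw [← e1]; exact f.h12.symm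
      have h5 : f.a2 ≠ f'.a3 := by rw [← e3]; exact f.h23
      rw [q4 _ f.h2 h4 h h5] at p2
      exact one_ne_zero p2
    have hf : f = f' := by
      have : ∀ f f' : Flg (Pc F) c, f.a1 = f'.a1 → f.a2 = f'.a2 → f.a3 = f'.a3 → f = f' := by
        intro f f' h1 h2 h3
        cases f; cases f'
        simp only [Flg.mk.injEq]
        exact ⟨h1, h2, h3⟩
      exact this _ _ e1 e2 e3
    subst hf
    have hii : i = i' := by
      have a1 := hX.1.trans hX'.2
      have a2 := hX'.1.trans hX.2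
      have b1 : (i : ℕ) < (i' : ℕ) + 1 := by exact_mod_cast a1
      have b2 : (i' : ℕ) < (i : ℕ) + 1 := by exact_mod_cast a2
      exact Fin.ext (by omega)
    subst hii
    rfl

end BD

end Crest.Agent.R096.Fbr_628
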