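import Crest.Agent.R096.Fk9_522
import Crest.Agent.R096.Bd18_416
import Crest.Agent.R096.Arc9_778

-- ▼ part R096/Fk10_522
section

/-!
# R096 (row 96), P4-FACE, combinatorics, part 10: the boundary word of a designated 2-cell from the
tracked data on its four sides (helper522)
-/

set_option autoImplicit false
set_option linter.unusedSectionVars false

open Set Metric Filter Topology

namespace Crest.Agent.R096.Fk_522

open Crest.Agent.R096.Ce_537 Crest.Agent.R096.Bd_416 Crest.Agent.R096.Fsw_928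

open scoped Classical

variable {Q : Type} [PartialOrder Q] {dim : Q → ℕ} {J Fam : Type}
variable {E : Type*} [NormedAddCommGroup E] [NormedSpace ℝ E]

/-- first and second end of a side (corners: 0 bottom left, 1 bottom right, 2 top left,
3 top right) -/
def w0 : Fin 4 → Fin 4 := ![0, 2, 0, 1]
/-- second end of a side -/
def w1 : Fin 4 → Fin 4 := ![1, 3, 2, 3]

/-- **a 2-cell with four sides** (bottom, top, left, right) and four corners; the corner 3 is the
base vertex -/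
structure SqC (C : Cmb Q dim J Fam) (τ : Q) where
  es : Fin 4 → Q
  lt : ∀ s, es s < τ
  d1 : ∀ s, dim (es s) = 1
  inj : Function.Injective es
  onto : ∀ σ < τ, dim σ = 1 → ∃ s, es s = σ
  v : Fin 4 → Q
  l0 : ∀ s, v (w0 s) < es s
  l1 : ∀ s, v (w1 s) < es s
  ne : ∀ s, v (w0 s) ≠ v (w1 s)
  ob : ∀ s, C.o (es s) = v (w0 s) ∨ C.o (es s) = v (w1 s)
  base : C.o τ = v 3

/-- the width of the band of a crossing point -/
noncomputable def SqC.wd {C : Cmb Q dim J Fam} {τ : Q} (S : SqC C τ) (wt : J → ℝ)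
    (ν : Fin 4 → ℝ) (s : Fin 4) (y : C.I (S.es s)) : ℝ := ν s * wt (C.col (S.es s) y)

/-- **boundary word over the discrete data** -/
structure BwF {C : Cmb Q dim J Fam} {τ : Q} (S : SqC C τ) (wt : J → ℝ) (ν : Fin 4 → ℝ) (δ : ℝ)
    (L : Lam (sph 2) (C.I τ)) where
  p : ∀ s, C.I (S.es s) → ℝ
  ed : ∀ s, Ed (S.wd wt ν s) (p s)
  mlo : ∀ s y, -(1 - δ) ≤ p s y - S.wd wt ν s y / 2
  mhi : ∀ s y, p s y + S.wd wt ν s y / 2 ≤ 1 - δ
  a : Fin 4 → C.I τ → ZMod 2
  c_eq : ∀ s x t, |t| ≤ 1 → -2 * L.c x (sd s t) =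
    sg (a s x) * ∏ y : C.I (S.es s) with C.up (S.lt s) y = x,
      (-2 * ramp (S.wd wt ν s y) (p s y) t)
  base : ∀ x, L.c x (sd 1 1) = -1/2
  nc : ∀ x x', x ≠ x' → C.fam (C.col τ x) = C.fam (C.col τ x') → ∀ s (y : C.I (S.es s)),
    C.up (S.lt s) y = x → -2 * L.c x' (sd s (p s y)) = sg (C.side τ x x')

/-- the boundary word -/
noncomputable def BwF.toBw {C : Cmb Q dim J Fam} {τ : Q} {S : SqC C τ} {wt : J → ℝ}
    {ν : Fin 4 → ℝ} {δ : ℝ} {L : Lam (sph 2) (C.I τ)} (B : BwF S wt ν δ L) : Bw L where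
  E s := C.I (S.es s)
  up s y := C.up (S.lt s) y
  w s y := S.wd wt ν s y
  p s y := B.p s y
  ed s := B.ed s
  a := B.a
  c_eq := B.c_eq
  base := B.base

/-! ### flipping -/

lemma ed_flip {ι : Type*} {w p : ι → ℝ} (h : Ed w p) {o : ℝ} (ho : o = 1 ∨ o = -1) :
    Ed w (fun i => o * p i) := by
  rcases ho with rfl | rfl
  · simpa using h
  · refine ⟨h.w0, fun i => ?_, fun i => ?_, fun i j hij => ?_⟩
    · have := h.hi i; linarith
    · have := h.lo i; linarith
    · have h1 : -1 * p i - -1 * p j = -(p i - p j) := by ring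
      rw [h1, abs_neg]; exact h.sep i j hij

lemma ramp_flip (w p t : ℝ) : ramp w p (-t) = - ramp w (-p) t := by
  unfold ramp
  rw [← cl_neg]
  congr 1
  rw [← neg_div]
  congr 1
  ring

lemma prod_flip {α : Type*} (F : Finset α) (w p : α → ℝ) {o : ℝ} (ho : o = 1 ∨ o = -1) (t : ℝ) :
    ∏ y ∈ F, (-2 * ramp (w y) (p y) (o * t)) =
      sg (if o = 1 then 0 else (F.card : ZMod 2)) * ∏ y ∈ F, (-2 * ramp (w y) (o * p y) t) := by
  rcases ho with rfl | rfl
  · simp
  · have h1 : ¬ ((-1 : ℝ) = 1) := by norm_num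
    rw [if_neg h1, ← sg_cast_card F, ← Finset.prod_mul_distrib]
    refine Finset.prod_congr rfl fun y _ => ?_
    have e1 : (-1 : ℝ) * t = -t := by ring
    have e2 : (-1 : ℝ) * p y = -p y := by ring
    rw [e1, e2, ramp_flip]
    ring

variable {C : Cmb Q dim J Fam} {K : Q → Set E} {D : Set Q} {g : Gd E J}
  {P : ∀ q, C.I q → Set E} {c : ∀ q, C.I q → E → ℝ} {Ω : Set E}

/-- **the boundary word from the band functions on the four sides** -/
theorem exists_bwF (H : Inv C K D g P c) (X : Cplx Ω Q dim K) {τ : Q} (hτ : ∀ σ < τ, σ ∈ D)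
    (hd : 1 ≤ dim τ) (S : SqC C τ) {A : (Fin 2 → ℝ) → E}
    (hA : ∀ s t, |t| ≤ 1 → A (sd s t) ∈ K (S.es s)) (hb : A (sd 1 1) ∈ K (C.o τ))
    {wt : J → ℝ} {ν : Fin 4 → ℝ} {δ : ℝ}
    (hc : ∀ s, ∃ (o : ℝ) (p : C.I (S.es s) → ℝ), (o = 1 ∨ o = -1) ∧ Ed (S.wd wt ν s) p ∧
      (∀ y, |p y| + S.wd wt ν s y / 2 < 1 - δ) ∧
      ∀ y t, |t| ≤ 1 → c (S.es s) y (A (sd s t)) = ramp (S.wd wt ν s y) (p y) (o * t))
    {L : Lam (sph 2) (C.I τ)} (hL : ∀ x, ∀ ω ∈ sph 2, L.c x ω = cbd C K c τ x (A ω)) :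
    Nonempty (BwF S wt ν δ L) := by
  choose o p ho hE hm hp using hc
  have hp' : ∀ s y t, |t| ≤ 1 → -2 * c (S.es s) y (A (sd s t)) =
      -2 * ramp (S.wd wt ν s y) (p s y) (o s * t) := fun s y t ht => by rw [hp s y t ht]
  refine ⟨⟨fun s y => o s * p s y, fun s => ed_flip (hE s) (ho s), fun s y => ?_, fun s y => ?_,
    fun s x => C.s (S.lt s) x + (if o s = 1 then 0 else
      ((Finset.univ.filter fun y : C.I (S.es s) => C.up (S.lt s) y = x).card : ZMod 2)),
    fun s x t ht => ?_, fun x => ?_, fun x x' hne hf s y hy => ?_⟩⟩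
  · have h1 := hm s y
    have h2 := neg_abs_le (p s y)
    have h3 := le_abs_self (p s y)
    rcases ho s with h | h <;> rw [h] <;> linarith
  · have h1 := hm s y
    have h2 := neg_abs_le (p s y)
    have h3 := le_abs_self (p s y)
    rcases ho s with h | h <;> rw [h] <;> linarith
  · rw [hL x _ (sd_mem s ht), cbd_eq H X (S.lt s) hτ x (hA s t ht), sg_add, mul_assoc,
      ← prod_flip _ _ _ (ho s) t]
    congr 1
    exact Finset.prod_congr rfl fun y _ => hp' s y t ht
  · have h1 : |(1:ℝ)| ≤ 1 := by norm_num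
    have h2 := cbd_eq H X (C.o_lt τ hd) hτ x hb
    rw [C.s_o τ hd x, sg_zero, one_mul] at h2
    have := C.vert (C.o τ) (C.o_dim τ hd)
    rw [Finset.prod_of_isEmpty] at h2
    rw [hL x _ (sd_mem 1 h1)]
    linarith
  · subst hy
    have hσ := hτ _ (S.lt s)
    have h1 : |o s * p s y| ≤ 1 := by
      have h2 := (hE s).lo y
      have h3 := (hE s).hi y
      have h4 := (hE s).w0 y
      have h5 : |o s| = 1 := by rcases ho s with h | h <;> rw [h] <;> norm_num
      rw [abs_mul, h5, one_mul, abs_le]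
      constructor <;> linarith
    have hz := hA s _ h1
    rw [hL x' _ (sd_mem s h1)]
    refine bd_sides H X hτ hne hf ?_
    refine ⟨S.es s, S.lt s, y, rfl, H.cn _ hσ y _ hz ?_⟩
    have h2 : o s * (o s * p s y) = p s y := by
      rcases ho s with h | h <;> rw [h] <;> ring
    rw [hp s y _ h1, h2]
    unfold ramp
    rw [sub_self, zero_div, cl_of_mem ⟨by norm_num, by norm_num⟩]
    norm_num

end Crest.Agent.R096.Fk_522
end

-- ▼ part R096/Fk11_522
section

/-!
# R096 (row 96), P4-FACE, combinatorics, part 11: two ends, labels in the corners, numbers of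
crossing points (helper522)
-/

set_option autoImplicit false
set_option linter.unusedSectionVars false

open Set Metric Filter Topology

namespace Crest.Agent.R096.Fk_522

open Crest.Agent.R096.Ce_537 Crest.Agent.R096.Bd_416 Crest.Agent.R096.Fsw_928

open scoped Classical

variable {Q : Type} [PartialOrder Q] {dim : Q → ℕ} {J Fam : Type}
variable {C : Cmb Q dim J Fam} {τ : Q} {S : SqC C τ} {wt : J → ℝ} {ν : Fin 4 → ℝ} {δ : ℝ}
  {L : Lam (sph 2) (C.I τ)}

/-- **two ends** -/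
theorem BwF.two (B : BwF S wt ν δ L)
    (hends : ∀ x : C.I τ, ∃ a b, a ≠ b ∧ Arc_778.Blw C τ x = {a, b}) : B.toBw.Two := by
  intro x
  obtain ⟨a, b, hab, hB⟩ := hends x
  let F : Finset (Σ s, C.I (S.es s)) := Finset.univ.filter fun v => C.up (S.lt v.1) v.2 = x
  let Φ : (Σ s, C.I (S.es s)) → (Σ e, C.I e) := fun v => ⟨S.es v.1, v.2⟩
  have hΦ : Function.Injective Φ := by
    rintro ⟨s, y⟩ ⟨s', y'⟩ h
    have h1 : S.es s = S.es s' := congrArg Sigma.fst h
    have h2 := S.inj h1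
    subst h2
    have h3 : y = y' := by
      have := (Sigma.mk.inj_iff.1 h).2
      exact eq_of_heq this
    rw [h3]
  have hF : F.image Φ = {a, b} := by
    ext v
    have h1 : v ∈ ({a, b} : Finset (Σ e, C.I e)) ↔ v ∈ Arc_778.Blw C τ x := by
      rw [hB]; simp
    rw [h1, Finset.mem_image]
    constructor
    · rintro ⟨⟨s, y⟩, h, rfl⟩
      exact ⟨S.d1 s, S.lt s, (Finset.mem_filter.1 h).2⟩
    · rintro ⟨hd, h, hu⟩
      obtain ⟨e, y⟩ := v
      obtain ⟨s, hs⟩ := S.onto e h hd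
      dsimp only at hs hu h
      subst hs
      exact ⟨⟨s, y⟩, Finset.mem_filter.2 ⟨Finset.mem_univ _, hu⟩, rfl⟩
  have hcard : F.card = 2 := by
    rw [← Finset.card_image_of_injective F hΦ, hF, Finset.card_pair hab]
  have hs : F.card = ∑ s, B.toBw.n s x := by
    show (Finset.univ.filter fun v : Σ s, C.I (S.es s) => C.up (S.lt v.1) v.2 = x).card = _
    rw [Finset.card_filter, Fintype.sum_sigma]
    refine Finset.sum_congr rfl fun s _ => ?_
    rw [← Finset.card_filter]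
    rfl
  rw [Fin.sum_univ_four] at hs
  omega

/-- number of the crossing points of the sheet `j` on the side `s` -/
noncomputable def SqC.N (S : SqC C τ) (s : Fin 4) (j : J) : ℕ :=
  (Finset.univ.filter fun y : C.I (S.es s) => C.col (S.es s) y = j).card

/-- jump of the label of `j` along the side `s` -/
noncomputable def SqC.dsp (S : SqC C τ) (s : Fin 4) (j : J) : ℝ :=
  (sg (C.Lab j (S.v (w0 s))) - sg (C.Lab j (S.v (w1 s)))) / 2

/-- labels at the ends of an edge -/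
lemma lab_edge {q : Q} (hd : dim q = 1) {v v' : Q} (h : v < q) (h' : v' < q) (hne : v ≠ v')
    (ho : C.o q = v ∨ C.o q = v') (j : J) : C.Lab j v' = C.Lab j v +
      ((Finset.univ.filter fun y : C.I q => C.col q y = j).card : ZMod 2) := by
  have z0 : ∀ p (hp : p < q), p = C.o q → ∀ x, C.s hp x = 0 := by
    rintro p hp rfl x
    exact C.s_o q hd.ge x
  have z1 : ∀ p (hp : p < q), p ≠ C.o q → ∀ x, C.s hp x = 1 := fun p hp hn x =>
    C.s_edge hp hd hn x
  have s1 : ∑ x : C.I q with C.col q x = j, (1 : ZMod 2) =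
      ((Finset.univ.filter fun y : C.I q => C.col q y = j).card : ZMod 2) := by
    rw [Finset.sum_const, nsmul_eq_mul, mul_one]
  have z : ∀ a b : ZMod 2, a = a + b + b := by decide
  rw [C.lab_eq h j, C.lab_eq h' j]
  rcases ho with ho | ho
  · rw [Finset.sum_eq_zero (fun x _ => z0 v h ho.symm x), add_zero,
      Finset.sum_congr rfl (fun x _ => z1 v' h' (fun e => hne (ho.symm.trans e.symm)) x), s1]
  · rw [Finset.sum_eq_zero (fun x _ => z0 v' h' ho.symm x), add_zero,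
      Finset.sum_congr rfl (fun x _ => z1 v h (fun e => hne (e.trans ho)) x), s1]
    exact z _ _

lemma SqC.lab_side (S : SqC C τ) (s : Fin 4) (j : J) :
    C.Lab j (S.v (w1 s)) = C.Lab j (S.v (w0 s)) + (S.N s j : ZMod 2) :=
  lab_edge (S.d1 s) (S.l0 s) (S.l1 s) (S.ne s) (S.ob s) j

lemma SqC.lab_base (S : SqC C τ) (hd : 1 ≤ dim τ) (j : J) : C.Lab j (S.v 3) = C.Lab j τ := by
  rw [← S.base, C.lab_eq (C.o_lt τ hd) j,
    Finset.sum_eq_zero (fun x _ => C.s_o τ hd x), add_zero]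

/-- the ends of a piece are among the crossing points of its sheet -/
lemma BwF.n_le (B : BwF S wt ν δ L) (s : Fin 4) (x : C.I τ) :
    B.toBw.n s x ≤ S.N s (C.col τ x) := by
  refine Finset.card_le_card fun y hy => ?_
  have h1 : C.up (S.lt s) y = x := (Bw.mem_en B.toBw).1 hy
  refine Finset.mem_filter.2 ⟨Finset.mem_univ _, ?_⟩
  rw [← C.col_up (S.lt s) y, h1]

/-- two pieces of one sheet have different ends -/
lemma BwF.n_le2 (B : BwF S wt ν δ L) (s : Fin 4) {x x' : C.I τ} (hne : x ≠ x')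
    (hc : C.col τ x = C.col τ x') :
    B.toBw.n s x + B.toBw.n s x' ≤ S.N s (C.col τ x) := by
  have hd : Disjoint (B.toBw.en s x) (B.toBw.en s x') := by
    rw [Finset.disjoint_left]
    intro y h h'
    exact hne (((Bw.mem_en B.toBw).1 h).symm.trans ((Bw.mem_en B.toBw).1 h'))
  have h1 : (B.toBw.en s x ∪ B.toBw.en s x').card = B.toBw.n s x + B.toBw.n s x' :=
    Finset.card_union_of_disjoint hd
  rw [← h1]
  refine Finset.card_le_card fun y hy => ?_
  refine Finset.mem_filter.2 ⟨Finset.mem_univ _, ?_⟩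
  rcases Finset.mem_union.1 hy with h | h
  · have h2 : C.up (S.lt s) y = x := (Bw.mem_en B.toBw).1 h
    rw [← C.col_up (S.lt s) y, h2]
  · have h2 : C.up (S.lt s) y = x' := (Bw.mem_en B.toBw).1 h
    rw [← C.col_up (S.lt s) y, h2, hc]

/-- **order of two pieces of one family on a side** -/
lemma BwF.ord_aux (B : BwF S wt ν δ L) {x x' : C.I τ} (hne : x ≠ x')
    (hf : C.fam (C.col τ x) = C.fam (C.col τ x')) {s : Fin 4} (hn : B.toBw.n s x = 1)
    (hn' : B.toBw.n s x' = 1) (ha : B.a s x' = 1) :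
    B.toBw.ps s x < B.toBw.ps s x' ↔ C.side τ x x' = 1 := by
  obtain ⟨z, g1, e1, e2⟩ := Bw.exists_one hn
  obtain ⟨z', g1', e1', e2'⟩ := Bw.exists_one hn'
  have hz : C.up (S.lt s) z = x := (Bw.mem_en B.toBw).1 (by rw [g1]; simp)
  have hz' : C.up (S.lt s) z' = x' := (Bw.mem_en B.toBw).1 (by rw [g1']; simp)
  have hzz : z ≠ z' := by rintro rfl; exact hne (hz.symm.trans hz')
  have h1 := (B.ed s).lo z
  have h2 := (B.ed s).hi z
  have h3 := (B.ed s).w0 z
  have h3' := (B.ed s).w0 z'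
  have ht : |B.p s z| ≤ 1 := abs_le.2 ⟨by linarith, by linarith⟩
  have h4 : L.c x' (sd s (B.p s z)) = sg (B.a s x') * ramp (S.wd wt ν s z') (B.p s z')
      (B.p s z) := Bw.c_one B.toBw g1' ht
  have h5 := B.nc x x' hne hf s z hz
  have h6 := (B.ed s).sep z z' hzz
  rw [ha, sg_one] at h4
  rw [h4] at h5
  rw [e1, e1']
  show B.p s z < B.p s z' ↔ _
  constructor
  · intro hlt
    rw [abs_of_neg (by linarith)] at h6
    rw [ramp_low h3' (by linarith)] at h5
    apply sg_inj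
    rw [sg_one, ← h5]; norm_num
  · intro hs
    by_contra hc
    have hc' := not_lt.1 hc
    rw [abs_of_nonneg (by linarith)] at h6
    rw [ramp_high h3' (by linarith), hs, sg_one] at h5
    norm_num at h5

end Crest.Agent.R096.Fk_522
end

-- ▼ part R096/Fk12_522

/-!
# R096 (row 96), P4-FACE, combinatorics, part 12: nearly pure 2-cells in discrete terms and `Pure`
(helper522)
-/

set_option autoImplicit false
set_option linter.unusedSectionVars false

open Set Metric Filter Topology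

namespace Crest.Agent.R096.Fk_522

open Crest.Agent.R096.Ce_537 Crest.Agent.R096.Bd_416 Crest.Agent.R096.Fsw_928

open scoped Classical

variable {Q : Type} [PartialOrder Q] {dim : Q → ℕ} {J Fam : Type}
variable {C : Cmb Q dim J Fam} {τ : Q} {S : SqC C τ} {wt : J → ℝ} {ν : Fin 4 → ℝ} {δ : ℝ}
  {L : Lam (sph 2) (C.I τ)}

/-- direction of a side -/
def dr : Fin 4 → Fin 2 := ![0, 0, 1, 1]

/-- **discrete purity**: only the families `c 0`, `c 1` cross the sides; the sides of direction `i`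
carry the weight `a i` of the family `c i`, nearly all crossed in the direction `σ i`, and nearly
nothing of the other family; `T i` = sheets of the family `c i` -/
structure DP (S : SqC C τ) (wt : J → ℝ) (T : Fin 2 → Finset J) (c : Fin 2 → Fam)
    (σ a : Fin 2 → ℝ) (m : ℝ) : Prop where
  ne : c 0 ≠ c 1
  two : ∀ s (y : C.I (S.es s)), ∃ i, C.fam (C.col _ y) = c i
  T1 : ∀ i, ∀ j ∈ T i, C.fam j = c i
  T2 : ∀ i s (y : C.I (S.es s)), C.fam (C.col _ y) = c i → C.col _ y ∈ T i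
  sg : ∀ i, σ i = 1 ∨ σ i = -1
  small : ∀ s (y : C.I (S.es s)), wt (C.col _ y) ≤ m
  tot : ∀ i s, dr s = i → ∑ y : C.I (S.es s) with C.fam (C.col _ y) = c i, wt (C.col _ y) ≤ a i + m
  dis : ∀ i s, dr s = i → a i - m ≤ σ i * ∑ j ∈ T i, wt j * S.dsp s j
  oth : ∀ i s, dr s ≠ i → ∑ y : C.I (S.es s) with C.fam (C.col _ y) = c i, wt (C.col _ y) ≤ m

/-- main sheets of direction `i` -/
def SqC.Mn (S : SqC C τ) (i : Fin 2) (σ : ℝ) (j : J) : Prop :=
  (∀ s, S.N s j = if dr s = i then 1 else 0) ∧ Bd_416.sg (C.Lab j τ) = -σ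

/-- main pieces -/
noncomputable def SqC.M (S : SqC C τ) (c : Fin 2 → Fam) (σ a : Fin 2 → ℝ) (i : Fin 2) :
    Finset (C.I τ) :=
  Finset.univ.filter fun x => a i ≠ 0 ∧ C.fam (C.col τ x) = c i ∧ S.Mn i (σ i) (C.col τ x)

/-! ### numbers -/

lemma sg_succ_of {l l' : ZMod 2} {n : ℕ} (h : l' = l + (n : ZMod 2)) :
    (n % 2 = 0 ∧ sg l' = sg l) ∨ (n % 2 = 1 ∧ sg l' = - sg l) := by
  rcases Nat.mod_two_eq_zero_or_one n with h1 | h1
  · left
    have : (n : ZMod 2) = 0 := (cast_zero_iff n).2 h1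
    rw [h, this, add_zero]
    exact ⟨h1, rfl⟩
  · right
    have : (n : ZMod 2) = 1 := by
      have h2 : n = 2 * (n / 2) + 1 := by omega
      rw [h2]
      push_cast
      have : (2 : ZMod 2) = 0 := by decide
      rw [this]; ring
    rw [h, this, sg_add, sg_one]
    exact ⟨h1, by ring⟩

lemma dsp_cases {n : ℕ} {l l' : ZMod 2} (h : l' = l + (n : ZMod 2)) {σ : ℝ}
    (hσ : σ = 1 ∨ σ = -1) :
    (n % 2 = 0 ∧ σ * ((sg l - sg l') / 2) = 0) ∨
    (n % 2 = 1 ∧ sg l' = σ ∧ σ * ((sg l - sg l') / 2) = -1) ∨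
    (n % 2 = 1 ∧ sg l' = -σ ∧ σ * ((sg l - sg l') / 2) = 1) := by
  rcases sg_succ_of h with ⟨h1, h2⟩ | ⟨h1, h2⟩
  · left
    refine ⟨h1, ?_⟩
    rw [h2]; ring
  · right
    have h3 : sg l = - sg l' := by rw [h2]; ring
    rw [h3]
    rcases hσ with rfl | rfl <;> rcases sg_or l' with h4 | h4 <;> rw [h4] <;> norm_num [h1]

/-- **the pointwise inequality** -/
lemma key_num {n0 n1 n2 n3 : ℕ} {l00 l10 l01 l11 : ZMod 2} (h0 : l10 = l00 + (n0 : ZMod 2))
    (h1 : l11 = l01 + (n1 : ZMod 2)) (h2 : l01 = l00 + (n2 : ZMod 2))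
    (h3 : l11 = l10 + (n3 : ZMod 2)) {σ : ℝ} (hσ : σ = 1 ∨ σ = -1)
    (hm : ¬ (n0 = 1 ∧ n1 = 1 ∧ n2 = 0 ∧ n3 = 0 ∧ sg l11 = -σ)) :
    (n0 : ℝ) ≤ 2 * (n0 - σ * ((sg l00 - sg l10) / 2)) + (n1 - σ * ((sg l01 - sg l11) / 2)) +
      n2 + n3 ∧
    (n1 : ℝ) ≤ 2 * (n1 - σ * ((sg l01 - sg l11) / 2)) + (n0 - σ * ((sg l00 - sg l10) / 2)) +
      n2 + n3 := by
  have hpar : (n0 + n1 + n2 + n3) % 2 = 0 := by
    rw [← cast_zero_iff]
    push_cast
    have z : ∀ a b c d e f g h : ZMod 2, b = a + e → d = c + f → c = a + g → d = b + h →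
        e + f + g + h = 0 := by decide
    exact z _ _ _ _ _ _ _ _ h0 h1 h2 h3
  have c0 : (0:ℝ) ≤ n0 := Nat.cast_nonneg _
  have c1 : (0:ℝ) ≤ n1 := Nat.cast_nonneg _
  have c2 : (0:ℝ) ≤ n2 := Nat.cast_nonneg _
  have c3 : (0:ℝ) ≤ n3 := Nat.cast_nonneg _
  have o : ∀ n : ℕ, n % 2 = 1 → (1:ℝ) ≤ n := fun n hn => by
    have : 1 ≤ n := by omega
    exact_mod_cast this
  rcases dsp_cases h0 hσ with ⟨p0, e0⟩ | ⟨p0, f0, e0⟩ | ⟨p0, f0, e0⟩ <;>
    rcases dsp_cases h1 hσ with ⟨p1, e1⟩ | ⟨p1, f1, e1⟩ | ⟨p1, f1, e1⟩ <;> rw [e0, e1]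
  · constructor <;> linarith
  · constructor <;> linarith
  · have := o n1 p1
    have h4 : 1 ≤ n2 + n3 := by omega
    have h4' : (1:ℝ) ≤ n2 + n3 := by exact_mod_cast h4
    constructor
    · linarith
    · by_cases h5 : n1 = 1
      · rw [h5]; push_cast; linarith
      · have : 3 ≤ n1 := by omega
        have : (3:ℝ) ≤ n1 := by exact_mod_cast this
        linarith
  · constructor <;> linarith
  · constructor <;> linarith
  · have h4 : (1:ℝ) ≤ n1 := o n1 p1
    constructor <;> linarith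
  · have := o n0 p0
    have h4 : 1 ≤ n2 + n3 := by omega
    have h4' : (1:ℝ) ≤ n2 + n3 := by exact_mod_cast h4
    constructor
    · by_cases h5 : n0 = 1
      · rw [h5]; push_cast; linarith
      · have : 3 ≤ n0 := by omega
        have : (3:ℝ) ≤ n0 := by exact_mod_cast this
        linarith
    · linarith
  · have h4 : (1:ℝ) ≤ n0 := o n0 p0
    constructor <;> linarith
  · have g0 := o n0 p0
    have g1 := o n1 p1
    by_cases h4 : n2 + n3 = 0
    · have h5 : ¬ (n0 = 1 ∧ n1 = 1) := fun h => hm ⟨h.1, h.2, by omega, by omega, f1⟩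
      by_cases h6 : n0 = 1
      · have : 3 ≤ n1 := by omega
        have : (3:ℝ) ≤ n1 := by exact_mod_cast this
        rw [h6]; push_cast
        constructor <;> linarith
      · have : 3 ≤ n0 := by omega
        have h7 : (3:ℝ) ≤ n0 := by exact_mod_cast this
        by_cases h8 : n1 = 1
        · rw [h8]; push_cast
          constructor <;> linarith
        · have : 3 ≤ n1 := by omega
          have h9 : (3:ℝ) ≤ n1 := by exact_mod_cast this
          constructor <;> linarith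
    · have h4'' : 1 ≤ n2 + n3 := by omega
      have h4' : (1:ℝ) ≤ n2 + n3 := by exact_mod_cast h4''
      constructor
      · by_cases h5 : n0 = 1
        · rw [h5]; push_cast; linarith
        · have : 3 ≤ n0 := by omega
          have : (3:ℝ) ≤ n0 := by exact_mod_cast this
          linarith
      · by_cases h5 : n1 = 1
        · rw [h5]; push_cast; linarith
        · have : 3 ≤ n1 := by omega
          have : (3:ℝ) ≤ n1 := by exact_mod_cast this
          linarith

/-- the same for the four sides -/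
lemma SqC.key (S : SqC C τ) (hd : 1 ≤ dim τ) {i : Fin 2} {σ : ℝ} (hσ : σ = 1 ∨ σ = -1) {j : J}
    (hm : ¬ S.Mn i σ j) {s : Fin 4} (hs : dr s = i) :
    (S.N s j : ℝ) ≤ 2 * ∑ s' with dr s' = i, ((S.N s' j : ℝ) - σ * S.dsp s' j) +
      ∑ s' with dr s' ≠ i, (S.N s' j : ℝ) := by
  have e0 : C.Lab j (S.v 1) = C.Lab j (S.v 0) + (S.N 0 j : ZMod 2) := S.lab_side 0 j
  have e1 : C.Lab j (S.v 3) = C.Lab j (S.v 2) + (S.N 1 j : ZMod 2) := S.lab_side 1 j
  have e2 : C.Lab j (S.v 2) = C.Lab j (S.v 0) + (S.N 2 j : ZMod 2) := S.lab_side 2 j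
  have e3 : C.Lab j (S.v 3) = C.Lab j (S.v 1) + (S.N 3 j : ZMod 2) := S.lab_side 3 j
  have d0 : S.dsp 0 j = (Bd_416.sg (C.Lab j (S.v 0)) - Bd_416.sg (C.Lab j (S.v 1))) / 2 := rfl
  have d1 : S.dsp 1 j = (Bd_416.sg (C.Lab j (S.v 2)) - Bd_416.sg (C.Lab j (S.v 3))) / 2 := rfl
  have d2 : S.dsp 2 j = (Bd_416.sg (C.Lab j (S.v 0)) - Bd_416.sg (C.Lab j (S.v 2))) / 2 := rfl
  have d3 : S.dsp 3 j = (Bd_416.sg (C.Lab j (S.v 1)) - Bd_416.sg (C.Lab j (S.v 3))) / 2 := rfl
  have hb := S.lab_base hd j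
  have f0 : (Finset.univ.filter fun s' : Fin 4 => dr s' = 0) = {0, 1} := by decide
  have f1 : (Finset.univ.filter fun s' : Fin 4 => dr s' = 1) = {2, 3} := by decide
  have f0' : (Finset.univ.filter fun s' : Fin 4 => dr s' ≠ 0) = {2, 3} := by decide
  have f1' : (Finset.univ.filter fun s' : Fin 4 => dr s' ≠ 1) = {0, 1} := by decide
  have n01 : (0 : Fin 4) ≠ 1 := by decide
  have n23 : (2 : Fin 4) ≠ 3 := by decide
  have hpos : ∀ (s : Fin 4), (0:ℝ) ≤ S.N s j - σ * S.dsp s j := fun s => by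
    have h1 := S.lab_side s j
    show (0:ℝ) ≤ S.N s j - σ * ((Bd_416.sg (C.Lab j (S.v (w0 s))) -
      Bd_416.sg (C.Lab j (S.v (w1 s)))) / 2)
    rcases dsp_cases h1 hσ with ⟨p0, e0⟩ | ⟨p0, f0, e0⟩ | ⟨p0, f0, e0⟩ <;> rw [e0]
    · have := Nat.cast_nonneg (α := ℝ) (S.N s j); linarith
    · have := Nat.cast_nonneg (α := ℝ) (S.N s j); linarith
    · have : 1 ≤ S.N s j := by omega
      have : (1:ℝ) ≤ S.N s j := by exact_mod_cast this
      linarith
  have p0 := hpos 0
  have p1 := hpos 1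
  have p2 := hpos 2
  have p3 := hpos 3
  have hi : i = 0 ∨ i = 1 := by omega
  rcases hi with rfl | rfl
  · have hm' : ¬ (S.N 0 j = 1 ∧ S.N 1 j = 1 ∧ S.N 2 j = 0 ∧ S.N 3 j = 0 ∧
        Bd_416.sg (C.Lab j (S.v 3)) = -σ) := by
      rintro ⟨h1, h2, h3, h4, h5⟩
      refine hm ⟨fun s => ?_, by rw [← hb]; exact h5⟩
      fin_cases s
      · exact h1
      · exact h2
      · exact h3
      · exact h4
    obtain ⟨k0, k1⟩ := key_num e0 e1 e2 e3 hσ hm'
    rw [f0, f0', Finset.sum_pair n01, Finset.sum_pair n23]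
    rw [d0, d1] at *
    have hs' : s = 0 ∨ s = 1 := by
      fin_cases s
      · exact Or.inl rfl
      · exact Or.inr rfl
      · exact absurd hs (by decide)
      · exact absurd hs (by decide)
    rcases hs' with rfl | rfl <;> linarith
  · have hm' : ¬ (S.N 2 j = 1 ∧ S.N 3 j = 1 ∧ S.N 0 j = 0 ∧ S.N 1 j = 0 ∧
        Bd_416.sg (C.Lab j (S.v 3)) = -σ) := by
      rintro ⟨h1, h2, h3, h4, h5⟩
      refine hm ⟨fun s => ?_, by rw [← hb]; exact h5⟩
      fin_cases s
      · exact h3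
      · exact h4
      · exact h1
      · exact h2
    obtain ⟨k0, k1⟩ := key_num e2 e3 e0 e1 hσ hm'
    rw [f1, f1', Finset.sum_pair n23, Finset.sum_pair n01]
    rw [d2, d3] at *
    have hs' : s = 2 ∨ s = 3 := by
      fin_cases s
      · exact absurd hs (by decide)
      · exact absurd hs (by decide)
      · exact Or.inl rfl
      · exact Or.inr rfl
    rcases hs' with rfl | rfl <;> linarith

end Crest.Agent.R096.Fk_522
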