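import Crest.Agent.R096.Fsw3_928
import Crest.Agent.R096.Pc2_117
import Mathlib.MeasureTheory.Measure.Hausdorff
import Mathlib.Analysis.Calculus.Rademacher

-- ▼ part R096/Fsw4_928
section

/-!
# R096 (row 96), FACE-SWEEP, part 4: one step, swap, collar extension (helper928)
-/

set_option autoImplicit false

open Set Metric

namespace Crest.Agent.R096.Fsw_928

open Crest.Agent.R096.Ce_537 Crest.Agent.R096.Bd_416

/-! ### swap of the coordinates -/

/-- the swap of the two coordinates -/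
def sw (x : Fin 2 → ℝ) : Fin 2 → ℝ := fun i => if i = 0 then x 1 else x 0

@[simp] lemma sw_zero (x : Fin 2 → ℝ) : sw x 0 = x 1 := rfl
@[simp] lemma sw_one (x : Fin 2 → ℝ) : sw x 1 = x 0 := rfl

lemma sw_sw (x : Fin 2 → ℝ) : sw (sw x) = x := by
  funext i
  fin_cases i <;> rfl

lemma norm_sw (x : Fin 2 → ℝ) : ‖sw x‖ = ‖x‖ := by
  have key : ∀ y : Fin 2 → ℝ, ‖sw y‖ ≤ ‖y‖ := fun y => by
    rw [pi_norm_le_iff_of_nonneg (norm_nonneg _)]
    intro i
    fin_cases i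
    · exact norm_le_pi_norm y 1
    · exact norm_le_pi_norm y 0
  apply le_antisymm (key x)
  have := key (sw x)
  rwa [sw_sw] at this

lemma sw_sph {x : Fin 2 → ℝ} (hx : x ∈ sph 2) : sw x ∈ sph 2 := by
  have h : ‖x‖ = 1 := by simpa using hx
  have : ‖sw x‖ = 1 := by rw [norm_sw, h]
  simpa using this

lemma pl_sw (Z : Set (Fin 2 → ℝ)) : PLOn sw Z := by
  refine pl_pi fun i => ?_
  fin_cases i
  · exact pl_apply (plOn_id Z) 1
  · exact pl_apply (plOn_id Z) 0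

/-- the swap as a PL equivalence of the square -/
noncomputable def swE : PLEquiv (cube 2) (cube 2) where
  f := sw
  g := sw
  pf := pl_sw _
  pg := pl_sw _
  mf x hx := by
    simp only [cube, mem_closedBall_zero_iff] at hx ⊢
    rw [norm_sw]; exact hx
  mg x hx := by
    simp only [cube, mem_closedBall_zero_iff] at hx ⊢
    rw [norm_sw]; exact hx
  li x _ := sw_sw x
  ri x _ := sw_sw x

lemma collar_g_apply (ω : Fin 2 → ℝ) (r : ℝ) (j : Fin 2) :
    (collar 2).g (ω, r) j = cg r (ω j) := rfl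

lemma sw_collar_g (ω : Fin 2 → ℝ) (r : ℝ) :
    sw ((collar 2).g (ω, r)) = (collar 2).g (sw ω, r) := by
  funext i
  fin_cases i <;> rfl

/-! ### collar extension of a PL equivalence of the circle -/

/-- `{‖x‖ ≤ 1/2}` -/
def Hf : Set (Fin 2 → ℝ) := {x | ‖x‖ ≤ 1/2}

lemma isClosed_Hf : IsClosed Hf := isClosed_le continuous_norm continuous_const

/-- dilation `{‖x‖ ≤ 1/2} ≅ cube` -/
noncomputable def dil : PLEquiv Hf (cube 2) where
  f x := fun i => 2 * x i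
  g x := fun i => x i / 2
  pf := pl_pi fun i => pl_mul 2 (pl_apply (plOn_id _) i)
  pg := pl_pi fun i => pl_div (pl_apply (plOn_id _) i) 2
  mf x hx := by
    have hx' : ‖x‖ ≤ 1/2 := hx
    have e : (fun i => 2 * x i) = (2:ℝ) • x := by funext i; simp
    simp only [cube, mem_closedBall_zero_iff]
    rw [e, norm_smul]; norm_num; linarith
  mg x hx := by
    simp only [cube, mem_closedBall_zero_iff] at hx
    have e : (fun i => x i / 2) = (1/2:ℝ) • x := by funext i; simp; ring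
    show ‖(fun i => x i / 2)‖ ≤ 1/2
    rw [e, norm_smul]; norm_num; linarith
  li x _ := by funext i; show 2 * x i / 2 = x i; ring
  ri x _ := by funext i; show 2 * (x i / 2) = x i; ring

/-- the product equivalence on the collar -/
noncomputable def prodB (β : PLEquiv (sph 2) (sph 2)) : PLEquiv (PS (sph 2)) (PS (sph 2)) where
  f p := (β.f p.1, p.2)
  g p := (β.g p.1, p.2)
  pf := pl_pair (β.pf.comp (pl_fst (plOn_id _)) (fun _ hz => hz.1)) (pl_snd (plOn_id _))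
  pg := pl_pair (β.pg.comp (pl_fst (plOn_id _)) (fun _ hz => hz.1)) (pl_snd (plOn_id _))
  mf _ hp := ⟨β.mf hp.1, hp.2⟩
  mg _ hp := ⟨β.mg hp.1, hp.2⟩
  li _ hp := Prod.ext (β.li _ hp.1) rfl
  ri _ hp := Prod.ext (β.ri _ hp.1) rfl

/-- outer part of the collar extension -/
noncomputable def colO (β : PLEquiv (sph 2) (sph 2)) : PLEquiv (Ann 2) (Ann 2) :=
  (collar 2).trans ((prodB β).trans (collar 2).symm)

/-- inner part -/
noncomputable def colI (β : PLEquiv (sph 2) (sph 2)) : PLEquiv Hf Hf :=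
  dil.trans ((coneEquiv β).trans dil.symm)

lemma cg_half (u : ℝ) : cg (1/2) u = u / 2 := by
  unfold cg
  rcases le_total 0 u with h | h
  · rw [max_eq_right (show (0:ℝ) ≤ (u + 1 - 2 * (1/2)) / 2 by linarith),
      max_eq_left (show (-u + 1 - 2 * (1/2)) / 2 ≤ (0:ℝ) by linarith)]; ring
  · rw [max_eq_left (show (u + 1 - 2 * (1/2)) / 2 ≤ (0:ℝ) by linarith),
      max_eq_right (show (0:ℝ) ≤ (-u + 1 - 2 * (1/2)) / 2 by linarith)]; ring

lemma colO_f_collar (β : PLEquiv (sph 2) (sph 2)) {ω : Fin 2 → ℝ} {r : ℝ} (hω : ω ∈ sph 2)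
    (hr : r ∈ Icc (1/2 : ℝ) 1) :
    (colO β).f ((collar 2).g (ω, r)) = (collar 2).g (β.f ω, r) := by
  show (collar 2).g ((prodB β).f ((collar 2).f ((collar 2).g (ω, r)))) = _
  rw [collar_f_g hω hr]; rfl

lemma colI_f_half (β : PLEquiv (sph 2) (sph 2)) {ω : Fin 2 → ℝ} (hω : ω ∈ sph 2) :
    (colI β).f ((collar 2).g (ω, 1/2)) = (collar 2).g (β.f ω, 1/2) := by
  have e : (fun i => 2 * (collar 2).g (ω, 1/2) i) = ω := by
    funext i; rw [collar_g_apply, cg_half]; ring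
  show (fun i => cone β.f (fun i => 2 * (collar 2).g (ω, 1/2) i) i / 2) = _
  rw [e, cone_sph _ hω]
  funext i; rw [collar_g_apply, cg_half]

lemma colO_eq_colI (β : PLEquiv (sph 2) (sph 2)) : EqOn (colO β).f (colI β).f (Ann 2 ∩ Hf) := by
  rintro x ⟨hx, hx2⟩
  have h1 : ‖x‖ = 1/2 := le_antisymm hx2 hx.1
  have h2 : (collar 2).g (((collar 2).f x).1, 1/2) = x := by
    have := (collar 2).li x hx
    have e : (collar 2).f x = (((collar 2).f x).1, 1/2) := by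
      apply Prod.ext
      · rfl
      · exact h1
    rwa [e] at this
  have h3 := ((collar 2).mf hx).1
  rw [← h2, colO_f_collar β h3 ⟨le_rfl, by norm_num⟩, colI_f_half β h3]

lemma Ann_union_Hf : Ann 2 ∪ Hf = cube 2 := by
  ext x
  simp only [cube, mem_closedBall_zero_iff]
  constructor
  · rintro (h | h)
    · exact h.2
    · have : ‖x‖ ≤ 1/2 := h
      show ‖x‖ ≤ 1
      linarith
  · intro h
    rcases le_total ‖x‖ (1/2) with h1 | h1
    · exact Or.inr h1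
    · exact Or.inl ⟨h1, h⟩

/-- the glued equivalence -/
noncomputable def colG (β : PLEquiv (sph 2) (sph 2)) : PLEquiv (Ann 2 ∪ Hf) (Ann 2 ∪ Hf) :=
  Cb_609.glue (colO β) (colI β) isClosed_Ann isClosed_Hf isClosed_Ann isClosed_Hf
    (colO_eq_colI β) (colO_eq_colI β.symm)

/-- **the collar extension** `(ω, r) ↦ (β ω, r)` for `r ≥ 1/2` -/
noncomputable def colB (β : PLEquiv (sph 2) (sph 2)) : PLEquiv (cube 2) (cube 2) :=
  (colG β).restr Ann_union_Hf.ge Ann_union_Hf.ge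
    (fun x hx => by
      rw [← Ann_union_Hf] at hx ⊢
      exact (colG β).mf hx)
    (fun x hx => by
      rw [← Ann_union_Hf] at hx ⊢
      exact (colG β).mg hx)

lemma colB_f_ann (β : PLEquiv (sph 2) (sph 2)) {x : Fin 2 → ℝ} (hx : x ∈ Ann 2) :
    (colB β).f x = (colO β).f x :=
  Cb_609.glue_f₁ (colO β) (colI β) isClosed_Ann isClosed_Hf isClosed_Ann isClosed_Hf
    (colO_eq_colI β) (colO_eq_colI β.symm) hx

lemma colB_g_ann (β : PLEquiv (sph 2) (sph 2)) {x : Fin 2 → ℝ} (hx : x ∈ Ann 2) :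
    (colB β).g x = (colO β).g x :=
  Cb_609.glue_g₁ (colO β) (colI β) isClosed_Ann isClosed_Hf isClosed_Ann isClosed_Hf
    (colO_eq_colI β) (colO_eq_colI β.symm) hx

lemma colB_g_hf (β : PLEquiv (sph 2) (sph 2)) {x : Fin 2 → ℝ} (hx : x ∈ Hf) :
    (colB β).g x = (colI β).g x :=
  Cb_609.glue_g₂ (colO β) (colI β) isClosed_Ann isClosed_Hf isClosed_Ann isClosed_Hf
    (colO_eq_colI β) (colO_eq_colI β.symm) hx

lemma colB_f_collar (β : PLEquiv (sph 2) (sph 2)) {ω : Fin 2 → ℝ} {r : ℝ} (hω : ω ∈ sph 2)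
    (hr : r ∈ Icc (1/2 : ℝ) 1) :
    (colB β).f ((collar 2).g (ω, r)) = (collar 2).g (β.f ω, r) := by
  rw [← colO_f_collar β hω hr]
  exact colB_f_ann β ((collar 2).mg ⟨hω, hr⟩)

lemma colB_g_collar (β : PLEquiv (sph 2) (sph 2)) {ω : Fin 2 → ℝ} {r : ℝ} (hω : ω ∈ sph 2)
    (hr : r ∈ Icc (1/2 : ℝ) 1) :
    (colB β).g ((collar 2).g (ω, r)) = (collar 2).g (β.g ω, r) := by
  rw [colB_g_ann β ((collar 2).mg ⟨hω, hr⟩)]
  exact colO_f_collar β.symm hω hr

lemma colB_f_sph (β : PLEquiv (sph 2) (sph 2)) {ω : Fin 2 → ℝ} (hω : ω ∈ sph 2) :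
    (colB β).f ω = β.f ω := by
  have := colB_f_collar β hω (r := 1) ⟨by norm_num, le_rfl⟩
  rwa [collar_g_one hω, collar_g_one (β.mf hω)] at this

lemma colB_g_low (β : PLEquiv (sph 2) (sph 2)) {x : Fin 2 → ℝ} (hx : ‖x‖ ≤ 1/2) :
    ‖(colB β).g x‖ ≤ 1/2 := by
  rw [colB_g_hf β hx]
  exact (colI β).mg hx

/-! ### one step -/

/-- the data of one annulus step -/
structure AnnS where
  NA : Set (Fin 2 → ℝ)
  BX : Set (Fin 2 → ℝ)
  cNA : IsClosed NA
  cBX : IsClosed BX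
  un : NA ∪ BX = cube 2
  A : PLEquiv (sph 2 ×ˢ Icc (0 : ℝ) 1) NA
  C : PLEquiv BX (cube 2)
  A0 : ∀ ω ∈ sph 2, A.f (ω, 0) = ω
  A1 : ∀ ω ∈ sph 2, A.f (ω, 1) ∈ BX
  C1 : ∀ z ∈ NA, z ∈ BX → (A.g z).2 = 1
  CS : ∀ z ∈ BX, C.f z ∈ sph 2 ↔ z ∈ NA

namespace AnnS

variable (W : AnnS)

/-- the induced equivalence of the circle -/
noncomputable def β : PLEquiv (sph 2) (sph 2) where
  f ω := W.C.f (W.A.f (ω, 1))
  g w := (W.A.g (W.C.g w)).1
  pf := by
    have h1 : PLOn (fun ω : Fin 2 → ℝ => (ω, (1:ℝ))) (sph 2) :=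
      pl_pair (plOn_id _) (plOn_const _ _)
    have h2 : PLOn (fun ω : Fin 2 → ℝ => W.A.f (ω, 1)) (sph 2) :=
      W.A.pf.comp h1 (fun ω hω => ⟨hω, by norm_num⟩)
    exact W.C.pf.comp h2 (fun ω hω => W.A1 ω hω)
  pg := by
    have h1 : PLOn W.C.g (sph 2) := W.C.pg.mono sph_subset_cube
    have h2 : MapsTo W.C.g (sph 2) W.NA := fun w hw => by
      rw [← W.CS _ (W.C.mg (sph_subset_cube hw)), W.C.ri _ (sph_subset_cube hw)]; exact hw
    exact pl_fst (W.A.pg.comp h1 h2)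
  mf ω hω := by
    rw [W.CS _ (W.A1 ω hω)]
    exact W.A.mf ⟨hω, by norm_num⟩
  mg w hw := by
    have h2 : W.C.g w ∈ W.NA := by
      rw [← W.CS _ (W.C.mg (sph_subset_cube hw)), W.C.ri _ (sph_subset_cube hw)]; exact hw
    exact (W.A.mg h2).1
  li ω hω := by
    show (W.A.g (W.C.g (W.C.f (W.A.f (ω, 1))))).1 = ω
    rw [W.C.li _ (W.A1 ω hω), W.A.li _ ⟨hω, by norm_num⟩]
  ri w hw := by
    have h0 := W.C.mg (sph_subset_cube hw)
    have h2 : W.C.g w ∈ W.NA := by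
      rw [← W.CS _ h0, W.C.ri _ (sph_subset_cube hw)]; exact hw
    show W.C.f (W.A.f ((W.A.g (W.C.g w)).1, 1)) = w
    have h3 : ((W.A.g (W.C.g w)).1, (1:ℝ)) = W.A.g (W.C.g w) := by
      apply Prod.ext
      · rfl
      · exact (W.C1 _ h2 h0).symm
    rw [h3, W.A.ri _ h2, W.C.ri _ (sph_subset_cube hw)]

variable (κ : PLEquiv (cube 2) (cube 2))

/-- outer part -/
noncomputable def eO : PLEquiv Out2 W.NA := outE.trans W.A

/-- inner part -/
noncomputable def eI : PLEquiv In2 W.BX := shr.trans (κ.trans W.C.symm)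

variable {κ} (hκ : ∀ ω ∈ sph 2, κ.f ω = W.β.f ω)

include hκ in
lemma eq_f : EqOn W.eO.f (W.eI κ).f (Out2 ∩ In2) := by
  rintro x ⟨hx, hx2⟩
  have h1 : ‖x‖ = 3/4 := le_antisymm hx2 hx.1
  have hA : x ∈ Ann 2 := ⟨by linarith, by linarith⟩
  have hω := ((collar 2).mf hA).1
  have h2 : (collar 2).g (((collar 2).f x).1, 3/4) = x := by
    have := (collar 2).li x hA
    have e : (collar 2).f x = (((collar 2).f x).1, 3/4) := by
      apply Prod.ext
      · rfl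
      · exact h1
    rwa [e] at this
  have h3 : (collar 2).f x = (((collar 2).f x).1, 3/4) := by
    apply Prod.ext
    · rfl
    · exact h1
  show W.A.f (((collar 2).f x).1, 4 * (1 - ((collar 2).f x).2)) = W.C.g (κ.f (shr.f x))
  have e1 : 4 * (1 - ((collar 2).f x).2) = 1 := by
    rw [h3]; norm_num
  have e2 : shr.f x = ((collar 2).f x).1 := by
    have h4 := shr_f_collar hω (r := 3/4) ⟨by norm_num, le_rfl⟩
    rw [h2] at h4
    rw [h4]
    have : (2 * (3/4) - 1/2 : ℝ) = 1 := by norm_num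
    rw [this]
    exact collar_g_one hω
  rw [e1, e2, hκ _ hω]
  show _ = W.C.g (W.C.f (W.A.f (((collar 2).f x).1, 1)))
  rw [W.C.li _ (W.A1 _ hω)]

include hκ in
lemma eq_g : EqOn W.eO.g (W.eI κ).g (W.NA ∩ W.BX) := by
  refine Cb_609.eqOn_g_of_f W.eO (W.eI κ) (W.eq_f hκ) ?_
  rintro z ⟨h1, h2⟩
  have h3 := W.C1 z h1 h2
  have h4 := (W.A.mg h1).1
  show ‖(collar 2).g ((W.A.g z).1, 1 - (W.A.g z).2 / 4)‖ ≤ 3/4
  rw [h3, norm_collar_g h4 ⟨by norm_num, by norm_num⟩]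
  norm_num

lemma Out_union_In : Out2 ∪ In2 = cube 2 := by
  ext x
  simp only [cube, mem_closedBall_zero_iff]
  constructor
  · rintro (h | h)
    · exact h.2
    · have : ‖x‖ ≤ 3/4 := h
      show ‖x‖ ≤ 1
      linarith
  · intro h
    rcases le_total ‖x‖ (3/4) with h1 | h1
    · exact Or.inr h1
    · exact Or.inl ⟨h1, h⟩

/-- **one step**: cone side → sweep side -/
noncomputable def step : PLEquiv (cube 2) (cube 2) :=
  (Cb_609.glue W.eO (W.eI κ) isClosed_Out2 isClosed_In2 W.cNA W.cBX (W.eq_f hκ)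
    (W.eq_g hκ)).restr Out_union_In.ge W.un.ge
    (fun x hx => by
      rw [← Out_union_In] at hx
      rw [← W.un]
      exact (Cb_609.glue W.eO (W.eI κ) isClosed_Out2 isClosed_In2 W.cNA W.cBX (W.eq_f hκ)
        (W.eq_g hκ)).mf hx)
    (fun x hx => by
      rw [← W.un] at hx
      rw [← Out_union_In]
      exact (Cb_609.glue W.eO (W.eI κ) isClosed_Out2 isClosed_In2 W.cNA W.cBX (W.eq_f hκ)
        (W.eq_g hκ)).mg hx)

lemma step_g_NA {z : Fin 2 → ℝ} (hz : z ∈ W.NA) :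
    (W.step hκ).g z = (collar 2).g ((W.A.g z).1, 1 - (W.A.g z).2 / 4) :=
  Cb_609.glue_g₁ W.eO (W.eI κ) isClosed_Out2 isClosed_In2 W.cNA W.cBX (W.eq_f hκ)
    (W.eq_g hκ) hz

lemma step_g_BX {z : Fin 2 → ℝ} (hz : z ∈ W.BX) :
    (W.step hκ).g z = shr.g (κ.g (W.C.f z)) :=
  Cb_609.glue_g₂ W.eO (W.eI κ) isClosed_Out2 isClosed_In2 W.cNA W.cBX (W.eq_f hκ)
    (W.eq_g hκ) hz

lemma step_f_sph {ω : Fin 2 → ℝ} (hω : ω ∈ sph 2) : (W.step hκ).f ω = ω := by
  have hn : ‖ω‖ = 1 := by simpa using hω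
  have h1 : ω ∈ Out2 := ⟨by linarith, hn.le⟩
  have h2 : (W.step hκ).f ω = W.eO.f ω :=
    Cb_609.glue_f₁ W.eO (W.eI κ) isClosed_Out2 isClosed_In2 W.cNA W.cBX (W.eq_f hκ)
      (W.eq_g hκ) h1
  rw [h2]
  show W.A.f (((collar 2).f ω).1, 4 * (1 - ((collar 2).f ω).2)) = ω
  rw [collar_f_sph hω]
  simp only [sub_self, mul_zero]
  exact W.A0 ω hω


end AnnS

end Crest.Agent.R096.Fsw_928
end

-- ▼ part R096/Fsw5_928
section

/-!
# R096 (row 96), FACE-SWEEP, part 5: the PL homeo of the square and its formulas (helper928)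
-/

set_option autoImplicit false

open Set Metric

namespace Crest.Agent.R096.Fsw_928

open Crest.Agent.R096.Ce_537 Crest.Agent.R096.Bd_416

namespace Par

variable {P : Par}

lemma F_mem_BX {ω : Fin 2 → ℝ} (hω : ω ∈ sph 2) : P.F (ω, 1) ∈ P.BX := by
  rw [mem_sph2] at hω
  have := P.R_F (ρ := 1) zero_le_one le_rfl hω.1 hω.2.1 hω.2.2
  exact this.ge

lemma chart_sph {z : Fin 2 → ℝ} (hz : z ∈ P.BX) : P.chart.f z ∈ sph 2 ↔ z ∈ P.NA := by
  have hz' := P.mem_BX.1 hz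
  have h1 : 0 < 1 - P.a := by linarith [P.a_lt_one]
  have h2 := P.ee_pos
  have e0 : P.chart.f z 0 = z 0 / (1 - P.a) := rfl
  have e1 : P.chart.f z 1 = (z 1 - P.cc) / P.ee := rfl
  have hm := P.chart.mf hz
  rw [mem_cube2] at hm
  rw [mem_sph2]
  have k0 : |P.chart.f z 0| = 1 ↔ |z 0| = 1 - P.a := by
    rw [e0, abs_div, abs_of_pos h1, div_eq_one_iff_eq h1.ne']
  have k1 : |P.chart.f z 1| = 1 ↔ (z 1 = 1 - P.a ∨ z 1 = -1 + P.H) := by
    rw [e1, abs_div, abs_of_pos h2, div_eq_one_iff_eq h2.ne', abs_eq h2.le]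
    unfold ee cc
    constructor
    · rintro (h | h)
      · left; linarith
      · right; linarith
    · rintro (h | h)
      · left; linarith
      · right; linarith
  have kNA : z ∈ P.NA ↔ (|z 0| = 1 - P.a ∨ (z 1 = 1 - P.a ∨ z 1 = -1 + P.H)) := by
    constructor
    · intro h
      have hR : P.R (z 0) (z 1) = 1 := le_antisymm h.2 hz
      rcases P.gauge_eq hR with h3 | h3 | h3
      · left; rw [h3]; ring
      · right; left; rw [h3]; ring
      · right; right; rw [h3]; unfold hh; ring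
    · intro h
      refine ⟨P.BX_subset hz, ?_⟩
      unfold R
      rw [max_neg_eq]
      rcases h with h | h | h
      · refine (min_le_left _ _).trans ((min_le_left _ _).trans ?_)
        rw [div_le_one P.a0, h]; linarith
      · refine (min_le_left _ _).trans ((min_le_right _ _).trans ?_)
        rw [div_le_one P.a0, h]; linarith
      · refine (min_le_right _ _).trans ?_
        rw [div_le_one P.H0, h]; linarith
  rw [kNA, k0, k1]
  exact ⟨fun h => h.2.2, fun h => ⟨hm.1, hm.2, h⟩⟩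

/-- the step of a sweep -/
noncomputable def ann (P : Par) : AnnS where
  NA := P.NA
  BX := P.BX
  cNA := P.isClosed_NA
  cBX := P.isClosed_BX
  un := P.NA_union_BX
  A := P.sweep
  C := P.chart
  A0 ω hω := P.F_at_zero hω
  A1 ω hω := P.F_mem_BX hω
  C1 z h1 h2 := le_antisymm h1.2 h2
  CS z hz := P.chart_sph hz

/-- the second sweep (in the swapped last box) -/
noncomputable def phi2 (P : Par) : PLEquiv (cube 2) (cube 2) :=
  P.ann.step (κ := colB P.ann.β) (fun _ hω => colB_f_sph _ hω)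

/-- the map on the inner cube -/
noncomputable def kap (P P' : Par) : PLEquiv (cube 2) (cube 2) :=
  (colB P.ann.β).trans (swE.trans (P'.phi2.trans swE))

lemma kap_sph (P P' : Par) : ∀ ω ∈ sph 2, (P.kap P').f ω = P.ann.β.f ω := by
  intro ω hω
  show sw (P'.phi2.f (sw ((colB P.ann.β).f ω))) = _
  rw [colB_f_sph _ hω]
  have h : P'.phi2.f (sw (P.ann.β.f ω)) = sw (P.ann.β.f ω) :=
    AnnS.step_f_sph P'.ann _ (sw_sph (P.ann.β.mf hω))
  rw [h, sw_sw]

/-- **THE PL HOMEO OF THE SQUARE**: cone side → sweep side -/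
noncomputable def phi (P P' : Par) : PLEquiv (cube 2) (cube 2) :=
  P.ann.step (P.kap_sph P')

variable (P) (P' : Par)

lemma phi_f_sph {ω : Fin 2 → ℝ} (hω : ω ∈ sph 2) : (P.phi P').f ω = ω :=
  AnnS.step_f_sph P.ann _ hω


/-- the collar coordinates `(ω, r)` of a point of the cone side -/
def IsCo (x ω : Fin 2 → ℝ) (r : ℝ) : Prop :=
  ω ∈ sph 2 ∧ r ∈ Icc (1/2 : ℝ) 1 ∧ x = (collar 2).g (ω, r)

lemma IsCo.norm {x ω : Fin 2 → ℝ} {r : ℝ} (h : IsCo x ω r) : ‖x‖ = r := by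
  rw [h.2.2]; exact norm_collar_g h.1 h.2.1

lemma IsCo.ann {x ω : Fin 2 → ℝ} {r : ℝ} (h : IsCo x ω r) : x ∈ Ann 2 := by
  rw [h.2.2]; exact (collar 2).mg ⟨h.1, h.2.1⟩

lemma IsCo.f {x ω : Fin 2 → ℝ} {r : ℝ} (h : IsCo x ω r) : (collar 2).f x = (ω, r) := by
  rw [h.2.2]; exact collar_f_g h.1 h.2.1

/-- **first sweep** -/
lemma phi_NA {z : Fin 2 → ℝ} (hz : z ∈ P.NA) :
    IsCo ((P.phi P').g z) (P.Gi z).1 (1 - P.R (z 0) (z 1) / 4) := by
  have h1 := P.sweep.mg hz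
  refine ⟨h1.1, ?_, AnnS.step_g_NA P.ann _ hz⟩
  have h2 : P.R (z 0) (z 1) ∈ Icc (0:ℝ) 1 := h1.2
  constructor
  · linarith [h2.2]
  · linarith [h2.1]

/-- the point of the second square -/
noncomputable def z2 (z : Fin 2 → ℝ) : Fin 2 → ℝ := sw (P.chart.f z)

lemma z2_mem {z : Fin 2 → ℝ} (hz : z ∈ P.BX) : P.z2 z ∈ cube 2 := swE.mf (P.chart.mf hz)

lemma phi_BX {z : Fin 2 → ℝ} (hz : z ∈ P.BX) :
    (P.phi P').g z = shr.g ((colB P.ann.β).g (sw (P'.phi2.g (P.z2 z)))) :=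
  AnnS.step_g_BX P.ann _ hz

/-- **second sweep** -/
lemma phi_BX_NA {z : Fin 2 → ℝ} (hz : z ∈ P.BX) (hz2 : P.z2 z ∈ P'.NA) :
    IsCo ((P.phi P').g z) (P.ann.β.g (sw (P'.Gi (P.z2 z)).1))
      (3/4 - P'.R (P.z2 z 0) (P.z2 z 1) / 8) := by
  have h1 := P'.sweep.mg hz2
  have h2 : P'.R (P.z2 z 0) (P.z2 z 1) ∈ Icc (0:ℝ) 1 := h1.2
  have h3 : sw (P'.Gi (P.z2 z)).1 ∈ sph 2 := sw_sph h1.1
  have e1 : P'.phi2.g (P.z2 z)
      = (collar 2).g ((P'.Gi (P.z2 z)).1, 1 - P'.R (P.z2 z 0) (P.z2 z 1) / 4) :=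
    AnnS.step_g_NA P'.ann _ hz2
  have hr : 1 - P'.R (P.z2 z 0) (P.z2 z 1) / 4 ∈ Icc (1/2 : ℝ) 1 :=
    ⟨by linarith [h2.2], by linarith [h2.1]⟩
  refine ⟨P.ann.β.mg h3, ⟨by linarith [h2.2], by linarith [h2.1]⟩, ?_⟩
  rw [P.phi_BX P' hz, e1, sw_collar_g, colB_g_collar _ h3 hr,
    shr_g_collar (P.ann.β.mg h3) hr]
  congr 2
  ring

/-- the point of the last square -/
noncomputable def z3 (z : Fin 2 → ℝ) : Fin 2 → ℝ := P'.chart.f (P.z2 z)

lemma phi_BX_BX {z : Fin 2 → ℝ} (hz : z ∈ P.BX) (hz2 : P.z2 z ∈ P'.BX) :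
    (P.phi P').g z
      = shr.g ((colB P.ann.β).g (sw (shr.g ((colB P'.ann.β).g (P.z3 P' z))))) := by
  rw [P.phi_BX P' hz]
  have : P'.phi2.g (P.z2 z) = shr.g ((colB P'.ann.β).g (P'.chart.f (P.z2 z))) :=
    AnnS.step_g_BX P'.ann _ hz2
  rw [this]
  rfl

/-- **last box, collar part** -/
lemma phi_last {z : Fin 2 → ℝ} (hz : z ∈ P.BX) (hz2 : P.z2 z ∈ P'.BX)
    {θ : Fin 2 → ℝ} {s : ℝ} (h : IsCo (P.z3 P' z) θ s) :
    IsCo ((P.phi P').g z) (P.ann.β.g (sw (P'.ann.β.g θ))) (s / 4 + 3/8) := by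
  obtain ⟨h1, h2, h3⟩ := h
  have k1 := P'.ann.β.mg h1
  have k2 : sw (P'.ann.β.g θ) ∈ sph 2 := sw_sph k1
  have k3 := P.ann.β.mg k2
  have hr : (s + 1/2) / 2 ∈ Icc (1/2 : ℝ) 1 := ⟨by linarith [h2.1], by linarith [h2.2]⟩
  refine ⟨k3, ⟨by linarith [h2.1], by linarith [h2.2]⟩, ?_⟩
  rw [P.phi_BX_BX P' hz hz2, h3, colB_g_collar _ h1 h2, shr_g_collar k1 h2, sw_collar_g,
    colB_g_collar _ k2 hr, shr_g_collar k3 hr]
  congr 2
  ring

lemma norm_shr_g_low {x : Fin 2 → ℝ} (hx : ‖x‖ ≤ 1/2) : ‖shr.g x‖ ≤ 1/2 := by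
  show ‖shg x‖ ≤ 1/2
  rw [shg_low hx]; exact hx

/-- **last box, core** -/
lemma phi_core {z : Fin 2 → ℝ} (hz : z ∈ P.BX) (hz2 : P.z2 z ∈ P'.BX)
    (h : ‖P.z3 P' z‖ ≤ 1/2) : ‖(P.phi P').g z‖ ≤ 1/2 := by
  rw [P.phi_BX_BX P' hz hz2]
  refine norm_shr_g_low (colB_g_low _ ?_)
  rw [norm_sw]
  exact norm_shr_g_low (colB_g_low _ h)

end Par

end Crest.Agent.R096.Fsw_928
end

-- ▼ part R096/Fsw6_928
section

/-!
# R096 (row 96), FACE-SWEEP, part 6: the sweep annulus in regions (helper928)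
-/

set_option autoImplicit false

open Set Metric

namespace Crest.Agent.R096.Fsw_928

open Crest.Agent.R096.Ce_537 Crest.Agent.R096.Bd_416

/-! ### `cg` and functions which are constant near the end points -/

lemma cg_small {r s : ℝ} (hs : |s| ≤ 2 * r - 1) : cg r s = s := by
  obtain ⟨h1, h2⟩ := abs_le.1 hs
  unfold cg
  rw [max_eq_left (show (s + 1 - 2 * r) / 2 ≤ (0:ℝ) by linarith),
    max_eq_left (show (-s + 1 - 2 * r) / 2 ≤ (0:ℝ) by linarith)]
  ring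

lemma cg_big {r s : ℝ} (hr : 1/2 ≤ r) (hs : 2 * r - 1 ≤ s) : 2 * r - 1 ≤ cg r s := by
  have h0 : 0 ≤ s := by linarith
  rw [cg_of_nonneg hr h0, max_eq_right (by linarith)]
  linarith

lemma cg_big' {r s : ℝ} (hr : 1/2 ≤ r) (hs : s ≤ -(2 * r - 1)) : cg r s ≤ -(2 * r - 1) := by
  have h1 := cg_big hr (s := -s) (by linarith)
  rw [cg_neg] at h1
  linarith

/-- `k` is constant on `(-∞, -y]` and on `[y, ∞)` -/
def Ends (k : ℝ → ℝ) (y : ℝ) : Prop := (∀ x ≤ -y, k x = k (-1)) ∧ ∀ x, y ≤ x → k x = k 1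

lemma Ends.cg {k : ℝ → ℝ} {y r s : ℝ} (hk : Ends k y) (hr : 1/2 ≤ r) (hy : y ≤ 2 * r - 1) :
    k (cg r s) = k s := by
  by_cases h : |s| ≤ 2 * r - 1
  · rw [cg_small h]
  · rw [not_le, lt_abs] at h
    rcases h with h | h
    · rw [hk.2 s (by linarith), hk.2 _ (hy.trans (cg_big hr h.le))]
    · rw [hk.1 s (by linarith), hk.1 _ ((cg_big' hr (by linarith : s ≤ -(2 * r - 1))).trans
        (by linarith))]

/-- the sign, with value `1` at `0` -/
noncomputable def sgn (u : ℝ) : ℝ := if 0 ≤ u then 1 else -1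

lemma sgn_of_nonneg {u : ℝ} (h : 0 ≤ u) : sgn u = 1 := if_pos h
lemma sgn_of_neg {u : ℝ} (h : u < 0) : sgn u = -1 := if_neg (not_le.2 h)

lemma sgn_cases (u : ℝ) : sgn u = 1 ∨ sgn u = -1 := by
  unfold sgn; split_ifs <;> simp

namespace Par

variable {P : Par}

/-! ### the three sides -/

lemma T_lat {u v ρ : ℝ} (hR : P.R u v = ρ) (h0 : 0 ≤ ρ) (h1 : ρ ≤ 1) (hu : |u| = 1 - P.a * ρ) :
    P.T u v ρ = max v (2 * v - 1 + 2 * (P.a * ρ)) := by
  obtain ⟨g1, g2, g3⟩ := P.gauge_ge hR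
  have hh1 := P.hh_ge h0
  have h2 := P.two_le
  have hT1ge : v ≤ max v (2 * v - 1 + 2 * (P.a * ρ)) := le_max_left _ _
  have h3 : 1 - (2 / P.a) * (1 - P.a * ρ - v) ≤ max v (2 * v - 1 + 2 * (P.a * ρ)) := by
    refine le_trans ?_ (le_max_right _ _)
    have h5 := mul_le_mul_of_nonneg_right h2 (by linarith : (0:ℝ) ≤ 1 - P.a * ρ - v)
    linarith
  have e0 : (1 - |u| - P.a * ρ) / P.m = 0 := by rw [hu]; simp
  unfold T
  rw [max_neg_eq, e0, sub_zero, max_eq_left h3]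
  exact max_eq_right (by linarith)

lemma T_top {u v ρ : ℝ} (hR : P.R u v = ρ) (h0 : 0 ≤ ρ) (h1 : ρ ≤ 1) (hv : v = 1 - P.a * ρ) :
    P.T u v ρ = 1 := by
  obtain ⟨g1, g2, g3⟩ := P.gauge_ge hR
  have ha := P.aρ_nonneg h0
  have hh1 := P.hh_ge h0
  have hq : 0 ≤ (1 - |u| - P.a * ρ) / P.m := div_nonneg (by linarith) P.m0.le
  have hT1le : max v (2 * v - 1 + 2 * (P.a * ρ)) ≤ 1 := max_le (by linarith) (by linarith)
  have e0 : 1 - (2 / P.a) * (1 - P.a * ρ - v) = 1 := by rw [hv]; ring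
  unfold T
  rw [max_neg_eq, e0]
  rw [max_eq_right (show max v (2 * v - 1 + 2 * (P.a * ρ)) -
    (1 - |u| - P.a * ρ) / P.m ≤ 1 by linarith)]
  exact max_eq_right (by norm_num)

lemma T_bot {u v ρ : ℝ} (hR : P.R u v = ρ) (h0 : 0 ≤ ρ) (h1 : ρ ≤ 1) (hv : v = P.hh ρ) :
    P.T u v ρ = max (-1) (P.hh ρ - (1 - |u| - P.a * ρ) / P.m) := by
  obtain ⟨g1, g2, g3⟩ := P.gauge_ge hR
  have ha := P.aρ_nonneg h0
  have htri := P.third_le h1
  have h2a := P.one_sub_two_a_le h0 h1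
  have e1 : max v (2 * v - 1 + 2 * (P.a * ρ)) = P.hh ρ := by
    rw [hv]; exact max_eq_left (by linarith)
  unfold T
  rw [max_neg_eq, e1, hv]
  rcases le_total (1 - 2 / P.a * (1 - P.a * ρ - P.hh ρ))
    (P.hh ρ - (1 - |u| - P.a * ρ) / P.m) with h | h
  · rw [max_eq_left h]
  · rw [max_eq_right h, max_eq_left htri, max_eq_left (h.trans htri)]

/-- the first coordinate on the sides -/
lemma S_side {u v ρ : ℝ} (hR : P.R u v = ρ) (h0 : 0 ≤ ρ) (h1 : ρ ≤ 1)
    (hS : |P.S u (P.T u v ρ) ρ| = 1) : P.S u (P.T u v ρ) ρ = sgn u := by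
  obtain ⟨a1, a2, a3, -, -⟩ := P.inv_spec hR h0 h1
  have h2 := P.dd_le h1 a1
  have h3 := (P.aρ_nonneg h0).trans (P.dd_ge (t := P.T u v ρ))
  have h4 : cg (1 - P.dd (P.T u v ρ) ρ) 1 = 1 - P.dd (P.T u v ρ) ρ :=
    cg_top (by linarith) (by linarith)
  unfold U at a3
  rcases (abs_eq zero_le_one).1 hS with h | h
  · rw [h, h4] at a3
    rw [h, sgn_of_nonneg (by linarith)]
  · rw [h, cg_neg, h4] at a3
    rw [h, sgn_of_neg (by linarith)]

/-! ### the regions of the annulus -/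

/-- the top region -/
def Rt (P : Par) : Set (Fin 2 → ℝ) := {z | z ∈ P.NA ∧ P.R (z 0) (z 1) = (1 - z 1) / P.a}
/-- the lateral region -/
def Rl (P : Par) : Set (Fin 2 → ℝ) := {z | z ∈ P.NA ∧ P.R (z 0) (z 1) = (1 - |z 0|) / P.a}
/-- the bottom region -/
def Rb (P : Par) : Set (Fin 2 → ℝ) := {z | z ∈ P.NA ∧ P.R (z 0) (z 1) = (1 + z 1) / P.H}

lemma NA_eq : P.NA = P.Rt ∪ (P.Rl ∪ P.Rb) := by
  ext z
  constructor
  · intro h
    unfold Rt Rl Rb
    simp only [mem_union, mem_ofPred_eq]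
    unfold R
    rw [max_neg_eq]
    rcases min_choice (min ((1 - |z 0|) / P.a) ((1 - z 1) / P.a)) ((1 + z 1) / P.H) with e | e
    · rw [e]
      rcases min_choice ((1 - |z 0|) / P.a) ((1 - z 1) / P.a) with e' | e'
      · right; left; exact ⟨h, e'⟩
      · left; exact ⟨h, e'⟩
    · right; right; exact ⟨h, e⟩
  · rintro (h | h | h) <;> exact h.1

lemma isClosed_Rt : IsClosed P.Rt :=
  P.isClosed_NA.inter (isClosed_eq P.continuous_R (by fun_prop))
lemma isClosed_Rl : IsClosed P.Rl :=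
  P.isClosed_NA.inter (isClosed_eq P.continuous_R (by fun_prop))
lemma isClosed_Rb : IsClosed P.Rb :=
  P.isClosed_NA.inter (isClosed_eq P.continuous_R (by fun_prop))

/-- the circle coordinate of a point of the annulus -/
noncomputable def om (P : Par) (z : Fin 2 → ℝ) : Fin 2 → ℝ := (P.Gi z).1

lemma om_one (z : Fin 2 → ℝ) : P.om z 1 = P.T (z 0) (z 1) (P.R (z 0) (z 1)) := rfl

lemma om_mem {z : Fin 2 → ℝ} (hz : z ∈ P.NA) : P.om z ∈ sph 2 := (P.sweep.mg hz).1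

lemma R_mem {z : Fin 2 → ℝ} (hz : z ∈ P.NA) : P.R (z 0) (z 1) ∈ Icc (0:ℝ) 1 :=
  ⟨P.R_nonneg hz.1, hz.2⟩

/-- `u = cg (1 - dd) s` -/
lemma om_U {z : Fin 2 → ℝ} (hz : z ∈ P.NA) :
    cg (1 - P.dd (P.om z 1) (P.R (z 0) (z 1))) (P.om z 0) = z 0 := by
  have h := P.R_mem hz
  exact (P.inv_spec rfl h.1 h.2).2.2.1

lemma om_side {z : Fin 2 → ℝ} (hz : z ∈ P.NA) (h : |P.om z 0| = 1) : P.om z 0 = sgn (z 0) := by
  have h' := P.R_mem hz
  exact P.S_side rfl h'.1 h'.2 h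

lemma om_top {z : Fin 2 → ℝ} (hz : z ∈ P.Rt) : P.om z 1 = 1 := by
  have h := P.R_mem hz.1
  refine P.T_top rfl h.1 h.2 ?_
  rw [hz.2]
  have := P.a0.ne'
  field_simp
  ring

lemma lat_eq {z : Fin 2 → ℝ} (hz : z ∈ P.Rl) : P.a * P.R (z 0) (z 1) = 1 - |z 0| := by
  rw [hz.2]
  have := P.a0.ne'
  field_simp

lemma bot_eq {z : Fin 2 → ℝ} (hz : z ∈ P.Rb) : P.hh (P.R (z 0) (z 1)) = z 1 := by
  unfold hh
  rw [hz.2]
  have := P.H0.ne'
  field_simp
  ring

lemma om_lat {z : Fin 2 → ℝ} (hz : z ∈ P.Rl) :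
    P.om z 1 = max (z 1) (2 * z 1 - 1 + 2 * (1 - |z 0|)) := by
  have h := P.R_mem hz.1
  have h2 := P.lat_eq hz
  have := P.T_lat (u := z 0) (v := z 1) rfl h.1 h.2 (by rw [h2]; ring)
  rw [h2] at this
  exact this

lemma om_lat_zero {z : Fin 2 → ℝ} (hz : z ∈ P.Rl) : P.om z 0 = sgn (z 0) := by
  have h := P.R_mem hz.1
  have h2 := P.lat_eq hz
  refine P.om_side hz.1 ?_
  have h3 : P.hh (P.R (z 0) (z 1)) ≤ P.om z 1 := by
    rw [P.om_lat hz]
    exact (P.gauge_ge rfl).2.2.trans (le_max_left _ _)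
  have h4 : -1 ≤ P.om z 1 := (P.hh_ge h.1).trans h3
  exact P.abs_S_eq h.1 h.2 h4 (by rw [← P.om_one, P.dd_of_ge h3, h2]; ring)

lemma om_bot {z : Fin 2 → ℝ} (hz : z ∈ P.Rb) :
    P.om z 1 = max (-1) (z 1 - (1 - |z 0| - P.a * P.R (z 0) (z 1)) / P.m) := by
  have h := P.R_mem hz.1
  have h2 := P.bot_eq hz
  have := P.T_bot (u := z 0) (v := z 1) rfl h.1 h.2 h2.symm
  rw [h2] at this
  exact this

lemma om_bot_le {z : Fin 2 → ℝ} (hz : z ∈ P.Rb) : P.om z 1 ≤ z 1 := by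
  have h := P.R_mem hz.1
  have h2 := (P.gauge_ge (u := z 0) (v := z 1) rfl).1
  rw [P.om_bot hz]
  refine max_le ?_ ?_
  · have := P.hh_ge h.1; rw [P.bot_eq hz] at this; exact this
  · have := div_nonneg (show (0:ℝ) ≤ 1 - |z 0| - P.a * P.R (z 0) (z 1) by linarith) P.m0.le
    linarith

/-- in the bottom region the circle point is on the bottom side or on the lateral sides -/
lemma om_bot_cases {z : Fin 2 → ℝ} (hz : z ∈ P.Rb) :
    P.om z 1 = -1 ∨ (P.om z 0 = sgn (z 0) ∧ |z 0| = 1 - P.dd (P.om z 1) (P.R (z 0) (z 1))) := by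
  have h := P.R_mem hz.1
  by_cases h1 : P.om z 1 = -1
  · exact Or.inl h1
  · right
    have h2 := P.om_mem hz.1
    rw [mem_sph2] at h2
    have h3 : |P.om z 0| = 1 := by
      rcases h2.2.2 with h3 | h3
      · exact h3
      · exfalso
        rcases (abs_eq zero_le_one).1 h3 with h4 | h4
        · have h5 := P.om_bot_le hz
          rw [h4] at h5
          have h6 := P.one_sub_two_a_le h.1 h.2
          rw [P.bot_eq hz] at h6
          have h7 : P.a * P.R (z 0) (z 1) = 0 := le_antisymm (by linarith) (P.aρ_nonneg h.1)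
          have h8 : P.R (z 0) (z 1) = 0 := by
            rcases mul_eq_zero.1 h7 with h9 | h9
            · exact absurd h9 P.a0.ne'
            · exact h9
          have h9 := P.bot_eq hz
          rw [h8] at h9
          unfold hh at h9
          rw [← h9] at h5
          norm_num at h5
        · exact h1 h4
    refine ⟨P.om_side hz.1 h3, ?_⟩
    have h5 := P.om_U hz.1
    have h6 := abs_cg (1 - P.dd (P.om z 1) (P.R (z 0) (z 1))) (P.om z 0)
      (by linarith [P.dd_le (t := P.om z 1) h.2 (abs_le.1 h2.2.1).1])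
    rw [h5, h3] at h6
    rw [h6]
    have h7 := (P.aρ_nonneg h.1).trans (P.dd_ge (t := P.om z 1))
    exact cg_top (by linarith [P.dd_le (t := P.om z 1) h.2 (abs_le.1 h2.2.1).1]) (by linarith)

end Par

end Crest.Agent.R096.Fsw_928
end

-- ▼ part R096/Fsw7_928
section

/-!
# R096 (row 96), FACE-SWEEP, part 7: the two kinds of long chords in a sweep (helper928)
-/

set_option autoImplicit false

open Set Metric Filter Topology

namespace Crest.Agent.R096.Fsw_928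

open Crest.Agent.R096.Ce_537 Crest.Agent.R096.Bd_416

/-! ### chords which are swept (type A) -/

/-- A swept function: `c` on the circle, `rp` = its ramp as a function of the time, `k σ t` its
values on the two lateral sides. -/
structure TA (P : Par) (c : (Fin 2 → ℝ) → ℝ) (rp : ℝ → ℝ) (k : ℝ → ℝ → ℝ) : Prop where
  bot : ∀ ω ∈ sph 2, ω 1 = -1 → c ω = 1/2
  top : ∀ ω ∈ sph 2, ω 1 = 1 → c ω = -1/2
  side : ∀ ω ∈ sph 2, |ω 0| = 1 → c ω = k (ω 0) (ω 1)
  far : ∀ σ t, 1 - 2 * P.a ≤ t → k σ t = -1/2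
  lag : ∀ σ t ρ, (σ = 1 ∨ σ = -1) → 0 ≤ ρ → ρ ≤ 1 → P.hh ρ ≤ t → t ≤ 1 → k σ t ≤ rp ρ
  rp0 : ∀ ρ, -1/2 ≤ rp ρ
  rp1 : ∀ ρ, rp ρ ≤ 1/2

section

variable {P : Par} {c : (Fin 2 → ℝ) → ℝ} {rp : ℝ → ℝ} {k : ℝ → ℝ → ℝ}

/-- the function on the annulus -/
noncomputable def fa (P : Par) (c : (Fin 2 → ℝ) → ℝ) (rp : ℝ → ℝ) (z : Fin 2 → ℝ) : ℝ :=
  min (c (P.om z)) (rp (P.R (z 0) (z 1)))

namespace TA

variable (A : TA P c rp k)
include A

lemma corner {σ : ℝ} (hσ : σ = 1 ∨ σ = -1) : k σ (-1) = 1/2 := by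
  have h1 : |σ| = 1 := by rcases hσ with h | h <;> rw [h] <;> norm_num
  have h2 : (fun i : Fin 2 => if i = 0 then σ else (-1:ℝ)) ∈ sph 2 := by
    rw [mem_sph2]
    refine ⟨?_, ?_, ?_⟩
    · show |σ| ≤ 1; rw [h1]
    · show |(-1:ℝ)| ≤ 1; norm_num
    · left; exact h1
  have h3 := A.side _ h2 h1
  have h4 := A.bot _ h2 rfl
  have h5 : c (fun i : Fin 2 => if i = 0 then σ else (-1:ℝ)) = k σ (-1) := h3
  rw [← h5, h4]

lemma fa_top {z : Fin 2 → ℝ} (hz : z ∈ P.Rt) : fa P c rp z = -1/2 := by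
  unfold fa
  rw [A.top _ (P.om_mem hz.1) (P.om_top hz)]
  exact min_eq_left (A.rp0 _)

lemma fa_lat {z : Fin 2 → ℝ} (hz : z ∈ P.Rl) : fa P c rp z = k (sgn (z 0)) (z 1) := by
  have hR := P.R_mem hz.1
  have h1 := P.om_lat_zero hz
  have h2 := P.om_lat hz
  have h3 : |P.om z 0| = 1 := by
    rw [h1]; rcases sgn_cases (z 0) with h | h <;> rw [h] <;> norm_num
  have h4 := (P.gauge_ge (u := z 0) (v := z 1) rfl).2.2
  have h5 : P.hh (P.R (z 0) (z 1)) ≤ P.om z 1 := by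
    rw [h2]; exact h4.trans (le_max_left _ _)
  have hm := P.om_mem hz.1
  have h1' := (mem_sph2.1 hm).2.1
  unfold fa
  rw [A.side _ hm h3, h1]
  rw [min_eq_left (A.lag _ _ _ (sgn_cases _) hR.1 hR.2 h5 (abs_le.1 h1').2)]
  by_cases h6 : 2 * z 1 - 1 + 2 * (1 - |z 0|) ≤ z 1
  · rw [h2, max_eq_left h6]
  · rw [not_le] at h6
    have h7 := P.lat_eq hz
    have h8 : P.a * P.R (z 0) (z 1) ≤ P.a := P.aρ_le hR.2
    rw [A.far _ (P.om z 1) (by rw [h2]; exact le_trans (by linarith) (le_max_left _ _)),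
      A.far _ (z 1) (by linarith)]

lemma fa_bot {z : Fin 2 → ℝ} (hz : z ∈ P.Rb) :
    fa P c rp z = min (k (sgn (z 0)) (P.om z 1)) (rp ((1 + z 1) / P.H)) := by
  unfold fa
  rw [← hz.2]
  rcases P.om_bot_cases hz with h | h
  · rw [A.bot _ (P.om_mem hz.1) h, h, A.corner (sgn_cases _)]
  · have h3 : |P.om z 0| = 1 := by
      rw [h.1]; rcases sgn_cases (z 0) with h | h <;> rw [h] <;> norm_num
    rw [A.side _ (P.om_mem hz.1) h3, h.1]

/-- **on the middle part of the bottom region the function is the ramp** -/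
lemma fa_mid {z : Fin 2 → ℝ} (hz : z ∈ P.Rb) (hu : |z 0| ≤ 1 - (P.a + P.m * P.H)) :
    fa P c rp z = rp ((1 + z 1) / P.H) := by
  have hR := P.R_mem hz.1
  have h1 : P.om z 1 = -1 := by
    rw [P.om_bot hz]
    apply max_eq_left
    have h2 : z 1 + 1 ≤ P.H := by
      have := P.hh_le hR.2
      rw [P.bot_eq hz] at this
      exact this
    have h3 : z 1 + 1 ≤ (1 - |z 0| - P.a * P.R (z 0) (z 1)) / P.m := by
      rw [le_div_iff₀ P.m0]
      have h4 := P.aρ_le hR.2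
      have h5 := mul_le_mul_of_nonneg_right h2 P.m0.le
      nlinarith
    linarith
  rw [A.fa_bot hz, h1, A.corner (sgn_cases _)]
  exact min_eq_right (A.rp1 _)

end TA

end

/-! ### chords of the second family (type B) -/

/-- a function which is `1/2` on the left side, `-1/2` on the right side, `kb`, `kt` on the bottom and
top side, and `± 1/2` near the corners -/
structure TB (P : Par) (c : (Fin 2 → ℝ) → ℝ) (kb kt : ℝ → ℝ) : Prop where
  left : ∀ ω ∈ sph 2, ω 0 = -1 → c ω = 1/2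
  right : ∀ ω ∈ sph 2, ω 0 = 1 → c ω = -1/2
  bot : ∀ ω ∈ sph 2, ω 1 = -1 → c ω = kb (ω 0)
  top : ∀ ω ∈ sph 2, ω 1 = 1 → c ω = kt (ω 0)
  b0 : ∀ x ≤ -(1 - 2 * (P.a + P.m * P.H)), kb x = 1/2
  b1 : ∀ x, 1 - 2 * (P.a + P.m * P.H) ≤ x → kb x = -1/2
  t0 : ∀ x ≤ -(1 - 2 * P.a), kt x = 1/2
  t1 : ∀ x, 1 - 2 * P.a ≤ x → kt x = -1/2

namespace TB

variable {P : Par} {c : (Fin 2 → ℝ) → ℝ} {kb kt : ℝ → ℝ} (B : TB P c kb kt)
include B

omit B in
lemma d_pos (P : Par) : 0 ≤ 2 * (P.a + P.m * P.H) := by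
  have := P.a0; have := mul_pos P.m0 P.H0; linarith

lemma ends_b : Ends kb (1 - 2 * (P.a + P.m * P.H)) := by
  have h := d_pos P
  refine ⟨fun x hx => ?_, fun x hx => ?_⟩
  · rw [B.b0 x hx, B.b0 (-1) (by linarith)]
  · rw [B.b1 x hx, B.b1 1 (by linarith)]

lemma ends_t : Ends kt (1 - 2 * P.a) := by
  have h := P.a0
  refine ⟨fun x hx => ?_, fun x hx => ?_⟩
  · rw [B.t0 x hx, B.t0 (-1) (by linarith)]
  · rw [B.t1 x hx, B.t1 1 (by linarith)]

lemma c_top {z : Fin 2 → ℝ} (hz : z ∈ P.Rt) : c (P.om z) = kt (z 0) := by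
  have hR := P.R_mem hz.1
  have h1 := P.om_top hz
  have h2 := P.om_U hz.1
  have h3 : P.dd (P.om z 1) (P.R (z 0) (z 1)) = P.a * P.R (z 0) (z 1) := by
    apply P.dd_of_ge
    rw [h1]
    have := P.one_sub_two_a_le hR.1 hR.2
    have := P.aρ_nonneg hR.1
    linarith
  have h4 := P.aρ_le hR.2
  have h5 := P.a_le
  rw [B.top _ (P.om_mem hz.1) h1, ← B.ends_t.cg (r := 1 - P.dd (P.om z 1) (P.R (z 0) (z 1)))
    (by rw [h3]; linarith) (by rw [h3]; linarith), h2]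

lemma c_sgn {ω : Fin 2 → ℝ} (hω : ω ∈ sph 2) {u : ℝ} (h : ω 0 = sgn u)
    (hu : 1 - 2 * (P.a + P.m * P.H) ≤ |u|) : c ω = kb u := by
  have hd := d_pos P
  have ham := P.am
  by_cases h1 : 0 ≤ u
  · rw [sgn_of_nonneg h1] at h
    rw [abs_of_nonneg h1] at hu
    rw [B.right _ hω h, B.b1 _ hu]
  · rw [not_le] at h1
    rw [sgn_of_neg h1] at h
    rw [abs_of_neg h1] at hu
    rw [B.left _ hω h, B.b0 _ (by linarith)]

lemma c_lat {z : Fin 2 → ℝ} (hz : z ∈ P.Rl) : c (P.om z) = kb (z 0) := by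
  have hR := P.R_mem hz.1
  refine B.c_sgn (P.om_mem hz.1) (P.om_lat_zero hz) ?_
  have h2 := P.lat_eq hz
  have h4 := P.aρ_le hR.2
  have h5 := mul_pos P.m0 P.H0
  have h6 := P.a0
  linarith

lemma c_bot {z : Fin 2 → ℝ} (hz : z ∈ P.Rb) : c (P.om z) = kb (z 0) := by
  have hR := P.R_mem hz.1
  have h4 := P.aρ_le hR.2
  have hm := P.om_mem hz.1
  have h1' := (mem_sph2.1 hm).2.1
  have hdd : P.dd (P.om z 1) (P.R (z 0) (z 1)) ≤ P.a + P.m * P.H := by
    have h5 := P.hh_le hR.2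
    have h6 : max 0 (P.hh (P.R (z 0) (z 1)) - P.om z 1) ≤ P.H :=
      max_le P.H0.le (by linarith [(abs_le.1 h1').1])
    have h7 := mul_le_mul_of_nonneg_left h6 P.m0.le
    unfold Par.dd; linarith
  rcases P.om_bot_cases hz with h | h
  · have h2 := P.om_U hz.1
    have ham := P.am
    rw [B.bot _ hm h, ← B.ends_b.cg (r := 1 - P.dd (P.om z 1) (P.R (z 0) (z 1)))
      (by linarith) (by linarith), h2]
  · refine B.c_sgn hm h.1 ?_
    rw [h.2]
    have := d_pos P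
    linarith

/-- off the top region -/
lemma c_low {z : Fin 2 → ℝ} (hz : z ∈ P.Rl ∪ P.Rb) : c (P.om z) = kb (z 0) := by
  rcases hz with h | h
  · exact B.c_lat h
  · exact B.c_bot h

lemma c_any {z : Fin 2 → ℝ} (hz : z ∈ P.NA) :
    (z ∈ P.Rt ∧ c (P.om z) = kt (z 0)) ∨ (z ∈ P.Rl ∪ P.Rb ∧ c (P.om z) = kb (z 0)) := by
  rw [P.NA_eq] at hz
  rcases hz with h | h
  · exact Or.inl ⟨h, B.c_top h⟩
  · exact Or.inr ⟨h, B.c_low h⟩

omit B in
lemma chart_g_zero (P : Par) (w : Fin 2 → ℝ) : P.chart.g w 0 = w 0 * (1 - P.a) := rfl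
omit B in
lemma chart_g_one (P : Par) (w : Fin 2 → ℝ) : P.chart.g w 1 = w 1 * P.ee + P.cc := rfl

omit B in
lemma chart_NA (P : Par) {w : Fin 2 → ℝ} (hw : w ∈ sph 2) : P.chart.g w ∈ P.NA := by
  have h0 := P.chart.mg (sph_subset_cube hw)
  rw [← P.chart_sph h0, P.chart.ri _ (sph_subset_cube hw)]; exact hw

omit B in
lemma chart_R (P : Par) {w : Fin 2 → ℝ} (hw : w ∈ sph 2) :
    P.R (P.chart.g w 0) (P.chart.g w 1) = 1 :=
  le_antisymm (chart_NA P hw).2 (P.chart.mg (sph_subset_cube hw))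

omit B in
lemma beta_g (P : Par) (w : Fin 2 → ℝ) : P.ann.β.g w = P.om (P.chart.g w) := rfl

/-- the values on the four sides of the last box -/
lemma beta_side {w : Fin 2 → ℝ} (hw : w ∈ sph 2) (h : |w 0| = 1) :
    c (P.ann.β.g w) = - (w 0) / 2 := by
  have h1 := chart_NA P hw
  have ha := P.a0
  have hd := mul_pos P.m0 P.H0
  rw [beta_g]
  rcases (abs_eq zero_le_one).1 h with h2 | h2
  · have e : P.chart.g w 0 = 1 - P.a := by rw [chart_g_zero, h2]; ring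
    rcases B.c_any h1 with h3 | h3
    · rw [h3.2, e, B.t1 _ (by linarith), h2]
    · rw [h3.2, e, B.b1 _ (by linarith), h2]
  · have e : P.chart.g w 0 = -(1 - P.a) := by rw [chart_g_zero, h2]; ring
    rcases B.c_any h1 with h3 | h3
    · rw [h3.2, e, B.t0 _ (by linarith), h2]; norm_num
    · rw [h3.2, e, B.b0 _ (by linarith), h2]; norm_num

lemma beta_top {w : Fin 2 → ℝ} (hw : w ∈ sph 2) (h : w 1 = 1) :
    c (P.ann.β.g w) = kt ((1 - P.a) * w 0) := by
  have h1 := chart_NA P hw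
  have h2 : P.chart.g w ∈ P.Rt := by
    refine ⟨h1, ?_⟩
    rw [chart_R P hw, chart_g_one, h]
    have := P.a0.ne'
    unfold Par.ee Par.cc
    field_simp
    ring
  rw [beta_g, B.c_top h2, chart_g_zero, mul_comm]

lemma beta_bot {w : Fin 2 → ℝ} (hw : w ∈ sph 2) (h : w 1 = -1) :
    c (P.ann.β.g w) = kb ((1 - P.a) * w 0) := by
  have h1 := chart_NA P hw
  have h2 : P.chart.g w ∈ P.Rb := by
    refine ⟨h1, ?_⟩
    rw [chart_R P hw, chart_g_one, h]
    have := P.H0.ne'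
    unfold Par.ee Par.cc
    field_simp
    ring
  rw [beta_g, B.c_bot h2, chart_g_zero, mul_comm]

/-- **the chords of the second family are swept in the second sweep** -/
theorem second (P' : Par) (ha : 2 * P'.a ≤ P.a) {rp : ℝ → ℝ}
    (lag : ∀ σ t ρ : ℝ, (σ = 1 ∨ σ = -1) → 0 ≤ ρ → ρ ≤ 1 → P'.hh ρ ≤ t → t ≤ 1 →
      (if σ = 1 then kt ((1 - P.a) * t) else kb ((1 - P.a) * t)) ≤ rp ρ)
    (rp0 : ∀ ρ, -1/2 ≤ rp ρ) (rp1 : ∀ ρ, rp ρ ≤ 1/2) :
    TA P' (fun ω => c (P.ann.β.g (sw ω))) rp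
      (fun σ t => if σ = 1 then kt ((1 - P.a) * t) else kb ((1 - P.a) * t)) where
  bot ω hω h := by
    have := B.beta_side (sw_sph hω) (by rw [sw_zero, h]; norm_num)
    rw [this, sw_zero, h]; norm_num
  top ω hω h := by
    have := B.beta_side (sw_sph hω) (by rw [sw_zero, h]; norm_num)
    rw [this, sw_zero, h]
  side ω hω h := by
    rcases (abs_eq zero_le_one).1 h with h2 | h2
    · rw [if_pos h2]
      exact B.beta_top (sw_sph hω) (by rw [sw_one, h2])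
    · rw [if_neg (by rw [h2]; norm_num)]
      exact B.beta_bot (sw_sph hω) (by rw [sw_one, h2])
  far σ t ht := by
    have h1 := P.a_le
    have h0 := P.a0
    have h2 : 1 - 2 * P.a ≤ (1 - P.a) * t := by
      have h3 : (1 - P.a) * (1 - 2 * P'.a) ≤ (1 - P.a) * t :=
        mul_le_mul_of_nonneg_left ht (by linarith)
      nlinarith [P'.a0]
    have h4 := mul_pos P.m0 P.H0
    show (if σ = 1 then kt ((1 - P.a) * t) else kb ((1 - P.a) * t)) = -1/2
    split_ifs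
    · exact B.t1 _ h2
    · exact B.b1 _ (by linarith)
  lag := lag
  rp0 := rp0
  rp1 := rp1

end TB

end Crest.Agent.R096.Fsw_928
end

-- ▼ part R096/Fsw8_928
section

/-!
# R096 (row 96), FACE-SWEEP, part 8: local bounds of long chords off the fans (helper928)
-/

set_option autoImplicit false

open Set Metric Filter Topology

namespace Crest.Agent.R096.Fsw_928

open Crest.Agent.R096.Ce_537 Crest.Agent.R096.Bd_416

/-! ### functions which locally depend on one coordinate only -/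

/-- near `x` in `Z` the function changes at most by `K` times the change of the coordinate `j` -/
def LC (j : Fin 2) (K : ℝ) (f : (Fin 2 → ℝ) → ℝ) (Z : Set (Fin 2 → ℝ)) (x : Fin 2 → ℝ) : Prop :=
  ∀ᶠ y in 𝓝[Z] x, |f y - f x| ≤ K * |y j - x j|

section LC

variable {j : Fin 2} {K : ℝ} {f g : (Fin 2 → ℝ) → ℝ} {Z W : Set (Fin 2 → ℝ)} {x : Fin 2 → ℝ}

lemma LC.mono_set (h : LC j K f Z x) (hW : W ⊆ Z) : LC j K f W x :=
  h.filter_mono (nhdsWithin_mono x hW)

lemma LC.mono {L : ℝ} (h : LC j K f Z x) (hKL : K ≤ L) : LC j L f Z x := by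
  filter_upwards [h] with y hy
  exact hy.trans (mul_le_mul_of_nonneg_right hKL (abs_nonneg _))

lemma LC.union (h : LC j K f Z x) (h' : LC j K f W x) : LC j K f (Z ∪ W) x := by
  unfold LC at *
  rw [nhdsWithin_union]
  exact Filter.eventually_sup.2 ⟨h, h'⟩

lemma LC.of_notMem (hZ : IsClosed Z) (hx : x ∉ Z) : LC j K f Z x := by
  have : 𝓝[Z] x = ⊥ := by
    rw [← notMem_closure_iff_nhdsWithin_eq_bot, hZ.closure_eq]; exact hx
  unfold LC
  rw [this]
  exact Filter.eventually_bot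

/-- on a closed set where `f` is given by a formula -/
lemma LC.of_eqOn (hZ : IsClosed Z) {k : ℝ → ℝ} (hk : ∀ s t, |k s - k t| ≤ K * |s - t|)
    (h : ∀ y ∈ Z, f y = k (y j)) : LC j K f Z x := by
  by_cases hx : x ∈ Z
  · filter_upwards [self_mem_nhdsWithin] with y hy
    rw [h y hy, h x hx]
    exact hk _ _
  · exact LC.of_notMem hZ hx

lemma LC.const_of_eqOn (hK : 0 ≤ K) (hZ : IsClosed Z) {c : ℝ} (h : ∀ y ∈ Z, f y = c) :
    LC j K f Z x := by
  refine LC.of_eqOn hZ (k := fun _ => c) (fun s t => ?_) h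
  simpa using mul_nonneg hK (abs_nonneg _)

lemma cl_lip (x y : ℝ) : |cl x - cl y| ≤ |x - y| := by
  have h : ∀ t, cl t = Pc_117.cl t := fun t => by
    unfold cl Pc_117.cl; rw [min_comm]
  rw [h, h]; exact Pc_117.cl_lip x y

lemma LC.cl_div {b : ℝ} (hb : 0 < b) (h : LC j K f Z x) :
    LC j (K / (2 * b)) (fun y => cl (f y / (2 * b))) Z x := by
  filter_upwards [h] with y hy
  refine (cl_lip _ _).trans ?_
  rw [← sub_div, abs_div, abs_of_pos (by linarith : 0 < 2 * b), div_mul_eq_mul_div]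
  exact div_le_div_of_nonneg_right hy (by linarith)

lemma LC.congr (h : LC j K f Z x) (hx : x ∈ Z) (hfg : ∀ y ∈ Z, g y = f y) : LC j K g Z x := by
  filter_upwards [h, self_mem_nhdsWithin] with y hy hyZ
  rw [hfg y hyZ, hfg x hx]
  exact hy

end LC

/-! ### type A -/

section A

variable {P : Par} {c : (Fin 2 → ℝ) → ℝ} {rp : ℝ → ℝ} {k : ℝ → ℝ → ℝ}

lemma continuous_om_one : Continuous fun z : Fin 2 → ℝ => P.om z 1 := by
  have : (fun z : Fin 2 → ℝ => P.om z 1)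
      = fun z => P.T (z 0) (z 1) (P.R (z 0) (z 1)) := rfl
  rw [this]
  unfold Par.T Par.R
  fun_prop

/-- the fan of a swept chord -/
def Fan (P : Par) (rp : ℝ → ℝ) (ym yp : ℝ → ℝ) : Set (Fin 2 → ℝ) :=
  {z | z ∈ P.Rb ∧ ym (sgn (z 0)) ≤ P.om z 1 ∧ P.om z 1 ≤ yp (sgn (z 0)) ∧
    -1/2 < rp ((1 + z 1) / P.H)}

/-- values on the lateral sides -/
structure KS (k : ℝ → ℝ → ℝ) (ym yp : ℝ → ℝ) (K : ℝ) : Prop where
  lo : ∀ σ t, t < ym σ → k σ t = 1/2
  hi : ∀ σ t, yp σ < t → k σ t = -1/2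
  lip : ∀ σ s t, |k σ s - k σ t| ≤ K * |s - t|
  mem : ∀ σ t, k σ t ∈ I2

lemma abs_pos_of_Rl {z : Fin 2 → ℝ} (hz : z ∈ P.Rl) : 0 < |z 0| := by
  have h1 := P.lat_eq hz
  have h2 := P.aρ_le (P.R_mem hz.1).2
  have h3 := P.a_le
  linarith

variable {ym yp : ℝ → ℝ} {K K' : ℝ}

/-- **off its fan a swept function depends locally on the height only** -/
theorem TA.lc (A : TA P c rp k) (S : KS k ym yp K) (hK : 0 ≤ K)
    (hrp : ∀ s t, |rp s - rp t| ≤ K' * |s - t|) {z : Fin 2 → ℝ} (hz : z ∉ Fan P rp ym yp) :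
    LC 1 (max K (K' / P.H)) (fa P c rp) P.NA z := by
  have hM : 0 ≤ max K (K' / P.H) := hK.trans (le_max_left _ _)
  have hrp' : ∀ s t, |rp ((1 + s) / P.H) - rp ((1 + t) / P.H)| ≤ (K' / P.H) * |s - t| := by
    intro s t
    refine (hrp _ _).trans (le_of_eq ?_)
    have e : (1 + s) / P.H - (1 + t) / P.H = (s - t) / P.H := by ring
    rw [e, abs_div, abs_of_pos P.H0]
    ring
  have hNA : P.NA = P.Rt ∪ ((P.Rl ∩ {y | 0 ≤ y 0}) ∪ (P.Rl ∩ {y | y 0 ≤ 0})) ∪ P.Rb := by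
    rw [P.NA_eq, ← inter_union_distrib_left]
    have : ({y : Fin 2 → ℝ | 0 ≤ y 0} ∪ {y | y 0 ≤ 0}) = univ := by
      ext y; simpa using le_total 0 (y 0)
    rw [this, inter_univ, union_assoc]
  have c1 : IsClosed {y : Fin 2 → ℝ | 0 ≤ y 0} := isClosed_le continuous_const (continuous_apply 0)
  have c2 : IsClosed {y : Fin 2 → ℝ | y 0 ≤ 0} := isClosed_le (continuous_apply 0) continuous_const
  rw [hNA]
  refine LC.union (LC.union ?_ (LC.union ?_ ?_)) ?_
  · exact LC.const_of_eqOn hM P.isClosed_Rt (fun y hy => A.fa_top hy)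
  · refine (LC.of_eqOn (P.isClosed_Rl.inter c1) (S.lip 1) fun y hy => ?_).mono (le_max_left _ _)
    rw [A.fa_lat hy.1, sgn_of_nonneg hy.2]
  · refine (LC.of_eqOn (P.isClosed_Rl.inter c2) (S.lip (-1)) fun y hy => ?_).mono (le_max_left _ _)
    have h1 := abs_pos_of_Rl hy.1
    have h2 : y 0 ≤ 0 := hy.2
    rw [A.fa_lat hy.1, sgn_of_neg (lt_of_le_of_ne h2 (abs_pos.1 h1))]
  · by_cases hzb : z ∈ P.Rb
    swap
    · exact LC.of_notMem P.isClosed_Rb hzb
    refine LC.mono ?_ (le_max_right _ _)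
    by_cases h0 : |z 0| < 1 - (P.a + P.m * P.H)
    · -- the middle
      have h1 : ∀ᶠ y : Fin 2 → ℝ in 𝓝[P.Rb] z, |y 0| < 1 - (P.a + P.m * P.H) := by
        refine nhdsWithin_le_nhds ?_
        have hc : Continuous fun y : Fin 2 → ℝ => |y 0| := (continuous_apply 0).abs
        exact (hc.tendsto z).eventually_lt_const h0
      filter_upwards [h1, self_mem_nhdsWithin] with y hy hyb
      rw [A.fa_mid hyb hy.le, A.fa_mid hzb h0.le]
      exact hrp' _ _
    · rw [not_lt] at h0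
      have ham := P.am
      -- the sign is locally constant
      have hs : ∀ᶠ y : Fin 2 → ℝ in 𝓝[P.Rb] z, sgn (y 0) = sgn (z 0) := by
        refine nhdsWithin_le_nhds ?_
        rcases le_or_gt 0 (z 0) with h | h
        · rw [abs_of_nonneg h] at h0
          have h2 : ∀ᶠ y : Fin 2 → ℝ in 𝓝 z, 0 < y 0 :=
            ((continuous_apply (0 : Fin 2)).tendsto z).eventually_const_lt (by linarith)
          filter_upwards [h2] with y hy
          rw [sgn_of_nonneg hy.le, sgn_of_nonneg h]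
        · have h2 : ∀ᶠ y : Fin 2 → ℝ in 𝓝 z, y 0 < 0 :=
            ((continuous_apply (0 : Fin 2)).tendsto z).eventually_lt_const h
          filter_upwards [h2] with y hy
          rw [sgn_of_neg hy, sgn_of_neg h]
      have hom := (continuous_om_one (P := P)).tendsto z
      have hz' : ¬ (ym (sgn (z 0)) ≤ P.om z 1 ∧ P.om z 1 ≤ yp (sgn (z 0)) ∧
          -1/2 < rp ((1 + z 1) / P.H)) := fun h => hz ⟨hzb, h⟩
      by_cases h1 : P.om z 1 < ym (sgn (z 0))
      · have h2 : ∀ᶠ y : Fin 2 → ℝ in 𝓝[P.Rb] z, P.om y 1 < ym (sgn (z 0)) :=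
          nhdsWithin_le_nhds (hom.eventually_lt_const h1)
        filter_upwards [h2, hs, self_mem_nhdsWithin] with y hy hys hyb
        rw [A.fa_bot hyb, A.fa_bot hzb, hys, S.lo _ _ hy, S.lo _ _ h1,
          min_eq_right (A.rp1 _), min_eq_right (A.rp1 _)]
        exact hrp' _ _
      · by_cases h2 : yp (sgn (z 0)) < P.om z 1
        · have h3 : ∀ᶠ y : Fin 2 → ℝ in 𝓝[P.Rb] z, yp (sgn (z 0)) < P.om y 1 :=
            nhdsWithin_le_nhds (hom.eventually_const_lt h2)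
          filter_upwards [h3, hs, self_mem_nhdsWithin] with y hy hys hyb
          rw [A.fa_bot hyb, A.fa_bot hzb, hys, S.hi _ _ hy, S.hi _ _ h2,
            min_eq_left (A.rp0 _), min_eq_left (A.rp0 _), sub_self, abs_zero]
          have := (abs_nonneg _).trans (hrp' (y 1) (z 1))
          exact this
        · have h3 : rp ((1 + z 1) / P.H) = -1/2 := by
            by_contra hc
            exact hz' ⟨not_lt.1 h1, not_lt.1 h2, lt_of_le_of_ne (A.rp0 _) (Ne.symm hc)⟩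
          filter_upwards [self_mem_nhdsWithin] with y hyb
          have e1 : fa P c rp z = -1/2 := by
            rw [A.fa_bot hzb, h3]
            exact min_eq_right (S.mem _ _).1
          have e2 : -1/2 ≤ fa P c rp y := by
            rw [A.fa_bot hyb]; exact le_min (S.mem _ _).1 (A.rp0 _)
          have e3 : fa P c rp y ≤ rp ((1 + y 1) / P.H) := by
            rw [A.fa_bot hyb]; exact min_le_right _ _
          have e4 := hrp' (y 1) (z 1)
          rw [h3] at e4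
          rw [e1, abs_of_nonneg (by linarith)]
          refine le_trans ?_ e4
          refine le_trans ?_ (le_abs_self _)
          linarith

end A

/-! ### type B on the first annulus -/

section B

variable {P : Par} {c : (Fin 2 → ℝ) → ℝ} {kb kt : ℝ → ℝ}

theorem TB.lc (B : TB P c kb kt) {K : ℝ} (hb : ∀ s t, |kb s - kb t| ≤ K * |s - t|)
    (ht : ∀ s t, |kt s - kt t| ≤ K * |s - t|) (z : Fin 2 → ℝ) :
    LC 0 K (fun z => c (P.om z)) P.NA z := by
  rw [P.NA_eq]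
  exact LC.union (LC.of_eqOn P.isClosed_Rt ht fun y hy => B.c_top hy)
    (LC.of_eqOn (P.isClosed_Rl.union P.isClosed_Rb) hb fun y hy => B.c_low hy)

/-! ### pull back to the last box of the first sweep -/

lemma z2_one (P : Par) (z : Fin 2 → ℝ) : P.z2 z 1 = z 0 / (1 - P.a) := rfl

lemma continuous_z2 (P : Par) : Continuous P.z2 := by
  refine continuous_pi fun i => ?_
  fin_cases i
  · exact ((continuous_apply (1 : Fin 2)).sub continuous_const).div_const _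
  · exact (continuous_apply (0 : Fin 2)).div_const _

lemma LC.z2 {P : Par} {K : ℝ} {g : (Fin 2 → ℝ) → ℝ} {Z Z' : Set (Fin 2 → ℝ)} {z : Fin 2 → ℝ}
    (h : LC 1 K g Z' (P.z2 z)) (hm : MapsTo P.z2 Z Z') :
    LC 0 (K / (1 - P.a)) (fun y => g (P.z2 y)) Z z := by
  have h1 : Tendsto P.z2 (𝓝[Z] z) (𝓝[Z'] (P.z2 z)) :=
    tendsto_nhdsWithin_iff.2 ⟨(continuous_z2 P).continuousWithinAt,
      by filter_upwards [self_mem_nhdsWithin] with y hy using hm hy⟩
  filter_upwards [h1.eventually h] with y hy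
  have ha : 0 < 1 - P.a := by linarith [P.a_lt_one]
  rw [z2_one, z2_one, ← sub_div, abs_div, abs_of_pos ha] at hy
  rw [div_mul_eq_mul_div, ← mul_div_assoc] at *
  exact hy

end B

end Crest.Agent.R096.Fsw_928
end

-- ▼ part R096/Fsw9_928
section

/-!
# R096 (row 96), FACE-SWEEP, part 9: the band functions of the filled face (helper928)
-/

set_option autoImplicit false

open Set Metric Filter Topology

namespace Crest.Agent.R096.Fsw_928

open Crest.Agent.R096.Ce_537 Crest.Agent.R096.Bd_416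

variable {ι : Type*} {L : Lam (sph 2) ι} {K b : ℝ} {h ρ : ι → ℝ}

/-- the band functions of the face -/
noncomputable def ff (D : Dep L K b h ρ) (P P' : Par) (i : ι) (z : Fin 2 → ℝ) : ℝ :=
  D.fill.c i ((P.phi P').g z)

section

variable (D : Dep L K b h ρ) (P P' : Par) (i : ι)


lemma ff_of_co {z ω : Fin 2 → ℝ} {r : ℝ} (hc : Par.IsCo ((P.phi P').g z) ω r) :
    ff D P P' i z = cl (min (L.c i ω) (ramp (h i) (ρ i) r) / (2 * b)) := by
  unfold ff
  rw [D.fill_c_ann i hc.ann, hc.f]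
  rfl

lemma ff_NA {z : Fin 2 → ℝ} (hz : z ∈ P.NA) :
    ff D P P' i z
      = cl (fa P (L.c i) (fun t => ramp (h i) (ρ i) (1 - t / 4)) z / (2 * b)) :=
  ff_of_co D P P' i (P.phi_NA P' hz)

lemma ff_BX_NA {z : Fin 2 → ℝ} (hz : z ∈ P.BX) (hz2 : P.z2 z ∈ P'.NA) :
    ff D P P' i z
      = cl (fa P' (fun ω => L.c i (P.ann.β.g (sw ω)))
          (fun t => ramp (h i) (ρ i) (3/4 - t / 8)) (P.z2 z) / (2 * b)) :=
  ff_of_co D P P' i (P.phi_BX_NA P' hz hz2)

lemma norm_BX {z : Fin 2 → ℝ} (hz : z ∈ P.BX) : ‖(P.phi P').g z‖ ≤ 3/4 := by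
  have h1 := P.z2_mem hz
  rw [← P'.NA_union_BX] at h1
  rcases h1 with h1 | h1
  · have h2 := P.phi_BX_NA P' hz h1
    rw [h2.norm]
    have h3 : 0 ≤ P'.R (P.z2 z 0) (P.z2 z 1) := P'.R_nonneg h1.1
    linarith
  · rcases le_total ‖P.z3 P' z‖ (1/2) with h2 | h2
    · exact (P.phi_core P' hz h1 h2).trans (by norm_num)
    · have h3 : P.z3 P' z ∈ cube 2 := P'.chart.mf h1
      have hA : P.z3 P' z ∈ Ann 2 := ⟨h2, by simpa using h3⟩
      have h4 := (collar 2).mf hA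
      have h5 := P.phi_last P' hz h1 (θ := ((collar 2).f (P.z3 P' z)).1)
        (s := ((collar 2).f (P.z3 P' z)).2) ⟨h4.1, h4.2, ((collar 2).li _ hA).symm⟩
      rw [h5.norm]
      have := h4.2.2
      linarith

lemma norm_BX_BX {z : Fin 2 → ℝ} (hz : z ∈ P.BX) (h1 : P.z2 z ∈ P'.BX) :
    ‖(P.phi P').g z‖ ≤ 5/8 := by
  rcases le_total ‖P.z3 P' z‖ (1/2) with h2 | h2
  · exact (P.phi_core P' hz h1 h2).trans (by norm_num)
  · have h3 : P.z3 P' z ∈ cube 2 := P'.chart.mf h1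
    have hA : P.z3 P' z ∈ Ann 2 := ⟨h2, by simpa using h3⟩
    have h4 := (collar 2).mf hA
    have h5 := P.phi_last P' hz h1 (θ := ((collar 2).f (P.z3 P' z)).1)
      (s := ((collar 2).f (P.z3 P' z)).2) ⟨h4.1, h4.2, ((collar 2).li _ hA).symm⟩
    rw [h5.norm]
    have := h4.2.2
    linarith

lemma ff_low {z : Fin 2 → ℝ} {t : ℝ} (ht : ‖(P.phi P').g z‖ ≤ t) (hz : z ∈ cube 2)
    (hr : t ≤ ρ i - h i / 2) : ff D P P' i z = -1/2 := by
  unfold ff
  have hm := (P.phi P').mg hz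
  rcases le_total ‖(P.phi P').g z‖ (1/2) with h1 | h1
  · exact D.fill_c_low i h1
  · have hA : (P.phi P').g z ∈ Ann 2 := ⟨h1, by simpa using hm⟩
    rw [D.fill_c_ann i hA, D.low ((collar 2).mf hA) (show ‖(P.phi P').g z‖ ≤ ρ i - h i/2 from
      ht.trans hr)]
    exact cl_low D.cst.b0 D.cst.b2

end

/-! ### type A chords -/

/-- chord of type A (lateral ends, swept in the first sweep) -/
structure ChA (D : Dep L K b h ρ) (P : Par) (i : ι) (k : ℝ → ℝ → ℝ) (ym yp : ℝ → ℝ)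
    (Kc : ℝ) : Prop where
  ta : TA P (L.c i) (fun t => ramp (h i) (ρ i) (1 - t / 4)) k
  ks : KS k ym yp Kc
  K0 : 0 ≤ Kc
  low : 3/4 ≤ ρ i - h i / 2

lemma ramp_lip {h₀ ρ₀ : ℝ} (hh : 0 < h₀) (s t : ℝ) :
    |ramp h₀ ρ₀ s - ramp h₀ ρ₀ t| ≤ (1 / h₀) * |s - t| := by
  unfold ramp
  refine (cl_lip _ _).trans (le_of_eq ?_)
  have : (s - ρ₀) / h₀ - (t - ρ₀) / h₀ = (s - t) / h₀ := by ring
  rw [this, abs_div, abs_of_pos hh]; ring

/-- the fan of a type A chord -/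
def FanA (h ρ : ι → ℝ) (P : Par) (i : ι) (ym yp : ℝ → ℝ) : Set (Fin 2 → ℝ) :=
  Fan P (fun t => ramp (h i) (ρ i) (1 - t / 4)) ym yp

variable {D : Dep L K b h ρ} {P P' : Par} {i : ι}

theorem ChA.lc {k : ℝ → ℝ → ℝ} {ym yp : ℝ → ℝ} {Kc : ℝ} (A : ChA D P i k ym yp Kc) (P' : Par)
    {z : Fin 2 → ℝ} (hz : z ∉ FanA h ρ P i ym yp) :
    LC 1 (max Kc (1 / (4 * h i) / P.H) / (2 * b)) (ff D P P' i) (cube 2) z := by
  have hb := D.cst.b0
  have hh := D.h0 i
  rw [← P.NA_union_BX]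
  have hM : 0 ≤ max Kc (1 / (4 * h i) / P.H) / (2 * b) :=
    div_nonneg (A.K0.trans (le_max_left _ _)) (by linarith)
  refine LC.union ?_ ?_
  · by_cases hzN : z ∈ P.NA
    · refine LC.congr (LC.cl_div hb (A.ta.lc A.ks A.K0 (K' := 1 / (4 * h i)) ?_ hz)) hzN
        (fun y hy => ff_NA D P P' i hy)
      intro s t
      refine (ramp_lip hh _ _).trans (le_of_eq ?_)
      have : (1 - s / 4) - (1 - t / 4) = -(s - t) / 4 := by ring
      rw [this, abs_div, abs_neg, abs_of_pos (by norm_num : (0:ℝ) < 4)]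
      field_simp
    · exact LC.of_notMem P.isClosed_NA hzN
  · exact LC.const_of_eqOn hM P.isClosed_BX
      (fun y hy => ff_low D P P' i (norm_BX P P' hy) (P.BX_subset hy) A.low)

/-- **exact formula of a type A chord on the middle strip** -/
theorem ChA.mid {k : ℝ → ℝ → ℝ} {ym yp : ℝ → ℝ} {Kc : ℝ} (A : ChA D P i k ym yp Kc) (P' : Par)
    {z : Fin 2 → ℝ} (hz : z ∈ P.Rb) (hu : |z 0| ≤ 1 - (P.a + P.m * P.H)) :
    ff D P P' i z = cl (ramp (h i) (ρ i) (1 - (1 + z 1) / P.H / 4) / (2 * b)) := by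
  rw [ff_NA D P P' i hz.1, A.ta.fa_mid hz hu]

/-! ### type B chords -/

/-- chord of type B (ends on the bottom and the top, swept in the second sweep) -/
structure ChB (D : Dep L K b h ρ) (P P' : Par) (i : ι) (kb kt : ℝ → ℝ) (ym yp : ℝ → ℝ)
    (Kc : ℝ) : Prop where
  tb : TB P (L.c i) kb kt
  lb : ∀ s t, |kb s - kb t| ≤ Kc * |s - t|
  lt : ∀ s t, |kt s - kt t| ≤ Kc * |s - t|
  ta : TA P' (fun ω => L.c i (P.ann.β.g (sw ω))) (fun t => ramp (h i) (ρ i) (3/4 - t / 8))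
    (fun σ t => if σ = 1 then kt ((1 - P.a) * t) else kb ((1 - P.a) * t))
  ks : KS (fun σ t => if σ = 1 then kt ((1 - P.a) * t) else kb ((1 - P.a) * t)) ym yp
    ((1 - P.a) * Kc)
  K0 : 0 ≤ Kc
  high : ρ i + h i / 2 ≤ 3/4
  low : 5/8 ≤ ρ i - h i / 2

/-- the fan of a type B chord -/
def FanB (h ρ : ι → ℝ) (P P' : Par) (i : ι) (ym yp : ℝ → ℝ) : Set (Fin 2 → ℝ) :=
  {z | z ∈ P.BX ∧ P.z2 z ∈ Fan P' (fun t => ramp (h i) (ρ i) (3/4 - t / 8)) ym yp}

lemma ChB.ff_NA' {kb kt : ℝ → ℝ} {ym yp : ℝ → ℝ} {Kc : ℝ} (B : ChB D P P' i kb kt ym yp Kc)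
    {z : Fin 2 → ℝ} (hz : z ∈ P.NA) : ff D P P' i z = cl (L.c i (P.om z) / (2 * b)) := by
  rw [ff_NA D P P' i hz]
  have hR := P.R_mem hz
  have h1 : ramp (h i) (ρ i) (1 - P.R (z 0) (z 1) / 4) = 1/2 :=
    ramp_high (D.h0 i) (by linarith [B.high, hR.2])
  unfold fa
  simp only [h1]
  rw [min_eq_left (L.cm i _ (P.om_mem hz)).2]

theorem ChB.lc {kb kt : ℝ → ℝ} {ym yp : ℝ → ℝ} {Kc : ℝ} (B : ChB D P P' i kb kt ym yp Kc)
    {z : Fin 2 → ℝ} (hz : z ∉ FanB h ρ P P' i ym yp) :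
    LC 0 (max Kc (1 / (8 * h i) / P'.H / (1 - P.a)) / (2 * b)) (ff D P P' i) (cube 2) z := by
  have hb := D.cst.b0
  have hh := D.h0 i
  have ha : 0 < 1 - P.a := by linarith [P.a_lt_one]
  have hM : 0 ≤ max Kc (1 / (8 * h i) / P'.H / (1 - P.a)) / (2 * b) :=
    div_nonneg (B.K0.trans (le_max_left _ _)) (by linarith)
  have hBX : P.BX = (P.BX ∩ P.z2 ⁻¹' P'.NA) ∪ (P.BX ∩ P.z2 ⁻¹' P'.BX) := by
    rw [← inter_union_distrib_left, ← preimage_union, P'.NA_union_BX]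
    ext y
    exact ⟨fun hy => ⟨hy, P.z2_mem hy⟩, fun hy => hy.1⟩
  rw [← P.NA_union_BX]
  refine LC.union ?_ ?_
  · by_cases hzN : z ∈ P.NA
    · refine (LC.congr (LC.cl_div hb (B.tb.lc B.lb B.lt z)) hzN
        (fun y hy => B.ff_NA' hy)).mono ?_
      exact div_le_div_of_nonneg_right (le_max_left _ _) (by linarith)
    · exact LC.of_notMem P.isClosed_NA hzN
  · rw [hBX]
    have hc1 : IsClosed (P.BX ∩ P.z2 ⁻¹' P'.NA) :=
      P.isClosed_BX.inter (P'.isClosed_NA.preimage (continuous_z2 P))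
    have hc2 : IsClosed (P.BX ∩ P.z2 ⁻¹' P'.BX) :=
      P.isClosed_BX.inter (P'.isClosed_BX.preimage (continuous_z2 P))
    refine LC.union ?_ ?_
    · by_cases hzN : z ∈ P.BX ∩ P.z2 ⁻¹' P'.NA
      · have hz' : P.z2 z ∉ Fan P' (fun t => ramp (h i) (ρ i) (3/4 - t / 8)) ym yp :=
          fun hc => hz ⟨hzN.1, hc⟩
        have h1 := B.ta.lc B.ks (mul_nonneg ha.le B.K0) (K' := 1 / (8 * h i)) (by
          intro s t
          refine (ramp_lip hh _ _).trans (le_of_eq ?_)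
          have : (3/4 - s / 8) - (3/4 - t / 8) = -(s - t) / 8 := by ring
          rw [this, abs_div, abs_neg, abs_of_pos (by norm_num : (0:ℝ) < 8)]
          field_simp) hz'
        have h2 := LC.cl_div hb (LC.z2 h1 (Z := P.BX ∩ P.z2 ⁻¹' P'.NA) (fun y hy => hy.2))
        refine (LC.congr h2 hzN (fun y hy => ff_BX_NA D P P' i hy.1 hy.2)).mono ?_
        refine div_le_div_of_nonneg_right (le_of_eq ?_) (by linarith)
        rw [← max_div_div_right ha.le, mul_div_cancel_left₀ _ ha.ne']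
      · exact LC.of_notMem hc1 hzN
    · exact LC.const_of_eqOn hM hc2 (fun y hy =>
        ff_low D P P' i (norm_BX_BX P P' hy.1 hy.2) (P.BX_subset hy.1) B.low)

/-- **exact formula of a type B chord off the top region** -/
theorem ChB.mid {kb kt : ℝ → ℝ} {ym yp : ℝ → ℝ} {Kc : ℝ} (B : ChB D P P' i kb kt ym yp Kc)
    {z : Fin 2 → ℝ} (hz : z ∈ P.Rb) : ff D P P' i z = cl (kb (z 0) / (2 * b)) := by
  rw [B.ff_NA' hz.1, B.tb.c_bot hz]

end Crest.Agent.R096.Fsw_928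
end

-- ▼ part R096/Fsw10_928
section

/-!
# R096 (row 96), FACE-SWEEP, part 10: Lipschitz constants of PL maps, crude bounds (helper928)
-/

set_option autoImplicit false

open Set Metric Filter Topology MeasureTheory
open scoped ENNReal NNReal

namespace Crest.Agent.R096.Fsw_928

open Crest.Agent.R096.Ce_537 Crest.Agent.R096.Bd_416

section PLLip

variable {E F : Type*} [NormedAddCommGroup E] [NormedSpace ℝ E] [FiniteDimensional ℝ E]
  [NormedAddCommGroup F] [NormedSpace ℝ F]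

/-- a PL map has a pointwise Lipschitz constant -/
theorem exists_pw {f : E → F} {K : Set E} (hf : PLOn f K) :
    ∃ Λ : ℝ, 0 ≤ Λ ∧ ∀ z ∈ K, ∀ᶠ y in 𝓝[K] z, dist (f y) (f z) ≤ Λ * dist y z := by
  classical
  obtain ⟨hc, S, hS⟩ := hf
  refine ⟨∑ g ∈ S, ‖LinearMap.toContinuousLinearMap g.linear‖,
    Finset.sum_nonneg fun _ _ => norm_nonneg _, fun z hz => ?_⟩
  have h1 : ∀ᶠ y in 𝓝[K] z, ∀ g ∈ S, g z ≠ f z → f y ≠ g y := by
    rw [Filter.eventually_all_finset]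
    intro g _
    by_cases hg : g z = f z
    · exact Filter.Eventually.of_forall fun y h => absurd hg h
    · have hgc : ContinuousWithinAt g K z :=
        (AffineMap.continuous_of_finiteDimensional g).continuousWithinAt
      have h2 : ∀ᶠ y in 𝓝[K] z, 0 < dist (f y) (g y) :=
        Filter.Tendsto.eventually_const_lt (dist_pos.2 (fun e => hg e.symm))
          ((hc z hz).dist hgc)
      filter_upwards [h2] with y hy _ using dist_pos.1 hy
  filter_upwards [h1, self_mem_nhdsWithin] with y hy hyK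
  obtain ⟨g, hg, e⟩ := hS y hyK
  have h3 : g z = f z := by
    by_contra hne
    exact hy g hg hne e
  rw [e, ← h3, dist_eq_norm, dist_eq_norm]
  have h4 : g y - g z = g.linear (y - z) := by
    have := g.linearMap_vsub y z
    simpa using this.symm
  rw [h4]
  have h5 : ‖g.linear (y - z)‖ ≤ ‖LinearMap.toContinuousLinearMap g.linear‖ * ‖y - z‖ :=
    (LinearMap.toContinuousLinearMap g.linear).le_opNorm (y - z)
  refine h5.trans (mul_le_mul_of_nonneg_right ?_ (norm_nonneg _))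
  exact Finset.single_le_sum (f := fun g : E →ᵃ[ℝ] F =>
    ‖LinearMap.toContinuousLinearMap g.linear‖) (fun _ _ => norm_nonneg _) hg

/-- a PL map into `ℝ^m` is Lipschitz on a convex set -/
theorem exists_lip {m : ℕ} {f : E → Fin m → ℝ} {K : Set E} (hf : PLOn f K) (hK : Convex ℝ K) :
    ∃ Λ : ℝ≥0, LipschitzOnWith Λ f K := by
  obtain ⟨Λ, h0, h⟩ := exists_pw hf
  refine ⟨⟨Λ, h0⟩, LipschitzOnWith.of_dist_le_mul fun x hx y hy => ?_⟩
  rw [dist_pi_le_iff (by positivity)]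
  intro j
  have h1 : ∀ z ∈ K, Pc_117.LL Λ (fun y => f y j) K z := fun z hz => by
    filter_upwards [h z hz] with y hy
    have := (dist_le_pi_dist (f y) (f z) j).trans hy
    rwa [Real.dist_eq] at this
  have h2 := Pc_117.LL.dist_le hK h1 hy hx
  rw [Real.dist_eq]
  exact h2

end PLLip

/-! ### areas of images of boxes -/

/-- the box `[a,b] × [c,d]` -/
def bx (a b c d : ℝ) : Set (Fin 2 → ℝ) := {x | (a ≤ x 0 ∧ x 0 ≤ b) ∧ (c ≤ x 1 ∧ x 1 ≤ d)}

lemma bx_eq (a b c d : ℝ) : bx a b c d = Icc ![a, c] ![b, d] := by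
  ext x
  simp only [bx, mem_ofPred_eq, mem_Icc, Pi.le_def, Fin.forall_fin_two]
  simp
  tauto

lemma convex_bx (a b c d : ℝ) : Convex ℝ (bx a b c d) := by
  rw [bx_eq]; exact convex_Icc _ _

lemma volume_bx {a b c d : ℝ} : volume (bx a b c d) = ENNReal.ofReal (b - a) * ENNReal.ofReal (d - c) := by
  rw [bx_eq, Real.volume_Icc_pi]
  simp [Fin.prod_univ_two]

lemma bx_mono {a b c d a' b' c' d' : ℝ} (ha : a' ≤ a) (hb : b ≤ b') (hc : c' ≤ c) (hd : d ≤ d') :
    bx a b c d ⊆ bx a' b' c' d' := by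
  rintro x ⟨⟨h1, h2⟩, h3, h4⟩
  exact ⟨⟨ha.trans h1, h2.trans hb⟩, hc.trans h3, h4.trans hd⟩

lemma hausdorff_eq : (Measure.hausdorffMeasure 2 : Measure (Fin 2 → ℝ)) = volume := by
  have := hausdorffMeasure_pi_real (ι := Fin 2)
  simpa using this

/-- **area of the image of a box under a Lipschitz map** -/
theorem volume_image_bx {f : (Fin 2 → ℝ) → Fin 2 → ℝ} {Λ : ℝ≥0} {A B C D' : ℝ}
    (hf : LipschitzOnWith Λ f (bx A B C D')) {a b c d : ℝ} (ha : A ≤ a) (hb : b ≤ B)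
    (hc : C ≤ c) (hd : d ≤ D') :
    volume (f '' bx a b c d)
      ≤ (Λ : ℝ≥0∞) ^ 2 * (ENNReal.ofReal (b - a) * ENNReal.ofReal (d - c)) := by
  have h := (hf.mono (bx_mono ha hb hc hd)).hausdorffMeasure_image_le (d := 2) (by norm_num)
  rw [hausdorff_eq, volume_bx] at h
  simpa using h

end Crest.Agent.R096.Fsw_928
end

-- ▼ part R096/Fsw11_928
section

/-!
# R096 (row 96), FACE-SWEEP, part 11: crude bounds: Lipschitz constant and area (helper928)
-/

set_option autoImplicit false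

open Set Metric Filter Topology MeasureTheory
open scoped ENNReal NNReal

namespace Crest.Agent.R096.Fsw_928

open Crest.Agent.R096.Ce_537 Crest.Agent.R096.Bd_416

/-! ### crude Lipschitz bound -/

section crude

variable (P P' : Par)

/-- the points with collar coordinates -/
def Z1 : Set (Fin 2 → ℝ) := {z | z ∈ cube 2 ∧ 1/2 ≤ ‖(P.phi P').g z‖}
def Z2 : Set (Fin 2 → ℝ) := {z | z ∈ cube 2 ∧ ‖(P.phi P').g z‖ ≤ 1/2}

lemma isClosed_Z1 : IsClosed (Z1 P P') :=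
  ((P.phi P').pg.1.norm).preimage_isClosed_of_isClosed isClosed_closedBall isClosed_Ici

lemma isClosed_Z2 : IsClosed (Z2 P P') :=
  ((P.phi P').pg.1.norm).preimage_isClosed_of_isClosed isClosed_closedBall isClosed_Iic

lemma Z1_union : Z1 P P' ∪ Z2 P P' = cube 2 := by
  ext z
  constructor
  · rintro (h | h) <;> exact h.1
  · intro h
    rcases le_total (1/2) ‖(P.phi P').g z‖ with h1 | h1
    · exact Or.inl ⟨h, h1⟩
    · exact Or.inr ⟨h, h1⟩

/-- the collar coordinates of a point -/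
noncomputable def co (z : Fin 2 → ℝ) : (Fin 2 → ℝ) × ℝ := (collar 2).f ((P.phi P').g z)

variable {P P'}

lemma co_ann {z : Fin 2 → ℝ} (hz : z ∈ Z1 P P') : (P.phi P').g z ∈ Ann 2 :=
  ⟨hz.2, by simpa using (P.phi P').mg hz.1⟩

lemma co_mem {z : Fin 2 → ℝ} (hz : z ∈ Z1 P P') : co P P' z ∈ PS (sph 2) :=
  (collar 2).mf (co_ann hz)

lemma isCo_co {z : Fin 2 → ℝ} (hz : z ∈ Z1 P P') :
    Par.IsCo ((P.phi P').g z) (co P P' z).1 (co P P' z).2 :=
  ⟨(co_mem hz).1, (co_mem hz).2, ((collar 2).li _ (co_ann hz)).symm⟩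

lemma pl_co : PLOn (co P P') (Z1 P P') :=
  (collar 2).pf.comp ((P.phi P').pg.mono fun _ h => h.1) (fun _ h => co_ann h)

variable (P P')

/-- **crude Lipschitz bound**, the constant depends on the sweeps only -/
theorem exists_crude : ∃ Λ : ℝ, 0 ≤ Λ ∧ ∀ {ι : Type} {L : Lam (sph 2) ι} {K b : ℝ} {h ρ : ι → ℝ}
    (D : Dep L K b h ρ) (i : ι) (M : ℝ), 0 ≤ M →
    (∀ ω ∈ sph 2, Pc_117.LL M (L.c i) (sph 2) ω) → 1 / h i ≤ M →
    ∀ z ∈ cube 2, Pc_117.LL (Λ * M / (2 * b)) (ff D P P' i) (cube 2) z := by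
  obtain ⟨Λ, h0, hΛ⟩ := exists_pw (pl_co (P := P) (P' := P'))
  refine ⟨Λ, h0, ?_⟩
  intro ι L K b h ρ D i M hM hc hh z _
  have hb := D.cst.b0
  have hhi := D.h0 i
  have hpos : 0 ≤ Λ * M / (2 * b) := div_nonneg (mul_nonneg h0 hM) (by linarith)
  rw [← Z1_union P P']
  unfold Pc_117.LL
  rw [nhdsWithin_union, Filter.eventually_sup]
  constructor
  · by_cases hz : z ∈ Z1 P P'
    swap
    · have : 𝓝[Z1 P P'] z = ⊥ := by
        rw [← notMem_closure_iff_nhdsWithin_eq_bot, (isClosed_Z1 P P').closure_eq]; exact hz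
      rw [this]; exact Filter.eventually_bot
    have h1 := hΛ z hz
    have hq : Tendsto (fun y => (co P P' y).1) (𝓝[Z1 P P'] z) (𝓝[sph 2] (co P P' z).1) :=
      tendsto_nhdsWithin_iff.2 ⟨(continuous_fst.tendsto _).comp (pl_co.1 z hz),
        by filter_upwards [self_mem_nhdsWithin] with y hy using (co_mem hy).1⟩
    have h2 := hq.eventually (hc _ (co_mem hz).1)
    filter_upwards [h1, h2, self_mem_nhdsWithin] with y hy hy2 hyZ
    have e : ∀ w ∈ Z1 P P', ff D P P' i w = cl (min (L.c i (co P P' w).1)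
        (ramp (h i) (ρ i) (co P P' w).2) / (2 * b)) := fun w hw =>
      ff_of_co D P P' i (isCo_co hw)
    rw [e y hyZ, e z hz]
    refine (cl_lip _ _).trans ?_
    rw [← sub_div, abs_div, abs_of_pos (by linarith : 0 < 2 * b), div_mul_eq_mul_div]
    refine div_le_div_of_nonneg_right ?_ (by linarith)
    refine (abs_min_sub_min_le_max _ _ _ _).trans (max_le ?_ ?_)
    · refine hy2.trans ?_
      have h3 : dist (co P P' y).1 (co P P' z).1 ≤ dist (co P P' y) (co P P' z) := le_max_left _ _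
      calc M * dist (co P P' y).1 (co P P' z).1 ≤ M * (Λ * dist y z) :=
            mul_le_mul_of_nonneg_left (h3.trans hy) hM
        _ = _ := by ring
    · refine (ramp_lip hhi _ _).trans ?_
      have h3 : |(co P P' y).2 - (co P P' z).2| ≤ dist (co P P' y) (co P P' z) := by
        rw [← Real.dist_eq]; exact le_max_right _ _
      calc (1 / h i) * |(co P P' y).2 - (co P P' z).2| ≤ M * (Λ * dist y z) :=
            mul_le_mul hh (h3.trans hy) (abs_nonneg _) hM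
        _ = _ := by ring
  · by_cases hz : z ∈ Z2 P P'
    · filter_upwards [self_mem_nhdsWithin] with y hy
      have e : ∀ w ∈ Z2 P P', ff D P P' i w = -1/2 := fun w hw => D.fill_c_low i hw.2
      rw [e y hy, e z hz, sub_self, abs_zero]
      exact mul_nonneg hpos dist_nonneg
    · have : 𝓝[Z2 P P'] z = ⊥ := by
        rw [← notMem_closure_iff_nhdsWithin_eq_bot, (isClosed_Z2 P P').closure_eq]; exact hz
      rw [this]; exact Filter.eventually_bot

end crude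

/-! ### the sides of the square -/

/-- the four sides: bottom, top, left, right -/
def sd (s : Fin 4) (t : ℝ) : Fin 2 → ℝ :=
  fun i => if i = 0 then (if s = 0 then t else if s = 1 then t else if s = 2 then -1 else 1)
    else (if s = 0 then -1 else if s = 1 then 1 else t)

lemma sd_mem (s : Fin 4) {t : ℝ} (ht : |t| ≤ 1) : sd s t ∈ sph 2 := by
  rw [mem_sph2]
  fin_cases s <;> simp [sd, ht]

lemma exists_sd {ω : Fin 2 → ℝ} (hω : ω ∈ sph 2) : ∃ s t, |t| ≤ 1 ∧ ω = sd s t := by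
  rw [mem_sph2] at hω
  obtain ⟨h0, h1, h2⟩ := hω
  have ext2 : ∀ {a b : Fin 2 → ℝ}, a 0 = b 0 → a 1 = b 1 → a = b := by
    intro a b e0 e1
    funext i
    fin_cases i
    · exact e0
    · exact e1
  rcases h2 with h2 | h2
  · rcases (abs_eq zero_le_one).1 h2 with h3 | h3
    · exact ⟨3, ω 1, h1, ext2 (by simp [sd, h3]) (by simp [sd])⟩
    · exact ⟨2, ω 1, h1, ext2 (by simp [sd, h3]) (by simp [sd])⟩
  · rcases (abs_eq zero_le_one).1 h2 with h3 | h3
    · exact ⟨1, ω 0, h0, ext2 (by simp [sd]) (by simp [sd, h3])⟩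
    · exact ⟨0, ω 0, h0, ext2 (by simp [sd]) (by simp [sd, h3])⟩

lemma pl_sd (s : Fin 4) {Z : Set (Fin 2 → ℝ)} : PLOn (fun x : Fin 2 → ℝ => sd s (x 0)) Z := by
  have h0 : PLOn (fun x : Fin 2 → ℝ => x 0) Z := pl_apply (plOn_id Z) 0
  refine pl_pi fun i => ?_
  fin_cases i <;> fin_cases s
  · simpa [sd] using h0
  · simpa [sd] using h0
  · simpa [sd] using plOn_const (-1:ℝ) Z
  · simpa [sd] using plOn_const (1:ℝ) Z
  · simpa [sd] using plOn_const (-1:ℝ) Z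
  · simpa [sd] using plOn_const (1:ℝ) Z
  · simpa [sd] using h0
  · simpa [sd] using h0

lemma mem_bx_abs {x : Fin 2 → ℝ} {c d : ℝ} (hx : x ∈ bx (-1) 1 c d) : |x 0| ≤ 1 :=
  abs_le.2 hx.1

/-! ### area of the active set of a chord -/

section act

variable (P P' : Par)

noncomputable def Psi (s : Fin 4) (x : Fin 2 → ℝ) : Fin 2 → ℝ :=
  (P.phi P').f ((collar 2).g (sd s (x 0), x 1))

lemma pl_Psi (s : Fin 4) : PLOn (Psi P P' s) (bx (-1) 1 (1/2) 1) := by
  have h1 : PLOn (fun x : Fin 2 → ℝ => (sd s (x 0), x 1)) (bx (-1) 1 (1/2) 1) :=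
    pl_pair (pl_sd s) (pl_apply (plOn_id _) 1)
  have h2 : MapsTo (fun x : Fin 2 → ℝ => (sd s (x 0), x 1)) (bx (-1) 1 (1/2) 1) (PS (sph 2)) :=
    fun x hx => ⟨sd_mem s (mem_bx_abs hx), hx.2⟩
  exact (P.phi P').pf.comp ((collar 2).pg.comp h1 h2)
    (fun x hx => Ann_union_Hf ▸ Or.inl ((collar 2).mg (h2 hx)))

/-- the active set of the chord `i` -/
def Act {ι : Type} {L : Lam (sph 2) ι} {K b : ℝ} {h ρ : ι → ℝ} (D : Dep L K b h ρ) (i : ι) :
    Set (Fin 2 → ℝ) := {z | z ∈ cube 2 ∧ |ff D P P' i z| < 1/2}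

/-- the two ends of the chord `i` on the circle -/
def Ends2 {ι : Type} (L : Lam (sph 2) ι) (i : ι) (ℓ : ℝ) : Prop :=
  ∃ (s : Fin 2 → Fin 4) (α : Fin 2 → ℝ), ∀ ω ∈ sph 2, |L.c i ω| < 1/2 →
    ∃ j t, ω = sd (s j) t ∧ |t - α j| ≤ ℓ ∧ |t| ≤ 1

theorem exists_act : ∃ Λ : ℝ≥0, ∀ {ι : Type} {L : Lam (sph 2) ι} {K b : ℝ} {h ρ : ι → ℝ}
    (D : Dep L K b h ρ) (i : ι) (ℓ : ℝ), 0 ≤ ℓ → Ends2 L i ℓ →
    volume (Act P P' D i) ≤ (Λ : ℝ≥0∞) * ENNReal.ofReal (ℓ + h i) := by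
  classical
  choose Λ hΛ using fun s : Fin 4 => exists_lip (pl_Psi P P' s) (convex_bx _ _ _ _)
  refine ⟨8 * ∑ s, (Λ s) ^ 2, ?_⟩
  intro ι L K b h ρ D i ℓ hℓ ⟨s, α, hends⟩
  have hhi := D.h0 i
  -- covering
  have hcov : Act P P' D i ⊆ (⋃ j : Fin 2, Psi P P' (s j) ''
      bx (max (-1) (α j - ℓ)) (min 1 (α j + ℓ)) (1/2) 1) ∪
      (⋃ s' : Fin 4, Psi P P' s' '' bx (-1) 1 (ρ i - h i / 2) (ρ i + h i / 2)) := by
    rintro z ⟨hz, hact⟩
    have hz1 : z ∈ Z1 P P' := by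
      refine ⟨hz, ?_⟩
      by_contra hc
      have e : ff D P P' i z = -1/2 := D.fill_c_low i (not_le.1 hc).le
      rw [e] at hact; norm_num [abs_of_neg] at hact
    have hco := isCo_co hz1
    rw [ff_of_co D P P' i hco] at hact
    obtain ⟨hlo, hhi'⟩ := abs_lt.1 hact
    set ω := (co P P' z).1
    set r := (co P P' z).2
    have hb := D.cst.b0
    have hb2 := D.cst.b2
    have hmin : |min (L.c i ω) (ramp (h i) (ρ i) r)| < 1/2 := by
      have h3 : |cl (min (L.c i ω) (ramp (h i) (ρ i) r) / (2 * b))| < 1/2 := hact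
      have h4 := (abs_cl_lt h3).2
      rw [abs_div, abs_of_pos (by linarith : 0 < 2 * b), div_lt_iff₀ (by linarith)] at h4
      linarith
    obtain ⟨m1, m2⟩ := abs_lt.1 hmin
    have c1 : -(1/2) < L.c i ω := m1.trans_le (min_le_left _ _)
    have c2 : -(1/2) < ramp (h i) (ρ i) r := m1.trans_le (min_le_right _ _)
    have hzeq : (P.phi P').f ((collar 2).g (ω, r)) = z := by
      rw [← hco.2.2]; exact (P.phi P').ri z hz
    by_cases hcω : L.c i ω < 1/2
    · left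
      obtain ⟨j, t, e, ht, ht1⟩ := hends ω hco.1 (abs_lt.2 ⟨c1, hcω⟩)
      refine mem_iUnion.2 ⟨j, ![t, r], ?_, ?_⟩
      · obtain ⟨a1, a2⟩ := abs_le.1 ht
        obtain ⟨b1, b2⟩ := abs_le.1 ht1
        refine ⟨⟨?_, ?_⟩, ?_, ?_⟩
        · show max (-1) (α j - ℓ) ≤ t
          exact max_le b1 (by linarith)
        · show t ≤ min 1 (α j + ℓ)
          exact le_min b2 (by linarith)
        · exact hco.2.1.1
        · exact hco.2.1.2
      · show (P.phi P').f ((collar 2).g (sd (s j) t, r)) = z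
        rw [← e]; exact hzeq
    · right
      rw [not_lt] at hcω
      have h5 : ramp (h i) (ρ i) r < 1/2 := by
        rcases min_lt_iff.1 m2 with h6 | h6
        · exact absurd h6 (not_lt.2 hcω)
        · exact h6
      obtain ⟨s', t, ht1, e⟩ := exists_sd hco.1
      refine mem_iUnion.2 ⟨s', ![t, r], ?_, ?_⟩
      · obtain ⟨b1, b2⟩ := abs_le.1 ht1
        refine ⟨⟨b1, b2⟩, ?_, ?_⟩
        · show ρ i - h i / 2 ≤ r
          exact (lt_of_ramp hhi (by linarith)).le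
        · show r ≤ ρ i + h i / 2
          exact (lt_of_ramp_lt hhi h5).le
      · show (P.phi P').f ((collar 2).g (sd s' t, r)) = z
        rw [← e]; exact hzeq
  have hlo := D.lo i
  have hup := D.hi i
  have hS : ∀ s' : Fin 4, ((Λ s' : ℝ≥0) : ℝ≥0∞) ^ 2 ≤ ((∑ s, (Λ s) ^ 2 : ℝ≥0) : ℝ≥0∞) := by
    intro s'
    rw [← ENNReal.coe_pow, ENNReal.coe_le_coe]
    exact Finset.single_le_sum (f := fun s => (Λ s) ^ 2) (fun _ _ => by positivity) (Finset.mem_univ s')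
  refine (measure_mono hcov).trans ((measure_union_le _ _).trans ?_)
  have k1 : volume (⋃ j : Fin 2, Psi P P' (s j) ''
      bx (max (-1) (α j - ℓ)) (min 1 (α j + ℓ)) (1/2) 1)
      ≤ ((∑ s, (Λ s) ^ 2 : ℝ≥0) : ℝ≥0∞) * ENNReal.ofReal (2 * ℓ) := by
    refine (measure_iUnion_le _).trans ?_
    rw [tsum_fintype]
    have : ∀ j : Fin 2, volume (Psi P P' (s j) ''
        bx (max (-1) (α j - ℓ)) (min 1 (α j + ℓ)) (1/2) 1)
        ≤ ((∑ s, (Λ s) ^ 2 : ℝ≥0) : ℝ≥0∞) * ENNReal.ofReal ℓ := by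
      intro j
      refine (volume_image_bx (hΛ (s j)) (le_max_left _ _) (min_le_left _ _) le_rfl le_rfl).trans ?_
      refine mul_le_mul' (hS (s j)) ?_
      rw [← ENNReal.ofReal_mul' (by norm_num)]
      apply ENNReal.ofReal_le_ofReal
      have h1 := le_max_right (-1) (α j - ℓ)
      have h2 := min_le_right 1 (α j + ℓ)
      nlinarith
    refine (Finset.sum_le_sum fun j _ => this j).trans ?_
    rw [Finset.sum_const, Finset.card_univ, Fintype.card_fin, nsmul_eq_mul,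
      ENNReal.ofReal_mul (by norm_num)]
    rw [show ENNReal.ofReal 2 = 2 by norm_num]
    push_cast
    rw [mul_left_comm]
  have k2 : volume (⋃ s' : Fin 4, Psi P P' s' '' bx (-1) 1 (ρ i - h i / 2) (ρ i + h i / 2))
      ≤ ((∑ s, (Λ s) ^ 2 : ℝ≥0) : ℝ≥0∞) * ENNReal.ofReal (8 * h i) := by
    refine (measure_iUnion_le _).trans ?_
    rw [tsum_fintype]
    have : ∀ s' : Fin 4, volume (Psi P P' s' '' bx (-1) 1 (ρ i - h i / 2) (ρ i + h i / 2))
        ≤ ((Λ s' : ℝ≥0) : ℝ≥0∞) ^ 2 * ENNReal.ofReal (2 * h i) := by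
      intro s'
      refine (volume_image_bx (hΛ s') le_rfl le_rfl hlo hup).trans ?_
      refine mul_le_mul' le_rfl ?_
      rw [← ENNReal.ofReal_mul' (by linarith)]
      apply ENNReal.ofReal_le_ofReal
      linarith
    refine (Finset.sum_le_sum fun s' _ => this s').trans ?_
    rw [← Finset.sum_mul]
    push_cast
    refine mul_le_mul' le_rfl (ENNReal.ofReal_le_ofReal (by linarith))
  refine (add_le_add k1 k2).trans ?_
  rw [← mul_add, ← ENNReal.ofReal_add (by linarith) (by linarith)]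
  push_cast
  rw [mul_comm (8 : ℝ≥0∞), mul_assoc]
  refine mul_le_mul' le_rfl ?_
  rw [show (8 : ℝ≥0∞) = ENNReal.ofReal 8 by norm_num, ← ENNReal.ofReal_mul (by norm_num)]
  apply ENNReal.ofReal_le_ofReal
  linarith

end act

end Crest.Agent.R096.Fsw_928
end

-- ▼ part R096/Fsw12_928
section

/-!
# R096 (row 96), FACE-SWEEP, part 12: area of the fans (helper928)
-/

set_option autoImplicit false

open Set Metric Filter Topology MeasureTheory
open scoped ENNReal NNReal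

namespace Crest.Agent.R096.Fsw_928

open Crest.Agent.R096.Ce_537 Crest.Agent.R096.Bd_416

/-- the side `σ = ±1` (left, right) -/
noncomputable def ls (σ : Bool) (t : ℝ) : Fin 2 → ℝ := fun i => if i = 0 then (if σ then 1 else -1) else t


lemma pl_ls (σ : Bool) {Z : Set (Fin 2 → ℝ)} : PLOn (fun x : Fin 2 → ℝ => ls σ (x 0)) Z := by
  refine pl_pi fun i => ?_
  fin_cases i
  · exact plOn_const (if σ then (1:ℝ) else -1) Z
  · exact pl_apply (plOn_id Z) 0

/-- parametrisation of the fan -/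
noncomputable def Fp (P : Par) (σ : Bool) (x : Fin 2 → ℝ) : Fin 2 → ℝ := P.F (ls σ (x 0), x 1)

lemma pl_Fp (P : Par) (σ : Bool) {Z : Set (Fin 2 → ℝ)} : PLOn (Fp P σ) Z :=
  (P.pl_F univ).comp (pl_pair (pl_ls σ) (pl_apply (plOn_id _) 1)) (fun _ _ => mem_univ _)

/-- a point of the fan of a swept chord -/
lemma fan_mem {P : Par} {rp ym yp : ℝ → ℝ} (hm : ∀ σ, (σ = 1 ∨ σ = -1) → -1 < ym σ)
    {z : Fin 2 → ℝ} (hz : z ∈ Fan P rp ym yp) :
    ∃ (σ : Bool), ∃ x, z = Fp P σ x ∧ (ym (if σ then 1 else -1) ≤ x 0 ∧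
      x 0 ≤ yp (if σ then 1 else -1)) ∧ |x 0| ≤ 1 ∧ x 1 ∈ Icc (0:ℝ) 1 ∧ x 0 ≤ P.hh (x 1) ∧
      -1/2 < rp (x 1) := by
  obtain ⟨hzb, h1, h2, h3⟩ := hz
  have hs := sgn_cases (z 0)
  have h4 : P.om z 0 = sgn (z 0) := by
    rcases P.om_bot_cases hzb with h | h
    · exfalso
      have := hm _ hs
      linarith
    · exact h.1
  have hom := P.om_mem hzb.1
  have hli : P.F (P.om z, P.R (z 0) (z 1)) = z := P.sweep.ri z hzb.1
  have hσ : ∃ σ : Bool, sgn (z 0) = (if σ then 1 else -1) := by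
    rcases hs with h | h
    · exact ⟨true, by simpa using h⟩
    · exact ⟨false, by simpa using h⟩
  obtain ⟨σ, hσ⟩ := hσ
  have he : P.om z = ls σ (P.om z 1) := by
    funext i
    fin_cases i
    · show P.om z 0 = (if σ then (1:ℝ) else -1)
      rw [h4, hσ]
    · rfl
  refine ⟨σ, ![P.om z 1, P.R (z 0) (z 1)], ?_, ⟨?_, ?_⟩, (mem_sph2.1 hom).2.1, P.R_mem hzb.1, ?_, ?_⟩
  · show z = P.F (ls σ (P.om z 1), P.R (z 0) (z 1))
    rw [← he, hli]
  · rw [← hσ]; exact h1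
  · rw [← hσ]; exact h2
  · show P.om z 1 ≤ P.hh (P.R (z 0) (z 1))
    rw [P.bot_eq hzb]; exact P.om_bot_le hzb
  · show -1/2 < rp (P.R (z 0) (z 1))
    rw [hzb.2]; exact h3

/-- **area of the fan of a type A chord** -/
theorem exists_fan (P : Par) : ∃ Λ : ℝ≥0, ∀ (rp ym yp : ℝ → ℝ) (t0 ℓ lam : ℝ), 0 ≤ ℓ → 0 ≤ lam →
    (∀ σ, (σ = 1 ∨ σ = -1) → -1 < ym σ ∧ ym σ ≤ 1 ∧ yp σ ≤ 1 ∧ yp σ - ym σ ≤ ℓ ∧
      t0 - (1 + ym σ) / P.H ≤ lam) →
    t0 ≤ 1 → (∀ t, t0 ≤ t → rp t ≤ -1/2) →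
    volume (Fan P rp ym yp) ≤ (Λ : ℝ≥0∞) * (ENNReal.ofReal ℓ * ENNReal.ofReal lam) := by
  classical
  choose Λ hΛ using fun σ : Bool => exists_lip (pl_Fp P σ (Z := bx (-1) 1 0 1)) (convex_bx _ _ _ _)
  refine ⟨∑ σ, (Λ σ) ^ 2, ?_⟩
  intro rp ym yp t0 ℓ lam hℓ hlam hy ht0 hrp
  have hcov : Fan P rp ym yp ⊆ ⋃ σ : Bool, Fp P σ '' bx (ym (if σ then 1 else -1))
      (yp (if σ then 1 else -1)) (max 0 ((1 + ym (if σ then 1 else -1)) / P.H)) t0 := by
    intro z hz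
    obtain ⟨σ, x, h1, h2, h3, h4, h5, h6⟩ := fan_mem (fun σ hσ => (hy σ hσ).1) hz
    refine mem_iUnion.2 ⟨σ, x, ⟨h2, ?_, ?_⟩, h1.symm⟩
    · refine max_le h4.1 ?_
      rw [div_le_iff₀ P.H0]
      unfold Par.hh at h5
      linarith [h2.1]
    · by_contra hc
      have := hrp (x 1) (not_le.1 hc).le
      linarith
  have hσ : ∀ σ : Bool, ((if σ then (1:ℝ) else -1) = 1 ∨ (if σ then (1:ℝ) else -1) = -1) := by
    intro σ; cases σ <;> simp
  refine (measure_mono hcov).trans ((measure_iUnion_le _).trans ?_)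
  rw [tsum_fintype]
  push_cast
  rw [Finset.sum_mul]
  refine Finset.sum_le_sum fun σ _ => ?_
  obtain ⟨a1, a2, a3, a4, a5⟩ := hy _ (hσ σ)
  refine (volume_image_bx (hΛ σ) a1.le a3 (le_max_left _ _) ht0).trans ?_
  refine mul_le_mul' le_rfl (mul_le_mul' (ENNReal.ofReal_le_ofReal a4)
    (ENNReal.ofReal_le_ofReal ?_))
  have := le_max_right 0 ((1 + ym (if σ then (1:ℝ) else -1)) / P.H)
  linarith

/-- from the second square to the first -/
noncomputable def back (P : Par) (z : Fin 2 → ℝ) : Fin 2 → ℝ := P.chart.g (sw z)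

lemma back_z2 (P : Par) {z : Fin 2 → ℝ} (hz : z ∈ P.BX) : back P (P.z2 z) = z := by
  unfold back Par.z2
  rw [sw_sw]
  exact P.chart.li z hz

lemma pl_back (P : Par) {Z : Set (Fin 2 → ℝ)} (hZ : Z ⊆ cube 2) : PLOn (back P) Z :=
  P.chart.pg.comp (pl_sw Z) (fun _ hx => swE.mf (hZ hx))

/-- **area of the fan of a type B chord** -/
theorem exists_fanB (P P' : Par) : ∃ Λ : ℝ≥0, ∀ (rp ym yp : ℝ → ℝ) (t0 ℓ lam : ℝ), 0 ≤ ℓ →
    0 ≤ lam →
    (∀ σ, (σ = 1 ∨ σ = -1) → -1 < ym σ ∧ ym σ ≤ 1 ∧ yp σ ≤ 1 ∧ yp σ - ym σ ≤ ℓ ∧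
      t0 - (1 + ym σ) / P'.H ≤ lam) →
    t0 ≤ 1 → (∀ t, t0 ≤ t → rp t ≤ -1/2) →
    volume {z | z ∈ P.BX ∧ P.z2 z ∈ Fan P' rp ym yp}
      ≤ (Λ : ℝ≥0∞) * (ENNReal.ofReal ℓ * ENNReal.ofReal lam) := by
  obtain ⟨Λ, hΛ⟩ := exists_fan P'
  obtain ⟨M, hM⟩ := exists_lip (pl_back P (Z := cube 2) le_rfl) (convex_closedBall _ _)
  refine ⟨M ^ 2 * Λ, ?_⟩
  intro rp ym yp t0 ℓ lam h1 h2 h3 h4 h5
  have hsub : {z | z ∈ P.BX ∧ P.z2 z ∈ Fan P' rp ym yp} ⊆ back P '' Fan P' rp ym yp := by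
    rintro z ⟨hz, hz2⟩
    exact ⟨P.z2 z, hz2, back_z2 P hz⟩
  have hF : Fan P' rp ym yp ⊆ cube 2 := fun z hz => hz.1.1.1
  have h6 := (hM.mono hF).hausdorffMeasure_image_le (d := 2) (by norm_num)
  rw [hausdorff_eq] at h6
  refine (measure_mono hsub).trans (h6.trans ?_)
  push_cast
  rw [mul_assoc]
  have e : ((M : ℝ≥0∞) ^ (2:ℝ)) = (M : ℝ≥0∞) ^ 2 := by
    rw [← ENNReal.rpow_natCast]; norm_num
  rw [e]
  exact mul_le_mul' le_rfl (hΛ rp ym yp t0 ℓ lam h1 h2 h3 h4 h5)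

end Crest.Agent.R096.Fsw_928
end

-- ▼ part R096/Fsw13_928
section

/-!
# R096 (row 96), FACE-SWEEP, part 13: derivatives and the `L^p` bookkeeping (helper928)
-/

set_option autoImplicit false

open Set Metric Filter Topology MeasureTheory
open scoped ENNReal NNReal

namespace Crest.Agent.R096.Fsw_928

open Crest.Agent.R096.Ce_537 Crest.Agent.R096.Bd_416

/-- the open square -/
abbrev osq : Set (Fin 2 → ℝ) := ball 0 1

lemma osq_subset : osq ⊆ cube 2 := ball_subset_closedBall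

lemma cube_nhds {z : Fin 2 → ℝ} (hz : z ∈ osq) : cube 2 ∈ 𝓝 z :=
  mem_of_superset (isOpen_ball.mem_nhds hz) osq_subset

/-! ### derivatives from local bounds -/

lemma fderiv_LC {j : Fin 2} {K : ℝ} {f : (Fin 2 → ℝ) → ℝ} {Z : Set (Fin 2 → ℝ)} {x : Fin 2 → ℝ}
    (hK : 0 ≤ K) (h : LC j K f Z x) (hZ : Z ∈ 𝓝 x) (v : Fin 2 → ℝ) :
    |fderiv ℝ f x v| ≤ K * |v j| := by
  by_cases hf : DifferentiableAt ℝ f x
  swap
  · rw [fderiv_zero_of_not_differentiableAt hf]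
    simpa using mul_nonneg hK (abs_nonneg _)
  unfold LC at h
  rw [nhdsWithin_eq_nhds.2 hZ] at h
  have h1 : HasDerivAt (fun t : ℝ => x + t • v) v 0 := by
    simpa using ((hasDerivAt_id (0:ℝ)).smul_const v).const_add x
  have h2 : HasFDerivAt f (fderiv ℝ f x) (x + (0:ℝ) • v) := by simpa using hf.hasFDerivAt
  have h3 : HasDerivAt (fun t : ℝ => f (x + t • v)) (fderiv ℝ f x v) 0 :=
    h2.comp_hasDerivAt (0:ℝ) h1
  have h4 : Tendsto (fun t : ℝ => x + t • v) (𝓝 0) (𝓝 x) := by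
    have := h1.continuousAt.tendsto
    simpa using this
  have h5 : ∀ᶠ t : ℝ in 𝓝 0, ‖f (x + t • v) - f (x + (0:ℝ) • v)‖ ≤ K * |v j| * ‖t - 0‖ := by
    filter_upwards [h4.eventually h] with t ht
    rw [zero_smul, add_zero, Real.norm_eq_abs]
    refine ht.trans (le_of_eq ?_)
    simp [abs_mul]
    ring
  have := h3.hasFDerivAt.le_of_lip' (mul_nonneg hK (abs_nonneg _)) h5
  simpa using this

lemma norm_fderiv_LC {j : Fin 2} {K : ℝ} {f : (Fin 2 → ℝ) → ℝ} {Z : Set (Fin 2 → ℝ)}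
    {x : Fin 2 → ℝ} (hK : 0 ≤ K) (h : LC j K f Z x) (hZ : Z ∈ 𝓝 x) : ‖fderiv ℝ f x‖ ≤ K := by
  refine ContinuousLinearMap.opNorm_le_bound _ hK fun v => ?_
  refine (fderiv_LC hK h hZ v).trans (mul_le_mul_of_nonneg_left ?_ hK)
  exact norm_le_pi_norm v j

/-! ### activity -/

section act

variable {ι : Type} {L : Lam (sph 2) ι} {K b : ℝ} {h ρ : ι → ℝ} (D : Dep L K b h ρ) (P P' : Par)
  (β : ℝ)

/-- the band functions after later squeezes (total factor `β`) -/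
noncomputable def fb (i : ι) (z : Fin 2 → ℝ) : ℝ := cl (ff D P P' i z / β)


/-- where the function is `± 1/2` the derivative vanishes -/
lemma fderiv_inactive {i : ι} {z : Fin 2 → ℝ} (h1 : ¬ |fb D P P' β i z| < 1/2) :
    fderiv ℝ (fb D P P' β i) z = 0 := by
  have hm : ∀ᶠ y in 𝓝 z, fb D P P' β i y ∈ I2 := Filter.Eventually.of_forall fun y => cl_mem _
  have h2 : fb D P P' β i z ∈ I2 := cl_mem _
  have h3 : fb D P P' β i z = 1/2 ∨ fb D P P' β i z = -1/2 := by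
    rw [not_lt, le_abs] at h1
    rcases h1 with h1 | h1
    · exact Or.inl (le_antisymm h2.2 h1)
    · exact Or.inr (le_antisymm (by linarith) h2.1)
  rcases h3 with h3 | h3
  · refine IsLocalMax.fderiv_eq_zero ?_
    filter_upwards [hm] with y hy
    rw [h3]; exact hy.2
  · refine IsLocalMin.fderiv_eq_zero ?_
    filter_upwards [hm] with y hy
    rw [h3]; exact hy.1

/-- bands on the circle are disjoint -/
def Disj (L : Lam (sph 2) ι) : Prop :=
  ∀ i j, i ≠ j → ∀ ω ∈ sph 2, ¬ (|L.c i ω| < 1/2 ∧ |L.c j ω| < 1/2)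

variable {β} in
lemma active_ff (h0 : 0 < β) (hβ1 : β ≤ 1) {i : ι} {z : Fin 2 → ℝ} (h1 : |fb D P P' β i z| < 1/2) :
    |ff D P P' i z| < 1/2 := by
  have h4 := (abs_cl_lt h1).2
  rw [abs_div, abs_of_pos h0, div_lt_iff₀ h0] at h4
  linarith

lemma active_cases {i : ι} {z : Fin 2 → ℝ} (hz : z ∈ cube 2) (h1 : |ff D P P' i z| < 1/2) :
    z ∈ Z1 P P' ∧ -1/2 < L.c i (co P P' z).1 ∧ (|L.c i (co P P' z).1| < 1/2 ∨
      |(co P P' z).2 - ρ i| < h i / 2) := by
  have hz1 : z ∈ Z1 P P' := by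
    refine ⟨hz, ?_⟩
    by_contra hc
    have e : ff D P P' i z = -1/2 := D.fill_c_low i (not_le.1 hc).le
    rw [e] at h1; norm_num [abs_of_neg] at h1
  have hco := isCo_co hz1
  rw [ff_of_co D P P' i hco] at h1
  have hb := D.cst.b0
  have hb2 := D.cst.b2
  have hmin : |min (L.c i (co P P' z).1) (ramp (h i) (ρ i) (co P P' z).2)| < 1/2 := by
    have h4 := (abs_cl_lt h1).2
    rw [abs_div, abs_of_pos (by linarith : 0 < 2 * b), div_lt_iff₀ (by linarith)] at h4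
    linarith
  obtain ⟨m1, m2⟩ := abs_lt.1 hmin
  have c1 : -(1/2) < L.c i (co P P' z).1 := m1.trans_le (min_le_left _ _)
  have c2 : -(1/2) < ramp (h i) (ρ i) (co P P' z).2 := m1.trans_le (min_le_right _ _)
  refine ⟨hz1, by linarith, ?_⟩
  by_cases hc : L.c i (co P P' z).1 < 1/2
  · exact Or.inl (abs_lt.2 ⟨c1, hc⟩)
  · right
    have h5 : ramp (h i) (ρ i) (co P P' z).2 < 1/2 := by
      rcases min_lt_iff.1 m2 with h6 | h6
      · exact absurd h6 hc
      · exact h6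
    rw [abs_lt]
    have k1 := lt_of_ramp (D.h0 i) (show -1/2 < ramp (h i) (ρ i) (co P P' z).2 by linarith)
    have k2 := lt_of_ramp_lt (D.h0 i) h5
    constructor <;> linarith

/-- **at most two bands are active at a point** -/
theorem two_active (h0 : 0 < β) (hβ1 : β ≤ 1) (hd : Disj L) (J : Finset ι) {z : Fin 2 → ℝ}
    (hz : z ∈ cube 2) : (J.filter fun i => |fb D P P' β i z| < 1/2).card ≤ 2 := by
  classical
  by_contra hc
  rw [not_le, Finset.two_lt_card] at hc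
  obtain ⟨i, hi, j, hj, k, hk, hij, hik, hjk⟩ := hc
  rw [Finset.mem_filter] at hi hj hk
  obtain ⟨z1, a1, a2⟩ := active_cases D P P' hz (active_ff D P P' h0 hβ1 hi.2)
  obtain ⟨-, b1, b2⟩ := active_cases D P P' hz (active_ff D P P' h0 hβ1 hj.2)
  obtain ⟨-, d1, d2⟩ := active_cases D P P' hz (active_ff D P P' h0 hβ1 hk.2)
  have hω := (co_mem z1).1
  have key : ∀ i j, i ≠ j → -1/2 < L.c i (co P P' z).1 → -1/2 < L.c j (co P P' z).1 →
      |(co P P' z).2 - ρ i| < h i / 2 → |(co P P' z).2 - ρ j| < h j / 2 → False := by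
    intro i j hij hi hj h1 h2
    have h3 := D.sep i j hij ⟨_, hω, hi, hj⟩
    have h4 : |ρ i - ρ j| ≤ |(co P P' z).2 - ρ i| + |(co P P' z).2 - ρ j| := by
      have h5 := abs_sub_le (ρ i) (co P P' z).2 (ρ j)
      have h6 := abs_sub_comm (ρ i) (co P P' z).2
      linarith
    linarith
  rcases a2 with a2 | a2 <;> rcases b2 with b2 | b2 <;> rcases d2 with d2 | d2
  · exact hd i j hij _ hω ⟨a2, b2⟩
  · exact hd i j hij _ hω ⟨a2, b2⟩
  · exact hd i k hik _ hω ⟨a2, d2⟩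
  · exact key j k hjk b1 d1 b2 d2
  · exact hd j k hjk _ hω ⟨b2, d2⟩
  · exact key i k hik a1 d1 a2 d2
  · exact key i j hij a1 b1 a2 b2
  · exact key i j hij a1 b1 a2 b2

/-- sum of the derivatives -/
theorem sum_fderiv_le (h0 : 0 < β) (hβ1 : β ≤ 1) (hd : Disj L) (J : Finset ι) (w : ι → ℝ) {M : ℝ}
    (hM : 0 ≤ M) {z : Fin 2 → ℝ} (hz : z ∈ osq)
    (h1 : ∀ i ∈ J, |w i| * ‖fderiv ℝ (fb D P P' β i) z‖ ≤ M) :
    ∑ i ∈ J, |w i| * ‖fderiv ℝ (fb D P P' β i) z‖ ≤ 2 * M := by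
  classical
  rw [← Finset.sum_filter_add_sum_filter_not J (fun i => |fb D P P' β i z| < 1/2)]
  have h2 : ∑ i ∈ J.filter (fun i => ¬ |fb D P P' β i z| < 1/2),
      |w i| * ‖fderiv ℝ (fb D P P' β i) z‖ = 0 := by
    refine Finset.sum_eq_zero fun i hi => ?_
    rw [fderiv_inactive D P P' β (Finset.mem_filter.1 hi).2, norm_zero, mul_zero]
  rw [h2, add_zero]
  refine (Finset.sum_le_card_nsmul _ _ M fun i hi => h1 i (Finset.mem_filter.1 hi).1).trans ?_
  rw [nsmul_eq_mul]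
  refine mul_le_mul_of_nonneg_right ?_ hM
  exact_mod_cast two_active D P P' β h0 hβ1 hd J (osq_subset hz)

/-- the weighted sum -/
noncomputable def GJ (J : Finset ι) (w : ι → ℝ) (z : Fin 2 → ℝ) : ℝ :=
  ∑ i ∈ J, w i * fb D P P' β i z

lemma fderiv_GJ (J : Finset ι) (w : ι → ℝ) {z : Fin 2 → ℝ}
    (h1 : ∀ i ∈ J, DifferentiableAt ℝ (fb D P P' β i) z) :
    fderiv ℝ (GJ D P P' β J w) z = ∑ i ∈ J, w i • fderiv ℝ (fb D P P' β i) z := by
  have h2 : HasFDerivAt (GJ D P P' β J w) (∑ i ∈ J, w i • fderiv ℝ (fb D P P' β i) z) z := by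
    unfold GJ
    exact HasFDerivAt.fun_sum fun i hi => ((h1 i hi).hasFDerivAt.const_mul (w i))
  exact h2.fderiv

lemma norm_fderiv_GJ_le (J : Finset ι) (w : ι → ℝ) {z : Fin 2 → ℝ}
    (h1 : ∀ i ∈ J, DifferentiableAt ℝ (fb D P P' β i) z) :
    ‖fderiv ℝ (GJ D P P' β J w) z‖ ≤ ∑ i ∈ J, |w i| * ‖fderiv ℝ (fb D P P' β i) z‖ := by
  rw [fderiv_GJ D P P' β J w h1]
  refine (norm_sum_le _ _).trans (le_of_eq (Finset.sum_congr rfl fun i _ => ?_))
  rw [norm_smul, Real.norm_eq_abs]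

/-- all band functions are differentiable almost everywhere -/
theorem ae_diff (J : Finset ι) {Λ : ℝ} (h0 : 0 ≤ Λ)
    (h1 : ∀ i ∈ J, ∀ z ∈ cube 2, Pc_117.LL Λ (fb D P P' β i) (cube 2) z) :
    ∀ᵐ z ∂(volume.restrict osq), ∀ i ∈ J, DifferentiableAt ℝ (fb D P P' β i) z := by
  rw [Filter.eventually_all_finset]
  intro i hi
  have hL : LipschitzOnWith ⟨Λ, h0⟩ (fb D P P' β i) osq := by
    refine LipschitzOnWith.of_dist_le_mul fun x hx y hy => ?_
    have := Pc_117.LL.dist_le (convex_closedBall (0 : Fin 2 → ℝ) 1) (h1 i hi)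
      (osq_subset hy) (osq_subset hx)
    rw [Real.dist_eq]; exact this
  have h2 := hL.ae_differentiableWithinAt (μ := volume) measurableSet_ball
  filter_upwards [h2, ae_restrict_mem measurableSet_ball] with z hz hzm
  exact hz.differentiableAt (isOpen_ball.mem_nhds hzm)

end act

/-! ### bookkeeping -/

/-- three kinds of points -/
theorem lint_three {p : ℝ} (hp : 0 ≤ p) {g : (Fin 2 → ℝ) → ℝ≥0∞} {S1 S2 S3 : Set (Fin 2 → ℝ)}
    {e1 e2 e3 : ℝ≥0∞} (hcov : osq ⊆ S1 ∪ (S2 ∪ S3))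
    (h1 : ∀ᵐ z ∂(volume.restrict osq), z ∈ S1 → g z ≤ e1)
    (h2 : ∀ᵐ z ∂(volume.restrict osq), z ∈ S2 → g z ≤ e2)
    (h3 : ∀ᵐ z ∂(volume.restrict osq), z ∈ S3 → g z ≤ e3) (h12 : e1 ≤ e2) (h23 : e2 ≤ e3) :
    ∫⁻ z in osq, g z ^ p ≤ e1 ^ p * volume osq + e2 ^ p * volume S2 + e3 ^ p * volume S3 := by
  classical
  set T2 := toMeasurable volume S2
  set T3 := toMeasurable volume S3
  have m2 : MeasurableSet T2 := measurableSet_toMeasurable _ _
  have m3 : MeasurableSet T3 := measurableSet_toMeasurable _ _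
  have hle : ∀ᵐ z ∂(volume.restrict osq), g z ^ p ≤
      e1 ^ p + T2.indicator (fun _ => e2 ^ p) z + T3.indicator (fun _ => e3 ^ p) z := by
    filter_upwards [h1, h2, h3, ae_restrict_mem measurableSet_ball] with z a1 a2 a3 hz
    by_cases k3 : z ∈ T3
    · rw [indicator_of_mem k3]
      refine le_trans ?_ le_add_self
      refine ENNReal.rpow_le_rpow ?_ hp
      rcases hcov hz with h | h | h
      · exact (a1 h).trans (h12.trans h23)
      · exact (a2 h).trans h23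
      · exact a3 h
    · rw [indicator_of_notMem k3, add_zero]
      have n3 : z ∉ S3 := fun h => k3 (subset_toMeasurable _ _ h)
      by_cases k2 : z ∈ T2
      · rw [indicator_of_mem k2]
        refine le_trans ?_ le_add_self
        refine ENNReal.rpow_le_rpow ?_ hp
        rcases hcov hz with h | h | h
        · exact (a1 h).trans h12
        · exact a2 h
        · exact absurd h n3
      · rw [indicator_of_notMem k2, add_zero]
        have n2 : z ∉ S2 := fun h => k2 (subset_toMeasurable _ _ h)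
        refine ENNReal.rpow_le_rpow ?_ hp
        rcases hcov hz with h | h | h
        · exact a1 h
        · exact absurd h n2
        · exact absurd h n3
  refine (lintegral_mono_ae hle).trans ?_
  rw [lintegral_add_right _ (measurable_const.indicator m3),
    lintegral_add_right _ (measurable_const.indicator m2), lintegral_const,
    lintegral_indicator_const m2, lintegral_indicator_const m3, Measure.restrict_apply_univ]
  refine add_le_add (add_le_add le_rfl ?_) ?_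
  · refine mul_le_mul' le_rfl ((Measure.restrict_apply_le _ _).trans ?_)
    rw [measure_toMeasurable]
  · refine mul_le_mul' le_rfl ((Measure.restrict_apply_le _ _).trans ?_)
    rw [measure_toMeasurable]

end Crest.Agent.R096.Fsw_928
end

-- ▼ part R096/Fsw14_928

/-!
# R096 (row 96), FACE-SWEEP, part 14: the `L^p` estimate (helper928)
-/

set_option autoImplicit false

open Set Metric Filter Topology MeasureTheory
open scoped ENNReal NNReal

namespace Crest.Agent.R096.Fsw_928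

open Crest.Agent.R096.Ce_537 Crest.Agent.R096.Bd_416

/-! ### the uncovered part of a staircase -/

section stair

variable {ι : Type}

/-- the heights which are in no open step -/
def Unc (J : Finset ι) (x ℓ : ι → ℝ) (b : ℝ) : Set ℝ :=
  {t | t ∈ Ioo (-1:ℝ) 1 ∧ ∀ i ∈ J, b * ℓ i ≤ |t - x i|}

lemma volume_Unc {J : Finset ι} {x ℓ : ι → ℝ} {b μ : ℝ} (hb0 : 0 < b) (hb : b < 1/2)
    (hℓ : ∀ i ∈ J, 0 < ℓ i) (hsep : ∀ i ∈ J, ∀ j ∈ J, i ≠ j → (ℓ i + ℓ j) / 2 ≤ |x i - x j|)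
    (hin : ∀ i ∈ J, |x i| + ℓ i / 2 ≤ 1) (hμ : 2 - ∑ i ∈ J, 2 * b * ℓ i ≤ μ) :
    volume (Unc J x ℓ b) ≤ ENNReal.ofReal μ := by
  classical
  set I : ι → Set ℝ := fun i => Ioo (x i - b * ℓ i) (x i + b * ℓ i)
  have hI : ∀ i ∈ J, I i ⊆ Ioo (-1:ℝ) 1 := by
    intro i hi t ht
    have h1 := hin i hi
    have h2 := hℓ i hi
    have h3 := abs_le.1 (show |x i| ≤ 1 - ℓ i / 2 by linarith)
    have h4 : b * ℓ i ≤ ℓ i / 2 := by nlinarith
    exact ⟨by linarith [ht.1, h3.1], by linarith [ht.2, h3.2]⟩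
  have hdis : (J : Set ι).PairwiseDisjoint I := by
    intro i hi j hj hij
    rw [Function.onFun, Set.disjoint_left]
    rintro t ht ht'
    have h1 := hsep i hi j hj hij
    have h2 : |t - x i| < b * ℓ i := abs_lt.2 ⟨by linarith [ht.1], by linarith [ht.2]⟩
    have h3 : |t - x j| < b * ℓ j := abs_lt.2 ⟨by linarith [ht'.1], by linarith [ht'.2]⟩
    have h4 : |x i - x j| ≤ |t - x i| + |t - x j| := by
      have h5 := abs_sub_le (x i) t (x j)
      have h6 := abs_sub_comm (x i) t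
      linarith
    have h5 := hℓ i hi
    have h6 := hℓ j hj
    have h7 : b * ℓ i ≤ ℓ i / 2 := by nlinarith
    have h8 : b * ℓ j ≤ ℓ j / 2 := by nlinarith
    linarith
  have hsub : Unc J x ℓ b ⊆ Ioo (-1:ℝ) 1 \ ⋃ i ∈ J, I i := by
    rintro t ⟨ht, h1⟩
    refine ⟨ht, ?_⟩
    simp only [mem_iUnion, not_exists]
    intro i hi hc
    have h2 : |t - x i| < b * ℓ i := abs_lt.2 ⟨by linarith [hc.1], by linarith [hc.2]⟩
    exact absurd (h1 i hi) (not_le.2 h2)
  have hmU : MeasurableSet (⋃ i ∈ J, I i) :=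
    Finset.measurableSet_biUnion _ fun i _ => measurableSet_Ioo
  have hU : volume (⋃ i ∈ J, I i) = ENNReal.ofReal (∑ i ∈ J, 2 * b * ℓ i) := by
    rw [measure_biUnion_finset hdis (fun i _ => measurableSet_Ioo),
      ENNReal.ofReal_sum_of_nonneg (fun i hi => by have := hℓ i hi; positivity)]
    refine Finset.sum_congr rfl fun i _ => ?_
    rw [Real.volume_Ioo]
    congr 1; ring
  refine (measure_mono hsub).trans ?_
  rw [measure_sdiff (iUnion₂_subset hI) hmU.nullMeasurableSet (by rw [hU]; exact ENNReal.ofReal_ne_top),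
    hU, Real.volume_Ioo, ← ENNReal.ofReal_sub _ (Finset.sum_nonneg fun i hi => by
      have := hℓ i hi; positivity)]
  apply ENNReal.ofReal_le_ofReal
  linarith

end stair

/-! ### areas of strips -/

lemma osq_coord {z : Fin 2 → ℝ} (hz : z ∈ osq) (j : Fin 2) : z j ∈ Ioo (-1:ℝ) 1 := by
  have h1 : ‖z‖ < 1 := by simpa using hz
  have h2 := (abs_apply_le z j).trans_lt h1
  exact abs_lt.1 h2

lemma volume_strip (j : Fin 2) (U : Set ℝ) :
    volume {z : Fin 2 → ℝ | z ∈ osq ∧ z j ∈ U} ≤ 2 * volume U := by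
  have h1 : {z : Fin 2 → ℝ | z ∈ osq ∧ z j ∈ U}
      ⊆ Set.pi univ (fun i => if i = j then U else Ioo (-1:ℝ) 1) := by
    rintro z ⟨hz, hU⟩ i _
    by_cases h : i = j
    · subst h; simpa using hU
    · simpa [h] using osq_coord hz i
  refine (measure_mono h1).trans ?_
  rw [volume_pi_pi, Fin.prod_univ_two]
  fin_cases j
  · simp
    rw [mul_comm]
    norm_num
  · simp
    norm_num

/-- the main rectangle -/
def MR (P : Par) : Set (Fin 2 → ℝ) := {z | |z 0| < 1 - (P.a + P.m * P.H) ∧ -1 < z 1 ∧ z 1 < -1 + P.H}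

lemma isOpen_MR (P : Par) : IsOpen (MR P) :=
  (isOpen_lt (continuous_apply 0).abs continuous_const).inter
    ((isOpen_lt continuous_const (continuous_apply 1)).inter
      (isOpen_lt (continuous_apply 1) continuous_const))

lemma MR_subset (P : Par) : MR P ⊆ P.Rb := by
  rintro z ⟨h0, h1, h2⟩
  have ha := P.a0
  have hm := mul_pos P.m0 P.H0
  have hH := P.aH
  have hp := P.H0
  have hcube : z ∈ cube 2 := by
    rw [mem_cube2]
    exact ⟨by linarith, abs_le.2 ⟨h1.le, by linarith⟩⟩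
  have k1 : (1 + z 1) / P.H ≤ 1 := by rw [div_le_one hp]; linarith
  have k2 : 1 ≤ (1 - |z 0|) / P.a := by rw [le_div_iff₀ ha]; linarith
  have k3 : 1 ≤ (1 - z 1) / P.a := by rw [le_div_iff₀ ha]; linarith
  have hR : P.R (z 0) (z 1) = (1 + z 1) / P.H := by
    unfold Par.R
    rw [Par.max_neg_eq]
    exact min_eq_right (k1.trans (le_min k2 k3))
  exact ⟨⟨hcube, by rw [hR]; exact k1⟩, hR⟩

lemma volume_compl_MR (P : Par) :
    volume (osq \ MR P) ≤ ENNReal.ofReal (4 * (P.a + P.m * P.H) + 2 * (2 - P.H)) := by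
  have ha := P.a0
  have hm := mul_pos P.m0 P.H0
  have hH := P.aH
  have hsub : osq \ MR P ⊆
      ({z | z ∈ osq ∧ z 0 ∈ Ioc (-1:ℝ) (-1 + (P.a + P.m * P.H))} ∪
        {z | z ∈ osq ∧ z 0 ∈ Ico (1 - (P.a + P.m * P.H)) 1}) ∪
      {z | z ∈ osq ∧ z 1 ∈ Ico (-1 + P.H) 1} := by
    rintro z ⟨hz, hM⟩
    have h0 := osq_coord hz 0
    have h1 := osq_coord hz 1
    by_cases k1 : |z 0| < 1 - (P.a + P.m * P.H)
    · right
      refine ⟨hz, ?_, h1.2⟩
      by_contra hc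
      exact hM ⟨k1, h1.1, not_le.1 hc⟩
    · left
      rw [not_lt, le_abs] at k1
      rcases k1 with k1 | k1
      · exact Or.inr ⟨hz, k1, h0.2⟩
      · exact Or.inl ⟨hz, h0.1, by linarith⟩
  refine (measure_mono hsub).trans ((measure_union_le _ _).trans
    ((add_le_add (measure_union_le _ _) le_rfl).trans ?_))
  refine (add_le_add (add_le_add (volume_strip 0 _) (volume_strip 0 _))
    (volume_strip 1 _)).trans ?_
  rw [Real.volume_Ioc, Real.volume_Ico, Real.volume_Ico]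
  have e2 : (2 : ℝ≥0∞) = ENNReal.ofReal 2 := by norm_num
  rw [e2, ← ENNReal.ofReal_mul (by norm_num), ← ENNReal.ofReal_mul (by norm_num),
    ← ENNReal.ofReal_mul (by norm_num), ← ENNReal.ofReal_add (by linarith) (by linarith),
    ← ENNReal.ofReal_add (by linarith) (by linarith)]
  apply ENNReal.ofReal_le_ofReal
  linarith

/-! ### the main estimate -/

/-- coordinate functional -/
noncomputable def pr (j : Fin 2) : (Fin 2 → ℝ) →L[ℝ] ℝ := ContinuousLinearMap.proj j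

@[simp] lemma pr_apply (j : Fin 2) (v : Fin 2 → ℝ) : pr j v = v j := rfl

lemma norm_pr_le (j : Fin 2) : ‖pr j‖ ≤ 1 :=
  ContinuousLinearMap.opNorm_le_bound _ zero_le_one fun v => by
    rw [one_mul]; exact norm_le_pi_norm v j

lemma norm_smul_pr (s : ℝ) (j : Fin 2) : ‖s • pr j‖ ≤ |s| := by
  rw [norm_smul, Real.norm_eq_abs]
  exact mul_le_of_le_one_right (abs_nonneg _) (norm_pr_le j)

lemma cl_small {x b : ℝ} (hb0 : 0 < b) (hb : b < 1/2) (hx : |x| < b) :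
    cl (cl x / (2 * b)) = x / (2 * b) := by
  obtain ⟨h1, h2⟩ := abs_lt.1 hx
  rw [cl_of_mem (show x ∈ Icc (-1/2:ℝ) (1/2) from ⟨by linarith, by linarith⟩)]
  apply cl_of_mem
  constructor
  · rw [le_div_iff₀ (by linarith)]; linarith
  · rw [div_le_iff₀ (by linarith)]; linarith

lemma cl_large {x b : ℝ} (hb0 : 0 < b) (hb : b < 1/2) (hx : b ≤ |x|) :
    ¬ |cl (cl x / (2 * b))| < 1/2 := by
  rw [le_abs] at hx
  rcases hx with h | h
  · have h1 : b ≤ cl x := by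
      have := cl_mono h
      rwa [cl_of_mem (show b ∈ Icc (-1/2:ℝ) (1/2) from ⟨by linarith, hb.le⟩)] at this
    have h2 : cl (cl x / (2 * b)) = 1/2 := by
      apply cl_of_ge
      rw [le_div_iff₀ (by linarith)]; linarith
    rw [h2]; norm_num
  · have h1 : cl x ≤ -b := by
      have := cl_mono (show x ≤ -b by linarith)
      rwa [cl_of_mem (show -b ∈ Icc (-1/2:ℝ) (1/2) from ⟨by linarith, by linarith⟩)] at this
    have h2 : cl (cl x / (2 * b)) = -1/2 := by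
      apply cl_of_le
      rw [div_le_iff₀ (by linarith)]; linarith
    rw [h2]; norm_num [abs_of_neg]

variable {ι : Type} {L : Lam (sph 2) ι} {K b : ℝ} {h ρ : ι → ℝ}

/-- **THE `L^p` ESTIMATE FOR ONE CLASS OF LONG CHORDS** -/
theorem lp_main (D : Dep L K b h ρ) (P P' : Par) {β : ℝ} (h0 : 0 < β) (hβ1 : β ≤ 1)
    (hdj : Disj L) (j : Fin 2) (J : Finset ι)
    (w x ℓ Kf Mf : ι → ℝ) (Fan : ι → Set (Fin 2 → ℝ)) {s s' W Ec μ p : ℝ} (hp : 0 ≤ p)
    (hW : 0 ≤ W) (hWE : W ≤ Ec)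
    (hKf : ∀ i ∈ J, 0 ≤ Kf i ∧ |w i| * Kf i ≤ W)
    (hfan : ∀ i ∈ J, ∀ z ∈ osq, z ∉ Fan i → LC j (Kf i) (fb D P P' β i) (cube 2) z)
    (hMf : ∀ i ∈ J, 0 ≤ Mf i ∧ |w i| * Mf i ≤ Ec)
    (hcr : ∀ i ∈ J, ∀ z ∈ cube 2, Pc_117.LL (Mf i) (fb D P P' β i) (cube 2) z)
    (hmain : ∀ i ∈ J, ∀ z ∈ MR P, fb D P P' β i z = cl (cl (-(z j - x i) / ℓ i) / (2 * (b * β))))
    (hw : ∀ i ∈ J, w i = 2 * (b * β) * s' * ℓ i)
    (hℓ : ∀ i ∈ J, 0 < ℓ i)
    (hsep : ∀ i ∈ J, ∀ k ∈ J, i ≠ k → (ℓ i + ℓ k) / 2 ≤ |x i - x k|)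
    (hin : ∀ i ∈ J, |x i| + ℓ i / 2 ≤ 1) (hμ : 2 - ∑ i ∈ J, 2 * (b * β) * ℓ i ≤ μ) :
    ∫⁻ z in osq, ‖fderiv ℝ (GJ D P P' β J w) z + s • pr j‖ₑ ^ p ≤
      ENNReal.ofReal |s - s'| ^ p * volume osq
      + ENNReal.ofReal (2 * W + |s| + |s'|) ^ p *
          (ENNReal.ofReal (4 * (P.a + P.m * P.H) + 2 * (2 - P.H)) + 2 * ENNReal.ofReal μ)
      + ENNReal.ofReal (2 * Ec + |s| + |s'|) ^ p * ∑ i ∈ J, volume (Fan i) := by
  classical
  have hb : 0 < b * β := mul_pos D.cst.b0 h0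
  have hb2 : b * β < 1/2 := lt_of_le_of_lt (mul_le_of_le_one_right D.cst.b0.le hβ1) D.cst.b2
  set c := b * β with hc0
  -- differentiability
  have hΛ : ∀ i ∈ J, ∀ z ∈ cube 2,
      Pc_117.LL (∑ i ∈ J, Mf i) (fb D P P' β i) (cube 2) z := fun i hi z hz =>
    (hcr i hi z hz).mono (Finset.single_le_sum (fun k hk => (hMf k hk).1) hi)
  have hae := ae_diff D P P' β J (Finset.sum_nonneg fun k hk => (hMf k hk).1) hΛ
  set S3 : Set (Fin 2 → ℝ) := ⋃ i ∈ J, Fan i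
  set S2 : Set (Fin 2 → ℝ) := (osq \ MR P ∪ {z | z ∈ osq ∧ z j ∈ Unc J x ℓ c}) \ S3
  set S1 : Set (Fin 2 → ℝ) := {z | z ∈ osq ∧ z ∈ MR P ∧ z j ∉ Unc J x ℓ c}
  have hcov : osq ⊆ S1 ∪ (S2 ∪ S3) := by
    intro z hz
    by_cases h3 : z ∈ S3
    · exact Or.inr (Or.inr h3)
    · by_cases h1 : z ∈ MR P
      · by_cases h2 : z j ∈ Unc J x ℓ c
        · exact Or.inr (Or.inl ⟨Or.inr ⟨hz, h2⟩, h3⟩)
        · exact Or.inl ⟨hz, h1, h2⟩
      · exact Or.inr (Or.inl ⟨Or.inl ⟨hz, h1⟩, h3⟩)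
  have b1 : ∀ᵐ z ∂(volume.restrict osq), z ∈ S1 →
      ‖fderiv ℝ (GJ D P P' β J w) z + s • pr j‖ₑ ≤ ENNReal.ofReal |s - s'| := by
    filter_upwards [hae] with z hd hz
    obtain ⟨hzo, hzM, hzU⟩ := hz
    have hex : ∃ i ∈ J, |z j - x i| < c * ℓ i := by
      by_contra hc
      push Not at hc
      exact hzU ⟨osq_coord hzo j, hc⟩
    obtain ⟨i, hi, hact⟩ := hex
    have hli := hℓ i hi
    -- the other functions are inactive
    have hoth : ∀ k ∈ J, k ≠ i → fderiv ℝ (fb D P P' β k) z = 0 := by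
      intro k hk hki
      have hlk := hℓ k hk
      refine fderiv_inactive D P P' β ?_
      rw [hmain k hk z hzM]
      refine cl_large hb hb2 ?_
      rw [abs_div, abs_neg, abs_of_pos hlk, le_div_iff₀ hlk]
      have h1 := hsep i hi k hk (Ne.symm hki)
      have h4 : |x i - x k| ≤ |z j - x i| + |z j - x k| := by
        have h5 := abs_sub_le (x i) (z j) (x k)
        have h6 := abs_sub_comm (x i) (z j)
        linarith
      nlinarith
    have hder : fderiv ℝ (fb D P P' β i) z = (-(1 / (2 * c * ℓ i))) • pr j := by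
      have hloc : fb D P P' β i =ᶠ[𝓝 z] fun y => (-(1 / (2 * c * ℓ i))) * (y j - x i) := by
        have h1 : ∀ᶠ y : Fin 2 → ℝ in 𝓝 z, |y j - x i| < c * ℓ i := by
          have hc : Continuous fun y : Fin 2 → ℝ => |y j - x i| :=
            ((continuous_apply j).sub continuous_const).abs
          exact (hc.tendsto z).eventually_lt_const hact
        filter_upwards [h1, (isOpen_MR P).mem_nhds hzM] with y hy hyM
        rw [hmain i hi y hyM, cl_small hb hb2]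
        · field_simp
        · rw [abs_div, abs_neg, abs_of_pos hli, div_lt_iff₀ hli]; exact hy
      rw [hloc.fderiv_eq]
      have h2 : HasFDerivAt (fun y : Fin 2 → ℝ => (-(1 / (2 * c * ℓ i))) * (y j - x i))
          ((-(1 / (2 * c * ℓ i))) • pr j) z := by
        have h3 : HasFDerivAt (fun y : Fin 2 → ℝ => y j) (pr j) z :=
          (pr j).hasFDerivAt
        exact (h3.sub_const (x i)).const_mul (-(1 / (2 * c * ℓ i)))
      exact h2.fderiv
    rw [fderiv_GJ D P P' β J w hd, Finset.sum_eq_single_of_mem i hi (fun k hk hki => by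
      rw [hoth k hk hki, smul_zero]), hder, smul_smul]
    have e : w i * -(1 / (2 * c * ℓ i)) = -s' := by
      rw [hw i hi]
      field_simp
    rw [e, ← add_smul]
    have e2 : -s' + s = s - s' := by ring
    rw [e2, ← ofReal_norm]
    exact ENNReal.ofReal_le_ofReal (norm_smul_pr _ _)
  have gen : ∀ {z : Fin 2 → ℝ} {M : ℝ}, 0 ≤ M → z ∈ osq →
      (∀ i ∈ J, DifferentiableAt ℝ (fb D P P' β i) z) →
      (∀ i ∈ J, |w i| * ‖fderiv ℝ (fb D P P' β i) z‖ ≤ M) →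
      ‖fderiv ℝ (GJ D P P' β J w) z + s • pr j‖ₑ ≤ ENNReal.ofReal (2 * M + |s| + |s'|) := by
    intro z M hM hzo hd hb1
    rw [← ofReal_norm]
    apply ENNReal.ofReal_le_ofReal
    have h1 := norm_add_le (fderiv ℝ (GJ D P P' β J w) z) (s • pr j)
    have h2 := norm_fderiv_GJ_le D P P' β J w hd
    have h3 := sum_fderiv_le D P P' β h0 hβ1 hdj J w hM hzo hb1
    have h4 := norm_smul_pr s j
    have h5 := abs_nonneg s'
    linarith
  have b2 : ∀ᵐ z ∂(volume.restrict osq), z ∈ S2 →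
      ‖fderiv ℝ (GJ D P P' β J w) z + s • pr j‖ₑ ≤ ENNReal.ofReal (2 * W + |s| + |s'|) := by
    filter_upwards [hae, ae_restrict_mem measurableSet_ball] with z hd hzo hz
    refine gen hW hzo hd fun i hi => ?_
    have h1 : z ∉ Fan i := fun hc => hz.2 (mem_biUnion hi hc)
    have h2 := norm_fderiv_LC (hKf i hi).1 (hfan i hi z hzo h1) (cube_nhds hzo)
    exact (mul_le_mul_of_nonneg_left h2 (abs_nonneg _)).trans (hKf i hi).2
  have b3 : ∀ᵐ z ∂(volume.restrict osq), z ∈ S3 →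
      ‖fderiv ℝ (GJ D P P' β J w) z + s • pr j‖ₑ ≤ ENNReal.ofReal (2 * Ec + |s| + |s'|) := by
    filter_upwards [hae, ae_restrict_mem measurableSet_ball] with z hd hzo _
    refine gen (hW.trans hWE) hzo hd fun i hi => ?_
    have h2 := Pc_117.LL.norm_fderiv_le (hMf i hi).1 (hcr i hi z (osq_subset hzo)) (cube_nhds hzo)
    exact (mul_le_mul_of_nonneg_left h2 (abs_nonneg _)).trans (hMf i hi).2
  have e12 : ENNReal.ofReal |s - s'| ≤ ENNReal.ofReal (2 * W + |s| + |s'|) := by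
    apply ENNReal.ofReal_le_ofReal
    have := abs_sub s s'
    linarith
  have e23 : ENNReal.ofReal (2 * W + |s| + |s'|) ≤ ENNReal.ofReal (2 * Ec + |s| + |s'|) := by
    apply ENNReal.ofReal_le_ofReal
    linarith
  refine (lint_three hp hcov b1 b2 b3 e12 e23).trans ?_
  refine add_le_add (add_le_add le_rfl (mul_le_mul' le_rfl ?_)) (mul_le_mul' le_rfl ?_)
  · refine (measure_mono (sdiff_subset)).trans ((measure_union_le _ _).trans ?_)
    refine add_le_add (volume_compl_MR P) ((volume_strip j _).trans ?_)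
    exact mul_le_mul' le_rfl (volume_Unc hb hb2 hℓ hsep hin hμ)
  · exact measure_biUnion_finset_le _ _

end Crest.Agent.R096.Fsw_928
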