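import Mathlib
import Crest.Agent.R096.Fsw14_928
import Crest.Agent.R096.Bd14_416
import Crest.Agent.R096.Bd17_416
import Crest.Agent.R096.Fsw15_928

-- ▼ part R096/Fk1_522
section

/-!
# R096 (row 96), P4-FACE, combinatorics, part 1: greedy heights (helper522)
-/

set_option autoImplicit false

open Set MeasureTheory

namespace Crest.Agent.R096.Fk_522

/-- disjoint intervals in an interval -/
lemma sum_le_of_disjoint {ι : Type*} (S : Finset ι) (y l : ι → ℝ) {a b : ℝ} (hab : a ≤ b)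
    (hlo : ∀ i ∈ S, a ≤ y i - l i / 2) (hhi : ∀ i ∈ S, y i + l i / 2 ≤ b)
    (h0 : ∀ i ∈ S, 0 ≤ l i)
    (hd : ∀ i ∈ S, ∀ j ∈ S, i ≠ j → (l i + l j) / 2 ≤ |y i - y j|) :
    ∑ i ∈ S, l i ≤ b - a := by
  have h1 : volume (⋃ i ∈ S, Ioo (y i - l i / 2) (y i + l i / 2))
      = ∑ i ∈ S, volume (Ioo (y i - l i / 2) (y i + l i / 2)) := by
    refine measure_biUnion_finset ?_ (fun i _ => measurableSet_Ioo)
    intro i hi j hj hij
    refine Set.disjoint_left.2 fun t ht ht' => ?_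
    have h := hd i hi j hj hij
    rcases le_abs.1 h with h | h
    · linarith [ht.1, ht'.2]
    · linarith [ht.2, ht'.1]
  have h2 : volume (⋃ i ∈ S, Ioo (y i - l i / 2) (y i + l i / 2)) ≤ volume (Icc a b) := by
    refine measure_mono ?_
    refine iUnion₂_subset fun i hi => ?_
    exact Ioo_subset_Icc_self.trans (Icc_subset_Icc (hlo i hi) (hhi i hi))
  rw [h1, Real.volume_Icc] at h2
  have h3 : ∀ i ∈ S, volume (Ioo (y i - l i / 2) (y i + l i / 2)) = ENNReal.ofReal (l i) := by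
    intro i _
    rw [Real.volume_Ioo]
    congr 1
    ring
  rw [Finset.sum_congr rfl h3, ← ENNReal.ofReal_sum_of_nonneg h0] at h2
  exact (ENNReal.ofReal_le_ofReal_iff (by linarith)).1 h2

/-- a rank function of a finite type with an injective map to a linear order -/
lemma exists_rank_lin {ι α : Type*} [Fintype ι] [LinearOrder α] (f : ι → α)
    (hf : Function.Injective f) :
    ∃ k : ι → ℕ, Function.Injective k ∧ (∀ i j, f i < f j → k i < k j) ∧
      ∀ i j, k i < k j → f i < f j := by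
  classical
  let k : ι → ℕ := fun i => (Finset.univ.filter fun j => f j < f i).card
  have h1 : ∀ i j, f i < f j → k i < k j := by
    intro i j h
    refine Finset.card_lt_card (Finset.ssubset_iff_subset_ne.2 ⟨?_, ?_⟩)
    · intro m hm
      rw [Finset.mem_filter] at hm ⊢
      exact ⟨hm.1, hm.2.trans h⟩
    · intro he
      have h2 : i ∈ Finset.univ.filter fun m => f m < f j :=
        Finset.mem_filter.2 ⟨Finset.mem_univ _, h⟩
      rw [← he] at h2
      exact lt_irrefl _ (Finset.mem_filter.1 h2).2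
  have h2 : ∀ i j, k i < k j → f i < f j := by
    intro i j h
    by_contra hc
    rcases (not_lt.1 hc).eq_or_lt with h3 | h3
    · rw [hf h3] at h; exact lt_irrefl _ h
    · exact lt_asymm h (h1 _ _ h3)
  refine ⟨k, fun i j h => ?_, h1, h2⟩
  rcases lt_trichotomy (f i) (f j) with h3 | h3 | h3
  · exact absurd h (h1 _ _ h3).ne
  · exact hf h3
  · exact absurd h (h1 _ _ h3).ne'

/-- **greedy heights** in the order `k` -/
theorem greedy {ι : Type*} [Fintype ι] [DecidableEq ι] (y l : ι → ℝ) (hl : ∀ i, 0 < l i) (k : ι → ℕ)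
    (hk : Function.Injective k) (hky : ∀ i j, k i < k j → y i ≤ y j) (M : Finset ι)
    (hM : ∀ i ∈ M, ∀ j ∈ M, i ≠ j → (l i + l j) / 2 ≤ |y i - y j|) {lam : ℝ}
    (hlam : ∀ i, l i ≤ lam) :
    ∃ v : ι → ℝ, (∀ i, y i ≤ v i) ∧ (∀ i j, k i < k j → v i + (l i + l j) / 2 ≤ v j) ∧
      ∀ i, v i ≤ y i + ∑ j ∈ Mᶜ, l j + 2 * lam := by
  classical
  -- the terms
  let T : ι → ι → ℝ := fun i j => y j - l j / 2 +
    ∑ m : ι with (k j ≤ k m ∧ k m < k i), l m
  let A : ι → Finset ι := fun i => Finset.univ.filter fun j => k j ≤ k i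
  have hA : ∀ i, (A i).Nonempty := fun i => ⟨i, by simp [A]⟩
  let a : ι → ℝ := fun i => (A i).sup' (hA i) (T i)
  have ha0 : ∀ i, y i - l i / 2 ≤ a i := by
    intro i
    have h1 : T i i ≤ a i := Finset.le_sup' (T i) (show i ∈ A i by simp [A])
    have h2 : T i i = y i - l i / 2 := by
      have : (Finset.univ.filter fun m : ι => k i ≤ k m ∧ k m < k i) = ∅ := by
        ext m; simp
      show y i - l i / 2 + _ = _
      rw [this]; simp
    rw [← h2]; exact h1
  have hstep : ∀ i i', k i < k i' → a i + l i ≤ a i' := by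
    intro i i' h
    have h1 : a i ≤ a i' - l i := by
      refine Finset.sup'_le _ _ fun j hj => ?_
      have hj' : k j ≤ k i := by simpa [A] using hj
      have h2 : T i' j ≤ a i' := Finset.le_sup' (T i') (by
        simp only [A, Finset.mem_filter, Finset.mem_univ, true_and]; omega)
      have h3 : T i j + l i ≤ T i' j := by
        show y j - l j / 2 + _ + l i ≤ y j - l j / 2 + _
        have h4 : ∑ m : ι with (k j ≤ k m ∧ k m < k i), l m + l i
            ≤ ∑ m : ι with (k j ≤ k m ∧ k m < k i'), l m := by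
          have h5 : i ∉ Finset.univ.filter fun m : ι => k j ≤ k m ∧ k m < k i := by simp
          rw [add_comm, ← Finset.sum_insert h5]
          refine Finset.sum_le_sum_of_subset_of_nonneg ?_ fun m _ _ => (hl m).le
          intro m hm
          rw [Finset.mem_insert] at hm
          simp only [Finset.mem_filter, Finset.mem_univ, true_and] at hm ⊢
          rcases hm with rfl | hm
          · exact ⟨hj', h⟩
          · exact ⟨hm.1, by omega⟩
        linarith
      linarith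
    linarith
  have hup : ∀ i, a i ≤ y i + ∑ j ∈ Mᶜ, l j + 3 / 2 * lam := by
    intro i
    refine Finset.sup'_le _ _ fun j hj => ?_
    have hj' : k j ≤ k i := by simpa [A] using hj
    have hyji : y j ≤ y i := by
      rcases hj'.eq_or_lt with h | h
      · rw [hk h]
      · exact hky j i h
    have hlj := hlam j
    have hlj0 := hl j
    set B := Finset.univ.filter fun m : ι => k j ≤ k m ∧ k m < k i with hB
    have hsplit : ∑ m ∈ B, l m = ∑ m ∈ B.filter (· ∈ M), l m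
        + ∑ m ∈ B.filter (· ∉ M), l m :=
      (Finset.sum_filter_add_sum_filter_not B (· ∈ M) l).symm
    have h1 : ∑ m ∈ B.filter (· ∉ M), l m ≤ ∑ m ∈ Mᶜ, l m := by
      refine Finset.sum_le_sum_of_subset_of_nonneg ?_ fun m _ _ => (hl m).le
      intro m hm
      rw [Finset.mem_filter] at hm
      exact Finset.mem_compl.2 hm.2
    have h2 : ∑ m ∈ B.filter (· ∈ M), l m ≤ (y i + lam / 2) - (y j - lam / 2) := by
      have hmem : ∀ m ∈ B.filter (· ∈ M), (k j ≤ k m ∧ k m < k i) ∧ m ∈ M := by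
        intro m hm
        rw [Finset.mem_filter, hB, Finset.mem_filter] at hm
        exact ⟨hm.1.2, hm.2⟩
      refine sum_le_of_disjoint _ y l (by linarith) ?_ ?_ (fun m _ => (hl m).le) ?_
      · intro m hm
        have h3 := (hmem m hm).1.1
        have h4 : y j ≤ y m := by
          rcases h3.eq_or_lt with h | h
          · rw [hk h]
          · exact hky j m h
        have h5 := hlam m
        linarith
      · intro m hm
        have h3 := hky m i (hmem m hm).1.2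
        have h5 := hlam m
        linarith
      · intro m hm m' hm' hne
        exact hM m (hmem m hm).2 m' (hmem m' hm').2 hne
    show y j - l j / 2 + ∑ m ∈ B, l m ≤ _
    rw [hsplit]
    -- j counted
    by_cases hjM : j ∈ M
    · -- the interval of `j` itself starts at `y j - l j / 2`
      have h2' : ∑ m ∈ B.filter (· ∈ M), l m ≤ (y i + lam / 2) - (y j - l j / 2) := by
        have hmem : ∀ m ∈ B.filter (· ∈ M), (k j ≤ k m ∧ k m < k i) ∧ m ∈ M := by
          intro m hm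
          rw [Finset.mem_filter, hB, Finset.mem_filter] at hm
          exact ⟨hm.1.2, hm.2⟩
        refine sum_le_of_disjoint _ y l (by linarith) ?_ ?_ (fun m _ => (hl m).le) ?_
        · intro m hm
          have h3 := (hmem m hm).1.1
          rcases h3.eq_or_lt with h | h
          · rw [hk h]
          · have h4 := hky j m h
            have hne : j ≠ m := by rintro rfl; exact lt_irrefl _ h
            have h6 := hM j hjM m (hmem m hm).2 hne
            rw [abs_sub_comm, abs_of_nonneg (by linarith)] at h6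
            have := hl j
            linarith
        · intro m hm
          have h3 := hky m i (hmem m hm).1.2
          have h5 := hlam m
          linarith
        · intro m hm m' hm' hne
          exact hM m (hmem m hm).2 m' (hmem m' hm').2 hne
      linarith
    · linarith
  refine ⟨fun i => a i + l i / 2, fun i => ?_, fun i j h => ?_, fun i => ?_⟩
  · have := ha0 i
    show y i ≤ a i + l i / 2
    linarith
  · have := hstep i j h
    show a i + l i / 2 + (l i + l j) / 2 ≤ a j + l j / 2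
    linarith
  · have h1 := hup i
    have h2 := hlam i
    show a i + l i / 2 ≤ _
    linarith

end Crest.Agent.R096.Fk_522
end

-- ▼ part R096/Fk2_522
section

/-!
# R096 (row 96), P4-FACE, combinatorics, part 2: boundary words of the square (helper522)
-/

set_option autoImplicit false

open Set Metric

namespace Crest.Agent.R096.Fk_522

open Crest.Agent.R096.Ce_537 Crest.Agent.R096.Bd_416 Crest.Agent.R096.Fsw_928

open scoped Classical

/-- **the boundary word** of a LAM-structure on the boundary of the square: on every side (bottom,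
top, left, right) finitely many end points with positions and widths -/
structure Bw {ι : Type} (L : Lam (sph 2) ι) where
  /-- ends on the side -/
  E : Fin 4 → Type
  [fin : ∀ s, Fintype (E s)]
  /-- chord of an end -/
  up : ∀ s, E s → ι
  /-- width of the band -/
  w : ∀ s, E s → ℝ
  /-- position -/
  p : ∀ s, E s → ℝ
  ed : ∀ s, Ed (w s) (p s)
  /-- label at the end `t = -1` of the side -/
  a : Fin 4 → ι → ZMod 2
  c_eq : ∀ s x t, |t| ≤ 1 → -2 * L.c x (sd s t) =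
    sg (a s x) * ∏ y : E s with up s y = x, (-2 * ramp (w s y) (p s y) t)
  base : ∀ x, L.c x (sd 1 1) = -1/2

attribute [instance] Bw.fin

lemma sg_cast_card {α : Type*} (S : Finset α) : ∏ _y ∈ S, (-1 : ℝ) = sg (S.card : ZMod 2) := by
  rw [Finset.prod_const]
  generalize S.card = m
  induction m with
  | zero => simp
  | succ m ih => rw [pow_succ, ih, Nat.cast_succ, sg_add, sg_one]

lemma sd_13 : sd 1 1 = sd 3 1 := by
  funext i; fin_cases i <;> simp [sd]

lemma sd_03 : sd 0 1 = sd 3 (-1) := by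
  funext i; fin_cases i <;> simp [sd]

lemma sd_02 : sd 0 (-1) = sd 2 (-1) := by
  funext i; fin_cases i <;> simp [sd]

lemma sd_12 : sd 1 (-1) = sd 2 1 := by
  funext i; fin_cases i <;> simp [sd]

lemma cast_zero_iff (m : ℕ) : (m : ZMod 2) = 0 ↔ m % 2 = 0 := by
  rw [ZMod.natCast_eq_zero_iff]; omega

namespace Bw

variable {ι : Type} {L : Lam (sph 2) ι} (W : Bw L)

/-- the ends of the chord `x` on the side `s` -/
noncomputable def en (s : Fin 4) (x : ι) : Finset (W.E s) := Finset.univ.filter fun y => W.up s y = x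

lemma mem_en {s : Fin 4} {x : ι} {y : W.E s} : y ∈ W.en s x ↔ W.up s y = x := by
  simp [en]

/-- number of the ends of `x` on the side `s` -/
noncomputable def n (s : Fin 4) (x : ι) : ℕ := (W.en s x).card

lemma ramp_neg {s : Fin 4} (y : W.E s) : ramp (W.w s y) (W.p s y) (-1) = -1/2 :=
  ramp_low ((W.ed s).w0 y) (by linarith [(W.ed s).lo y])

lemma ramp_pos {s : Fin 4} (y : W.E s) : ramp (W.w s y) (W.p s y) 1 = 1/2 :=
  ramp_high ((W.ed s).w0 y) (by linarith [(W.ed s).hi y])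

lemma val_neg (s : Fin 4) (x : ι) : -2 * L.c x (sd s (-1)) = sg (W.a s x) := by
  rw [W.c_eq s x (-1) (by norm_num)]
  have : ∀ y ∈ Finset.univ.filter (fun y => W.up s y = x),
      -2 * ramp (W.w s y) (W.p s y) (-1) = 1 := fun y _ => by
    rw [W.ramp_neg]; norm_num
  rw [Finset.prod_congr rfl this]
  simp

lemma val_pos (s : Fin 4) (x : ι) : -2 * L.c x (sd s 1) = sg (W.a s x + (W.n s x : ZMod 2)) := by
  rw [W.c_eq s x 1 (by norm_num)]
  have : ∀ y ∈ Finset.univ.filter (fun y => W.up s y = x),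
      -2 * ramp (W.w s y) (W.p s y) 1 = -1 := fun y _ => by
    rw [W.ramp_pos]; norm_num
  rw [Finset.prod_congr rfl this, sg_cast_card, sg_add]
  rfl

lemma a_rel (x : ι) : W.a 1 x = (W.n 1 x : ZMod 2) ∧ W.a 3 x = (W.n 3 x : ZMod 2) ∧
    W.a 0 x = (W.n 3 x : ZMod 2) + (W.n 0 x : ZMod 2) ∧ W.a 2 x = W.a 0 x ∧
    W.a 2 x + (W.n 2 x : ZMod 2) = W.a 1 x := by
  have h1 := W.val_pos 1 x
  have h3 := W.val_pos 3 x
  have h0 := W.val_pos 0 x
  have h2 := W.val_pos 2 x
  have g1 := W.val_neg 1 x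
  have g3 := W.val_neg 3 x
  have g0 := W.val_neg 0 x
  have g2 := W.val_neg 2 x
  have hb : -2 * L.c x (sd 1 1) = sg 0 := by rw [W.base, sg_zero]; norm_num
  have e1 : W.a 1 x + (W.n 1 x : ZMod 2) = 0 := sg_inj (h1.symm.trans hb)
  have e3 : W.a 3 x + (W.n 3 x : ZMod 2) = 0 := sg_inj (h3.symm.trans (by rw [← sd_13]; exact hb))
  have e0 : W.a 0 x + (W.n 0 x : ZMod 2) = W.a 3 x := sg_inj (h0.symm.trans (by rw [sd_03]; exact g3))
  have e2 : W.a 2 x = W.a 0 x := sg_inj (g2.symm.trans (by rw [← sd_02]; exact g0))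
  have e4 : W.a 2 x + (W.n 2 x : ZMod 2) = W.a 1 x :=
    sg_inj (h2.symm.trans (by rw [← sd_12]; exact g1))
  have z : ∀ a b : ZMod 2, a + b = 0 → a = b := by decide
  have z' : ∀ a b c : ZMod 2, a + b = c → a = c + b := by decide
  refine ⟨z _ _ e1, z _ _ e3, ?_, e2, e4⟩
  rw [z' _ _ _ e0, z _ _ e3]

/-- values in the corners: bottom right -/
lemma c_br (x : ι) : -2 * L.c x (sd 0 1) = sg (W.n 3 x : ZMod 2) := by
  rw [sd_03, W.val_neg, (W.a_rel x).2.1]

/-- bottom left -/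
lemma c_bl (x : ι) : -2 * L.c x (sd 0 (-1)) = sg ((W.n 3 x : ZMod 2) + (W.n 0 x : ZMod 2)) := by
  rw [W.val_neg, (W.a_rel x).2.2.1]

/-- top left -/
lemma c_tl (x : ι) : -2 * L.c x (sd 1 (-1)) = sg (W.n 1 x : ZMod 2) := by
  rw [W.val_neg, (W.a_rel x).1]

/-- no end on the side -/
lemma c_const {s : Fin 4} {x : ι} (h : W.n s x = 0) {t : ℝ} (ht : |t| ≤ 1) :
    -2 * L.c x (sd s t) = sg (W.a s x) := by
  rw [W.c_eq s x t ht]
  have : (Finset.univ.filter fun y => W.up s y = x) = ∅ := Finset.card_eq_zero.1 h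
  rw [this]; simp

/-- one end on the side -/
lemma c_one {s : Fin 4} {x : ι} {y : W.E s} (h : W.en s x = {y}) {t : ℝ} (ht : |t| ≤ 1) :
    L.c x (sd s t) = sg (W.a s x) * ramp (W.w s y) (W.p s y) t := by
  have h1 := W.c_eq s x t ht
  have h2 : (Finset.univ.filter fun y => W.up s y = x) = {y} := h
  rw [h2, Finset.prod_singleton] at h1
  linarith

/-- an active point of a side lies in a band of an end -/
lemma exists_end {s : Fin 4} {x : ι} {t : ℝ} (ht : |t| ≤ 1) (h : |L.c x (sd s t)| < 1/2) :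
    ∃ y, W.up s y = x ∧ |t - W.p s y| < W.w s y / 2 := by
  by_contra hc
  push Not at hc
  have h1 : |∏ y : W.E s with W.up s y = x, (-2 * ramp (W.w s y) (W.p s y) t)| = 1 := by
    refine abs_prod_eq fun y hy => ?_
    have hy' := (Finset.mem_filter.1 hy).2
    rcases ramp_far ((W.ed s).w0 y) (hc y hy') with h | h
    · rw [h.2]; norm_num
    · rw [h.2]; norm_num
  have h2 := W.c_eq s x t ht
  have h3 : |-2 * L.c x (sd s t)| = 1 := by
    rw [h2, abs_mul, h1, mul_one, abs_sg]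
  rw [abs_mul] at h3
  norm_num at h3
  linarith

include W in
/-- bands on the circle are disjoint -/
theorem disj : Disj L := by
  intro i j hij ω hω ⟨h1, h2⟩
  obtain ⟨s, t, ht, rfl⟩ := exists_sd hω
  obtain ⟨y, hy, hy'⟩ := W.exists_end ht h1
  obtain ⟨z, hz, hz'⟩ := W.exists_end ht h2
  have hne : y ≠ z := by
    rintro rfl
    exact hij (hy.symm.trans hz)
  exact (W.ed s).disj hne hy'.le hz'.le rfl

/-! ### classes -/

/-- all chords have two ends -/
def Two : Prop := ∀ x, W.n 0 x + W.n 1 x + W.n 2 x + W.n 3 x = 2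

/-- the class of a chord: 1 = left-right, 2 = bottom-top, 3 = around the base vertex, 0 = other -/
noncomputable def cls (x : ι) : Fin 4 :=
  if W.n 2 x = 1 ∧ W.n 3 x = 1 then 1 else if W.n 0 x = 1 ∧ W.n 1 x = 1 then 2
    else if W.n 1 x = 1 ∧ W.n 3 x = 1 then 3 else 0

variable {W}

lemma cls_one (h2 : W.Two) {x : ι} (h : W.cls x = 1) :
    W.n 0 x = 0 ∧ W.n 1 x = 0 ∧ W.n 2 x = 1 ∧ W.n 3 x = 1 := by
  have := h2 x
  unfold cls at h
  split_ifs at h with h3 h4 h5
  · refine ⟨?_, ?_, h3.1, h3.2⟩ <;> omega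
  · exact absurd h (by decide)
  · exact absurd h (by decide)
  · exact absurd h (by decide)

lemma cls_two (h2 : W.Two) {x : ι} (h : W.cls x = 2) :
    W.n 0 x = 1 ∧ W.n 1 x = 1 ∧ W.n 2 x = 0 ∧ W.n 3 x = 0 := by
  have := h2 x
  unfold cls at h
  split_ifs at h with h3 h4 h5
  · exact absurd h (by decide)
  · refine ⟨h4.1, h4.2, ?_, ?_⟩ <;> omega
  · exact absurd h (by decide)
  · exact absurd h (by decide)

/-- `x` lies inside `x'` on the boundary -/
def Inc (L : Lam (sph 2) ι) (x x' : ι) : Prop := ∀ ω ∈ sph 2, 0 ≤ L.c x ω → 0 < L.c x' ω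

lemma mod_of_sg {m m' : ℕ} {c c' : ℝ} (h : -2 * c = sg (m : ZMod 2)) (h' : -2 * c' = sg (m' : ZMod 2))
    (hi : 0 ≤ c → 0 < c') (hm : m % 2 = 1) : m' % 2 = 1 := by
  have h1 : sg (m : ZMod 2) = -1 := by
    unfold sg
    rw [if_neg]
    rw [cast_zero_iff]; omega
  have h2 : 0 < c' := hi (by rw [h1] at h; linarith)
  by_contra hc
  have h3 : sg (m' : ZMod 2) = 1 := by
    unfold sg
    rw [if_pos]
    rw [cast_zero_iff]; omega
  rw [h3] at h'
  linarith

/-- **nested chords: the outer one has the bigger class** -/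
lemma cls_le (h2 : W.Two) {x x' : ι} (h : Inc L x x') : W.cls x ≤ W.cls x' := by
  have a1 : |(1:ℝ)| ≤ 1 := by norm_num
  have a2 : |(-1:ℝ)| ≤ 1 := by norm_num
  have h3 : W.n 3 x % 2 = 1 → W.n 3 x' % 2 = 1 :=
    mod_of_sg (W.c_br x) (W.c_br x') (h _ (sd_mem 0 a1))
  have h1 : W.n 1 x % 2 = 1 → W.n 1 x' % 2 = 1 :=
    mod_of_sg (W.c_tl x) (W.c_tl x') (h _ (sd_mem 1 a2))
  have h0 : (W.n 3 x + W.n 0 x) % 2 = 1 → (W.n 3 x' + W.n 0 x') % 2 = 1 := by
    refine mod_of_sg (c := L.c x (sd 0 (-1))) (c' := L.c x' (sd 0 (-1))) ?_ ?_ (h _ (sd_mem 0 a2))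
    · rw [W.c_bl]; push_cast; rfl
    · rw [W.c_bl]; push_cast; rfl
  have t := h2 x
  have t' := h2 x'
  unfold cls
  split_ifs <;> first | decide | (exfalso; omega)

end Bw

end Crest.Agent.R096.Fk_522
end

-- ▼ part R096/Fk3_522
section

/-!
# R096 (row 96), P4-FACE, combinatorics, part 3: the long chords (helper522)
-/

set_option autoImplicit false

open Set Metric

namespace Crest.Agent.R096.Fk_522

open Crest.Agent.R096.Ce_537 Crest.Agent.R096.Bd_416 Crest.Agent.R096.Fsw_928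

open scoped Classical

/-! ### ramps -/

/-- the wider and earlier ramp is bigger -/
lemma ramp_le_ramp {w p v l t : ℝ} (hl : 0 < l) (h1 : l ≤ w) (h2 : p + w / 2 ≤ v + l / 2) :
    ramp l v t ≤ ramp w p t := by
  have hw : 0 < w := hl.trans_le h1
  rcases le_total t (v - l / 2) with h | h
  · rw [ramp_low hl h]; exact ramp_mem.1
  rcases le_total (p + w / 2) t with h' | h'
  · rw [ramp_high hw h']; exact ramp_mem.2
  unfold ramp
  apply Bd_416.cl_mono
  have e1 : (t - v) / l = 1/2 - (v + l / 2 - t) / l := by field_simp; ring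
  have e2 : (t - p) / w = 1/2 - (p + w / 2 - t) / w := by field_simp; ring
  rw [e1, e2]
  have h3 : (p + w / 2 - t) / w ≤ (p + w / 2 - t) / l :=
    div_le_div_of_nonneg_left (by linarith) hl h1
  have h4 : (p + w / 2 - t) / l ≤ (v + l / 2 - t) / l :=
    div_le_div_of_nonneg_right (by linarith) hl.le
  linarith

/-- the ramp of a swept chord as a function of the time -/
lemma ramp_time {A c H v l r : ℝ} (hc : 0 < c) (hH : 0 < H) (hl : 0 < l) :
    ramp (l / (c * H)) (A - (1 + v) / (c * H)) (A - r / c) = Bd_416.cl ((1 + v - H * r) / l) := by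
  unfold ramp
  congr 1
  field_simp
  ring

lemma neg_ramp {w p t : ℝ} : - ramp w p t = Bd_416.cl ((p - t) / w) := by
  unfold ramp
  rw [← Bd_416.cl_neg]
  congr 1
  ring

/-- **the lag condition** -/
lemma lag_aux {A c H v l w p r t : ℝ} (hc : 0 < c) (hH : 0 < H) (hl : 0 < l) (h1 : l ≤ w)
    (h2 : p + w / 2 ≤ v + l / 2) (ht : -1 + H * r ≤ t) :
    - ramp w p t ≤ ramp (l / (c * H)) (A - (1 + v) / (c * H)) (A - r / c) := by
  rw [ramp_time hc hH hl]
  have h3 : - ramp w p t ≤ - ramp l v t := neg_le_neg (ramp_le_ramp hl h1 h2)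
  refine h3.trans ?_
  rw [neg_ramp]
  apply Bd_416.cl_mono
  exact div_le_div_of_nonneg_right (by linarith) hl.le

lemma abs_ramp_sub' {h ρ r r' : ℝ} (hh : 0 < h) :
    |- ramp h ρ r - - ramp h ρ r'| ≤ 1 / h * |r - r'| := by
  have h1 := abs_ramp_sub (ρ := ρ) (r := r) (r' := r') hh
  have e : - ramp h ρ r - - ramp h ρ r' = - (ramp h ρ r - ramp h ρ r') := by ring
  rw [e, abs_neg]
  refine h1.trans (le_of_eq ?_)
  ring

/-! ### points of the sides -/

lemma eq_sd0 {ω : Fin 2 → ℝ} (h : ω 1 = -1) : ω = sd 0 (ω 0) := by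
  funext i; fin_cases i
  · simp [sd]
  · simpa [sd] using h

lemma eq_sd1 {ω : Fin 2 → ℝ} (h : ω 1 = 1) : ω = sd 1 (ω 0) := by
  funext i; fin_cases i
  · simp [sd]
  · simpa [sd] using h

lemma eq_sd2 {ω : Fin 2 → ℝ} (h : ω 0 = -1) : ω = sd 2 (ω 1) := by
  funext i; fin_cases i
  · simpa [sd] using h
  · simp [sd]

lemma eq_sd3 {ω : Fin 2 → ℝ} (h : ω 0 = 1) : ω = sd 3 (ω 1) := by
  funext i; fin_cases i
  · simpa [sd] using h
  · simp [sd]

namespace Bw

variable {ι : Type} {L : Lam (sph 2) ι} (W : Bw L)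

/-- position of the only end of `x` on the side `s` -/
noncomputable def ps (s : Fin 4) (x : ι) : ℝ :=
  if h : W.n s x = 1 then W.p s (Finset.card_eq_one.1 h).choose else 0

/-- width of the only end of `x` on the side `s` -/
noncomputable def ws (s : Fin 4) (x : ι) : ℝ :=
  if h : W.n s x = 1 then W.w s (Finset.card_eq_one.1 h).choose else 1

variable {W}

lemma exists_one {s : Fin 4} {x : ι} (h : W.n s x = 1) :
    ∃ y, W.en s x = {y} ∧ W.ps s x = W.p s y ∧ W.ws s x = W.w s y := by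
  refine ⟨(Finset.card_eq_one.1 h).choose, (Finset.card_eq_one.1 h).choose_spec, ?_, ?_⟩
  · unfold ps; rw [dif_pos h]
  · unfold ws; rw [dif_pos h]

lemma ws_pos (s : Fin 4) (x : ι) : 0 < W.ws s x := by
  unfold ws
  split_ifs with h
  · exact (W.ed s).w0 _
  · norm_num

lemma ps_lo {s : Fin 4} {x : ι} (h : W.n s x = 1) : -1 < W.ps s x - W.ws s x / 2 := by
  obtain ⟨y, -, e1, e2⟩ := exists_one h
  rw [e1, e2]; exact (W.ed s).lo y

lemma ps_hi {s : Fin 4} {x : ι} (h : W.n s x = 1) : W.ps s x + W.ws s x / 2 < 1 := by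
  obtain ⟨y, -, e1, e2⟩ := exists_one h
  rw [e1, e2]; exact (W.ed s).hi y

lemma ps_sep {s : Fin 4} {x x' : ι} (h : W.n s x = 1) (h' : W.n s x' = 1) (hne : x ≠ x') :
    (W.ws s x + W.ws s x') / 2 < |W.ps s x - W.ps s x'| := by
  obtain ⟨y, g1, e1, e2⟩ := exists_one h
  obtain ⟨y', g1', e1', e2'⟩ := exists_one h'
  rw [e1, e2, e1', e2']
  refine (W.ed s).sep y y' ?_
  rintro rfl
  have h1 : y ∈ W.en s x := by rw [g1]; simp
  have h2 : y ∈ W.en s x' := by rw [g1']; simp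
  rw [mem_en] at h1 h2
  exact hne (h1.symm.trans h2)

lemma c_ps {s : Fin 4} {x : ι} (h : W.n s x = 1) {t : ℝ} (ht : |t| ≤ 1) :
    L.c x (sd s t) = sg (W.a s x) * ramp (W.ws s x) (W.ps s x) t := by
  obtain ⟨y, g1, e1, e2⟩ := exists_one h
  rw [e1, e2]; exact W.c_one g1 ht

/-! ### type A -/

section A

variable {x : ι} (h0 : W.n 0 x = 0) (h1 : W.n 1 x = 0) (h2 : W.n 2 x = 1) (h3 : W.n 3 x = 1)
include h0 h1 h2 h3

omit h1 h2 in
lemma A_bot {t : ℝ} (ht : |t| ≤ 1) : L.c x (sd 0 t) = 1/2 := by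
  have h4 := W.c_const h0 ht
  rw [(W.a_rel x).2.2.1, h0, h3] at h4
  simp only [Nat.cast_one, Nat.cast_zero, add_zero, sg_one] at h4
  linarith

omit h0 h2 h3 in
lemma A_top {t : ℝ} (ht : |t| ≤ 1) : L.c x (sd 1 t) = -1/2 := by
  have h4 := W.c_const h1 ht
  rw [(W.a_rel x).1, h1] at h4
  simp only [Nat.cast_zero, sg_zero] at h4
  linarith

omit h1 in
lemma A_left {t : ℝ} (ht : |t| ≤ 1) : L.c x (sd 2 t) = - ramp (W.ws 2 x) (W.ps 2 x) t := by
  rw [c_ps h2 ht, (W.a_rel x).2.2.2.1, (W.a_rel x).2.2.1, h0, h3]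
  simp

omit h0 h1 h2 in
lemma A_right {t : ℝ} (ht : |t| ≤ 1) : L.c x (sd 3 t) = - ramp (W.ws 3 x) (W.ps 3 x) t := by
  rw [c_ps h3 ht, (W.a_rel x).2.1, h3]
  simp

end A

/-- the values of a type A chord on the lateral sides -/
noncomputable def kA (W : Bw L) (x : ι) (σ t : ℝ) : ℝ :=
  if σ = 1 then - ramp (W.ws 3 x) (W.ps 3 x) t else - ramp (W.ws 2 x) (W.ps 2 x) t

/-- the lower ends of the bands -/
noncomputable def ymA (W : Bw L) (x : ι) (σ : ℝ) : ℝ :=
  if σ = 1 then W.ps 3 x - W.ws 3 x / 2 else W.ps 2 x - W.ws 2 x / 2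

/-- the upper ends of the bands -/
noncomputable def ypA (W : Bw L) (x : ι) (σ : ℝ) : ℝ :=
  if σ = 1 then W.ps 3 x + W.ws 3 x / 2 else W.ps 2 x + W.ws 2 x / 2

lemma neg_ramp_lo {w p t : ℝ} (hw : 0 < w) (h : t < p - w / 2) : - ramp w p t = 1/2 := by
  rw [ramp_low hw h.le]; norm_num

lemma neg_ramp_hi {w p t : ℝ} (hw : 0 < w) (h : p + w / 2 ≤ t) : - ramp w p t = -1/2 := by
  rw [ramp_high hw h]; norm_num

lemma neg_ramp_mem {w p t : ℝ} : - ramp w p t ∈ I2 := by
  have h := (ramp_mem : ramp w p t ∈ I2)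
  have h1 : -1/2 ≤ ramp w p t := h.1
  have h2 : ramp w p t ≤ 1/2 := h.2
  constructor <;> linarith

lemma ks_A (W : Bw L) (x : ι) {Kc : ℝ} (h2 : 1 / W.ws 2 x ≤ Kc) (h3 : 1 / W.ws 3 x ≤ Kc) :
    KS (W.kA x) (W.ymA x) (W.ypA x) Kc where
  lo σ t ht := by
    unfold kA ymA at *
    split_ifs at * with h
    · exact neg_ramp_lo (W.ws_pos 3 x) ht
    · exact neg_ramp_lo (W.ws_pos 2 x) ht
  hi σ t ht := by
    unfold kA ypA at *
    split_ifs at * with h
    · exact neg_ramp_hi (W.ws_pos 3 x) ht.le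
    · exact neg_ramp_hi (W.ws_pos 2 x) ht.le
  lip σ s t := by
    unfold kA
    split_ifs with h
    · exact (abs_ramp_sub' (W.ws_pos 3 x)).trans (mul_le_mul_of_nonneg_right h3 (abs_nonneg _))
    · exact (abs_ramp_sub' (W.ws_pos 2 x)).trans (mul_le_mul_of_nonneg_right h2 (abs_nonneg _))
  mem σ t := by
    unfold kA
    split_ifs <;> exact neg_ramp_mem

/-- **type A chords are swept** -/
theorem ta_A (h2' : W.Two) {x : ι} (hx : W.cls x = 1) {P : Par} {v l : ℝ} (hl : 0 < l)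
    (hl2 : l ≤ W.ws 2 x) (hl3 : l ≤ W.ws 3 x) (hv2 : W.ps 2 x + W.ws 2 x / 2 ≤ v + l / 2)
    (hv3 : W.ps 3 x + W.ws 3 x / 2 ≤ v + l / 2) (hf2 : W.ps 2 x + W.ws 2 x / 2 ≤ 1 - 2 * P.a)
    (hf3 : W.ps 3 x + W.ws 3 x / 2 ≤ 1 - 2 * P.a) :
    TA P (L.c x) (fun t => ramp (l / (4 * P.H)) (1 - (1 + v) / (4 * P.H)) (1 - t / 4))
      (W.kA x) := by
  obtain ⟨h0, h1, h2, h3⟩ := cls_one h2' hx
  refine ⟨?_, ?_, ?_, ?_, ?_, fun ρ => ramp_mem.1, fun ρ => ramp_mem.2⟩
  · intro ω hω h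
    rw [eq_sd0 h]
    exact A_bot h0 h3 (mem_sph2.1 hω).1
  · intro ω hω h
    rw [eq_sd1 h]
    exact A_top h1 (mem_sph2.1 hω).1
  · intro ω hω h
    rcases (abs_eq zero_le_one).1 h with h4 | h4
    · rw [eq_sd3 h4, A_right h3 (mem_sph2.1 hω).2.1]
      unfold kA
      rw [if_pos (by simp [sd])]
      simp [sd]
    · rw [eq_sd2 h4, A_left h0 h2 h3 (mem_sph2.1 hω).2.1]
      unfold kA
      rw [if_neg (by simp [sd]; norm_num)]
      simp [sd]
  · intro σ t ht
    unfold kA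
    split_ifs
    · exact neg_ramp_hi (W.ws_pos 3 x) (by linarith)
    · exact neg_ramp_hi (W.ws_pos 2 x) (by linarith)
  · intro σ t r hσ hr0 hr1 ht ht1
    unfold kA
    split_ifs
    · exact lag_aux (by norm_num) P.H0 hl hl3 hv3 ht
    · exact lag_aux (by norm_num) P.H0 hl hl2 hv2 ht

/-! ### type B -/

section B

variable {x : ι} (h0 : W.n 0 x = 1) (h1 : W.n 1 x = 1) (h2 : W.n 2 x = 0) (h3 : W.n 3 x = 0)
include h0 h1 h2 h3

omit h1 h2 in
lemma B_bot {t : ℝ} (ht : |t| ≤ 1) : L.c x (sd 0 t) = - ramp (W.ws 0 x) (W.ps 0 x) t := by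
  rw [c_ps h0 ht, (W.a_rel x).2.2.1, h0, h3]
  simp

omit h0 h2 h3 in
lemma B_top {t : ℝ} (ht : |t| ≤ 1) : L.c x (sd 1 t) = - ramp (W.ws 1 x) (W.ps 1 x) t := by
  rw [c_ps h1 ht, (W.a_rel x).1, h1]
  simp

omit h1 in
lemma B_left {t : ℝ} (ht : |t| ≤ 1) : L.c x (sd 2 t) = 1/2 := by
  have h4 := W.c_const h2 ht
  rw [(W.a_rel x).2.2.2.1, (W.a_rel x).2.2.1, h0, h3] at h4
  simp only [Nat.cast_one, Nat.cast_zero, zero_add, sg_one] at h4
  linarith

omit h0 h1 h2 in
lemma B_right {t : ℝ} (ht : |t| ≤ 1) : L.c x (sd 3 t) = -1/2 := by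
  have h4 := W.c_const h3 ht
  rw [(W.a_rel x).2.1, h3] at h4
  simp only [Nat.cast_zero, sg_zero] at h4
  linarith

end B

/-- the values of a type B chord on the bottom -/
noncomputable def kb (W : Bw L) (x : ι) (t : ℝ) : ℝ := - ramp (W.ws 0 x) (W.ps 0 x) t

/-- the values of a type B chord on the top -/
noncomputable def kt (W : Bw L) (x : ι) (t : ℝ) : ℝ := - ramp (W.ws 1 x) (W.ps 1 x) t

theorem tb_B (h2' : W.Two) {x : ι} (hx : W.cls x = 2) {P : Par}
    (b0 : -(1 - 2 * (P.a + P.m * P.H)) < W.ps 0 x - W.ws 0 x / 2)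
    (b1 : W.ps 0 x + W.ws 0 x / 2 ≤ 1 - 2 * (P.a + P.m * P.H))
    (t0 : -(1 - 2 * P.a) < W.ps 1 x - W.ws 1 x / 2)
    (t1 : W.ps 1 x + W.ws 1 x / 2 ≤ 1 - 2 * P.a) :
    TB P (L.c x) (W.kb x) (W.kt x) := by
  obtain ⟨h0, h1, h2, h3⟩ := cls_two h2' hx
  refine ⟨?_, ?_, ?_, ?_, ?_, ?_, ?_, ?_⟩
  · intro ω hω h
    rw [eq_sd2 h]
    exact B_left h0 h2 h3 (mem_sph2.1 hω).2.1
  · intro ω hω h
    rw [eq_sd3 h]
    exact B_right h3 (mem_sph2.1 hω).2.1
  · intro ω hω h
    rw [eq_sd0 h, B_bot h0 h3 (mem_sph2.1 hω).1]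
    simp [sd, kb]
  · intro ω hω h
    rw [eq_sd1 h, B_top h1 (mem_sph2.1 hω).1]
    simp [sd, kt]
  · intro t ht
    exact neg_ramp_lo (W.ws_pos 0 x) (by linarith)
  · intro t ht
    exact neg_ramp_hi (W.ws_pos 0 x) (by linarith)
  · intro t ht
    exact neg_ramp_lo (W.ws_pos 1 x) (by linarith)
  · intro t ht
    exact neg_ramp_hi (W.ws_pos 1 x) (by linarith)

/-- the lower ends of the bands for the second sweep -/
noncomputable def ymB (W : Bw L) (P : Par) (x : ι) (σ : ℝ) : ℝ :=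
  if σ = 1 then (W.ps 1 x - W.ws 1 x / 2) / (1 - P.a) else (W.ps 0 x - W.ws 0 x / 2) / (1 - P.a)

/-- the upper ends of the bands for the second sweep -/
noncomputable def ypB (W : Bw L) (P : Par) (x : ι) (σ : ℝ) : ℝ :=
  if σ = 1 then (W.ps 1 x + W.ws 1 x / 2) / (1 - P.a) else (W.ps 0 x + W.ws 0 x / 2) / (1 - P.a)

lemma one_sub_a (P : Par) : 0 < 1 - P.a := by
  have := P.a_le
  linarith

lemma ks_B (W : Bw L) (P : Par) (x : ι) {Kc : ℝ} (h0 : 1 / W.ws 0 x ≤ Kc)
    (h1 : 1 / W.ws 1 x ≤ Kc) :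
    KS (fun σ t => if σ = 1 then W.kt x ((1 - P.a) * t) else W.kb x ((1 - P.a) * t))
      (W.ymB P x) (W.ypB P x) ((1 - P.a) * Kc) where
  lo σ t ht := by
    have ha := one_sub_a P
    unfold ymB at ht
    unfold kt kb
    split_ifs at * with h
    · rw [lt_div_iff₀ ha] at ht
      exact neg_ramp_lo (W.ws_pos 1 x) (by linarith)
    · rw [lt_div_iff₀ ha] at ht
      exact neg_ramp_lo (W.ws_pos 0 x) (by linarith)
  hi σ t ht := by
    have ha := one_sub_a P
    unfold ypB at ht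
    unfold kt kb
    split_ifs at * with h
    · rw [div_lt_iff₀ ha] at ht
      exact neg_ramp_hi (W.ws_pos 1 x) (by linarith)
    · rw [div_lt_iff₀ ha] at ht
      exact neg_ramp_hi (W.ws_pos 0 x) (by linarith)
  lip σ s t := by
    have ha := one_sub_a P
    have e : |(1 - P.a) * s - (1 - P.a) * t| = (1 - P.a) * |s - t| := by
      rw [← mul_sub, abs_mul, abs_of_pos ha]
    unfold kt kb
    show |(if σ = 1 then _ else _) - (if σ = 1 then _ else _)| ≤ _
    split_ifs with h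
    · refine (abs_ramp_sub' (W.ws_pos 1 x)).trans ?_
      rw [e, mul_assoc, mul_left_comm]
      exact mul_le_mul_of_nonneg_left (mul_le_mul_of_nonneg_right h1 (abs_nonneg _)) ha.le
    · refine (abs_ramp_sub' (W.ws_pos 0 x)).trans ?_
      rw [e, mul_assoc, mul_left_comm]
      exact mul_le_mul_of_nonneg_left (mul_le_mul_of_nonneg_right h0 (abs_nonneg _)) ha.le
  mem σ t := by
    unfold kt kb
    show (if σ = 1 then _ else _) ∈ I2
    split_ifs <;> exact neg_ramp_mem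

/-- **type B chords are swept in the second sweep** -/
theorem ta_B {x : ι} {P : Par} (B : TB P (L.c x) (W.kb x) (W.kt x)) {P' : Par}
    (ha' : 2 * P'.a ≤ P.a) {v l : ℝ} (hl : 0 < l)
    (hl0 : l ≤ W.ws 0 x / (1 - P.a)) (hl1 : l ≤ W.ws 1 x / (1 - P.a))
    (hv0 : (W.ps 0 x + W.ws 0 x / 2) / (1 - P.a) ≤ v + l / 2)
    (hv1 : (W.ps 1 x + W.ws 1 x / 2) / (1 - P.a) ≤ v + l / 2) :
    TA P' (fun ω => L.c x (P.ann.β.g (sw ω)))
      (fun t => ramp (l / (8 * P'.H)) (3/4 - (1 + v) / (8 * P'.H)) (3/4 - t / 8))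
      (fun σ t => if σ = 1 then W.kt x ((1 - P.a) * t) else W.kb x ((1 - P.a) * t)) := by
  have ha := one_sub_a P
  have key : ∀ (w p t : ℝ), 0 < w → - ramp w p ((1 - P.a) * t)
      = - ramp (w / (1 - P.a)) (p / (1 - P.a)) t := by
    intro w p t hw
    unfold ramp
    congr 2
    field_simp
  refine B.second P' ha' ?_ (fun ρ => ramp_mem.1) (fun ρ => ramp_mem.2)
  intro σ t r hσ hr0 hr1 ht ht1
  unfold kt kb
  split_ifs
  · rw [key _ _ _ (W.ws_pos 1 x)]
    refine lag_aux (by norm_num) P'.H0 hl hl1 ?_ ht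
    refine le_trans (le_of_eq ?_) hv1
    ring
  · rw [key _ _ _ (W.ws_pos 0 x)]
    refine lag_aux (by norm_num) P'.H0 hl hl0 ?_ ht
    refine le_trans (le_of_eq ?_) hv0
    ring

end Bw

end Crest.Agent.R096.Fk_522
end

-- ▼ part R096/Fk4_522
section

/-!
# R096 (row 96), P4-FACE, combinatorics, part 4: heights and depths (helper522)
-/

set_option autoImplicit false
set_option linter.unusedSectionVars false

open Set Metric

namespace Crest.Agent.R096.Fk_522

open Crest.Agent.R096.Ce_537 Crest.Agent.R096.Bd_416 Crest.Agent.R096.Fsw_928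

open scoped Classical

namespace Bw

variable {ι : Type} [Fintype ι] {L : Lam (sph 2) ι} {W : Bw L}

/-! ### long chords of one class -/

/-- the upper end of the two bands, minus half of the gap -/
noncomputable def yy (W : Bw L) (s s' : Fin 4) (c : ℝ) (l : ι → ℝ) (x : ι) : ℝ :=
  max (c * (W.ps s x + W.ws s x / 2)) (c * (W.ps s' x + W.ws s' x / 2)) - l x / 2

lemma yy_gap {s s' : Fin 4} {c : ℝ} (hc : 0 < c) {l : ι → ℝ} {x x' : ι}
    (h1 : W.n s x = 1) (h1' : W.n s x' = 1) (h2 : W.n s' x = 1) (h2' : W.n s' x' = 1)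
    (hl : l x' ≤ c * W.ws s x') (hl' : l x' ≤ c * W.ws s' x')
    (hp : W.ps s x < W.ps s x') (hp' : W.ps s' x < W.ps s' x') :
    W.yy s s' c l x + (l x + l x') / 2 ≤ W.yy s s' c l x' := by
  have hne : x ≠ x' := by rintro rfl; exact lt_irrefl _ hp
  have e1 := ps_sep h1 h1' hne
  have e2 := ps_sep h2 h2' hne
  rw [abs_sub_comm, abs_of_pos (by linarith)] at e1 e2
  have f1 : c * (W.ps s x + W.ws s x / 2) + l x' ≤ c * (W.ps s x' + W.ws s x' / 2) := by
    have : c * (W.ps s x + W.ws s x / 2) + c * W.ws s x' ≤ c * (W.ps s x' + W.ws s x' / 2) := by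
      rw [← mul_add]
      exact mul_le_mul_of_nonneg_left (by linarith) hc.le
    linarith
  have f2 : c * (W.ps s' x + W.ws s' x / 2) + l x' ≤ c * (W.ps s' x' + W.ws s' x' / 2) := by
    have : c * (W.ps s' x + W.ws s' x / 2) + c * W.ws s' x' ≤ c * (W.ps s' x' + W.ws s' x' / 2) := by
      rw [← mul_add]
      exact mul_le_mul_of_nonneg_left (by linarith) hc.le
    linarith
  have f3 : max (c * (W.ps s x + W.ws s x / 2)) (c * (W.ps s' x + W.ws s' x / 2)) + l x'
      ≤ max (c * (W.ps s x' + W.ws s x' / 2)) (c * (W.ps s' x' + W.ws s' x' / 2)) := by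
    rw [← le_sub_iff_add_le]
    refine max_le ?_ ?_
    · have := le_max_left (c * (W.ps s x' + W.ws s x' / 2)) (c * (W.ps s' x' + W.ws s' x' / 2))
      linarith
    · have := le_max_right (c * (W.ps s x' + W.ws s x' / 2)) (c * (W.ps s' x' + W.ws s' x' / 2))
      linarith
  unfold yy
  linarith

/-- an order-respecting embedding -/
noncomputable def ord (y : ι → ℝ) (k0 : ι → ℕ) (x : ι) : ℝ ×ₗ ℤ := toLex (y x, -(k0 x : ℤ))

lemma ord_inj {y : ι → ℝ} {k0 : ι → ℕ} (hk : Function.Injective k0) :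
    Function.Injective (ord y k0) := by
  intro x x' h
  have h1 : (y x, -(k0 x : ℤ)) = (y x', -(k0 x' : ℤ)) := toLex.injective h
  have h2 : -(k0 x : ℤ) = -(k0 x' : ℤ) := (Prod.mk.inj h1).2
  exact hk (by omega)

lemma ord_lt {y : ι → ℝ} {k0 : ι → ℕ} {x x' : ι} :
    ord y k0 x < ord y k0 x' ↔ y x < y x' ∨ (y x = y x' ∧ k0 x' < k0 x) := by
  unfold ord
  rw [Prod.Lex.toLex_lt_toLex]
  simp only
  constructor
  · rintro (h | ⟨h, h'⟩)
    · exact Or.inl h
    · exact Or.inr ⟨h, by omega⟩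
  · rintro (h | ⟨h, h'⟩)
    · exact Or.inl h
    · exact Or.inr ⟨h, by omega⟩

/-- greedy heights on a part of `ι` -/
theorem greedy_on (S : Finset ι) (y l : ι → ℝ) (hl : ∀ x ∈ S, 0 < l x) (k0 : ι → ℕ)
    (hk : Function.Injective k0) (M : Finset ι)
    (hM : ∀ x ∈ M, ∀ x' ∈ M, x ∈ S → x' ∈ S → x ≠ x' → (l x + l x') / 2 ≤ |y x - y x'|) {lam : ℝ}
    (hlam : ∀ x ∈ S, l x ≤ lam) :
    ∃ v : ι → ℝ, (∀ x ∈ S, y x ≤ v x) ∧
      (∀ x ∈ S, ∀ x' ∈ S, x ≠ x' → (l x + l x') / 2 ≤ |v x - v x'|) ∧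
      (∀ x ∈ S, ∀ x' ∈ S, y x < y x' → v x < v x') ∧
      (∀ x ∈ S, ∀ x' ∈ S, y x = y x' → k0 x' < k0 x → v x < v x') ∧
      ∀ x ∈ S, v x ≤ y x + ∑ j ∈ S \ M, l j + 2 * lam := by
  classical
  obtain ⟨k, hkinj, hk1, hk2⟩ := exists_rank_lin (fun i : S => ord y k0 i)
    (fun i j h => Subtype.ext (ord_inj hk h))
  obtain ⟨v, h1, h2, h3⟩ := greedy (fun i : S => y i) (fun i : S => l i) (fun i => hl i i.2) k hkinj
    (fun i j h => by
      rcases ord_lt.1 (hk2 i j h) with h' | h'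
      · exact h'.le
      · exact h'.1.le)
    (Finset.univ.filter fun i : S => (i : ι) ∈ M) (fun i hi j hj hne => by
      rw [Finset.mem_filter] at hi hj
      exact hM i hi.2 j hj.2 i.2 j.2 (fun h => hne (Subtype.ext h)))
    (fun i => hlam i i.2)
  let V : ι → ℝ := fun x => if h : x ∈ S then v ⟨x, h⟩ else 0
  have hV : ∀ x (h : x ∈ S), V x = v ⟨x, h⟩ := fun x h => dif_pos h
  have key : ∀ x (hx : x ∈ S) x' (hx' : x' ∈ S), ord y k0 x < ord y k0 x' →
      V x + (l x + l x') / 2 ≤ V x' := by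
    intro x hx x' hx' h
    rw [hV x hx, hV x' hx']
    exact h2 ⟨x, hx⟩ ⟨x', hx'⟩ (hk1 ⟨x, hx⟩ ⟨x', hx'⟩ h)
  have hsum : ∑ j ∈ (Finset.univ.filter fun i : S => (i : ι) ∈ M)ᶜ, l j = ∑ j ∈ S \ M, l j := by
    have e : S \ M = ((Finset.univ.filter fun i : S => (i : ι) ∈ M)ᶜ).map
        (Function.Embedding.subtype _) := by
      ext x
      simp only [Finset.mem_sdiff, Finset.mem_map, Finset.mem_compl, Finset.mem_filter,
        Finset.mem_univ, true_and, Function.Embedding.coe_subtype, Subtype.exists, exists_and_left,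
        exists_prop, exists_eq_right_right]
      tauto
    rw [e, Finset.sum_map]
    rfl
  refine ⟨V, fun x hx => ?_, fun x hx x' hx' hne => ?_, fun x hx x' hx' h => ?_,
    fun x hx x' hx' h h' => ?_, fun x hx => ?_⟩
  · rw [hV x hx]; exact h1 ⟨x, hx⟩
  · rcases lt_trichotomy (ord y k0 x) (ord y k0 x') with h | h | h
    · have := key x hx x' hx' h
      rw [abs_sub_comm]
      exact le_trans (by linarith) (le_abs_self _)
    · exact absurd (ord_inj hk h) hne
    · have := key x' hx' x hx h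
      exact le_trans (by linarith) (le_abs_self _)
  · have := key x hx x' hx' (ord_lt.2 (Or.inl h))
    have h3 := hl x hx
    have h4 := hl x' hx'
    linarith
  · have := key x hx x' hx' (ord_lt.2 (Or.inr ⟨h, h'⟩))
    have h3 := hl x hx
    have h4 := hl x' hx'
    linarith
  · rw [hV x hx, ← hsum]
    exact h3 ⟨x, hx⟩

/-! ### nested long chords -/

lemma ramp_self {w p : ℝ} : ramp w p p = 0 := by
  unfold ramp
  rw [sub_self, zero_div, cl_of_mem (by constructor <;> norm_num)]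

lemma lt_of_neg_ramp {w p t : ℝ} (hw : 0 < w) (h : 0 < - ramp w p t) : t < p := by
  by_contra hc
  rw [not_lt] at hc
  have h1 : (0:ℝ) ≤ ramp w p t := by
    have : Bd_416.cl 0 ≤ ramp w p t := Bd_416.cl_mono (div_nonneg (by linarith) hw.le)
    rwa [cl_of_mem (by constructor <;> norm_num)] at this
  linarith

lemma inc_side {s : Fin 4} {x x' : ι} (hx : W.n s x = 1)
    (h : ∀ t, |t| ≤ 1 → L.c x (sd s t) = - ramp (W.ws s x) (W.ps s x) t)
    (h' : ∀ t, |t| ≤ 1 → L.c x' (sd s t) = - ramp (W.ws s x') (W.ps s x') t)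
    (hi : Inc L x x') : W.ps s x < W.ps s x' := by
  have h1 := ps_lo hx
  have h2 := ps_hi hx
  have h3 := ws_pos (W := W) s x
  have h4 : |W.ps s x| ≤ 1 := abs_le.2 ⟨by linarith, by linarith⟩
  have h5 := hi _ (sd_mem s h4) (by rw [h _ h4, ramp_self]; norm_num)
  rw [h' _ h4] at h5
  exact lt_of_neg_ramp (ws_pos s x') h5

lemma inc_A (h2 : W.Two) {x x' : ι} (hx : W.cls x = 1) (hx' : W.cls x' = 1) (h : Inc L x x') :
    W.ps 2 x < W.ps 2 x' ∧ W.ps 3 x < W.ps 3 x' := by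
  obtain ⟨a0, a1, a2, a3⟩ := cls_one h2 hx
  obtain ⟨b0, b1, b2, b3⟩ := cls_one h2 hx'
  exact ⟨inc_side a2 (fun t ht => A_left a0 a2 a3 ht) (fun t ht => A_left b0 b2 b3 ht) h,
    inc_side a3 (fun t ht => A_right a3 ht) (fun t ht => A_right b3 ht) h⟩

lemma inc_B (h2 : W.Two) {x x' : ι} (hx : W.cls x = 2) (hx' : W.cls x' = 2) (h : Inc L x x') :
    W.ps 0 x < W.ps 0 x' ∧ W.ps 1 x < W.ps 1 x' := by
  obtain ⟨a0, a1, a2, a3⟩ := cls_two h2 hx
  obtain ⟨b0, b1, b2, b3⟩ := cls_two h2 hx'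
  exact ⟨inc_side a0 (fun t ht => B_bot a0 a3 ht) (fun t ht => B_bot b0 b3 ht) h,
    inc_side a1 (fun t ht => B_top a1 ht) (fun t ht => B_top b1 ht) h⟩

/-- the chords of a class -/
noncomputable def cl4 (W : Bw L) (κ : Fin 4) : Finset ι := Finset.univ.filter fun x => W.cls x = κ

lemma mem_cl4 {κ : Fin 4} {x : ι} : x ∈ W.cl4 κ ↔ W.cls x = κ := by simp [cl4]

/-- **heights of the chords of one long class** -/
theorem heights (k0 : ι → ℕ) (hk : Function.Injective k0) {κ s s' : Fin 4} {c : ℝ} (hc : 0 < c)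
    (hn : ∀ x, W.cls x = κ → W.n s x = 1) (hn' : ∀ x, W.cls x = κ → W.n s' x = 1)
    (hinc : ∀ x x', W.cls x = κ → W.cls x' = κ → Inc L x x' →
      W.ps s x < W.ps s x' ∧ W.ps s' x < W.ps s' x')
    (l : ι → ℝ) (hl : ∀ x, 0 < l x) (hls : ∀ x, W.cls x = κ → l x ≤ c * W.ws s x)
    (hls' : ∀ x, W.cls x = κ → l x ≤ c * W.ws s' x) (M : Finset ι)
    (hM : ∀ x ∈ M, ∀ x' ∈ M, W.ps s x < W.ps s x' → W.ps s' x < W.ps s' x') {lam : ℝ}
    (hlam : ∀ x, W.cls x = κ → l x ≤ lam) :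
    ∃ v : ι → ℝ, (∀ x, W.cls x = κ → c * (W.ps s x + W.ws s x / 2) ≤ v x + l x / 2) ∧
      (∀ x, W.cls x = κ → c * (W.ps s' x + W.ws s' x / 2) ≤ v x + l x / 2) ∧
      (∀ x, W.cls x = κ → v x + l x / 2 ≤ max (c * (W.ps s x + W.ws s x / 2))
        (c * (W.ps s' x + W.ws s' x / 2)) + ∑ j ∈ W.cl4 κ \ M, l j + 2 * lam) ∧
      (∀ x x', W.cls x = κ → W.cls x' = κ → x ≠ x' → (l x + l x') / 2 ≤ |v x - v x'|) ∧
      ∀ x x', W.cls x = κ → W.cls x' = κ → Inc L x x' → v x < v x' := by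
  have gap : ∀ x x', W.cls x = κ → W.cls x' = κ → W.ps s x < W.ps s x' →
      W.ps s' x < W.ps s' x' → W.yy s s' c l x + (l x + l x') / 2 ≤ W.yy s s' c l x' := by
    intro x x' hx hx' h1 h2
    exact yy_gap hc (hn x hx) (hn x' hx') (hn' x hx) (hn' x' hx') (hls x' hx') (hls' x' hx') h1 h2
  obtain ⟨v, h1, h2, h3, -, h5⟩ := greedy_on (W.cl4 κ) (W.yy s s' c l) l (fun x _ => hl x) k0 hk M
    (fun x hx x' hx' hxS hxS' hne => by
      rw [mem_cl4] at hxS hxS'
      have hsep := ps_sep (hn x hxS) (hn x' hxS') hne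
      have hw := ws_pos (W := W) s x
      have hw' := ws_pos (W := W) s x'
      rcases lt_trichotomy (W.ps s x) (W.ps s x') with h | h | h
      · have := gap x x' hxS hxS' h (hM x hx x' hx' h)
        rw [abs_sub_comm]
        exact le_trans (by linarith) (le_abs_self _)
      · rw [h, sub_self, abs_zero] at hsep
        linarith
      · have := gap x' x hxS' hxS h (hM x' hx' x hx h)
        exact le_trans (by linarith) (le_abs_self _))
    (fun x hx => hlam x (mem_cl4.1 hx))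
  refine ⟨v, fun x hx => ?_, fun x hx => ?_, fun x hx => ?_, fun x x' hx hx' hne => ?_,
    fun x x' hx hx' hi => ?_⟩
  · have := h1 x (mem_cl4.2 hx)
    unfold yy at this
    have := le_max_left (c * (W.ps s x + W.ws s x / 2)) (c * (W.ps s' x + W.ws s' x / 2))
    linarith
  · have := h1 x (mem_cl4.2 hx)
    unfold yy at this
    have := le_max_right (c * (W.ps s x + W.ws s x / 2)) (c * (W.ps s' x + W.ws s' x / 2))
    linarith
  · have := h5 x (mem_cl4.2 hx)
    unfold yy at this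
    linarith
  · exact h2 x (mem_cl4.2 hx) x' (mem_cl4.2 hx') hne
  · obtain ⟨a1, a2⟩ := hinc x x' hx hx' hi
    have := gap x x' hx hx' a1 a2
    exact h3 x (mem_cl4.2 hx) x' (mem_cl4.2 hx') (by linarith [hl x, hl x'])

/-- **packing of the other classes** -/
theorem packed (k0 : ι → ℕ) (hk : Function.Injective k0) (κ : Fin 4) (l : ι → ℝ)
    (hl : ∀ x, 0 < l x) {lam : ℝ} (hlam : ∀ x, W.cls x = κ → l x ≤ lam) :
    ∃ v : ι → ℝ, (∀ x, W.cls x = κ → 0 ≤ v x - l x / 2) ∧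
      (∀ x, W.cls x = κ → v x + l x / 2 ≤ ∑ j ∈ W.cl4 κ, l j + 3 * lam) ∧
      (∀ x x', W.cls x = κ → W.cls x' = κ → x ≠ x' → (l x + l x') / 2 ≤ |v x - v x'|) ∧
      ∀ x x', W.cls x = κ → W.cls x' = κ → k0 x' < k0 x → v x < v x' := by
  obtain ⟨v, h1, h2, -, h4, h5⟩ := greedy_on (W.cl4 κ) (fun _ => lam / 2) l (fun x _ => hl x) k0 hk ∅
    (fun x hx => absurd hx (Finset.notMem_empty x)) (fun x hx => hlam x (mem_cl4.1 hx))
  refine ⟨v, fun x hx => ?_, fun x hx => ?_, fun x x' hx hx' hne => ?_,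
    fun x x' hx hx' hi => ?_⟩
  · have h6 : lam / 2 ≤ v x := h1 x (mem_cl4.2 hx)
    have := hlam x hx
    linarith
  · have h6 : v x ≤ lam / 2 + ∑ j ∈ W.cl4 κ \ ∅, l j + 2 * lam := h5 x (mem_cl4.2 hx)
    rw [Finset.sdiff_empty] at h6
    have := hlam x hx
    linarith
  · exact h2 x (mem_cl4.2 hx) x' (mem_cl4.2 hx') hne
  · exact h4 x (mem_cl4.2 hx) x' (mem_cl4.2 hx') rfl hi

end Bw

end Crest.Agent.R096.Fk_522
end

-- ▼ part R096/Fk5_522
section

/-!
# R096 (row 96), P4-FACE, combinatorics, part 5: the depths of all chords (helper522)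
-/

set_option autoImplicit false
set_option linter.unusedSectionVars false

open Set Metric

namespace Crest.Agent.R096.Fk_522

open Crest.Agent.R096.Ce_537 Crest.Agent.R096.Bd_416 Crest.Agent.R096.Fsw_928

open scoped Classical

namespace Bw

variable {ι : Type} [Fintype ι] {L : Lam (sph 2) ι} {W : Bw L}

/-- **the depths of the chords of a face**: `v` = heights of the long chords, `l` = their gaps -/
structure Dpt (W : Bw L) (P P' : Par) (K b : ℝ) (l : ι → ℝ) (Rl : ι → ι → Prop)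
    (eA eB : ℝ) where
  v : ι → ℝ
  h : ι → ℝ
  ρ : ι → ℝ
  D : Dep L K b h ρ
  nest : ∀ x x', Rl x x' → ρ x' < ρ x
  hA : ∀ x, W.cls x = 1 → h x = l x / (4 * P.H)
  ρA : ∀ x, W.cls x = 1 → ρ x = 1 - (1 + v x) / (4 * P.H)
  lowA : ∀ x, W.cls x = 1 → 3/4 ≤ ρ x - h x / 2
  vA2 : ∀ x, W.cls x = 1 → W.ps 2 x + W.ws 2 x / 2 ≤ v x + l x / 2
  vA3 : ∀ x, W.cls x = 1 → W.ps 3 x + W.ws 3 x / 2 ≤ v x + l x / 2
  vA : ∀ x, W.cls x = 1 → v x + l x / 2 ≤
    max (W.ps 2 x + W.ws 2 x / 2) (W.ps 3 x + W.ws 3 x / 2) + eA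
  sepA : ∀ x x', W.cls x = 1 → W.cls x' = 1 → x ≠ x' → (l x + l x') / 2 ≤ |v x - v x'|
  hB : ∀ x, W.cls x = 2 → h x = l x / (8 * P'.H)
  ρB : ∀ x, W.cls x = 2 → ρ x = 3/4 - (1 + v x) / (8 * P'.H)
  highB : ∀ x, W.cls x = 2 → ρ x + h x / 2 ≤ 3/4
  lowB : ∀ x, W.cls x = 2 → 5/8 ≤ ρ x - h x / 2
  vB0 : ∀ x, W.cls x = 2 → (W.ps 0 x + W.ws 0 x / 2) / (1 - P.a) ≤ v x + l x / 2
  vB1 : ∀ x, W.cls x = 2 → (W.ps 1 x + W.ws 1 x / 2) / (1 - P.a) ≤ v x + l x / 2
  vB : ∀ x, W.cls x = 2 → v x + l x / 2 ≤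
    max ((W.ps 0 x + W.ws 0 x / 2) / (1 - P.a)) ((W.ps 1 x + W.ws 1 x / 2) / (1 - P.a)) + eB
  hX : ∀ x, W.cls x = 0 ∨ W.cls x = 3 → h x = l x

/-- the windows of the classes -/
lemma fin4_cases (κ : Fin 4) : κ = 0 ∨ κ = 1 ∨ κ = 2 ∨ κ = 3 := by
  fin_cases κ <;> simp

theorem exists_dpt (h2 : W.Two) (P P' : Par) {K b ε δ : ℝ} (hC : Cst K b) (k0 : ι → ℕ)
    (hk : Function.Injective k0) (Rl : ι → ι → Prop) (hR1 : ∀ x x', Rl x x' → Inc L x x')
    (hR2 : ∀ x x', Rl x x' → k0 x' < k0 x) (l : ι → ℝ) (hl : ∀ x, 0 < l x)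
    (lA2 : ∀ x, W.cls x = 1 → l x ≤ W.ws 2 x) (lA3 : ∀ x, W.cls x = 1 → l x ≤ W.ws 3 x)
    (lB0 : ∀ x, W.cls x = 2 → l x ≤ W.ws 0 x) (lB1 : ∀ x, W.cls x = 2 → l x ≤ W.ws 1 x)
    (mlo : ∀ s x, W.n s x = 1 → -(1 - δ) ≤ W.ps s x - W.ws s x / 2)
    (mhi : ∀ s x, W.n s x = 1 → W.ps s x + W.ws s x / 2 ≤ 1 - δ)
    (hεδ : P.H * ε ≤ δ) (haδ : P.a ≤ δ) (hε : 0 ≤ ε) (hε1 : ε ≤ 1)
    (MA MB : Finset ι)
    (hMA : ∀ x ∈ MA, ∀ x' ∈ MA, W.ps 2 x < W.ps 2 x' → W.ps 3 x < W.ps 3 x')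
    (hMB : ∀ x ∈ MB, ∀ x' ∈ MB, W.ps 0 x < W.ps 0 x' → W.ps 1 x < W.ps 1 x')
    {lam eA eB : ℝ} (hlam : ∀ x, l x ≤ lam)
    (heA : ∑ j ∈ W.cl4 1 \ MA, l j + 2 * lam ≤ eA) (heB : ∑ j ∈ W.cl4 2 \ MB, l j + 2 * lam ≤ eB)
    (he0 : ∑ j ∈ W.cl4 0, l j + 3 * lam ≤ ε / 4) (he3 : ∑ j ∈ W.cl4 3, l j + 3 * lam ≤ 1/8)
    (hHA : 2 - δ + eA ≤ P.H) (hHB : 1 + (1 - δ) / (1 - P.a) + eB ≤ P'.H) :
    Nonempty (Dpt W P P' K b l Rl eA eB) := by
  have hcA := fun x hx => cls_one (W := W) h2 (x := x) hx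
  have hcB := fun x hx => cls_two (W := W) h2 (x := x) hx
  have ha := one_sub_a P
  have hP := P.H0
  have hP' := P'.H0
  have ha0 := P.a0
  have hinv : 1 ≤ (1 - P.a)⁻¹ := (one_le_inv₀ ha).2 (by linarith)
  have hscale : ∀ t : ℝ, 0 ≤ t → t ≤ (1 - P.a)⁻¹ * t := fun t ht => le_mul_of_one_le_left ht hinv
  obtain ⟨vA, a1, a2, a3, a4, a5⟩ := heights (W := W) (κ := 1) (s := 2) (s' := 3) (c := 1) k0 hk
    one_pos (fun x hx => (hcA x hx).2.2.1) (fun x hx => (hcA x hx).2.2.2)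
    (fun x x' hx hx' hi => inc_A h2 hx hx' hi) l hl (fun x hx => by rw [one_mul]; exact lA2 x hx)
    (fun x hx => by rw [one_mul]; exact lA3 x hx) MA hMA (lam := lam) (fun x _ => hlam x)
  obtain ⟨vB, b1, b2, b3, b4, b5⟩ := heights (W := W) (κ := 2) (s := 0) (s' := 1)
    (c := (1 - P.a)⁻¹) k0 hk
    (by positivity) (fun x hx => (hcB x hx).1) (fun x hx => (hcB x hx).2.1)
    (fun x x' hx hx' hi => inc_B h2 hx hx' hi) l hl
    (fun x hx => (lB0 x hx).trans (hscale _ (ws_pos 0 x).le))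
    (fun x hx => (lB1 x hx).trans (hscale _ (ws_pos 1 x).le)) MB hMB (lam := lam) (fun x _ => hlam x)
  obtain ⟨v0, c1, c2, c3, c4⟩ := packed (W := W) k0 hk 0 l hl (lam := lam) (fun x _ => hlam x)
  obtain ⟨v3, d1, d2, d3, d4⟩ := packed (W := W) k0 hk 3 l hl (lam := lam) (fun x _ => hlam x)
  simp only [one_mul] at a1 a2 a3
  -- definitions
  let v : ι → ℝ := fun x => if W.cls x = 1 then vA x else if W.cls x = 2 then vB x
    else if W.cls x = 3 then v3 x else v0 x
  let h : ι → ℝ := fun x => if W.cls x = 1 then l x / (4 * P.H) else if W.cls x = 2 then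
    l x / (8 * P'.H) else l x
  let ρ : ι → ℝ := fun x => if W.cls x = 1 then 1 - (1 + vA x) / (4 * P.H) else
    if W.cls x = 2 then 3/4 - (1 + vB x) / (8 * P'.H) else if W.cls x = 3 then 5/8 - v3 x
    else 1 - v0 x
  have n21 : ¬ ((2 : Fin 4) = 1) := by decide
  have n31 : ¬ ((3 : Fin 4) = 1) := by decide
  have n32 : ¬ ((3 : Fin 4) = 2) := by decide
  have n01 : ¬ ((0 : Fin 4) = 1) := by decide
  have n02 : ¬ ((0 : Fin 4) = 2) := by decide
  have n03 : ¬ ((0 : Fin 4) = 3) := by decide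
  have h1e : ∀ x, W.cls x = 1 → h x = l x / (4 * P.H) := fun x hx => if_pos hx
  have h2e : ∀ x, W.cls x = 2 → h x = l x / (8 * P'.H) := fun x hx => by
    simp only [h, hx, n21, if_false, if_true]
  have h3e : ∀ x, W.cls x = 3 → h x = l x := fun x hx => by
    simp only [h, hx, n31, n32, if_false]
  have h0e : ∀ x, W.cls x = 0 → h x = l x := fun x hx => by
    simp only [h, hx, n01, n02, if_false]
  have r1e : ∀ x, W.cls x = 1 → ρ x = 1 - (1 + vA x) / (4 * P.H) := fun x hx => if_pos hx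
  have r2e : ∀ x, W.cls x = 2 → ρ x = 3/4 - (1 + vB x) / (8 * P'.H) := fun x hx => by
    simp only [ρ, hx, n21, if_false, if_true]
  have r3e : ∀ x, W.cls x = 3 → ρ x = 5/8 - v3 x := fun x hx => by
    simp only [ρ, hx, n31, n32, if_false, if_true]
  have r0e : ∀ x, W.cls x = 0 → ρ x = 1 - v0 x := fun x hx => by
    simp only [ρ, hx, n01, n02, n03, if_false]
  have v1e : ∀ x, W.cls x = 1 → v x = vA x := fun x hx => if_pos hx
  have v2e : ∀ x, W.cls x = 2 → v x = vB x := fun x hx => by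
    simp only [v, hx, n21, if_false, if_true]
  -- windows
  have hi1 : ∀ x, W.cls x = 1 → ρ x + h x / 2 ≤ 1 - ε / 4 := by
    intro x hx
    rw [r1e x hx, h1e x hx]
    have e1 := a1 x hx
    have e2 := mlo 2 x (hcA x hx).2.2.1
    have e3 := lA2 x hx
    have e4 : ε / 4 ≤ (1 + vA x - l x / 2) / (4 * P.H) := by
      rw [le_div_iff₀ (by positivity)]
      linarith
    have e5 : (1 + vA x - l x / 2) / (4 * P.H)
        = (1 + vA x) / (4 * P.H) - l x / (4 * P.H) / 2 := by ring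
    linarith
  have lo1 : ∀ x, W.cls x = 1 → 3/4 ≤ ρ x - h x / 2 := by
    intro x hx
    rw [r1e x hx, h1e x hx]
    have e1 := a3 x hx
    have e2 := mhi 2 x (hcA x hx).2.2.1
    have e3 := mhi 3 x (hcA x hx).2.2.2
    have e6 := max_le e2 e3
    have e4 : (1 + vA x + l x / 2) / (4 * P.H) ≤ 1/4 := by
      rw [div_le_iff₀ (by positivity)]
      linarith
    have e5 : (1 + vA x + l x / 2) / (4 * P.H)
        = (1 + vA x) / (4 * P.H) + l x / (4 * P.H) / 2 := by ring
    linarith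
  have hi2 : ∀ x, W.cls x = 2 → ρ x + h x / 2 ≤ 3/4 := by
    intro x hx
    rw [r2e x hx, h2e x hx]
    have e1 := b1 x hx
    have e2 := mlo 0 x (hcB x hx).1
    have e3 := (lB0 x hx).trans (hscale _ (ws_pos 0 x).le)
    have e6 : -1 ≤ (1 - P.a)⁻¹ * (W.ps 0 x - W.ws 0 x / 2) := by
      rw [inv_mul_eq_div, le_div_iff₀ ha]
      linarith
    have e4 : 0 ≤ (1 + vB x - l x / 2) / (8 * P'.H) := by
      apply div_nonneg _ (by positivity)
      have e7 : (1 - P.a)⁻¹ * (W.ps 0 x + W.ws 0 x / 2)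
          = (1 - P.a)⁻¹ * (W.ps 0 x - W.ws 0 x / 2) + (1 - P.a)⁻¹ * W.ws 0 x := by ring
      linarith
    have e5 : (1 + vB x - l x / 2) / (8 * P'.H)
        = (1 + vB x) / (8 * P'.H) - l x / (8 * P'.H) / 2 := by ring
    linarith
  have lo2 : ∀ x, W.cls x = 2 → 5/8 ≤ ρ x - h x / 2 := by
    intro x hx
    rw [r2e x hx, h2e x hx]
    have e1 := b3 x hx
    have e2 := mhi 0 x (hcB x hx).1
    have e3 := mhi 1 x (hcB x hx).2.1
    have e6 : max ((1 - P.a)⁻¹ * (W.ps 0 x + W.ws 0 x / 2))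
        ((1 - P.a)⁻¹ * (W.ps 1 x + W.ws 1 x / 2)) ≤ (1 - δ) / (1 - P.a) := by
      rw [inv_mul_eq_div, inv_mul_eq_div]
      exact max_le (div_le_div_of_nonneg_right e2 ha.le) (div_le_div_of_nonneg_right e3 ha.le)
    have e4 : (1 + vB x + l x / 2) / (8 * P'.H) ≤ 1/8 := by
      rw [div_le_iff₀ (by positivity)]
      linarith
    have e5 : (1 + vB x + l x / 2) / (8 * P'.H)
        = (1 + vB x) / (8 * P'.H) + l x / (8 * P'.H) / 2 := by ring
    linarith
  have hi0 : ∀ x, W.cls x = 0 → ρ x + h x / 2 ≤ 1 := by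
    intro x hx
    rw [r0e x hx, h0e x hx]
    have := c1 x hx
    linarith
  have lo0 : ∀ x, W.cls x = 0 → 1 - ε / 4 ≤ ρ x - h x / 2 := by
    intro x hx
    rw [r0e x hx, h0e x hx]
    have := c2 x hx
    linarith
  have hi3 : ∀ x, W.cls x = 3 → ρ x + h x / 2 ≤ 5/8 := by
    intro x hx
    rw [r3e x hx, h3e x hx]
    have := d1 x hx
    linarith
  have lo3 : ∀ x, W.cls x = 3 → 1/2 ≤ ρ x - h x / 2 := by
    intro x hx
    rw [r3e x hx, h3e x hx]
    have := d2 x hx
    linarith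
  have h0 : ∀ x, 0 < h x := by
    intro x
    have := hl x
    rcases fin4_cases (W.cls x) with hx | hx | hx | hx
    · rw [h0e x hx]; exact this
    · rw [h1e x hx]; positivity
    · rw [h2e x hx]; positivity
    · rw [h3e x hx]; exact this
  -- different classes
  have hlt : ∀ x x', W.cls x < W.cls x' → ρ x' + h x' / 2 ≤ ρ x - h x / 2 := by
    intro x x' hxx
    rcases fin4_cases (W.cls x) with hx | hx | hx | hx <;>
      rcases fin4_cases (W.cls x') with hx' | hx' | hx' | hx' <;>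
      first
      | (exfalso; rw [hx, hx'] at hxx; revert hxx; decide)
      | skip
    · linarith [lo0 x hx, hi1 x' hx']
    · linarith [lo0 x hx, hi2 x' hx']
    · linarith [lo0 x hx, hi3 x' hx']
    · linarith [lo1 x hx, hi2 x' hx']
    · linarith [lo1 x hx, hi3 x' hx']
    · linarith [lo2 x hx, hi3 x' hx']
  have habs : ∀ {A B c : ℝ}, 0 < c → |(A - B) / c| = |A - B| / c := fun {A B c} hc => by
    rw [abs_div, abs_of_pos hc]
  have hsep : ∀ x x', x ≠ x' → (h x + h x') / 2 ≤ |ρ x - ρ x'| := by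
    intro x x' hne
    rcases lt_trichotomy (W.cls x) (W.cls x') with hc | hc | hc
    · have := hlt x x' hc
      exact le_trans (by linarith) (le_abs_self _)
    · rcases fin4_cases (W.cls x) with hx | hx | hx | hx
      · have hx' : W.cls x' = 0 := by rw [← hc]; exact hx
        rw [h0e x hx, h0e x' hx', r0e x hx, r0e x' hx']
        have := c3 x x' hx hx' hne
        have e : 1 - v0 x - (1 - v0 x') = -(v0 x - v0 x') := by ring
        rw [e, abs_neg]; exact this
      · have hx' : W.cls x' = 1 := by rw [← hc]; exact hx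
        rw [h1e x hx, h1e x' hx', r1e x hx, r1e x' hx']
        have := a4 x x' hx hx' hne
        have e : 1 - (1 + vA x) / (4 * P.H) - (1 - (1 + vA x') / (4 * P.H))
            = -((vA x - vA x') / (4 * P.H)) := by ring
        rw [e, abs_neg, habs (by positivity)]
        have e2 : (l x / (4 * P.H) + l x' / (4 * P.H)) / 2 = ((l x + l x') / 2) / (4 * P.H) := by
          ring
        rw [e2]
        exact div_le_div_of_nonneg_right this (by positivity)
      · have hx' : W.cls x' = 2 := by rw [← hc]; exact hx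
        rw [h2e x hx, h2e x' hx', r2e x hx, r2e x' hx']
        have := b4 x x' hx hx' hne
        have e : 3/4 - (1 + vB x) / (8 * P'.H) - (3/4 - (1 + vB x') / (8 * P'.H))
            = -((vB x - vB x') / (8 * P'.H)) := by ring
        rw [e, abs_neg, habs (by positivity)]
        have e2 : (l x / (8 * P'.H) + l x' / (8 * P'.H)) / 2 = ((l x + l x') / 2) / (8 * P'.H) := by
          ring
        rw [e2]
        exact div_le_div_of_nonneg_right this (by positivity)
      · have hx' : W.cls x' = 3 := by rw [← hc]; exact hx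
        rw [h3e x hx, h3e x' hx', r3e x hx, r3e x' hx']
        have := d3 x x' hx hx' hne
        have e : 5/8 - v3 x - (5/8 - v3 x') = -(v3 x - v3 x') := by ring
        rw [e, abs_neg]; exact this
    · have := hlt x' x hc
      rw [abs_sub_comm]
      exact le_trans (by linarith) (le_abs_self _)
  have hnest : ∀ x x', Rl x x' → ρ x' < ρ x := by
    intro x x' hR
    have hi := hR1 x x' hR
    have hkk := hR2 x x' hR
    rcases (cls_le h2 hi).lt_or_eq with hc | hc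
    · have := hlt x x' hc
      have := h0 x
      have := h0 x'
      linarith
    · rcases fin4_cases (W.cls x) with hx | hx | hx | hx
      · have hx' : W.cls x' = 0 := by rw [← hc]; exact hx
        have := c4 x x' hx hx' hkk
        rw [r0e x hx, r0e x' hx']; linarith
      · have hx' : W.cls x' = 1 := by rw [← hc]; exact hx
        have := a5 x x' hx hx' hi
        rw [r1e x hx, r1e x' hx']
        have : (1 + vA x) / (4 * P.H) < (1 + vA x') / (4 * P.H) :=
          div_lt_div_of_pos_right (by linarith) (by positivity)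
        linarith
      · have hx' : W.cls x' = 2 := by rw [← hc]; exact hx
        have := b5 x x' hx hx' hi
        rw [r2e x hx, r2e x' hx']
        have : (1 + vB x) / (8 * P'.H) < (1 + vB x') / (8 * P'.H) :=
          div_lt_div_of_pos_right (by linarith) (by positivity)
        linarith
      · have hx' : W.cls x' = 3 := by rw [← hc]; exact hx
        have := d4 x x' hx hx' hkk
        rw [r3e x hx, r3e x' hx']; linarith
  refine ⟨⟨v, h, ρ, ⟨hC, h0, ?_, ?_, fun x x' hne _ => hsep x x' hne⟩, hnest, h1e,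
    fun x hx => by rw [r1e x hx, v1e x hx], lo1, fun x hx => by rw [v1e x hx]; exact a1 x hx,
    fun x hx => by rw [v1e x hx]; exact a2 x hx, fun x hx => ?_, fun x x' hx hx' hne => ?_, h2e,
    fun x hx => by rw [r2e x hx, v2e x hx], hi2, lo2, fun x hx => ?_, fun x hx => ?_,
    fun x hx => ?_, fun x hx => ?_⟩⟩
  · intro x
    rcases fin4_cases (W.cls x) with hx | hx | hx | hx
    · linarith [lo0 x hx]
    · linarith [lo1 x hx]
    · linarith [lo2 x hx]
    · exact lo3 x hx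
  · intro x
    rcases fin4_cases (W.cls x) with hx | hx | hx | hx
    · exact hi0 x hx
    · linarith [hi1 x hx]
    · linarith [hi2 x hx]
    · linarith [hi3 x hx]
  · rw [v1e x hx]
    have := a3 x hx
    linarith
  · rw [v1e x hx, v1e x' hx']
    exact a4 x x' hx hx' hne
  · rw [v2e x hx]
    have := b1 x hx
    rwa [inv_mul_eq_div] at this
  · rw [v2e x hx]
    have := b2 x hx
    rwa [inv_mul_eq_div] at this
  · rw [v2e x hx]
    have := b3 x hx
    rw [inv_mul_eq_div, inv_mul_eq_div] at this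
    linarith
  · rcases hx with hx | hx
    · exact h0e x hx
    · exact h3e x hx

end Bw

end Crest.Agent.R096.Fk_522
end

-- ▼ part R096/Fk6_522
section

/-!
# R096 (row 96), P4-FACE, combinatorics, part 6: nearly pure boundary words (helper522)
-/

set_option autoImplicit false
set_option linter.unusedSectionVars false

open Set Metric

namespace Crest.Agent.R096.Fk_522

open Crest.Agent.R096.Ce_537 Crest.Agent.R096.Bd_416 Crest.Agent.R096.Fsw_928

open scoped Classical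

namespace Bw

variable {ι : Type} [Fintype ι] {L : Lam (sph 2) ι} {W : Bw L}

/-! ### sums over ends and over chords -/

/-- total width of the bands of a chord -/
noncomputable def tot (W : Bw L) (x : ι) : ℝ := ∑ s, ∑ y ∈ W.en s x, W.w s y

lemma w_le_tot {s : Fin 4} {y : W.E s} : W.w s y ≤ W.tot (W.up s y) := by
  have h1 : W.w s y ≤ ∑ y' ∈ W.en s (W.up s y), W.w s y' :=
    Finset.single_le_sum (f := W.w s) (fun z _ => ((W.ed s).w0 z).le) (W.mem_en.2 rfl)
  refine h1.trans ?_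
  exact Finset.single_le_sum (f := fun s' => ∑ y' ∈ W.en s' (W.up s y), W.w s' y')
    (fun s' _ => Finset.sum_nonneg fun z _ => ((W.ed s').w0 z).le) (Finset.mem_univ s)


lemma exists_end_of_two (h2 : W.Two) (x : ι) : ∃ s, ∃ y : W.E s, W.up s y = x := by
  by_contra hc
  push Not at hc
  have h : ∀ s, W.n s x = 0 := fun s => by
    unfold n
    rw [Finset.card_eq_zero]
    ext y
    simp [mem_en, hc s y]
  have := h2 x
  rw [h 0, h 1, h 2, h 3] at this
  omega

lemma sum_fib (s : Fin 4) (S : Finset ι) :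
    ∑ x ∈ S, ∑ y ∈ W.en s x, W.w s y = ∑ y : W.E s with W.up s y ∈ S, W.w s y := by
  rw [← Finset.sum_fiberwise_of_maps_to (s := Finset.univ.filter fun y : W.E s => W.up s y ∈ S)
    (t := S) (g := W.up s) (fun y hy => (Finset.mem_filter.1 hy).2)]
  refine Finset.sum_congr rfl fun x hx => ?_
  refine Finset.sum_congr ?_ fun _ _ => rfl
  ext y
  rw [mem_en, Finset.mem_filter, Finset.mem_filter]
  constructor
  · rintro rfl; exact ⟨⟨Finset.mem_univ _, hx⟩, rfl⟩
  · exact fun h => h.2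

lemma sum_en_one {s : Fin 4} {x : ι} (h : W.n s x = 1) : ∑ y ∈ W.en s x, W.w s y = W.ws s x := by
  obtain ⟨y, e1, -, e3⟩ := exists_one h
  rw [e1, Finset.sum_singleton, e3]

lemma sum_ws {s : Fin 4} {S : Finset ι} (h : ∀ x ∈ S, W.n s x = 1) :
    ∑ x ∈ S, W.ws s x = ∑ y : W.E s with W.up s y ∈ S, W.w s y := by
  rw [← sum_fib]
  exact Finset.sum_congr rfl fun x hx => (sum_en_one (h x hx)).symm

lemma ps_up {s : Fin 4} {y : W.E s} (h : W.n s (W.up s y) = 1) : W.ps s (W.up s y) = W.p s y := by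
  obtain ⟨y', e1, e2, -⟩ := exists_one h
  have : y ∈ W.en s (W.up s y) := W.mem_en.2 rfl
  rw [e1, Finset.mem_singleton] at this
  rw [e2, this]


/-- main chords below a height -/
lemma sum_below {s : Fin 4} {M : Finset ι} (hn : ∀ x ∈ M, W.n s x = 1) (t : ℝ) :
    ∑ x ∈ M with W.ps s x ≤ t, W.ws s x
      = ∑ y : W.E s with (W.up s y ∈ M ∧ W.p s y ≤ t), W.w s y := by
  rw [sum_ws (fun x hx => hn x (Finset.mem_filter.1 hx).1)]
  refine Finset.sum_congr ?_ fun _ _ => rfl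
  ext y
  simp only [Finset.mem_filter, Finset.mem_univ, true_and]
  constructor
  · rintro ⟨h1, h2⟩
    rw [ps_up (hn _ h1)] at h2
    exact ⟨h1, h2⟩
  · rintro ⟨h1, h2⟩
    refine ⟨h1, ?_⟩
    rw [ps_up (hn _ h1)]; exact h2

/-! ### closeness of the two ends of a main chord -/

/-- upper bound of a position by the total width -/
lemma pos_le {s : Fin 4} {δ η : ℝ}
    (mhi : ∀ y, W.p s y + W.w s y / 2 ≤ 1 - δ) (full : 2 * (1 - δ) - η ≤ ∑ y, W.w s y)
    (y : W.E s) : W.p s y + W.w s y / 2 ≤ -(1 - δ) + η + ∑ z with W.p s z ≤ W.p s y, W.w s z := by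
  have h1 : ∑ z with ¬ W.p s z ≤ W.p s y, W.w s z ≤ (1 - δ) - (W.p s y + W.w s y / 2) := by
    refine sum_le_of_disjoint _ (W.p s) (W.w s) (by linarith [mhi y]) ?_ (fun z _ => mhi z)
      (fun z _ => ((W.ed s).w0 z).le) (fun z _ z' _ hne => ((W.ed s).sep z z' hne).le)
    intro z hz
    have hz' := not_le.1 (Finset.mem_filter.1 hz).2
    have hne : z ≠ y := by rintro rfl; exact lt_irrefl _ hz'
    have h2 := (W.ed s).sep z y hne
    rw [abs_of_pos (by linarith)] at h2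
    linarith
  have h2 := Finset.sum_filter_add_sum_filter_not (Finset.univ : Finset (W.E s))
    (fun z => W.p s z ≤ W.p s y) (W.w s)
  linarith

/-- lower bound of a position -/
lemma le_pos {s : Fin 4} {δ : ℝ} (mlo : ∀ y, -(1 - δ) ≤ W.p s y - W.w s y / 2) (y : W.E s) :
    -(1 - δ) + ∑ z with W.p s z ≤ W.p s y, W.w s z ≤ W.p s y + W.w s y / 2 := by
  have h0 := (W.ed s).w0 y
  have h1 : ∑ z with W.p s z ≤ W.p s y, W.w s z ≤ (W.p s y + W.w s y / 2) - (-(1 - δ)) := by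
    refine sum_le_of_disjoint _ (W.p s) (W.w s) (by linarith [mlo y]) (fun z _ => mlo z) ?_
      (fun z _ => ((W.ed s).w0 z).le) (fun z _ z' _ hne => ((W.ed s).sep z z' hne).le)
    intro z hz
    have hz' := (Finset.mem_filter.1 hz).2
    by_cases hne : z = y
    · rw [hne]
    have h2 := (W.ed s).sep z y hne
    rw [abs_sub_comm, abs_of_nonneg (by linarith)] at h2
    linarith
  linarith

/-- **the two ends of a main chord have nearly the same height** -/
theorem close {s s' : Fin 4} {M : Finset ι} {wt : ι → ℝ} {ν : Fin 4 → ℝ} {δ η : ℝ}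
    (hδ0 : 0 ≤ δ) (hη : 0 ≤ η)
    (hn : ∀ x ∈ M, W.n s x = 1) (hn' : ∀ x ∈ M, W.n s' x = 1) (wt0 : ∀ x, 0 < wt x)
    (wid : ∀ s y, W.w s y = ν s * wt (W.up s y))
    (mlo : ∀ s y, -(1 - δ) ≤ W.p s y - W.w s y / 2)
    (mhi : ∀ s y, W.p s y + W.w s y / 2 ≤ 1 - δ) (full : 2 * (1 - δ) - η ≤ ∑ y, W.w s y)
    (bad : ∑ y : W.E s with W.up s y ∉ M, W.w s y ≤ η) (hν : |ν s - ν s'| ≤ η * ν s')
    (ord : ∀ x ∈ M, ∀ x' ∈ M, W.ps s x < W.ps s x' → W.ps s' x < W.ps s' x') {x : ι}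
    (hx : x ∈ M) : W.ps s x + W.ws s x / 2 ≤ W.ps s' x + W.ws s' x / 2 + 4 * η := by
  obtain ⟨y, e1, e2, e3⟩ := exists_one (hn x hx)
  obtain ⟨y', e1', e2', e3'⟩ := exists_one (hn' x hx)
  have h1 := pos_le (W := W) (mhi s) full y
  have h2 := le_pos (W := W) (mlo s') y'
  rw [e2, e3, e2', e3']
  -- the ends below
  have h3 : ∑ z with W.p s z ≤ W.p s y, W.w s z
      ≤ ∑ z with (W.up s z ∈ M ∧ W.p s z ≤ W.p s y), W.w s z + η := by
    have : ∑ z with W.p s z ≤ W.p s y, W.w s z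
        ≤ ∑ z with (W.up s z ∈ M ∧ W.p s z ≤ W.p s y), W.w s z +
          ∑ z : W.E s with W.up s z ∉ M, W.w s z := by
      rw [← Finset.sum_union]
      · refine Finset.sum_le_sum_of_subset_of_nonneg ?_ fun z _ _ => ((W.ed s).w0 z).le
        intro z hz
        rw [Finset.mem_union, Finset.mem_filter, Finset.mem_filter]
        have hz' := (Finset.mem_filter.1 hz).2
        by_cases h : W.up s z ∈ M
        · exact Or.inl ⟨Finset.mem_univ _, h, hz'⟩
        · exact Or.inr ⟨Finset.mem_univ _, h⟩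
      · rw [Finset.disjoint_left]
        intro z hz hz'
        exact (Finset.mem_filter.1 hz').2 (Finset.mem_filter.1 hz).2.1
    linarith
  have h4 : ∑ z with (W.up s' z ∈ M ∧ W.p s' z ≤ W.p s' y'), W.w s' z
      ≤ ∑ z with W.p s' z ≤ W.p s' y', W.w s' z := by
    refine Finset.sum_le_sum_of_subset_of_nonneg ?_ fun z _ _ => ((W.ed s').w0 z).le
    intro z hz
    rw [Finset.mem_filter] at hz ⊢
    exact ⟨hz.1, hz.2.2⟩
  rw [← sum_below hn] at h3
  rw [← sum_below hn'] at h4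
  -- the same set
  have hset : (M.filter fun x' => W.ps s x' ≤ W.p s y) = M.filter fun x' => W.ps s' x' ≤ W.p s' y' := by
    ext x'
    rw [Finset.mem_filter, Finset.mem_filter, ← e2, ← e2']
    refine and_congr_right fun hx' => ?_
    constructor
    · intro h
      rcases h.lt_or_eq with h | h
      · exact (ord x' hx' x hx h).le
      · by_cases hne : x' = x
        · rw [hne]
        · exfalso
          have h5 := ps_sep (hn x' hx') (hn x hx) hne
          rw [h, sub_self, abs_zero] at h5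
          linarith [ws_pos (W := W) s x, ws_pos (W := W) s x']
    · intro h
      by_contra hc
      have h5 := ord x hx x' hx' (not_le.1 hc)
      linarith
  rw [hset] at h3
  have hws : ∀ {s : Fin 4}, ∀ x' ∈ M, W.n s x' = 1 → W.ws s x' = ν s * wt x' := by
    intro s x' _ hn1
    obtain ⟨z, f1, -, f3⟩ := exists_one hn1
    have hz : z ∈ W.en s x' := by rw [f1]; simp
    rw [mem_en] at hz
    rw [f3, wid s z, hz]
  set B := M.filter fun x' => W.ps s' x' ≤ W.p s' y' with hB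
  have h5 : ∑ x' ∈ B, W.ws s x' = ν s * ∑ x' ∈ B, wt x' := by
    rw [Finset.mul_sum]
    refine Finset.sum_congr rfl fun x' hx' => ?_
    have := (Finset.mem_filter.1 hx').1
    exact hws x' this (hn x' this)
  have h6 : ∑ x' ∈ B, W.ws s' x' = ν s' * ∑ x' ∈ B, wt x' := by
    rw [Finset.mul_sum]
    refine Finset.sum_congr rfl fun x' hx' => ?_
    have := (Finset.mem_filter.1 hx').1
    exact hws x' this (hn' x' this)
  have h7 : 0 ≤ ∑ x' ∈ B, wt x' := Finset.sum_nonneg fun x' _ => (wt0 x').le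
  have h8 : ν s' * ∑ x' ∈ B, wt x' ≤ 2 := by
    rw [← h6]
    have := h4
    have h9 := mhi s' y'
    linarith
  have h9 : (ν s - ν s') * ∑ x' ∈ B, wt x' ≤ 2 * η := by
    calc (ν s - ν s') * ∑ x' ∈ B, wt x' ≤ (η * ν s') * ∑ x' ∈ B, wt x' :=
          mul_le_mul_of_nonneg_right ((le_abs_self _).trans hν) h7
      _ = η * (ν s' * ∑ x' ∈ B, wt x') := by ring
      _ ≤ η * 2 := mul_le_mul_of_nonneg_left h8 hη
      _ = _ := by ring
  rw [h5] at h3
  rw [h6] at h4
  have h10 : (ν s - ν s') * ∑ x' ∈ B, wt x'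
      = ν s * ∑ x' ∈ B, wt x' - ν s' * ∑ x' ∈ B, wt x' := by ring
  linarith

/-! ### two ends -/

/-- **the bands of a chord on the circle** -/
theorem ends2 (h2 : W.Two) (x : ι) : Ends2 L x (W.tot x) := by
  let S : Finset (Σ s : Fin 4, W.E s) := Finset.univ.filter fun e => W.up e.1 e.2 = x
  have hS : S.card = 2 := by
    have e : S = (Finset.univ : Finset (Fin 4)).sigma fun s => W.en s x := by
      ext ⟨s, y⟩
      simp [S, mem_en]
    rw [e, Finset.card_sigma]
    have := h2 x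
    simp only [Fin.sum_univ_four]
    unfold n at this
    omega
  obtain ⟨e1, e2, hne, hS'⟩ := Finset.card_eq_two.1 hS
  refine ⟨![e1.1, e2.1], ![W.p e1.1 e1.2, W.p e2.1 e2.2], ?_⟩
  intro ω hω hc
  obtain ⟨s, t, ht, rfl⟩ := exists_sd hω
  obtain ⟨y, hy, hyt⟩ := W.exists_end ht hc
  have hw : W.w s y ≤ W.tot x := by rw [← hy]; exact w_le_tot
  have h0 := (W.ed s).w0 y
  have hmem : (⟨s, y⟩ : Σ s : Fin 4, W.E s) ∈ S := by simp [S, hy]
  rw [hS', Finset.mem_insert, Finset.mem_singleton] at hmem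
  rcases hmem with h | h
  · refine ⟨0, t, ?_, ?_, ht⟩
    · show sd s t = sd e1.1 t
      rw [← h]
    · show |t - W.p e1.1 e1.2| ≤ W.tot x
      rw [← h]
      show |t - W.p s y| ≤ W.tot x
      linarith
  · refine ⟨1, t, ?_, ?_, ht⟩
    · show sd s t = sd e2.1 t
      rw [← h]
    · show |t - W.p e2.1 e2.2| ≤ W.tot x
      rw [← h]
      show |t - W.p s y| ≤ W.tot x
      linarith

end Bw

end Crest.Agent.R096.Fk_522
end

-- ▼ part R096/Fk7_522
section

/-!
# R096 (row 96), P4-FACE, combinatorics, part 7: Lipschitz constants on the circle (helper522)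
-/

set_option autoImplicit false
set_option linter.unusedSectionVars false

open Set Metric Filter Topology

namespace Crest.Agent.R096.Fk_522

open Crest.Agent.R096.Ce_537 Crest.Agent.R096.Bd_416 Crest.Agent.R096.Fsw_928
open Crest.Agent.R096.Pc_117 (LL)

open scoped Classical

/-- a ramp is constant near a point off its band -/
lemma ramp_ev {w p t0 : ℝ} (hw : 0 < w) (h : w / 2 < |t0 - p|) :
    ∀ᶠ t in 𝓝 t0, ramp w p t = ramp w p t0 := by
  rcases lt_abs.1 h with h1 | h1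
  · have h2 : ∀ᶠ t in 𝓝 t0, p + w / 2 < t := lt_mem_nhds (by linarith)
    filter_upwards [h2] with t ht
    rw [ramp_high hw ht.le, ramp_high hw (by linarith)]
  · have h2 : ∀ᶠ t in 𝓝 t0, t < p - w / 2 := gt_mem_nhds (by linarith)
    filter_upwards [h2] with t ht
    rw [ramp_low hw ht.le, ramp_low hw (by linarith)]

lemma abs_two_ramp {w p t : ℝ} : |-2 * ramp w p t| ≤ 1 := by
  have h := (ramp_mem : ramp w p t ∈ I2)
  have h1 : -1/2 ≤ ramp w p t := h.1
  have h2 : ramp w p t ≤ 1/2 := h.2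
  rw [abs_le]
  constructor <;> linarith

/-- a product of ramps with disjoint bands -/
lemma prod_ev {E : Type} [Fintype E] {w p : E → ℝ} (ed : Ed w p) (S : Finset E) {κ : ℝ} (hκ : 0 ≤ κ)
    (hw : ∀ y ∈ S, 1 / w y ≤ κ) (t0 : ℝ) :
    ∀ᶠ t in 𝓝 t0, |∏ y ∈ S, (-2 * ramp (w y) (p y) t) - ∏ y ∈ S, (-2 * ramp (w y) (p y) t0)|
      ≤ 2 * κ * |t - t0| := by
  by_cases hex : ∃ y0 ∈ S, |t0 - p y0| ≤ w y0 / 2
  · obtain ⟨y0, hy0, h0⟩ := hex
    have h1 : ∀ᶠ t in 𝓝 t0, ∀ y ∈ S.erase y0, ramp (w y) (p y) t = ramp (w y) (p y) t0 := by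
      rw [Filter.eventually_all_finset]
      intro y hy
      have hne := Finset.ne_of_mem_erase hy
      refine ramp_ev (ed.w0 y) ?_
      by_contra hc
      exact ed.disj hne (not_lt.1 hc) h0 rfl
    filter_upwards [h1] with t ht
    rw [← Finset.mul_prod_erase S _ hy0, ← Finset.mul_prod_erase S _ hy0]
    have e : ∏ y ∈ S.erase y0, (-2 * ramp (w y) (p y) t)
        = ∏ y ∈ S.erase y0, (-2 * ramp (w y) (p y) t0) :=
      Finset.prod_congr rfl fun y hy => by rw [ht y hy]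
    rw [e, ← sub_mul, abs_mul]
    have h2 : |∏ y ∈ S.erase y0, (-2 * ramp (w y) (p y) t0)| ≤ 1 :=
      abs_prod_le fun y _ => abs_two_ramp
    have h3 : |-2 * ramp (w y0) (p y0) t - -2 * ramp (w y0) (p y0) t0| ≤ 2 * κ * |t - t0| := by
      have e2 : -2 * ramp (w y0) (p y0) t - -2 * ramp (w y0) (p y0) t0
          = 2 * (- ramp (w y0) (p y0) t - - ramp (w y0) (p y0) t0) := by ring
      rw [e2, abs_mul, abs_two]
      have := abs_ramp_sub' (ρ := p y0) (r := t) (r' := t0) (ed.w0 y0)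
      have h4 := mul_le_mul_of_nonneg_right (hw y0 hy0) (abs_nonneg (t - t0))
      nlinarith
    calc _ ≤ 2 * κ * |t - t0| * 1 := mul_le_mul h3 h2 (abs_nonneg _) (by positivity)
      _ = _ := mul_one _
  · push Not at hex
    have h1 : ∀ᶠ t in 𝓝 t0, ∀ y ∈ S, ramp (w y) (p y) t = ramp (w y) (p y) t0 := by
      rw [Filter.eventually_all_finset]
      intro y hy
      exact ramp_ev (ed.w0 y) (hex y hy)
    filter_upwards [h1] with t ht
    have e : ∏ y ∈ S, (-2 * ramp (w y) (p y) t) = ∏ y ∈ S, (-2 * ramp (w y) (p y) t0) :=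
      Finset.prod_congr rfl fun y hy => by rw [ht y hy]
    rw [e, sub_self, abs_zero]
    positivity

/-- a side of the square -/
def Sd (s : Fin 4) : Set (Fin 2 → ℝ) := {ω | ∃ t, |t| ≤ 1 ∧ ω = sd s t}

lemma Sd_eq (s : Fin 4) : Sd s = sd s '' Icc (-1) 1 := by
  ext ω
  constructor
  · rintro ⟨t, ht, rfl⟩; exact ⟨t, abs_le.1 ht, rfl⟩
  · rintro ⟨t, ht, rfl⟩; exact ⟨t, abs_le.2 ht, rfl⟩

lemma continuous_sd (s : Fin 4) : Continuous (sd s) := by
  refine continuous_pi fun i => ?_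
  fin_cases i <;> fin_cases s <;> simp [sd] <;> fun_prop

lemma isClosed_Sd (s : Fin 4) : IsClosed (Sd s) := by
  rw [Sd_eq]
  exact (isCompact_Icc.image (continuous_sd s)).isClosed

lemma sph_eq_Sd : sph 2 = ⋃ s ∈ (Set.univ : Set (Fin 4)), Sd s := by
  ext ω
  constructor
  · intro h
    obtain ⟨s, t, ht, e⟩ := exists_sd h
    exact mem_biUnion (mem_univ s) ⟨t, ht, e⟩
  · intro h
    obtain ⟨s, -, t, ht, rfl⟩ := mem_iUnion₂.1 h
    exact sd_mem s ht

/-- the coordinate along a side -/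
def co1 (s : Fin 4) (ω : Fin 2 → ℝ) : ℝ := if s = 0 ∨ s = 1 then ω 0 else ω 1

lemma co1_sd (s : Fin 4) (t : ℝ) : co1 s (sd s t) = t := by
  fin_cases s <;> simp [co1, sd]

lemma abs_co1 (s : Fin 4) (ω ω' : Fin 2 → ℝ) : |co1 s ω - co1 s ω'| ≤ dist ω ω' := by
  unfold co1
  split_ifs
  · rw [← Real.dist_eq]; exact dist_le_pi_dist ω ω' 0
  · rw [← Real.dist_eq]; exact dist_le_pi_dist ω ω' 1

lemma continuous_co1 (s : Fin 4) : Continuous (co1 s) := by
  unfold co1
  split_ifs <;> fun_prop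

namespace Bw

variable {ι : Type} [Fintype ι] {L : Lam (sph 2) ι} {W : Bw L}

/-- **Lipschitz constants of the band functions on the circle** -/
theorem lip_c {x : ι} {κ : ℝ} (hκ : 0 ≤ κ) (hw : ∀ s, ∀ y : W.E s, W.up s y = x → 1 / W.w s y ≤ κ)
    {ω : Fin 2 → ℝ} (_ : ω ∈ sph 2) : LL κ (L.c x) (sph 2) ω := by
  suffices h : LL κ (L.c x) (⋃ s ∈ (Set.univ : Set (Fin 4)), Sd s) ω from
    h.mono_set sph_eq_Sd.subset
  refine LL.biUnion Set.finite_univ (fun s _ => isClosed_Sd s) ?_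
  rintro s - ⟨t0, ht0, rfl⟩
  have h1 := prod_ev (W.ed s) (Finset.univ.filter fun y => W.up s y = x) hκ
    (fun y hy => hw s y (Finset.mem_filter.1 hy).2) t0
  have h2 : Tendsto (co1 s) (𝓝[Sd s] (sd s t0)) (𝓝 t0) := by
    have := ((continuous_co1 s).tendsto (sd s t0)).mono_left
      (nhdsWithin_le_nhds (s := Sd s))
    rwa [co1_sd] at this
  filter_upwards [h2.eventually h1, self_mem_nhdsWithin] with ω' hω' hS
  obtain ⟨t, ht, rfl⟩ := hS
  rw [co1_sd] at hω'
  have e1 := W.c_eq s x t ht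
  have e2 := W.c_eq s x t0 ht0
  have e3 : |-2 * L.c x (sd s t) - -2 * L.c x (sd s t0)| ≤ 2 * κ * |t - t0| := by
    rw [e1, e2, ← mul_sub, abs_mul, abs_sg, one_mul]
    exact hω'
  have e4 : -2 * L.c x (sd s t) - -2 * L.c x (sd s t0)
      = -2 * (L.c x (sd s t) - L.c x (sd s t0)) := by ring
  rw [e4, abs_mul] at e3
  have e5 : |(-2:ℝ)| = 2 := by norm_num
  rw [e5] at e3
  have e6 : |t - t0| ≤ dist (sd s t) (sd s t0) := by
    have := abs_co1 s (sd s t) (sd s t0)
    rwa [co1_sd, co1_sd] at this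
  have e7 := mul_le_mul_of_nonneg_left e6 hκ
  linarith

end Bw

end Crest.Agent.R096.Fk_522
end

-- ▼ part R096/Fk8_522
section

/-!
# R096 (row 96), P4-FACE, combinatorics, part 8: nearly pure words: the input of the `L^p`
estimates (helper522)
-/

set_option autoImplicit false
set_option linter.unusedSectionVars false

open Set Metric Filter Topology

namespace Crest.Agent.R096.Fk_522

open Crest.Agent.R096.Ce_537 Crest.Agent.R096.Bd_416 Crest.Agent.R096.Fsw_928
open Crest.Agent.R096.Pc_117 (LL)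

open scoped Classical

/-- **a nearly pure boundary word** (`MA`, `MB` = main left-right, bottom-top chords; `FA`, `FB` =
the main chords fill the sides) -/
structure Pure {ι : Type} [Fintype ι] {L : Lam (sph 2) ι} (W : Bw L) (wt : ι → ℝ) (ν : Fin 4 → ℝ)
    (FA FB : Prop) (δ η : ℝ) (MA MB : Finset ι) : Prop where
  two : W.Two
  wt0 : ∀ x, 0 < wt x
  ν0 : ∀ s, 0 < ν s
  wid : ∀ s y, W.w s y = ν s * wt (W.up s y)
  mlo : ∀ s y, -(1 - δ) ≤ W.p s y - W.w s y / 2
  mhi : ∀ s y, W.p s y + W.w s y / 2 ≤ 1 - δ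
  small : ∀ s y, W.w s y ≤ η
  clA : ∀ x ∈ MA, W.cls x = 1
  clB : ∀ x ∈ MB, W.cls x = 2
  ordA : ∀ x ∈ MA, ∀ x' ∈ MA, W.ps 2 x < W.ps 2 x' → W.ps 3 x < W.ps 3 x'
  ordB : ∀ x ∈ MB, ∀ x' ∈ MB, W.ps 0 x < W.ps 0 x' → W.ps 1 x < W.ps 1 x'
  bad : ∀ s, ∑ y : W.E s with (W.up s y ∉ MA ∧ W.up s y ∉ MB), W.w s y ≤ η
  eA : ¬ FA → MA = ∅
  eB : ¬ FB → MB = ∅
  fullA : FA → ∀ s, (s = 2 ∨ s = 3) → 2 * (1 - δ) - η ≤ ∑ y, W.w s y
  fullB : FB → ∀ s, (s = 0 ∨ s = 1) → 2 * (1 - δ) - η ≤ ∑ y, W.w s y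
  νA : FA → |ν 2 - ν 3| ≤ η * ν 2 ∧ |ν 2 - ν 3| ≤ η * ν 3
  νB : FB → |ν 0 - ν 1| ≤ η * ν 0 ∧ |ν 0 - ν 1| ≤ η * ν 1

/-- the smallest widths -/
noncomputable def αA (ν : Fin 4 → ℝ) : ℝ := min (ν 2) (ν 3)
noncomputable def αB (ν : Fin 4 → ℝ) : ℝ := min (ν 0) (ν 1)
noncomputable def αX (ν : Fin 4 → ℝ) : ℝ := min (αA ν) (αB ν)

lemma αX_le (ν : Fin 4 → ℝ) (s : Fin 4) : αX ν ≤ ν s := by
  unfold αX αA αB
  fin_cases s
  · exact (min_le_right _ _).trans (min_le_left _ _)
  · exact (min_le_right _ _).trans (min_le_right _ _)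
  · exact (min_le_left _ _).trans (min_le_left _ _)
  · exact (min_le_left _ _).trans (min_le_right _ _)

/-- the gaps -/
noncomputable def lg {ι : Type} {L : Lam (sph 2) ι} (W : Bw L) (wt : ι → ℝ) (ν : Fin 4 → ℝ)
    (x : ι) : ℝ :=
  if W.cls x = 1 then αA ν * wt x else if W.cls x = 2 then αB ν * wt x else αX ν * wt x

namespace Pure

open Bw

variable {ι : Type} [Fintype ι] {L : Lam (sph 2) ι} {W : Bw L} {wt : ι → ℝ} {ν : Fin 4 → ℝ}
  {FA FB : Prop} {δ η : ℝ} {MA MB : Finset ι} (H : Pure W wt ν FA FB δ η MA MB)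
include H

lemma αA0 : 0 < αA ν := lt_min (H.ν0 2) (H.ν0 3)
lemma αB0 : 0 < αB ν := lt_min (H.ν0 0) (H.ν0 1)
lemma αX0 : 0 < αX ν := lt_min H.αA0 H.αB0

lemma ws_eq {s : Fin 4} {x : ι} (h : W.n s x = 1) : W.ws s x = ν s * wt x := by
  obtain ⟨z, f1, -, f3⟩ := exists_one h
  have hz : z ∈ W.en s x := by rw [f1]; simp
  rw [mem_en] at hz
  rw [f3, H.wid s z, hz]

lemma ws_small {s : Fin 4} {x : ι} (h : W.n s x = 1) : W.ws s x ≤ η := by
  obtain ⟨z, -, -, f3⟩ := exists_one h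
  rw [f3]; exact H.small s z

lemma ws_lo {s : Fin 4} {x : ι} (h : W.n s x = 1) : -(1 - δ) ≤ W.ps s x - W.ws s x / 2 := by
  obtain ⟨z, -, f2, f3⟩ := exists_one h
  rw [f2, f3]; exact H.mlo s z

lemma ws_hi {s : Fin 4} {x : ι} (h : W.n s x = 1) : W.ps s x + W.ws s x / 2 ≤ 1 - δ := by
  obtain ⟨z, -, f2, f3⟩ := exists_one h
  rw [f2, f3]; exact H.mhi s z

lemma lg_one {x : ι} (h : W.cls x = 1) : lg W wt ν x = αA ν * wt x := if_pos h

lemma lg_two {x : ι} (h : W.cls x = 2) : lg W wt ν x = αB ν * wt x := by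
  have n21 : ¬ ((2 : Fin 4) = 1) := by decide
  unfold lg
  rw [h, if_neg n21, if_pos rfl]

lemma lg_pos (x : ι) : 0 < lg W wt ν x := by
  have h := H.wt0 x
  unfold lg
  split_ifs
  · exact mul_pos H.αA0 h
  · exact mul_pos H.αB0 h
  · exact mul_pos H.αX0 h

lemma lg_ge (x : ι) : αX ν * wt x ≤ lg W wt ν x := by
  have h := H.wt0 x
  unfold lg
  split_ifs
  · exact mul_le_mul_of_nonneg_right (min_le_left _ _) h.le
  · exact mul_le_mul_of_nonneg_right (min_le_right _ _) h.le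
  · exact le_rfl

/-- the gap is at most the width of some end -/
lemma lg_le (x : ι) : ∃ s, ∃ y : W.E s, W.up s y = x ∧ lg W wt ν x ≤ W.w s y := by
  have h := (H.wt0 x).le
  by_cases h1 : W.cls x = 1
  · obtain ⟨-, -, a2, -⟩ := cls_one H.two h1
    obtain ⟨z, f1, -, -⟩ := exists_one a2
    have hz : z ∈ W.en 2 x := by rw [f1]; simp
    rw [mem_en] at hz
    refine ⟨2, z, hz, ?_⟩
    rw [H.lg_one h1, H.wid, hz]
    exact mul_le_mul_of_nonneg_right (min_le_left _ _) h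
  by_cases h2 : W.cls x = 2
  · obtain ⟨a0, -, -, -⟩ := cls_two H.two h2
    obtain ⟨z, f1, -, -⟩ := exists_one a0
    have hz : z ∈ W.en 0 x := by rw [f1]; simp
    rw [mem_en] at hz
    refine ⟨0, z, hz, ?_⟩
    rw [H.lg_two h2, H.wid, hz]
    exact mul_le_mul_of_nonneg_right (min_le_left _ _) h
  · obtain ⟨s, y, hy⟩ := exists_end_of_two H.two x
    refine ⟨s, y, hy, ?_⟩
    unfold lg
    rw [if_neg h1, if_neg h2, H.wid, hy]
    exact mul_le_mul_of_nonneg_right (αX_le ν s) h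

lemma lg_small (x : ι) : lg W wt ν x ≤ η := by
  obtain ⟨s, y, -, h⟩ := H.lg_le x
  exact h.trans (H.small s y)

lemma lg_tot (x : ι) : lg W wt ν x ≤ W.tot x := by
  obtain ⟨s, y, hy, h⟩ := H.lg_le x
  refine h.trans ?_
  rw [← hy]; exact w_le_tot

/-- **the chords which are not main chords** -/
lemma sum_tot {S : Finset ι} (hS : ∀ x ∈ S, x ∉ MA ∧ x ∉ MB) : ∑ x ∈ S, W.tot x ≤ 4 * η := by
  unfold Bw.tot
  rw [Finset.sum_comm]
  have h : ∀ s : Fin 4, ∑ x ∈ S, ∑ y ∈ W.en s x, W.w s y ≤ η := by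
    intro s
    rw [sum_fib]
    refine le_trans (Finset.sum_le_sum_of_subset_of_nonneg ?_ fun z _ _ => ((W.ed s).w0 z).le)
      (H.bad s)
    intro y hy
    rw [Finset.mem_filter] at hy ⊢
    exact ⟨hy.1, hS _ hy.2⟩
  refine (Finset.sum_le_sum fun s _ => h s).trans ?_
  simp

lemma sum_lg {S : Finset ι} (hS : ∀ x ∈ S, x ∉ MA ∧ x ∉ MB) :
    ∑ x ∈ S, lg W wt ν x ≤ 4 * η :=
  (Finset.sum_le_sum fun x _ => H.lg_tot x).trans (H.sum_tot hS)

lemma notMem_of_cls {x : ι} (h1 : W.cls x ≠ 1) (h2 : W.cls x ≠ 2) : x ∉ MA ∧ x ∉ MB :=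
  ⟨fun h => h1 (H.clA x h), fun h => h2 (H.clB x h)⟩

lemma notMem_B {x : ι} (h1 : W.cls x = 1) : x ∉ MB := fun h => by
  have := H.clB x h
  rw [h1] at this
  exact absurd this (by decide)

lemma notMem_A {x : ι} (h1 : W.cls x = 2) : x ∉ MA := fun h => by
  have := H.clA x h
  rw [h1] at this
  exact absurd this (by decide)

/-- **the depths exist** -/
theorem exists_dpt (P P' : Par) {K b ε : ℝ} (hC : Cst K b) (k0 : ι → ℕ)
    (hk : Function.Injective k0) (Rl : ι → ι → Prop) (hR1 : ∀ x x', Rl x x' → Inc L x x')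
    (hR2 : ∀ x x', Rl x x' → k0 x' < k0 x) (hη : 0 ≤ η)
    (hεδ : P.H * ε ≤ δ) (haδ : P.a ≤ δ) (hε : 28 * η ≤ ε) (hε1 : ε ≤ 1/2)
    (hHA : 2 - δ + 6 * η ≤ P.H) (hHB : 1 + (1 - δ) / (1 - P.a) + 6 * η ≤ P'.H) :
    Nonempty (Dpt W P P' K b (lg W wt ν) Rl (6 * η) (6 * η)) := by
  have n03 : ¬ ((0 : Fin 4) = 1) := by decide
  have n02 : ¬ ((0 : Fin 4) = 2) := by decide
  have n31 : ¬ ((3 : Fin 4) = 1) := by decide
  have n32 : ¬ ((3 : Fin 4) = 2) := by decide
  refine Bw.exists_dpt H.two P P' hC k0 hk Rl hR1 hR2 (lg W wt ν) H.lg_pos ?_ ?_ ?_ ?_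
    (fun s x h => H.ws_lo h) (fun s x h => H.ws_hi h) hεδ haδ (by linarith) (by linarith) MA MB
    H.ordA H.ordB (lam := η) H.lg_small ?_ ?_ ?_ ?_ hHA hHB
  · intro x hx
    rw [H.lg_one hx, H.ws_eq (cls_one H.two hx).2.2.1]
    exact mul_le_mul_of_nonneg_right (min_le_left _ _) (H.wt0 x).le
  · intro x hx
    rw [H.lg_one hx, H.ws_eq (cls_one H.two hx).2.2.2]
    exact mul_le_mul_of_nonneg_right (min_le_right _ _) (H.wt0 x).le
  · intro x hx
    rw [H.lg_two hx, H.ws_eq (cls_two H.two hx).1]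
    exact mul_le_mul_of_nonneg_right (min_le_left _ _) (H.wt0 x).le
  · intro x hx
    rw [H.lg_two hx, H.ws_eq (cls_two H.two hx).2.1]
    exact mul_le_mul_of_nonneg_right (min_le_right _ _) (H.wt0 x).le
  · have := H.sum_lg (S := W.cl4 1 \ MA) (fun x hx => by
      rw [Finset.mem_sdiff, mem_cl4] at hx
      exact ⟨hx.2, H.notMem_B hx.1⟩)
    linarith
  · have := H.sum_lg (S := W.cl4 2 \ MB) (fun x hx => by
      rw [Finset.mem_sdiff, mem_cl4] at hx
      exact ⟨H.notMem_A hx.1, hx.2⟩)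
    linarith
  · have := H.sum_lg (S := W.cl4 0) (fun x hx => by
      rw [mem_cl4] at hx
      exact H.notMem_of_cls (by rw [hx]; decide) (by rw [hx]; decide))
    linarith
  · have := H.sum_lg (S := W.cl4 3) (fun x hx => by
      rw [mem_cl4] at hx
      exact H.notMem_of_cls (by rw [hx]; decide) (by rw [hx]; decide))
    linarith

end Pure

end Crest.Agent.R096.Fk_522
end

-- ▼ part R096/Fk9_522

/-!
# R096 (row 96), P4-FACE, combinatorics, part 9: `ClA`, `ClB`, `Crd` of a nearly pure word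
(helper522)
-/

set_option autoImplicit false
set_option linter.unusedSectionVars false

open Set Metric Filter Topology

namespace Crest.Agent.R096.Fk_522

open Crest.Agent.R096.Ce_537 Crest.Agent.R096.Bd_416 Crest.Agent.R096.Fsw_928
open Crest.Agent.R096.Pc_117 (LL)

open scoped Classical

namespace Pure

open Bw

variable {ι : Type} [Fintype ι] {L : Lam (sph 2) ι} {W : Bw L} {wt : ι → ℝ} {ν : Fin 4 → ℝ}
  {FA FB : Prop} {δ η : ℝ} {MA MB : Finset ι} (H : Pure W wt ν FA FB δ η MA MB)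
include H

lemma n2 {x : ι} (hx : x ∈ MA) : W.n 2 x = 1 := (cls_one H.two (H.clA x hx)).2.2.1
lemma n3 {x : ι} (hx : x ∈ MA) : W.n 3 x = 1 := (cls_one H.two (H.clA x hx)).2.2.2
lemma n0 {x : ι} (hx : x ∈ MB) : W.n 0 x = 1 := (cls_two H.two (H.clB x hx)).1
lemma n1 {x : ι} (hx : x ∈ MB) : W.n 1 x = 1 := (cls_two H.two (H.clB x hx)).2.1

lemma badA {s : Fin 4} (hs : s = 2 ∨ s = 3) : ∑ y : W.E s with W.up s y ∉ MA, W.w s y ≤ η := by
  refine le_trans (Finset.sum_le_sum_of_subset_of_nonneg ?_ fun z _ _ => ((W.ed s).w0 z).le)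
    (H.bad s)
  intro y hy
  rw [Finset.mem_filter] at hy ⊢
  refine ⟨hy.1, hy.2, fun hB => ?_⟩
  have h := cls_two H.two (H.clB _ hB)
  have h1 : y ∈ W.en s (W.up s y) := W.mem_en.2 rfl
  have h2 : W.n s (W.up s y) = 0 := by
    rcases hs with rfl | rfl
    · exact h.2.2.1
    · exact h.2.2.2
  unfold n at h2
  rw [Finset.card_eq_zero] at h2
  rw [h2] at h1
  exact absurd h1 (Finset.notMem_empty _)

lemma badB {s : Fin 4} (hs : s = 0 ∨ s = 1) : ∑ y : W.E s with W.up s y ∉ MB, W.w s y ≤ η := by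
  refine le_trans (Finset.sum_le_sum_of_subset_of_nonneg ?_ fun z _ _ => ((W.ed s).w0 z).le)
    (H.bad s)
  intro y hy
  rw [Finset.mem_filter] at hy ⊢
  refine ⟨hy.1, fun hA => ?_, hy.2⟩
  have h := cls_one H.two (H.clA _ hA)
  have h1 : y ∈ W.en s (W.up s y) := W.mem_en.2 rfl
  have h2 : W.n s (W.up s y) = 0 := by
    rcases hs with rfl | rfl
    · exact h.1
    · exact h.2.1
  unfold n at h2
  rw [Finset.card_eq_zero] at h2
  rw [h2] at h1
  exact absurd h1 (Finset.notMem_empty _)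

lemma tA {x : ι} (hx : x ∈ MA) : FA := by
  by_contra h
  rw [H.eA h] at hx
  exact absurd hx (Finset.notMem_empty _)

lemma tB {x : ι} (hx : x ∈ MB) : FB := by
  by_contra h
  rw [H.eB h] at hx
  exact absurd hx (Finset.notMem_empty _)

lemma ord32 {x x' : ι} (hx : x ∈ MA) (hx' : x' ∈ MA) (h : W.ps 3 x < W.ps 3 x') :
    W.ps 2 x < W.ps 2 x' := by
  by_contra hc
  rcases (not_lt.1 hc).lt_or_eq with h1 | h1
  · exact lt_asymm h (H.ordA x' hx' x hx h1)
  · have hne : x ≠ x' := by rintro rfl; exact lt_irrefl _ h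
    have h2 := ps_sep (H.n2 hx) (H.n2 hx') hne
    rw [h1, sub_self, abs_zero] at h2
    linarith [ws_pos (W := W) 2 x, ws_pos (W := W) 2 x']

lemma ord10 {x x' : ι} (hx : x ∈ MB) (hx' : x' ∈ MB) (h : W.ps 1 x < W.ps 1 x') :
    W.ps 0 x < W.ps 0 x' := by
  by_contra hc
  rcases (not_lt.1 hc).lt_or_eq with h1 | h1
  · exact lt_asymm h (H.ordB x' hx' x hx h1)
  · have hne : x ≠ x' := by rintro rfl; exact lt_irrefl _ h
    have h2 := ps_sep (H.n0 hx) (H.n0 hx') hne
    rw [h1, sub_self, abs_zero] at h2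
    linarith [ws_pos (W := W) 0 x, ws_pos (W := W) 0 x']

/-- closeness, type A -/
lemma closeA (hδ0 : 0 ≤ δ) (hη : 0 ≤ η) {x : ι} (hx : x ∈ MA) :
    W.ps 2 x + W.ws 2 x / 2 ≤ W.ps 3 x + W.ws 3 x / 2 + 4 * η ∧
    W.ps 3 x + W.ws 3 x / 2 ≤ W.ps 2 x + W.ws 2 x / 2 + 4 * η := by
  have hF := H.tA hx
  constructor
  · exact Bw.close hδ0 hη (fun x h => H.n2 h) (fun x h => H.n3 h) H.wt0 H.wid H.mlo H.mhi
      (H.fullA hF 2 (Or.inl rfl)) (H.badA (Or.inl rfl)) (H.νA hF).2 H.ordA hx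
  · refine Bw.close hδ0 hη (fun x h => H.n3 h) (fun x h => H.n2 h) H.wt0 H.wid H.mlo H.mhi
      (H.fullA hF 3 (Or.inr rfl)) (H.badA (Or.inr rfl)) ?_
      (fun x h x' h' hlt => H.ord32 h h' hlt) hx
    rw [abs_sub_comm]; exact (H.νA hF).1

/-- closeness, type B -/
lemma closeB (hδ0 : 0 ≤ δ) (hη : 0 ≤ η) {x : ι} (hx : x ∈ MB) :
    W.ps 0 x + W.ws 0 x / 2 ≤ W.ps 1 x + W.ws 1 x / 2 + 4 * η ∧
    W.ps 1 x + W.ws 1 x / 2 ≤ W.ps 0 x + W.ws 0 x / 2 + 4 * η := by
  have hF := H.tB hx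
  constructor
  · exact Bw.close hδ0 hη (fun x h => H.n0 h) (fun x h => H.n1 h) H.wt0 H.wid H.mlo H.mhi
      (H.fullB hF 0 (Or.inl rfl)) (H.badB (Or.inl rfl)) (H.νB hF).2 H.ordB hx
  · refine Bw.close hδ0 hη (fun x h => H.n1 h) (fun x h => H.n0 h) H.wt0 H.wid H.mlo H.mhi
      (H.fullB hF 1 (Or.inr rfl)) (H.badB (Or.inr rfl)) ?_
      (fun x h x' h' hlt => H.ord10 h h' hlt) hx
    rw [abs_sub_comm]; exact (H.νB hF).1

lemma sum_le_two (hδ1 : δ ≤ 1) (s : Fin 4) : ∑ y : W.E s, W.w s y ≤ 2 * (1 - δ) := by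
  have := sum_le_of_disjoint Finset.univ (W.p s) (W.w s) (a := -(1 - δ)) (b := 1 - δ)
    (by linarith) (fun y _ => H.mlo s y) (fun y _ => H.mhi s y) (fun y _ => ((W.ed s).w0 y).le)
    (fun y _ y' _ hne => ((W.ed s).sep y y' hne).le)
  linarith

lemma sum_main_le (hδ1 : δ ≤ 1) {s : Fin 4} {M : Finset ι}
    (hn : ∀ x ∈ M, W.n s x = 1) : ∑ x ∈ M, W.ws s x ≤ 2 * (1 - δ) := by
  rw [sum_ws hn]
  exact (Finset.sum_le_sum_of_subset_of_nonneg (Finset.filter_subset _ _)
    fun z _ _ => ((W.ed s).w0 z).le).trans (H.sum_le_two hδ1 s)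

lemma sum_main_ge {s : Fin 4} {M : Finset ι} (hn : ∀ x ∈ M, W.n s x = 1)
    (hb : ∑ y : W.E s with W.up s y ∉ M, W.w s y ≤ η) (hf : 2 * (1 - δ) - η ≤ ∑ y, W.w s y) :
    2 * (1 - δ) - 2 * η ≤ ∑ x ∈ M, W.ws s x := by
  rw [sum_ws hn]
  have := Finset.sum_filter_add_sum_filter_not (Finset.univ : Finset (W.E s))
    (fun y => W.up s y ∈ M) (W.w s)
  linarith

variable {P P' : Par} {K b : ℝ} {Rl : ι → ι → Prop}

/-- type A: chord data -/
theorem chA (T : Dpt W P P' K b (lg W wt ν) Rl (6 * η) (6 * η)) (haδ : 2 * P.a ≤ δ) {x : ι}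
    (hx : W.cls x = 1) :
    ChA T.D P x (W.kA x) (W.ymA x) (W.ypA x) (1 / (αA ν * wt x)) where
  ta := by
    have h2 := (cls_one H.two hx).2.2.1
    have h3 := (cls_one H.two hx).2.2.2
    rw [T.hA x hx, T.ρA x hx]
    refine ta_A H.two hx (H.lg_pos x) ?_ ?_ (T.vA2 x hx) (T.vA3 x hx) ?_ ?_
    · rw [H.lg_one hx, H.ws_eq h2]
      exact mul_le_mul_of_nonneg_right (min_le_left _ _) (H.wt0 x).le
    · rw [H.lg_one hx, H.ws_eq h3]
      exact mul_le_mul_of_nonneg_right (min_le_right _ _) (H.wt0 x).le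
    · have := H.ws_hi h2; linarith
    · have := H.ws_hi h3; linarith
  ks := by
    have h2 := (cls_one H.two hx).2.2.1
    have h3 := (cls_one H.two hx).2.2.2
    have h0 := mul_pos H.αA0 (H.wt0 x)
    refine ks_A W x ?_ ?_
    · rw [H.ws_eq h2]
      exact one_div_le_one_div_of_le h0 (mul_le_mul_of_nonneg_right (min_le_left _ _) (H.wt0 x).le)
    · rw [H.ws_eq h3]
      exact one_div_le_one_div_of_le h0 (mul_le_mul_of_nonneg_right (min_le_right _ _) (H.wt0 x).le)
  K0 := (one_div_pos.2 (mul_pos H.αA0 (H.wt0 x))).le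
  low := T.lowA x hx

/-- type B: chord data -/
theorem chB (T : Dpt W P P' K b (lg W wt ν) Rl (6 * η) (6 * η))
    (haδ : 2 * (P.a + P.m * P.H) < δ) (ha' : 2 * P'.a ≤ P.a) {x : ι}
    (hx : W.cls x = 2) :
    ChB T.D P P' x (W.kb x) (W.kt x) (W.ymB P x) (W.ypB P x) (1 / (αB ν * wt x)) := by
  have h0 := (cls_two H.two hx).1
  have h1 := (cls_two H.two hx).2.1
  have hα := mul_pos H.αB0 (H.wt0 x)
  have l0 : αB ν * wt x ≤ W.ws 0 x := by
    rw [H.ws_eq h0]; exact mul_le_mul_of_nonneg_right (min_le_left _ _) (H.wt0 x).le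
  have l1 : αB ν * wt x ≤ W.ws 1 x := by
    rw [H.ws_eq h1]; exact mul_le_mul_of_nonneg_right (min_le_right _ _) (H.wt0 x).le
  have ha := one_sub_a P
  have ha0 := P.a0
  have hmH := mul_pos P.m0 P.H0
  have sc : ∀ t : ℝ, 0 ≤ t → t ≤ t / (1 - P.a) := fun t ht => by
    rw [le_div_iff₀ ha]
    have := mul_nonneg ht ha0.le
    linarith
  have hlo0 := H.ws_lo h0
  have hhi0 := H.ws_hi h0
  have hlo1 := H.ws_lo h1
  have hhi1 := H.ws_hi h1
  have tb : TB P (L.c x) (W.kb x) (W.kt x) :=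
    tb_B H.two hx (by linarith) (by linarith) (by linarith) (by linarith)
  refine ⟨tb, ?_, ?_, ?_, ?_, (one_div_pos.2 hα).le, T.highB x hx, T.lowB x hx⟩
  · intro s t
    exact (abs_ramp_sub' (W.ws_pos 0 x)).trans
      (mul_le_mul_of_nonneg_right (one_div_le_one_div_of_le hα l0) (abs_nonneg _))
  · intro s t
    exact (abs_ramp_sub' (W.ws_pos 1 x)).trans
      (mul_le_mul_of_nonneg_right (one_div_le_one_div_of_le hα l1) (abs_nonneg _))
  · rw [T.hB x hx, T.ρB x hx]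
    refine ta_B tb ha' (H.lg_pos x) ?_ ?_ (T.vB0 x hx) (T.vB1 x hx)
    · rw [H.lg_two hx]
      exact l0.trans (sc _ (ws_pos 0 x).le)
    · rw [H.lg_two hx]
      exact l1.trans (sc _ (ws_pos 1 x).le)
  · exact ks_B W P x (one_div_le_one_div_of_le hα l0) (one_div_le_one_div_of_le hα l1)

/-- **type A** -/
theorem clA' (T : Dpt W P P' K b (lg W wt ν) Rl (6 * η) (6 * η)) (haδ : 2 * P.a ≤ δ)
    (hδ1 : δ ≤ 1) (hη : 0 ≤ η) (hη1 : η ≤ 1) (hH1 : 1 ≤ P.H) {β : ℝ} (hβ : 0 < β) (hF : FA)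
    {sA : ℝ} (hs : |sA| = 1) {w : ι → ℝ} (hw : ∀ x ∈ MA, w x = sA * wt x) :
    ClA T.D P β MA w W.kA W.ymA W.ypA (fun x => 1 / (αA ν * wt x))
      (fun x => W.ws 2 x + W.ws 3 x) (sA / (2 * (b * β) * αA ν)) (1 / (2 * (b * β) * αA ν))
      (11 * η) (2 - 2 * (b * β) * ((1 - η) * (2 * (1 - δ) - 2 * η))) := by
  have hb := mul_pos T.D.cst.b0 hβ
  have hα := H.αA0
  have hH := P.H0
  have ha0 := P.a0
  have hδ0 : 0 ≤ δ := by linarith
  have hl : ∀ x ∈ MA, 4 * P.H * T.h x = αA ν * wt x := fun x hx => by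
    rw [T.hA x (H.clA x hx), H.lg_one (H.clA x hx)]
    field_simp
  refine ⟨fun x hx => H.chA T haδ (H.clA x hx), ?_, ?_, ?_, ?_, by linarith, ?_, ?_, ?_⟩
  · intro x hx
    rw [hl x hx, hw x hx]
    have := hα.ne'
    have := T.D.cst.b0.ne'
    have := hβ.ne'
    field_simp
  · intro x hx
    have h0 := H.wt0 x
    rw [hw x hx, abs_mul, hs, one_mul, abs_of_pos h0]
    apply le_of_eq
    have := hα.ne'
    have := hb.ne'
    field_simp
  · rw [abs_div, hs, abs_of_pos (by positivity)]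
  · intro x hx σ hσ
    have e2 := H.ws_lo (H.n2 hx)
    have e3 := H.ws_lo (H.n3 hx)
    have f2 := H.ws_hi (H.n2 hx)
    have f3 := H.ws_hi (H.n3 hx)
    have g2 := H.ws_small (H.n2 hx)
    have g3 := H.ws_small (H.n3 hx)
    have p2 := ws_pos (W := W) 2 x
    have p3 := ws_pos (W := W) 3 x
    obtain ⟨c1, c2⟩ := H.closeA hδ0 hη hx
    have hv := T.vA x (H.clA x hx)
    have hmax : max (W.ps 2 x + W.ws 2 x / 2) (W.ps 3 x + W.ws 3 x / 2)
        ≤ min (W.ps 2 x + W.ws 2 x / 2) (W.ps 3 x + W.ws 3 x / 2) + 4 * η := by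
      rw [← min_add_add_right]
      exact max_le (le_min (by linarith) c1) (le_min c2 (by linarith))
    have key : ∀ s, (s = 2 ∨ s = 3) → T.v x + lg W wt ν x / 2 - (W.ps s x - W.ws s x / 2)
        ≤ 11 * η := by
      intro s hs'
      rcases hs' with rfl | rfl
      · have := min_le_left (W.ps 2 x + W.ws 2 x / 2) (W.ps 3 x + W.ws 3 x / 2)
        linarith
      · have := min_le_right (W.ps 2 x + W.ws 2 x / 2) (W.ps 3 x + W.ws 3 x / 2)
        linarith
    have hid : ∀ t : ℝ, 4 * (1 - T.ρ x + T.h x / 2) - (1 + t) / P.H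
        = (T.v x + lg W wt ν x / 2 - t) / P.H := by
      intro t
      rw [T.hA x (H.clA x hx), T.ρA x (H.clA x hx)]
      field_simp
      ring
    have hdiv : ∀ t : ℝ, t ≤ 11 * η → t / P.H ≤ 11 * η := by
      intro t ht
      rw [div_le_iff₀ hH]
      have : 11 * η * 1 ≤ 11 * η * P.H := mul_le_mul_of_nonneg_left hH1 (by linarith)
      linarith
    unfold ymA ypA
    split_ifs with h
    · refine ⟨by linarith, by linarith, by linarith, by linarith, ?_⟩
      rw [hid]; exact hdiv _ (key 3 (Or.inr rfl))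
    · refine ⟨by linarith, by linarith, by linarith, by linarith, ?_⟩
      rw [hid]; exact hdiv _ (key 2 (Or.inl rfl))
  · intro x _
    have := ws_pos (W := W) 2 x
    have := ws_pos (W := W) 3 x
    linarith
  · rw [Finset.sum_add_distrib]
    have h2 := H.sum_main_le hδ1 (s := 2) (fun x hx => H.n2 (x := x) hx)
    have h3 := H.sum_main_le hδ1 (s := 3) (fun x hx => H.n3 (x := x) hx)
    linarith
  · have h1 : ∑ x ∈ MA, 2 * (b * β) * (4 * P.H * T.h x) = 2 * (b * β) * ∑ x ∈ MA, αA ν * wt x := by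
      rw [Finset.mul_sum]
      exact Finset.sum_congr rfl fun x hx => by rw [hl x hx]
    rw [h1]
    have h2 := H.sum_main_ge (s := 2) (fun x hx => H.n2 (x := x) hx) (H.badA (Or.inl rfl))
      (H.fullA hF 2 (Or.inl rfl))
    have h3 : ∑ x ∈ MA, W.ws 2 x = ν 2 * ∑ x ∈ MA, wt x := by
      rw [Finset.mul_sum]
      exact Finset.sum_congr rfl fun x hx => H.ws_eq (H.n2 hx)
    have h4 : (1 - η) * ν 2 ≤ αA ν := by
      refine le_min ?_ ?_
      · nlinarith [H.ν0 2]
      · have := (abs_le.1 (H.νA hF).1).2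
        linarith
    have h5 : 0 ≤ ∑ x ∈ MA, wt x := Finset.sum_nonneg fun x _ => (H.wt0 x).le
    have h6 : (1 - η) * (2 * (1 - δ) - 2 * η) ≤ ∑ x ∈ MA, αA ν * wt x := by
      rw [← Finset.mul_sum]
      calc (1 - η) * (2 * (1 - δ) - 2 * η) ≤ (1 - η) * (ν 2 * ∑ x ∈ MA, wt x) :=
            mul_le_mul_of_nonneg_left (by linarith) (by linarith)
        _ = ((1 - η) * ν 2) * ∑ x ∈ MA, wt x := by ring
        _ ≤ _ := mul_le_mul_of_nonneg_right h4 h5
    have h7 := mul_le_mul_of_nonneg_left h6 (by positivity : 0 ≤ 2 * (b * β))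
    linarith

/-- **type B** -/
theorem clB' (T : Dpt W P P' K b (lg W wt ν) Rl (6 * η) (6 * η))
    (haδ : 2 * (P.a + P.m * P.H) < δ) (ha' : 2 * P'.a ≤ P.a)
    (hδ1 : δ ≤ 1) (hη : 0 ≤ η) (hH1 : 1 ≤ P'.H) {β : ℝ} (hβ : 0 < β) (hF : FB)
    {sB : ℝ} (hs : |sB| = 1) {w : ι → ℝ} (hw : ∀ x ∈ MB, w x = sB * wt x) :
    ClB T.D P P' β MB w (W.ps 0) (W.ws 0) W.kb W.kt (W.ymB P) (W.ypB P)
      (fun x => 1 / (αB ν * wt x))
      (fun x => (W.ws 0 x + W.ws 1 x) / (1 - P.a)) (sB / (2 * (b * β) * ν 0))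
      (1 / (2 * (b * β) * αB ν * (1 - P.a)))
      (16 * η) (2 - 2 * (b * β) * (2 * (1 - δ) - 2 * η)) := by
  have hb := mul_pos T.D.cst.b0 hβ
  have hα := H.αB0
  have hν := H.ν0 0
  have hP := P.H0
  have hH := P'.H0
  have ha0 := P.a0
  have ha := one_sub_a P
  have ha4 := P.a_le
  have hmH := mul_pos P.m0 P.H0
  have hδ0 : 0 ≤ δ := by linarith
  have haδ2 : P.a ≤ δ := by linarith
  refine ⟨fun x hx => H.chB T haδ ha' (H.clB x hx), ?_, fun x _ => ws_pos 0 x, ?_, ?_, ?_, ?_, ?_,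
    ?_, ?_, by linarith, ?_, ?_, ?_⟩
  · intro x _ u
    show - ramp (W.ws 0 x) (W.ps 0 x) u = _
    rw [neg_ramp]
    congr 1
    ring
  · intro x hx
    rw [H.ws_eq (H.n0 hx), hw x hx]
    have := hν.ne'
    have := T.D.cst.b0.ne'
    have := hβ.ne'
    field_simp
  · intro x hx
    have h0 := H.wt0 x
    rw [hw x hx, abs_mul, hs, one_mul, abs_of_pos h0]
    have e : wt x * (1 / (αB ν * wt x) / (2 * (b * β))) = 1 / (2 * (b * β) * αB ν) := by
      have := hα.ne'
      have := hb.ne'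
      field_simp
    rw [e]
    apply one_div_le_one_div_of_le (by positivity)
    exact mul_le_of_le_one_right (by positivity) (by linarith)
  · intro x hx
    have h0 := H.wt0 x
    rw [hw x hx, abs_mul, hs, one_mul, abs_of_pos h0, T.hB x (H.clB x hx), H.lg_two (H.clB x hx)]
    apply le_of_eq
    have := hα.ne'
    have := hb.ne'
    have := ha.ne'
    field_simp
  · rw [abs_div, hs, abs_of_pos (by positivity)]
    apply one_div_le_one_div_of_le (by positivity)
    have e1 : αB ν ≤ ν 0 := min_le_left _ _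
    calc 2 * (b * β) * αB ν * (1 - P.a) ≤ 2 * (b * β) * αB ν :=
          mul_le_of_le_one_right (by positivity) (by linarith)
      _ ≤ _ := mul_le_mul_of_nonneg_left e1 (by positivity)
  · intro x hx x' hx' hne
    exact (ps_sep (H.n0 hx) (H.n0 hx') hne).le
  · intro x hx
    have e2 := H.ws_lo (H.n0 hx)
    have f2 := H.ws_hi (H.n0 hx)
    have : |W.ps 0 x| ≤ 1 - W.ws 0 x / 2 := abs_le.2 ⟨by linarith, by linarith⟩
    linarith
  · intro x hx σ hσ
    have e2 := H.ws_lo (H.n0 hx)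
    have e3 := H.ws_lo (H.n1 hx)
    have f2 := H.ws_hi (H.n0 hx)
    have f3 := H.ws_hi (H.n1 hx)
    have g2 := H.ws_small (H.n0 hx)
    have g3 := H.ws_small (H.n1 hx)
    have p2 := ws_pos (W := W) 0 x
    have p3 := ws_pos (W := W) 1 x
    obtain ⟨c1, c2⟩ := H.closeB hδ0 hη hx
    have hv := T.vB x (H.clB x hx)
    have hc : ∀ s s' : Fin 4, W.ps s x + W.ws s x / 2 ≤ W.ps s' x + W.ws s' x / 2 + 4 * η →
        W.ws s' x ≤ η → (W.ps s x + W.ws s x / 2) / (1 - P.a)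
          ≤ (W.ps s' x - W.ws s' x / 2) / (1 - P.a) + 10 * η := by
      intro s s' h1 h2
      rw [← sub_le_iff_le_add', ← sub_div, div_le_iff₀ ha]
      have : 10 * η * (3/4) ≤ 10 * η * (1 - P.a) :=
        mul_le_mul_of_nonneg_left (by linarith) (by linarith)
      linarith
    have k00 := hc 0 0 (by linarith) g2
    have k10 := hc 1 0 c2 g2
    have k01 := hc 0 1 c1 g3
    have k11 := hc 1 1 (by linarith) g3
    have hid : ∀ t : ℝ, 8 * (3/4 - T.ρ x + T.h x / 2) - (1 + t) / P'.H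
        = (T.v x + lg W wt ν x / 2 - t) / P'.H := by
      intro t
      rw [T.hB x (H.clB x hx), T.ρB x (H.clB x hx)]
      field_simp
      ring
    have hdiv : ∀ t : ℝ, t ≤ 16 * η → t / P'.H ≤ 16 * η := by
      intro t ht
      rw [div_le_iff₀ hH]
      have : 16 * η * 1 ≤ 16 * η * P'.H := mul_le_mul_of_nonneg_left hH1 (by linarith)
      linarith
    have hlow : ∀ t : ℝ, -(1 - δ) ≤ t → -1 < t / (1 - P.a) := by
      intro t ht
      rw [lt_div_iff₀ ha]
      linarith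
    have hup : ∀ t : ℝ, t ≤ 1 - δ → t / (1 - P.a) ≤ 1 := by
      intro t ht
      rw [div_le_one ha]
      linarith
    have hnn : 0 ≤ W.ws 0 x / (1 - P.a) := div_nonneg p2.le ha.le
    have hnn' : 0 ≤ W.ws 1 x / (1 - P.a) := div_nonneg p3.le ha.le
    unfold ymB ypB
    split_ifs with h
    · refine ⟨hlow _ e3, hup _ (by linarith), hup _ f3, ?_, ?_⟩
      · have e : (W.ps 1 x + W.ws 1 x / 2) / (1 - P.a) - (W.ps 1 x - W.ws 1 x / 2) / (1 - P.a)
            = W.ws 1 x / (1 - P.a) := by ring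
        show _ ≤ (W.ws 0 x + W.ws 1 x) / (1 - P.a)
        rw [e, add_div]; linarith
      · rw [hid]
        apply hdiv
        have := max_le k01 k11
        linarith
    · refine ⟨hlow _ e2, hup _ (by linarith), hup _ f2, ?_, ?_⟩
      · have e : (W.ps 0 x + W.ws 0 x / 2) / (1 - P.a) - (W.ps 0 x - W.ws 0 x / 2) / (1 - P.a)
            = W.ws 0 x / (1 - P.a) := by ring
        show _ ≤ (W.ws 0 x + W.ws 1 x) / (1 - P.a)
        rw [e, add_div]; linarith
      · rw [hid]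
        apply hdiv
        have := max_le k00 k10
        linarith
  · intro x _
    have := ws_pos (W := W) 0 x
    have := ws_pos (W := W) 1 x
    exact div_nonneg (by linarith) ha.le
  · rw [← Finset.sum_div, Finset.sum_add_distrib, div_le_iff₀ ha]
    have h2 := H.sum_main_le hδ1 (s := 0) (fun x hx => H.n0 (x := x) hx)
    have h3 := H.sum_main_le hδ1 (s := 1) (fun x hx => H.n1 (x := x) hx)
    linarith
  · rw [← Finset.mul_sum]
    have h2 := H.sum_main_ge (s := 0) (fun x hx => H.n0 (x := x) hx) (H.badB (Or.inl rfl))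
      (H.fullB hF 0 (Or.inl rfl))
    have h7 := mul_le_mul_of_nonneg_left h2 (by positivity : 0 ≤ 2 * (b * β))
    linarith

/-- **crude data** -/
theorem crd (T : Dpt W P P' K b (lg W wt ν) Rl (6 * η) (6 * η)) (J : Finset ι) {w : ι → ℝ}
    (hw : ∀ x ∈ J, |w x| ≤ wt x) :
    Crd L T.h J w (fun x => 16 / (αX ν * wt x)) (16 / αX ν) := by
  have hα := H.αX0
  have hH2 : P.H ≤ 2 := by have := P.aH; have := P.a0; linarith
  have hH2' : P'.H ≤ 2 := by have := P'.aH; have := P'.a0; linarith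
  have hP := P.H0
  have hP' := P'.H0
  refine ⟨fun x _ => ?_, fun x _ ω hω => ?_, fun x _ => ?_, fun x hx => ?_⟩
  · have := H.wt0 x; positivity
  · have h0 := H.wt0 x
    refine (lip_c (W := W) (κ := 1 / (αX ν * wt x)) (by positivity) ?_ hω).mono ?_
    · intro s y hy
      rw [H.wid, hy]
      exact one_div_le_one_div_of_le (by positivity)
        (mul_le_mul_of_nonneg_right (αX_le ν s) h0.le)
    · exact div_le_div_of_nonneg_right (by norm_num) (by positivity)
  · have h0 := H.wt0 x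
    have hl := H.lg_ge x
    have hlp := H.lg_pos x
    have hXl : 0 < αX ν * wt x := by positivity
    rcases Bw.fin4_cases (W.cls x) with hx | hx | hx | hx
    · rw [T.hX x (Or.inl hx)]
      exact (one_div_le_one_div_of_le hXl hl).trans
        (div_le_div_of_nonneg_right (by norm_num) hXl.le)
    · rw [T.hA x hx, one_div_div]
      calc 4 * P.H / lg W wt ν x ≤ 16 / lg W wt ν x :=
            div_le_div_of_nonneg_right (by linarith) hlp.le
        _ ≤ _ := div_le_div_of_nonneg_left (by norm_num) hXl hl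
    · rw [T.hB x hx, one_div_div]
      calc 8 * P'.H / lg W wt ν x ≤ 16 / lg W wt ν x :=
            div_le_div_of_nonneg_right (by linarith) hlp.le
        _ ≤ _ := div_le_div_of_nonneg_left (by norm_num) hXl hl
    · rw [T.hX x (Or.inr hx)]
      exact (one_div_le_one_div_of_le hXl hl).trans
        (div_le_div_of_nonneg_right (by norm_num) hXl.le)
  · have h0 := H.wt0 x
    calc |w x| * (16 / (αX ν * wt x)) ≤ wt x * (16 / (αX ν * wt x)) :=
          mul_le_mul_of_nonneg_right (hw x hx) (by positivity)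
      _ = 16 / αX ν := by field_simp

/-- **the sum over the other chords** -/
theorem sumX (T : Dpt W P P' K b (lg W wt ν) Rl (6 * η) (6 * η)) (hH1 : 1 ≤ P.H) (hH1' : 1 ≤ P'.H)
    {J : Finset ι} (hJ : ∀ x ∈ J, x ∉ MA ∧ x ∉ MB) : ∑ x ∈ J, (W.tot x + T.h x) ≤ 8 * η := by
  have h : ∀ x, T.h x ≤ W.tot x := by
    intro x
    refine le_trans ?_ (H.lg_tot x)
    have hl := (H.lg_pos x).le
    rcases Bw.fin4_cases (W.cls x) with hx | hx | hx | hx
    · rw [T.hX x (Or.inl hx)]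
    · rw [T.hA x hx]
      exact div_le_self hl (by linarith)
    · rw [T.hB x hx]
      exact div_le_self hl (by linarith)
    · rw [T.hX x (Or.inr hx)]
  have h1 := H.sum_tot hJ
  calc ∑ x ∈ J, (W.tot x + T.h x) ≤ ∑ x ∈ J, (W.tot x + W.tot x) :=
        Finset.sum_le_sum fun x _ => by linarith [h x]
    _ = 2 * ∑ x ∈ J, W.tot x := by rw [Finset.mul_sum]; exact Finset.sum_congr rfl fun _ _ => by ring
    _ ≤ _ := by linarith

end Pure

end Crest.Agent.R096.Fk_522
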