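import Mathlib

-- ▼ part R096/Msh1_810
section

/-!
# Dyadic cells of `Fin n → ℝ` with a shift

`Idx n` = (scale `k`, corner `z`, directions `J`); `Dc a σ` closed cell, `Do a σ` open cell.
-/

set_option autoImplicit false
open MeasureTheory Set
open scoped ENNReal

namespace Crest.Agent.R096.Msh_810

variable {n : ℕ}

/-- dyadic position of the coordinate `i` at scale `k`. -/
noncomputable def ps (a : Fin n → ℝ) (k : ℕ) (x : Fin n → ℝ) (i : Fin n) : ℝ :=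
  2 ^ k * (x i - a i)

/-- index of a dyadic cell. -/
@[ext] structure Idx (n : ℕ) where
  /-- scale: side `2^-k`. -/
  k : ℕ
  /-- lower corner. -/
  z : Fin n → ℤ
  /-- directions of the cell. -/
  J : Finset (Fin n)
  deriving DecidableEq

/-- closed dyadic cell. -/
def Dc (a : Fin n → ℝ) (σ : Idx n) : Set (Fin n → ℝ) :=
  {x | ∀ i, (i ∈ σ.J → (σ.z i : ℝ) ≤ ps a σ.k x i ∧ ps a σ.k x i ≤ σ.z i + 1) ∧
    (i ∉ σ.J → ps a σ.k x i = σ.z i)}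

/-- open dyadic cell. -/
def Do (a : Fin n → ℝ) (σ : Idx n) : Set (Fin n → ℝ) :=
  {x | ∀ i, (i ∈ σ.J → (σ.z i : ℝ) < ps a σ.k x i ∧ ps a σ.k x i < σ.z i + 1) ∧
    (i ∉ σ.J → ps a σ.k x i = σ.z i)}

/-- the open dyadic cell of scale `k` through `x`. -/
noncomputable def cellOf (a : Fin n → ℝ) (k : ℕ) (x : Fin n → ℝ) : Idx n :=
  ⟨k, fun i => ⌊ps a k x i⌋, Finset.univ.filter fun i => ps a k x i ≠ ⌊ps a k x i⌋⟩

@[simp] lemma cellOf_k (a : Fin n → ℝ) (k : ℕ) (x : Fin n → ℝ) : (cellOf a k x).k = k := rfl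

lemma mem_J_cellOf {a : Fin n → ℝ} {k : ℕ} {x : Fin n → ℝ} {i : Fin n} :
    i ∈ (cellOf a k x).J ↔ ps a k x i ≠ ⌊ps a k x i⌋ := by
  simp [cellOf]

lemma Do_subset_Dc (a : Fin n → ℝ) (σ : Idx n) : Do a σ ⊆ Dc a σ := fun _ hx i =>
  ⟨fun hi => ⟨((hx i).1 hi).1.le, ((hx i).1 hi).2.le⟩, (hx i).2⟩

lemma mem_Do_cellOf (a : Fin n → ℝ) (k : ℕ) (x : Fin n → ℝ) : x ∈ Do a (cellOf a k x) := by
  intro i
  refine ⟨fun hi => ?_, fun hi => ?_⟩
  · rw [mem_J_cellOf] at hi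
    exact ⟨lt_of_le_of_ne (Int.floor_le _) (Ne.symm hi), Int.lt_floor_add_one _⟩
  · rw [mem_J_cellOf, not_not] at hi
    exact hi

lemma mem_Dc_cellOf (a : Fin n → ℝ) (k : ℕ) (x : Fin n → ℝ) : x ∈ Dc a (cellOf a k x) :=
  Do_subset_Dc _ _ (mem_Do_cellOf a k x)

lemma mem_Do_iff {a : Fin n → ℝ} {σ : Idx n} {x : Fin n → ℝ} :
    x ∈ Do a σ ↔ cellOf a σ.k x = σ := by
  constructor
  · intro hx
    have hz : ∀ i, ⌊ps a σ.k x i⌋ = σ.z i := by
      intro i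
      by_cases hi : i ∈ σ.J
      · exact Int.floor_eq_iff.2 ⟨((hx i).1 hi).1.le, ((hx i).1 hi).2⟩
      · rw [(hx i).2 hi]; exact Int.floor_intCast _
    ext i
    · rfl
    · exact hz i
    · rw [mem_J_cellOf, hz]
      constructor
      · intro h
        by_contra hi
        exact h ((hx i).2 hi)
      · intro hi
        exact ((hx i).1 hi).1.ne'
  · intro h
    have := mem_Do_cellOf a σ.k x
    rwa [h] at this

lemma ps_mul (a : Fin n → ℝ) {k k' : ℕ} (h : k ≤ k') (x : Fin n → ℝ) (i : Fin n) :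
    ps a k' x i = ((2 ^ (k' - k) : ℤ) : ℝ) * ps a k x i := by
  have h1 : k' = (k' - k) + k := (Nat.sub_add_cancel h).symm
  unfold ps
  conv_lhs => rw [h1]
  rw [pow_add]
  push_cast
  ring

/-- a finer open cell meeting a coarser closed cell is contained in it. -/
lemma nest {a : Fin n → ℝ} {σ τ : Idx n} (h : σ.k ≤ τ.k) {x : Fin n → ℝ} (hx : x ∈ Do a τ)
    (hx' : x ∈ Dc a σ) : Dc a τ ⊆ Dc a σ := by
  intro y hy i
  obtain ⟨hx1, hx2⟩ := hx i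
  obtain ⟨hs1, hs2⟩ := hx' i
  obtain ⟨hy1, hy2⟩ := hy i
  have hN : (0 : ℤ) < 2 ^ (τ.k - σ.k) := by positivity
  have hNr : (0 : ℝ) < ((2 ^ (τ.k - σ.k) : ℤ) : ℝ) := by exact_mod_cast hN
  have ex := ps_mul a h x i
  have ey := ps_mul a h y i
  set N : ℤ := 2 ^ (τ.k - σ.k) with hNdef
  by_cases hj : i ∈ τ.J
  · obtain ⟨u1, u2⟩ := hx1 hj
    obtain ⟨v1, v2⟩ := hy1 hj
    by_cases hi : i ∈ σ.J
    · obtain ⟨w1, w2⟩ := hs1 hi
      refine ⟨fun _ => ?_, fun hh => absurd hi hh⟩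
      have k1 : N * σ.z i ≤ τ.z i := by
        have : ((N * σ.z i : ℤ) : ℝ) < ((τ.z i + 1 : ℤ) : ℝ) := by
          push_cast
          calc (N : ℝ) * (σ.z i : ℝ) ≤ N * ps a σ.k x i := by
                exact mul_le_mul_of_nonneg_left w1 hNr.le
            _ = ps a τ.k x i := ex.symm
            _ < τ.z i + 1 := u2
        have := Int.cast_lt.1 this
        omega
      have k2 : τ.z i + 1 ≤ N * (σ.z i + 1) := by
        have : ((τ.z i : ℤ) : ℝ) < ((N * (σ.z i + 1) : ℤ) : ℝ) := by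
          push_cast
          calc (τ.z i : ℝ) < ps a τ.k x i := u1
            _ = N * ps a σ.k x i := ex
            _ ≤ (N : ℝ) * ((σ.z i : ℝ) + 1) := mul_le_mul_of_nonneg_left w2 hNr.le
        have := Int.cast_lt.1 this
        omega
      have k1r : (N : ℝ) * (σ.z i : ℝ) ≤ τ.z i := by exact_mod_cast k1
      have k2r : (τ.z i : ℝ) + 1 ≤ (N : ℝ) * ((σ.z i : ℝ) + 1) := by exact_mod_cast k2
      rw [ey] at v1 v2
      constructor
      · exact le_of_mul_le_mul_left (k1r.trans v1) hNr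
      · exact le_of_mul_le_mul_left (v2.trans k2r) hNr
    · exfalso
      have hs := hs2 hi
      rw [hs] at ex
      rw [ex] at u1 u2
      have a1 : (τ.z i : ℝ) < ((N * σ.z i : ℤ) : ℝ) := by push_cast; exact u1
      have a2 : ((N * σ.z i : ℤ) : ℝ) < ((τ.z i + 1 : ℤ) : ℝ) := by push_cast; exact u2
      have b1 := Int.cast_lt.1 a1
      have b2 := Int.cast_lt.1 a2
      omega
  · have hxy : ps a σ.k y i = ps a σ.k x i := by
      have e1 := hx2 hj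
      have e2 := hy2 hj
      rw [ex] at e1
      rw [ey] at e2
      exact mul_left_cancel₀ hNr.ne' (e2.trans e1.symm)
    rw [hxy]
    exact hx' i

lemma J_anti (a : Fin n → ℝ) {k k' : ℕ} (h : k ≤ k') (x : Fin n → ℝ) :
    (cellOf a k' x).J ⊆ (cellOf a k x).J := by
  intro i hi
  rw [mem_J_cellOf] at hi ⊢
  intro h0
  apply hi
  rw [ps_mul a h x i, h0, ← Int.cast_mul, Int.floor_intCast]

/-- a point of a closed cell: its own open cell of the same scale is a face. -/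
lemma J_subset_of_mem {a : Fin n → ℝ} {σ : Idx n} {x : Fin n → ℝ} (hx : x ∈ Dc a σ) :
    (cellOf a σ.k x).J ⊆ σ.J := by
  intro i hi
  rw [mem_J_cellOf] at hi
  by_contra h
  apply hi
  rw [(hx i).2 h, Int.floor_intCast]

lemma mem_Do_of_J_eq {a : Fin n → ℝ} {σ : Idx n} {x : Fin n → ℝ} (hx : x ∈ Dc a σ)
    (hJ : (cellOf a σ.k x).J = σ.J) : x ∈ Do a σ := by
  intro i
  refine ⟨fun hi => ?_, (hx i).2⟩
  obtain ⟨h1, h2⟩ := (hx i).1 hi
  have h3 : ps a σ.k x i ≠ ⌊ps a σ.k x i⌋ := by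
    rw [← hJ, mem_J_cellOf] at hi
    exact hi
  refine ⟨lt_of_le_of_ne h1 ?_, lt_of_le_of_ne h2 ?_⟩
  · intro h
    apply h3
    rw [← h, Int.floor_intCast]
  · intro h
    apply h3
    rw [h]
    have : ((σ.z i : ℝ) + 1) = ((σ.z i + 1 : ℤ) : ℝ) := by push_cast; rfl
    rw [this, Int.floor_intCast]

lemma J_ssubset_of_mem {a : Fin n → ℝ} {σ : Idx n} {x : Fin n → ℝ} (hx : x ∈ Dc a σ)
    (hx' : x ∉ Do a σ) : (cellOf a σ.k x).J ⊂ σ.J := by
  refine Finset.ssubset_iff_subset_ne.2 ⟨J_subset_of_mem hx, fun h => hx' (mem_Do_of_J_eq hx h)⟩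

/-- two points of an open cell lie in the same closed cells of coarser scales. -/
lemma same_closed {a : Fin n → ℝ} {τ : Idx n} {x y : Fin n → ℝ} (hx : x ∈ Do a τ)
    (hy : y ∈ Dc a τ) {σ : Idx n} (h : σ.k ≤ τ.k) (hσ : x ∈ Dc a σ) : y ∈ Dc a σ :=
  nest h hx hσ hy

/-- the closed dyadic cube. -/
def Cu (a : Fin n → ℝ) (k : ℕ) (z : Fin n → ℤ) : Set (Fin n → ℝ) := Dc a ⟨k, z, Finset.univ⟩

lemma mem_Cu {a : Fin n → ℝ} {k : ℕ} {z : Fin n → ℤ} {x : Fin n → ℝ} :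
    x ∈ Cu a k z ↔ ∀ i, (z i : ℝ) ≤ ps a k x i ∧ ps a k x i ≤ z i + 1 := by
  simp [Cu, Dc]

lemma mem_Cu_floor (a : Fin n → ℝ) (k : ℕ) (x : Fin n → ℝ) :
    x ∈ Cu a k (fun i => ⌊ps a k x i⌋) :=
  mem_Cu.2 fun i => ⟨Int.floor_le _, (Int.lt_floor_add_one _).le⟩

lemma Cu_parent (a : Fin n → ℝ) (k : ℕ) (z : Fin n → ℤ) :
    Cu a (k + 1) z ⊆ Cu a k (fun i => z i / 2) := by
  intro x hx
  rw [mem_Cu] at hx ⊢
  intro i
  obtain ⟨h1, h2⟩ := hx i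
  have e : ps a (k + 1) x i = 2 * ps a k x i := by unfold ps; rw [pow_succ]; ring
  rw [e] at h1 h2
  have e1 : (2 * (z i / 2) : ℤ) ≤ z i := by omega
  have e2 : z i + 1 ≤ 2 * (z i / 2) + 2 := by omega
  have e1r : (2 : ℝ) * ((z i / 2 : ℤ) : ℝ) ≤ z i := by exact_mod_cast e1
  have e2r : (z i : ℝ) + 1 ≤ 2 * ((z i / 2 : ℤ) : ℝ) + 2 := by exact_mod_cast e2
  constructor
  · linarith
  · linarith

/-- every point of a cube of scale `k` lies in a cube of scale `k+1` inside it. -/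
lemma exists_child {a : Fin n → ℝ} {k : ℕ} {z : Fin n → ℤ} {x : Fin n → ℝ}
    (hx : x ∈ Cu a k z) : ∃ z' : Fin n → ℤ, x ∈ Cu a (k + 1) z' ∧ (fun i => z' i / 2) = z := by
  rw [mem_Cu] at hx
  have e : ∀ i, ps a (k + 1) x i = 2 * ps a k x i := by
    intro i; unfold ps; rw [pow_succ]; ring
  refine ⟨fun i => if ps a k x i ≤ z i + 1 / 2 then 2 * z i else 2 * z i + 1, ?_, ?_⟩
  · rw [mem_Cu]
    intro i
    obtain ⟨h1, h2⟩ := hx i
    rw [e i]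
    by_cases h : ps a k x i ≤ z i + 1 / 2
    · simp only [h, if_true]
      push_cast
      constructor <;> linarith
    · simp only [h, if_false]
      push_cast
      push Not at h
      constructor <;> linarith
  · funext i
    by_cases h : ps a k x i ≤ z i + 1 / 2
    · simp only [h, if_true]; omega
    · simp only [h, if_false]; omega

lemma dist_le_of_mem_Cu {a : Fin n → ℝ} {k : ℕ} {z : Fin n → ℤ} {x y : Fin n → ℝ}
    (hx : x ∈ Cu a k z) (hy : y ∈ Cu a k z) : (2 : ℝ) ^ k * dist x y ≤ 1 := by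
  rw [mem_Cu] at hx hy
  have h2 : (0 : ℝ) < 2 ^ k := by positivity
  have : dist x y ≤ (2 ^ k)⁻¹ := by
    rw [dist_pi_le_iff (by positivity)]
    intro i
    obtain ⟨h1, h3⟩ := hx i
    obtain ⟨h4, h5⟩ := hy i
    unfold ps at h1 h3 h4 h5
    have e1 : (2 : ℝ) ^ k * (x i - y i) ≤ 1 := by
      have : (2 : ℝ) ^ k * (x i - y i) = 2 ^ k * (x i - a i) - 2 ^ k * (y i - a i) := by ring
      linarith
    have e2 : (2 : ℝ) ^ k * (y i - x i) ≤ 1 := by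
      have : (2 : ℝ) ^ k * (y i - x i) = 2 ^ k * (y i - a i) - 2 ^ k * (x i - a i) := by ring
      linarith
    rw [Real.dist_eq, abs_le, inv_eq_one_div]
    constructor
    · have := (le_div_iff₀' h2).2 e2
      linarith
    · exact (le_div_iff₀' h2).2 e1
  calc (2 : ℝ) ^ k * dist x y ≤ 2 ^ k * (2 ^ k)⁻¹ := mul_le_mul_of_nonneg_left this h2.le
    _ = 1 := mul_inv_cancel₀ h2.ne'

end Crest.Agent.R096.Msh_810
end

-- ▼ part R096/Msh2_810

/-!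
# The Whitney mesh of `{ρ > 0}`

`Dat n`: 1-Lipschitz `ρ ≤ 1`, constant `C > 1`, shift `a`. `K D x` = scale of the mesh at `x`.
Mesh cells `IsM D σ` = dyadic cells on whose open cell `K = scale`.
-/

set_option autoImplicit false
open MeasureTheory Set
open scoped ENNReal

namespace Crest.Agent.R096.Msh_810

variable {n : ℕ}

/-- data of a Whitney mesh. -/
structure Dat (n : ℕ) where
  /-- size function. -/
  ρ : (Fin n → ℝ) → ℝ
  /-- constant. -/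
  C : ℝ
  /-- shift. -/
  a : Fin n → ℝ
  lip : ∀ x y, ρ x ≤ ρ y + dist x y
  nonneg : ∀ x, 0 ≤ ρ x
  le_one : ∀ x, ρ x ≤ 1
  hC : 1 < C

variable (D : Dat n)

/-- the open set covered by the mesh. -/
def Dat.Om : Set (Fin n → ℝ) := {x | 0 < D.ρ x}

/-- admissible cube. -/
def Adm (k : ℕ) (z : Fin n → ℤ) : Prop := ∀ x ∈ Cu D.a k z, D.C ≤ 2 ^ k * D.ρ x

/-- the scales that are fine enough at `x`. -/
def gd (x : Fin n → ℝ) : Set ℕ := {k | ∀ z, x ∈ Cu D.a k z → Adm D k z}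

/-- the scale of the mesh at `x`. -/
noncomputable def K (x : Fin n → ℝ) : ℕ := sInf (gd D x)

variable {D}

lemma Dat.C_pos : 0 < D.C := lt_trans zero_lt_one D.hC

lemma Adm.child {k : ℕ} {z z' : Fin n → ℤ} (h : Adm D k z) (hz : (fun i => z' i / 2) = z) :
    Adm D (k + 1) z' := by
  intro x hx
  have hx' := Cu_parent D.a k z' hx
  rw [hz] at hx'
  have h1 := h x hx'
  have h2 : (0 : ℝ) ≤ 2 ^ k * D.ρ x := mul_nonneg (by positivity) (D.nonneg x)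
  calc D.C ≤ 2 ^ k * D.ρ x := h1
    _ ≤ 2 * (2 ^ k * D.ρ x) := by linarith
    _ = 2 ^ (k + 1) * D.ρ x := by rw [pow_succ]; ring

lemma gd_succ {x : Fin n → ℝ} {k : ℕ} (h : k ∈ gd D x) : k + 1 ∈ gd D x := fun z hz =>
  (h _ (Cu_parent D.a k z hz)).child rfl

lemma gd_mono {x : Fin n → ℝ} {k k' : ℕ} (h : k ∈ gd D x) (hk : k ≤ k') : k' ∈ gd D x := by
  induction k', hk using Nat.le_induction with
  | base => exact h
  | succ m _ ih => exact gd_succ ih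

lemma gd_of_large {x : Fin n → ℝ} {k : ℕ} (h : D.C + 1 ≤ 2 ^ k * D.ρ x) : k ∈ gd D x := by
  intro z hz y hy
  have h1 := dist_le_of_mem_Cu hz hy
  have h2 := D.lip x y
  have h3 : (0 : ℝ) < 2 ^ k := by positivity
  have h4 : 2 ^ k * D.ρ x ≤ 2 ^ k * D.ρ y + 2 ^ k * dist x y := by
    rw [← mul_add]; exact mul_le_mul_of_nonneg_left h2 h3.le
  linarith

lemma gd_nonempty {x : Fin n → ℝ} (hx : 0 < D.ρ x) : (gd D x).Nonempty := by
  obtain ⟨k, hk⟩ := pow_unbounded_of_one_lt ((D.C + 1) / D.ρ x) (one_lt_two : (1 : ℝ) < 2)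
  refine ⟨k, gd_of_large ?_⟩
  rw [div_lt_iff₀ hx] at hk
  exact hk.le

lemma zero_notMem_gd (x : Fin n → ℝ) : 0 ∉ gd D x := by
  intro h
  have h1 := h _ (mem_Cu_floor D.a 0 x) x (mem_Cu_floor D.a 0 x)
  have h2 := D.le_one x
  have h3 := D.hC
  rw [pow_zero, one_mul] at h1
  linarith

lemma K_mem {x : Fin n → ℝ} (hx : 0 < D.ρ x) : K D x ∈ gd D x := Nat.sInf_mem (gd_nonempty hx)

lemma K_le_iff {x : Fin n → ℝ} (hx : 0 < D.ρ x) {k : ℕ} : K D x ≤ k ↔ k ∈ gd D x :=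
  ⟨fun h => gd_mono (K_mem hx) h, fun h => Nat.sInf_le h⟩

lemma K_pos {x : Fin n → ℝ} (hx : 0 < D.ρ x) : 0 < K D x := by
  rcases Nat.eq_zero_or_pos (K D x) with h | h
  · exact absurd (h ▸ K_mem hx) (zero_notMem_gd x)
  · exact h

lemma pred_notMem {x : Fin n → ℝ} (hx : 0 < D.ρ x) {k : ℕ} (hk : k < K D x) : k ∉ gd D x :=
  fun h => absurd ((K_le_iff hx).2 h) (not_le.2 hk)

lemma K_lower {x : Fin n → ℝ} (hx : 0 < D.ρ x) : D.C ≤ 2 ^ (K D x) * D.ρ x :=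
  K_mem hx _ (mem_Cu_floor D.a _ x) x (mem_Cu_floor D.a _ x)

lemma upper_of_notMem {x : Fin n → ℝ} {k : ℕ} (h : k ∉ gd D x) : 2 ^ k * D.ρ x < D.C + 1 := by
  by_contra h'
  exact h (gd_of_large (not_lt.1 h'))

lemma K_upper {x : Fin n → ℝ} (hx : 0 < D.ρ x) : 2 ^ (K D x) * D.ρ x < 2 * D.C + 2 := by
  obtain ⟨m, hm⟩ : ∃ m, K D x = m + 1 := ⟨K D x - 1, by have := K_pos hx; omega⟩
  have h1 := upper_of_notMem (pred_notMem hx (k := m) (by omega))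
  rw [hm, pow_succ]
  nlinarith

variable (D) in
/-- mesh cells. -/
def IsM (σ : Idx n) : Prop := ∃ x ∈ Do D.a σ, 0 < D.ρ x ∧ K D x = σ.k

/-- (M6) the size on a mesh cell. -/
lemma IsM.lower {σ : Idx n} (h : IsM D σ) {y : Fin n → ℝ} (hy : y ∈ Dc D.a σ) :
    D.C ≤ 2 ^ σ.k * D.ρ y := by
  obtain ⟨x, hx, hx0, hK⟩ := h
  have h1 := K_mem hx0
  rw [hK] at h1
  have h2 := mem_Cu_floor D.a σ.k x
  exact h1 _ h2 y (same_closed hx hy (σ := ⟨σ.k, _, Finset.univ⟩) le_rfl h2)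

lemma IsM.pos {σ : Idx n} (h : IsM D σ) {y : Fin n → ℝ} (hy : y ∈ Dc D.a σ) : 0 < D.ρ y := by
  have h1 := h.lower hy
  have h2 := D.C_pos
  by_contra h3
  have h4 : D.ρ y = 0 := le_antisymm (not_lt.1 h3) (D.nonneg y)
  rw [h4, mul_zero] at h1
  linarith

lemma IsM.subset_Om {σ : Idx n} (h : IsM D σ) : Dc D.a σ ⊆ D.Om := fun _ hy => h.pos hy

/-- the scale at the points of a closed mesh cell is at least that of the cell. -/
lemma IsM.le_K {σ : Idx n} (h : IsM D σ) {y : Fin n → ℝ} (hy : y ∈ Dc D.a σ) : σ.k ≤ K D y := by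
  have hy0 := h.pos hy
  obtain ⟨x, hx, hx0, hK⟩ := h
  by_contra hlt
  push Not at hlt
  have h1 : K D y ∉ gd D x := pred_notMem hx0 (by omega)
  apply h1
  intro z hz
  exact K_mem hy0 z (same_closed hx hy (σ := ⟨K D y, z, Finset.univ⟩) hlt.le hz)

lemma IsM.K_eq {σ : Idx n} (h : IsM D σ) {y : Fin n → ℝ} (hy : y ∈ Do D.a σ) :
    K D y = σ.k := by
  refine le_antisymm ?_ (h.le_K (Do_subset_Dc _ _ hy))
  rw [K_le_iff (h.pos (Do_subset_Dc _ _ hy))]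
  obtain ⟨x, hx, hx0, hK⟩ := h
  intro z hz
  have h1 := K_mem hx0
  rw [hK] at h1
  exact h1 z (same_closed hy (Do_subset_Dc _ _ hx) (σ := ⟨σ.k, z, Finset.univ⟩) le_rfl hz)

/-- scales of touching cells differ by at most one. -/
lemma IsM.K_le {σ : Idx n} (h : IsM D σ) {y : Fin n → ℝ} (hy : y ∈ Dc D.a σ) :
    K D y ≤ σ.k + 1 := by
  have h1 := h.lower hy
  have h2 := K_upper (h.pos hy)
  have h3 := D.hC
  have hy0 := h.pos hy
  by_contra hlt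
  push Not at hlt
  have h4 : (2 : ℝ) ^ (σ.k + 2) ≤ 2 ^ (K D y) := pow_le_pow_right₀ one_le_two hlt
  have h5 : (2 : ℝ) ^ (σ.k + 2) * D.ρ y ≤ 2 ^ (K D y) * D.ρ y :=
    mul_le_mul_of_nonneg_right h4 hy0.le
  have h6 : (2 : ℝ) ^ (σ.k + 2) * D.ρ y = 4 * (2 ^ σ.k * D.ρ y) := by rw [pow_add]; ring
  linarith

/-- the mesh cell whose open cell contains `x`. -/
noncomputable def cell (D : Dat n) (x : Fin n → ℝ) : Idx n := cellOf D.a (K D x) x

@[simp] lemma cell_k (x : Fin n → ℝ) : (cell D x).k = K D x := rfl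

lemma mem_Do_cell (x : Fin n → ℝ) : x ∈ Do D.a (cell D x) := mem_Do_cellOf _ _ _

lemma mem_Dc_cell (x : Fin n → ℝ) : x ∈ Dc D.a (cell D x) := mem_Dc_cellOf _ _ _

lemma isM_cell {x : Fin n → ℝ} (hx : 0 < D.ρ x) : IsM D (cell D x) :=
  ⟨x, mem_Do_cell x, hx, rfl⟩

/-- (M0) -/
lemma IsM.eq_cell {σ : Idx n} (h : IsM D σ) {x : Fin n → ℝ} (hx : x ∈ Do D.a σ) :
    σ = cell D x := by
  have h1 := mem_Do_iff.1 hx
  unfold cell
  rw [h.K_eq hx, h1]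

lemma IsM.eq_of_mem {σ τ : Idx n} (h : IsM D σ) (h' : IsM D τ) {x : Fin n → ℝ}
    (hx : x ∈ Do D.a σ) (hx' : x ∈ Do D.a τ) : σ = τ :=
  (h.eq_cell hx).trans (h'.eq_cell hx').symm

/-- (M1), also for every closed dyadic cell of scale `≤ K`. -/
lemma Dc_cell_subset {φ : Idx n} {y : Fin n → ℝ} (hy : y ∈ Dc D.a φ) (hk : φ.k ≤ K D y) :
    Dc D.a (cell D y) ⊆ Dc D.a φ :=
  nest (σ := φ) (τ := cell D y) hk (mem_Do_cell y) hy

lemma IsM.cell_subset {σ : Idx n} (h : IsM D σ) {y : Fin n → ℝ} (hy : y ∈ Dc D.a σ) :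
    Dc D.a (cell D y) ⊆ Dc D.a σ := Dc_cell_subset hy (h.le_K hy)


/-- (M2) -/
lemma IsM.J_ssubset {σ : Idx n} (h : IsM D σ) {y : Fin n → ℝ} (hy : y ∈ Dc D.a σ)
    (hy' : y ∉ Do D.a σ) : (cell D y).J ⊂ σ.J :=
  lt_of_le_of_lt (J_anti D.a (h.le_K hy) y) (J_ssubset_of_mem hy hy')

lemma Dc_nonempty (a : Fin n → ℝ) (σ : Idx n) : (Do a σ).Nonempty := by
  refine ⟨fun i => a i + (σ.z i + if i ∈ σ.J then 1 / 2 else 0) / 2 ^ σ.k, fun i => ?_⟩
  have h2 : (2 : ℝ) ^ σ.k ≠ 0 := by positivity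
  have e : ps a σ.k (fun i => a i + (σ.z i + if i ∈ σ.J then 1 / 2 else 0) / 2 ^ σ.k) i =
      σ.z i + if i ∈ σ.J then 1 / 2 else 0 := by
    unfold ps
    field_simp
    ring
  rw [e]
  refine ⟨fun hi => ?_, fun hi => ?_⟩
  · simp only [hi, if_true]
    constructor <;> linarith
  · simp only [hi, if_false, add_zero]

/-- the mesh cells as a type. -/
def Cel (D : Dat n) : Type := {σ : Idx n // IsM D σ}

/-- the closed cell. -/
def Cel.c (σ : Cel D) : Set (Fin n → ℝ) := Dc D.a σ.1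

/-- the open cell. -/
def Cel.o (σ : Cel D) : Set (Fin n → ℝ) := Do D.a σ.1

/-- the dimension. -/
def Cel.d (σ : Cel D) : ℕ := σ.1.J.card

lemma Cel.J_ssubset {σ τ : Cel D} (h : σ.c ⊆ τ.c) (hne : σ ≠ τ) : σ.1.J ⊂ τ.1.J := by
  obtain ⟨x, hx⟩ := Dc_nonempty D.a σ.1
  have h1 : x ∈ Dc D.a τ.1 := h (Do_subset_Dc _ _ hx)
  have h2 : x ∉ Do D.a τ.1 := fun h2 => hne (Subtype.ext (σ.2.eq_of_mem τ.2 hx h2))
  have h3 := τ.2.J_ssubset h1 h2
  rwa [← σ.2.eq_cell hx] at h3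

lemma Cel.c_injective : Function.Injective (Cel.c (D := D)) := by
  intro σ τ h
  by_contra hne
  have h1 := Cel.J_ssubset h.subset hne
  have h2 := Cel.J_ssubset h.symm.subset (Ne.symm hne)
  exact lt_irrefl _ (h1.trans h2)

instance : PartialOrder (Cel D) := PartialOrder.lift Cel.c Cel.c_injective

lemma Cel.le_def {σ τ : Cel D} : σ ≤ τ ↔ σ.c ⊆ τ.c := Iff.rfl


/-- the cell through a point. -/
noncomputable def Cel.of (x : Fin n → ℝ) (hx : x ∈ D.Om) : Cel D := ⟨cell D x, isM_cell hx⟩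

lemma Cel.mem_of (x : Fin n → ℝ) (hx : x ∈ D.Om) : x ∈ (Cel.of x hx).o := mem_Do_cell x

lemma Cel.eq_of {σ : Cel D} {x : Fin n → ℝ} (hx : x ∈ σ.o) (hx' : x ∈ D.Om) :
    σ = Cel.of x hx' := Subtype.ext (σ.2.eq_cell hx)

lemma Cel.o_subset_c (σ : Cel D) : σ.o ⊆ σ.c := Do_subset_Dc _ _

lemma Cel.c_subset_Om (σ : Cel D) : σ.c ⊆ D.Om := σ.2.subset_Om

lemma Cel.o_nonempty (σ : Cel D) : σ.o.Nonempty := Dc_nonempty _ _

lemma Cel.of_le {σ : Cel D} {x : Fin n → ℝ} (hx : x ∈ σ.c) :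
    Cel.of x (σ.c_subset_Om hx) ≤ σ := σ.2.cell_subset hx

/-- (M0) the open cells are disjoint. -/
lemma Cel.eq_of_mem_o {σ τ : Cel D} {x : Fin n → ℝ} (hx : x ∈ σ.o) (hx' : x ∈ τ.o) : σ = τ :=
  Subtype.ext (σ.2.eq_of_mem τ.2 hx hx')

lemma Cel.pairwise_disjoint : Pairwise fun σ τ : Cel D => Disjoint σ.o τ.o := fun _ _ h =>
  Set.disjoint_left.2 fun _ hx hx' => h (Cel.eq_of_mem_o hx hx')



/-- a cell meeting an open cell contains it. -/
lemma Cel.le_of_mem {σ τ : Cel D} {x : Fin n → ℝ} (hx : x ∈ σ.o) (hx' : x ∈ τ.c) : σ ≤ τ := by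
  rw [Cel.eq_of hx (τ.c_subset_Om hx')]
  exact Cel.of_le hx'

/-- (M1) -/
lemma Cel.c_eq (τ : Cel D) : τ.c = ⋃ σ ∈ {σ : Cel D | σ ≤ τ}, σ.o := by
  ext x
  simp only [mem_iUnion, mem_ofPred_eq, exists_prop]
  constructor
  · intro hx
    exact ⟨Cel.of x (τ.c_subset_Om hx), Cel.of_le hx, Cel.mem_of _ _⟩
  · rintro ⟨σ, h, hx⟩
    exact h (σ.o_subset_c hx)


/-- (M3) -/
lemma Cel.inter (σ τ : Cel D) :
    σ.c ∩ τ.c = ⋃ υ ∈ {υ : Cel D | υ ≤ σ ∧ υ ≤ τ}, υ.o := by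
  ext x
  simp only [mem_iUnion, mem_ofPred_eq, exists_prop, mem_inter_iff]
  constructor
  · rintro ⟨h1, h2⟩
    refine ⟨Cel.of x (σ.c_subset_Om h1), ⟨Cel.of_le h1, Cel.of_le h2⟩, Cel.mem_of _ _⟩
  · rintro ⟨υ, ⟨h1, h2⟩, hx⟩
    exact ⟨h1 (υ.o_subset_c hx), h2 (υ.o_subset_c hx)⟩

/-- size on a cell: `C ≤ 2^k ρ < 4(C+1)` everywhere on a closed cell of scale `k`. -/
lemma Cel.size (σ : Cel D) {y : Fin n → ℝ} (hy : y ∈ σ.c) :
    D.C ≤ 2 ^ σ.1.k * D.ρ y ∧ 2 ^ σ.1.k * D.ρ y < 2 * D.C + 2 := by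
  refine ⟨σ.2.lower hy, ?_⟩
  have h1 := K_upper (σ.2.pos hy)
  have h2 : (2 : ℝ) ^ σ.1.k ≤ 2 ^ (K D y) := pow_le_pow_right₀ one_le_two (σ.2.le_K hy)
  have h3 := mul_le_mul_of_nonneg_right h2 (D.nonneg y)
  linarith

/-- scales of touching cells. -/
lemma Cel.scale_le {σ τ : Cel D} {y : Fin n → ℝ} (hy : y ∈ σ.c) (hy' : y ∈ τ.c) :
    σ.1.k ≤ τ.1.k + 1 := (σ.2.le_K hy).trans (τ.2.K_le hy')

lemma Cel.scale_mono {σ τ : Cel D} (h : σ ≤ τ) : τ.1.k ≤ σ.1.k := by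
  obtain ⟨x, hx⟩ := σ.o_nonempty
  have h1 := τ.2.le_K (h (σ.o_subset_c hx))
  rwa [σ.2.K_eq hx] at h1

end Crest.Agent.R096.Msh_810
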