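import Crest.Agent.R096.Frn1_337
import Crest.Agent.R096.Nr5_527
import Crest.Agent.R096.E1r2_914
import Crest.Agent.R096.Onb2_63
import Crest.Agent.R096.Qdl1_662
import Crest.Agent.R096.Lay2_316

-- ▼ part R096/Ni1_914
section

/-!
# R096 (row 96), bottom, the seam (helper914): the clause `ni` of 337's `Front` (N1), all cores, from the
clauses `qin`, `actK`, `actP`, `actI` of `Front`, `Lay` and `Cores`
-/

set_option autoImplicit false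
set_option linter.unusedSectionVars false
set_option linter.unusedVariables false
set_option linter.style.longLine false

open Set Relation Module

namespace Crest.Agent.R096.Ni_914

open Crest.Agent.R096.Brk1_582 Crest.Agent.R096.Brk2_582 Crest.Agent.R096.Brk3_582
open Crest.Agent.R096.Brk5_582 Crest.Agent.R096.Bsp_628
open Crest.Agent.R096.St_147 Crest.Agent.R096.Seq_213 Crest.Agent.R096.Seq_213.GSt
open Crest.Agent.R096.Lm_117 Crest.Agent.R096.Ac_117 Crest.Agent.R096.Msh_715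
open Crest.Agent.R096.Cp_298 Crest.Agent.R096.Gm_298 Crest.Agent.R096.Gl_422
open Crest.Agent.R096.SkB_662 Crest.Agent.R096.Cpo_642
open Crest.Agent.R096.Agl5_543 Crest.Agent.R096.Ori_543
open Crest.Agent.R096.Init_543 (JJ fr3)
open Crest.Agent.R096.SkC1_961 (E3 Hom3 FoamD Cfg th)
open Crest.Agent.R096.Mbf_337 (KJ sb Cores)
open Crest.Agent.R096.Frn_337

variable {δ κ0 R c0 : ℝ} {La Om : Set E3} {ι : Type}
variable {Φ : FoamD δ κ0 R c0 La} {T : Tiling Om ι} {f : E3 → E3} {κ1 κ2 : ℝ} {X : Set Φ.F}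
  {J0 Jt V : Φ.F → Set ι} {ct : Φ.F → ι} {A : Φ.F → E3 ≃ᵃ[ℝ] E3} {lam : Φ.F → ℝ} {z : Φ.F → E3}
  {θ : Φ.F → E3 → E3} {φ : Φ.F → E3 → ℝ}
  {ι3 : Type} {T3 : Tiling Om ι3} {KK : Ti X → Set E3} {c3 : ι → ι3}

/-- **the fifth brick**: a point of the brick `c` which lies over the quad `k`, has `c ∈ k.Z` -/
theorem mem_Z (hLa : IsOpen La) {k : Init_543.QK (Pc Φ.F)} {y : E3} {c : Φ.F} (hy : y ∈ Pc Φ.F c)
    (hB : ∀ a ∈ k.B, sb Φ y a ∈ Ioo (0:ℝ) 1) (hZ : ∀ a ∈ k.Z, sb Φ y a = 0) : c ∈ k.Z := by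
  have F : Foam La (Pc Φ.F) (bc (F := Φ.F)) 4 := by
    have := foam Φ.bf hLa
    simpa using this
  have hyL := F.sub c hy
  have hc : sb Φ y c = 0 := (F.sc_eq_zero hyL).2 hy
  have hBf : k.B.Finite := Set.finite_of_ncard_ne_zero (by rw [k.cB]; norm_num)
  have hZf : k.Z.Finite := Set.finite_of_ncard_ne_zero (by rw [k.cZ]; norm_num)
  have h4 : (k.B ∪ k.Z).ncard = 4 := by
    rw [Set.ncard_union_eq k.dis hBf hZf, k.cB, k.cZ]
  have hsub : k.B ∪ k.Z ⊆ {b | sc (Pc Φ.F) (bc (F := Φ.F)) y b < 1} := by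
    rintro b (hb | hb)
    · exact (hB b hb).2
    · show sb Φ y b < 1
      rw [hZ b hb]; exact one_pos
  have heq : k.B ∪ k.Z = {b | sc (Pc Φ.F) (bc (F := Φ.F)) y b < 1} :=
    Set.eq_of_subset_of_ncard_le hsub (by rw [h4]; exact F.sc_lt_one_ncard hyL)
      (F.sc_lt_one_finite hyL)
  have hcm : c ∈ k.B ∪ k.Z := by
    rw [heq]
    show sb Φ y c < 1
    rw [hc]; exact one_pos
  rcases hcm with h | h
  · have := (hB c h).1
    rw [hc] at this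
    exact absurd this (lt_irrefl _)
  · exact h

variable [Nonempty T3.Cell] {hH : ∀ k, CoreH T3 (KK k)}
    {hdis : ∀ k k', k ≠ k' → Disjoint (KK k) (KK k')}
    {L : Φ.F → Finset ℝ} {Qd : Quads (ι3 ⊕ Ti X) Φ.F (Init_543.QK (Pc Φ.F))}
    {s₀ : GSt (mK fr3 hH hdis) (fun j : JJ Φ L => j.1)}

/-- sides of a face of `meshK` -/
theorem mem_sideM {q : ι3 ⊕ Ti X}
    {F : {F : C2 T3 // ¬ (((meshC T3 fr3).side F).map (piK T3 KK)).IsDiag}} :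
    q ∈ (mK fr3 hH hdis).side F ↔ ∃ p ∈ T3.at_ F.1.pt, piK T3 KK p = q := by
  show q ∈ ((meshC T3 fr3).side F.1).map _ ↔ _
  rw [mem_map_iff]
  constructor
  · rintro ⟨p, hp, h⟩; exact ⟨p, (C2.mem_side (h3 := fr3)).1 hp, h⟩
  · rintro ⟨p, hp, h⟩; exact ⟨p, (C2.mem_side (h3 := fr3)).2 hp, h⟩

/-- a `T3`-tile outside the remaining cores lies in a tile which is near no tiny hole -/
theorem exists_tile (hL : Lay Φ T X J0 Jt T3 KK c3)
    (hC : Cores Φ T f κ1 κ2 X J0 Jt V ct A lam z θ φ) {i3 : ι3}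
    (hout : ∀ k, ¬ P (T3.H i3) ⊆ KK k) : ∃ i, P (T3.H i3) ⊆ P (T.H i) ∧ (∀ k : Ti X, i ∉ J0 k.1) ∧
      ((∃ c ∈ X, i ∈ J0 c) → i3 = c3 i) := by
  rcases hL.lay i3 hout with ⟨i, rfl, hi⟩ | ⟨k, i, h1, h2, h3⟩
  · exact ⟨i, (hL.keep i hi).subset, fun k h => hi k ((hC.tiny k.1 k.2).sub0 h), fun _ => rfl⟩
  · have hV : i ∈ V k.1 := (hC.tiny k.1 k.2).sub h1
    refine ⟨i, h3, fun k' h => ?_, ?_⟩
    · by_cases hk : k'.1 = k.1
      · exact h2 (hk ▸ h)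
      · exact Set.disjoint_left.1 (hC.disj k'.1 k.1 hk)
          ((hC.tiny k'.1 k'.2).sub ((hC.tiny k'.1 k'.2).sub0 h)) hV
    · rintro ⟨c, hc, hic⟩
      have hne : c ≠ k.1 := by rintro rfl; exact k.2 hc
      have h5 : i ∈ V c := by
        rw [(hC.one c hc).2.2, ← (hC.one c hc).1]; exact hic
      exact absurd hV (Set.disjoint_left.1 (hC.disj c k.1 hne) h5)

/-- **(N1): the clause `ni` of `Front`** -/
theorem ni_front (hLa : IsOpen La) (hf : Hom3 f Om La) (hκ1 : 0 ≤ κ1) (hκ : κ0 * κ1 < κ2)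
    (hL : Lay Φ T X J0 Jt T3 KK c3) (hC : Cores Φ T f κ1 κ2 X J0 Jt V ct A lam z θ φ)
    (qin : ∀ k c, Qd.In k c ↔ c ∈ k.B) (actK : ∀ k c, cti X c3 ct c ∉ Qd.Act k)
    (actP : ∀ k i3, Sum.inl i3 ∈ Qd.Act k → ∀ i, P (T3.H i3) ⊆ P (T.H i) → ∀ x ∈ P (T.H i),
      (∀ a ∈ k.B, Φ.lev a (f x) ∈ Ioo (0:ℝ) 1) ∧ ∀ a ∈ k.Z, Φ.lev a (f x) = 0)
    (actI : ∀ k i3, (∀ k', ¬ P (T3.H i3) ⊆ KK k') → ∀ i, (∀ c, i ∉ J0 c) →
      P (T3.H i3) ⊆ P (T.H i) → ∀ x ∈ P (T.H i),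
      (∀ a ∈ k.B, ∃ w ∈ s₀.P, (s₀.lab w).1 = a ∧ w ∈ P (T3.H i3)) →
      (∀ a ∈ k.Z, Φ.lev a (f x) = 0) → Sum.inl i3 ∈ Qd.Act k)
    (far₀ : JJ Φ L → Set E3) : ∀ k, NI s₀ far₀ Qd k (cti X c3 ct '' k.Z) := by
  intro k F hT w w' hw hw' _ _ hin hin' hne q hq
  rw [qin] at hin hin'
  -- the active side
  obtain ⟨q₁, hq₁, hact⟩ := hT
  obtain ⟨p₁, hp₁, e₁⟩ := mem_sideM.1 hq₁
  have hq₁' : ∃ i1 : ι3, q₁ = Sum.inl i1 := by
    rcases q₁ with i1 | c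
    · exact ⟨i1, rfl⟩
    · exfalso
      have h1 := actK k c.1
      unfold cti at h1
      rw [dif_pos c.2] at h1
      exact h1 hact
  obtain ⟨i1, rfl⟩ := hq₁'
  obtain ⟨rfl, hout₁⟩ := piK_inl.1 e₁
  obtain ⟨i, hsub, hiT, hiX⟩ := exists_tile hL hC hout₁
  -- the tile of the active side is in no `J0`
  have hiJ : ∀ c, i ∉ J0 c := by
    intro c hc
    by_cases hcX : c ∈ X
    · have h1 := hiX ⟨c, hcX, hc⟩
      rw [(hC.one c hcX).1, mem_singleton_iff] at hc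
      have h2 := actK k c
      unfold cti at h2
      rw [dif_neg (not_not.2 hcX), ← hc, ← h1] at h2
      exact h2 hact
    · exact hiT ⟨c, hcX⟩ hc
  have hx1 : F.1.pt ∈ P (T3.H p₁) := hp₁
  have hxi : F.1.pt ∈ P (T.H i) := hsub hx1
  obtain ⟨hB, hZ⟩ := actP k p₁ hact i hsub _ hxi
  -- a core whose tile contains the point is one of the two cores of the quad
  have key : ∀ c : Φ.F, F.1.pt ∈ KJ T (V c) → c ∈ k.Z := by
    intro c hc
    have h1 := Nr_527.V_inside hC hc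
    have h2 : f F.1.pt ∈ Pc Φ.F c := Bx.mem_set.2 fun l => ⟨(h1 l).1.le, (h1 l).2.le⟩
    exact mem_Z hLa (Nr_527.Psi_mem Φ hLa h2 (Nr_527.not_hole2 hf hκ1 hκ hC (hiJ c) hxi)) hB hZ
  -- the other side
  obtain ⟨p, hp, e⟩ := mem_sideM.1 hq
  rcases q with i3 | c
  · obtain ⟨rfl, hout⟩ := piK_inl.1 e
    obtain ⟨i', hsub', hiT', hiX'⟩ := exists_tile hL hC hout
    by_cases hiJ' : ∀ c, i' ∉ J0 c
    · left
      refine actI k p hout i' hiJ' hsub' _ (hsub' hp) ?_ hZ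
      have hFs : F.1.set ⊆ P (T3.H p) :=
        C2.sub_tile (h3 := fr3) ((C2.mem_side (h3 := fr3)).2 hp)
      obtain ⟨b, -, hbb, hbB⟩ := k.exists_other hin
      intro a ha
      have hpair : k.B = {(s₀.lab w).1, (s₀.lab w').1} := by
        refine (Set.eq_of_subset_of_ncard_le ?_ ?_
          (Set.finite_of_ncard_ne_zero (by rw [k.cB]; norm_num))).symm
        · rintro x (rfl | rfl)
          · exact hin
          · exact hin'
        · rw [k.cB, Set.ncard_pair hne]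
      rw [hpair] at ha
      rcases ha with rfl | rfl
      · exact ⟨w, hw.1, rfl, hFs hw.2.1⟩
      · exact ⟨w', hw'.1, rfl, hFs hw'.2.1⟩
    · right
      push Not at hiJ'
      obtain ⟨c, hc⟩ := hiJ'
      have hcX : c ∈ X := by
        by_contra h
        exact hiT' ⟨c, h⟩ hc
      have h1 := hiX' ⟨c, hcX, hc⟩
      have hc' := hc
      rw [(hC.one c hcX).1, mem_singleton_iff] at hc'
      refine ⟨c, key c ?_, ?_⟩
      · refine Nr_527.mem_KJ.2 ⟨i', ?_, hsub' hp⟩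
        rw [(hC.one c hcX).2.2, mem_singleton_iff]; exact hc'
      · unfold cti
        rw [dif_neg (not_not.2 hcX), ← hc', ← h1]
  · right
    refine ⟨c.1, key c.1 ?_, ?_⟩
    · have h1 : P (T3.H p) ⊆ KK c := (piK_inr hdis).1 e
      obtain ⟨i', h2, h3⟩ := Nr_527.mem_KJ.1 (hL.sub c (h1 hp))
      exact Nr_527.mem_KJ.2 ⟨i', (hC.tiny c.1 c.2).sub h2, h3⟩
    · unfold cti
      rw [dif_pos c.2]

end Crest.Agent.R096.Ni_914
end

-- ▼ part R096/E1r4_914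
section

/-!
# R096 (row 96), (E1) at the exact cores, part 4 (helper914): the clause `one` of 337's `Front` at the
exact cores, from the other clauses of `Front` (`lev`, `lab`, `labX`), `Lay`, `Cores`, `Words`
-/

set_option autoImplicit false
set_option linter.unusedSectionVars false
set_option linter.unusedVariables false
set_option linter.style.longLine false

open Set Relation Module

namespace Crest.Agent.R096.E1r_914

open Crest.Agent.R096.Brk1_582 Crest.Agent.R096.Brk2_582 Crest.Agent.R096.Brk3_582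
open Crest.Agent.R096.Brk5_582 Crest.Agent.R096.Bsp_628
open Crest.Agent.R096.St_147 Crest.Agent.R096.Seq_213 Crest.Agent.R096.Seq_213.GSt
open Crest.Agent.R096.Lm_117 Crest.Agent.R096.Ac_117 Crest.Agent.R096.Msh_715
open Crest.Agent.R096.Cp_298 Crest.Agent.R096.Gm_298 Crest.Agent.R096.Gl_422
open Crest.Agent.R096.SkB_662 Crest.Agent.R096.Cpo_642
open Crest.Agent.R096.Agl5_543 Crest.Agent.R096.Ori_543
open Crest.Agent.R096.Init_543 (JJ fr3)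
open Crest.Agent.R096.SkC1_961 (E3 Hom3 FoamD Cfg th)
open Crest.Agent.R096.Mbf_337 (KJ sb Cores Words Exact)
open Crest.Agent.R096.Frn_337 Crest.Agent.R096.Ecm_446 Crest.Agent.R096.Onb_63

variable {δ κ0 R c0 : ℝ} {La Om : Set E3} {ι : Type}
variable {Φ : FoamD δ κ0 R c0 La} {T : Tiling Om ι} {f : E3 → E3} {κ1 κ2 : ℝ} {X : Set Φ.F}
  {J0 Jt V : Φ.F → Set ι} {ct : Φ.F → ι} {A : Φ.F → E3 ≃ᵃ[ℝ] E3} {lam : Φ.F → ℝ} {z : Φ.F → E3}
  {θ : Φ.F → E3 → E3} {φ : Φ.F → E3 → ℝ} {M : Φ.F → ℕ}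
  {ι3 : Type} {T3 : Tiling Om ι3} {KK : Ti X → Set E3} {c3 : ι → ι3}
variable [Nonempty T3.Cell] {hH : ∀ k, CoreH T3 (KK k)}
    {hdis : ∀ k k', k ≠ k' → Disjoint (KK k) (KK k')} {hne : ∃ c, OutK T3 KK c}
    {L : Φ.F → Finset ℝ}
    {s₀ : GSt (mK fr3 hH hdis) (fun j : JJ Φ L => j.1)}
    {lam₀ : JJ Φ L → QK (belK T3 KK) → ZMod 2}

/-- the faces of the exact core tile in `meshK T3 KK` over `Lp` -/
theorem tileOf_Lp {i : ι3} (hout : ∀ k, ¬ P (T3.H i) ⊆ KK k) :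
    TileOf (Lp c3 ct hH hdis hne) T3 (kp T3 KK c3 ct) (Sum.inl i) i := fun F => mem_side_K hout F

theorem sur_Lp (q : {c : QK (belK T3 KK) // pO T3 KK c3 ct c})
    (hq : dimK (belK T3 KK) (fun c => c.1.dim) q.1 = 2) : ∃ F, (Lp c3 ct hH hdis hne).cf F = q := by
  obtain ⟨F, hF⟩ := (top3K fr3 hH hdis hne).cf_sur q.1 hq
  exact ⟨F, Subtype.ext hF⟩

/-- **(E1) at the exact cores**: the clause `one` of `Front` for `c ∈ X` -/
theorem one_ct (hLa : IsOpen La) (hL : Lay Φ T X J0 Jt T3 KK c3)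
    (hC : Cores Φ T f κ1 κ2 X J0 Jt V ct A lam z θ φ) (hW : Words Φ T f X ct A lam z M L)
    (ht : ∀ j : JJ Φ L, 0 < (j.2.1 : ℝ))
    (hlab : ∀ j, GLab (lmK fr3 hH hdis hne) (gp s₀ j) (lam₀ j))
    (hlev : ∀ c ∈ X, ∀ w ∈ s₀.P, w ∈ P (T.H (ct c)) → Φ.lev (s₀.lab w).1 (f w) = (s₀.lab w).2.1)
    (hlabX : ∀ c ∈ X, ∀ v : {c : T3.Cell // OutK T3 KK c}, v.1.dim = 0 → v.1.set ⊆ P (T.H (ct c)) →
      ∀ j : JJ Φ L, lam₀ j (QK.c _ v) = 1 ↔ Φ.lev j.1 (f v.1.pt) < j.2.1) :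
    ∀ c ∈ X, ∀ j : JJ Φ L, One s₀ {F | cti X c3 ct c ∈ (mK fr3 hH hdis).side F} j := by
  intro c hc j
  have hcti : cti X c3 ct c = Sum.inl (c3 (ct c)) := by
    unfold cti; rw [dif_neg (not_not.2 hc)]
  rw [hcti, ← oneCyc_iff]
  have hM := (hW.grid c hc).1
  have hM' : (0 : ℝ) < M c := by exact_mod_cast hM
  refine one_init (T := T3) (L := Lp c3 ct hH hdis hne) (κ := kp T3 KK c3 ct) hLa
    (exact3 hL hC hc) hM rfl onT_Lp (full_Lp (out_ct hL hC hc)) sur_Lp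
    (tileOf_Lp (out_ct hL hC hc)) (cg_of_grid hLa (exact3 hL hC hc) (grid3 hL hC hW hc))
    (cw3 hL hC hW hc) (la := fun j v => lam₀ j v.1) ?_ ?_ ?_ j (mul_pos hM' (ht j))
  · intro w hw hwi
    rw [keep_ct hL hC hc] at hwi
    exact hlev c hc w hw hwi
  · intro j q
    rw [On_441.gp_eq]
    exact (glab_sb (hlab j)).xl q
  · rintro ⟨v | k, hv⟩ hvD hv0 j
    · exact hlabX c hc v hv0 (by rw [← keep_ct hL hC hc]; exact hvD.1) j
    · exact hv.elim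

end Crest.Agent.R096.E1r_914
end

-- ▼ part R096/Frs1_662

/-!
# R096 (row 96), FRONT (helper662): the shell of 534's `FrontP`, part 1

`FrontM` = the minimal list for the state after DOORS (quads = `Qdl_662.qdT`); `front_of_min` :
with `Lay`, `Cores`, `Fine`, `Words` it gives 337's `Front`.
-/

set_option autoImplicit false
set_option linter.unusedSectionVars false
set_option linter.unusedVariables false
set_option linter.style.longLine false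

open Set Relation Module Topology Filter Metric

namespace Crest.Agent.R096.Frs_662

open Crest.Agent.R096.Brk1_582 Crest.Agent.R096.Brk2_582 Crest.Agent.R096.Brk3_582
open Crest.Agent.R096.Brk5_582 Crest.Agent.R096.Bsp_628
open Crest.Agent.R096.St_147 Crest.Agent.R096.Seq_213 Crest.Agent.R096.Seq_213.GSt
open Crest.Agent.R096.Lm_117 Crest.Agent.R096.Ac_117 Crest.Agent.R096.Msh_715
open Crest.Agent.R096.Cp_298 Crest.Agent.R096.Gm_298 Crest.Agent.R096.Gl_422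
open Crest.Agent.R096.SkB_662 Crest.Agent.R096.Cpo_642
open Crest.Agent.R096.Agl5_543 Crest.Agent.R096.Ori_543
open Crest.Agent.R096.Init_543 Crest.Agent.R096.Qdl_662
open Crest.Agent.R096.SkC1_961 (E3 Hom3 FoamD Cfg th NN)
open Crest.Agent.R096.Mbf_337 (KJ sb)
open Crest.Agent.R096.Frn_337

variable {δ κ0 R c0 : ℝ} {La Om : Set E3} {ι : Type}
variable {Φ : FoamD δ κ0 R c0 La} {T : Tiling Om ι} {X : Set Φ.F} {J0 Jt : Φ.F → Set ι}
  {ι3 : Type} {T3 : Tiling Om ι3} {KK : Ti X → Set E3} {c3 : ι → ι3}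

/-- **MINIMAL OUTPUT OF DOORS** for the state `s₀` over `meshK T3 KK`: `til` = the tile of `T` over a
tile of `T3`, `s'` = the margin of (B) -/
structure FrontM (T : Tiling Om ι) (f : E3 → E3) (J0 V : Φ.F → Set ι) (ct : Φ.F → ι)
    (c3 : ι → ι3) (til : ι3 → ι) (s' : ℝ) [Nonempty T3.Cell] (hH : ∀ k, CoreH T3 (KK k))
    (hdis : ∀ k k', k ≠ k' → Disjoint (KK k) (KK k')) (hne : ∃ c, OutK T3 KK c)
    {L : Φ.F → Finset ℝ} (Qd : Quads (ι3 ⊕ Ti X) Φ.F (Init_543.QK (Pc Φ.F)))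
    (s₀ : GSt (mK fr3 hH hdis) (fun j : JJ Φ L => j.1)) (far₀ : JJ Φ L → Set E3)
    (Gc : Φ.F → Set E3) (Zc : Φ.F → Set (QK (belK T3 KK)))
    (lam₀ : JJ Φ L → QK (belK T3 KK) → ZMod 2) (v₀ v₁ : Φ.F → QK (belK T3 KK)) : Prop where
  inv : s₀.Inv Qd far₀
  on : ∀ w ∈ s₀.P, w ∈ (lmK fr3 hH hdis hne).W1
  fin : ∀ F, (s₀.P ∩ (mK fr3 hH hdis).On F).Finite
  lab : LabIn (lmK fr3 hH hdis hne) Qd s₀ Gc Zc lam₀ v₀ v₁
  /-- (B): every point on a cell outside the remaining cores is near the middle levels of its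
  family somewhere on the tile of `T` -/
  posB : ∀ w ∈ s₀.P, ∀ i3, (∀ k', ¬ P (T3.H i3) ⊆ KK k') → w ∈ P (T3.H i3) →
    til i3 ∉ KorJ Φ J0 → ∃ x ∈ P (T.H (til i3)), Φ.lev (s₀.lab w).1 (f x) ∈ Icc s' (1 - s')
  lev : ∀ x ∈ s₀.P, ∀ i, (∀ k : Ti X, i ∉ V k.1) → x ∈ P (T.H i) →
    Φ.lev (s₀.lab x).1 (f x) = (s₀.lab x).2.1
  labX : ∀ c ∈ X, ∀ v : {c : T3.Cell // OutK T3 KK c}, v.1.dim = 0 → v.1.set ⊆ P (T.H (ct c)) →
    ∀ j : JJ Φ L, lam₀ j (QK.c _ v) = 1 ↔ Φ.lev j.1 (f v.1.pt) < j.2.1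
  ropX : ∀ c ∈ X, ∀ j : JJ Φ L,
    (∃ v : {c : T3.Cell // OutK T3 KK c}, v.1.dim = 0 ∧ v.1.set ⊆ P (T.H (ct c)) ∧
      ReflTransGen (Ed (lmK fr3 hH hdis hne) {e | FrE (lmK fr3 hH hdis hne) Qd j.1 e})
        (v₀ j.1) (QK.c _ v)) ∨
    ∀ v : {c : T3.Cell // OutK T3 KK c}, v.1.dim = 0 → v.1.set ⊆ P (T.H (ct c)) →
      QK.c _ v ∈ Zc j.1 ∧ ∀ j' : JJ Φ L, j'.1 = j.1 → lam₀ j' (QK.c _ v) = 0
  k4 : ∀ q, pO T3 KK c3 ct q → ∃ i, (∀ c, i ∉ J0 c) ∧ setK T3 KK q ⊆ P (T.H i) ∧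
    ∀ x ∈ P (T.H i), K4In (lmK fr3 hH hdis hne) Qd s₀ Zc v₀ (Pc Φ.F) {q}
      (fun _ => sb Φ (Φ.Psi (f x)))
  /-- (E1) at the tiny cores -/
  oneT : ∀ (k : Ti X) (j : JJ Φ L), One s₀ {F | Sum.inr k ∈ (mK fr3 hH hdis).side F} j
  /-- (E2) at the tiny cores -/
  twoT : ∀ (q : Init_543.QK (Pc Φ.F)) (k : Ti X), k.1 ∈ q.Z → ∀ j j' : JJ Φ L, j.1 ∈ q.B →
    j'.1 ∈ q.B → j.1 ≠ j'.1 → Two s₀ (Qd.Act q) {Sum.inr k} j j'

theorem cti_tiny {X : Set Φ.F} {c3 : ι → ι3} {ct : Φ.F → ι} {c : Φ.F} (hc : c ∉ X) :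
    cti X c3 ct c = Sum.inr ⟨c, hc⟩ := by
  classical
  exact dif_pos hc

section of_min

variable {f g : E3 → E3} {V : Φ.F → Set ι} {ct : Φ.F → ι} {ct' : Φ.F → ι} {r₀ : Φ.F → ℝ}
  {til : ι3 → ι} {ε s₁ s' : ℝ} {κ1 κ2 : ℝ} {A : Φ.F → E3 ≃ᵃ[ℝ] E3} {lam : Φ.F → ℝ}
  {z : Φ.F → E3} {θ : Φ.F → E3 → E3} {φ : Φ.F → E3 → ℝ} {M : Φ.F → ℕ}
  [Nonempty T3.Cell] {hH : ∀ k, CoreH T3 (KK k)}
  {hdis : ∀ k k', k ≠ k' → Disjoint (KK k) (KK k')} {hne : ∃ c, OutK T3 KK c}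
  {L : Φ.F → Finset ℝ} {s₀ : GSt (mK fr3 hH hdis) (fun j : JJ Φ L => j.1)}
  {far₀ : JJ Φ L → Set E3} {Gc : Φ.F → Set E3} {Zc : Φ.F → Set (QK (belK T3 KK))}
  {lam₀ : JJ Φ L → QK (belK T3 KK) → ZMod 2} {v₀ v₁ : Φ.F → QK (belK T3 KK)}

/-- **`Front` FROM THE MINIMAL LIST** (the hypothesis `htwoX` = 847) -/
theorem front_of_min (hLa : IsOpen La) (hf : Hom3 f Om La) (hκ1 : 0 ≤ κ1) (hκ : κ0 * κ1 < κ2)
    (hL : Lay Φ T X J0 Jt T3 KK c3) (hC : Mbf_337.Cores Φ T f κ1 κ2 X J0 Jt V ct A lam z θ φ)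
    (hW : Mbf_337.Words Φ T f X ct A lam z M L) (ht : ∀ j : JJ Φ L, 0 < (j.2.1 : ℝ))
    (hsub : ∀ p, P (T3.H p) ⊆ P (T.H (til p)))
    (htil : ∀ c ∈ X, til (c3 (ct c)) = ct c) (hR : InitR Φ T f g J0 ct' r₀)
    (hM : Mesh0 T (Pc Φ.F) (bc (F := Φ.F)) (RF Φ r₀) f (KorJ Φ J0) ε) (hε : ε < s₁)
    (hε1 : ε < 1) (hs' : s₁ + ε ≤ s')
    (h : FrontM T f J0 V ct c3 til s' hH hdis hne (qdT til hsub KK hLa hR hM hε hε1) s₀ far₀ Gc Zc
      lam₀ v₀ v₁)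
    (htwoX : ∀ k, ∀ c ∈ k.Z, c ∈ X → ∀ j j' : JJ Φ L, j.1 ∈ k.B → j'.1 ∈ k.B → j.1 ≠ j'.1 →
      Two s₀ ((qdT til hsub KK hLa hR hM hε hε1).Act k) {cti X c3 ct c} j j') :
    Front T f J0 Jt V ct c3 hH hdis hne (qdT til hsub KK hLa hR hM hε hε1) s₀ far₀ Gc Zc lam₀ v₀ v₁
    where
  inv := h.inv
  on := h.on
  fin := h.fin
  lab := h.lab
  qin := qin
  actK := actK hC htil
  actO := actO
  actP := actP
  actI := fun k i3 h1 i h2 h3 x hx hw hz => actI hs' h.posB k i3 h1 i h2 h3 x hx hw hz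
  lev := h.lev
  labX := h.labX
  ropX := h.ropX
  k4 := h.k4
  one := by
    intro c j
    by_cases hc : c ∈ X
    · refine E1r_914.one_ct hLa hL hC hW ht (fun j => h.lab.lab j) (fun c hc w hw hwt => ?_) h.labX
        c hc j
      refine h.lev w hw (ct c) (fun k hk => ?_) hwt
      have hck : c ≠ k.1 := fun e => k.2 (e ▸ hc)
      have h1 : ct c ∈ V c := by rw [(hC.one c hc).2.2]; rfl
      exact Set.disjoint_left.1 (hC.disj c k.1 hck) h1 hk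
    · rw [cti_tiny hc]
      exact h.oneT ⟨c, hc⟩ j
  two := by
    intro k c hc j j' hj hj' hne
    by_cases hcX : c ∈ X
    · exact htwoX k c hc hcX j j' hj hj' hne
    · rw [cti_tiny hcX]
      exact h.twoT k ⟨c, hcX⟩ hc j j' hj hj' hne
  ni := Ni_914.ni_front hLa hf hκ1 hκ hL hC qin (actK hC htil) actP
    (fun k i3 h1 i h2 h3 x hx hw hz => actI hs' h.posB k i3 h1 i h2 h3 x hx hw hz) far₀

end of_min

end Crest.Agent.R096.Frs_662
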