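import Crest.Agent.R096.Fsw15_928
import Crest.Agent.R096.Bd21_416
import Crest.Agent.R096.Fk9_522

-- ▼ part R096/Fsw17_928
section

/-!
# R096 (row 96), FACE-SWEEP, part 17: THE ESTIMATE, "for every e" (helper928)
-/

set_option autoImplicit false

open Set Metric Filter Topology MeasureTheory
open scoped ENNReal NNReal

namespace Crest.Agent.R096.Fsw_928

open Crest.Agent.R096.Ce_537 Crest.Agent.R096.Bd_416

lemma exists_small {C e : ℝ≥0∞} (hC : C ≠ ⊤) (he : e ≠ 0) :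
    ∃ δ : ℝ, 0 < δ ∧ δ ≤ 1 ∧ C * ENNReal.ofReal δ ≤ e := by
  obtain ⟨n, hn, h1⟩ := ENNReal.exists_nnreal_pos_mul_lt hC he
  refine ⟨min n 1, lt_min (by exact_mod_cast hn) one_pos, min_le_right _ _, ?_⟩
  rw [mul_comm]
  refine le_trans (mul_le_mul' ?_ le_rfl) h1.le
  refine (ENNReal.ofReal_le_ofReal (min_le_left _ _)).trans ?_
  rw [ENNReal.ofReal_coe_nnreal]

lemma ofReal_rpow_le {p x : ℝ} (hp : 1 ≤ p) (hx : x ≤ 1) :
    ENNReal.ofReal x ^ p ≤ ENNReal.ofReal x := by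
  have h1 : ENNReal.ofReal x ≤ 1 := by
    rw [← ENNReal.ofReal_one]; exact ENNReal.ofReal_le_ofReal hx
  calc ENNReal.ofReal x ^ p ≤ ENNReal.ofReal x ^ (1:ℝ) := ENNReal.rpow_le_rpow_of_exponent_ge h1 hp
    _ = _ := ENNReal.rpow_one _

section e

variable {ι : Type} {L : Lam (sph 2) ι} {K b : ℝ} {h ρ : ι → ℝ}

/-- all chords of `J` are of type A -/
def IsA (D : Dep L K b h ρ) (P : Par) (β : ℝ) (J : Finset ι) (w : ι → ℝ) (s' W lam μ : ℝ) : Prop :=
  ∃ k ym yp Kc ℓ, ClA D P β J w k ym yp Kc ℓ s' W lam μ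

/-- all chords of `J` are of type B -/
def IsB (D : Dep L K b h ρ) (P P' : Par) (β : ℝ) (J : Finset ι) (w : ι → ℝ) (s' W lam μ : ℝ) :
    Prop :=
  ∃ x ℓ kb kt ym yp Kc ℓ', ClB D P P' β J w x ℓ kb kt ym yp Kc ℓ' s' W lam μ

lemma three_terms {p S δ E : ℝ} {C e : ℝ≥0∞} (hp : 1 ≤ p) (hδ1 : δ ≤ 1)
    (h1 : (4 + ENNReal.ofReal (4 * S) ^ p * 3) * ENNReal.ofReal δ ≤ e / 2)
    {lam : ℝ} (h2 : C * ENNReal.ofReal lam ≤ e / 2)
    {a1 a2 a3 m1 m2 lam' : ℝ} {Λ : ℝ≥0∞} (b1 : a1 ≤ δ) (b2 : a2 ≤ 4 * S) (b3 : a3 ≤ E)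
    (c1 : m1 ≤ δ) (c2 : m2 ≤ δ) (c3 : lam' ≤ lam)
    (hC : ENNReal.ofReal E ^ p * (Λ * 4) ≤ C) :
    ENNReal.ofReal a1 ^ p * 4 + ENNReal.ofReal a2 ^ p * (ENNReal.ofReal m1 + 2 * ENNReal.ofReal m2)
      + ENNReal.ofReal a3 ^ p * (Λ * (4 * ENNReal.ofReal lam')) ≤ e := by
  have hp0 : 0 ≤ p := by linarith
  have k1 : ENNReal.ofReal a1 ^ p ≤ ENNReal.ofReal δ :=
    (ENNReal.rpow_le_rpow (ENNReal.ofReal_le_ofReal b1) hp0).trans (ofReal_rpow_le hp hδ1)
  have k2 : ENNReal.ofReal a2 ^ p ≤ ENNReal.ofReal (4 * S) ^ p :=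
    ENNReal.rpow_le_rpow (ENNReal.ofReal_le_ofReal b2) hp0
  have k3 : ENNReal.ofReal a3 ^ p ≤ ENNReal.ofReal E ^ p :=
    ENNReal.rpow_le_rpow (ENNReal.ofReal_le_ofReal b3) hp0
  have k4 := ENNReal.ofReal_le_ofReal c1
  have k5 := ENNReal.ofReal_le_ofReal c2
  have k6 := ENNReal.ofReal_le_ofReal c3
  rw [← ENNReal.add_halves e]
  refine add_le_add (le_trans ?_ h1) (le_trans ?_ h2)
  · rw [add_mul]
    refine add_le_add ?_ ?_
    · rw [mul_comm]; exact mul_le_mul' le_rfl k1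
    · rw [mul_assoc]
      refine mul_le_mul' k2 ?_
      calc ENNReal.ofReal m1 + 2 * ENNReal.ofReal m2
          ≤ ENNReal.ofReal δ + 2 * ENNReal.ofReal δ := add_le_add k4 (mul_le_mul' le_rfl k5)
        _ = 3 * ENNReal.ofReal δ := by ring
  · calc ENNReal.ofReal a3 ^ p * (Λ * (4 * ENNReal.ofReal lam'))
        ≤ ENNReal.ofReal E ^ p * (Λ * (4 * ENNReal.ofReal lam)) :=
          mul_le_mul' k3 (mul_le_mul' le_rfl (mul_le_mul' le_rfl k6))
      _ = ENNReal.ofReal E ^ p * (Λ * 4) * ENNReal.ofReal lam := by ring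
      _ ≤ C * ENNReal.ofReal lam := mul_le_mul' hC le_rfl

lemma crude_const {S Λc b' Q : ℝ} (hΛ : 0 ≤ Λc) (hb : 1/4 ≤ b') (hQ : Q ≤ S) (hS : 0 ≤ S) :
    Λc * Q / (2 * b') ≤ 2 * Λc * S := by
  rw [div_le_iff₀ (by linarith)]
  have h1 : Λc * Q ≤ Λc * S := mul_le_mul_of_nonneg_left hQ hΛ
  have h2 : 0 ≤ Λc * S := mul_nonneg hΛ hS
  nlinarith

/-- **THE FACE ESTIMATE** (order of the constants: `p, S, e`, then `δ`, then the two sweeps `P, P'`,
then `lam, η`) -/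
theorem face_lp {p : ℝ} (hp : 1 ≤ p) {S : ℝ} (hS : 0 ≤ S) {e : ℝ≥0∞} (he : e ≠ 0) :
    ∃ δ : ℝ, 0 < δ ∧ ∀ P P' : Par, 4 * (P.a + P.m * P.H) + 2 * (2 - P.H) ≤ δ →
    ∃ lam : ℝ, 0 < lam ∧ ∃ η : ℝ, 0 < η ∧
    ∀ {ι : Type} {L : Lam (sph 2) ι} {K b : ℝ} {h ρ : ι → ℝ} (D : Dep L K b h ρ) (_ : Disj L)
      (J : Finset ι) (w M : ι → ℝ) (β Q : ℝ), 0 < β → β ≤ 1 → 1/4 ≤ b * β →
      Crd L h J w M Q → Q ≤ S →
      (∀ s s' W lam' μ : ℝ, |s| ≤ S → |s - s'| ≤ δ → W ≤ S → μ ≤ δ → lam' ≤ lam →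
        IsA D P β J w s' W lam' μ →
        ∫⁻ z in osq, ‖fderiv ℝ (GJ D P P' β J w) z + s • pr 1‖ₑ ^ p ≤ e) ∧
      (∀ s s' W lam' μ : ℝ, |s| ≤ S → |s - s'| ≤ δ → W ≤ S → μ ≤ δ → lam' ≤ lam →
        IsB D P P' β J w s' W lam' μ →
        ∫⁻ z in osq, ‖fderiv ℝ (GJ D P P' β J w) z + s • pr 0‖ₑ ^ p ≤ e) ∧
      (∀ ℓ : ι → ℝ, (∀ i ∈ J, 0 ≤ ℓ i) → (∀ i ∈ J, Ends2 L i (ℓ i)) →
        ∑ i ∈ J, (ℓ i + h i) ≤ η →
        ∫⁻ z in osq, ENNReal.ofReal (∑ i ∈ J, |w i| * ‖fderiv ℝ (fb D P P' β i) z‖) ^ p ≤ e) := by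
  have hp0 : 0 < p := by linarith
  have he2 : e / 2 ≠ 0 := (ENNReal.half_pos he).ne'
  have hC1 : (4 + ENNReal.ofReal (4 * S) ^ p * 3 : ℝ≥0∞) ≠ ⊤ := by
    refine ENNReal.add_ne_top.2 ⟨by norm_num, ENNReal.mul_ne_top ?_ (by norm_num)⟩
    exact ENNReal.rpow_ne_top_of_nonneg hp0.le ENNReal.ofReal_ne_top
  obtain ⟨δ, hδ, hδ1, hδe⟩ := exists_small hC1 he2
  refine ⟨δ, hδ, fun P P' hP => ?_⟩
  obtain ⟨ΛA, ΛA', hA0, hA⟩ := exists_lp_A P P'
  obtain ⟨ΛB, ΛB', hB0, hB⟩ := exists_lp_B P P'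
  obtain ⟨ΛX, ΛX', hX0, hX⟩ := exists_lp_X P P'
  have hfin : ∀ (E : ℝ) (Λ : ℝ≥0), (ENNReal.ofReal E ^ p * ((Λ : ℝ≥0∞) * 4) : ℝ≥0∞) ≠ ⊤ :=
    fun E Λ => ENNReal.mul_ne_top (ENNReal.rpow_ne_top_of_nonneg hp0.le ENNReal.ofReal_ne_top)
      (ENNReal.mul_ne_top ENNReal.coe_ne_top (by norm_num))
  obtain ⟨l1, hl1, -, hl1e⟩ := exists_small (hfin (2 * max S (2 * ΛA * S) + 2 * S) ΛA') he2
  obtain ⟨l2, hl2, -, hl2e⟩ := exists_small (hfin (2 * max S (2 * ΛB * S) + 2 * S) ΛB') he2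
  obtain ⟨η, hη, -, hηe⟩ := exists_small (hfin (2 * (2 * ΛX * S)) ΛX') he
  refine ⟨min l1 l2, lt_min hl1 hl2, η, hη, ?_⟩
  intro ι L K b h ρ D hdj J w M β Q hβ0 hβ1 hbβ C hQ
  refine ⟨?_, ?_, ?_⟩
  · rintro s s' W lam' μ hs hss hW hμ hlam ⟨k, ym, yp, Kc, ℓ, A⟩
    have hs' : |s'| ≤ S := A.sW.trans hW
    refine (hA D hdj J w k ym yp Kc ℓ M β s s' W lam' μ Q p hβ0 hβ1 hp0.le A C).trans ?_
    refine three_terms (δ := δ) (S := S) (E := 2 * max S (2 * ΛA * S) + 2 * S)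
      hp hδ1 hδe hl1e hss (by linarith) ?_ hP hμ
      (hlam.trans (min_le_left _ _)) le_rfl
    have h3 : max W (ΛA * Q / (2 * (b * β))) ≤ max S (2 * ΛA * S) :=
      max_le_max hW (crude_const hA0 hbβ hQ hS)
    linarith
  · rintro s s' W lam' μ hs hss hW hμ hlam ⟨x, ℓ, kb, kt, ym, yp, Kc, ℓ', B⟩
    have hs' : |s'| ≤ S := B.sW.trans hW
    refine (hB D hdj J w x ℓ kb kt ym yp Kc ℓ' M β s s' W lam' μ Q p hβ0 hβ1 hp0.le B C).trans ?_
    refine three_terms (δ := δ) (S := S) (E := 2 * max S (2 * ΛB * S) + 2 * S)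
      hp hδ1 hδe hl2e hss (by linarith) ?_ hP hμ
      (hlam.trans (min_le_right _ _)) le_rfl
    have h3 : max W (ΛB * Q / (2 * (b * β))) ≤ max S (2 * ΛB * S) :=
      max_le_max hW (crude_const hB0 hbβ hQ hS)
    linarith
  · intro ℓ hℓ hE hsum
    have hQ0 : 0 ≤ Q ∨ J = ∅ := by
      rcases J.eq_empty_or_nonempty with hJ | ⟨i, hi⟩
      · exact Or.inr hJ
      · left
        exact (mul_nonneg (abs_nonneg _) (C.M0 i hi)).trans (C.wM i hi)
    rcases hQ0 with hQ0 | hJ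
    · refine (hX D hdj J w ℓ M β η Q p hβ0 hβ1 hp0 hℓ hE hsum C hQ0).trans ?_
      refine le_trans ?_ hηe
      rw [mul_assoc]
      refine mul_le_mul' (ENNReal.rpow_le_rpow (ENNReal.ofReal_le_ofReal ?_) hp0.le)
        (mul_le_mul' ?_ le_rfl)
      · have := crude_const hX0 hbβ hQ hS
        linarith
      · exact le_mul_of_one_le_right zero_le (by norm_num)
    · subst hJ
      simp [ENNReal.zero_rpow_of_pos hp0]

end e

end Crest.Agent.R096.Fsw_928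
end

-- ▼ part R096/Fsw18_928
section

/-!
# R096 (row 96), FACE-SWEEP, part 18: the classes from the positions of the ends (helper928)
-/

set_option autoImplicit false

open Set Metric Filter Topology MeasureTheory
open scoped ENNReal NNReal

namespace Crest.Agent.R096.Fsw_928

open Crest.Agent.R096.Ce_537 Crest.Agent.R096.Bd_416

section pos

variable {ι : Type} {L : Lam (sph 2) ι} {K b : ℝ} {h ρ : ι → ℝ}

/-- a chord from the right side (position `y1`, width `l1`) to the left side (`y2`, `l2`); the base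
vertex is `(1,1)` -/
structure LR (L : Lam (sph 2) ι) (i : ι) (y1 l1 y2 l2 : ℝ) : Prop where
  bot : ∀ ω ∈ sph 2, ω 1 = -1 → L.c i ω = 1/2
  top : ∀ ω ∈ sph 2, ω 1 = 1 → L.c i ω = -1/2
  right : ∀ ω ∈ sph 2, ω 0 = 1 → L.c i ω = cl ((y1 - ω 1) / l1)
  left : ∀ ω ∈ sph 2, ω 0 = -1 → L.c i ω = cl ((y2 - ω 1) / l2)
  p1 : 0 < l1
  p2 : 0 < l2
  lo1 : -1 < y1 - l1 / 2
  lo2 : -1 < y2 - l2 / 2

/-- a chord from the bottom side (position `x`, width `l`) to the top side (`x'`, `l'`) -/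
structure BT (L : Lam (sph 2) ι) (i : ι) (x l x' l' : ℝ) : Prop where
  left : ∀ ω ∈ sph 2, ω 0 = -1 → L.c i ω = 1/2
  right : ∀ ω ∈ sph 2, ω 0 = 1 → L.c i ω = -1/2
  bot : ∀ ω ∈ sph 2, ω 1 = -1 → L.c i ω = cl ((x - ω 0) / l)
  top : ∀ ω ∈ sph 2, ω 1 = 1 → L.c i ω = cl ((x' - ω 0) / l')
  p1 : 0 < l
  p2 : 0 < l'



end pos

end Crest.Agent.R096.Fsw_928
end

-- ▼ part R096/Fsw19_928
section

/-!
# R096 (row 96), FACE-SWEEP, part 19: from the integrals to a pointwise statement off a small set,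
labels of a family, transport to the unit square (helper928)
-/

set_option autoImplicit false

open Set Metric Filter Topology MeasureTheory
open scoped ENNReal NNReal Classical

namespace Crest.Agent.R096.Fsw_928

open Crest.Agent.R096.Ce_537 Crest.Agent.R096.Bd_416

/-! ### Chebyshev -/


section off

variable {ι : Type} {L : Lam (sph 2) ι} {K b : ℝ} {h ρ : ι → ℝ} (D : Dep L K b h ρ) (P P' : Par)
  (β : ℝ)


end off

/-! ### labels of a family -/

section lab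

variable {Q : Type} [PartialOrder Q] {dim : Q → ℕ} {J Fam : Type}
variable {E : Type*} [NormedAddCommGroup E] [NormedSpace ℝ E]
variable {C : Cmb Q dim J Fam} {K : Q → Set E} {D : Set Q} {g : Gd E J}
  {P : ∀ q, C.I q → Set E} {c : ∀ q, C.I q → E → ℝ}

lemma abs_prod_sub_prod_le {α : Type*} (S : Finset α) (f f' : α → ℝ) (h : ∀ x ∈ S, |f x| ≤ 1)
    (h' : ∀ x ∈ S, |f' x| ≤ 1) : |∏ x ∈ S, f x - ∏ x ∈ S, f' x| ≤ ∑ x ∈ S, |f x - f' x| := by
  induction S using Finset.induction_on with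
  | empty => simp
  | insert a S ha ih =>
    rw [Finset.prod_insert ha, Finset.prod_insert ha, Finset.sum_insert ha]
    have ih' := ih (fun x hx => h x (Finset.mem_insert_of_mem hx))
      (fun x hx => h' x (Finset.mem_insert_of_mem hx))
    have e : f a * ∏ x ∈ S, f x - f' a * ∏ x ∈ S, f' x
        = (f a - f' a) * ∏ x ∈ S, f x + f' a * (∏ x ∈ S, f x - ∏ x ∈ S, f' x) := by ring
    rw [e]
    refine (abs_add_le _ _).trans ?_
    rw [abs_mul, abs_mul]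
    have h1 : |∏ x ∈ S, f x| ≤ 1 := by
      rw [Finset.abs_prod]
      exact Finset.prod_le_one (fun _ _ => abs_nonneg _) fun x hx => h x (Finset.mem_insert_of_mem hx)
    have h2 := h' a (Finset.mem_insert_self _ _)
    have h3 := abs_nonneg (f a - f' a)
    have h4 := abs_nonneg (∏ x ∈ S, f x - ∏ x ∈ S, f' x)
    nlinarith

/-- **the weighted label of the sheets `T` on a cell**: the main pieces `Jm` are the only pieces of
their sheets -/
theorem label_diff (H : Inv C K D g P c) {q : Q} (hq : q ∈ D) (wt : J → ℝ)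
    (T : Finset J) (Jm : Finset (C.I q)) (hT : ∀ x ∈ Jm, C.col q x ∈ T)
    (h1 : ∀ x ∈ Jm, ∀ x', C.col q x' = C.col q x → x' = x) {z z' : E} (hz : z ∈ K q)
    (hz' : z' ∈ K q) :
    |∑ j ∈ T, wt j * g.G j z' - ∑ j ∈ T, wt j * g.G j z
      - (∑ x ∈ Jm, sg (C.Lab (C.col q x) q) * wt (C.col q x) * c q x z'
        - ∑ x ∈ Jm, sg (C.Lab (C.col q x) q) * wt (C.col q x) * c q x z)|
      ≤ ∑ x : C.I q with (C.col q x ∈ T ∧ x ∉ Jm), |wt (C.col q x)| * |c q x z' - c q x z| := by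
  set Tm : Finset J := Jm.image (C.col q)
  have hTm : Tm ⊆ T := by
    intro j hj
    obtain ⟨x, hx, rfl⟩ := Finset.mem_image.1 hj
    exact hT x hx
  have hinj : ∀ x ∈ Jm, ∀ x' ∈ Jm, C.col q x = C.col q x' → x = x' := fun x hx x' hx' he =>
    (h1 x hx x' he.symm).symm
  -- main sheets
  have hmain : ∀ x ∈ Jm, ∀ v ∈ K q, g.G (C.col q x) v
      = 1/2 + sg (C.Lab (C.col q x) q) * c q x v := by
    intro x hx v hv
    rw [H.PF q hq _ v hv]
    have hfil : (Finset.univ.filter fun x' : C.I q => C.col q x' = C.col q x) = {x} := by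
      ext x'
      simp only [Finset.mem_filter, Finset.mem_univ, true_and, Finset.mem_singleton]
      exact ⟨fun h => h1 x hx x' h, fun h => by rw [h]⟩
    rw [hfil, Finset.prod_singleton]
    ring
  have hsplit : ∀ v ∈ K q, ∑ j ∈ T, wt j * g.G j v
      = (∑ x ∈ Jm, wt (C.col q x) * (1/2) + ∑ x ∈ Jm, sg (C.Lab (C.col q x) q) * wt (C.col q x) * c q x v)
        + ∑ j ∈ T \ Tm, wt j * g.G j v := by
    intro v hv
    rw [← Finset.sum_sdiff hTm, add_comm]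
    congr 1
    rw [Finset.sum_image fun x hx x' hx' he => hinj x hx x' hx' he, ← Finset.sum_add_distrib]
    refine Finset.sum_congr rfl fun x hx => ?_
    rw [hmain x hx v hv]; ring
  rw [hsplit z hz, hsplit z' hz']
  have e : ∀ a b b' d d' : ℝ, (a + b' + d' - (a + b + d) - (b' - b)) = d' - d := by
    intros; ring
  rw [e, ← Finset.sum_sub_distrib]
  refine (Finset.abs_sum_le_sum_abs _ _).trans ?_
  -- other sheets
  have hoth : ∀ j ∈ T \ Tm, |wt j * g.G j z' - wt j * g.G j z| ≤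
      ∑ x : C.I q with C.col q x = j, |wt j| * |c q x z' - c q x z| := by
    intro j _
    rw [← mul_sub, abs_mul, H.PF q hq _ z hz, H.PF q hq _ z' hz', ← Finset.mul_sum]
    refine mul_le_mul_of_nonneg_left ?_ (abs_nonneg _)
    have e2 : ∀ r a a' : ℝ, 1/2 - r/2 * a' - (1/2 - r/2 * a) = -(r * ((a' - a)/2)) := by
      intros; ring
    rw [e2, abs_neg, abs_mul, abs_sg, one_mul, abs_div, abs_of_pos (by norm_num : (0:ℝ) < 2),
      div_le_iff₀ (by norm_num : (0:ℝ) < 2)]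
    refine (abs_prod_sub_prod_le _ _ _ (fun x _ => abs_two_le (H.cm q hq x z' hz'))
      (fun x _ => abs_two_le (H.cm q hq x z hz))).trans ?_
    rw [Finset.sum_mul]
    refine Finset.sum_le_sum fun x _ => ?_
    have e3 : -2 * c q x z' - -2 * c q x z = -(2 * (c q x z' - c q x z)) := by ring
    rw [e3, abs_neg, abs_mul, abs_of_pos (by norm_num : (0:ℝ) < 2), mul_comm]
  refine (Finset.sum_le_sum hoth).trans ?_
  have hre : ∑ j ∈ T \ Tm, ∑ x : C.I q with C.col q x = j, |wt j| * |c q x z' - c q x z|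
      = ∑ x : C.I q with C.col q x ∈ T \ Tm, |wt (C.col q x)| * |c q x z' - c q x z| := by
    rw [← Finset.sum_fiberwise_of_maps_to (s := Finset.univ.filter fun x : C.I q =>
      C.col q x ∈ T \ Tm) (t := T \ Tm) (g := C.col q) (fun x hx => (Finset.mem_filter.1 hx).2)]
    refine Finset.sum_congr rfl fun j hj => ?_
    have : (Finset.univ.filter fun x : C.I q => C.col q x = j)
        = ((Finset.univ.filter fun x : C.I q => C.col q x ∈ T \ Tm).filter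
          fun x => C.col q x = j) := by
      ext x
      simp only [Finset.mem_filter, Finset.mem_univ, true_and]
      exact ⟨fun h => ⟨h ▸ hj, h⟩, fun h => h.2⟩
    rw [this]
    refine Finset.sum_congr rfl fun x hx => ?_
    rw [(Finset.mem_filter.1 hx).2]
  rw [hre]
  refine Finset.sum_le_sum_of_subset_of_nonneg ?_ fun _ _ _ => by positivity
  intro x hx
  rw [Finset.mem_filter] at hx ⊢
  obtain ⟨-, hx⟩ := hx
  rw [Finset.mem_sdiff] at hx
  exact ⟨Finset.mem_univ _, hx.1, fun hc => hx.2 (Finset.mem_image_of_mem _ hc)⟩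

end lab

end Crest.Agent.R096.Fsw_928
end

-- ▼ part R096/Fsw20_928
section

/-!
# R096 (row 96), FACE-SWEEP, part 20: the pointwise form on the unit square (helper928)
-/

set_option autoImplicit false

open Set Metric Filter Topology MeasureTheory
open scoped ENNReal NNReal Classical

namespace Crest.Agent.R096.Fsw_928

open Crest.Agent.R096.Ce_537 Crest.Agent.R096.Bd_416

/-- affine chart of the unit square; `ε i = ± 1`; `(1,1)` goes to the corner `(1 + ε)/2` -/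
noncomputable def tau (ε z : Fin 2 → ℝ) : Fin 2 → ℝ := fun i => (1 + ε i * z i) / 2

/-- inverse -/
noncomputable def utau (ε y : Fin 2 → ℝ) : Fin 2 → ℝ := fun i => ε i * (2 * y i - 1)

section tau

variable {ε : Fin 2 → ℝ} (hε : ∀ i, ε i = 1 ∨ ε i = -1)
include hε

lemma eps_sq (i : Fin 2) : ε i * ε i = 1 := by
  rcases hε i with h | h <;> rw [h] <;> norm_num

lemma tau_utau (y : Fin 2 → ℝ) : tau ε (utau ε y) = y := by
  funext i
  have := eps_sq hε i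
  unfold tau utau
  rw [← mul_assoc, this]; ring

lemma utau_tau (z : Fin 2 → ℝ) : utau ε (tau ε z) = z := by
  funext i
  have := eps_sq hε i
  unfold tau utau
  have e : ε i * (2 * ((1 + ε i * z i) / 2) - 1) = (ε i * ε i) * z i := by ring
  rw [e, this, one_mul]

lemma abs_eps (i : Fin 2) : |ε i| = 1 := by
  rcases hε i with h | h <;> rw [h] <;> norm_num

lemma utau_mem {y : Fin 2 → ℝ} (hy : ∀ i, 0 < y i ∧ y i < 1) : utau ε y ∈ osq := by
  rw [mem_ball, dist_zero_right, pi_norm_lt_iff one_pos]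
  intro i
  show |ε i * (2 * y i - 1)| < 1
  rw [abs_mul, abs_eps hε, one_mul, abs_lt]
  constructor <;> linarith [(hy i).1, (hy i).2]

omit hε in
lemma continuous_utau : Continuous (utau ε) := by
  unfold utau; fun_prop


lemma lip_tau : LipschitzWith 1 (tau ε) := by
  refine LipschitzWith.of_dist_le_mul fun z z' => ?_
  rw [NNReal.coe_one, one_mul, dist_pi_le_iff dist_nonneg]
  intro i
  rw [Real.dist_eq]
  have e : tau ε z i - tau ε z' i = ε i * ((z i - z' i) / 2) := by unfold tau; ring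
  rw [e, abs_mul, abs_eps hε, one_mul, abs_div, abs_of_pos (by norm_num : (0:ℝ) < 2)]
  have h1 : |z i - z' i| ≤ dist z z' := by rw [← Real.dist_eq]; exact dist_le_pi_dist z z' i
  linarith [abs_nonneg (z i - z' i)]


end tau

section fin

variable {ι : Type} {L : Lam (sph 2) ι} {K b : ℝ} {h ρ : ι → ℝ}

lemma ae_diff_of_crd (D : Dep L K b h ρ) (P P' : Par) {β : ℝ} (hβ : 0 < β) {J : Finset ι}
    {w M : ι → ℝ} {Q : ℝ} (C : Crd L h J w M Q) :
    ∀ᵐ z ∂(volume.restrict osq), ∀ i ∈ J, DifferentiableAt ℝ (fb D P P' β i) z := by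
  obtain ⟨Λc, hΛc, hcr⟩ := exists_crude P P'
  have hb := mul_pos D.cst.b0 hβ
  have hM0 : ∀ i ∈ J, 0 ≤ Λc * M i / (2 * (b * β)) := fun i hi =>
    div_nonneg (mul_nonneg hΛc (C.M0 i hi)) (by linarith)
  exact ae_diff D P P' β J (Finset.sum_nonneg hM0) (fun i hi z hz =>
    (LL_fb hβ (hcr D i (M i) (C.M0 i hi) (C.lip i hi) (C.hM i hi) z hz)).mono
      (Finset.single_le_sum hM0 hi))


end fin

end Crest.Agent.R096.Fsw_928
end

-- ▼ part R096/Fsw21_928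
section

/-!
# R096 (row 96), FACE-SWEEP, part 21: the `L^p` form on the unit square (helper928)
-/

set_option autoImplicit false

open Set Metric Filter Topology MeasureTheory
open scoped ENNReal NNReal Classical

namespace Crest.Agent.R096.Fsw_928

open Crest.Agent.R096.Ce_537 Crest.Agent.R096.Bd_416

/-- the open unit square -/
abbrev ousq : Set (Fin 2 → ℝ) := {y | ∀ j, 0 < y j ∧ y j < 1}

lemma isOpen_ousq : IsOpen ousq := by
  have : ousq = ⋂ j : Fin 2, {y : Fin 2 → ℝ | 0 < y j ∧ y j < 1} := by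
    ext y; simp [ousq]
  rw [this]
  refine isOpen_iInter_of_finite fun j => ?_
  exact (isOpen_lt continuous_const (continuous_apply j)).inter
    (isOpen_lt (continuous_apply j) continuous_const)

section tau

variable {ε : Fin 2 → ℝ} (hε : ∀ i, ε i = 1 ∨ ε i = -1)

/-- linear part of `utau` -/
noncomputable def dut (ε : Fin 2 → ℝ) : (Fin 2 → ℝ) →L[ℝ] (Fin 2 → ℝ) :=
  ContinuousLinearMap.pi fun i => (2 * ε i) • pr i

lemma dut_apply (v : Fin 2 → ℝ) (i : Fin 2) : dut ε v i = 2 * ε i * v i := rfl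

lemma hasFDerivAt_utau (y : Fin 2 → ℝ) : HasFDerivAt (utau ε) (dut ε) y := by
  rw [hasFDerivAt_pi']
  intro i
  have h1 : HasFDerivAt (fun y : Fin 2 → ℝ => y i) (pr i) y := (pr i).hasFDerivAt
  have h2 : HasFDerivAt (fun y : Fin 2 → ℝ => ε i * (2 * y i - 1)) (ε i • ((2:ℝ) • pr i)) y :=
    ((h1.const_mul 2).sub_const 1).const_mul (ε i)
  have e : (ContinuousLinearMap.proj i).comp (dut ε) = ε i • ((2:ℝ) • pr i) := by
    ext v
    show 2 * ε i * _ = ε i * (2 * _)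
    ring
  rw [e]
  exact h2

include hε

lemma norm_dut_le : ‖dut ε‖ ≤ 2 := by
  refine ContinuousLinearMap.opNorm_le_bound _ (by norm_num) fun v => ?_
  rw [pi_norm_le_iff_of_nonneg (by positivity)]
  intro i
  rw [dut_apply, Real.norm_eq_abs, abs_mul, abs_mul, abs_eps hε, mul_one,
    abs_of_pos (by norm_num : (0:ℝ) < 2)]
  exact mul_le_mul_of_nonneg_left (norm_le_pi_norm v i) (by norm_num)

lemma lint_utau {g : (Fin 2 → ℝ) → ℝ≥0∞} (hg : Measurable g) :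
    ∫⁻ y in ousq, g (utau ε y) ≤ ∫⁻ z in osq, g z := by
  have hm : Measurable (utau ε) := continuous_utau.measurable
  rw [← lintegral_map hg hm]
  refine lintegral_mono' ?_ le_rfl
  refine Measure.le_iff.2 fun A hA => ?_
  rw [Measure.map_apply hm hA, Measure.restrict_apply (hm hA), Measure.restrict_apply hA]
  have h1 : utau ε ⁻¹' A ∩ ousq ⊆ tau ε '' (A ∩ osq) := by
    rintro y ⟨h2, h3⟩
    exact ⟨utau ε y, ⟨h2, utau_mem hε h3⟩, tau_utau hε y⟩
  refine (measure_mono h1).trans ?_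
  have h2 := ((lip_tau hε).lipschitzOnWith (s := A ∩ osq)).hausdorffMeasure_image_le (d := 2)
    (by norm_num)
  rw [hausdorff_eq] at h2
  simpa using h2

/-- transport of the integral -/
theorem lint_to_unit {F' : (Fin 2 → ℝ) → ℝ} {κ p : ℝ} {j : Fin 2} (hp : 0 ≤ p) :
    ∫⁻ y in ousq, ‖fderiv ℝ F' y - κ • pr j‖ₑ ^ p ≤ (2:ℝ≥0∞) ^ p *
      ∫⁻ z in osq, ‖fderiv ℝ (fun z => F' (tau ε z)) z + (-(κ * ε j) / 2) • pr j‖ₑ ^ p := by
  set F : (Fin 2 → ℝ) → ℝ := fun z => F' (tau ε z)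
  have hF : F' = fun y => F (utau ε y) := by
    funext y
    show F' y = F' (tau ε (utau ε y))
    rw [tau_utau hε]
  set g : (Fin 2 → ℝ) → ℝ≥0∞ := fun z => ‖fderiv ℝ F z + (-(κ * ε j) / 2) • pr j‖ₑ ^ p
  have hg : Measurable g := ((measurable_fderiv ℝ _).add_const _).enorm.pow_const _
  have hpt : ∀ y, ‖fderiv ℝ F' y - κ • pr j‖ₑ ^ p ≤ (2:ℝ≥0∞) ^ p * g (utau ε y) := by
    intro y
    have hfd : fderiv ℝ F' y = (fderiv ℝ F (utau ε y)).comp (dut ε) := by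
      by_cases hd : DifferentiableAt ℝ F (utau ε y)
      · rw [hF]
        exact (hd.hasFDerivAt.comp y (hasFDerivAt_utau y)).fderiv
      · have hd' : ¬ DifferentiableAt ℝ F' y := by
          intro hc
          apply hd
          have hct : DifferentiableAt ℝ (tau ε) (utau ε y) := by
            refine differentiableAt_pi.2 fun i => ?_
            show DifferentiableAt ℝ (fun z : Fin 2 → ℝ => (1 + ε i * z i) / 2) _
            fun_prop
          rw [← tau_utau hε y] at hc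
          exact hc.comp (utau ε y) hct
        rw [fderiv_zero_of_not_differentiableAt hd', fderiv_zero_of_not_differentiableAt hd,
          ContinuousLinearMap.zero_comp]
    have e : fderiv ℝ F' y - κ • pr j
        = (fderiv ℝ F (utau ε y) + (-(κ * ε j) / 2) • pr j).comp (dut ε) := by
      rw [hfd]
      ext v
      show fderiv ℝ F (utau ε y) (dut ε v) - κ * v j
        = fderiv ℝ F (utau ε y) (dut ε v) + (-(κ * ε j) / 2) * (dut ε v j)
      rw [dut_apply]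
      have := eps_sq hε j
      linear_combination (κ * v j) * this
    rw [e, ← ENNReal.mul_rpow_of_nonneg _ _ hp]
    refine ENNReal.rpow_le_rpow ?_ hp
    rw [← ofReal_norm, ← ofReal_norm, ← ENNReal.ofReal_ofNat 2,
      ← ENNReal.ofReal_mul (by norm_num)]
    apply ENNReal.ofReal_le_ofReal
    refine (ContinuousLinearMap.opNorm_comp_le _ _).trans ?_
    rw [mul_comm]
    exact mul_le_mul_of_nonneg_right (norm_dut_le hε) (norm_nonneg _)
  refine (lintegral_mono fun y => hpt y).trans ?_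
  have h3 : ∫⁻ y in ousq, (2:ℝ≥0∞) ^ p * g (utau ε y)
      = (2:ℝ≥0∞) ^ p * ∫⁻ y in ousq, g (utau ε y) :=
    lintegral_const_mul ((2:ℝ≥0∞) ^ p) (f := fun y => g (utau ε y))
      (hg.comp continuous_utau.measurable)
  rw [h3]
  exact mul_le_mul' le_rfl (lint_utau hε hg)

end tau

section sum

variable {ι : Type} {L : Lam (sph 2) ι} {K b : ℝ} {h ρ : ι → ℝ} (D : Dep L K b h ρ) (P P' : Par)
  {β : ℝ}

/-- main part plus rest -/
theorem lint_add (hβ : 0 < β) {J JX : Finset ι} {w wX M : ι → ℝ} {Q : ℝ}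
    (C : Crd L h J w M Q) (CX : Crd L h JX wX M Q) {F : (Fin 2 → ℝ) → ℝ} {s p : ℝ}
    {j : Fin 2} (hp : 1 ≤ p)
    (hF : ∀ z ∈ osq, ∀ z' ∈ osq, |F z' - F z - (GJ D P P' β J w z' - GJ D P P' β J w z)| ≤
      ∑ i ∈ JX, |wX i| * |fb D P P' β i z' - fb D P P' β i z|) :
    ∫⁻ z in osq, ‖fderiv ℝ F z + s • pr j‖ₑ ^ p ≤ (2:ℝ≥0∞) ^ (p - 1) *
      ((∫⁻ z in osq, ‖fderiv ℝ (GJ D P P' β J w) z + s • pr j‖ₑ ^ p)
      + ∫⁻ z in osq, ENNReal.ofReal (∑ i ∈ JX, |wX i| * ‖fderiv ℝ (fb D P P' β i) z‖) ^ p) := by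
  have hp0 : 0 ≤ p := by linarith
  set G : (Fin 2 → ℝ) → ℝ := fun z => F z - GJ D P P' β J w z with hG
  have hGd : ∀ z ∈ osq, ∀ z' ∈ osq, |G z' - G z| ≤
      ∑ i ∈ JX, |wX i| * |fb D P P' β i z' - fb D P P' β i z| := by
    intro z hz z' hz'
    have := hF z hz z' hz'
    refine le_trans (le_of_eq ?_) this
    congr 1
    simp only [hG]; ring
  -- Lipschitz
  obtain ⟨Λc, hΛc, hcr⟩ := exists_crude P P'
  have hb := mul_pos D.cst.b0 hβ
  have hM0 : ∀ i ∈ JX, 0 ≤ Λc * M i / (2 * (b * β)) := fun i hi =>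
    div_nonneg (mul_nonneg hΛc (CX.M0 i hi)) (by linarith)
  have hfl : ∀ i ∈ JX, ∀ z ∈ osq, ∀ z' ∈ osq, |fb D P P' β i z' - fb D P P' β i z|
      ≤ Λc * M i / (2 * (b * β)) * dist z' z := fun i hi z hz z' hz' =>
    Pc_117.LL.dist_le (convex_closedBall (0 : Fin 2 → ℝ) 1) (fun x hx =>
      LL_fb hβ (hcr D i (M i) (CX.M0 i hi) (CX.lip i hi) (CX.hM i hi) x hx))
      (osq_subset hz) (osq_subset hz')
  set Λ : ℝ := ∑ i ∈ JX, |wX i| * (Λc * M i / (2 * (b * β)))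
  have hΛ0 : 0 ≤ Λ := Finset.sum_nonneg fun i hi => mul_nonneg (abs_nonneg _) (hM0 i hi)
  have hGL : LipschitzOnWith ⟨Λ, hΛ0⟩ G osq := by
    refine LipschitzOnWith.of_dist_le_mul fun x hx y hy => ?_
    rw [Real.dist_eq]
    refine (hGd y hy x hx).trans ?_
    show _ ≤ Λ * dist x y
    rw [Finset.sum_mul]
    refine Finset.sum_le_sum fun i hi => ?_
    rw [mul_assoc]
    exact mul_le_mul_of_nonneg_left (hfl i hi y hy x hx) (abs_nonneg _)
  have hae : ∀ᵐ z ∂(volume.restrict osq), DifferentiableAt ℝ G z := by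
    have h2 := hGL.ae_differentiableWithinAt (μ := volume) measurableSet_ball
    filter_upwards [h2, ae_restrict_mem measurableSet_ball] with z hz hzm
    exact hz.differentiableAt (isOpen_ball.mem_nhds hzm)
  have hpt : ∀ᵐ z ∂(volume.restrict osq), ‖fderiv ℝ F z + s • pr j‖ₑ ^ p ≤ (2:ℝ≥0∞) ^ (p - 1) *
      (‖fderiv ℝ (GJ D P P' β J w) z + s • pr j‖ₑ ^ p
      + ENNReal.ofReal (∑ i ∈ JX, |wX i| * ‖fderiv ℝ (fb D P P' β i) z‖) ^ p) := by
    filter_upwards [hae, ae_diff_of_crd D P P' hβ C, ae_diff_of_crd D P P' hβ CX,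
      ae_restrict_mem measurableSet_ball] with z hdG hdJ hdX hz
    have hdJ' : DifferentiableAt ℝ (GJ D P P' β J w) z := by
      unfold GJ
      exact DifferentiableAt.fun_sum fun i hi => (hdJ i hi).const_mul (w i)
    -- norm of the rest
    have hn : ‖fderiv ℝ G z‖ ≤ ∑ i ∈ JX, |wX i| * ‖fderiv ℝ (fb D P P' β i) z‖ := by
      refine le_of_forall_pos_le_add fun t ht => ?_
      set S := ∑ i ∈ JX, |wX i|
      have hS : 0 ≤ S := Finset.sum_nonneg fun _ _ => abs_nonneg _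
      have ht' : 0 < t / (S + 1) := by positivity
      have b2 : ∀ᶠ z' in 𝓝 z, ∀ i ∈ JX, |fb D P P' β i z' - fb D P P' β i z| ≤
          (‖fderiv ℝ (fb D P P' β i) z‖ + t / (S + 1)) * ‖z' - z‖ := by
        rw [Filter.eventually_all_finset]
        intro i hi
        have h3 := (hdX i hi).hasFDerivAt.isLittleO.bound ht'
        filter_upwards [h3] with z' hz'
        have h4 := (fderiv ℝ (fb D P P' β i) z).le_opNorm (z' - z)
        rw [Real.norm_eq_abs] at hz' h4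
        have h5 : |fb D P P' β i z' - fb D P P' β i z| ≤
            |fb D P P' β i z' - fb D P P' β i z - fderiv ℝ (fb D P P' β i) z (z' - z)|
            + |fderiv ℝ (fb D P P' β i) z (z' - z)| := by
          have := abs_add_le (fb D P P' β i z' - fb D P P' β i z
            - fderiv ℝ (fb D P P' β i) z (z' - z)) (fderiv ℝ (fb D P P' β i) z (z' - z))
          rwa [sub_add_cancel] at this
        rw [add_mul]; linarith
      refine hdG.hasFDerivAt.le_of_lip' (by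
        have : 0 ≤ ∑ i ∈ JX, |wX i| * ‖fderiv ℝ (fb D P P' β i) z‖ :=
          Finset.sum_nonneg fun i _ => by positivity
        linarith) ?_
      filter_upwards [b2, isOpen_ball.mem_nhds hz] with z' c2 hz'
      rw [Real.norm_eq_abs]
      refine (hGd z hz z' hz').trans ?_
      calc ∑ i ∈ JX, |wX i| * |fb D P P' β i z' - fb D P P' β i z|
          ≤ ∑ i ∈ JX, |wX i| * ((‖fderiv ℝ (fb D P P' β i) z‖ + t / (S + 1)) * ‖z' - z‖) :=
            Finset.sum_le_sum fun i hi => mul_le_mul_of_nonneg_left (c2 i hi) (abs_nonneg _)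
        _ = (∑ i ∈ JX, |wX i| * ‖fderiv ℝ (fb D P P' β i) z‖ + S * (t / (S + 1))) * ‖z' - z‖ := by
            rw [show S = ∑ i ∈ JX, |wX i| from rfl, Finset.sum_mul, ← Finset.sum_add_distrib,
              Finset.sum_mul]
            refine Finset.sum_congr rfl fun i _ => ?_
            ring
        _ ≤ (∑ i ∈ JX, |wX i| * ‖fderiv ℝ (fb D P P' β i) z‖ + t) * ‖z' - z‖ := by
            refine mul_le_mul_of_nonneg_right ?_ (norm_nonneg _)
            have h6 : S * (t / (S + 1)) ≤ t := by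
              rw [← mul_div_assoc, div_le_iff₀ (by linarith)]
              nlinarith
            linarith
    have hFe : fderiv ℝ F z = fderiv ℝ (GJ D P P' β J w) z + fderiv ℝ G z := by
      have : F = fun z => GJ D P P' β J w z + G z := by
        funext z; simp only [hG]; ring
      rw [this]
      exact fderiv_fun_add hdJ' hdG
    have hle : ‖fderiv ℝ F z + s • pr j‖ₑ ≤ ‖fderiv ℝ (GJ D P P' β J w) z + s • pr j‖ₑ
        + ENNReal.ofReal (∑ i ∈ JX, |wX i| * ‖fderiv ℝ (fb D P P' β i) z‖) := by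
      rw [hFe, add_right_comm]
      refine (enorm_add_le (fderiv ℝ (GJ D P P' β J w) z + s • pr j)
        (fderiv ℝ G z)).trans (add_le_add le_rfl ?_)
      rw [← ofReal_norm]
      exact ENNReal.ofReal_le_ofReal hn
    exact (ENNReal.rpow_le_rpow hle hp0).trans (ENNReal.rpow_add_le_mul_rpow_add_rpow _ _ hp)
  refine (lintegral_mono_ae hpt).trans ?_
  have m1 : Measurable fun z => ‖fderiv ℝ (GJ D P P' β J w) z + s • pr j‖ₑ ^ p :=
    ((measurable_fderiv ℝ _).add_const _).enorm.pow_const _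
  have m2 : Measurable fun z =>
      ENNReal.ofReal (∑ i ∈ JX, |wX i| * ‖fderiv ℝ (fb D P P' β i) z‖) ^ p := by
    refine (ENNReal.measurable_ofReal.comp (Finset.measurable_sum _ fun i _ => ?_)).pow_const _
    exact ((measurable_fderiv ℝ _).norm).const_mul _
  have h3 : ∫⁻ z in osq, (2:ℝ≥0∞) ^ (p - 1) *
      (‖fderiv ℝ (GJ D P P' β J w) z + s • pr j‖ₑ ^ p
      + ENNReal.ofReal (∑ i ∈ JX, |wX i| * ‖fderiv ℝ (fb D P P' β i) z‖) ^ p)
      = (2:ℝ≥0∞) ^ (p - 1) * ∫⁻ z in osq, (‖fderiv ℝ (GJ D P P' β J w) z + s • pr j‖ₑ ^ p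
      + ENNReal.ofReal (∑ i ∈ JX, |wX i| * ‖fderiv ℝ (fb D P P' β i) z‖) ^ p) :=
    lintegral_const_mul _ (m1.add m2)
  rw [h3, lintegral_add_left m1]

end sum

section fin

/-- **THE FACE RULE, `L^p` FORM ON THE UNIT SQUARE** (477's `FaceOut`) -/
theorem face_LP {p : ℝ} (hp : 1 ≤ p) {S : ℝ} (hS : 0 ≤ S) {e : ℝ} (he : 0 < e) :
    ∃ δ : ℝ, 0 < δ ∧ ∀ P P' : Par, 4 * (P.a + P.m * P.H) + 2 * (2 - P.H) ≤ δ →
    ∃ lam : ℝ, 0 < lam ∧ ∃ η : ℝ, 0 < η ∧
    ∀ {ι : Type} {L : Lam (sph 2) ι} {K b : ℝ} {h ρ : ι → ℝ} (D : Dep L K b h ρ) (_ : Disj L)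
      (J JX : Finset ι) (w wX M : ι → ℝ) (β Q : ℝ), 0 < β → β ≤ 1 → 1/4 ≤ b * β →
      Crd L h J w M Q → Crd L h JX wX M Q → Q ≤ S →
      (∃ ℓ : ι → ℝ, (∀ i ∈ JX, 0 ≤ ℓ i) ∧ (∀ i ∈ JX, Ends2 L i (ℓ i)) ∧
        ∑ i ∈ JX, (ℓ i + h i) ≤ η) →
    ∀ (ε : Fin 2 → ℝ) (_ : ∀ i, ε i = 1 ∨ ε i = -1) (F' : (Fin 2 → ℝ) → ℝ),
      (∀ z ∈ osq, ∀ z' ∈ osq,
        |F' (tau ε z') - F' (tau ε z) - (GJ D P P' β J w z' - GJ D P P' β J w z)| ≤
          ∑ i ∈ JX, |wX i| * |fb D P P' β i z' - fb D P P' β i z|) →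
      (∀ κ s' W lam' μ : ℝ, |κ| ≤ 2 * S → |-(κ * ε 1) / 2 - s'| ≤ δ → W ≤ S → μ ≤ δ → lam' ≤ lam →
        IsA D P β J w s' W lam' μ →
        ∫⁻ y in ousq, ‖fderiv ℝ F' y - κ • pr 1‖ₑ ^ p ≤ ENNReal.ofReal e) ∧
      (∀ κ s' W lam' μ : ℝ, |κ| ≤ 2 * S → |-(κ * ε 0) / 2 - s'| ≤ δ → W ≤ S → μ ≤ δ → lam' ≤ lam →
        IsB D P P' β J w s' W lam' μ →
        ∫⁻ y in ousq, ‖fderiv ℝ F' y - κ • pr 0‖ₑ ^ p ≤ ENNReal.ofReal e) ∧
      (J = ∅ → ∀ (κ : ℝ) (j : Fin 2), |κ| ≤ δ →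
        ∫⁻ y in ousq, ‖fderiv ℝ F' y - κ • pr j‖ₑ ^ p ≤ ENNReal.ofReal e) := by
  have hp0 : 0 ≤ p := by linarith
  have hpp : 0 < p := by linarith
  set e1 : ℝ≥0∞ := ENNReal.ofReal e / ((2:ℝ≥0∞) ^ p * ((2:ℝ≥0∞) ^ (p - 1) * 2)) with he1
  have h2p : ∀ q : ℝ, (2:ℝ≥0∞) ^ q ≠ 0 ∧ (2:ℝ≥0∞) ^ q ≠ ⊤ := fun q =>
    ⟨(ENNReal.rpow_pos (by norm_num) (by norm_num)).ne', ENNReal.rpow_ne_top_of_ne_zero
      (by norm_num) (by norm_num)⟩
  have hK0 : (2:ℝ≥0∞) ^ p * ((2:ℝ≥0∞) ^ (p - 1) * 2) ≠ 0 :=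
    mul_ne_zero (h2p p).1 (mul_ne_zero (h2p _).1 (by norm_num))
  have hKt : (2:ℝ≥0∞) ^ p * ((2:ℝ≥0∞) ^ (p - 1) * 2) ≠ ⊤ :=
    ENNReal.mul_ne_top (h2p p).2 (ENNReal.mul_ne_top (h2p _).2 (by norm_num))
  have he1' : e1 ≠ 0 := by
    rw [he1]
    exact ENNReal.div_ne_zero.2 ⟨(ENNReal.ofReal_pos.2 he).ne', hKt⟩
  obtain ⟨δ0, hδ0, hP⟩ := face_lp hp hS he1'
  obtain ⟨δ1, hδ1, hδ11, hδ1e⟩ := exists_small (C := 4) (e := e1) (by norm_num) he1'
  refine ⟨min δ0 δ1, lt_min hδ0 hδ1, fun P P' hPP => ?_⟩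
  obtain ⟨lam, hlam, η, hη, hm⟩ := hP P P' (hPP.trans (min_le_left _ _))
  refine ⟨lam, hlam, η, hη, ?_⟩
  rintro ι L K b h ρ D hdj J JX w wX M β Q hβ0 hβ1 hbβ C CX hQ ⟨ℓ, l1, l2, l3⟩ ε hε F' hF
  obtain ⟨mA, mB, -⟩ := hm D hdj J w M β Q hβ0 hβ1 hbβ C hQ
  obtain ⟨-, -, mX⟩ := hm D hdj JX wX M β Q hβ0 hβ1 hbβ CX hQ
  have hX := mX ℓ l1 l2 l3
  have hfin : ∀ {κ : ℝ} {j : Fin 2},
      ∫⁻ z in osq, ‖fderiv ℝ (GJ D P P' β J w) z + (-(κ * ε j) / 2) • pr j‖ₑ ^ p ≤ e1 →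
      ∫⁻ y in ousq, ‖fderiv ℝ F' y - κ • pr j‖ₑ ^ p ≤ ENNReal.ofReal e := by
    intro κ j h1
    refine (lint_to_unit hε (κ := κ) (j := j) hp0).trans ?_
    refine (mul_le_mul' le_rfl ((lint_add D P P' hβ0 C CX (F := fun z => F' (tau ε z)) hp hF).trans
      (mul_le_mul' le_rfl (add_le_add h1 hX)))).trans ?_
    rw [← two_mul, ← mul_assoc, ← mul_assoc, mul_assoc ((2:ℝ≥0∞) ^ p) _ 2, he1]
    exact (ENNReal.mul_div_cancel hK0 hKt).le
  have hs : ∀ {κ : ℝ} {j : Fin 2}, |κ| ≤ 2 * S → |-(κ * ε j) / 2| ≤ S := by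
    intro κ j hκ
    rw [abs_div, abs_neg, abs_mul, abs_eps hε, mul_one, abs_of_pos (by norm_num : (0:ℝ) < 2)]
    linarith
  refine ⟨?_, ?_, ?_⟩
  · intro κ s' W lam' μ a1 a2 a3 a4 a5 a6
    exact hfin (mA _ s' W lam' μ (hs a1) (a2.trans (min_le_left _ _)) a3
      (a4.trans (min_le_left _ _)) a5 a6)
  · intro κ s' W lam' μ a1 a2 a3 a4 a5 a6
    exact hfin (mB _ s' W lam' μ (hs a1) (a2.trans (min_le_left _ _)) a3
      (a4.trans (min_le_left _ _)) a5 a6)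
  · intro hJ κ j hκ
    subst hJ
    refine hfin ?_
    have h0 : ∀ z, ‖fderiv ℝ (GJ D P P' β ∅ w) z + (-(κ * ε j) / 2) • pr j‖ₑ ^ p
        ≤ ENNReal.ofReal δ1 := by
      intro z
      have e0 : GJ D P P' β ∅ w = fun _ => 0 := by
        funext z; unfold GJ; exact Finset.sum_empty
      have e2 : fderiv ℝ (GJ D P P' β ∅ w) z + (-(κ * ε j) / 2) • pr j
          = (-(κ * ε j) / 2) • pr j := by
        rw [e0, fderiv_fun_const]; simp
      rw [e2, ← ofReal_norm]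
      have h1 : ‖(-(κ * ε j) / 2) • pr j‖ ≤ δ1 := by
        refine (norm_smul_pr _ _).trans ?_
        rw [abs_div, abs_neg, abs_mul, abs_eps hε, mul_one, abs_of_pos (by norm_num : (0:ℝ) < 2)]
        have := hκ.trans (min_le_right _ _)
        linarith [abs_nonneg κ]
      exact (ENNReal.rpow_le_rpow (ENNReal.ofReal_le_ofReal h1) hp0).trans
        (ofReal_rpow_le hp hδ11)
    refine (lintegral_mono fun z => h0 z).trans ?_
    rw [lintegral_const, Measure.restrict_apply_univ, volume_osq, mul_comm]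
    exact hδ1e

end fin

end Crest.Agent.R096.Fsw_928
end

-- ▼ part R096/Fsw22_928
section

/-!
# R096 (row 96), FACE-SWEEP, part 22: scaling (helper928)
-/

set_option autoImplicit false

open Set Metric Filter Topology MeasureTheory
open scoped ENNReal NNReal Classical

namespace Crest.Agent.R096.Fsw_928

/-- from the normalized function `F / μ` to `F` -/
theorem lint_scale {F : (Fin 2 → ℝ) → ℝ} {μ κ p e : ℝ} {j : Fin 2} (hμ : 0 < μ) (hp : 0 ≤ p)
    (h : ∫⁻ y in ousq, ‖fderiv ℝ (fun y => F y / μ) y - (κ / μ) • pr j‖ₑ ^ p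
      ≤ ENNReal.ofReal e) :
    ∫⁻ y in ousq, ‖fderiv ℝ F y - κ • pr j‖ₑ ^ p ≤ ENNReal.ofReal (e * μ ^ p) := by
  have hF : F = fun y => μ * (F y / μ) := by
    funext y
    field_simp
  have hpt : ∀ y, ‖fderiv ℝ F y - κ • pr j‖ₑ ^ p
      = ENNReal.ofReal (μ ^ p) * ‖fderiv ℝ (fun y => F y / μ) y - (κ / μ) • pr j‖ₑ ^ p := by
    intro y
    have h1 : fderiv ℝ F y = μ • fderiv ℝ (fun y => F y / μ) y := by
      have h0 : F = μ • (fun y => F y / μ) := hF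
      conv_lhs => rw [h0]
      exact congrFun (fderiv_const_smul_field (𝕜 := ℝ) (F := ℝ) (f := fun y => F y / μ) μ) y
    have h2 : fderiv ℝ F y - κ • pr j
        = μ • (fderiv ℝ (fun y => F y / μ) y - (κ / μ) • pr j) := by
      rw [h1, smul_sub, smul_smul, mul_div_cancel₀ _ hμ.ne']
    rw [h2, ← ofReal_norm, ← ofReal_norm, norm_smul, Real.norm_of_nonneg hμ.le,
      ENNReal.ofReal_mul hμ.le, ENNReal.mul_rpow_of_nonneg _ _ hp,
      ENNReal.ofReal_rpow_of_nonneg hμ.le hp]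
  have m : Measurable fun y => ‖fderiv ℝ (fun y => F y / μ) y - (κ / μ) • pr j‖ₑ ^ p :=
    ((measurable_fderiv ℝ _).sub_const _).enorm.pow_const _
  have h3 : ∫⁻ y in ousq, ‖fderiv ℝ F y - κ • pr j‖ₑ ^ p
      = ENNReal.ofReal (μ ^ p) * ∫⁻ y in ousq,
        ‖fderiv ℝ (fun y => F y / μ) y - (κ / μ) • pr j‖ₑ ^ p := by
    rw [← lintegral_const_mul _ m]
    exact lintegral_congr fun y => hpt y
  rw [h3, mul_comm e, ENNReal.ofReal_mul (Real.rpow_nonneg hμ.le _)]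
  exact mul_le_mul' le_rfl h

end Crest.Agent.R096.Fsw_928
end

-- ▼ part R096/Fsw23_928
section

/-!
# R096 (row 96), FACE-SWEEP, part 23: nearly pure words: the choice of the sweeps, the estimate
(helper928, on helper522's combinatorics)
-/

set_option autoImplicit false
set_option linter.unusedSectionVars false

open Set Metric Filter Topology MeasureTheory
open scoped ENNReal NNReal Classical

namespace Crest.Agent.R096.Fsw_928

open Crest.Agent.R096.Ce_537 Crest.Agent.R096.Bd_416 Crest.Agent.R096.Fk_522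

/-! ### scaling of the classes -/

section scale

variable {ι : Type} {L : Lam (sph 2) ι} {K b : ℝ} {h ρ : ι → ℝ} {D : Dep L K b h ρ} {P P' : Par}
  {β : ℝ} {J : Finset ι} {w : ι → ℝ} {μ : ℝ}

lemma Crd.scale {M : ι → ℝ} {Q : ℝ} (C : Crd L h J w M Q) (hμ : 0 < μ) :
    Crd L h J (fun i => w i / μ) M (Q / μ) where
  M0 := C.M0
  lip := C.lip
  hM := C.hM
  wM i hi := by
    rw [abs_div, abs_of_pos hμ, div_mul_eq_mul_div]
    exact div_le_div_of_nonneg_right (C.wM i hi) hμ.le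

lemma ClA.scale {k : ι → ℝ → ℝ → ℝ} {ym yp : ι → ℝ → ℝ} {Kc ℓ : ι → ℝ} {s' W lam m : ℝ}
    (A : ClA D P β J w k ym yp Kc ℓ s' W lam m) (hμ : 0 < μ) :
    ClA D P β J (fun i => w i / μ) k ym yp Kc ℓ (s' / μ) (W / μ) lam m where
  ch := A.ch
  wH i hi := by rw [A.wH i hi]; ring
  wK i hi := by
    rw [abs_div, abs_of_pos hμ, div_mul_eq_mul_div]
    exact div_le_div_of_nonneg_right (A.wK i hi) hμ.le
  sW := by
    rw [abs_div, abs_of_pos hμ]
    exact div_le_div_of_nonneg_right A.sW hμ.le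
  y := A.y
  lam0 := A.lam0
  l0 := A.l0
  sum := A.sum
  full := A.full

lemma ClB.scale {x ℓ : ι → ℝ} {kb kt : ι → ℝ → ℝ} {ym yp : ι → ℝ → ℝ} {Kc ℓ' : ι → ℝ}
    {s' W lam m : ℝ} (B : ClB D P P' β J w x ℓ kb kt ym yp Kc ℓ' s' W lam m) (hμ : 0 < μ) :
    ClB D P P' β J (fun i => w i / μ) x ℓ kb kt ym yp Kc ℓ' (s' / μ) (W / μ) lam m where
  ch := B.ch
  kb_eq := B.kb_eq
  lpos := B.lpos
  wH i hi := by rw [B.wH i hi]; ring
  wK i hi := by
    rw [abs_div, abs_of_pos hμ, div_mul_eq_mul_div]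
    exact div_le_div_of_nonneg_right (B.wK i hi) hμ.le
  wR i hi := by
    rw [abs_div, abs_of_pos hμ, div_mul_eq_mul_div]
    exact div_le_div_of_nonneg_right (B.wR i hi) hμ.le
  sW := by
    rw [abs_div, abs_of_pos hμ]
    exact div_le_div_of_nonneg_right B.sW hμ.le
  sep := B.sep
  inn := B.inn
  y := B.y
  lam0 := B.lam0
  l0 := B.l0
  sum := B.sum
  full := B.full

end scale

/-! ### the two sweeps -/

/-- the first sweep -/
noncomputable def P1 (δ : ℝ) (h0 : 0 < δ) (h1 : δ ≤ 1) : Par where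
  a := δ / 8
  m := δ / 16
  H := 2 - δ / 2
  a0 := by positivity
  m0 := by positivity
  H0 := by linarith
  aH := by linarith
  am := by nlinarith

/-- the second sweep -/
noncomputable def P2 (δ : ℝ) (h0 : 0 < δ) (h1 : δ ≤ 1) : Par where
  a := δ / 16
  m := δ / 16
  H := 2 - δ / 8
  a0 := by positivity
  m0 := by positivity
  H0 := by linarith
  aH := by linarith
  am := by nlinarith

section pure

/-- constants of a nearly pure face -/
lemma slope_aux {Λ μ ν α β' κ s ε η δ θ : ℝ} (hμ : 0 < μ) (hν : 0 < ν) (hα : 0 < α)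
    (h1 : 1 / α ≤ Λ * μ) (hd : |1 / α - 1 / ν| ≤ η * (Λ * μ)) (hβ : 1 - η ≤ 2 * β')
    (hβ1 : 2 * β' ≤ 1) (hη : η ≤ 1/2) (hη0 : 0 ≤ η) (hs : |s| = 1) (hε : |ε| = 1)
    (hεε : ε * ε = 1) (hκ : |κ + ε * s * (2 / ν)| ≤ θ * μ) (hΛ : 1 ≤ Λ)
    (hδ : 4 * Λ * η ≤ δ) (hθ : 2 * θ ≤ δ) :
    |-(κ / μ * ε) / 2 - s / (2 * β' * α) / μ| ≤ δ := by
  have hb : 0 < 2 * β' := by linarith
  have e : -(κ / μ * ε) / 2 - s / (2 * β' * α) / μ
      = (-(ε * (κ + ε * s * (2 / ν))) / 2 - s * (1 / α - 1 / ν)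
        - s * ((1 / (2 * β') - 1) * (1 / α))) / μ := by
    have h2 : ε * (ε * s * (2 / ν)) = s * (2 / ν) := by
      have : ε * (ε * s * (2 / ν)) = (ε * ε) * (s * (2 / ν)) := by ring
      rw [this, hεε, one_mul]
    have h3 : ε * (κ + ε * s * (2 / ν)) = ε * κ + s * (2 / ν) := by rw [mul_add, h2]
    rw [h3]
    field_simp
    ring
  rw [e, abs_div, abs_of_pos hμ, div_le_iff₀ hμ]
  have t1 : |-(ε * (κ + ε * s * (2 / ν))) / 2| ≤ θ * μ / 2 := by
    rw [abs_div, abs_neg, abs_mul, hε, one_mul, abs_of_pos (by norm_num : (0:ℝ) < 2)]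
    linarith
  have t2 : |s * (1 / α - 1 / ν)| ≤ η * (Λ * μ) := by
    rw [abs_mul, hs, one_mul]; exact hd
  have t3 : |s * ((1 / (2 * β') - 1) * (1 / α))| ≤ 2 * η * (Λ * μ) := by
    rw [abs_mul, hs, one_mul, abs_mul, abs_of_pos (one_div_pos.2 hα)]
    have t4 : |1 / (2 * β') - 1| ≤ 2 * η := by
      have h5 : 0 ≤ 1 / (2 * β') - 1 := by
        rw [sub_nonneg, le_div_iff₀ hb]; linarith
      rw [abs_of_nonneg h5, sub_le_iff_le_add, div_le_iff₀ hb]
      nlinarith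
    exact mul_le_mul t4 h1 (one_div_pos.2 hα).le (by positivity)
  have t5 : |(-(ε * (κ + ε * s * (2 / ν))) / 2 - s * (1 / α - 1 / ν)
        - s * ((1 / (2 * β') - 1) * (1 / α)))| ≤ θ * μ / 2 + η * (Λ * μ) + 2 * η * (Λ * μ) := by
    refine (abs_sub _ _).trans (add_le_add ((abs_sub _ _).trans (add_le_add t1 t2)) t3)
  refine t5.trans ?_
  have hημ : 0 ≤ η * μ := mul_nonneg hη0 hμ.le
  have h6 : η * μ * 1 ≤ η * μ * Λ := mul_le_mul_of_nonneg_left hΛ hημ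
  have h7 : 4 * Λ * η * μ ≤ δ * μ := mul_le_mul_of_nonneg_right hδ hμ.le
  have h8 : 2 * θ * μ ≤ δ * μ := mul_le_mul_of_nonneg_right hθ hμ.le
  linarith

lemma full_auxB {η t β' δ' : ℝ} (hη : 0 ≤ η) (ht : 0 ≤ t) (ht2 : t ≤ 2) (hβ : 1 - η ≤ 2 * β')
    (h : 2 - t + 2 * η ≤ δ') : 2 - 2 * β' * t ≤ δ' := by
  have h1 : (1 - η) * t ≤ 2 * β' * t := mul_le_mul_of_nonneg_right hβ ht
  have h2 : η * t ≤ η * 2 := mul_le_mul_of_nonneg_left ht2 hη
  have e : (1 - η) * t = t - η * t := by ring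
  linarith

lemma full_auxA {η t β' δ' : ℝ} (hη : 0 ≤ η) (hη2 : η ≤ 1/2) (ht : 0 ≤ t) (ht2 : t ≤ 2)
    (hβ : 1 - η ≤ 2 * β') (h : 2 - t + 4 * η ≤ δ') : 2 - 2 * β' * ((1 - η) * t) ≤ δ' := by
  have h2 : η * t ≤ η * 2 := mul_le_mul_of_nonneg_left ht2 hη
  have e : (1 - η) * t = t - η * t := by ring
  have h3 : 0 ≤ η * t := mul_nonneg hη ht
  exact full_auxB hη (by rw [e]; nlinarith) (by linarith) hβ (by linarith)

set_option maxHeartbeats 1000000 in
/-- **THE FACE RULE FOR NEARLY PURE WORDS** -/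
theorem pure_LP {p : ℝ} (hp : 1 ≤ p) {Λ : ℝ} (hΛ : 1 ≤ Λ) {e : ℝ} (he : 0 < e) :
    ∃ δ0 : ℝ, 0 < δ0 ∧ δ0 ≤ 1/4 ∧ ∀ δ, 0 < δ → δ ≤ δ0 → ∃ P P' : Par, ∃ η0 : ℝ, 0 < η0 ∧ η0 ≤ δ / 56 ∧
    ∀ η, 0 ≤ η → η ≤ η0 →
    (∀ {ι : Type} [Fintype ι] {L : Lam (sph 2) ι} {W : Bw L} {wt : ι → ℝ} {ν : Fin 4 → ℝ}
      {FA FB : Prop} {MA MB : Finset ι} (_ : Pure W wt ν FA FB δ η MA MB) {K b : ℝ} (_ : Cst K b)
      (k0 : ι → ℕ) (_ : Function.Injective k0) (Rl : ι → ι → Prop)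
      (_ : ∀ x x', Rl x x' → Bw.Inc L x x') (_ : ∀ x x', Rl x x' → k0 x' < k0 x),
      Nonempty (Bw.Dpt W P P' K b (lg W wt ν) Rl (6 * η) (6 * η))) ∧
    (∀ {ι : Type} [Fintype ι] {L : Lam (sph 2) ι} {W : Bw L} {wt : ι → ℝ} {ν : Fin 4 → ℝ}
      {FA FB : Prop} {MA MB : Finset ι} (_ : Pure W wt ν FA FB δ η MA MB) {K b : ℝ}
      {Rl : ι → ι → Prop} (T : Bw.Dpt W P P' K b (lg W wt ν) Rl (6 * η) (6 * η))
      (β μ : ℝ), 0 < β → β ≤ 1 → 1 - η ≤ 2 * (b * β) → 0 < μ → 1 / αX ν ≤ Λ * μ →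
      ∀ (JX : Finset ι), (∀ x ∈ JX, x ∉ MA ∧ x ∉ MB) → ∀ (w wX : ι → ℝ),
      (∀ x ∈ JX, |wX x| ≤ wt x) → ∀ (ε : Fin 2 → ℝ), (∀ i, ε i = 1 ∨ ε i = -1) →
      ∀ (F' : (Fin 2 → ℝ) → ℝ) (κ s : ℝ), |s| = 1 →
      ((∀ x ∈ MA, w x = s * wt x) →
        (∀ z ∈ osq, ∀ z' ∈ osq,
          |F' (tau ε z') - F' (tau ε z) - (GJ T.D P P' β MA w z' - GJ T.D P P' β MA w z)| ≤
            ∑ i ∈ JX, |wX i| * |fb T.D P P' β i z' - fb T.D P P' β i z|) →
        (FA → |κ + ε 1 * s * (2 / ν 2)| ≤ 6 * δ * μ) → (¬ FA → |κ| ≤ 6 * δ * μ) →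
        ∫⁻ y in ousq, ‖fderiv ℝ F' y - κ • pr 1‖ₑ ^ p ≤ ENNReal.ofReal (e * μ ^ p)) ∧
      ((∀ x ∈ MB, w x = s * wt x) →
        (∀ z ∈ osq, ∀ z' ∈ osq,
          |F' (tau ε z') - F' (tau ε z) - (GJ T.D P P' β MB w z' - GJ T.D P P' β MB w z)| ≤
            ∑ i ∈ JX, |wX i| * |fb T.D P P' β i z' - fb T.D P P' β i z|) →
        (FB → |κ + ε 0 * s * (2 / ν 0)| ≤ 6 * δ * μ) → (¬ FB → |κ| ≤ 6 * δ * μ) →
        ∫⁻ y in ousq, ‖fderiv ℝ F' y - κ • pr 0‖ₑ ^ p ≤ ENNReal.ofReal (e * μ ^ p))) := by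
  have hp0 : 0 ≤ p := by linarith
  have hS : (0:ℝ) ≤ 16 * Λ := by linarith
  obtain ⟨δL, hδL, hPP⟩ := face_LP hp hS he
  refine ⟨min (1/4) (δL / 12), lt_min (by norm_num) (by positivity), min_le_left _ _,
    fun δ hδ hδ0 => ?_⟩
  have hδ14 : δ ≤ 1/4 := hδ0.trans (min_le_left _ _)
  have hδ1 : δ ≤ 1 := by linarith
  have hδ12 : δ ≤ δL / 12 := hδ0.trans (min_le_right _ _)
  have hδ4 : δ ≤ δL / 4 := hδ12.trans (by linarith)
  set P : Par := P1 δ hδ hδ1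
  set P' : Par := P2 δ hδ hδ1
  have ea : P.a = δ / 8 := rfl
  have em : P.m = δ / 16 := rfl
  have eH : P.H = 2 - δ / 2 := rfl
  have ea' : P'.a = δ / 16 := rfl
  have eH' : P'.H = 2 - δ / 8 := rfl
  have hmH : P.m * P.H ≤ δ / 8 := by rw [em, eH]; nlinarith
  obtain ⟨lam, hlam, η1, hη1, hm⟩ := hPP P P' (by rw [ea, eH] at *; linarith)
  set η0 : ℝ := min (min (1/2) (δ / 56)) (min (min (lam / 16) (η1 / 8))
    (min (δL / 12) (δL / (4 * Λ))))
  have q1 : η0 ≤ 1/2 := (min_le_left _ _).trans (min_le_left _ _)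
  have q2 : η0 ≤ δ / 56 := (min_le_left _ _).trans (min_le_right _ _)
  have q3 : η0 ≤ lam / 16 := (min_le_right _ _).trans ((min_le_left _ _).trans (min_le_left _ _))
  have q4 : η0 ≤ η1 / 8 := (min_le_right _ _).trans ((min_le_left _ _).trans (min_le_right _ _))
  have q5 : η0 ≤ δL / 12 := (min_le_right _ _).trans ((min_le_right _ _).trans (min_le_left _ _))
  have q6 : η0 ≤ δL / (4 * Λ) :=
    (min_le_right _ _).trans ((min_le_right _ _).trans (min_le_right _ _))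
  refine ⟨P, P', η0, ?_, q2, fun η hη hηη => ⟨?_, ?_⟩⟩
  · refine lt_min (lt_min (by norm_num) (by positivity)) (lt_min (lt_min (by positivity)
      (by positivity)) (lt_min (by positivity) (by positivity)))
  · -- depths
    intro ι _ L W wt ν FA FB MA MB H K b hC k0 hk Rl hR1 hR2
    refine H.exists_dpt P P' (ε := δ / 2) hC k0 hk Rl hR1 hR2 hη ?_ ?_ ?_ ?_ ?_ ?_
    · rw [eH]; nlinarith
    · rw [ea]; linarith
    · linarith
    · linarith
    · rw [eH]; linarith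
    · rw [ea, eH']
      have h8 : 0 < 1 - δ / 8 := by linarith
      have h9 : (1 - δ) / (1 - δ / 8) ≤ 1 - 7 * δ / 8 := by
        rw [div_le_iff₀ h8]; nlinarith
      linarith
  · -- estimates
    intro ι _ L W wt ν FA FB MA MB H K b Rl T β μ hβ0 hβ1 hbβ hμ hαX JX hJX w wX hwX ε hε F' κ s hs
    have hb := mul_pos T.D.cst.b0 hβ0
    have hb2 : b * β ≤ 1/2 :=
      (mul_le_of_le_one_right T.D.cst.b0.le hβ1).trans T.D.cst.b2.le
    have hb4 : 1/4 ≤ b * β := by linarith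
    have hαX0 := H.αX0
    have hαA0 := H.αA0
    have hαB0 := H.αB0
    have iA : 1 / αA ν ≤ Λ * μ :=
      (one_div_le_one_div_of_le hαX0 (min_le_left _ _)).trans hαX
    have iB : 1 / αB ν ≤ Λ * μ :=
      (one_div_le_one_div_of_le hαX0 (min_le_right _ _)).trans hαX
    have iν : ∀ t, 1 / ν t ≤ Λ * μ := fun t =>
      (one_div_le_one_div_of_le hαX0 (αX_le ν t)).trans hαX
    have hdj : Disj L := W.disj
    have hQ : 16 / αX ν / μ ≤ 16 * Λ := by
      rw [div_le_iff₀ hμ]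
      have : 16 / αX ν = 16 * (1 / αX ν) := by ring
      rw [this]; linarith
    have hX : ∃ ℓ : ι → ℝ, (∀ i ∈ JX, 0 ≤ ℓ i) ∧ (∀ i ∈ JX, Ends2 L i (ℓ i)) ∧
        ∑ i ∈ JX, (ℓ i + T.h i) ≤ η1 := by
      refine ⟨W.tot, fun i _ => ?_, fun i _ => Bw.ends2 H.two i, ?_⟩
      · exact (H.lg_pos i).le.trans (H.lg_tot i)
      · refine (H.sumX T ?_ ?_ hJX).trans ?_
        · rw [eH]; linarith
        · rw [eH']; linarith
        · linarith
    have hFs : ∀ {J : Finset ι}, (∀ z ∈ osq, ∀ z' ∈ osq,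
          |F' (tau ε z') - F' (tau ε z) - (GJ T.D P P' β J w z' - GJ T.D P P' β J w z)| ≤
            ∑ i ∈ JX, |wX i| * |fb T.D P P' β i z' - fb T.D P P' β i z|) →
        (∀ z ∈ osq, ∀ z' ∈ osq,
          |F' (tau ε z') / μ - F' (tau ε z) / μ - (GJ T.D P P' β J (fun i => w i / μ) z'
            - GJ T.D P P' β J (fun i => w i / μ) z)| ≤
            ∑ i ∈ JX, |wX i / μ| * |fb T.D P P' β i z' - fb T.D P P' β i z|) := by
      intro J hF z hz z' hz'
      have hG : ∀ v, GJ T.D P P' β J (fun i => w i / μ) v = GJ T.D P P' β J w v / μ := by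
        intro v; unfold GJ
        rw [Finset.sum_div]
        exact Finset.sum_congr rfl fun i _ => by ring
      rw [hG, hG, ← sub_div, ← sub_div, ← sub_div, abs_div, abs_of_pos hμ, div_le_iff₀ hμ]
      refine (hF z hz z' hz').trans (le_of_eq ?_)
      rw [Finset.sum_mul]
      refine Finset.sum_congr rfl fun i _ => ?_
      rw [abs_div, abs_of_pos hμ]
      field_simp
    have hκb : ∀ {κ' : ℝ}, |κ'| ≤ 2 * (Λ * μ) + 6 * δ * μ → |κ' / μ| ≤ 2 * (16 * Λ) := by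
      intro κ' h
      rw [abs_div, abs_of_pos hμ, div_le_iff₀ hμ]
      have h1 : 6 * δ * μ ≤ 2 * μ := mul_le_mul_of_nonneg_right (by linarith) hμ.le
      have h2 : 1 * μ ≤ Λ * μ := mul_le_mul_of_nonneg_right hΛ hμ.le
      have h3 : 0 ≤ Λ * μ := by positivity
      linarith
    have hκe : ∀ {j : Fin 2} {t : Fin 4}, |κ + ε j * s * (2 / ν t)| ≤ 6 * δ * μ →
        |κ| ≤ 2 * (Λ * μ) + 6 * δ * μ := by
      intro j t h
      have h1 : |κ| ≤ |κ + ε j * s * (2 / ν t)| + |ε j * s * (2 / ν t)| := by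
        have := abs_sub (κ + ε j * s * (2 / ν t)) (ε j * s * (2 / ν t))
        rwa [add_sub_cancel_right] at this
      have h2 : |ε j * s * (2 / ν t)| ≤ 2 * (Λ * μ) := by
        rw [abs_mul, abs_mul, abs_eps hε, hs, one_mul, one_mul, abs_of_pos (div_pos two_pos (H.ν0 t))]
        have h3 := iν t
        have : 2 / ν t = 2 * (1 / ν t) := by ring
        rw [this]; linarith
      linarith
    have hδη : 4 * Λ * η ≤ δL := by
      have h1 := hηη.trans q6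
      rw [le_div_iff₀ (by positivity)] at h1
      linarith
    have hη2 : η ≤ 1/2 := hηη.trans q1
    have hzero : ∀ {J : Finset ι} {j : Fin 2}, J = ∅ → (∀ z ∈ osq, ∀ z' ∈ osq,
          |F' (tau ε z') - F' (tau ε z) - (GJ T.D P P' β J w z' - GJ T.D P P' β J w z)| ≤
            ∑ i ∈ JX, |wX i| * |fb T.D P P' β i z' - fb T.D P P' β i z|) → |κ| ≤ 6 * δ * μ →
        ∫⁻ y in ousq, ‖fderiv ℝ F' y - κ • pr j‖ₑ ^ p ≤ ENNReal.ofReal (e * μ ^ p) := by
      intro J j hJ hF hκ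
      have hm' := hm T.D hdj J JX (fun i => w i / μ) (fun i => wX i / μ)
        (fun x => 16 / (αX ν * wt x)) β (16 / αX ν / μ) hβ0 hβ1 hb4
        (by subst hJ; exact ⟨by simp, by simp, by simp, by simp⟩)
        ((H.crd T JX hwX).scale hμ) hQ hX ε hε (fun y => F' y / μ) (hFs hF)
      refine lint_scale hμ hp0 (hm'.2.2 hJ (κ / μ) j ?_)
      rw [abs_div, abs_of_pos hμ, div_le_iff₀ hμ]
      refine hκ.trans (mul_le_mul_of_nonneg_right ?_ hμ.le)
      linarith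
    refine ⟨fun hw hF hκ1 hκ0 => ?_, fun hw hF hκ1 hκ0 => ?_⟩
    · by_cases hFA : FA
      swap
      · exact hzero (H.eA hFA) hF (hκ0 hFA)
      have hκ := hκ1 hFA
      have hwA : ∀ x ∈ MA, |w x| ≤ wt x := fun x hx => by
        rw [hw x hx, abs_mul, hs, one_mul, abs_of_pos (H.wt0 x)]
      have hm' := hm T.D hdj MA JX (fun i => w i / μ) (fun i => wX i / μ)
        (fun x => 16 / (αX ν * wt x)) β (16 / αX ν / μ) hβ0 hβ1 hb4
        ((H.crd T MA hwA).scale hμ) ((H.crd T JX hwX).scale hμ) hQ hX ε hε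
        (fun y => F' y / μ) (hFs hF)
      have hcl := (H.clA' T (by rw [ea]; linarith) hδ1 hη (by linarith) (by rw [eH]; linarith)
        hβ0 hFA hs hw).scale hμ
      refine lint_scale hμ hp0 (hm'.1 (κ / μ) _ _ _ _ (hκb (hκe hκ)) ?_ ?_ ?_ ?_
        ⟨_, _, _, _, _, hcl⟩)
      · refine slope_aux hμ (H.ν0 2) hαA0 iA ?_ hbβ (by linarith) hη2 hη hs (abs_eps hε 1)
          (eps_sq hε 1) hκ hΛ hδη (by linarith)
        obtain ⟨g1, g2⟩ := H.νA hFA
        have h2 := H.ν0 2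
        have h3 := H.ν0 3
        have hle : αA ν ≤ ν 2 := min_le_left _ _
        have e1 : 1 / αA ν - 1 / ν 2 = (ν 2 - αA ν) / ν 2 * (1 / αA ν) := by
          field_simp
        have e2 : ν 2 - αA ν ≤ η * ν 2 := by
          have : ν 2 - η * ν 2 ≤ αA ν := by
            refine le_min ?_ ?_
            · nlinarith
            · linarith [(abs_le.1 g1).2]
          linarith
        rw [e1, abs_of_nonneg (mul_nonneg (div_nonneg (by linarith) h2.le)
          (one_div_pos.2 hαA0).le)]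
        exact mul_le_mul ((div_le_iff₀ h2).2 e2) iA (one_div_pos.2 hαA0).le hη
      · rw [div_le_iff₀ hμ]
        have e3 : 1 / (2 * (b * β) * αA ν) = 1 / (2 * (b * β)) * (1 / αA ν) := by field_simp
        rw [e3]
        have e4 : 1 / (2 * (b * β)) ≤ 2 := by rw [div_le_iff₀ (by linarith)]; linarith
        have e5 := mul_le_mul e4 iA (one_div_pos.2 hαA0).le (by norm_num)
        have e6 : 0 ≤ Λ * μ := by positivity
        linarith
      · have hη12 : η ≤ δL / 12 := hηη.trans q5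
        exact full_auxA hη hη2 (by linarith) (by linarith) hbβ (by linarith)
      · linarith
    · by_cases hFB : FB
      swap
      · exact hzero (H.eB hFB) hF (hκ0 hFB)
      have hκ := hκ1 hFB
      have hwB : ∀ x ∈ MB, |w x| ≤ wt x := fun x hx => by
        rw [hw x hx, abs_mul, hs, one_mul, abs_of_pos (H.wt0 x)]
      have hm' := hm T.D hdj MB JX (fun i => w i / μ) (fun i => wX i / μ)
        (fun x => 16 / (αX ν * wt x)) β (16 / αX ν / μ) hβ0 hβ1 hb4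
        ((H.crd T MB hwB).scale hμ) ((H.crd T JX hwX).scale hμ) hQ hX ε hε
        (fun y => F' y / μ) (hFs hF)
      have hcl := (H.clB' T (by rw [ea]; linarith) (by rw [ea, ea']; linarith) hδ1 hη
        (by rw [eH']; linarith) hβ0 hFB hs hw).scale hμ
      refine lint_scale hμ hp0 (hm'.2.1 (κ / μ) _ _ _ _ (hκb (hκe hκ)) ?_ ?_ ?_ ?_
        ⟨_, _, _, _, _, _, _, _, hcl⟩)
      · refine slope_aux hμ (H.ν0 0) (H.ν0 0) (iν 0) ?_ hbβ (by linarith) hη2 hη hs (abs_eps hε 0)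
          (eps_sq hε 0) hκ hΛ hδη (by linarith)
        rw [sub_self, abs_zero]
        positivity
      · rw [div_le_iff₀ hμ]
        have ha78 : 7/8 ≤ 1 - P.a := by rw [ea]; linarith
        have e3 : 1 / (2 * (b * β) * αB ν * (1 - P.a))
            = 1 / (2 * (b * β)) * (1 / αB ν) * (1 / (1 - P.a)) := by
          have : (1 - P.a) ≠ 0 := by linarith
          field_simp
        rw [e3]
        have e4 : 1 / (2 * (b * β)) ≤ 2 := by rw [div_le_iff₀ (by linarith)]; linarith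
        have e5 := mul_le_mul e4 iB (one_div_pos.2 hαB0).le (by norm_num)
        have e6 : 0 ≤ Λ * μ := by positivity
        have e7 : 1 / (1 - P.a) ≤ 2 := by rw [div_le_iff₀ (by linarith)]; linarith
        have e8 := mul_le_mul e5 e7 (by
          exact (one_div_pos.2 (by linarith)).le) (by positivity)
        linarith
      · have hη12 : η ≤ δL / 12 := hηη.trans q5
        exact full_auxB hη (by linarith) (by linarith) hbβ (by linarith)
      · linarith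

end pure

end Crest.Agent.R096.Fsw_928
end

-- ▼ part R096/Fsw24_928

/-!
# R096 (row 96), FACE-SWEEP, part 24: the face rule for the final structure (helper928)
-/

set_option autoImplicit false
set_option linter.unusedSectionVars false

open Set Metric Filter Topology MeasureTheory
open scoped ENNReal NNReal Classical

namespace Crest.Agent.R096.Fsw_928

open Crest.Agent.R096.Ce_537 Crest.Agent.R096.Bd_416 Crest.Agent.R096.Fk_522

/-! ### the filled face is `ff` -/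

section fill

variable {E : Type*} [NormedAddCommGroup E] [NormedSpace ℝ E] {q dq : Set E} {I : Type*}

/-- a depth assignment of the pulled back structure is one of the structure -/
lemma dep_unpull {n : ℕ} (e : PLEquiv (cube n) q) (he : e.f '' sph n = dq) {L : Lam dq I}
    {K b : ℝ} {h ρ : I → ℝ} (D : Dep (L.pull (bdE e he) isClosed_sphere) K b h ρ) :
    Dep L K b h ρ where
  cst := D.cst
  h0 := D.h0
  lo := D.lo
  hi := D.hi
  sep i j hij := by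
    rintro ⟨ω, hω, h1, h2⟩
    refine D.sep i j hij ⟨(bdE e he).g ω, (bdE e he).mg hω, ?_, ?_⟩
    · show -1/2 < L.c i ((bdE e he).f ((bdE e he).g ω))
      rw [(bdE e he).ri ω hω]; exact h1
    · show -1/2 < L.c j ((bdE e he).f ((bdE e he).g ω))
      rw [(bdE e he).ri ω hω]; exact h2

/-- the chart of the face: the sweeps, then the given chart -/
noncomputable def swCh (P P' : Par) (A : PLEquiv (cube 2) q) : PLEquiv (cube 2) q :=
  (P.phi P').trans A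

lemma swCh_sph (P P' : Par) {A : PLEquiv (cube 2) q} (hA : A.f '' sph 2 = dq) :
    (swCh P P' A).f '' sph 2 = dq := by
  rw [← hA]
  refine image_congr fun ω hω => ?_
  show A.f ((P.phi P').f ω) = A.f ω
  rw [P.phi_f_sph P' hω]

/-- **the band functions of the face are `ff`** -/
theorem fillBall_ff (P P' : Par) (A : PLEquiv (cube 2) q) (hA : A.f '' sph 2 = dq) {L : Lam dq I}
    {K b : ℝ} {h ρ : I → ℝ} (D : Dep L K b h ρ)
    (D' : Dep (L.pull (bdE A hA) isClosed_sphere) K b h ρ) (i : I) {z : Fin 2 → ℝ}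
    (hz : z ∈ cube 2) :
    (D.fillBall (swCh P P' A) (swCh_sph P P' hA)).c i (A.f z) = ff D' P P' i z := by
  rw [D.fillBall_c]
  have e1 : (swCh P P' A).g (A.f z) = (P.phi P').g z := by
    show (P.phi P').g (A.g (A.f z)) = _
    rw [A.li z hz]
  rw [e1]
  unfold ff
  have hx : (P.phi P').g z ∈ cube 2 := (P.phi P').mg hz
  rcases le_total ‖(P.phi P').g z‖ (1/2) with h1 | h1
  · rw [(D.pull _ _).fill_c_low i h1, D'.fill_c_low i h1]
  · have hAnn : (P.phi P').g z ∈ Ann 2 := ⟨h1, by simpa using hx⟩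
    rw [(D.pull _ _).fill_c_ann i hAnn, D'.fill_c_ann i hAnn]
    have hω := ((collar 2).mf hAnn).1
    have e2 : (swCh P P' A).f ((collar 2).f ((P.phi P').g z)).1
        = A.f ((collar 2).f ((P.phi P').g z)).1 := by
      show A.f ((P.phi P').f _) = _
      rw [P.phi_f_sph P' hω]
    show cl (min (L.c i ((swCh P P' A).f ((collar 2).f ((P.phi P').g z)).1)) _ / (2 * b)) = _
    rw [e2]
    rfl

end fill

/-! ### the face rule -/

section rule

/-- **THE FACE RULE FOR THE FINAL STRUCTURE** -/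
theorem face_rule {p : ℝ} (hp : 1 ≤ p) {Λ : ℝ} (hΛ : 1 ≤ Λ) {e : ℝ} (he : 0 < e) :
    ∃ δ0 : ℝ, 0 < δ0 ∧ δ0 ≤ 1/4 ∧ ∀ δ, 0 < δ → δ ≤ δ0 → ∃ P P' : Par, ∃ η0 : ℝ, 0 < η0 ∧ η0 ≤ δ / 56 ∧
    ∀ η, 0 ≤ η → η ≤ η0 →
    (∀ {ι : Type} [Fintype ι] {L : Lam (sph 2) ι} {W : Bw L} {wt : ι → ℝ} {ν : Fin 4 → ℝ}
      {FA FB : Prop} {MA MB : Finset ι} (_ : Pure W wt ν FA FB δ η MA MB) {K b : ℝ} (_ : Cst K b)
      (k0 : ι → ℕ) (_ : Function.Injective k0) (Rl : ι → ι → Prop)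
      (_ : ∀ x x', Rl x x' → Bw.Inc L x x') (_ : ∀ x x', Rl x x' → k0 x' < k0 x),
      Nonempty (Bw.Dpt W P P' K b (lg W wt ν) Rl (6 * η) (6 * η))) ∧
    (∀ {Q : Type} [PartialOrder Q] {dim : Q → ℕ} {J Fam : Type} {E : Type} [NormedAddCommGroup E]
      [NormedSpace ℝ E] {C : Cmb Q dim J Fam} {K : Q → Set E} {D : Set Q} {g : Gd E J}
      {Pc : ∀ q, C.I q → Set E} {c : ∀ q, C.I q → E → ℝ} (_ : Bd_416.Inv C K D g Pc c) {q : Q}
      (_ : q ∈ D) {L : Lam (sph 2) (C.I q)} {W : Bw L} {wt : J → ℝ} {ν : Fin 4 → ℝ}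
      {FA FB : Prop} {MA MB : Finset (C.I q)}
      (_ : Pure W (fun x : C.I q => wt (C.col q x)) ν FA FB δ η MA MB) {κ' b : ℝ}
      {Rl : C.I q → C.I q → Prop}
      (T : Bw.Dpt W P P' κ' b (lg W (fun x : C.I q => wt (C.col q x)) ν) Rl (6 * η) (6 * η))
      (β μ lf : ℝ), 0 < β → β ≤ 1 → 1 - η ≤ 2 * (b * β) → 0 < μ → 1 / αX ν ≤ Λ * μ →
      1 ≤ lf → lf ≤ 2 →
      ∀ (ch : (Fin 2 → ℝ) → E), (∀ z ∈ osq, ch z ∈ K q) →
      (∀ x, ∀ z ∈ osq, c q x (ch z) = fb T.D P P' β x z) →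
      ∀ (T1 : Finset J) (ε : Fin 2 → ℝ), (∀ i, ε i = 1 ∨ ε i = -1) →
      ∀ (F' : (Fin 2 → ℝ) → ℝ), (∀ z ∈ osq, ∀ z' ∈ osq, F' (tau ε z') - F' (tau ε z)
        = lf * (∑ j ∈ T1, wt j * g.G j (ch z') - ∑ j ∈ T1, wt j * g.G j (ch z))) →
      ∀ (κ s : ℝ), |s| = 1 →
      ((∀ x ∈ MA, C.col q x ∈ T1 ∧ (∀ x', C.col q x' = C.col q x → x' = x) ∧
          sg (C.Lab (C.col q x) q) = s) → (∀ x ∈ MB, C.col q x ∉ T1) →
        (FA → |κ + lf * (ε 1 * s * (2 / ν 2))| ≤ 6 * δ * μ) → (¬ FA → |κ| ≤ 6 * δ * μ) →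
        ∫⁻ y in ousq, ‖fderiv ℝ F' y - κ • pr 1‖ₑ ^ p ≤ ENNReal.ofReal (e * μ ^ p)) ∧
      ((∀ x ∈ MB, C.col q x ∈ T1 ∧ (∀ x', C.col q x' = C.col q x → x' = x) ∧
          sg (C.Lab (C.col q x) q) = s) → (∀ x ∈ MA, C.col q x ∉ T1) →
        (FB → |κ + lf * (ε 0 * s * (2 / ν 0))| ≤ 6 * δ * μ) → (¬ FB → |κ| ≤ 6 * δ * μ) →
        ∫⁻ y in ousq, ‖fderiv ℝ F' y - κ • pr 0‖ₑ ^ p ≤ ENNReal.ofReal (e * μ ^ p))) := by
  have hp0 : 0 ≤ p := by linarith
  have he1 : 0 < e / 2 ^ p := by positivity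
  obtain ⟨δ0, h1, h2, h3⟩ := pure_LP hp hΛ he1
  refine ⟨δ0, h1, h2, fun δ hδ hδ0 => ?_⟩
  obtain ⟨P, P', η0, h4, h5, h6⟩ := h3 δ hδ hδ0
  refine ⟨P, P', η0, h4, h5, fun η hη hη0 => ?_⟩
  obtain ⟨h60, h7⟩ := h6 η hη hη0
  refine ⟨@h60, ?_⟩
  intro Q _ dim J Fam E _ _ C K D g Pc c H q hq L W wt ν FA FB MA MB HP κ' b Rl T β μ lf hβ0 hβ1 hbβ
    hμ hα hlf1 hlf2 ch hch hc T1 ε hε F' hF' κ s hs
  have hlf : 0 < lf := by linarith
  -- general step
  have key : ∀ (M : Finset (C.I q)), (∀ x ∈ M, C.col q x ∈ T1 ∧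
      (∀ x', C.col q x' = C.col q x → x' = x) ∧ sg (C.Lab (C.col q x) q) = s) →
      ∀ z ∈ osq, ∀ z' ∈ osq,
        |F' (tau ε z') / lf - F' (tau ε z) / lf
          - (GJ T.D P P' β M (fun x => s * wt (C.col q x)) z'
            - GJ T.D P P' β M (fun x => s * wt (C.col q x)) z)| ≤
        ∑ i : C.I q with (C.col q i ∈ T1 ∧ i ∉ M), |wt (C.col q i)| *
          |fb T.D P P' β i z' - fb T.D P P' β i z| := by
    intro M hM z hz z' hz'
    have h8 := label_diff H hq wt T1 M (fun x hx => (hM x hx).1) (fun x hx => (hM x hx).2.1)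
      (hch z hz) (hch z' hz')
    have e1 : F' (tau ε z') / lf - F' (tau ε z) / lf
        = ∑ j ∈ T1, wt j * g.G j (ch z') - ∑ j ∈ T1, wt j * g.G j (ch z) := by
      rw [← sub_div, hF' z hz z' hz', mul_div_cancel_left₀ _ hlf.ne']
    have e2 : ∀ v ∈ osq, GJ T.D P P' β M (fun x => s * wt (C.col q x)) v
        = ∑ x ∈ M, sg (C.Lab (C.col q x) q) * wt (C.col q x) * c q x (ch v) := by
      intro v hv
      unfold GJ
      refine Finset.sum_congr rfl fun x hx => ?_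
      rw [(hM x hx).2.2, hc x v hv]
    rw [e1, e2 z hz, e2 z' hz']
    refine h8.trans (le_of_eq (Finset.sum_congr rfl fun x _ => ?_))
    rw [hc x z hz, hc x z' hz']
  have fin : ∀ {j : Fin 2}, (∫⁻ y in ousq, ‖fderiv ℝ (fun y => F' y / lf) y - (κ / lf) • pr j‖ₑ ^ p
      ≤ ENNReal.ofReal (e / 2 ^ p * μ ^ p)) →
      ∫⁻ y in ousq, ‖fderiv ℝ F' y - κ • pr j‖ₑ ^ p ≤ ENNReal.ofReal (e * μ ^ p) := by
    intro j h9
    refine (lint_scale hlf hp0 h9).trans (ENNReal.ofReal_le_ofReal ?_)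
    have h10 : lf ^ p ≤ 2 ^ p := Real.rpow_le_rpow hlf.le hlf2 hp0
    have h11 : 0 ≤ e * μ ^ p := by positivity
    have h12 : (0:ℝ) < 2 ^ p := by positivity
    calc e / 2 ^ p * μ ^ p * lf ^ p ≤ e / 2 ^ p * μ ^ p * 2 ^ p :=
          mul_le_mul_of_nonneg_left h10 (by positivity)
      _ = e * μ ^ p := by field_simp
  have hκ : ∀ {t : ℝ}, |κ + lf * t| ≤ 6 * δ * μ → |κ / lf + t| ≤ 6 * δ * μ := by
    intro t h
    have e3 : κ / lf + t = (κ + lf * t) / lf := by field_simp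
    rw [e3, abs_div, abs_of_pos hlf, div_le_iff₀ hlf]
    have : 0 ≤ 6 * δ * μ := by positivity
    nlinarith
  have hκ0 : |κ| ≤ 6 * δ * μ → |κ / lf| ≤ 6 * δ * μ := by
    intro h
    have := hκ (t := 0) (by simpa using h)
    simpa using this
  refine ⟨fun hM hN k1 k0 => fin ?_, fun hM hN k1 k0 => fin ?_⟩
  · refine (h7 HP T β μ hβ0 hβ1 hbβ hμ hα (Finset.univ.filter fun i => C.col q i ∈ T1 ∧ i ∉ MA)
      (fun x hx => ?_) (fun x => s * wt (C.col q x)) (fun x => wt (C.col q x)) (fun x _ => ?_) ε hε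
      (fun y => F' y / lf) (κ / lf) s hs).1 (fun x _ => rfl) (key MA hM) (fun hF => hκ (k1 hF))
      (fun hF => hκ0 (k0 hF))
    · obtain ⟨-, h8, h9⟩ := Finset.mem_filter.1 hx
      exact ⟨h9, fun hB => hN x hB h8⟩
    · rw [abs_of_pos (HP.wt0 x)]
  · refine (h7 HP T β μ hβ0 hβ1 hbβ hμ hα (Finset.univ.filter fun i => C.col q i ∈ T1 ∧ i ∉ MB)
      (fun x hx => ?_) (fun x => s * wt (C.col q x)) (fun x => wt (C.col q x)) (fun x _ => ?_) ε hε
      (fun y => F' y / lf) (κ / lf) s hs).2 (fun x _ => rfl) (key MB hM) (fun hF => hκ (k1 hF))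
      (fun hF => hκ0 (k0 hF))
    · obtain ⟨-, h8, h9⟩ := Finset.mem_filter.1 hx
      exact ⟨fun hA => hN x hA h8, h9⟩
    · rw [abs_of_pos (HP.wt0 x)]

end rule

end Crest.Agent.R096.Fsw_928
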