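import Crest.Agent.R096.Fsw24_928
import Crest.Agent.R096.SkN1_477
import Crest.Agent.R096.Bd21_416
import Crest.Agent.R096.On1_441
import Crest.Agent.R096.Bd18_416
import Crest.Agent.R096.Fk12_522

-- ▼ part R096/Fsw25_928
section

/-!
# R096 (row 96), FACE-SWEEP, part 25: the affine chart of a designated face (helper928)
-/

set_option autoImplicit false
set_option linter.unusedSectionVars false

open Set Metric Filter Topology MeasureTheory

namespace Crest.Agent.R096.Fsw_928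

open Crest.Agent.R096.Ce_537 Crest.Agent.R096.SkN1_477
open Crest.Agent.R096.SkC1_961 (E3)

/-- `tau ε` as an affine map -/
noncomputable def tauA (ε : Fin 2 → ℝ) : (Fin 2 → ℝ) →ᵃ[ℝ] (Fin 2 → ℝ) where
  toFun := tau ε
  linear := LinearMap.pi fun i => (ε i / 2) • LinearMap.proj i
  map_vadd' z v := by
    ext i
    simp only [tau, vadd_eq_add, Pi.add_apply, LinearMap.pi_apply, LinearMap.smul_apply,
      LinearMap.proj_apply, smul_eq_mul]
    ring

/-- `utau ε` as an affine map -/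
noncomputable def utauA (ε : Fin 2 → ℝ) : (Fin 2 → ℝ) →ᵃ[ℝ] (Fin 2 → ℝ) where
  toFun := utau ε
  linear := LinearMap.pi fun i => (2 * ε i) • LinearMap.proj i
  map_vadd' z v := by
    ext i
    simp only [utau, vadd_eq_add, Pi.add_apply, LinearMap.pi_apply, LinearMap.smul_apply,
      LinearMap.proj_apply, smul_eq_mul]
    ring

/-- `emb` as an affine map -/
noncomputable def embA : (Fin 2 → ℝ) →ᵃ[ℝ] E3 :=
  (LinearMap.pi ![LinearMap.proj (R := ℝ) (φ := fun _ : Fin 2 => ℝ) 0,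
    LinearMap.proj (R := ℝ) (φ := fun _ : Fin 2 => ℝ) 1, 0]).toAffineMap

lemma embA_apply (y : Fin 2 → ℝ) : embA y = emb y := by
  funext i
  fin_cases i <;> rfl

/-- the projection to the plane -/
def qmb (x : E3) : Fin 2 → ℝ := fun i => x i.castSucc

lemma qmb_emb (y : Fin 2 → ℝ) : qmb (emb y) = y := by
  funext i
  fin_cases i <;> rfl

/-- `qmb` as an affine map -/
noncomputable def qmbA : E3 →ᵃ[ℝ] (Fin 2 → ℝ) :=
  (LinearMap.pi fun i : Fin 2 => LinearMap.proj (R := ℝ) (φ := fun _ : Fin 3 => ℝ)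
    i.castSucc).toAffineMap


/-- the chart `z ↦ B⁻¹ (emb (tau ε z))` as an affine map -/
noncomputable def chA (B : E3 ≃ᵃ[ℝ] E3) (ε : Fin 2 → ℝ) : (Fin 2 → ℝ) →ᵃ[ℝ] E3 :=
  (B.symm : E3 →ᵃ[ℝ] E3).comp (embA.comp (tauA ε))

lemma chA_apply (B : E3 ≃ᵃ[ℝ] E3) (ε z : Fin 2 → ℝ) : chA B ε z = B.symm (emb (tau ε z)) := by
  show B.symm (embA (tau ε z)) = _
  rw [embA_apply]

/-- its inverse on the plane of the face -/
noncomputable def chB (B : E3 ≃ᵃ[ℝ] E3) (ε : Fin 2 → ℝ) : E3 →ᵃ[ℝ] (Fin 2 → ℝ) :=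
  (utauA ε).comp (qmbA.comp (B : E3 →ᵃ[ℝ] E3))

lemma chB_apply (B : E3 ≃ᵃ[ℝ] E3) (ε : Fin 2 → ℝ) (x : E3) : chB B ε x = utau ε (qmb (B x)) := rfl

section chart

variable {ε : Fin 2 → ℝ} (hε : ∀ i, ε i = 1 ∨ ε i = -1) (B : E3 ≃ᵃ[ℝ] E3)

lemma mem_cube2' {z : Fin 2 → ℝ} : z ∈ cube 2 ↔ ∀ i, |z i| ≤ 1 := by
  rw [mem_closedBall_zero_iff, pi_norm_le_iff_of_nonneg zero_le_one]
  rfl

include hε

lemma tau_mem {z : Fin 2 → ℝ} (hz : z ∈ cube 2) (j : Fin 2) : 0 ≤ tau ε z j ∧ tau ε z j ≤ 1 := by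
  have h := abs_le.1 (mem_cube2'.1 hz j)
  unfold tau
  rcases hε j with h1 | h1 <;> rw [h1] <;> constructor <;> linarith

lemma utau_mem' {y : Fin 2 → ℝ} (hy : ∀ j, 0 ≤ y j ∧ y j ≤ 1) : utau ε y ∈ cube 2 := by
  rw [mem_cube2']
  intro j
  have h := hy j
  unfold utau
  rw [abs_mul, abs_eps hε, one_mul, abs_le]
  constructor <;> linarith

omit hε in
lemma apply_chA (z : Fin 2 → ℝ) : B (chA B ε z) = emb (tau ε z) := by
  rw [chA_apply, B.apply_symm_apply]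

lemma chB_chA (z : Fin 2 → ℝ) : chB B ε (chA B ε z) = z := by
  rw [chB_apply, apply_chA, qmb_emb, utau_tau hε]

lemma chA_chB {x : E3} (hx : x ∈ usq B) : chA B ε (chB B ε x) = x := by
  obtain ⟨y, -, hy⟩ := hx
  rw [chB_apply, chA_apply, ← hy, qmb_emb, tau_utau hε, hy, B.symm_apply_apply]

lemma chA_mem {z : Fin 2 → ℝ} (hz : z ∈ cube 2) : chA B ε z ∈ usq B := by
  refine mem_preimage.2 ?_
  rw [apply_chA]
  exact ⟨_, fun j => tau_mem hε hz j, rfl⟩

lemma chB_mem {x : E3} (hx : x ∈ usq B) : chB B ε x ∈ cube 2 := by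
  obtain ⟨y, hy, hyx⟩ := hx
  rw [chB_apply, ← hyx, qmb_emb]
  exact utau_mem' hε hy

/-- **the chart of a designated face** -/
noncomputable def chU : PLEquiv (cube 2) (usq B) where
  f := fun z => chA B ε z
  g := fun x => chB B ε x
  pf := plOn_affine _ _
  pg := plOn_affine _ _
  mf := fun _ hz => chA_mem hε B hz
  mg := fun _ hx => chB_mem hε B hx
  li := fun z _ => chB_chA hε B z
  ri := fun _ hx => chA_chB hε B hx

lemma chU_f (z : Fin 2 → ℝ) : (chU hε B).f z = B.symm (emb (tau ε z)) := chA_apply B ε z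



/-- the side `s` of the model square, in the frame: direction and height -/
lemma chU_sd (s : Fin 4) :
    (chU hε B).f '' (sd s '' Icc (-1) 1) =
      side B (if s = 0 ∨ s = 1 then 0 else 1)
        (if s = 0 then (1 - ε 1) / 2 else if s = 1 then (1 + ε 1) / 2 else
          if s = 2 then (1 - ε 0) / 2 else (1 + ε 0) / 2) := by
  ext x
  constructor
  · rintro ⟨_, ⟨t, ht, rfl⟩, rfl⟩
    have hB : B ((chU hε B).f (sd s t)) = emb (tau ε (sd s t)) := apply_chA B _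
    refine mem_preimage.2 ?_
    rw [hB]
    refine ⟨_, ⟨?_, ?_, ?_⟩, rfl⟩
    · exact (tau_mem hε (sphere_subset_closedBall (sd_mem s (abs_le.2 ht))) _).1
    · exact (tau_mem hε (sphere_subset_closedBall (sd_mem s (abs_le.2 ht))) _).2
    · fin_cases s <;> simp [tau, sd] <;> ring
  · rintro ⟨y, ⟨h1, h2, h3⟩, hy⟩
    have key : ∀ t : ℝ, t ∈ Icc (-1 : ℝ) 1 → tau ε (sd s t) = y →
        x ∈ (chU hε B).f '' (sd s '' Icc (-1) 1) := by
      intro t ht h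
      refine ⟨_, ⟨t, ht, rfl⟩, ?_⟩
      rw [chU_f, h, hy, B.symm_apply_apply]
    have e0 := eps_sq hε 0
    have e1 := eps_sq hε 1
    have hm : ∀ i, 0 ≤ y i → y i ≤ 1 → ε i * (2 * y i - 1) ∈ Icc (-1 : ℝ) 1 := by
      intro i h4 h5
      rcases hε i with h | h <;> rw [h] <;> constructor <;> linarith
    fin_cases s
    · refine key (ε 0 * (2 * y 0 - 1)) (hm 0 (by simpa using h1) (by simpa using h2)) ?_
      have h3' : y 1 = (1 - ε 1) / 2 := by simpa using h3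
      funext i
      fin_cases i
      · show (1 + ε 0 * (ε 0 * (2 * y 0 - 1))) / 2 = y 0
        rw [← mul_assoc, e0]; ring
      · show (1 + ε 1 * (-1)) / 2 = y 1
        rw [h3']; ring
    · refine key (ε 0 * (2 * y 0 - 1)) (hm 0 (by simpa using h1) (by simpa using h2)) ?_
      have h3' : y 1 = (1 + ε 1) / 2 := by simpa using h3
      funext i
      fin_cases i
      · show (1 + ε 0 * (ε 0 * (2 * y 0 - 1))) / 2 = y 0
        rw [← mul_assoc, e0]; ring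
      · show (1 + ε 1 * 1) / 2 = y 1
        rw [h3']; ring
    · refine key (ε 1 * (2 * y 1 - 1)) (hm 1 (by simpa using h1) (by simpa using h2)) ?_
      have h3' : y 0 = (1 - ε 0) / 2 := by simpa using h3
      funext i
      fin_cases i
      · show (1 + ε 0 * (-1)) / 2 = y 0
        rw [h3']; ring
      · show (1 + ε 1 * (ε 1 * (2 * y 1 - 1))) / 2 = y 1
        rw [← mul_assoc, e1]; ring
    · refine key (ε 1 * (2 * y 1 - 1)) (hm 1 (by simpa using h1) (by simpa using h2)) ?_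
      have h3' : y 0 = (1 + ε 0) / 2 := by simpa using h3
      funext i
      fin_cases i
      · show (1 + ε 0 * 1) / 2 = y 0
        rw [h3']; ring
      · show (1 + ε 1 * (ε 1 * (2 * y 1 - 1))) / 2 = y 1
        rw [← mul_assoc, e1]; ring

/-- the corners -/
lemma chU_corner (s t : ℝ) : (chU hε B).f ![s, t] = corner B ((1 + ε 0 * s) / 2) ((1 + ε 1 * t) / 2) := by
  rw [chU_f]
  rfl

end chart

/-- the frame whose base corner is a given corner -/
lemma exists_eps {a b : ℝ} (ha : a = 0 ∨ a = 1) (hb : b = 0 ∨ b = 1) :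
    ∃ ε : Fin 2 → ℝ, (∀ i, ε i = 1 ∨ ε i = -1) ∧ (1 + ε 0) / 2 = a ∧ (1 + ε 1) / 2 = b := by
  refine ⟨![2 * a - 1, 2 * b - 1], fun i => ?_, ?_, ?_⟩
  · fin_cases i
    · show 2 * a - 1 = 1 ∨ 2 * a - 1 = -1
      rcases ha with rfl | rfl <;> norm_num
    · show 2 * b - 1 = 1 ∨ 2 * b - 1 = -1
      rcases hb with rfl | rfl <;> norm_num
  · show (1 + (2 * a - 1)) / 2 = a
    ring
  · show (1 + (2 * b - 1)) / 2 = b
    ring

end Crest.Agent.R096.Fsw_928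
end

-- ▼ part R096/Fsw27_928
section

/-!
# R096 (row 96), FACE-SWEEP, part 27: 477's `FaceOut` for the labels `uu` of the final structure
(helper928)
-/

set_option autoImplicit false
set_option linter.unusedSectionVars false

open Set Metric Filter Topology MeasureTheory
open scoped ENNReal

namespace Crest.Agent.R096.Fsw_928

open Crest.Agent.R096.Ce_537 Crest.Agent.R096.Bd_416 Crest.Agent.R096.Fk_522
open Crest.Agent.R096.SkN1_477 Crest.Agent.R096.Mg_441 Crest.Agent.R096.On_441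
open Crest.Agent.R096.SkC1_961 (E3 FoamD)

open scoped Classical

/-- **the rule of a designated face** `q` with the chart `A`: the left-right chords of the family
`cA` (sign `sA`), the bottom-top chords of the family `cB` (sign `sB`) -/
def FSpec {Q : Type} [PartialOrder Q] {dim : Q → ℕ} {J Fam : Type} {E : Type}
    [NormedAddCommGroup E] [NormedSpace ℝ E] (C : Cmb Q dim J Fam) (K : Q → Set E) (wt : J → ℝ)
    (P P' : Par) (δ η b : ℝ) (q : Q) (A : (Fin 2 → ℝ) → E) (cA cB : Fam) (sA sB : ℝ)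
    (ν : Fin 4 → ℝ) (FA FB : Prop) (M : Lam (K q) (C.I q)) : Prop :=
  ∃ (L : Lam (sph 2) (C.I q)) (W : Bw L) (MA MB : Finset (C.I q)) (κ : ℝ)
    (Rl : C.I q → C.I q → Prop)
    (_ : Pure W (fun x : C.I q => wt (C.col q x)) ν FA FB δ η MA MB)
    (T : Bw.Dpt W P P' κ b (lg W (fun x : C.I q => wt (C.col q x)) ν) Rl (6 * η) (6 * η)),
    (∀ x, ∀ z ∈ cube 2, M.c x (A z) = ff T.D P P' x z) ∧
    (∀ x ∈ MA, C.fam (C.col q x) = cA ∧ (∀ x', C.col q x' = C.col q x → x' = x) ∧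
      sg (C.Lab (C.col q x) q) = sA) ∧
    (∀ x ∈ MB, C.fam (C.col q x) = cB ∧ (∀ x', C.col q x' = C.col q x → x' = x) ∧
      sg (C.Lab (C.col q x) q) = sB)

lemma osq_subset_cube : osq ⊆ cube 2 := by
  intro z hz
  rw [mem_cube2']
  have h : z ∈ ball (0 : Fin 2 → ℝ) 1 := hz
  intro i
  have h1 := norm_le_pi_norm z i
  have h2 : ‖z‖ < 1 := mem_ball_zero_iff.1 h
  rw [Real.norm_eq_abs] at h1
  linarith

section out

variable {δ κ0 R c0 : ℝ} {La : Set E3}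

/-- the weighted labels -/
lemma wlab_uu {Φ : FoamD δ κ0 R c0 La} {κ : Φ.F → ℕ} {L : Φ.F → Finset ℝ} {J : Type}
    {fam : J → Φ.F} (hfin : ∀ a, {j | fam j = a}.Finite) (g : Gd E3 J) {wt : J → ℝ} {r : ℝ}
    {c : Φ.F} (hm : (mm hfin c : ℝ) = r * (L c).card)
    (hw : ∀ j, fam j = c → r * wt j = (2:ℝ)⁻¹ ^ κ c) (B : E3 ≃ᵃ[ℝ] E3) (y : E2) :
    wlab Φ κ L (fun x => uu hfin g x) B c y
      = ∑ j ∈ sh hfin c, wt j * g.G j (B.symm (emb y)) := by
  show uu hfin g (B.symm (emb y)) c * ((L c).card * (2:ℝ)⁻¹ ^ κ c) = _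
  unfold uu
  rw [merge_G]
  have hcard : (mm hfin c : ℝ) = ((sh hfin c).card : ℝ) := rfl
  rcases (sh hfin c).eq_empty_or_nonempty with h0 | ⟨j0, hj0⟩
  · rw [h0]; simp
  · have hpos : (0:ℝ) < ((sh hfin c).card : ℝ) := by
      exact_mod_cast Finset.card_pos.2 ⟨j0, hj0⟩
    have e : ∀ j ∈ sh hfin c, ((L c).card : ℝ) * (2:ℝ)⁻¹ ^ κ c = (mm hfin c : ℝ) * wt j := by
      intro j hj
      rw [← hw j ((mem_sh hfin).1 hj), hm]; ring
    rw [div_mul_eq_mul_div, Finset.sum_mul, Finset.sum_div]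
    refine Finset.sum_congr rfl fun j hj => ?_
    rw [e j hj, hcard]
    field_simp

/-- **FACE-OUT** -/
theorem face_out {p : ℝ} (hp : 1 ≤ p) {Λ : ℝ} (hΛ : 1 ≤ Λ) {e : ℝ} (he : 0 < e) :
    ∃ δ0 : ℝ, 0 < δ0 ∧ δ0 ≤ 1/4 ∧ ∀ δ, 0 < δ → δ ≤ δ0 → ∃ P P' : Par, ∃ η0 : ℝ, 0 < η0 ∧
    η0 ≤ δ / 56 ∧ ∀ η, 0 ≤ η → η ≤ η0 →
    (∀ {ι : Type} [Fintype ι] {L : Lam (sph 2) ι} {W : Bw L} {wt : ι → ℝ} {ν : Fin 4 → ℝ}
      {FA FB : Prop} {MA MB : Finset ι} (_ : Pure W wt ν FA FB δ η MA MB) {K b : ℝ} (_ : Cst K b)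
      (k0 : ι → ℕ) (_ : Function.Injective k0) (Rl : ι → ι → Prop)
      (_ : ∀ x x', Rl x x' → Bw.Inc L x x') (_ : ∀ x x', Rl x x' → k0 x' < k0 x),
      Nonempty (Bw.Dpt W P P' K b (lg W wt ν) Rl (6 * η) (6 * η))) ∧
    (∀ {δ' κ0 R c0 : ℝ} {La : Set E3} (Φ : FoamD δ' κ0 R c0 La) (κ : Φ.F → ℕ)
      (L : Φ.F → Finset ℝ) {Q : Type} [PartialOrder Q] {dim : Q → ℕ} {J : Type}
      {C : Cmb Q dim J Φ.F} {K : Q → Set E3} {D : Set Q} {g : Gd E3 J}
      {Pc : ∀ q, C.I q → Set E3} {c : ∀ q, C.I q → E3 → ℝ} (_ : Bd_416.Inv C K D g Pc c) {q : Q}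
      (_ : q ∈ D) (hfin : ∀ a, {j | C.fam j = a}.Finite) (wt : J → ℝ) (rr : Φ.F → ℝ)
      (c1 c2 : Φ.F) (_ : c1 ≠ c2)
      (_ : ∀ a, (a = c1 ∨ a = c2) → (mm hfin a : ℝ) = rr a * (L a).card ∧
        ∀ j, C.fam j = a → rr a * wt j = (2:ℝ)⁻¹ ^ κ a)
      (B : E3 ≃ᵃ[ℝ] E3) (ε : Fin 2 → ℝ) (_ : ∀ i, ε i = 1 ∨ ε i = -1)
      (_ : ∀ z ∈ cube 2, B.symm (emb (tau ε z)) ∈ K q)
      (ν : Fin 4 → ℝ) (FA FB : Prop) (b sA sB : ℝ) (M : Lam (K q) (C.I q))
      (_ : FSpec C K wt P P' δ η b q (fun z => B.symm (emb (tau ε z))) c2 c1 sA sB ν FA FB M)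
      (β : ℝ) (_ : Sqd C K q β M g (Pc q) (c q)) (_ : 1 - η ≤ 2 * (b * β))
      (μ : ℝ) (_ : 0 < μ) (_ : 1 / αX ν ≤ Λ * μ) (a : Fin 2 → ℝ) (σ1 σ2 : ℝ)
      (_ : |sA| = 1) (_ : |sB| = 1)
      (_ : FA → |σ2 * a 1 + ε 1 * sA * (2 / ν 2)| ≤ 6 * δ * μ)
      (_ : ¬ FA → |σ2 * a 1| ≤ 6 * δ * μ)
      (_ : FB → |σ1 * a 0 + ε 0 * sB * (2 / ν 0)| ≤ 6 * δ * μ)
      (_ : ¬ FB → |σ1 * a 0| ≤ 6 * δ * μ),
      FaceOut p Φ κ L (fun x => uu hfin g x) e μ a B c1 c2 σ1 σ2) := by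
  obtain ⟨δ0, h1, h2, h3⟩ := face_rule hp hΛ he
  refine ⟨δ0, h1, h2, fun δ hδ hδ0 => ?_⟩
  obtain ⟨P, P', η0, h4, h5, h6⟩ := h3 δ hδ hδ0
  refine ⟨P, P', η0, h4, h5, fun η hη hη0 => ?_⟩
  obtain ⟨h60, h7⟩ := h6 η hη hη0
  refine ⟨@h60, ?_⟩
  intro δ' κ0 R c0 La Φ κ L Q _ dim J C K D g Pc c H q hq hfin wt rr c1 c2 hne hmm B ε hε hK ν FA FB
    b sA sB M hS β hSq hβ μ hμ hα a σ1 σ2 hsA hsB k1 k2 k3 k4
  obtain ⟨L', W, MA, MB, κ', Rl, HP, T, hM, hMA, hMB⟩ := hS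
  have hcub := osq_subset_cube
  have hc : ∀ x, ∀ z ∈ osq, c q x (B.symm (emb (tau ε z))) = fb T.D P P' β x z := by
    intro x z hz
    rw [hSq.mc x _ (hK z (hcub hz)), hM x z (hcub hz)]
    rfl
  have hF' : ∀ c', (c' = c1 ∨ c' = c2) → ∀ z ∈ osq, ∀ z' ∈ osq,
      wlab Φ κ L (fun x => uu hfin g x) B c' (tau ε z')
        - wlab Φ κ L (fun x => uu hfin g x) B c' (tau ε z)
      = 1 * (∑ j ∈ sh hfin c', wt j * g.G j (B.symm (emb (tau ε z')))
        - ∑ j ∈ sh hfin c', wt j * g.G j (B.symm (emb (tau ε z)))) := by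
    intro c' hc' z _ z' _
    rw [wlab_uu hfin g (hmm c' hc').1 (hmm c' hc').2, wlab_uu hfin g (hmm c' hc').1 (hmm c' hc').2,
      one_mul]
  constructor
  · refine (h7 H hq HP T β μ 1 hSq.β0 hSq.β1 hβ hμ hα le_rfl one_le_two
      (fun z => B.symm (emb (tau ε z))) (fun z hz => hK z (hcub hz)) hc (sh hfin c1) ε hε
      (wlab Φ κ L (fun x => uu hfin g x) B c1) (hF' c1 (Or.inl rfl)) (σ1 * a 0) sB hsB).2
      (fun x hx => ?_) (fun x hx => ?_) (fun h => ?_) k4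
    · obtain ⟨e1, e2, e3⟩ := hMB x hx
      exact ⟨(mem_sh hfin).2 e1, e2, e3⟩
    · rw [mem_sh, (hMA x hx).1]; exact hne.symm
    · rw [one_mul]; exact k3 h
  · refine (h7 H hq HP T β μ 1 hSq.β0 hSq.β1 hβ hμ hα le_rfl one_le_two
      (fun z => B.symm (emb (tau ε z))) (fun z hz => hK z (hcub hz)) hc (sh hfin c2) ε hε
      (wlab Φ κ L (fun x => uu hfin g x) B c2) (hF' c2 (Or.inr rfl)) (σ2 * a 1) sA hsA).1
      (fun x hx => ?_) (fun x hx => ?_) (fun h => ?_) k2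
    · obtain ⟨e1, e2, e3⟩ := hMA x hx
      exact ⟨(mem_sh hfin).2 e1, e2, e3⟩
    · rw [mem_sh, (hMB x hx).1]; exact hne
    · rw [one_mul]; exact k1 h

end out

end Crest.Agent.R096.Fsw_928
end

-- ▼ part R096/Fsw28_928
section

/-!
# R096 (row 96), FACE-SWEEP, part 28: the Lipschitz constants of a designated face in its own frame;
designated faces without weight (helper928)
-/

set_option autoImplicit false
set_option linter.unusedSectionVars false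

open Set Metric Filter Topology MeasureTheory
open scoped ENNReal

namespace Crest.Agent.R096.Fsw_928

open Crest.Agent.R096.Ce_537 Crest.Agent.R096.Bd_416 Crest.Agent.R096.Fk_522
open Crest.Agent.R096.SkN1_477 Crest.Agent.R096.Mg_441 Crest.Agent.R096.On_441
open Crest.Agent.R096.SkC1_961 (E3 FoamD)

open scoped Classical

/-! ### the chart in the frame of the face -/

section frame

variable {ε : Fin 2 → ℝ} (hε : ∀ i, ε i = 1 ∨ ε i = -1) (B : E3 ≃ᵃ[ℝ] E3)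
include hε

lemma dist_chB (y z : E3) : dist (chB B ε y) (chB B ε z) ≤ 2 * dist (B y) (B z) := by
  have h0 : (0:ℝ) ≤ 2 * dist (B y) (B z) := by positivity
  refine (dist_pi_le_iff h0).2 fun i => ?_
  rw [chB_apply, chB_apply, Real.dist_eq]
  have e : utau ε (qmb (B y)) i - utau ε (qmb (B z)) i
      = ε i * (2 * (B y i.castSucc - B z i.castSucc)) := by
    show ε i * (2 * B y i.castSucc - 1) - ε i * (2 * B z i.castSucc - 1) = _
    ring
  rw [e, abs_mul, abs_eps hε, one_mul, abs_mul, abs_of_pos (by norm_num : (0:ℝ) < 2)]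
  refine mul_le_mul_of_nonneg_left ?_ (by norm_num)
  rw [← Real.dist_eq]
  exact dist_le_pi_dist (B y) (B z) i.castSucc

/-- the inverse chart, in the frame of the face -/
lemma chU_MB (Z : Set E3) (z : E3) : Bd_416.MB B id 2 (chU hε B).g Z z :=
  Eventually.of_forall fun y => dist_chB hε B y z

end frame

lemma dist_emb (y y' : Fin 2 → ℝ) : dist (emb y) (emb y') = dist y y' := by
  have h1 : ∀ i, (emb y - emb y') i = if h : (i : ℕ) < 2 then (y - y') ⟨i, h⟩ else 0 := by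
    intro i
    fin_cases i
    · rfl
    · rfl
    · show (0:ℝ) - 0 = _
      simp
  rw [dist_eq_norm, dist_eq_norm]
  refine le_antisymm ?_ ?_
  · refine (pi_norm_le_iff_of_nonneg (norm_nonneg _)).2 fun i => ?_
    rw [h1]
    split_ifs
    · exact norm_le_pi_norm _ _
    · rw [norm_zero]; exact norm_nonneg _
  · refine (pi_norm_le_iff_of_nonneg (norm_nonneg _)).2 fun i => ?_
    have := norm_le_pi_norm (emb y - emb y') i.castSucc
    rw [h1] at this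
    have hi : ((i.castSucc : Fin 3) : ℕ) < 2 := i.2
    rw [dif_pos hi] at this
    exact this

/-- `L^p` norm of a function with small Lipschitz constant -/
lemma lint_lip {p S : ℝ} (hp : 0 ≤ p) (hS : 0 ≤ S) {f : E2 → ℝ}
    (h : ∀ y ∈ ousq, ∀ᶠ y' in 𝓝 y, |f y' - f y| ≤ S * dist y' y) :
    ∫⁻ y in ousq, ‖fderiv ℝ f y - (0:ℝ) • pr 0‖ₑ ^ p ≤ ENNReal.ofReal (S ^ p) := by
  have hvol : volume ousq ≤ 1 := by
    have h1 : ousq ⊆ Icc (0 : Fin 2 → ℝ) 1 := fun y hy =>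
      ⟨fun i => (hy i).1.le, fun i => (hy i).2.le⟩
    refine (measure_mono h1).trans ?_
    rw [Real.volume_Icc_pi]
    simp
  have h2 : ∀ y ∈ ousq, ‖fderiv ℝ f y - (0:ℝ) • pr 0‖ₑ ^ p ≤ ENNReal.ofReal (S ^ p) := by
    intro y hy
    rw [zero_smul, sub_zero]
    have h3 : ‖fderiv ℝ f y‖ ≤ S := by
      refine norm_fderiv_le_of_lip' ℝ hS ?_
      filter_upwards [h y hy] with y' h4
      rw [Real.norm_eq_abs, ← dist_eq_norm]
      exact h4
    rw [← ENNReal.ofReal_rpow_of_nonneg hS hp]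
    refine ENNReal.rpow_le_rpow ?_ hp
    rw [← ofReal_norm]
    exact ENNReal.ofReal_le_ofReal h3
  calc ∫⁻ y in ousq, ‖fderiv ℝ f y - (0:ℝ) • pr 0‖ₑ ^ p
      ≤ ∫⁻ _ in ousq, ENNReal.ofReal (S ^ p) :=
        setLIntegral_mono' isOpen_ousq.measurableSet h2
    _ = ENNReal.ofReal (S ^ p) * volume ousq := by rw [setLIntegral_const]
    _ ≤ _ := mul_le_of_le_one_right zero_le hvol

section zero

/-- **a designated face without weight**: `FaceOut` from the Lipschitz bounds -/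
theorem face_out_zero {δ' κ0 R c0 : ℝ} {La : Set E3} (Φ : FoamD δ' κ0 R c0 La) (κ : Φ.F → ℕ)
    (L : Φ.F → Finset ℝ) {Q : Type} [PartialOrder Q] {dim : Q → ℕ} {J : Type}
    {C : Cmb Q dim J Φ.F} {K : Q → Set E3} {D : Set Q} {g : Gd E3 J}
    {Pc : ∀ q, C.I q → Set E3} {c : ∀ q, C.I q → E3 → ℝ} (H : Bd_416.Inv C K D g Pc c) {q : Q}
    (hq : q ∈ D) (hfin : ∀ a, {j | C.fam j = a}.Finite) (wt : J → ℝ) (hw : ∀ j, 0 < wt j)
    (rr : Φ.F → ℝ) (c1 c2 : Φ.F)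
    (hmm : ∀ a, (a = c1 ∨ a = c2) → (mm hfin a : ℝ) = rr a * (L a).card ∧
      ∀ j, C.fam j = a → rr a * wt j = (2:ℝ)⁻¹ ^ κ a)
    (B : E3 ≃ᵃ[ℝ] E3) (hK : usq B ⊆ K q) {S : ℝ} (hS : 0 ≤ S)
    (hL : ∀ x, ∀ z ∈ usq B, LB B (S / wt (C.col q x)) (c q x) (K q) z)
    {p e μ : ℝ} (hp : 0 ≤ p) (hSe : S ^ p ≤ e * μ ^ p) {a : Fin 2 → ℝ} (ha : ∀ j, a j = 0)
    (σ1 σ2 : ℝ) : FaceOut p Φ κ L (fun x => uu hfin g x) e μ a B c1 c2 σ1 σ2 := by
  have key : ∀ c', (c' = c1 ∨ c' = c2) → ∀ y ∈ ousq, ∀ᶠ y' in 𝓝 y,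
      |wlab Φ κ L (fun x => uu hfin g x) B c' y' - wlab Φ κ L (fun x => uu hfin g x) B c' y|
        ≤ S * dist y' y := by
    intro c' hc' y hy
    have hmem : ∀ y ∈ ousq, B.symm (emb y) ∈ usq B := fun y hy =>
      mem_preimage.2 (by rw [B.apply_symm_apply]; exact ⟨y, fun j => ⟨(hy j).1.le, (hy j).2.le⟩, rfl⟩)
    have h1 := H.LB_fam wt hw hq (sh hfin c')
      (fun j hj j' hj' => by rw [mem_sh] at hj hj'; rw [hj, hj']) (hK (hmem y hy)) hS
      (fun x => hL x _ (hmem y hy))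
    have hcont : Continuous fun y : E2 => B.symm (emb y) := by
      have : (fun y : E2 => B.symm (emb y)) = fun y => ((B.symm : E3 →ᵃ[ℝ] E3).comp embA) y := by
        funext y
        show _ = B.symm (embA y)
        rw [embA_apply]
      rw [this]
      exact AffineMap.continuous_of_finiteDimensional _
    have ht : Tendsto (fun y : E2 => B.symm (emb y)) (𝓝 y) (𝓝[K q] (B.symm (emb y))) :=
      tendsto_nhdsWithin_iff.2 ⟨hcont.tendsto y, by
        filter_upwards [isOpen_ousq.mem_nhds hy] with y' hy' using hK (hmem y' hy')⟩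
    filter_upwards [ht.eventually h1] with y' h2
    rw [wlab_uu hfin g (hmm c' hc').1 (hmm c' hc').2, wlab_uu hfin g (hmm c' hc').1 (hmm c' hc').2]
    refine h2.trans (le_of_eq ?_)
    rw [B.apply_symm_apply, B.apply_symm_apply, dist_emb]
  have h0 : ∀ c', (c' = c1 ∨ c' = c2) → ∀ (σ : ℝ) (j : Fin 2),
      ∫⁻ y in ousq, ‖fderiv ℝ (wlab Φ κ L (fun x => uu hfin g x) B c') y - (σ * a j) • pr j‖ₑ ^ p
        ≤ ENNReal.ofReal (e * μ ^ p) := by
    intro c' hc' σ j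
    have e1 : ∀ y, fderiv ℝ (wlab Φ κ L (fun x => uu hfin g x) B c') y - (σ * a j) • pr j
        = fderiv ℝ (wlab Φ κ L (fun x => uu hfin g x) B c') y - (0:ℝ) • pr 0 := by
      intro y
      rw [ha j, mul_zero, zero_smul, zero_smul]
    simp only [e1]
    exact (lint_lip hp hS (key c' hc')).trans (ENNReal.ofReal_le_ofReal hSe)
  exact ⟨h0 c1 (Or.inl rfl) σ1 0, h0 c2 (Or.inr rfl) σ2 1⟩

end zero

end Crest.Agent.R096.Fsw_928
end

-- ▼ part R096/Fsw29_928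

/-!
# R096 (row 96), FACE-SWEEP, part 29: 477's `FaceIn` gives 522's discrete purity `DP` (helper928)
-/

set_option autoImplicit false
set_option linter.unusedSectionVars false

open Set Metric Filter Topology MeasureTheory
open scoped ENNReal

namespace Crest.Agent.R096.Fsw_928

open Crest.Agent.R096.Ce_537 Crest.Agent.R096.Bd_416 Crest.Agent.R096.Fk_522
open Crest.Agent.R096.SkN1_477 Crest.Agent.R096.Mg_441 Crest.Agent.R096.On_441
open Crest.Agent.R096.SkC1_961 (E3 FoamD)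

open scoped Classical

/-! ### pieces of an edge -/

section edge

variable {Q : Type} [PartialOrder Q] {dim : Q → ℕ} {J Fam : Type}
variable {E : Type*} [NormedAddCommGroup E] [NormedSpace ℝ E]
variable {C : Cmb Q dim J Fam} {K : Q → Set E} {D : Set Q} {g : Gd E J}
  {P : ∀ q, C.I q → Set E} {c : ∀ q, C.I q → E → ℝ}

/-- the level functions in a vertex -/
lemma G_vert (H : Bd_416.Inv C K D g P c) {v : Q} (hv : v ∈ D) (hd : dim v = 0) {z : E}
    (hz : z ∈ K v) (j : J) : g.G j z = 1/2 - sg (C.Lab j v) / 2 := by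
  have := C.vert v hd
  rw [H.PF v hv j z hz, Finset.prod_of_isEmpty, mul_one]

/-- the band function of a piece of an edge vanishes somewhere -/
lemma exists_zero (H : Bd_416.Inv C K D g P c) {q : Q} (hq : q ∈ D) (hd : dim q = 1)
    (hc : IsPreconnected (K q)) {v v' : Q} (h : v < q) (h' : v' < q) (hdv : dim v = 0)
    (hdv' : dim v' = 0) (hne : v ≠ v') (ho : C.o q = v ∨ C.o q = v') {z z' : E} (hz : z ∈ K v)
    (hz' : z' ∈ K v') (hzq : z ∈ K q) (hzq' : z' ∈ K q) (y : C.I q) : ∃ x ∈ K q, c q y x = 0 := by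
  have key : ∀ {v v' : Q} (h : v < q) (h' : v' < q), dim v = 0 → dim v' = 0 → v ≠ v' →
      C.o q = v → ∀ {z z' : E}, z ∈ K v → z' ∈ K v' → z ∈ K q → z' ∈ K q →
      ∃ x ∈ K q, c q y x = 0 := by
    intro v v' h h' hdv hdv' hne ho z z' hz hz' hzq hzq'
    have s0 : C.s h y = 0 := by
      subst ho
      exact C.s_o q hd.ge y
    have s1 : C.s h' y = 1 := C.s_edge h' hd (by rw [ho]; exact hne.symm) y
    have e0 := H.r2 h hq y z hz
    have e1 := H.r2 h' hq y z' hz'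
    have i0 := C.vert v hdv
    have i1 := C.vert v' hdv'
    rw [Finset.prod_of_isEmpty, mul_one, s0, sg_zero] at e0
    rw [Finset.prod_of_isEmpty, mul_one, s1, sg_one] at e1
    have h0 : (0:ℝ) ∈ Icc (c q y z) (c q y z') := ⟨by linarith, by linarith⟩
    exact hc.intermediate_value hzq hzq' (H.pc q hq y).1 h0
  rcases ho with ho | ho
  · exact key h h' hdv hdv' hne ho hz hz' hzq hzq'
  · exact key h' h hdv' hdv hne.symm ho hz' hz hzq' hzq

/-- half integers -/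
lemma merge_half (H : Bd_416.Inv C K D g P c) (hfin : ∀ a, {j | C.fam j = a}.Finite) {q : Q}
    (hq : q ∈ D) {y : C.I q} {z : E} (hz : z ∈ K q) (h0 : c q y z = 0) :
    ∃ n : ℕ, (merge hfin g).G (C.fam (C.col q y)) z = n + 1/2 := by
  have hzP : z ∈ P q y := H.cn q hq y z hz (by rw [h0]; norm_num)
  rw [merge_G, ← Finset.add_sum_erase _ _ ((mem_sh hfin).2 rfl : C.col q y ∈ sh hfin _)]
  have e1 : g.G (C.col q y) z = 1/2 := by
    rw [H.PF q hq _ z hz, prod_split y (fun x => -2 * c q x z), h0]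
    ring
  have e2 : ∀ j ∈ (sh hfin (C.fam (C.col q y))).erase (C.col q y), g.G j z = 0 ∨ g.G j z = 1 := by
    intro j hj
    obtain ⟨hj1, hj2⟩ := Finset.mem_erase.1 hj
    rw [mem_sh] at hj2
    have h3 : ∀ x ∈ Finset.univ.filter (fun x : C.I q => C.col q x = j), -2 * c q x z
        = sg (C.side q y x) := by
      intro x hx
      have hx' := (Finset.mem_filter.1 hx).2
      have hne : y ≠ x := by rintro rfl; exact hj1 hx'.symm
      exact H.sd q hq y x hne (by rw [hx', hj2]) z hzP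
    rw [H.PF q hq _ z hz, Finset.prod_congr rfl h3, ← sg_sum]
    rcases sg_or (C.Lab j q) with h4 | h4 <;>
      rcases sg_or (∑ x : C.I q with C.col q x = j, C.side q y x) with h5 | h5 <;>
      rw [h4, h5] <;> norm_num
  obtain ⟨n, hn, -⟩ := sum01 _ _ e2
  exact ⟨n, by rw [e1, hn]; ring⟩

/-- integers -/
lemma merge_int (H : Bd_416.Inv C K D g P c) (hfin : ∀ a, {j | C.fam j = a}.Finite) {v : Q}
    (hv : v ∈ D) (hd : dim v = 0) {z : E} (hz : z ∈ K v) (a : Fam) :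
    ∃ n : ℕ, (merge hfin g).G a z = n := by
  rw [merge_G]
  obtain ⟨n, hn, -⟩ := sum01 (sh hfin a) (fun j => g.G j z) (fun j _ => by
    rw [G_vert H hv hd hz j]
    rcases sg_or (C.Lab j v) with h4 | h4 <;> rw [h4] <;> norm_num)
  exact ⟨n, hn⟩

/-- **a family with a piece in the edge has not a constant label on the edge** -/
theorem uu_ne (H : Bd_416.Inv C K D g P c) (hfin : ∀ a, {j | C.fam j = a}.Finite) {q : Q}
    (hq : q ∈ D) (hd : dim q = 1)
    (hc : IsPreconnected (K q)) {v v' : Q} (h : v < q) (h' : v' < q) (hdv : dim v = 0)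
    (hdv' : dim v' = 0) (hne : v ≠ v') (ho : C.o q = v ∨ C.o q = v') (hv : v ∈ D) {z z' : E}
    (hz : z ∈ K v)
    (hz' : z' ∈ K v') (hzq : z ∈ K q) (hzq' : z' ∈ K q) (y : C.I q) :
    ∃ x ∈ K q, uu hfin g x (C.fam (C.col q y)) ≠ uu hfin g z (C.fam (C.col q y)) := by
  obtain ⟨x, hx, h0⟩ := exists_zero H hq hd hc h h' hdv hdv' hne ho hz hz' hzq hzq' y
  refine ⟨x, hx, fun he => ?_⟩
  obtain ⟨n, hn⟩ := merge_half H hfin hq hx h0
  obtain ⟨n', hn'⟩ := merge_int H hfin hv hdv hz (C.fam (C.col q y))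
  have hm : (0:ℝ) < mm hfin (C.fam (C.col q y)) := by
    have : 0 < (sh hfin (C.fam (C.col q y))).card :=
      Finset.card_pos.2 ⟨_, (mem_sh hfin).2 rfl⟩
    exact_mod_cast this
  unfold uu at he
  rw [div_left_inj' hm.ne', hn, hn'] at he
  have h2 : (2 * n + 1 : ℝ) = 2 * n' := by linarith
  have h3 : 2 * n + 1 = 2 * n' := by exact_mod_cast h2
  omega

end edge

/-! ### the cells of a designated face -/

/-- the height of the side `s` -/
noncomputable def hgt (ε : Fin 2 → ℝ) : Fin 4 → ℝ :=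
  ![(1 - ε 1) / 2, (1 + ε 1) / 2, (1 - ε 0) / 2, (1 + ε 0) / 2]

/-- the corners of the model square -/
def cx : Fin 4 → ℝ := ![-1, 1, -1, 1]
/-- the corners of the model square -/
def cy : Fin 4 → ℝ := ![-1, -1, 1, 1]

/-- the corner `k` of the face -/
noncomputable def cor (B : E3 ≃ᵃ[ℝ] E3) (ε : Fin 2 → ℝ) (k : Fin 4) : E3 :=
  corner B ((1 + ε 0 * cx k) / 2) ((1 + ε 1 * cy k) / 2)

/-- **the cells of a designated face** -/
structure FG {Q : Type} [PartialOrder Q] {dim : Q → ℕ} {J Fam : Type} {C : Cmb Q dim J Fam}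
    {τ : Q} (S : SqC C τ) (K : Q → Set E3) (B : E3 ≃ᵃ[ℝ] E3) (ε : Fin 2 → ℝ) : Prop where
  e1 : ∀ i, ε i = 1 ∨ ε i = -1
  face : K τ = usq B
  side : ∀ s, K (S.es s) = SkN1_477.side B (dr s) (hgt ε s)
  d0 : ∀ k, dim (S.v k) = 0
  vtx : ∀ k, cor B ε k ∈ K (S.v k)

lemma hgt01 {ε : Fin 2 → ℝ} (hε : ∀ i, ε i = 1 ∨ ε i = -1) (s : Fin 4) :
    hgt ε s = 0 ∨ hgt ε s = 1 := by
  fin_cases s
  · show (1 - ε 1) / 2 = 0 ∨ (1 - ε 1) / 2 = 1
    rcases hε 1 with h | h <;> rw [h] <;> norm_num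
  · show (1 + ε 1) / 2 = 0 ∨ (1 + ε 1) / 2 = 1
    rcases hε 1 with h | h <;> rw [h] <;> norm_num
  · show (1 - ε 0) / 2 = 0 ∨ (1 - ε 0) / 2 = 1
    rcases hε 0 with h | h <;> rw [h] <;> norm_num
  · show (1 + ε 0) / 2 = 0 ∨ (1 + ε 0) / 2 = 1
    rcases hε 0 with h | h <;> rw [h] <;> norm_num

lemma side_sub (B : E3 ≃ᵃ[ℝ] E3) (j : Fin 2) {b : ℝ} (hb : b = 0 ∨ b = 1) :
    SkN1_477.side B j b ⊆ usq B := by
  rintro x ⟨y, ⟨h1, h2, h3⟩, hy⟩
  refine ⟨y, fun i => ?_, hy⟩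
  by_cases hij : i = j
  · rw [hij]; exact ⟨h1, h2⟩
  · have h4 : ∀ i j : Fin 2, i ≠ j → i = 1 - j := by decide
    rw [h4 i j hij, h3]
    rcases hb with rfl | rfl <;> norm_num


lemma cor_w0 (B : E3 ≃ᵃ[ℝ] E3) {ε : Fin 2 → ℝ} (hε : ∀ i, ε i = 1 ∨ ε i = -1) (s : Fin 4) :
    cor B ε (w0 s) ∈ SkN1_477.side B (dr s) (hgt ε s) := by
  have h01 : ∀ (i : Fin 2) (t : ℝ), (t = 1 ∨ t = -1) → 0 ≤ (1 + ε i * t) / 2 ∧ (1 + ε i * t) / 2 ≤ 1 := by
    intro i t ht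
    rcases ht with rfl | rfl <;> rcases hε i with h | h <;> rw [h] <;> norm_num
  refine mem_preimage.2 ?_
  unfold cor corner
  rw [B.apply_symm_apply]
  refine ⟨_, ?_, rfl⟩
  fin_cases s
  · refine ⟨(h01 0 (-1) (Or.inr rfl)).1, (h01 0 (-1) (Or.inr rfl)).2, ?_⟩
    show (1 + ε 1 * (-1)) / 2 = (1 - ε 1) / 2
    ring
  · refine ⟨(h01 0 (-1) (Or.inr rfl)).1, (h01 0 (-1) (Or.inr rfl)).2, ?_⟩
    show (1 + ε 1 * 1) / 2 = (1 + ε 1) / 2
    ring
  · refine ⟨(h01 1 (-1) (Or.inr rfl)).1, (h01 1 (-1) (Or.inr rfl)).2, ?_⟩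
    show (1 + ε 0 * (-1)) / 2 = (1 - ε 0) / 2
    ring
  · refine ⟨(h01 1 (-1) (Or.inr rfl)).1, (h01 1 (-1) (Or.inr rfl)).2, ?_⟩
    show (1 + ε 0 * 1) / 2 = (1 + ε 0) / 2
    ring

lemma cor_w1 (B : E3 ≃ᵃ[ℝ] E3) {ε : Fin 2 → ℝ} (hε : ∀ i, ε i = 1 ∨ ε i = -1) (s : Fin 4) :
    cor B ε (w1 s) ∈ SkN1_477.side B (dr s) (hgt ε s) := by
  have h01 : ∀ (i : Fin 2) (t : ℝ), (t = 1 ∨ t = -1) → 0 ≤ (1 + ε i * t) / 2 ∧ (1 + ε i * t) / 2 ≤ 1 := by
    intro i t ht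
    rcases ht with rfl | rfl <;> rcases hε i with h | h <;> rw [h] <;> norm_num
  refine mem_preimage.2 ?_
  unfold cor corner
  rw [B.apply_symm_apply]
  refine ⟨_, ?_, rfl⟩
  fin_cases s
  · refine ⟨(h01 0 1 (Or.inl rfl)).1, (h01 0 1 (Or.inl rfl)).2, ?_⟩
    show (1 + ε 1 * (-1)) / 2 = (1 - ε 1) / 2
    ring
  · refine ⟨(h01 0 1 (Or.inl rfl)).1, (h01 0 1 (Or.inl rfl)).2, ?_⟩
    show (1 + ε 1 * 1) / 2 = (1 + ε 1) / 2
    ring
  · refine ⟨(h01 1 1 (Or.inl rfl)).1, (h01 1 1 (Or.inl rfl)).2, ?_⟩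
    show (1 + ε 0 * (-1)) / 2 = (1 - ε 0) / 2
    ring
  · refine ⟨(h01 1 1 (Or.inl rfl)).1, (h01 1 1 (Or.inl rfl)).2, ?_⟩
    show (1 + ε 0 * 1) / 2 = (1 + ε 0) / 2
    ring

lemma side_preconn (B : E3 ≃ᵃ[ℝ] E3) (j : Fin 2) (b : ℝ) :
    IsPreconnected (SkN1_477.side B j b) := by
  have h1 : Convex ℝ {y : E2 | 0 ≤ y j ∧ y j ≤ 1 ∧ y (1 - j) = b} := by
    intro y hy z hz s t hs ht hst
    refine ⟨?_, ?_, ?_⟩
    · show 0 ≤ s * y j + t * z j
      have := mul_nonneg hs hy.1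
      have := mul_nonneg ht hz.1
      linarith
    · show s * y j + t * z j ≤ 1
      have := mul_le_mul_of_nonneg_left hy.2.1 hs
      have := mul_le_mul_of_nonneg_left hz.2.1 ht
      linarith
    · show s * y (1 - j) + t * z (1 - j) = b
      rw [hy.2.2, hz.2.2, ← add_mul, hst, one_mul]
  have h2 : SkN1_477.side B j b = (fun y : E2 => B.symm (emb y)) ''
      {y : E2 | 0 ≤ y j ∧ y j ≤ 1 ∧ y (1 - j) = b} := by
    ext x
    constructor
    · rintro ⟨y, hy, hyx⟩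
      exact ⟨y, hy, by show B.symm (emb y) = x; rw [hyx, B.symm_apply_apply]⟩
    · rintro ⟨y, hy, rfl⟩
      refine mem_preimage.2 ?_
      show B (B.symm (emb y)) ∈ _
      rw [B.apply_symm_apply]
      exact ⟨y, hy, rfl⟩
  rw [h2]
  refine h1.isPreconnected.image _ ?_
  have : (fun y : E2 => B.symm (emb y)) = fun y => ((B.symm : E3 →ᵃ[ℝ] E3).comp embA) y := by
    funext y
    show _ = B.symm (embA y)
    rw [embA_apply]
  rw [this]
  exact (AffineMap.continuous_of_finiteDimensional _).continuousOn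

/-! ### the purity -/

section dp

variable {δ' κ0 R c0 : ℝ} {La : Set E3} {Φ : FoamD δ' κ0 R c0 La} {κ : Φ.F → ℕ}
  {L : Φ.F → Finset ℝ} {Q : Type} [PartialOrder Q] {dim : Q → ℕ} {J : Type}
  {C : Cmb Q dim J Φ.F} {K : Q → Set E3} {D : Set Q} {g : Gd E3 J}
  {Pc : ∀ q, C.I q → Set E3} {c : ∀ q, C.I q → E3 → ℝ}

/-- the sum of the jumps of the labels along a side -/
lemma sum_dsp (H : Bd_416.Inv C K D g Pc c) {τ : Q} {S : SqC C τ} {B : E3 ≃ᵃ[ℝ] E3}
    {ε : Fin 2 → ℝ} (G : FG S K B ε) (hvD : ∀ k, S.v k ∈ D)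
    (hfin : ∀ a, {j | C.fam j = a}.Finite) {wt : J → ℝ} {rr : Φ.F → ℝ} {c' : Φ.F}
    (hm : (mm hfin c' : ℝ) = rr c' * (L c').card)
    (hw : ∀ j, C.fam j = c' → rr c' * wt j = (2:ℝ)⁻¹ ^ κ c') (s : Fin 4) :
    ∑ j ∈ sh hfin c', wt j * S.dsp s j =
      (uu hfin g (cor B ε (w1 s)) c' - uu hfin g (cor B ε (w0 s)) c') *
        ((L c').card * (2:ℝ)⁻¹ ^ κ c') := by
  have e1 : ∀ y : E2, uu hfin g (B.symm (emb y)) c' * ((L c').card * (2:ℝ)⁻¹ ^ κ c')
      = ∑ j ∈ sh hfin c', wt j * g.G j (B.symm (emb y)) := fun y =>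
    wlab_uu (Φ := Φ) hfin g hm hw B y
  have e2 : ∀ k, uu hfin g (cor B ε k) c' * ((L c').card * (2:ℝ)⁻¹ ^ κ c')
      = ∑ j ∈ sh hfin c', wt j * (1/2 - sg (C.Lab j (S.v k)) / 2) := by
    intro k
    refine (e1 _).trans (Finset.sum_congr rfl fun j _ => ?_)
    rw [← G_vert H (hvD k) (G.d0 k) (G.vtx k) j]
    rfl
  rw [sub_mul, e2, e2, ← Finset.sum_sub_distrib]
  refine Finset.sum_congr rfl fun j _ => ?_
  unfold SqC.dsp
  ring

/-- **`FaceIn` gives `DP`** -/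
theorem dp_of_faceIn (H : Bd_416.Inv C K D g Pc c) {τ : Q} {S : SqC C τ} {B : E3 ≃ᵃ[ℝ] E3}
    {ε : Fin 2 → ℝ} (G : FG S K B ε) (hvD : ∀ k, S.v k ∈ D) (heD : ∀ s, S.es s ∈ D)
    (hfin : ∀ a, {j | C.fam j = a}.Finite) {wt : J → ℝ} (hw0 : ∀ j, 0 < wt j) {rr : Φ.F → ℝ}
    (hr : ∀ a, 1 ≤ rr a) (hm : ∀ a, (mm hfin a : ℝ) = rr a * (L a).card)
    (hw : ∀ j, rr (C.fam j) * wt j = (2:ℝ)⁻¹ ^ κ (C.fam j))
    {n : Set E3 → Φ.F → ℝ}
    (hn : ∀ s a, n (SkN1_477.side B (dr s) (hgt ε s)) a = nP C (S.es s) a / rr a)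
    {η μ : ℝ} {a : Fin 2 → ℝ} {c1 c2 : Φ.F} {σ1 σ2 : ℝ}
    (F : FaceIn Φ κ L (fun x => uu hfin g x) n η μ a B c1 c2 σ1 σ2) :
    DP S wt (fun i => sh hfin (![c1, c2] i)) ![c1, c2] (fun i => ε i * ![σ1, σ2] i) a
      (η * μ) := by
  have hε := G.e1
  have hwle : ∀ j, wt j ≤ (2:ℝ)⁻¹ ^ κ (C.fam j) := fun j => by
    rw [← hw j]
    have := hr (C.fam j)
    nlinarith [hw0 j]
  -- the sum over a family
  have hsum : ∀ s (c' : Φ.F) (inst : DecidablePred fun y : C.I (S.es s) =>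
      C.fam (C.col _ y) = c'), ∑ y ∈ @Finset.filter _ _ inst Finset.univ, wt (C.col _ y)
      = n (SkN1_477.side B (dr s) (hgt ε s)) c' * (2:ℝ)⁻¹ ^ κ c' := by
    intro s c' inst
    have hr0 : rr c' ≠ 0 := by have := hr c'; linarith
    have e1 : ∀ y ∈ @Finset.filter _ (fun y : C.I (S.es s) => C.fam (C.col _ y) = c') inst
        Finset.univ, wt (C.col _ y) = (2:ℝ)⁻¹ ^ κ c' / rr c' := by
      intro y hy
      have h1 := (Finset.mem_filter.1 hy).2
      have h2 := hw (C.col _ y)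
      rw [h1] at h2
      rw [eq_div_iff hr0, mul_comm]
      exact h2
    rw [Finset.sum_congr rfl e1, Finset.sum_const, nsmul_eq_mul, hn]
    have e2 : ((@Finset.filter _ (fun y : C.I (S.es s) => C.fam (C.col _ y) = c') inst
        Finset.univ).card : ℝ) = (nP C (S.es s) c' : ℝ) := by
      unfold nP
      congr 3
    rw [e2]
    ring
  -- two families
  have htwo : ∀ s (y : C.I (S.es s)), C.fam (C.col _ y) = c1 ∨ C.fam (C.col _ y) = c2 := by
    intro s y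
    by_contra hcon
    push Not at hcon
    have hsub : K (S.es s) ⊆ usq B := by
      rw [G.side s]; exact side_sub B _ (hgt01 hε s)
    have hz0 : cor B ε (w0 s) ∈ K (S.es s) := by rw [G.side s]; exact cor_w0 B hε s
    have hz1 : cor B ε (w1 s) ∈ K (S.es s) := by rw [G.side s]; exact cor_w1 B hε s
    obtain ⟨x, hx, hxne⟩ := uu_ne H hfin (heD s) (S.d1 s)
      (by rw [G.side s]; exact side_preconn B _ _) (S.l0 s) (S.l1 s) (G.d0 _) (G.d0 _) (S.ne s)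
      (S.ob s) (hvD _) (G.vtx _) (G.vtx _) hz0 hz1 y
    exact hxne (F.two _ hcon.1 hcon.2 x (hsub hx) _ (hsub hz0))
  have hval : ∀ i : Fin 2, ![c1, c2] i = c1 ∨ ![c1, c2] i = c2 := by
    intro i; fin_cases i
    · exact Or.inl rfl
    · exact Or.inr rfl
  refine ⟨F.ne, fun s y => ?_, fun i j hj => (mem_sh hfin).1 hj, fun i s y hy => ?_,
    fun i => ?_, fun s y => ?_, fun i s hs => ?_, fun i s hs => ?_, fun i s hs => ?_⟩
  · rcases htwo s y with h | h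
    · exact ⟨0, h⟩
    · exact ⟨1, h⟩
  · exact (mem_sh hfin).2 hy
  · fin_cases i
    · show ε 0 * σ1 = 1 ∨ ε 0 * σ1 = -1
      rcases hε 0 with h | h <;> rcases F.sg1 with h' | h' <;> rw [h, h'] <;> norm_num
    · show ε 1 * σ2 = 1 ∨ ε 1 * σ2 = -1
      rcases hε 1 with h | h <;> rcases F.sg2 with h' | h' <;> rw [h, h'] <;> norm_num
  · refine (hwle _).trans ?_
    rcases htwo s y with h | h
    · rw [h]; exact F.small1
    · rw [h]; exact F.small2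
  · rw [hsum s _ _]
    subst hs
    have hb := hgt01 hε s
    have hd : dr s = 0 ∨ dr s = 1 := by omega
    rcases hd with h | h <;> rw [h]
    · exact (F.main1 _ hb).1
    · exact (F.main2 _ hb).1
  · show a i - η * μ ≤ ε i * ![σ1, σ2] i * ∑ j ∈ sh hfin (![c1, c2] i), wt j * S.dsp s j
    subst hs
    have hb := hgt01 hε s
    rw [sum_dsp (Φ := Φ) (κ := κ) (L := L) H G hvD hfin (hm _) (fun j hj => by rw [← hj]; exact hw j) s]
    fin_cases s
    · show a 0 - η * μ ≤ ε 0 * σ1 * ((uu hfin g (cor B ε 1) c1 - uu hfin g (cor B ε 0) c1) *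
        ((L c1).card * (2:ℝ)⁻¹ ^ κ c1))
      have h1 := (F.main1 _ hb).2
      have e1 : cor B ε 1 = corner B ((1 + ε 0) / 2) ((1 - ε 1) / 2) := by
        show corner B ((1 + ε 0 * 1) / 2) ((1 + ε 1 * (-1)) / 2) = _
        congr 1 <;> ring
      have e0 : cor B ε 0 = corner B ((1 - ε 0) / 2) ((1 - ε 1) / 2) := by
        show corner B ((1 + ε 0 * (-1)) / 2) ((1 + ε 1 * (-1)) / 2) = _
        congr 1 <;> ring
      have h1' : a 0 - η * μ ≤ σ1 * (uu hfin g (corner B 1 ((1 - ε 1) / 2)) c1 -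
        uu hfin g (corner B 0 ((1 - ε 1) / 2)) c1) * ((L c1).card * (2 : ℝ)⁻¹ ^ κ c1) := h1
      rw [e1, e0]
      rcases hε 0 with h | h
      · have t1 : (1 + ε 0) / 2 = 1 := by rw [h]; norm_num
        have t0 : (1 - ε 0) / 2 = 0 := by rw [h]; norm_num
        rw [t1, t0, h]; linarith
      · have t1 : (1 + ε 0) / 2 = 0 := by rw [h]; norm_num
        have t0 : (1 - ε 0) / 2 = 1 := by rw [h]; norm_num
        rw [t1, t0, h]; linarith
    · show a 0 - η * μ ≤ ε 0 * σ1 * ((uu hfin g (cor B ε 3) c1 - uu hfin g (cor B ε 2) c1) *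
        ((L c1).card * (2:ℝ)⁻¹ ^ κ c1))
      have h1 := (F.main1 _ hb).2
      have e1 : cor B ε 3 = corner B ((1 + ε 0) / 2) ((1 + ε 1) / 2) := by
        show corner B ((1 + ε 0 * 1) / 2) ((1 + ε 1 * 1) / 2) = _
        congr 1 <;> ring
      have e0 : cor B ε 2 = corner B ((1 - ε 0) / 2) ((1 + ε 1) / 2) := by
        show corner B ((1 + ε 0 * (-1)) / 2) ((1 + ε 1 * 1) / 2) = _
        congr 1 <;> ring
      have h1' : a 0 - η * μ ≤ σ1 * (uu hfin g (corner B 1 ((1 + ε 1) / 2)) c1 -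
        uu hfin g (corner B 0 ((1 + ε 1) / 2)) c1) * ((L c1).card * (2 : ℝ)⁻¹ ^ κ c1) := h1
      rw [e1, e0]
      rcases hε 0 with h | h
      · have t1 : (1 + ε 0) / 2 = 1 := by rw [h]; norm_num
        have t0 : (1 - ε 0) / 2 = 0 := by rw [h]; norm_num
        rw [t1, t0, h]; linarith
      · have t1 : (1 + ε 0) / 2 = 0 := by rw [h]; norm_num
        have t0 : (1 - ε 0) / 2 = 1 := by rw [h]; norm_num
        rw [t1, t0, h]; linarith
    · show a 1 - η * μ ≤ ε 1 * σ2 * ((uu hfin g (cor B ε 2) c2 - uu hfin g (cor B ε 0) c2) *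
        ((L c2).card * (2:ℝ)⁻¹ ^ κ c2))
      have h1 := (F.main2 _ hb).2
      have e1 : cor B ε 2 = corner B ((1 - ε 0) / 2) ((1 + ε 1) / 2) := by
        show corner B ((1 + ε 0 * (-1)) / 2) ((1 + ε 1 * 1) / 2) = _
        congr 1 <;> ring
      have e0 : cor B ε 0 = corner B ((1 - ε 0) / 2) ((1 - ε 1) / 2) := by
        show corner B ((1 + ε 0 * (-1)) / 2) ((1 + ε 1 * (-1)) / 2) = _
        congr 1 <;> ring
      have h1' : a 1 - η * μ ≤ σ2 * (uu hfin g (corner B ((1 - ε 0) / 2) 1) c2 -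
        uu hfin g (corner B ((1 - ε 0) / 2) 0) c2) * ((L c2).card * (2 : ℝ)⁻¹ ^ κ c2) := h1
      rw [e1, e0]
      rcases hε 1 with h | h
      · have t1 : (1 + ε 1) / 2 = 1 := by rw [h]; norm_num
        have t0 : (1 - ε 1) / 2 = 0 := by rw [h]; norm_num
        rw [t1, t0, h]; linarith
      · have t1 : (1 + ε 1) / 2 = 0 := by rw [h]; norm_num
        have t0 : (1 - ε 1) / 2 = 1 := by rw [h]; norm_num
        rw [t1, t0, h]; linarith
    · show a 1 - η * μ ≤ ε 1 * σ2 * ((uu hfin g (cor B ε 3) c2 - uu hfin g (cor B ε 1) c2) *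
        ((L c2).card * (2:ℝ)⁻¹ ^ κ c2))
      have h1 := (F.main2 _ hb).2
      have e1 : cor B ε 3 = corner B ((1 + ε 0) / 2) ((1 + ε 1) / 2) := by
        show corner B ((1 + ε 0 * 1) / 2) ((1 + ε 1 * 1) / 2) = _
        congr 1 <;> ring
      have e0 : cor B ε 1 = corner B ((1 + ε 0) / 2) ((1 - ε 1) / 2) := by
        show corner B ((1 + ε 0 * 1) / 2) ((1 + ε 1 * (-1)) / 2) = _
        congr 1 <;> ring
      have h1' : a 1 - η * μ ≤ σ2 * (uu hfin g (corner B ((1 + ε 0) / 2) 1) c2 -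
        uu hfin g (corner B ((1 + ε 0) / 2) 0) c2) * ((L c2).card * (2 : ℝ)⁻¹ ^ κ c2) := h1
      rw [e1, e0]
      rcases hε 1 with h | h
      · have t1 : (1 + ε 1) / 2 = 1 := by rw [h]; norm_num
        have t0 : (1 - ε 1) / 2 = 0 := by rw [h]; norm_num
        rw [t1, t0, h]; linarith
      · have t1 : (1 + ε 1) / 2 = 0 := by rw [h]; norm_num
        have t0 : (1 - ε 1) / 2 = 1 := by rw [h]; norm_num
        rw [t1, t0, h]; linarith
  · rw [hsum s _ _]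
    have hb := hgt01 hε s
    have hi : i = 0 ∨ i = 1 := by omega
    have hd : dr s = 0 ∨ dr s = 1 := by omega
    rcases hi with rfl | rfl <;> rcases hd with h | h
    · exact absurd h hs
    · rw [h]; exact F.other1 _ hb
    · rw [h]; exact F.other2 _ hb
    · exact absurd h hs

end dp

end Crest.Agent.R096.Fsw_928
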