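import Crest.Agent.R096.Bd3_416
import Crest.Agent.R096.Cb1_609

-- ▼ part R096/Fsw1_928
section

/-!
# R096 (row 96), FACE-SWEEP, part 1: the sweep annulus of the square (helper928)

`Par`: small inset `a`, slope `m`, sweep height `H`.  `Par.F (ω, ρ)` parametrises the boundary of the
box `[-1 + aρ, 1 - aρ] × [-1 + Hρ, 1 - aρ]`; `Par.sweep : PLEquiv (sph 2 × [0,1]) (NA P)`.
-/

set_option autoImplicit false

open Set Metric

namespace Crest.Agent.R096.Fsw_928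

open Crest.Agent.R096.Ce_537 Crest.Agent.R096.Bd_416

lemma mem_cube2 {x : Fin 2 → ℝ} : x ∈ cube 2 ↔ |x 0| ≤ 1 ∧ |x 1| ≤ 1 := by
  rw [cube, mem_closedBall_zero_iff, pi_norm_le_iff_of_nonneg zero_le_one]
  simp [Fin.forall_fin_two]

lemma mem_sph2 {x : Fin 2 → ℝ} :
    x ∈ sph 2 ↔ |x 0| ≤ 1 ∧ |x 1| ≤ 1 ∧ (|x 0| = 1 ∨ |x 1| = 1) := by
  constructor
  · intro h
    have h1 : ‖x‖ = 1 := by simpa using h
    have h2 : x ∈ cube 2 := sph_subset_cube h
    rw [mem_cube2] at h2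
    have hx0 : x ≠ 0 := by rintro rfl; rw [norm_zero] at h1; norm_num at h1
    obtain ⟨i, hi⟩ := exists_coord hx0
    rw [h1] at hi
    refine ⟨h2.1, h2.2, ?_⟩
    fin_cases i
    · exact Or.inl hi.symm
    · exact Or.inr hi.symm
  · rintro ⟨h0, h1, h2⟩
    have h3 : ‖x‖ ≤ 1 := by simpa using (mem_cube2.2 ⟨h0, h1⟩ : x ∈ cube 2)
    have h4 : (1 : ℝ) ≤ ‖x‖ := by
      rcases h2 with h2 | h2
      · rw [← h2]; exact abs_apply_le x 0
      · rw [← h2]; exact abs_apply_le x 1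
    simpa using le_antisymm h3 h4

/-- parameters of a sweep -/
structure Par where
  a : ℝ
  m : ℝ
  H : ℝ
  a0 : 0 < a
  m0 : 0 < m
  H0 : 0 < H
  aH : H + 2 * a ≤ 2
  am : a + m * H ≤ 1 / 4

namespace Par

variable (P : Par)

/-- height of the sweeping side at time `ρ` -/
def hh (ρ : ℝ) : ℝ := -1 + P.H * ρ

/-- inset -/
def dd (t ρ : ℝ) : ℝ := P.a * ρ + P.m * max 0 (P.hh ρ - t)

noncomputable def U (s t ρ : ℝ) : ℝ := cg (1 - P.dd t ρ) s

noncomputable def V (t ρ : ℝ) : ℝ := max (P.hh ρ) (min t ((1 + t) / 2 - P.a * ρ))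

/-- gauge of the boxes -/
noncomputable def R (u v : ℝ) : ℝ :=
  min (min ((1 - max u (-u)) / P.a) ((1 - v) / P.a)) ((1 + v) / P.H)

noncomputable def T (u v ρ : ℝ) : ℝ :=
  max (-1) (max (max v (2 * v - 1 + 2 * (P.a * ρ)) - (1 - max u (-u) - P.a * ρ) / P.m)
    (1 - (2 / P.a) * (1 - P.a * ρ - v)))

noncomputable def S (u t ρ : ℝ) : ℝ := max (-1) (min (cf (1 - P.dd t ρ) u) 1)

variable {P}

lemma one_sub_two_a_le {ρ : ℝ} (h0 : 0 ≤ ρ) (h1 : ρ ≤ 1) : P.hh ρ ≤ 1 - 2 * (P.a * ρ) := by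
  have h := P.aH
  have h2 : (P.H + 2 * P.a) * ρ ≤ 2 * 1 := mul_le_mul h h1 h0 (by norm_num)
  unfold hh
  nlinarith

lemma hh_ge {ρ : ℝ} (h0 : 0 ≤ ρ) : -1 ≤ P.hh ρ := by
  have := mul_nonneg P.H0.le h0
  unfold hh; linarith

lemma hh_le {ρ : ℝ} (h1 : ρ ≤ 1) : P.hh ρ + 1 ≤ P.H := by
  have := mul_le_mul_of_nonneg_left h1 P.H0.le
  unfold hh; linarith

lemma aρ_nonneg {ρ : ℝ} (h0 : 0 ≤ ρ) : 0 ≤ P.a * ρ := mul_nonneg P.a0.le h0

lemma aρ_le {ρ : ℝ} (h1 : ρ ≤ 1) : P.a * ρ ≤ P.a := by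
  have := mul_le_mul_of_nonneg_left h1 P.a0.le
  linarith

lemma dd_ge {t ρ : ℝ} : P.a * ρ ≤ P.dd t ρ := by
  have := mul_nonneg P.m0.le (le_max_left 0 (P.hh ρ - t))
  unfold dd; linarith

lemma dd_le {t ρ : ℝ} (h1 : ρ ≤ 1) (ht : -1 ≤ t) : P.dd t ρ ≤ 1 / 4 := by
  have h2 : max 0 (P.hh ρ - t) ≤ P.H := max_le P.H0.le (by linarith [P.hh_le h1])
  have h3 := mul_le_mul_of_nonneg_left h2 P.m0.le
  have h4 := P.aρ_le h1
  have := P.am
  unfold dd; linarith

lemma dd_of_ge {t ρ : ℝ} (h : P.hh ρ ≤ t) : P.dd t ρ = P.a * ρ := by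
  unfold dd; rw [max_eq_left (by linarith)]; ring

lemma dd_of_le {t ρ : ℝ} (h : t ≤ P.hh ρ) : P.dd t ρ = P.a * ρ + P.m * (P.hh ρ - t) := by
  unfold dd; rw [max_eq_right (by linarith)]

lemma a_le : P.a ≤ 1 / 4 := by
  have := P.am
  have := mul_pos P.m0 P.H0
  linarith

/-- the third term of `T` is at most `-1` on the sweeping side -/
lemma third_le {ρ : ℝ} (h1 : ρ ≤ 1) :
    1 - (2 / P.a) * (1 - P.a * ρ - P.hh ρ) ≤ -1 := by
  have h2 : P.a ≤ 1 - P.a * ρ - P.hh ρ := by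
    have h3 := P.aH
    have h4 := P.aρ_le h1
    have h5 := P.hh_le h1
    linarith
  have h6 : (2 / P.a) * P.a = 2 := by field_simp [P.a0.ne']
  have h7 := mul_le_mul_of_nonneg_left h2 (div_nonneg (by norm_num) P.a0.le : (0:ℝ) ≤ 2 / P.a)
  linarith

lemma two_le : 2 ≤ 2 / P.a := by
  rw [le_div_iff₀ P.a0]
  have := P.a_le
  linarith

lemma max_neg_eq (u : ℝ) : max u (-u) = |u| := rfl

lemma abs_U {s t ρ : ℝ} (h1 : ρ ≤ 1) (ht : -1 ≤ t) :
    |P.U s t ρ| = cg (1 - P.dd t ρ) |s| := by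
  unfold U; exact abs_cg _ _ (by linarith [P.dd_le h1 ht])

lemma abs_U_le {s t ρ : ℝ} (h0 : 0 ≤ ρ) (h1 : ρ ≤ 1) (ht : -1 ≤ t) (hs : |s| ≤ 1) :
    |P.U s t ρ| ≤ 1 - P.dd t ρ := by
  rw [abs_U h1 ht]
  have h2 := P.dd_le h1 ht
  have h3 := (P.aρ_nonneg h0).trans (P.dd_ge (t := t))
  calc cg (1 - P.dd t ρ) |s| ≤ cg (1 - P.dd t ρ) 1 := cg_mono (by linarith) (abs_nonneg _) hs
    _ = _ := cg_top (by linarith) (by linarith)

lemma abs_U_eq {s t ρ : ℝ} (h0 : 0 ≤ ρ) (h1 : ρ ≤ 1) (ht : -1 ≤ t) (hs : |s| = 1) :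
    |P.U s t ρ| = 1 - P.dd t ρ := by
  rw [abs_U h1 ht, hs]
  have h2 := P.dd_le h1 ht
  have h3 := (P.aρ_nonneg h0).trans (P.dd_ge (t := t))
  exact cg_top (by linarith) (by linarith)

lemma S_U {s t ρ : ℝ} (h1 : ρ ≤ 1) (ht : -1 ≤ t) (hs : |s| ≤ 1) :
    P.S (P.U s t ρ) t ρ = s := by
  unfold S U
  rw [cf_cg (by linarith [P.dd_le h1 ht])]
  rw [abs_le] at hs
  rw [min_eq_left hs.2, max_eq_right hs.1]

lemma hh_le_mid {ρ : ℝ} (h0 : 0 ≤ ρ) (h1 : ρ ≤ 1) {t : ℝ} (ht : P.hh ρ ≤ t) :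
    P.hh ρ ≤ (1 + t) / 2 - P.a * ρ := by
  have := P.one_sub_two_a_le h0 h1
  linarith

lemma V_of_ge {t ρ : ℝ} (h0 : 0 ≤ ρ) (h1 : ρ ≤ 1) (ht : P.hh ρ ≤ t) :
    P.V t ρ = min t ((1 + t) / 2 - P.a * ρ) := by
  unfold V
  exact max_eq_right (le_min ht (P.hh_le_mid h0 h1 ht))

lemma V_of_le {t ρ : ℝ} (ht : t ≤ P.hh ρ) : P.V t ρ = P.hh ρ := by
  unfold V
  exact max_eq_left ((min_le_left _ _).trans ht)

lemma V_ge (t ρ : ℝ) : P.hh ρ ≤ P.V t ρ := le_max_left _ _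

lemma V_le {t ρ : ℝ} (h0 : 0 ≤ ρ) (h1 : ρ ≤ 1) (ht : t ≤ 1) : P.V t ρ ≤ 1 - P.a * ρ := by
  unfold V
  refine max_le ?_ ((min_le_right _ _).trans (by linarith))
  have := P.one_sub_two_a_le h0 h1
  have := P.aρ_nonneg h0
  linarith

/-- **the gauge of the image is `ρ`** -/
lemma R_F {s t ρ : ℝ} (h0 : 0 ≤ ρ) (h1 : ρ ≤ 1) (hs : |s| ≤ 1) (ht : |t| ≤ 1)
    (hst : |s| = 1 ∨ |t| = 1) : P.R (P.U s t ρ) (P.V t ρ) = ρ := by
  have ht' := abs_le.1 ht
  have e1 : ρ ≤ (1 - |P.U s t ρ|) / P.a := by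
    rw [le_div_iff₀ P.a0]
    have := P.abs_U_le h0 h1 ht'.1 hs
    have := P.dd_ge (t := t) (ρ := ρ)
    linarith
  have e2 : ρ ≤ (1 - P.V t ρ) / P.a := by
    rw [le_div_iff₀ P.a0]
    have := P.V_le h0 h1 ht'.2
    linarith
  have e3 : ρ ≤ (1 + P.V t ρ) / P.H := by
    rw [le_div_iff₀ P.H0]
    have := P.V_ge t ρ
    unfold hh at this
    linarith
  unfold R
  rw [max_neg_eq]
  apply le_antisymm _ (le_min (le_min e1 e2) e3)
  by_cases hle : t ≤ P.hh ρ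
  · refine (min_le_right _ _).trans ?_
    rw [div_le_iff₀ P.H0, P.V_of_le hle]
    unfold hh; linarith
  · rw [not_le] at hle
    rcases hst with hs1 | ht1
    · refine (min_le_left _ _).trans ((min_le_left _ _).trans ?_)
      rw [div_le_iff₀ P.a0, P.abs_U_eq h0 h1 ht'.1 hs1, P.dd_of_ge hle.le]
      linarith
    · have ht2 : t = 1 := by
        rcases abs_eq (zero_le_one' ℝ) |>.1 ht1 with h | h
        · exact h
        · have := P.hh_ge h0
          linarith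
      refine (min_le_left _ _).trans ((min_le_right _ _).trans ?_)
      rw [div_le_iff₀ P.a0, P.V_of_ge h0 h1 hle.le, ht2]
      have : (1 : ℝ) - P.a * ρ ≤ min 1 ((1 + 1) / 2 - P.a * ρ) :=
        le_min (by linarith [P.aρ_nonneg h0]) (by linarith)
      linarith

/-- **`T` recovers `t`** -/
lemma T_F {s t ρ : ℝ} (h0 : 0 ≤ ρ) (h1 : ρ ≤ 1) (hs : |s| ≤ 1) (ht : |t| ≤ 1)
    (hst : |s| = 1 ∨ |t| = 1) : P.T (P.U s t ρ) (P.V t ρ) ρ = t := by
  have ht' := abs_le.1 ht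
  have ha := P.aρ_nonneg h0
  have hU := P.abs_U_le h0 h1 ht'.1 hs
  have hd := P.dd_ge (t := t) (ρ := ρ)
  have h2a := P.one_sub_two_a_le h0 h1
  have h2 := P.two_le
  unfold T
  rw [max_neg_eq]
  by_cases hle : t ≤ P.hh ρ
  · -- sweeping side
    rw [P.V_of_le hle]
    have e1 : max (P.hh ρ) (2 * P.hh ρ - 1 + 2 * (P.a * ρ)) = P.hh ρ :=
      max_eq_left (by linarith)
    rw [e1]
    have hd' := P.dd_of_le hle
    have e3 := P.third_le h1
    have hge : P.m * (P.hh ρ - t) ≤ 1 - |P.U s t ρ| - P.a * ρ := by linarith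
    have hge' : P.hh ρ - t ≤ (1 - |P.U s t ρ| - P.a * ρ) / P.m := by
      rw [le_div_iff₀ P.m0]; linarith
    rcases hst with hs1 | ht1
    · have e2 : (1 - |P.U s t ρ| - P.a * ρ) / P.m = P.hh ρ - t := by
        rw [P.abs_U_eq h0 h1 ht'.1 hs1, hd', div_eq_iff P.m0.ne']
        ring
      rw [e2]
      have e4 : P.hh ρ - (P.hh ρ - t) = t := by ring
      have e5 : max t (1 - (2 / P.a) * (1 - P.a * ρ - P.hh ρ)) = t := max_eq_left (by linarith)
      rw [e4, e5]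
      exact max_eq_right ht'.1
    · have ht2 : t = -1 := by
        rcases abs_eq (zero_le_one' ℝ) |>.1 ht1 with h | h
        · exfalso
          rw [h] at hle
          have : P.a * ρ ≤ 0 := by linarith
          have hρ : P.a * ρ = 0 := le_antisymm this ha
          have h3 : ρ = 0 := by
            rcases mul_eq_zero.1 hρ with h4 | h4
            · exact absurd h4 P.a0.ne'
            · exact h4
          rw [h3] at hle
          unfold hh at hle
          norm_num at hle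
        · exact h
      apply le_antisymm
      · refine max_le (by linarith) (max_le ?_ (by linarith))
        linarith
      · rw [ht2]; exact le_max_left _ _
  · rw [not_le] at hle
    rw [P.V_of_ge h0 h1 hle.le]
    have hdd := P.dd_of_ge hle.le
    -- the first inner maximum is `t`
    have e1 : max (min t ((1 + t) / 2 - P.a * ρ))
        (2 * min t ((1 + t) / 2 - P.a * ρ) - 1 + 2 * (P.a * ρ)) = t := by
      rcases le_total t ((1 + t) / 2 - P.a * ρ) with h | h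
      · rw [min_eq_left h]; exact max_eq_left (by linarith)
      · rw [min_eq_right h]
        have : 2 * ((1 + t) / 2 - P.a * ρ) - 1 + 2 * (P.a * ρ) = t := by ring
        rw [this]; exact max_eq_right h
    rw [e1]
    have hge : 0 ≤ (1 - |P.U s t ρ| - P.a * ρ) / P.m := div_nonneg (by linarith) P.m0.le
    have e3 : 1 - (2 / P.a) * (1 - P.a * ρ - min t ((1 + t) / 2 - P.a * ρ)) ≤ t := by
      have h3 : (1 - t) / 2 ≤ 1 - P.a * ρ - min t ((1 + t) / 2 - P.a * ρ) := by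
        have := min_le_right t ((1 + t) / 2 - P.a * ρ)
        linarith
      have h4 := mul_le_mul_of_nonneg_left h3 (by linarith : (0:ℝ) ≤ 2 / P.a)
      have h5 := mul_le_mul_of_nonneg_right h2 (by linarith : (0:ℝ) ≤ (1 - t) / 2)
      linarith
    rcases hst with hs1 | ht1
    · have e2 : (1 - |P.U s t ρ| - P.a * ρ) / P.m = 0 := by
        rw [P.abs_U_eq h0 h1 ht'.1 hs1, hdd]
        simp
      rw [e2, sub_zero, max_eq_left e3]
      exact max_eq_right ht'.1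
    · have ht2 : t = 1 := by
        rcases abs_eq (zero_le_one' ℝ) |>.1 ht1 with h | h
        · exact h
        · have := P.hh_ge h0
          linarith
      have e4 : 1 - (2 / P.a) * (1 - P.a * ρ - min t ((1 + t) / 2 - P.a * ρ)) = 1 := by
        rw [ht2, min_eq_right (by linarith)]
        have : 1 - P.a * ρ - ((1 + 1) / 2 - P.a * ρ) = 0 := by ring
        rw [this]; ring
      have e5 : max (t - (1 - |P.U s t ρ| - P.a * ρ) / P.m) 1 = 1 := max_eq_right (by linarith)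
      rw [e4, e5, ht2]
      exact max_eq_right (by norm_num)

end Par

end Crest.Agent.R096.Fsw_928
end

-- ▼ part R096/Fsw2_928
section

/-!
# R096 (row 96), FACE-SWEEP, part 2: the sweep annulus as a `PLEquiv` (helper928)
-/

set_option autoImplicit false

open Set Metric

namespace Crest.Agent.R096.Fsw_928

open Crest.Agent.R096.Ce_537 Crest.Agent.R096.Bd_416

namespace Par

variable {P : Par}

lemma cf_abs_eq_one {δ u : ℝ} (hδ0 : 0 ≤ δ) (hδ : δ ≤ 1/2) (hu : |u| = 1 - δ) :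
    |cf (1 - δ) u| = 1 := by
  rw [abs_cf _ _ (by linarith), hu]
  exact cf_top (by linarith) (by linarith)

lemma cf_abs_le_one {δ u : ℝ} (hδ0 : 0 ≤ δ) (hδ : δ ≤ 1/2) (hu : |u| ≤ 1 - δ) :
    |cf (1 - δ) u| ≤ 1 := by
  rw [abs_cf _ _ (by linarith)]
  calc cf (1 - δ) |u| ≤ cf (1 - δ) (1 - δ) := cf_mono (by linarith) (abs_nonneg _) hu
    _ = 1 := cf_top (by linarith) (by linarith)

lemma clamp_eq {x : ℝ} (hx : |x| ≤ 1) : max (-1) (min x 1) = x := by
  rw [abs_le] at hx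
  rw [min_eq_left hx.2, max_eq_right hx.1]

lemma U_S {u t ρ : ℝ} (h0 : 0 ≤ ρ) (h1 : ρ ≤ 1) (ht : -1 ≤ t) (hu : |u| ≤ 1 - P.dd t ρ) :
    P.U (P.S u t ρ) t ρ = u := by
  have h2 := P.dd_le h1 ht
  have h3 := (P.aρ_nonneg h0).trans (P.dd_ge (t := t))
  unfold U S
  rw [clamp_eq (cf_abs_le_one h3 (by linarith) hu)]
  exact cg_cf (by linarith)

lemma abs_S_le {u t ρ : ℝ} : |P.S u t ρ| ≤ 1 := by
  unfold S
  rw [abs_le]
  exact ⟨le_max_left _ _, max_le (by norm_num) (min_le_right _ _)⟩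

lemma abs_S_eq {u t ρ : ℝ} (h0 : 0 ≤ ρ) (h1 : ρ ≤ 1) (ht : -1 ≤ t) (hu : |u| = 1 - P.dd t ρ) :
    |P.S u t ρ| = 1 := by
  have h2 := P.dd_le h1 ht
  have h3 := (P.aρ_nonneg h0).trans (P.dd_ge (t := t))
  unfold S
  have h4 : |cf (1 - P.dd t ρ) u| = 1 := cf_abs_eq_one h3 (by linarith) hu
  rw [clamp_eq h4.le, h4]

/-- the data of a point of the annulus -/
lemma gauge_ge {u v ρ : ℝ} (hR : P.R u v = ρ) :
    P.a * ρ ≤ 1 - |u| ∧ P.a * ρ ≤ 1 - v ∧ P.hh ρ ≤ v := by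
  unfold R at hR
  rw [max_neg_eq] at hR
  refine ⟨?_, ?_, ?_⟩
  · have h : ρ ≤ (1 - |u|) / P.a := by
      rw [← hR]; exact (min_le_left _ _).trans (min_le_left _ _)
    rw [le_div_iff₀ P.a0] at h; linarith
  · have h : ρ ≤ (1 - v) / P.a := by
      rw [← hR]; exact (min_le_left _ _).trans (min_le_right _ _)
    rw [le_div_iff₀ P.a0] at h; linarith
  · have h : ρ ≤ (1 + v) / P.H := by
      rw [← hR]; exact min_le_right _ _
    rw [le_div_iff₀ P.H0] at h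
    unfold hh; linarith

lemma gauge_eq {u v ρ : ℝ} (hR : P.R u v = ρ) :
    |u| = 1 - P.a * ρ ∨ v = 1 - P.a * ρ ∨ v = P.hh ρ := by
  unfold R at hR
  rw [max_neg_eq] at hR
  rcases min_choice (min ((1 - |u|) / P.a) ((1 - v) / P.a)) ((1 + v) / P.H) with h | h
  · rw [h] at hR
    rcases min_choice ((1 - |u|) / P.a) ((1 - v) / P.a) with h2 | h2
    · rw [h2, div_eq_iff P.a0.ne'] at hR
      left; linarith
    · rw [h2, div_eq_iff P.a0.ne'] at hR
      right; left; linarith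
  · rw [h, div_eq_iff P.H0.ne'] at hR
    right; right
    unfold hh; linarith

/-- **the inverse on the annulus** -/
lemma inv_spec {u v ρ : ℝ} (hR : P.R u v = ρ) (h0 : 0 ≤ ρ) (h1 : ρ ≤ 1) :
    -1 ≤ P.T u v ρ ∧ P.T u v ρ ≤ 1 ∧ P.U (P.S u (P.T u v ρ) ρ) (P.T u v ρ) ρ = u ∧
      P.V (P.T u v ρ) ρ = v ∧ (|P.S u (P.T u v ρ) ρ| = 1 ∨ |P.T u v ρ| = 1) := by
  obtain ⟨g1, g2, g3⟩ := P.gauge_ge hR
  have ha := P.aρ_nonneg h0
  have hh1 := P.hh_ge h0
  have h2a := P.one_sub_two_a_le h0 h1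
  have h2 := P.two_le
  have htri := P.third_le h1
  have hq : 0 ≤ (1 - |u| - P.a * ρ) / P.m := div_nonneg (by linarith) P.m0.le
  have hT1ge : v ≤ max v (2 * v - 1 + 2 * (P.a * ρ)) := le_max_left _ _
  have hT1le : max v (2 * v - 1 + 2 * (P.a * ρ)) ≤ 1 := max_le (by linarith) (by linarith)
  have h3 : 1 - (2 / P.a) * (1 - P.a * ρ - v) ≤ max v (2 * v - 1 + 2 * (P.a * ρ)) := by
    refine le_trans ?_ (le_max_right _ _)
    have h5 := mul_le_mul_of_nonneg_right h2 (by linarith : (0:ℝ) ≤ 1 - P.a * ρ - v)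
    linarith
  rcases P.gauge_eq hR with hu | hv | hv
  · -- lateral sides
    have e0 : (1 - |u| - P.a * ρ) / P.m = 0 := by rw [hu]; simp
    have eT : P.T u v ρ = max v (2 * v - 1 + 2 * (P.a * ρ)) := by
      unfold T
      rw [max_neg_eq, e0, sub_zero, max_eq_left h3]
      exact max_eq_right (by linarith)
    have ht1 : -1 ≤ P.T u v ρ := by rw [eT]; linarith
    have hth : P.hh ρ ≤ P.T u v ρ := by rw [eT]; linarith
    have hu' : |u| = 1 - P.dd (P.T u v ρ) ρ := by rw [P.dd_of_ge hth]; exact hu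
    refine ⟨ht1, by rw [eT]; exact hT1le, P.U_S h0 h1 ht1 hu'.le, ?_, Or.inl (P.abs_S_eq h0 h1 ht1 hu')⟩
    rw [P.V_of_ge h0 h1 hth, eT]
    rcases le_total v (2 * v - 1 + 2 * (P.a * ρ)) with h | h
    · rw [max_eq_right h]
      have e : (1 + (2 * v - 1 + 2 * (P.a * ρ))) / 2 - P.a * ρ = v := by ring
      rw [e]; exact min_eq_right h
    · rw [max_eq_left h]
      exact min_eq_left (by linarith)
  · -- top
    have e0 : 1 - (2 / P.a) * (1 - P.a * ρ - v) = 1 := by rw [hv]; ring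
    have eT : P.T u v ρ = 1 := by
      unfold T
      rw [max_neg_eq, e0]
      rw [max_eq_right (show max v (2 * v - 1 + 2 * (P.a * ρ)) -
        (1 - |u| - P.a * ρ) / P.m ≤ 1 by linarith)]
      exact max_eq_right (by norm_num)
    have hth : P.hh ρ ≤ 1 := by linarith
    have hu' : |u| ≤ 1 - P.dd 1 ρ := by rw [P.dd_of_ge hth]; linarith
    rw [eT]
    refine ⟨by norm_num, le_refl _, P.U_S h0 h1 (by norm_num) hu', ?_, Or.inr (by norm_num)⟩
    rw [P.V_of_ge h0 h1 hth, hv]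
    have e : (1 + 1 : ℝ) / 2 - P.a * ρ = 1 - P.a * ρ := by ring
    rw [e]; exact min_eq_right (by linarith)
  · -- sweeping side
    have e1 : max v (2 * v - 1 + 2 * (P.a * ρ)) = P.hh ρ := by
      rw [hv]; exact max_eq_left (by linarith)
    have eT : P.T u v ρ = max (-1) (P.hh ρ - (1 - |u| - P.a * ρ) / P.m) := by
      unfold T
      rw [max_neg_eq, e1, hv]
      rcases le_total (1 - 2 / P.a * (1 - P.a * ρ - P.hh ρ))
        (P.hh ρ - (1 - |u| - P.a * ρ) / P.m) with h | h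
      · rw [max_eq_left h]
      · rw [max_eq_right h, max_eq_left htri, max_eq_left (h.trans htri)]
    have hth : P.T u v ρ ≤ P.hh ρ := by rw [eT]; exact max_le hh1 (by linarith)
    have hdd := P.dd_of_le hth
    have ht1 : -1 ≤ P.T u v ρ := by rw [eT]; exact le_max_left _ _
    refine ⟨ht1, by linarith, ?_⟩
    rcases le_total (P.hh ρ - (1 - |u| - P.a * ρ) / P.m) (-1) with h | h
    · have eT2 : P.T u v ρ = -1 := by rw [eT]; exact max_eq_left h
      have hu' : |u| ≤ 1 - P.dd (P.T u v ρ) ρ := by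
        rw [hdd, eT2]
        have h5 : P.hh ρ - -1 ≤ (1 - |u| - P.a * ρ) / P.m := by linarith
        rw [le_div_iff₀ P.m0] at h5
        linarith
      refine ⟨P.U_S h0 h1 ht1 hu', by rw [P.V_of_le hth, hv], Or.inr (by rw [eT2]; norm_num)⟩
    · have eT2 : P.T u v ρ = P.hh ρ - (1 - |u| - P.a * ρ) / P.m := by rw [eT]; exact max_eq_right h
      have hu' : |u| = 1 - P.dd (P.T u v ρ) ρ := by
        rw [hdd, eT2]
        have h5 : P.m * (P.hh ρ - (P.hh ρ - (1 - |u| - P.a * ρ) / P.m)) = 1 - |u| - P.a * ρ := by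
          have := P.m0.ne'
          field_simp
          ring
        rw [h5]; ring
      exact ⟨P.U_S h0 h1 ht1 hu'.le, by rw [P.V_of_le hth, hv], Or.inl (P.abs_S_eq h0 h1 ht1 hu')⟩

/-- the closed annulus between the square and the last box -/
def NA (P : Par) : Set (Fin 2 → ℝ) := {z | z ∈ cube 2 ∧ P.R (z 0) (z 1) ≤ 1}

/-- the last box -/
def BX (P : Par) : Set (Fin 2 → ℝ) := {z | 1 ≤ P.R (z 0) (z 1)}

lemma R_nonneg {z : Fin 2 → ℝ} (hz : z ∈ cube 2) : 0 ≤ P.R (z 0) (z 1) := by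
  rw [mem_cube2] at hz
  have h1 := abs_le.1 hz.2
  unfold R
  rw [max_neg_eq]
  exact le_min (le_min (div_nonneg (by linarith [hz.1]) P.a0.le)
    (div_nonneg (by linarith) P.a0.le)) (div_nonneg (by linarith) P.H0.le)

/-- the map -/
noncomputable def F (P : Par) (p : (Fin 2 → ℝ) × ℝ) : Fin 2 → ℝ :=
  fun i => if i = 0 then P.U (p.1 0) (p.1 1) p.2 else P.V (p.1 1) p.2

/-- its inverse -/
noncomputable def Gi (P : Par) (z : Fin 2 → ℝ) : (Fin 2 → ℝ) × ℝ :=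
  (fun i => if i = 0 then P.S (z 0) (P.T (z 0) (z 1) (P.R (z 0) (z 1))) (P.R (z 0) (z 1))
    else P.T (z 0) (z 1) (P.R (z 0) (z 1)), P.R (z 0) (z 1))

@[simp] lemma F_zero (p : (Fin 2 → ℝ) × ℝ) : P.F p 0 = P.U (p.1 0) (p.1 1) p.2 := rfl
@[simp] lemma F_one (p : (Fin 2 → ℝ) × ℝ) : P.F p 1 = P.V (p.1 1) p.2 := rfl

section PL

variable {E : Type*} [NormedAddCommGroup E] [NormedSpace ℝ E] {Z : Set E}

lemma pl_hh {ρ : E → ℝ} (hρ : PLOn ρ Z) : PLOn (fun z => P.hh (ρ z)) Z :=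
  pl_add (plOn_const _ _) (pl_mul _ hρ)

lemma pl_dd {t ρ : E → ℝ} (ht : PLOn t Z) (hρ : PLOn ρ Z) : PLOn (fun z => P.dd (t z) (ρ z)) Z :=
  pl_add (pl_mul _ hρ) (pl_mul _ (pl_max (plOn_const _ _) (pl_sub (pl_hh hρ) ht)))

lemma pl_U {s t ρ : E → ℝ} (hs : PLOn s Z) (ht : PLOn t Z) (hρ : PLOn ρ Z) :
    PLOn (fun z => P.U (s z) (t z) (ρ z)) Z :=
  pl_cg (pl_sub (plOn_const _ _) (pl_dd ht hρ)) hs

lemma pl_V {t ρ : E → ℝ} (ht : PLOn t Z) (hρ : PLOn ρ Z) : PLOn (fun z => P.V (t z) (ρ z)) Z :=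
  pl_max (pl_hh hρ) (pl_min ht (pl_sub (pl_div (pl_add (plOn_const _ _) ht) 2) (pl_mul _ hρ)))

lemma pl_R {u v : E → ℝ} (hu : PLOn u Z) (hv : PLOn v Z) : PLOn (fun z => P.R (u z) (v z)) Z :=
  pl_min (pl_min (pl_div (pl_sub (plOn_const _ _) (pl_max hu (pl_neg hu))) _)
    (pl_div (pl_sub (plOn_const _ _) hv) _)) (pl_div (pl_add (plOn_const _ _) hv) _)

lemma pl_T {u v ρ : E → ℝ} (hu : PLOn u Z) (hv : PLOn v Z) (hρ : PLOn ρ Z) :
    PLOn (fun z => P.T (u z) (v z) (ρ z)) Z := by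
  refine pl_max (plOn_const _ _) (pl_max (pl_sub (pl_max hv ?_) ?_) ?_)
  · exact pl_add (pl_sub_const (pl_mul _ hv) _) (pl_mul _ (pl_mul _ hρ))
  · exact pl_div (pl_sub (pl_sub (plOn_const _ _) (pl_max hu (pl_neg hu))) (pl_mul _ hρ)) _
  · exact pl_sub (plOn_const _ _) (pl_mul _ (pl_sub (pl_sub (plOn_const _ _) (pl_mul _ hρ)) hv))

lemma pl_S {u t ρ : E → ℝ} (hu : PLOn u Z) (ht : PLOn t Z) (hρ : PLOn ρ Z) :
    PLOn (fun z => P.S (u z) (t z) (ρ z)) Z :=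
  pl_max (plOn_const _ _) (pl_min (pl_cf (pl_sub (plOn_const _ _) (pl_dd ht hρ)) hu)
    (plOn_const _ _))

end PL

lemma pl_F (Z : Set ((Fin 2 → ℝ) × ℝ)) : PLOn P.F Z := by
  refine pl_pi fun i => ?_
  have h0 : PLOn (fun p : (Fin 2 → ℝ) × ℝ => p.1 0) Z := pl_apply (pl_fst (plOn_id _)) 0
  have h1 : PLOn (fun p : (Fin 2 → ℝ) × ℝ => p.1 1) Z := pl_apply (pl_fst (plOn_id _)) 1
  have h2 : PLOn (fun p : (Fin 2 → ℝ) × ℝ => p.2) Z := pl_snd (plOn_id _)
  by_cases hi : i = 0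
  · subst hi; simpa [F] using pl_U h0 h1 h2
  · simpa [F, hi] using pl_V h1 h2

lemma pl_Gi (Z : Set (Fin 2 → ℝ)) : PLOn P.Gi Z := by
  have h0 : PLOn (fun z : Fin 2 → ℝ => z 0) Z := pl_apply (plOn_id _) 0
  have h1 : PLOn (fun z : Fin 2 → ℝ => z 1) Z := pl_apply (plOn_id _) 1
  have hR : PLOn (fun z : Fin 2 → ℝ => P.R (z 0) (z 1)) Z := pl_R h0 h1
  have hT := pl_T (P := P) h0 h1 hR
  refine pl_pair (pl_pi fun i => ?_) hR
  by_cases hi : i = 0
  · subst hi; simpa using pl_S h0 hT hR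
  · simpa [hi] using hT

/-- **the sweep annulus** -/
noncomputable def sweep (P : Par) : PLEquiv (sph 2 ×ˢ Icc (0 : ℝ) 1) P.NA where
  f := P.F
  g := P.Gi
  pf := P.pl_F _
  pg := P.pl_Gi _
  mf := by
    rintro ⟨ω, ρ⟩ ⟨hω, h0, h1⟩
    rw [mem_sph2] at hω
    have ht := abs_le.1 hω.2.1
    refine ⟨?_, ?_⟩
    · rw [mem_cube2]
      have h2 := P.abs_U_le h0 h1 ht.1 hω.1
      have h3 := (P.aρ_nonneg h0).trans (P.dd_ge (t := ω 1))
      refine ⟨?_, ?_⟩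
      · show |P.U (ω 0) (ω 1) ρ| ≤ 1
        linarith
      · show |P.V (ω 1) ρ| ≤ 1
        rw [abs_le]
        have h4 := P.V_le h0 h1 ht.2
        have h5 := P.V_ge (ω 1) ρ
        have h6 := P.hh_ge h0
        have h7 := P.aρ_nonneg h0
        constructor <;> linarith
    · show P.R (P.U (ω 0) (ω 1) ρ) (P.V (ω 1) ρ) ≤ 1
      rw [P.R_F h0 h1 hω.1 hω.2.1 hω.2.2]
      exact h1
  mg := by
    rintro z ⟨hz, h1⟩
    have h0 := P.R_nonneg hz
    obtain ⟨a1, a2, -, -, a5⟩ := P.inv_spec (u := z 0) (v := z 1) rfl h0 h1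
    refine ⟨?_, h0, h1⟩
    rw [mem_sph2]
    refine ⟨?_, ?_, ?_⟩
    · show |P.S _ _ _| ≤ 1
      exact P.abs_S_le
    · show |P.T _ _ _| ≤ 1
      exact abs_le.2 ⟨a1, a2⟩
    · exact a5
  li := by
    rintro ⟨ω, ρ⟩ ⟨hω, h0, h1⟩
    rw [mem_sph2] at hω
    have ht := abs_le.1 hω.2.1
    have hR := P.R_F h0 h1 hω.1 hω.2.1 hω.2.2
    have hT := P.T_F h0 h1 hω.1 hω.2.1 hω.2.2
    have hS := P.S_U h1 ht.1 hω.1
    apply Prod.ext
    · funext i
      by_cases hi : i = 0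
      · subst hi
        show P.S (P.U (ω 0) (ω 1) ρ) (P.T (P.U (ω 0) (ω 1) ρ) (P.V (ω 1) ρ)
          (P.R (P.U (ω 0) (ω 1) ρ) (P.V (ω 1) ρ))) (P.R (P.U (ω 0) (ω 1) ρ) (P.V (ω 1) ρ)) = ω 0
        rw [hR, hT, hS]
      · have hi1 : i = 1 := by omega
        subst hi1
        show P.T (P.U (ω 0) (ω 1) ρ) (P.V (ω 1) ρ)
          (P.R (P.U (ω 0) (ω 1) ρ) (P.V (ω 1) ρ)) = ω 1
        rw [hR, hT]
    · exact hR
  ri := by
    rintro z ⟨hz, h1⟩
    have h0 := P.R_nonneg hz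
    obtain ⟨-, -, a3, a4, -⟩ := P.inv_spec (u := z 0) (v := z 1) rfl h0 h1
    funext i
    by_cases hi : i = 0
    · subst hi; exact a3
    · have hi1 : i = 1 := by omega
      subst hi1
      exact a4

lemma F_at_zero {ω : Fin 2 → ℝ} (hω : ω ∈ sph 2) : P.F (ω, 0) = ω := by
  rw [mem_sph2] at hω
  have ht := abs_le.1 hω.2.1
  have hh0 : P.hh 0 = -1 := by unfold hh; simp
  have hd : P.dd (ω 1) 0 = 0 := by rw [P.dd_of_ge (by rw [hh0]; exact ht.1)]; simp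
  funext i
  by_cases hi : i = 0
  · subst hi
    show P.U (ω 0) (ω 1) 0 = ω 0
    unfold U
    rw [hd, sub_zero]
    exact cg_one hω.1
  · have hi1 : i = 1 := by omega
    subst hi1
    show P.V (ω 1) 0 = ω 1
    rw [P.V_of_ge le_rfl zero_le_one (by rw [hh0]; exact ht.1)]
    exact min_eq_left (by linarith)

end Par

end Crest.Agent.R096.Fsw_928
end

-- ▼ part R096/Fsw3_928

/-!
# R096 (row 96), FACE-SWEEP, part 3: the inner cube, the chart of the last box, one step (helper928)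
-/

set_option autoImplicit false

open Set Metric

namespace Crest.Agent.R096.Fsw_928

open Crest.Agent.R096.Ce_537 Crest.Agent.R096.Bd_416

/-! ### the inner cube `{‖x‖ ≤ 3/4}` in collar coordinates -/

/-- `{‖x‖ ≤ 3/4}` -/
def In2 : Set (Fin 2 → ℝ) := {x | ‖x‖ ≤ 3/4}

/-- `{3/4 ≤ ‖x‖ ≤ 1}` -/
def Out2 : Set (Fin 2 → ℝ) := {x | 3/4 ≤ ‖x‖ ∧ ‖x‖ ≤ 1}

lemma isClosed_In2 : IsClosed In2 := isClosed_le continuous_norm continuous_const

lemma isClosed_Out2 : IsClosed Out2 :=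
  (isClosed_le continuous_const continuous_norm).inter
    (isClosed_le continuous_norm continuous_const)

noncomputable def shf (x : Fin 2 → ℝ) : Fin 2 → ℝ :=
  fun j => cg (2 * max (1/2) ‖x‖ - 1/2) (cf (max (1/2) ‖x‖) (x j))

noncomputable def shg (y : Fin 2 → ℝ) : Fin 2 → ℝ :=
  fun j => cg ((max (1/2) ‖y‖ + 1/2) / 2) (cf (max (1/2) ‖y‖) (y j))

lemma shf_low {x : Fin 2 → ℝ} (h : ‖x‖ ≤ 1/2) : shf x = x := by
  funext j
  unfold shf
  rw [max_eq_left h]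
  have : (2 * (1/2) - 1/2 : ℝ) = 1/2 := by norm_num
  rw [this]
  exact cg_cf (le_refl _)

lemma shg_low {x : Fin 2 → ℝ} (h : ‖x‖ ≤ 1/2) : shg x = x := by
  funext j
  unfold shg
  rw [max_eq_left h]
  have : ((1/2 + 1/2) / 2 : ℝ) = 1/2 := by norm_num
  rw [this]
  exact cg_cf (le_refl _)

lemma shf_high {x : Fin 2 → ℝ} (h : 1/2 ≤ ‖x‖) :
    shf x = (collar 2).g (((collar 2).f x).1, 2 * ‖x‖ - 1/2) := by
  funext j
  unfold shf
  rw [max_eq_right h]
  rfl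

lemma shg_high {x : Fin 2 → ℝ} (h : 1/2 ≤ ‖x‖) :
    shg x = (collar 2).g (((collar 2).f x).1, (‖x‖ + 1/2) / 2) := by
  funext j
  unfold shg
  rw [max_eq_right h]
  rfl

lemma norm_shf {x : Fin 2 → ℝ} (h : 1/2 ≤ ‖x‖) (h2 : ‖x‖ ≤ 3/4) : ‖shf x‖ = 2 * ‖x‖ - 1/2 := by
  rw [shf_high h]
  have hx : x ∈ Ann 2 := ⟨h, by linarith⟩
  exact norm_cg ((collar 2).mf hx).1 ⟨by linarith, by linarith⟩

lemma norm_shg {x : Fin 2 → ℝ} (h : 1/2 ≤ ‖x‖) (h2 : ‖x‖ ≤ 1) : ‖shg x‖ = (‖x‖ + 1/2) / 2 := by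
  rw [shg_high h]
  have hx : x ∈ Ann 2 := ⟨h, h2⟩
  exact norm_cg ((collar 2).mf hx).1 ⟨by linarith, by linarith⟩

lemma collar_f_g {ω : Fin 2 → ℝ} {r : ℝ} (hω : ω ∈ sph 2) (hr : r ∈ Icc (1/2 : ℝ) 1) :
    (collar 2).f ((collar 2).g (ω, r)) = (ω, r) := (collar 2).ri (ω, r) ⟨hω, hr⟩

lemma norm_collar_g {ω : Fin 2 → ℝ} {r : ℝ} (hω : ω ∈ sph 2) (hr : r ∈ Icc (1/2 : ℝ) 1) :
    ‖(collar 2).g (ω, r)‖ = r := norm_cg hω hr

/-- **the inner cube is blown up in collar coordinates** -/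
noncomputable def shr : PLEquiv In2 (cube 2) where
  f := shf
  g := shg
  pf := by
    have hm : PLOn (fun x : Fin 2 → ℝ => max (1/2) ‖x‖) In2 := pl_max (plOn_const _ _) (pl_norm _)
    exact pl_pi fun j => pl_cg (pl_sub (pl_mul 2 hm) (plOn_const _ _))
      (pl_cf hm (pl_apply (plOn_id _) j))
  pg := by
    have hm : PLOn (fun x : Fin 2 → ℝ => max (1/2) ‖x‖) (cube 2) :=
      pl_max (plOn_const _ _) (pl_norm _)
    exact pl_pi fun j => pl_cg (pl_div (pl_add hm (plOn_const _ _)) 2)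
      (pl_cf hm (pl_apply (plOn_id _) j))
  mf := by
    intro x (hx : ‖x‖ ≤ 3/4)
    simp only [cube, mem_closedBall_zero_iff]
    rcases le_total ‖x‖ (1/2) with h | h
    · rw [shf_low h]; linarith
    · rw [norm_shf h hx]; linarith
  mg := by
    intro x hx
    simp only [cube, mem_closedBall_zero_iff] at hx
    show ‖shg x‖ ≤ 3/4
    rcases le_total ‖x‖ (1/2) with h | h
    · rw [shg_low h]; linarith
    · rw [norm_shg h hx]; linarith
  li := by
    intro x (hx : ‖x‖ ≤ 3/4)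
    rcases le_total ‖x‖ (1/2) with h | h
    · rw [shf_low h, shg_low h]
    · have h3 := norm_shf h hx
      have hxA : x ∈ Ann 2 := ⟨h, by linarith⟩
      have hr : 2 * ‖x‖ - 1/2 ∈ Icc (1/2 : ℝ) 1 := ⟨by linarith, by linarith⟩
      rw [shg_high (by rw [h3]; linarith), h3, shf_high h,
        collar_f_g ((collar 2).mf hxA).1 hr]
      have e : (2 * ‖x‖ - 1/2 + 1/2) / 2 = ‖x‖ := by ring
      rw [e]
      exact (collar 2).li x hxA
  ri := by
    intro x hx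
    simp only [cube, mem_closedBall_zero_iff] at hx
    rcases le_total ‖x‖ (1/2) with h | h
    · rw [shg_low h, shf_low h]
    · have h3 := norm_shg h hx
      have hxA : x ∈ Ann 2 := ⟨h, hx⟩
      have hr : (‖x‖ + 1/2) / 2 ∈ Icc (1/2 : ℝ) 1 := ⟨by linarith, by linarith⟩
      rw [shf_high (by rw [h3]; linarith), h3, shg_high h,
        collar_f_g ((collar 2).mf hxA).1 hr]
      have e : 2 * ((‖x‖ + 1/2) / 2) - 1/2 = ‖x‖ := by ring
      rw [e]
      exact (collar 2).li x hxA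

/-- collar coordinates of `shr.g` -/
lemma shr_g_collar {ω : Fin 2 → ℝ} {r : ℝ} (hω : ω ∈ sph 2) (hr : r ∈ Icc (1/2 : ℝ) 1) :
    shr.g ((collar 2).g (ω, r)) = (collar 2).g (ω, (r + 1/2) / 2) := by
  have h := norm_collar_g hω hr
  show shg _ = _
  rw [shg_high (by rw [h]; exact hr.1), h, collar_f_g hω hr]

lemma shr_f_collar {ω : Fin 2 → ℝ} {r : ℝ} (hω : ω ∈ sph 2) (hr : r ∈ Icc (1/2 : ℝ) (3/4)) :
    shr.f ((collar 2).g (ω, r)) = (collar 2).g (ω, 2 * r - 1/2) := by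
  have hr' : r ∈ Icc (1/2 : ℝ) 1 := ⟨hr.1, hr.2.trans (by norm_num)⟩
  have h := norm_collar_g hω hr'
  show shf _ = _
  rw [shf_high (by rw [h]; exact hr.1), h, collar_f_g hω hr']

/-- the outer annulus in collar coordinates, time `ρ = 4 (1 - r)` -/
noncomputable def outE : PLEquiv Out2 (sph 2 ×ˢ Icc (0 : ℝ) 1) where
  f x := (((collar 2).f x).1, 4 * (1 - ((collar 2).f x).2))
  g p := (collar 2).g (p.1, 1 - p.2 / 4)
  pf := by
    have h : PLOn (collar 2).f Out2 := (collar 2).pf.mono fun x hx => ⟨by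
      have := hx.1; linarith, hx.2⟩
    exact pl_pair (pl_fst h) (pl_mul 4 (pl_sub (plOn_const _ _) (pl_snd h)))
  pg := by
    have hin : PLOn (fun p : (Fin 2 → ℝ) × ℝ => (p.1, 1 - p.2 / 4)) (sph 2 ×ˢ Icc (0 : ℝ) 1) :=
      pl_pair (pl_fst (plOn_id _)) (pl_sub (plOn_const _ _) (pl_div (pl_snd (plOn_id _)) 4))
    refine (collar 2).pg.comp hin ?_
    rintro ⟨ω, ρ⟩ ⟨hω, h0, h1⟩
    simp only at h0 h1
    exact ⟨hω, by show (1/2 : ℝ) ≤ 1 - ρ / 4; linarith, by show 1 - ρ / 4 ≤ (1 : ℝ); linarith⟩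
  mf := by
    rintro x ⟨h1, h2⟩
    have hx : x ∈ Ann 2 := ⟨by linarith, h2⟩
    refine ⟨((collar 2).mf hx).1, ?_, ?_⟩
    · show (0 : ℝ) ≤ 4 * (1 - ‖x‖); linarith
    · show 4 * (1 - ‖x‖) ≤ (1 : ℝ); linarith
  mg := by
    rintro ⟨ω, ρ⟩ ⟨hω, h0, h1⟩
    simp only at h0 h1
    have hr : 1 - ρ / 4 ∈ Icc (1/2 : ℝ) 1 := ⟨by linarith, by linarith⟩
    have := norm_collar_g hω hr
    exact ⟨by rw [this]; linarith, by rw [this]; linarith⟩
  li := by
    rintro x ⟨h1, h2⟩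
    have hx : x ∈ Ann 2 := ⟨by linarith, h2⟩
    have e : 1 - 4 * (1 - ((collar 2).f x).2) / 4 = ((collar 2).f x).2 := by ring
    show (collar 2).g (((collar 2).f x).1, 1 - 4 * (1 - ((collar 2).f x).2) / 4) = x
    rw [e]
    exact (collar 2).li x hx
  ri := by
    rintro ⟨ω, ρ⟩ ⟨hω, h0, h1⟩
    simp only at h0 h1
    have hr : 1 - ρ / 4 ∈ Icc (1/2 : ℝ) 1 := ⟨by linarith, by linarith⟩
    show ((((collar 2).f ((collar 2).g (ω, 1 - ρ / 4))).1),
      4 * (1 - ((collar 2).f ((collar 2).g (ω, 1 - ρ / 4))).2)) = (ω, ρ)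
    rw [collar_f_g hω hr]
    simp only [Prod.mk.injEq, true_and]
    ring

/-! ### the chart of the last box -/

namespace Par

variable {P : Par}

lemma mem_BX {z : Fin 2 → ℝ} :
    z ∈ P.BX ↔ |z 0| ≤ 1 - P.a ∧ z 1 ≤ 1 - P.a ∧ -1 + P.H ≤ z 1 := by
  unfold BX R
  rw [mem_setOf_eq, max_neg_eq, le_min_iff, le_min_iff, le_div_iff₀ P.a0, le_div_iff₀ P.a0,
    le_div_iff₀ P.H0]
  constructor
  · rintro ⟨⟨h1, h2⟩, h3⟩; exact ⟨by linarith, by linarith, by linarith⟩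
  · rintro ⟨h1, h2, h3⟩; exact ⟨⟨by linarith, by linarith⟩, by linarith⟩

lemma BX_subset : P.BX ⊆ cube 2 := by
  intro z hz
  rw [mem_BX] at hz
  rw [mem_cube2]
  have := P.a0
  have := P.H0
  refine ⟨by linarith [hz.1], abs_le.2 ⟨by linarith [hz.2.2], by linarith [hz.2.1]⟩⟩

lemma isClosed_BX : IsClosed P.BX := by
  have : P.BX = {z | |z 0| ≤ 1 - P.a} ∩ ({z | z 1 ≤ 1 - P.a} ∩ {z | -1 + P.H ≤ z 1}) := by
    ext z; rw [mem_BX]; rfl
  rw [this]
  exact (isClosed_le (continuous_apply 0).abs continuous_const).inter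
    ((isClosed_le (continuous_apply 1) continuous_const).inter
      (isClosed_le continuous_const (continuous_apply 1)))

lemma continuous_R : Continuous fun z : Fin 2 → ℝ => P.R (z 0) (z 1) := by
  unfold R
  fun_prop

lemma isClosed_NA : IsClosed P.NA :=
  isClosed_closedBall.inter (isClosed_le P.continuous_R continuous_const)

lemma NA_union_BX : P.NA ∪ P.BX = cube 2 := by
  ext z
  constructor
  · rintro (h | h)
    · exact h.1
    · exact P.BX_subset h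
  · intro h
    rcases le_total (P.R (z 0) (z 1)) 1 with h1 | h1
    · exact Or.inl ⟨h, h1⟩
    · exact Or.inr h1

/-- half height of the last box -/
noncomputable def ee (P : Par) : ℝ := (2 - P.a - P.H) / 2

/-- centre -/
noncomputable def cc (P : Par) : ℝ := (P.H - P.a) / 2

lemma ee_pos : 0 < P.ee := by
  have := P.aH; have := P.a0
  unfold ee; linarith

lemma a_lt_one : P.a < 1 := by linarith [P.a_le]

/-- **affine chart of the last box** -/
noncomputable def chart (P : Par) : PLEquiv P.BX (cube 2) where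
  f z := fun i => if i = 0 then z 0 / (1 - P.a) else (z 1 - P.cc) / P.ee
  g x := fun i => if i = 0 then x 0 * (1 - P.a) else x 1 * P.ee + P.cc
  pf := by
    refine pl_pi fun i => ?_
    by_cases hi : i = 0
    · simpa [hi] using pl_div (pl_apply (plOn_id P.BX) (0 : Fin 2)) (1 - P.a)
    · simpa [hi] using pl_div (pl_sub_const (pl_apply (plOn_id P.BX) (1 : Fin 2)) P.cc) P.ee
  pg := by
    refine pl_pi fun i => ?_
    by_cases hi : i = 0
    · have := pl_mul (1 - P.a) (pl_apply (plOn_id (cube 2)) (0 : Fin 2))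
      simpa [hi, mul_comm] using this
    · have := pl_add_const (pl_mul P.ee (pl_apply (plOn_id (cube 2)) (1 : Fin 2))) P.cc
      simpa [hi, mul_comm] using this
  mf := by
    intro z hz
    rw [mem_BX] at hz
    have h1 : 0 < 1 - P.a := by linarith [P.a_lt_one]
    have h2 := P.ee_pos
    rw [mem_cube2]
    refine ⟨?_, ?_⟩
    · show |z 0 / (1 - P.a)| ≤ 1
      rw [abs_div, abs_of_pos h1, div_le_one h1]; exact hz.1
    · show |(z 1 - P.cc) / P.ee| ≤ 1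
      rw [abs_div, abs_of_pos h2, div_le_one h2, abs_le]
      unfold ee cc
      constructor <;> linarith [hz.2.1, hz.2.2]
  mg := by
    intro x hx
    rw [mem_cube2] at hx
    have h1 : 0 < 1 - P.a := by linarith [P.a_lt_one]
    have h2 := P.ee_pos
    rw [mem_BX]
    refine ⟨?_, ?_, ?_⟩
    · show |x 0 * (1 - P.a)| ≤ 1 - P.a
      rw [abs_mul, abs_of_pos h1]
      nlinarith [hx.1]
    · show x 1 * P.ee + P.cc ≤ 1 - P.a
      have h3 := (abs_le.1 hx.2).2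
      have h4 := mul_le_mul_of_nonneg_right h3 h2.le
      unfold ee cc at *
      linarith
    · show -1 + P.H ≤ x 1 * P.ee + P.cc
      have h3 := (abs_le.1 hx.2).1
      have h4 := mul_le_mul_of_nonneg_right h3 h2.le
      unfold ee cc at *
      linarith
  li := by
    intro z _
    have h1 : 1 - P.a ≠ 0 := by linarith [P.a_lt_one]
    have h2 := P.ee_pos.ne'
    funext i
    by_cases hi : i = 0
    · subst hi
      show z 0 / (1 - P.a) * (1 - P.a) = z 0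
      field_simp
    · have hi1 : i = 1 := by omega
      subst hi1
      show (z 1 - P.cc) / P.ee * P.ee + P.cc = z 1
      field_simp
      ring
  ri := by
    intro x _
    have h1 : 1 - P.a ≠ 0 := by linarith [P.a_lt_one]
    have h2 := P.ee_pos.ne'
    funext i
    by_cases hi : i = 0
    · subst hi
      show x 0 * (1 - P.a) / (1 - P.a) = x 0
      field_simp
    · have hi1 : i = 1 := by omega
      subst hi1
      show (x 1 * P.ee + P.cc - P.cc) / P.ee = x 1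
      field_simp
      ring

end Par

end Crest.Agent.R096.Fsw_928
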