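import Crest.Agent.R096.Fan4_696

-- ▼ part R096/Str2_696
section

/-!
Row 96 (S0127), helper696.  Local structure of conic selections: affine near almost every point,
two-sided linear (`Two`) off finitely many subspaces of codimension two.
-/

set_option autoImplicit false
set_option linter.unusedSectionVars false
set_option linter.style.longLine false

namespace Crest.Agent.R096.Str_696

open Set Filter Topology Metric Module
open scoped Classical

variable {E F : Type*} [NormedAddCommGroup E] [NormedSpace ℝ E]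
  [NormedAddCommGroup F] [NormedSpace ℝ F]

/-- `h` is affine near `p` with linear part `A`. -/
def AffAt (h : E → F) (p : E) (A : E →L[ℝ] F) : Prop :=
  ∀ᶠ y in 𝓝 p, h y = h p + A (y - p)

/-- `h` is two-sided linear near `p`: linear part `A` where `f ≥ 0`, `B` where `f ≤ 0`. -/
def TwoAt (h : E → F) (p : E) (f : E →L[ℝ] ℝ) (A B : E →L[ℝ] F) : Prop :=
  ∀ᶠ y in 𝓝 p, (0 ≤ f (y - p) → h y = h p + A (y - p)) ∧ (f (y - p) ≤ 0 → h y = h p + B (y - p))

lemma AffAt.hasFDerivAt {h : E → F} {p : E} {A : E →L[ℝ] F} (hA : AffAt h p A) :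
    HasFDerivAt h A p := by
  have h1 : HasFDerivAt (fun y => h p + (A y - A p)) A p :=
    ((A.hasFDerivAt (x := p)).sub_const (A p)).const_add (h p)
  refine h1.congr_of_eventuallyEq ?_
  filter_upwards [hA] with y hy
  rw [hy, map_sub]

lemma AffAt.eventually {h : E → F} {p : E} {A : E →L[ℝ] F} (hA : AffAt h p A) :
    ∀ᶠ q in 𝓝 p, AffAt h q A := by
  have h1 := hA.eventually_nhds
  filter_upwards [h1] with q hq
  have hqq : h q = h p + A (q - p) := hq.self_of_nhds
  unfold AffAt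
  filter_upwards [hq] with y hy
  rw [hy, hqq]
  have : A (y - p) = A (q - p) + A (y - q) := by rw [← map_add]; congr 1; abel
  rw [this]; abel

lemma AffAt.unique {h : E → F} {p : E} {A B : E →L[ℝ] F} (hA : AffAt h p A) (hB : AffAt h p B) :
    A = B := hA.hasFDerivAt.unique hB.hasFDerivAt

/-- transport of the local form from the germ `H` at `x` to the point `x + v`. -/
lemma AffAt.of_germ {h H : E → F} {x : E} {r : ℝ} (hh : ∀ v : E, ‖v‖ < r → h (x + v) = h x + H v)
    {v : E} (hv : ‖v‖ < r) {A : E →L[ℝ] F} (hA : AffAt H v A) : AffAt h (x + v) A := by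
  unfold AffAt at *
  have h1 : Tendsto (fun y : E => y - x) (𝓝 (x + v)) (𝓝 v) := by
    have : Tendsto (fun y : E => y - x) (𝓝 (x + v)) (𝓝 (x + v - x)) :=
      (continuous_id.sub continuous_const).tendsto _
    simpa using this
  have h2 : ∀ᶠ y in 𝓝 (x + v), ‖y - x‖ < r := by
    have := h1.norm
    exact this.eventually_lt_const hv
  filter_upwards [h1.eventually hA, h2] with y hy hy2
  have e1 : h y = h x + H (y - x) := by
    have := hh (y - x) hy2
    simpa using this
  rw [e1, hy, hh v hv]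
  have : y - x - v = y - (x + v) := by abel
  rw [this]; abel

lemma TwoAt.of_germ {h H : E → F} {x : E} {r : ℝ} (hh : ∀ v : E, ‖v‖ < r → h (x + v) = h x + H v)
    {v : E} (hv : ‖v‖ < r) {f : E →L[ℝ] ℝ} {A B : E →L[ℝ] F} (hA : TwoAt H v f A B) :
    TwoAt h (x + v) f A B := by
  unfold TwoAt at *
  have h1 : Tendsto (fun y : E => y - x) (𝓝 (x + v)) (𝓝 v) := by
    have : Tendsto (fun y : E => y - x) (𝓝 (x + v)) (𝓝 (x + v - x)) :=
      (continuous_id.sub continuous_const).tendsto _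
    simpa using this
  have h2 : ∀ᶠ y in 𝓝 (x + v), ‖y - x‖ < r := by
    have := h1.norm
    exact this.eventually_lt_const hv
  filter_upwards [h1.eventually hA, h2] with y hy hy2
  have e1 : h y = h x + H (y - x) := by
    have := hh (y - x) hy2
    simpa using this
  have e2 : y - x - v = y - (x + v) := by abel
  rw [e2] at hy
  rw [e1, hh v hv]
  refine ⟨fun h0 => ?_, fun h0 => ?_⟩
  · rw [hy.1 h0]; abel
  · rw [hy.2 h0]; abel

/-- regular points: all separating forms are nonzero. -/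
lemma affAt_of_forms {H : E → F} {S : Finset (E →L[ℝ] F)} (hH : Conic H S)
    {L : Finset (E →L[ℝ] ℝ)}
    (hL : ∀ A ∈ S, ∀ B ∈ S, A ≠ B → ∃ f ∈ L, f ≠ 0 ∧ ∀ x, A x = B x → f x = 0)
    {v : E} (hv : ∀ f ∈ L, f ≠ 0 → f v ≠ 0) : ∃ A ∈ S, AffAt H v A := by
  obtain ⟨A, hA, hHA⟩ := hH.sel v
  refine ⟨A, hA, ?_⟩
  have h1 : ∀ᶠ y in 𝓝 v, ∀ B ∈ S, B ≠ A → H y ≠ B y := by
    rw [Filter.eventually_all_finset]
    intro B hB
    by_cases hBA : B = A
    · exact Eventually.of_forall fun y h => absurd hBA h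
    · obtain ⟨f, hf, hf0, hfz⟩ := hL B hB A hA hBA
      have hne : H v ≠ B v := by
        intro heq
        exact hv f hf hf0 (hfz v (heq.symm.trans hHA))
      have := (hH.cont.continuousAt (x := v)).ne_iff_eventually_ne B.continuous.continuousAt
      filter_upwards [this.1 hne] with y hy _ using hy
  have h2 : ∀ᶠ y in 𝓝 v, H y = A y := by
    filter_upwards [h1] with y hy
    obtain ⟨B, hB, hHB⟩ := hH.sel y
    by_cases hBA : B = A
    · rw [← hBA]; exact hHB
    · exact absurd hHB (hy B hB hBA)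
  unfold AffAt
  filter_upwards [h2] with y hy
  rw [hy, hHA, ← map_add]
  congr 1
  abel

/-- fold points: all separating forms vanishing at `v` are proportional to one form `f₀`. -/
lemma twoAt_of_forms {H : E → F} {S : Finset (E →L[ℝ] F)} (hH : Conic H S)
    {L : Finset (E →L[ℝ] ℝ)}
    (hL : ∀ A ∈ S, ∀ B ∈ S, A ≠ B → ∃ f ∈ L, f ≠ 0 ∧ ∀ x, A x = B x → f x = 0)
    {v : E} {f₀ : E →L[ℝ] ℝ} (hf₀ : f₀ ≠ 0) (hf₀v : f₀ v = 0)
    (hv : ∀ f ∈ L, f ≠ 0 → f v = 0 → ∃ c : ℝ, f = c • f₀) :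
    ∃ A ∈ S, ∃ B ∈ S, TwoAt H v f₀ A B := by
  -- a ball around `v` on which the other forms do not vanish
  have h1 : ∀ᶠ y in 𝓝 v, ∀ f ∈ L, f v ≠ 0 → f y ≠ 0 := by
    rw [Filter.eventually_all_finset]
    intro f _
    by_cases hfv : f v = 0
    · exact Eventually.of_forall fun y h => absurd hfv h
    · filter_upwards [f.continuous.continuousAt.eventually_ne hfv] with y hy _ using hy
  obtain ⟨r, hr, hball⟩ := Metric.eventually_nhds_iff_ball.1 h1
  -- one open half ball
  have half : ∀ g : E →L[ℝ] ℝ, g ≠ 0 → g v = 0 → (∃ s : ℝ, s ≠ 0 ∧ f₀ = s • g) →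
      ∃ A ∈ S, ∀ y ∈ ball v r, 0 ≤ g y → H y = A y := by
    intro g hg hgv hsg
    set C : Set E := ball v r ∩ {y | 0 < g y} with hC
    have hconv : Convex ℝ C := by
      refine (convex_ball v r).inter ?_
      have : {y : E | 0 < g y} = g ⁻¹' Ioi 0 := rfl
      rw [this]
      exact (convex_Ioi (0 : ℝ)).linear_preimage (g : E →ₗ[ℝ] ℝ)
    obtain ⟨u, hu⟩ : ∃ u, 0 < g u := by
      have : ∃ u, g u ≠ 0 := by
        by_contra hcon
        push Not at hcon
        exact hg (ContinuousLinearMap.ext hcon)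
      obtain ⟨u, hu⟩ := this
      rcases lt_or_gt_of_ne hu with h | h
      · exact ⟨-u, by simpa using h⟩
      · exact ⟨u, h⟩
    have hneL : ∀ f ∈ L, f ≠ 0 → ∀ y ∈ C, f y ≠ 0 := by
      intro f hf hf0 y hy
      by_cases hfv : f v = 0
      · obtain ⟨c, hc⟩ := hv f hf hf0 hfv
        obtain ⟨s, hs0, hs⟩ := hsg
        have hc0 : c ≠ 0 := by
          rintro rfl
          exact hf0 (by rw [hc]; simp)
        rw [hc, hs]
        have : 0 < g y := hy.2
        simp only [FunLike.coe_smul, Pi.smul_apply, smul_eq_mul]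
        exact mul_ne_zero hc0 (mul_ne_zero hs0 this.ne')
      · exact hball y hy.1 f hf hfv
    -- points of `C`
    have hpt : ∀ y ∈ ball v r, 0 ≤ g y → ∃ ε > 0, ∀ t ∈ Ioo (0 : ℝ) ε, y + t • u ∈ C := by
      intro y hy hgy
      have hcont : Tendsto (fun t : ℝ => y + t • u) (𝓝 0) (𝓝 y) := by
        have : Continuous fun t : ℝ => y + t • u :=
          continuous_const.add (continuous_id.smul continuous_const)
        have h2 := this.tendsto 0
        simpa using h2
      have h2 : ∀ᶠ t : ℝ in 𝓝 0, y + t • u ∈ ball v r := hcont.eventually (isOpen_ball.mem_nhds hy)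
      obtain ⟨ε, hε, hε'⟩ := Metric.eventually_nhds_iff_ball.1 h2
      refine ⟨ε, hε, fun t ht => ⟨hε' t ?_, ?_⟩⟩
      · rw [mem_ball_zero_iff, Real.norm_eq_abs, abs_of_pos ht.1]; exact ht.2
      · show 0 < g (y + t • u)
        rw [map_add, map_smul, smul_eq_mul]
        have := mul_pos ht.1 hu
        linarith
    obtain ⟨ε, hε, hεC⟩ := hpt v (mem_ball_self hr) hgv.ge
    have hzC : v + (ε / 2) • u ∈ C := hεC _ ⟨by positivity, by linarith⟩
    obtain ⟨A, hA, hHA⟩ := hH.sel (v + (ε / 2) • u)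
    refine ⟨A, hA, ?_⟩
    have hCA : ∀ x ∈ C, H x = A x := by
      have := Fan_696.sel_const (C := C) hconv.isPreconnected
        (S := S.image fun B : E →L[ℝ] F => (B : E → F)) (H := H) (A := A) ?_
        hH.cont.continuousOn ?_ (Finset.mem_image_of_mem _ hA) ?_ hzC hHA
      · exact this
      · intro B hB
        obtain ⟨B', -, rfl⟩ := Finset.mem_image.1 hB
        exact B'.continuous
      · intro x _
        obtain ⟨B, hB, hHB⟩ := hH.sel x
        exact ⟨B, Finset.mem_image_of_mem _ hB, hHB⟩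
      · intro B hB hex x hx heq
        obtain ⟨B', hB', rfl⟩ := Finset.mem_image.1 hB
        have hne' : B' ≠ A := by
          rintro rfl
          obtain ⟨y, -, hy⟩ := hex
          exact hy rfl
        obtain ⟨f, hf, hf0, hfz⟩ := hL B' hB' A hA hne'
        exact hneL f hf hf0 x hx (hfz x heq)
    intro y hy hgy
    obtain ⟨δ, hδ, hδC⟩ := hpt y hy hgy
    have hlim1 : Tendsto (fun t : ℝ => H (y + t • u)) (𝓝[>] 0) (𝓝 (H y)) := by
      have : Continuous fun t : ℝ => H (y + t • u) :=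
        hH.cont.comp (continuous_const.add (continuous_id.smul continuous_const))
      have h2 := this.tendsto 0
      simp only [zero_smul, add_zero] at h2
      exact h2.mono_left nhdsWithin_le_nhds
    have hlim2 : Tendsto (fun t : ℝ => A (y + t • u)) (𝓝[>] 0) (𝓝 (A y)) := by
      have : Continuous fun t : ℝ => A (y + t • u) :=
        A.continuous.comp (continuous_const.add (continuous_id.smul continuous_const))
      have h2 := this.tendsto 0
      simp only [zero_smul, add_zero] at h2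
      exact h2.mono_left nhdsWithin_le_nhds
    refine tendsto_nhds_unique hlim1 (hlim2.congr' ?_)
    filter_upwards [Ioo_mem_nhdsGT hδ] with t ht
    exact (hCA _ (hδC t ht)).symm
  obtain ⟨A, hA, hHA⟩ := half f₀ hf₀ hf₀v ⟨1, one_ne_zero, by simp⟩
  obtain ⟨B, hB, hHB⟩ := half (-f₀) (neg_ne_zero.2 hf₀) (by simp [hf₀v]) ⟨-1, by norm_num, by simp⟩
  refine ⟨A, hA, B, hB, ?_⟩
  unfold TwoAt
  filter_upwards [isOpen_ball.mem_nhds (mem_ball_self hr)] with y hy
  have hvA : H v = A v := hHA v (mem_ball_self hr) hf₀v.ge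
  have hvB : H v = B v := hHB v (mem_ball_self hr) (by simp [hf₀v])
  constructor
  · intro h0
    rw [map_sub, hf₀v, sub_zero] at h0
    rw [hHA y hy h0, hvA, ← map_add]; congr 1; abel
  · intro h0
    rw [map_sub, hf₀v, sub_zero] at h0
    rw [hHB y hy (by simpa using h0), hvB, ← map_add]; congr 1; abel

end Crest.Agent.R096.Str_696
end

-- ▼ part R096/Str3_696
section

/-!
Row 96 (S0127), helper696.  Almost every point is affine; complements of finitely many subspaces of
codimension two are preconnected; fold points of injective maps.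
-/

set_option autoImplicit false
set_option linter.unusedSectionVars false
set_option linter.style.longLine false

namespace Crest.Agent.R096.Str_696

open Set Filter Topology Metric Module MeasureTheory
open scoped Classical

variable {E F : Type*} [NormedAddCommGroup E] [NormedSpace ℝ E]
  [NormedAddCommGroup F] [NormedSpace ℝ F]

/-- local data of a locally PL map. -/
lemma LocPL.germ [FiniteDimensional ℝ E] [FiniteDimensional ℝ F] {h : E → F} {Ω : Set E}
    (hh : LocPL h Ω) {x : E} (hx : x ∈ Ω) :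
    ∃ (r : ℝ) (S : Finset (E →L[ℝ] F)) (H : E → F) (L : Finset (E →L[ℝ] ℝ)), 0 < r ∧ Conic H S ∧
      (∀ v : E, ‖v‖ < r → h (x + v) = h x + H v) ∧
      (∀ A ∈ S, ∀ B ∈ S, A ≠ B → ∃ f ∈ L, f ≠ 0 ∧ ∀ x, A x = B x → f x = 0) := by
  obtain ⟨r, S, H, hr, hH, hh'⟩ := hh.conic hx
  obtain ⟨L, hL⟩ := Fan_696.exists_forms S
  exact ⟨r, S, H, L, hr, hH, hh', hL⟩

/-- the points where `h` is not affine are locally in finitely many hyperplanes. -/
theorem LocPL.ae_affine [FiniteDimensional ℝ E] [FiniteDimensional ℝ F] [MeasurableSpace E]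
    [BorelSpace E] (μ : Measure E) [μ.IsAddHaarMeasure] {h : E → F} {Ω : Set E}
    (hh : LocPL h Ω) : ∀ᵐ x ∂μ, x ∈ Ω → ∃ A, AffAt h x A := by
  rw [ae_iff]
  apply measure_null_of_locally_null
  intro x hx
  have hxΩ : x ∈ Ω := by
    by_contra h0
    exact hx fun h1 => absurd h1 h0
  obtain ⟨r, S, H, L, hr, hH, hh', hL⟩ := hh.germ hxΩ
  refine ⟨ball x r ∩ {a | ¬(a ∈ Ω → ∃ A, AffAt h a A)}, ?_, ?_⟩
  · rw [inter_comm]
    exact inter_mem self_mem_nhdsWithin (mem_nhdsWithin_of_mem_nhds (ball_mem_nhds x hr))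
  · have hsub : ball x r ∩ {a | ¬(a ∈ Ω → ∃ A, AffAt h a A)} ⊆
        ⋃ f ∈ (L.filter fun f => f ≠ 0),
          ((AffineSubspace.mk' x (LinearMap.ker (f : E →ₗ[ℝ] ℝ)) : AffineSubspace ℝ E) : Set E) := by
      rintro y ⟨hy, hy2⟩
      by_contra hcon
      apply hy2
      intro _
      have hyv : ‖y - x‖ < r := mem_ball_iff_norm.1 hy
      obtain ⟨A, -, hA⟩ := affAt_of_forms hH hL (v := y - x) (by
        intro f hf hf0 hfy
        apply hcon
        simp only [mem_iUnion]
        refine ⟨f, by simp [hf, hf0], ?_⟩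
        rw [SetLike.mem_coe, AffineSubspace.mem_mk']
        simpa using hfy)
      have := hA.of_germ hh' hyv
      exact ⟨A, by simpa using this⟩
    refine measure_mono_null hsub ?_
    refine (measure_biUnion_null_iff (Finset.countable_toSet (L.filter fun f => f ≠ 0))).2 ?_
    intro f hf
    have hf0 : f ≠ 0 := (Finset.mem_filter.1 hf).2
    apply Measure.addHaar_affineSubspace
    intro htop
    apply hf0
    have hd := congrArg AffineSubspace.direction htop
    rw [AffineSubspace.direction_mk', AffineSubspace.direction_top] at hd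
    ext z
    have : z ∈ LinearMap.ker (f : E →ₗ[ℝ] ℝ) := by rw [hd]; trivial
    simpa using this

/-- two-segment lemma. -/
theorem isPreconnected_diff_codim_two [FiniteDimensional ℝ E] {C : Set E} (hC : Convex ℝ C)
    (hCo : IsOpen C) {α : Type*} (T : Finset α) (W : α → Submodule ℝ E)
    (hW : ∀ a ∈ T, finrank ℝ (W a) + 2 ≤ finrank ℝ E) :
    IsPreconnected (C \ ⋃ a ∈ T, (W a : Set E)) := by
  -- a subspace spanned by `W a` and one vector is proper
  have hprop : ∀ (x : E), ∀ a ∈ T, W a ⊔ Submodule.span ℝ {x} ≠ ⊤ := by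
    intro x a ha htop
    have h1 := Submodule.finrank_add_le_finrank_add_finrank (W a) (Submodule.span ℝ {x})
    rw [htop, finrank_top] at h1
    have h2 : finrank ℝ (Submodule.span ℝ ({x} : Set E)) ≤ 1 := by
      have := finrank_span_finset_le_card (R := ℝ) ({x} : Finset E)
      rw [Finset.coe_singleton, Finset.card_singleton] at this
      exact this
    have := hW a ha
    omega
  apply isPreconnected_of_forall_pair
  rintro x ⟨hxC, hxW⟩ y ⟨hyC, hyW⟩
  -- a generic point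
  obtain ⟨z, hzC, hzx, hzy⟩ : ∃ z ∈ C, (∀ a ∈ T, z ∉ W a ⊔ Submodule.span ℝ {x}) ∧
      (∀ a ∈ T, z ∉ W a ⊔ Submodule.span ℝ {y}) := by
    by_contra hcon
    push Not at hcon
    have hint : interior (⋃ q ∈ (T ×ˢ ({x, y} : Finset E)),
        ((W q.1 ⊔ Submodule.span ℝ {q.2} : Submodule ℝ E) : Set E)) = ∅ := by
      apply Fan_696.interior_biUnion_proper
      intro q hq
      exact hprop q.2 q.1 (Finset.mem_product.1 hq).1
    have hsub : C ⊆ interior (⋃ q ∈ (T ×ˢ ({x, y} : Finset E)),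
        ((W q.1 ⊔ Submodule.span ℝ {q.2} : Submodule ℝ E) : Set E)) := by
      apply interior_maximal _ hCo
      intro z hz
      simp only [mem_iUnion]
      by_cases h1 : ∀ a ∈ T, z ∉ W a ⊔ Submodule.span ℝ {x}
      · obtain ⟨a, ha, hza⟩ := hcon z hz h1
        exact ⟨(a, y), by simp [ha], hza⟩
      · push Not at h1
        obtain ⟨a, ha, hza⟩ := h1
        exact ⟨(a, x), by simp [ha], hza⟩
    rw [hint] at hsub
    exact hsub hxC
  have hseg : ∀ u ∈ C, u ∉ (⋃ a ∈ T, (W a : Set E)) → (∀ a ∈ T, z ∉ W a ⊔ Submodule.span ℝ {u}) →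
      segment ℝ u z ⊆ C \ ⋃ a ∈ T, (W a : Set E) := by
    intro u hu huW huz w hw
    refine ⟨hC.segment_subset hu hzC hw, ?_⟩
    intro hwW
    simp only [mem_iUnion] at hwW
    obtain ⟨a, ha, hwa⟩ := hwW
    obtain ⟨s, t, hs, ht, hst, rfl⟩ := hw
    by_cases ht0 : t = 0
    · subst ht0
      have : s = 1 := by linarith
      subst this
      apply huW
      simp only [mem_iUnion]
      exact ⟨a, ha, by simpa using hwa⟩
    · apply huz a ha
      have e1 : z = t⁻¹ • (s • u + t • z) + (-(t⁻¹ * s)) • u := by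
        rw [smul_add, smul_smul, smul_smul, inv_mul_cancel₀ ht0, one_smul, neg_smul]
        abel
      rw [e1]
      exact Submodule.add_mem_sup (Submodule.smul_mem _ _ hwa)
        (Submodule.smul_mem _ _ (Submodule.mem_span_singleton_self u))
  refine ⟨segment ℝ x z ∪ segment ℝ y z, union_subset (hseg x hxC hxW hzx) (hseg y hyC hyW hzy),
    Or.inl (left_mem_segment ℝ x z), Or.inr (left_mem_segment ℝ y z), ?_⟩
  exact IsPreconnected.union z (right_mem_segment ℝ x z) (right_mem_segment ℝ y z)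
    (convex_segment x z).isPreconnected (convex_segment y z).isPreconnected

lemma dense_diff [FiniteDimensional ℝ E] {C : Set E} (hCo : IsOpen C) {α : Type*} (T : Finset α)
    (W : α → Submodule ℝ E) (hW : ∀ a ∈ T, W a ≠ ⊤) {x : E} (hx : x ∈ C) :
    x ∈ closure (C \ ⋃ a ∈ T, (W a : Set E)) := by
  have hint := Fan_696.interior_biUnion_proper T W hW
  have hd : Dense (⋃ a ∈ T, (W a : Set E))ᶜ := by
    rw [← interior_eq_empty_iff_dense_compl]; exact hint
  have := hd.open_subset_closure_inter hCo hx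
  rwa [← sdiff_eq] at this

/-- proportionality of forms. -/
lemma exists_smul_of_ker {f g : E →L[ℝ] ℝ} (hf : f ≠ 0) (h : ∀ x, f x = 0 → g x = 0) :
    ∃ c : ℝ, g = c • f := by
  obtain ⟨u, hu⟩ : ∃ u, f u ≠ 0 := by
    by_contra hcon
    push Not at hcon
    exact hf (ContinuousLinearMap.ext hcon)
  refine ⟨g u / f u, ?_⟩
  ext x
  have h1 : f (x - (f x / f u) • u) = 0 := by
    rw [map_sub, map_smul, smul_eq_mul, div_mul_cancel₀ _ hu, sub_self]
  have h2 := h _ h1
  rw [map_sub, map_smul, smul_eq_mul, sub_eq_zero] at h2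
  rw [h2]
  simp only [FunLike.coe_smul, Pi.smul_apply, smul_eq_mul]
  ring

lemma finrank_ker_inf [FiniteDimensional ℝ E] {f g : E →L[ℝ] ℝ} (hf : f ≠ 0)
    (hfg : ¬ ∃ c : ℝ, g = c • f) :
    finrank ℝ ((LinearMap.ker (f : E →ₗ[ℝ] ℝ) ⊓ LinearMap.ker (g : E →ₗ[ℝ] ℝ) : Submodule ℝ E)) + 2 ≤
      finrank ℝ E := by
  have h1 : LinearMap.ker (f : E →ₗ[ℝ] ℝ) < ⊤ := by
    rw [lt_top_iff_ne_top]
    intro htop
    apply hf
    ext z
    have : z ∈ LinearMap.ker (f : E →ₗ[ℝ] ℝ) := by rw [htop]; trivial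
    simpa using this
  have h2 : (LinearMap.ker (f : E →ₗ[ℝ] ℝ) ⊓ LinearMap.ker (g : E →ₗ[ℝ] ℝ) : Submodule ℝ E) <
      LinearMap.ker (f : E →ₗ[ℝ] ℝ) := by
    refine lt_of_le_of_ne inf_le_left fun heq => hfg (exists_smul_of_ker hf ?_)
    intro x hx
    have : x ∈ (LinearMap.ker (f : E →ₗ[ℝ] ℝ) ⊓ LinearMap.ker (g : E →ₗ[ℝ] ℝ) : Submodule ℝ E) := by
      rw [heq]; simpa using hx
    simpa using this.2
  have h3 := Submodule.finrank_lt_finrank_of_lt h2
  have h4 := Submodule.finrank_lt_finrank_of_lt h1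
  rw [finrank_top] at h4
  omega

/-- **Off finitely many subspaces of codimension two a conic selection is affine or two-sided.** -/
theorem exists_codim_two [FiniteDimensional ℝ E] {H : E → F} {S : Finset (E →L[ℝ] F)}
    (hH : Conic H S) {L : Finset (E →L[ℝ] ℝ)}
    (hL : ∀ A ∈ S, ∀ B ∈ S, A ≠ B → ∃ f ∈ L, f ≠ 0 ∧ ∀ x, A x = B x → f x = 0) :
    ∃ T : Finset (Submodule ℝ E), (∀ W ∈ T, finrank ℝ W + 2 ≤ finrank ℝ E) ∧
      ∀ v : E, v ∉ (⋃ W ∈ T, (W : Set E)) →
        (∃ A ∈ S, AffAt H v A) ∨ ∃ f : E →L[ℝ] ℝ, f ≠ 0 ∧ ∃ A ∈ S, ∃ B ∈ S, TwoAt H v f A B := by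
  refine ⟨((L ×ˢ L).filter fun q => q.1 ≠ 0 ∧ ¬ ∃ c : ℝ, q.2 = c • q.1).image fun q =>
    (LinearMap.ker (q.1 : E →ₗ[ℝ] ℝ) ⊓ LinearMap.ker (q.2 : E →ₗ[ℝ] ℝ) : Submodule ℝ E), ?_, ?_⟩
  · intro W hW
    obtain ⟨q, hq, rfl⟩ := Finset.mem_image.1 hW
    have hq2 := (Finset.mem_filter.1 hq).2
    exact finrank_ker_inf hq2.1 hq2.2
  · intro v hv
    by_cases hreg : ∀ f ∈ L, f ≠ 0 → f v ≠ 0
    · exact Or.inl (affAt_of_forms hH hL hreg)
    · right
      push Not at hreg
      obtain ⟨f₀, hf₀, hf₀0, hf₀v⟩ := hreg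
      refine ⟨f₀, hf₀0, twoAt_of_forms hH hL hf₀0 hf₀v ?_⟩
      intro f hf hf0 hfv
      by_contra hcon
      apply hv
      simp only [mem_iUnion]
      refine ⟨(LinearMap.ker (f₀ : E →ₗ[ℝ] ℝ) ⊓ LinearMap.ker (f : E →ₗ[ℝ] ℝ) : Submodule ℝ E),
        Finset.mem_image.2 ⟨(f₀, f), Finset.mem_filter.2
          ⟨Finset.mem_product.2 ⟨hf₀, hf⟩, hf₀0, hcon⟩, rfl⟩, ?_⟩
      exact ⟨by simpa using hf₀v, by simpa using hfv⟩

end Crest.Agent.R096.Str_696
end

-- ▼ part R096/Str4_696
section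

/-!
Row 96 (S0127), helper696.  (S4): fold points of injective maps, orientation.
-/

set_option autoImplicit false
set_option linter.unusedSectionVars false
set_option linter.style.longLine false

namespace Crest.Agent.R096.Str_696

open Set Filter Topology Metric Module MeasureTheory
open scoped Classical

variable {E F : Type*} [NormedAddCommGroup E] [NormedSpace ℝ E]
  [NormedAddCommGroup F] [NormedSpace ℝ F]

lemma exists_pos {f : E →L[ℝ] ℝ} (hf : f ≠ 0) : ∃ u, f u = 1 := by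
  obtain ⟨u, hu⟩ : ∃ u, f u ≠ 0 := by
    by_contra hcon
    push Not at hcon
    exact hf (ContinuousLinearMap.ext hcon)
  exact ⟨(f u)⁻¹ • u, by rw [map_smul, smul_eq_mul, inv_mul_cancel₀ hu]⟩

/-- small multiples. -/
lemma eventually_ray {P : E → Prop} {p : E} (h : ∀ᶠ y in 𝓝 p, P y) (v : E) :
    ∀ᶠ s : ℝ in 𝓝[>] 0, P (p + s • v) := by
  have h1 : Tendsto (fun s : ℝ => p + s • v) (𝓝[>] 0) (𝓝 p) := by
    have : Continuous fun s : ℝ => p + s • v :=
      continuous_const.add (continuous_id.smul continuous_const)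
    have h2 := this.tendsto 0
    simp only [zero_smul, add_zero] at h2
    exact h2.mono_left nhdsWithin_le_nhds
  exact h1.eventually h

lemma TwoAt.agree {h : E → F} {p : E} {f : E →L[ℝ] ℝ} {A B : E →L[ℝ] F} (hT : TwoAt h p f A B)
    {k : E} (hk : f k = 0) : A k = B k := by
  obtain ⟨s, hs, hs0⟩ := ((eventually_ray hT k).and self_mem_nhdsWithin).exists
  have hs0' : (0 : ℝ) < s := hs0
  simp only [add_sub_cancel_left, map_smul, hk, smul_zero, le_refl, forall_const] at hs
  have h1 := hs.1.symm.trans hs.2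
  have h2 : s • A k = s • B k := by simpa using h1
  exact smul_right_injective F hs0'.ne' h2

lemma TwoAt.rank_one {h : E → F} {p : E} {f : E →L[ℝ] ℝ} (hf : f ≠ 0) {A B : E →L[ℝ] F}
    (hT : TwoAt h p f A B) : ∃ w : F, ∀ y, B y = A y + f y • w := by
  obtain ⟨u, hu⟩ := exists_pos hf
  refine ⟨B u - A u, fun y => ?_⟩
  have h1 : A (y - f y • u) = B (y - f y • u) := hT.agree (by
    rw [map_sub, map_smul, hu, smul_eq_mul, mul_one, sub_self])
  rw [map_sub, map_sub, map_smul, map_smul] at h1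
  rw [smul_sub]
  have h2 : B y = A y - f y • A u + f y • B u := by rw [h1]; abel
  rw [h2]; abel

lemma TwoAt.affAt {h : E → F} {p : E} {f : E →L[ℝ] ℝ} {A B : E →L[ℝ] F}
    (hT : TwoAt h p f A B) :
    ∀ᶠ y in 𝓝 p, (0 < f (y - p) → AffAt h y A) ∧ (f (y - p) < 0 → AffAt h y B) := by
  have h1 := hT.eventually_nhds
  filter_upwards [h1] with y hy
  have hyy := hy.self_of_nhds
  have hc : Continuous fun z : E => f (z - p) := f.continuous.comp (continuous_id.sub continuous_const)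
  constructor
  · intro h0
    have h2 : ∀ᶠ z in 𝓝 y, 0 < f (z - p) := hc.continuousAt.eventually (lt_mem_nhds h0)
    unfold AffAt
    filter_upwards [hy, h2] with z hz hz2
    rw [hz.1 hz2.le, hyy.1 h0.le]
    have : A (z - p) = A (y - p) + A (z - y) := by rw [← map_add]; congr 1; abel
    rw [this]; abel
  · intro h0
    have h2 : ∀ᶠ z in 𝓝 y, f (z - p) < 0 := hc.continuousAt.eventually (gt_mem_nhds h0)
    unfold AffAt
    filter_upwards [hy, h2] with z hz hz2
    rw [hz.2 hz2.le, hyy.2 h0.le]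
    have : B (z - p) = B (y - p) + B (z - y) := by rw [← map_add]; congr 1; abel
    rw [this]; abel

/-- the derivative at an affine point near a fold point is one of the two. -/
lemma TwoAt.mem_pair {h : E → F} {p : E} {f : E →L[ℝ] ℝ} (hf : f ≠ 0) {A B : E →L[ℝ] F}
    (hT : TwoAt h p f A B) : ∀ᶠ y in 𝓝 p, ∀ A', AffAt h y A' → A' = A ∨ A' = B := by
  obtain ⟨u, hu⟩ := exists_pos hf
  filter_upwards [hT.affAt.eventually_nhds] with y hy A' hA'
  rcases lt_trichotomy (f (y - p)) 0 with h0 | h0 | h0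
  · exact Or.inr (hA'.unique (hy.self_of_nhds.2 h0))
  · left
    -- move a little to the positive side
    obtain ⟨s, ⟨hs, hs'⟩, hs0⟩ := (((eventually_ray hy u).and
      (eventually_ray hA'.eventually u)).and self_mem_nhdsWithin).exists
    have hs0' : (0 : ℝ) < s := hs0
    have h1 : 0 < f (y + s • u - p) := by
      have : y + s • u - p = (y - p) + s • u := by abel
      rw [this, map_add, h0, map_smul, hu]
      simpa using hs0'
    exact hs'.unique (hs.1 h1)
  · exact Or.inl (hA'.unique (hy.self_of_nhds.1 h0))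

section endo

variable [FiniteDimensional ℝ E]

lemma AffAt.det_ne {h : E → E} {p : E} {A : E →L[ℝ] E} (hA : AffAt h p A) {U : Set E}
    (hU : U ∈ 𝓝 p) (hi : InjOn h U) : A.det ≠ 0 := by
  intro h0
  have h1 : LinearMap.det (A : E →ₗ[ℝ] E) = 0 := h0
  have h2 := LinearMap.bot_lt_ker_of_det_eq_zero h1
  obtain ⟨k, hk, hk0⟩ := Submodule.exists_mem_ne_zero_of_ne_bot h2.ne'
  have hk' : A k = 0 := by simpa using hk
  have hU' : ∀ᶠ y in 𝓝 p, y ∈ U := hU
  obtain ⟨s, ⟨hs, hs'⟩, hs0⟩ := (((eventually_ray hA k).and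
      (eventually_ray hU' k)).and self_mem_nhdsWithin).exists
  have hs0' : (0 : ℝ) < s := hs0
  rw [add_sub_cancel_left, map_smul, hk', smul_zero, add_zero] at hs
  have h3 := hi hs' (mem_of_mem_nhds hU) hs
  have h4 : s • k = 0 := by simpa using h3
  rcases smul_eq_zero.1 h4 with h5 | h5
  · exact hs0'.ne' h5
  · exact hk0 h5

lemma det_comp_transvection (A : E →L[ℝ] E) (f : E →L[ℝ] ℝ) (a : E) (B : E →L[ℝ] E)
    (hB : ∀ y, B y = A (y + f y • a)) : B.det = A.det * (1 + f a) := by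
  have h1 : (B : E →ₗ[ℝ] E) =
      (A : E →ₗ[ℝ] E) ∘ₗ (LinearMap.transvection (f : E →ₗ[ℝ] ℝ) a) := by
    ext y
    exact hB y
  show LinearMap.det (B : E →ₗ[ℝ] E) = LinearMap.det (A : E →ₗ[ℝ] E) * (1 + f a)
  rw [h1, LinearMap.det_comp, LinearMap.transvection.det]
  rfl

/-- **Fold points of injective maps: same orientation, and the whole segment is invertible.** -/
lemma TwoAt.det {h : E → E} {p : E} {f : E →L[ℝ] ℝ} (hf : f ≠ 0) {A B : E →L[ℝ] E}
    (hT : TwoAt h p f A B) {U : Set E} (hU : U ∈ 𝓝 p) (hi : InjOn h U) :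
    A.det ≠ 0 ∧ ∃ lam : ℝ, 0 < lam ∧ ∀ t : ℝ, ((1 - t) • A + t • B).det =
      A.det * (1 + t * (lam - 1)) := by
  obtain ⟨u, hu⟩ := exists_pos hf
  have hU' : ∀ᶠ y in 𝓝 p, y ∈ U := hU
  -- `det A ≠ 0`
  have hAdet : A.det ≠ 0 := by
    obtain ⟨s, ⟨hs, hs'⟩, hs0⟩ := (((eventually_ray hT.affAt u).and
      (eventually_ray hU'.eventually_nhds u)).and self_mem_nhdsWithin).exists
    have hs0' : (0 : ℝ) < s := hs0
    refine (hs.1 ?_).det_ne hs' hi
    rw [add_sub_cancel_left, map_smul, hu]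
    simpa using hs0'
  have hBdet : B.det ≠ 0 := by
    obtain ⟨s, ⟨hs, hs'⟩, hs0⟩ := (((eventually_ray hT.affAt (-u)).and
      (eventually_ray hU'.eventually_nhds (-u))).and self_mem_nhdsWithin).exists
    have hs0' : (0 : ℝ) < s := hs0
    refine (hs.2 ?_).det_ne hs' hi
    rw [add_sub_cancel_left, map_smul, map_neg, hu]
    simpa using hs0'
  obtain ⟨w, hw⟩ := hT.rank_one hf
  -- `w = A a`
  obtain ⟨a, ha⟩ : ∃ a, A a = w := by
    have hsurj : Function.Surjective (A : E →ₗ[ℝ] E) := by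
      have h1 : IsUnit (LinearMap.det (A : E →ₗ[ℝ] E)) := isUnit_iff_ne_zero.2 hAdet
      have h2 : IsUnit (A : E →ₗ[ℝ] E) := (LinearMap.isUnit_iff_isUnit_det _).2 h1
      exact ((Module.End.isUnit_iff _).1 h2).2
    exact hsurj w
  have hB : ∀ y, B y = A (y + f y • a) := by
    intro y; rw [hw, map_add, map_smul, ha]
  have hdetB := det_comp_transvection A f a B hB
  refine ⟨hAdet, 1 + f a, ?_, ?_⟩
  · by_contra hneg
    push Not at hneg
    have hlt : 1 + f a < 0 := by
      refine lt_of_le_of_ne hneg fun h0 => hBdet ?_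
      rw [hdetB, h0, mul_zero]
    -- two points with the same image
    obtain ⟨s, ⟨⟨hs1, hs2⟩, ⟨hs3, hs4⟩⟩, hs0⟩ := ((((eventually_ray hT (-u)).and
      (eventually_ray hT (-(u + a)))).and ((eventually_ray hU' (-u)).and
        (eventually_ray hU' (-(u + a))))).and self_mem_nhdsWithin).exists
    have hs0' : (0 : ℝ) < s := hs0
    rw [add_sub_cancel_left] at hs1 hs2
    have e1 : f (s • -u) = -s := by rw [map_smul, map_neg, hu]; simp
    have e2 : f (s • -(u + a)) = -s * (1 + f a) := by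
      rw [map_smul, map_neg, map_add, hu, smul_eq_mul]; ring
    have g1 := hs1.2 (by rw [e1]; linarith)
    have g2 := hs2.1 (by rw [e2]; nlinarith)
    have g3 : h (p + s • -u) = h (p + s • -(u + a)) := by
      rw [g1, g2, hB, e1]
      congr 2
      simp only [smul_neg, smul_add, neg_smul]
      abel
    have g4 := hi hs3 hs4 g3
    have g5 : f (s • -u) = f (s • -(u + a)) := by
      have : s • -u = s • -(u + a) := by simpa using g4
      rw [this]
    rw [e1, e2] at g5
    nlinarith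
  · intro t
    have h3 := det_comp_transvection A f (t • a) ((1 - t) • A + t • B) (by
      intro y
      simp only [add_apply, FunLike.coe_smul, Pi.smul_apply, hB, map_add, map_smul, smul_add,
        sub_smul, one_smul, sub_apply]
      rw [smul_comm t (f y)]
      abel)
    rw [h3, map_smul, smul_eq_mul]
    ring

end endo

end Crest.Agent.R096.Str_696
end

-- ▼ part R096/Str5_696

/-!
Row 96 (S0127), helper696.  ORIENT: a locally PL injective map of a connected open set has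
determinants of one sign.
-/

set_option autoImplicit false
set_option linter.unusedSectionVars false
set_option linter.style.longLine false

namespace Crest.Agent.R096.Str_696

open Set Filter Topology Metric Module MeasureTheory
open scoped Classical

variable {E : Type*} [NormedAddCommGroup E] [NormedSpace ℝ E] [FiniteDimensional ℝ E]

/-- all affine points near `q` have `0 < σ * det`. -/
def Sg (σ : ℝ) (h : E → E) : Set E := {q | ∀ᶠ y in 𝓝 q, ∀ A, AffAt h y A → 0 < σ * A.det}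

lemma isOpen_Sg (σ : ℝ) (h : E → E) : IsOpen (Sg σ h) := isOpen_setOfPred_eventually_nhds

/-- affine points are dense. -/
lemma LocPL.frequently_aff {F : Type*} [NormedAddCommGroup F] [NormedSpace ℝ F]
    [FiniteDimensional ℝ F] {h : E → F} {Ω : Set E} (hh : LocPL h Ω) {x : E} (hx : x ∈ Ω) :
    ∃ᶠ y in 𝓝 x, ∃ A, AffAt h y A := by
  obtain ⟨r, S, H, L, hr, hH, hh', hL⟩ := hh.germ hx
  set T := L.filter fun f => f ≠ 0 with hT
  have hd := dense_diff (C := ball (0 : E) r) isOpen_ball T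
    (fun f => LinearMap.ker (f : E →ₗ[ℝ] ℝ)) (by
      intro f hf htop
      have hf0 : f ≠ 0 := (Finset.mem_filter.1 hf).2
      apply hf0
      ext z
      have : z ∈ LinearMap.ker (f : E →ₗ[ℝ] ℝ) := by rw [htop]; trivial
      simpa using this) (mem_ball_self hr)
  have h1 : ∃ᶠ v in 𝓝 (0 : E), v ∈ ball (0 : E) r \ ⋃ f ∈ T,
      ((LinearMap.ker (f : E →ₗ[ℝ] ℝ) : Submodule ℝ E) : Set E) := mem_closure_iff_frequently.1 hd
  have h2 : ∃ᶠ v in 𝓝 (0 : E), ∃ A, AffAt h (x + v) A := by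
    refine h1.mono fun v hv => ?_
    have hv1 : ‖v‖ < r := mem_ball_zero_iff.1 hv.1
    obtain ⟨A, -, hA⟩ := affAt_of_forms hH hL (v := v) (by
      intro f hf hf0 hfv
      apply hv.2
      simp only [mem_iUnion]
      exact ⟨f, Finset.mem_filter.2 ⟨hf, hf0⟩, by simpa using hfv⟩)
    exact ⟨A, hA.of_germ hh' hv1⟩
  have h3 : Tendsto (fun v : E => x + v) (𝓝 0) (𝓝 x) := by
    have : Continuous fun v : E => x + v := continuous_const.add continuous_id
    have := this.tendsto 0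
    simpa using this
  exact h3.frequently h2

/-- `Sg 1` and `Sg (-1)` are disjoint on `Ω`. -/
lemma Sg_disj {h : E → E} {Ω : Set E} (hh : LocPL h Ω) {x : E} (hx : x ∈ Ω)
    (h1 : x ∈ Sg 1 h) (h2 : x ∈ Sg (-1) h) : False := by
  obtain ⟨y, ⟨A, hA⟩, hy1, hy2⟩ := ((hh.frequently_aff hx).and_eventually
    ((show ∀ᶠ y in 𝓝 x, ∀ A, AffAt h y A → 0 < 1 * A.det from h1).and
      (show ∀ᶠ y in 𝓝 x, ∀ A, AffAt h y A → 0 < (-1) * A.det from h2))).exists
  have e1 := hy1 A hA
  have e2 := hy2 A hA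
  linarith

lemma mem_Sg_of_aff {h : E → E} {Ω : Set E} (hΩ : IsOpen Ω) (hi : InjOn h Ω) {x : E}
    (hx : x ∈ Ω) {A : E →L[ℝ] E} (hA : AffAt h x A) : x ∈ Sg 1 h ∪ Sg (-1) h := by
  have hdet := hA.det_ne (hΩ.mem_nhds hx) hi
  have hev : ∀ᶠ y in 𝓝 x, ∀ A', AffAt h y A' → A' = A := by
    filter_upwards [hA.eventually] with y hy A' hA'
    exact hA'.unique hy
  rcases lt_or_gt_of_ne hdet with h0 | h0
  · right
    show ∀ᶠ y in 𝓝 x, ∀ A, AffAt h y A → 0 < (-1) * A.det
    filter_upwards [hev] with y hy A' hA'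
    rw [hy A' hA']; linarith
  · left
    show ∀ᶠ y in 𝓝 x, ∀ A, AffAt h y A → 0 < 1 * A.det
    filter_upwards [hev] with y hy A' hA'
    rw [hy A' hA']; linarith

lemma mem_Sg_of_two {h : E → E} {Ω : Set E} (hΩ : IsOpen Ω) (hi : InjOn h Ω) {x : E}
    (hx : x ∈ Ω) {f : E →L[ℝ] ℝ} (hf : f ≠ 0) {A B : E →L[ℝ] E} (hT : TwoAt h x f A B) :
    x ∈ Sg 1 h ∪ Sg (-1) h := by
  obtain ⟨hdet, lam, hlam, hseg⟩ := hT.det hf (hΩ.mem_nhds hx) hi
  have hB : B.det = A.det * lam := by
    have := hseg 1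
    simp only [sub_self, zero_smul, one_smul, zero_add, one_mul] at this
    rw [this]; ring
  rcases lt_or_gt_of_ne hdet with h0 | h0
  · right
    show ∀ᶠ y in 𝓝 x, ∀ A, AffAt h y A → 0 < (-1) * A.det
    filter_upwards [hT.mem_pair hf] with y hy A' hA'
    rcases hy A' hA' with rfl | rfl
    · linarith
    · rw [hB]; nlinarith
  · left
    show ∀ᶠ y in 𝓝 x, ∀ A, AffAt h y A → 0 < 1 * A.det
    filter_upwards [hT.mem_pair hf] with y hy A' hA'
    rcases hy A' hA' with rfl | rfl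
    · linarith
    · rw [hB]; nlinarith

/-- every point of `Ω` has a sign. -/
lemma mem_Sg {h : E → E} {Ω : Set E} (hΩ : IsOpen Ω) (hh : LocPL h Ω) (hi : InjOn h Ω) {x : E}
    (hx : x ∈ Ω) : x ∈ Sg 1 h ∪ Sg (-1) h := by
  obtain ⟨r₀, S, H, L, hr₀, hH, hh', hL⟩ := hh.germ hx
  obtain ⟨T, hT, hTv⟩ := exists_codim_two hH hL
  obtain ⟨r₁, hr₁, hsub⟩ := Metric.isOpen_iff.1 hΩ x hx
  set r := min r₀ r₁ with hr
  have hr0 : 0 < r := lt_min hr₀ hr₁
  have hxv : ∀ v ∈ ball (0 : E) r, ‖v‖ < r₀ ∧ x + v ∈ Ω := by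
    intro v hv
    have hv1 : ‖v‖ < r := mem_ball_zero_iff.1 hv
    refine ⟨hv1.trans_le (min_le_left _ _), hsub ?_⟩
    rw [mem_ball_iff_norm, add_sub_cancel_left]
    exact hv1.trans_le (min_le_right _ _)
  set C : Set E := ball (0 : E) r \ ⋃ W ∈ T, (W : Set E) with hC
  have hCpre : IsPreconnected C :=
    isPreconnected_diff_codim_two (convex_ball 0 r) isOpen_ball T (fun W => W) hT
  have hmem : ∀ v ∈ C, x + v ∈ Sg 1 h ∪ Sg (-1) h := by
    intro v hv
    obtain ⟨hv1, hv2⟩ := hxv v hv.1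
    rcases hTv v hv.2 with ⟨A, -, hA⟩ | ⟨f, hf, A, -, B, -, hAB⟩
    · exact mem_Sg_of_aff hΩ hi hv2 (hA.of_germ hh' hv1)
    · exact mem_Sg_of_two hΩ hi hv2 hf (hAB.of_germ hh' hv1)
  have hcont : Continuous fun v : E => x + v := continuous_const.add continuous_id
  have hpre : ∀ σ : ℝ, IsOpen ((fun v : E => x + v) ⁻¹' Sg σ h) := fun σ =>
    (isOpen_Sg σ h).preimage hcont
  -- `C` has one sign
  have hone : (∀ v ∈ C, x + v ∈ Sg 1 h) ∨ (∀ v ∈ C, x + v ∈ Sg (-1) h) := by
    by_contra hcon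
    push Not at hcon
    obtain ⟨⟨v, hv, hv'⟩, ⟨w, hw, hw'⟩⟩ := hcon
    have hv'' : x + v ∈ Sg (-1) h := (hmem v hv).resolve_left hv'
    have hw'' : x + w ∈ Sg 1 h := (hmem w hw).resolve_right hw'
    obtain ⟨z, hz, hz1, hz2⟩ := hCpre _ _ (hpre 1) (hpre (-1)) (fun v hv => hmem v hv)
      ⟨w, hw, hw''⟩ ⟨v, hv, hv''⟩
    exact Sg_disj hh (hxv z hz.1).2 hz1 hz2
  have hTtop : ∀ W ∈ T, W ≠ ⊤ := by
    intro W hW htop
    have := hT W hW
    rw [htop, finrank_top] at this
    omega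
  -- extend to `x`
  have hext : ∀ σ : ℝ, (∀ v ∈ C, x + v ∈ Sg σ h) → x ∈ Sg σ h := by
    intro σ hσ
    show ∀ᶠ y in 𝓝 x, ∀ A, AffAt h y A → 0 < σ * A.det
    filter_upwards [ball_mem_nhds x hr0] with y hy A hA
    have hyv : y - x ∈ ball (0 : E) r := by
      rw [mem_ball_zero_iff]; exact mem_ball_iff_norm.1 hy
    have hd := dense_diff (C := ball (0 : E) r) isOpen_ball T (fun W => W) hTtop hyv
    have h1 : ∃ᶠ v in 𝓝 (y - x), v ∈ C := mem_closure_iff_frequently.1 hd
    have h2 : Tendsto (fun v : E => x + v) (𝓝 (y - x)) (𝓝 y) := by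
      have := hcont.tendsto (y - x)
      simpa using this
    obtain ⟨v, hv, hvA⟩ := (h1.and_eventually (h2.eventually hA.eventually)).exists
    have h3 : ∀ᶠ y in 𝓝 (x + v), ∀ A, AffAt h y A → 0 < σ * A.det := hσ v hv
    exact h3.self_of_nhds A hvA
  rcases hone with h1 | h1
  · exact Or.inl (hext 1 h1)
  · exact Or.inr (hext (-1) h1)

/-- **ORIENT.** -/
theorem orient {h : E → E} {Ω : Set E} (hΩ : IsOpen Ω) (hΩc : IsPreconnected Ω)
    (hh : LocPL h Ω) (hi : InjOn h Ω) :
    (∀ x ∈ Ω, ∀ A, AffAt h x A → 0 < A.det) ∨ (∀ x ∈ Ω, ∀ A, AffAt h x A → A.det < 0) := by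
  have hone : (Ω ⊆ Sg 1 h) ∨ (Ω ⊆ Sg (-1) h) := by
    by_contra hcon
    push Not at hcon
    obtain ⟨h1, h2⟩ := hcon
    rw [not_subset] at h1 h2
    obtain ⟨v, hv, hv'⟩ := h1
    obtain ⟨w, hw, hw'⟩ := h2
    obtain ⟨z, hz, hz1, hz2⟩ := hΩc _ _ (isOpen_Sg 1 h) (isOpen_Sg (-1) h)
      (fun v hv => mem_Sg hΩ hh hi hv)
      ⟨w, hw, (mem_Sg hΩ hh hi hw).resolve_right hw'⟩
      ⟨v, hv, (mem_Sg hΩ hh hi hv).resolve_left hv'⟩
    exact Sg_disj hh hz hz1 hz2
  rcases hone with h1 | h1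
  · left
    intro x hx A hA
    have h2 : ∀ᶠ y in 𝓝 x, ∀ A, AffAt h y A → 0 < 1 * A.det := h1 hx
    have := h2.self_of_nhds A hA
    linarith
  · right
    intro x hx A hA
    have h2 : ∀ᶠ y in 𝓝 x, ∀ A, AffAt h y A → 0 < (-1) * A.det := h1 hx
    have := h2.self_of_nhds A hA
    linarith

end Crest.Agent.R096.Str_696
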