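import Mathlib
import Crest.Agent.R096.P5Spec_205
import Crest.Agent.R096.Str5_696
import Crest.Prelude.Def_SobolevMap

-- ▼ part R096/Germ1_879
section

/-!
# R096: locally conical maps, germs (helper879; leaf P5-GERM of helper205, row 96)

`ConAt h x`      : `h` is conical about `x` (with some radius);
`LocConical h Ω` : conical about every point of `Ω` (verbatim #7463);
`germ h x`       : the germ of `h` at `x`, a positively homogeneous map `E → F`, `h (x+v) = h x + germ h x v`
                   for `‖v‖ < rad h x`;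
`Tan h x`        : the lineality space of the germ (a submodule of `E`).
-/

set_option autoImplicit false

namespace Crest.Agent.R096.Germ_879

open Set Metric Filter Topology

variable {E F : Type*} [NormedAddCommGroup E] [NormedSpace ℝ E] [NormedAddCommGroup F] [NormedSpace ℝ F]

/-- `h` is conical about `x` with radius `r`. -/
def ConR (h : E → F) (x : E) (r : ℝ) : Prop :=
  ∀ v : E, ‖v‖ < r → ∀ t ∈ Icc (0 : ℝ) 1, h (x + t • v) = h x + t • (h (x + v) - h x)

/-- `h` is conical about `x`. -/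
def ConAt (h : E → F) (x : E) : Prop := ∃ r > 0, ConR h x r

/-- locally conical (helper205 #7463). -/
def LocConical (h : E → F) (Ω : Set E) : Prop :=
  ∀ x ∈ Ω, ∃ r > 0, ∀ v : E, ‖v‖ < r → ∀ t ∈ Icc (0 : ℝ) 1, h (x + t • v) = h x + t • (h (x + v) - h x)

theorem LocConical.conAt {h : E → F} {Ω : Set E} (hh : LocConical h Ω) {x : E} (hx : x ∈ Ω) : ConAt h x := hh x hx

theorem ConR.mono {h : E → F} {x : E} {r r' : ℝ} (H : ConR h x r) (hr : r' ≤ r) : ConR h x r' :=
  fun v hv t ht => H v (lt_of_lt_of_le hv hr) t ht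

/-- positively homogeneous (degree one) -/
def PosHom (H : E → F) : Prop := ∀ (c : ℝ), 0 ≤ c → ∀ v, H (c • v) = c • H v

theorem PosHom.zero {H : E → F} (hH : PosHom H) : H 0 = 0 := by
  have := hH 0 le_rfl 0
  simpa using this

open Classical in
/-- a radius of conicality -/
noncomputable def rad (h : E → F) (x : E) : ℝ := if hx : ConAt h x then hx.choose else 1

theorem rad_pos (h : E → F) (x : E) : 0 < rad h x := by
  unfold rad
  split_ifs with hx
  · exact hx.choose_spec.1
  · exact one_pos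

theorem ConAt.conR {h : E → F} {x : E} (hx : ConAt h x) : ConR h x (rad h x) := by
  unfold rad
  rw [dif_pos hx]
  exact hx.choose_spec.2

/-- the step used in the definition of the germ -/
noncomputable def stp (h : E → F) (x v : E) : ℝ := rad h x / (2 * (1 + ‖v‖))

theorem stp_pos (h : E → F) (x v : E) : 0 < stp h x v := by
  unfold stp
  have := rad_pos h x
  positivity

theorem stp_mul_lt (h : E → F) (x v : E) : stp h x v * ‖v‖ < rad h x := by
  unfold stp
  have hr := rad_pos h x
  have hv := norm_nonneg v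
  rw [div_mul_eq_mul_div, div_lt_iff₀ (by positivity)]
  nlinarith

/-- the germ of `h` at `x` -/
noncomputable def germ (h : E → F) (x v : E) : F := (stp h x v)⁻¹ • (h (x + stp h x v • v) - h x)

@[simp] theorem germ_zero (h : E → F) (x : E) : germ h x 0 = 0 := by simp [germ]

/-- slopes along a ray are constant inside the radius of conicality -/
theorem ConR.slope_eq {h : E → F} {x : E} {r : ℝ} (H : ConR h x r) {v : E} {s t : ℝ} (hs : 0 < s) (ht : 0 < t)
    (hsv : s * ‖v‖ < r) (htv : t * ‖v‖ < r) :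
    s⁻¹ • (h (x + s • v) - h x) = t⁻¹ • (h (x + t • v) - h x) := by
  wlog hst : s ≤ t generalizing s t with W
  · exact (W ht hs htv hsv (le_of_not_ge hst)).symm
  · have h1 := H (t • v) (by rwa [norm_smul, Real.norm_of_nonneg ht.le]) (s / t)
      ⟨by positivity, by rw [div_le_one ht]; exact hst⟩
    have h2 : (s / t) • (t • v) = s • v := by
      rw [smul_smul, div_mul_cancel₀ _ ht.ne']
    rw [h2] at h1
    rw [h1, add_sub_cancel_left, smul_smul]
    congr 1
    field_simp

/-- the germ can be computed with any small step -/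
theorem ConAt.germ_eq {h : E → F} {x : E} (hx : ConAt h x) {v : E} {s : ℝ} (hs : 0 < s) (hsv : s * ‖v‖ < rad h x) :
    germ h x v = s⁻¹ • (h (x + s • v) - h x) :=
  hx.conR.slope_eq (stp_pos h x v) hs (stp_mul_lt h x v) hsv

theorem ConAt.apply_add {h : E → F} {x : E} (hx : ConAt h x) {v : E} (hv : ‖v‖ < rad h x) :
    h (x + v) = h x + germ h x v := by
  rw [hx.germ_eq one_pos (by simpa using hv)]
  simp

theorem ConAt.apply_add_smul {h : E → F} {x : E} (hx : ConAt h x) {v : E} {s : ℝ} (hs : 0 ≤ s)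
    (hsv : s * ‖v‖ < rad h x) : h (x + s • v) = h x + s • germ h x v := by
  rcases hs.eq_or_lt with rfl | hs
  · simp
  · rw [hx.germ_eq hs hsv, smul_smul, mul_inv_cancel₀ hs.ne', one_smul]
    abel

/-- uniqueness of the germ value in one direction -/
theorem ConAt.germ_unique {h : E → F} {x : E} (hx : ConAt h x) {v : E} {w : F} {ε : ℝ} (hε : 0 < ε)
    (H : ∀ s : ℝ, 0 < s → s < ε → h (x + s • v) = h x + s • w) : germ h x v = w := by
  have hr := rad_pos h x
  set s : ℝ := min (ε / 2) (rad h x / (2 * (1 + ‖v‖))) with hsdef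
  have hs : 0 < s := lt_min (by positivity) (by positivity)
  have hs1 : s < ε := lt_of_le_of_lt (min_le_left _ _) (by linarith)
  have hs2 : s * ‖v‖ < rad h x := by
    have h1 : s ≤ stp h x v := min_le_right _ _
    exact lt_of_le_of_lt (mul_le_mul_of_nonneg_right h1 (norm_nonneg v)) (stp_mul_lt h x v)
  rw [hx.germ_eq hs hs2, H s hs hs1, add_sub_cancel_left, smul_smul, inv_mul_cancel₀ hs.ne', one_smul]

theorem ConAt.posHom {h : E → F} {x : E} (hx : ConAt h x) : PosHom (germ h x) := by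
  intro c hc v
  rcases hc.eq_or_lt with rfl | hc
  · simp
  · have hr := rad_pos h x
    refine hx.germ_unique (ε := rad h x / (1 + ‖c • v‖)) (by positivity) ?_
    intro s hs hs1
    rw [lt_div_iff₀ (by positivity)] at hs1
    have h1 : s * ‖c • v‖ < rad h x := by nlinarith
    have h2 : (s * c) * ‖v‖ < rad h x := by
      rw [norm_smul, Real.norm_of_nonneg hc.le] at h1
      linarith [h1, mul_assoc s c ‖v‖]
    rw [smul_smul, hx.apply_add_smul (by positivity) h2, smul_smul]

theorem ConAt.eventually {h : E → F} {x : E} (hx : ConAt h x) :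
    ∀ᶠ y in 𝓝 x, h y = h x + germ h x (y - x) := by
  filter_upwards [ball_mem_nhds x (rad_pos h x)] with y hy
  have := hx.apply_add (v := y - x) (by simpa [mem_ball, dist_eq_norm] using hy)
  simpa using this

/-- constructing a germ: if near `x` the map is `h x + H (· - x)` with `H` positively homogeneous. -/
theorem conR_of_eq {h : E → F} {x : E} {r : ℝ} {H : E → F} (hH : PosHom H)
    (hr : ∀ v : E, ‖v‖ < r → h (x + v) = h x + H v) : ConR h x r := by
  intro v hv t ht
  have h1 : ‖t • v‖ < r := by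
    rw [norm_smul, Real.norm_of_nonneg ht.1]
    exact lt_of_le_of_lt (by nlinarith [norm_nonneg v, ht.2]) hv
  rw [hr _ h1, hr _ hv, add_sub_cancel_left, hH t ht.1]

theorem germ_eq_of {h : E → F} {x : E} {r : ℝ} (hr0 : 0 < r) {H : E → F} (hH : PosHom H)
    (hr : ∀ v : E, ‖v‖ < r → h (x + v) = h x + H v) : germ h x = H := by
  have hx : ConAt h x := ⟨r, hr0, conR_of_eq hH hr⟩
  funext v
  refine hx.germ_unique (ε := r / (1 + ‖v‖)) (by positivity) ?_
  intro s hs hs1
  rw [lt_div_iff₀ (by positivity)] at hs1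
  rw [hr (s • v) (by rw [norm_smul, Real.norm_of_nonneg hs.le]; nlinarith), hH s hs.le]

/-- the conicality radius may be enlarged: `ConR` and the germ identity are the same thing. -/
theorem ConR.apply_add {h : E → F} {x : E} {r : ℝ} (hr0 : 0 < r) (H : ConR h x r) {v : E} (hv : ‖v‖ < r) :
    h (x + v) = h x + germ h x v := by
  have hx : ConAt h x := ⟨r, hr0, H⟩
  have hr := rad_pos h x
  set s : ℝ := rad h x / (2 * (1 + ‖v‖) * (1 + rad h x)) with hsdef
  have hs : 0 < s := by positivity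
  have hs1 : s ≤ 1 := by
    rw [hsdef, div_le_one (by positivity)]
    nlinarith [norm_nonneg v, mul_nonneg hr.le (norm_nonneg v)]
  have hs2 : s * ‖v‖ < rad h x := by
    rw [hsdef, div_mul_eq_mul_div, div_lt_iff₀ (by positivity)]
    nlinarith [norm_nonneg v, mul_nonneg hr.le (norm_nonneg v), mul_pos hr hr, mul_nonneg (mul_pos hr hr).le (norm_nonneg v)]
  have hs3 : s * ‖v‖ < r := lt_of_le_of_lt (mul_le_of_le_one_left (norm_nonneg v) hs1) hv
  rw [hx.germ_eq hs hs2, H.slope_eq hs one_pos hs3 (by simpa using hv)]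
  simp

/-- germs of locally equal maps agree -/
theorem germ_congr {h g : E → F} {x : E} (hx : ConAt h x) (e : ∀ᶠ y in 𝓝 x, h y = g y) :
    ConAt g x ∧ germ g x = germ h x := by
  obtain ⟨r, hr, hb⟩ := Metric.eventually_nhds_iff_ball.1 e
  have e0 : h x = g x := hb x (mem_ball_self hr)
  have key : ∀ v : E, ‖v‖ < min r (rad h x) → g (x + v) = g x + germ h x v := by
    intro v hv
    rw [← hb (x + v) (by simpa [mem_ball, dist_eq_norm] using lt_of_lt_of_le hv (min_le_left _ _)), ← e0]
    exact hx.apply_add (lt_of_lt_of_le hv (min_le_right _ _))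
  have hm : 0 < min r (rad h x) := lt_min hr (rad_pos h x)
  exact ⟨⟨_, hm, conR_of_eq hx.posHom key⟩, germ_eq_of hm hx.posHom key⟩

/-! ### the lineality space -/

/-- the lineality space of the germ: directions along which the germ is translation-additive. -/
noncomputable def Tan (h : E → F) (x : E) : Submodule ℝ E where
  carrier := {u | ∀ (τ : ℝ) (v : E), germ h x (τ • u + v) = τ • germ h x u + germ h x v}
  zero_mem' := by
    intro τ v
    simp
  add_mem' := by
    intro a b ha hb τ v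
    have h1 : germ h x (a + b) = germ h x a + germ h x b := by
      have := ha 1 b
      simpa using this
    rw [h1, smul_add τ a b, add_assoc, ha τ, hb τ, smul_add, add_assoc]
  smul_mem' := by
    intro c a ha τ v
    have h1 : germ h x (c • a) = c • germ h x a := by
      have := ha c 0
      simpa using this
    rw [h1, smul_smul, smul_smul, ha (τ * c) v]

theorem mem_Tan {h : E → F} {x u : E} :
    u ∈ Tan h x ↔ ∀ (τ : ℝ) (v : E), germ h x (τ • u + v) = τ • germ h x u + germ h x v := Iff.rfl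

theorem germ_add_of_mem {h : E → F} {x u : E} (hu : u ∈ Tan h x) (v : E) :
    germ h x (u + v) = germ h x u + germ h x v := by simpa using hu 1 v

theorem germ_smul_of_mem {h : E → F} {x u : E} (hu : u ∈ Tan h x) (c : ℝ) :
    germ h x (c • u) = c • germ h x u := by simpa using hu c 0

theorem ConAt.mem_Tan_iff {h : E → F} {x : E} (hx : ConAt h x) {u : E} :
    u ∈ Tan h x ↔ ∀ v : E, germ h x (u + v) = germ h x u + germ h x v := by
  refine ⟨fun hu v => germ_add_of_mem hu v, fun H => ?_⟩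
  have hpos := hx.posHom
  have hneg : germ h x (-u) = - germ h x u := by
    have := H (-u)
    rw [add_neg_cancel, germ_zero] at this
    exact (neg_eq_of_add_eq_zero_right this.symm).symm
  have hsub : ∀ v, germ h x (-u + v) = - germ h x u + germ h x v := by
    intro v
    have := H (-u + v)
    rw [add_neg_cancel_left] at this
    rw [this]; abel
  intro τ v
  rcases lt_trichotomy τ 0 with hτ | rfl | hτ
  · have h1 : τ • u + v = (-τ) • (-u + (-τ)⁻¹ • v) := by
      rw [smul_add, smul_smul, mul_inv_cancel₀ (neg_ne_zero.2 hτ.ne), one_smul, smul_neg, neg_smul, neg_neg]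
    rw [h1, hpos (-τ) (by linarith), hsub, hpos _ (by rw [inv_nonneg]; linarith), smul_add, smul_smul,
      mul_inv_cancel₀ (neg_ne_zero.2 hτ.ne), one_smul, smul_neg, neg_smul, neg_neg]
  · simp
  · have h1 : τ • u + v = τ • (u + τ⁻¹ • v) := by
      rw [smul_add, smul_smul, mul_inv_cancel₀ hτ.ne', one_smul]
    rw [h1, hpos τ hτ.le, H, hpos _ (inv_nonneg.2 hτ.le), smul_add, smul_smul, mul_inv_cancel₀ hτ.ne', one_smul]

/-- the linear map induced by the germ on the lineality space -/
noncomputable def tanMap (h : E → F) (x : E) : Tan h x →ₗ[ℝ] F where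
  toFun u := germ h x u
  map_add' u v := germ_add_of_mem u.2 v
  map_smul' c u := germ_smul_of_mem u.2 c

@[simp] theorem tanMap_apply (h : E → F) (x : E) (u : Tan h x) : tanMap h x u = germ h x u := rfl

end Crest.Agent.R096.Germ_879
end

-- ▼ part R096/Germ2_879
section

/-!
# R096: germs at nearby points (helper879; P5-GERM)

`y = x + u`, `‖u‖ < rad h x`, `h` conical about `y`:
* `germ_near`      : `germ h (x+u) (τ • u + v) = τ • germ h x u + germ h (x+u) v`   (205's key trick)
* `Tan_le_near`    : `Tan h x ≤ Tan h (x+u)`, `self_mem_Tan_near : u ∈ Tan h (x+u)`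
* `germ_eq_of_mem` : `u ∈ Tan h x → germ h (x+u) = germ h x`
* `germ_scale`     : `germ h (x + c • u) = germ h (x+u)`; `germ_trans : germ h (x+(t+u)) = germ h (x+u)`, `t ∈ Tan h x`
* `finrank_Tan_lt` : the dimension of the lineality space jumps off `x + Tan h x`.
-/

set_option autoImplicit false

namespace Crest.Agent.R096.Germ_879

open Set Metric Filter Topology

variable {E F : Type*} [NormedAddCommGroup E] [NormedSpace ℝ E] [NormedAddCommGroup F] [NormedSpace ℝ F]

/-- the germ at a nearby point, computed from the germ at `x`. -/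
theorem near_step {h : E → F} {x u : E} (hx : ConAt h x) (hu : ‖u‖ < rad h x) (hy : ConAt h (x + u)) (w : E) :
    ∃ ε > 0, ∀ s : ℝ, 0 ≤ s → s < ε → germ h x (u + s • w) = germ h x u + s • germ h (x + u) w := by
  have hr := rad_pos h x
  have hr' := rad_pos h (x + u)
  have hd : 0 < rad h x - ‖u‖ := sub_pos.2 hu
  refine ⟨min ((rad h x - ‖u‖) / (1 + ‖w‖)) (rad h (x + u) / (1 + ‖w‖)), lt_min (by positivity) (by positivity), ?_⟩
  intro s hs hs1
  have h1 : s * (1 + ‖w‖) < rad h x - ‖u‖ := by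
    rw [← lt_div_iff₀ (by positivity)]; exact lt_of_lt_of_le hs1 (min_le_left _ _)
  have h2 : s * (1 + ‖w‖) < rad h (x + u) := by
    rw [← lt_div_iff₀ (by positivity)]; exact lt_of_lt_of_le hs1 (min_le_right _ _)
  have h3 : ‖u + s • w‖ < rad h x := by
    refine lt_of_le_of_lt (norm_add_le _ _) ?_
    rw [norm_smul, Real.norm_of_nonneg hs]
    nlinarith
  have e1 := hx.apply_add h3
  have e2 := hx.apply_add hu
  have e3 := hy.apply_add_smul (v := w) hs (by nlinarith)
  rw [← add_assoc, e3, e2, add_assoc] at e1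
  exact (add_left_cancel e1).symm

/-- uniqueness form of `near_step`. -/
theorem germ_near_unique {h : E → F} {x u : E} (hx : ConAt h x) (hu : ‖u‖ < rad h x) (hy : ConAt h (x + u))
    {w : E} {z : F} {ε : ℝ} (hε : 0 < ε) (H : ∀ s : ℝ, 0 < s → s < ε → germ h x (u + s • w) = germ h x u + s • z) :
    germ h (x + u) w = z := by
  obtain ⟨δ, hδ, H'⟩ := near_step hx hu hy w
  set s : ℝ := min (ε / 2) (δ / 2)
  have hs : 0 < s := lt_min (by positivity) (by positivity)
  have h1 : s < ε := lt_of_le_of_lt (min_le_left _ _) (by linarith)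
  have h2 : s < δ := lt_of_le_of_lt (min_le_right _ _) (by linarith)
  have e := (H' s hs.le h2).symm.trans (H s hs h1)
  have e' := add_left_cancel e
  have := congrArg (fun z => s⁻¹ • z) e'
  simpa [smul_smul, inv_mul_cancel₀ hs.ne'] using this

/-- KEY (205): homogeneity about `x` and about `x + u`. -/
theorem germ_near {h : E → F} {x u : E} (hx : ConAt h x) (hu : ‖u‖ < rad h x) (hy : ConAt h (x + u))
    (τ : ℝ) (v : E) : germ h (x + u) (τ • u + v) = τ • germ h x u + germ h (x + u) v := by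
  obtain ⟨δ, hδ, H⟩ := near_step hx hu hy v
  refine germ_near_unique hx hu hy (ε := min (1 / (2 * (1 + |τ|))) (δ / 2)) (lt_min (by positivity) (by positivity)) ?_
  intro s hs hs1
  have h1 : s * (2 * (1 + |τ|)) < 1 := by
    rw [← lt_div_iff₀ (by positivity)]; exact lt_of_lt_of_le hs1 (min_le_left _ _)
  have h2 : s < δ / 2 := lt_of_lt_of_le hs1 (min_le_right _ _)
  have h3 : |s * τ| < 1 / 2 := by
    rw [abs_mul, abs_of_pos hs]
    nlinarith
  set c : ℝ := 1 + s * τ with hc
  have hc1 : 1 / 2 < c := by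
    have := neg_abs_le (s * τ)
    rw [hc]; linarith
  have hc0 : 0 < c := by linarith
  have h4 : s / c < δ := by
    rw [div_lt_iff₀ hc0]
    nlinarith
  have e1 : u + s • (τ • u + v) = c • (u + (s / c) • v) := by
    rw [smul_add c, smul_smul c, mul_div_cancel₀ _ hc0.ne', hc, add_smul, one_smul, smul_add, smul_smul, add_assoc]
  rw [e1, hx.posHom c hc0.le, H (s / c) (by positivity) h4, smul_add c, smul_smul c, mul_div_cancel₀ _ hc0.ne', hc,
    add_smul, one_smul, smul_add, smul_smul, add_assoc]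

/-- the direction `y - x` belongs to the lineality space at `y`, with the germ value computed at `x`. -/
theorem germ_near_self {h : E → F} {x u : E} (hx : ConAt h x) (hu : ‖u‖ < rad h x) (hy : ConAt h (x + u)) :
    germ h (x + u) u = germ h x u := by
  simpa using germ_near hx hu hy 1 0

theorem self_mem_Tan_near {h : E → F} {x u : E} (hx : ConAt h x) (hu : ‖u‖ < rad h x) (hy : ConAt h (x + u)) :
    u ∈ Tan h (x + u) := by
  intro τ v
  rw [germ_near hx hu hy, germ_near_self hx hu hy]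

theorem germ_near_of_mem {h : E → F} {x u t : E} (hx : ConAt h x) (hu : ‖u‖ < rad h x) (hy : ConAt h (x + u))
    (ht : t ∈ Tan h x) (τ : ℝ) (v : E) :
    germ h (x + u) (τ • t + v) = τ • germ h x t + germ h (x + u) v := by
  obtain ⟨δ, hδ, H⟩ := near_step hx hu hy v
  refine germ_near_unique hx hu hy hδ ?_
  intro s hs hs1
  have e1 : u + s • (τ • t + v) = (s * τ) • t + (u + s • v) := by
    rw [smul_add, smul_smul]; abel
  rw [e1, ht, H s hs.le hs1, smul_add, smul_smul]
  abel

theorem germ_near_eq_of_mem {h : E → F} {x u t : E} (hx : ConAt h x) (hu : ‖u‖ < rad h x) (hy : ConAt h (x + u))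
    (ht : t ∈ Tan h x) : germ h (x + u) t = germ h x t := by
  simpa using germ_near_of_mem hx hu hy ht 1 0

theorem Tan_le_near {h : E → F} {x u : E} (hx : ConAt h x) (hu : ‖u‖ < rad h x) (hy : ConAt h (x + u)) :
    Tan h x ≤ Tan h (x + u) := by
  intro t ht τ v
  rw [germ_near_of_mem hx hu hy ht, germ_near_eq_of_mem hx hu hy ht]

/-- along the stratum the germ is constant. -/
theorem germ_eq_of_mem {h : E → F} {x u : E} (hx : ConAt h x) (hu : ‖u‖ < rad h x) (hy : ConAt h (x + u))
    (hT : u ∈ Tan h x) : germ h (x + u) = germ h x := by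
  funext w
  refine germ_near_unique hx hu hy (ε := 1) one_pos ?_
  intro s hs _
  rw [germ_add_of_mem hT, hx.posHom s hs.le]

theorem Tan_eq_of_germ_eq {h : E → F} {x y : E} (e : germ h y = germ h x) : Tan h y = Tan h x := by
  ext u
  rw [mem_Tan, mem_Tan, e]

theorem Tan_eq_of_mem {h : E → F} {x u : E} (hx : ConAt h x) (hu : ‖u‖ < rad h x) (hy : ConAt h (x + u))
    (hT : u ∈ Tan h x) : Tan h (x + u) = Tan h x := Tan_eq_of_germ_eq (germ_eq_of_mem hx hu hy hT)

/-- scale invariance of germs on rays from `x`. -/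
theorem germ_scale {h : E → F} {x u : E} (hx : ConAt h x) (hu : ‖u‖ < rad h x) (hy : ConAt h (x + u))
    {c : ℝ} (hc : 0 < c) (hcu : ‖c • u‖ < rad h x) (hy' : ConAt h (x + c • u)) :
    germ h (x + c • u) = germ h (x + u) := by
  funext w
  obtain ⟨δ, hδ, H⟩ := near_step hx hu hy w
  refine germ_near_unique hx hcu hy' (ε := δ * c) (by positivity) ?_
  intro s hs hs1
  have e1 : c • u + s • w = c • (u + (s / c) • w) := by
    rw [smul_add, smul_smul, mul_div_cancel₀ _ hc.ne']
  rw [e1, hx.posHom c hc.le, H (s / c) (by positivity) (by rwa [div_lt_iff₀ hc]), smul_add, smul_smul,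
    mul_div_cancel₀ _ hc.ne', ← hx.posHom c hc.le]

/-- translation invariance of germs along the lineality space. -/
theorem germ_trans {h : E → F} {x u t : E} (hx : ConAt h x) (hu : ‖u‖ < rad h x) (hy : ConAt h (x + u))
    (ht : t ∈ Tan h x) (htu : ‖t + u‖ < rad h x) (hy' : ConAt h (x + (t + u))) :
    germ h (x + (t + u)) = germ h (x + u) := by
  funext w
  obtain ⟨δ, hδ, H⟩ := near_step hx hu hy w
  refine germ_near_unique hx htu hy' hδ ?_
  intro s hs hs1
  rw [add_assoc, germ_add_of_mem ht, H s hs.le hs1, germ_add_of_mem ht, add_assoc]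

theorem Tan_lt_near {h : E → F} {x u : E} (hx : ConAt h x) (hu : ‖u‖ < rad h x) (hy : ConAt h (x + u))
    (hT : u ∉ Tan h x) : Tan h x < Tan h (x + u) :=
  lt_of_le_of_ne (Tan_le_near hx hu hy) fun e => hT (e ▸ self_mem_Tan_near hx hu hy)

theorem finrank_Tan_lt [FiniteDimensional ℝ E] {h : E → F} {x u : E} (hx : ConAt h x) (hu : ‖u‖ < rad h x)
    (hy : ConAt h (x + u)) (hT : u ∉ Tan h x) :
    Module.finrank ℝ (Tan h x) < Module.finrank ℝ (Tan h (x + u)) :=
  Submodule.finrank_lt_finrank_of_lt (Tan_lt_near hx hu hy hT)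

theorem finrank_Tan_le [FiniteDimensional ℝ E] {h : E → F} {x u : E} (hx : ConAt h x) (hu : ‖u‖ < rad h x)
    (hy : ConAt h (x + u)) : Module.finrank ℝ (Tan h x) ≤ Module.finrank ℝ (Tan h (x + u)) :=
  Submodule.finrank_mono (Tan_le_near hx hu hy)

/-- the stratum of `x` near `x` is the affine space `x + Tan h x`. -/
theorem mem_Tan_iff_finrank_eq [FiniteDimensional ℝ E] {h : E → F} {x u : E} (hx : ConAt h x) (hu : ‖u‖ < rad h x)
    (hy : ConAt h (x + u)) : u ∈ Tan h x ↔ Module.finrank ℝ (Tan h (x + u)) = Module.finrank ℝ (Tan h x) := by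
  constructor
  · intro hT; rw [Tan_eq_of_mem hx hu hy hT]
  · intro e
    by_contra hT
    exact absurd e (finrank_Tan_lt hx hu hy hT).ne'

/-- vertices (trivial lineality space) are isolated: no other one in the ball of conicality. -/
theorem eq_of_Tan_eq_bot {h : E → F} {x y : E} (hx : ConAt h x) (hy : ConAt h y) (hxy : ‖y - x‖ < rad h x)
    (hT : Tan h y = ⊥) : y = x := by
  have h1 := self_mem_Tan_near (u := y - x) hx hxy (by simpa using hy)
  rw [add_sub_cancel, hT, Submodule.mem_bot, sub_eq_zero] at h1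
  exact h1

/-- affine points: the germ is linear. -/
theorem Tan_eq_top_iff {h : E → F} {x : E} : Tan h x = ⊤ ↔ ∃ A : E →ₗ[ℝ] F, germ h x = A := by
  constructor
  · intro H
    have hm : ∀ u, u ∈ Tan h x := fun u => by rw [H]; trivial
    exact ⟨{ toFun := germ h x
             map_add' := fun u v => germ_add_of_mem (hm u) v
             map_smul' := fun c u => germ_smul_of_mem (hm u) c }, rfl⟩
  · rintro ⟨A, hA⟩
    rw [eq_top_iff]
    intro u _ τ v
    rw [hA, map_add, map_smul]

end Crest.Agent.R096.Germ_879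
end

-- ▼ part R096/Germ3_879
section

/-!
# R096: finiteness of germs on compact sets, continuity, bounds, local Lipschitz (helper879; P5-GERM)
-/

set_option autoImplicit false

namespace Crest.Agent.R096.Germ_879

open Set Metric Filter Topology

variable {E F : Type*} [NormedAddCommGroup E] [NormedSpace ℝ E] [NormedAddCommGroup F] [NormedSpace ℝ F]

/-- the germ is continuous as soon as `h` is continuous near `x`. -/
theorem ConAt.continuous_germ {h : E → F} {x : E} (hx : ConAt h x) (hc : ∀ᶠ y in 𝓝 x, ContinuousAt h y) :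
    Continuous (germ h x) := by
  obtain ⟨δ, hδ, hb⟩ := Metric.eventually_nhds_iff_ball.1 hc
  have hr := rad_pos h x
  rw [continuous_iff_continuousAt]
  intro v₀
  set m : ℝ := min δ (rad h x)
  have hm : 0 < m := lt_min hδ hr
  set s : ℝ := m / (2 * (2 + ‖v₀‖)) with hs
  have hs0 : 0 < s := by positivity
  have hsm : ∀ v ∈ ball v₀ 1, s * ‖v‖ < m := by
    intro v hv
    have h1 : ‖v‖ ≤ ‖v₀‖ + 1 := by
      have := norm_le_norm_add_norm_sub' v v₀
      rw [mem_ball, dist_eq_norm] at hv
      linarith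
    rw [hs, div_mul_eq_mul_div, div_lt_iff₀ (by positivity)]
    nlinarith [norm_nonneg v₀, norm_nonneg v]
  have e : ∀ v ∈ ball v₀ 1, germ h x v = s⁻¹ • (h (x + s • v) - h x) := fun v hv =>
    hx.germ_eq hs0 (lt_of_lt_of_le (hsm v hv) (min_le_right _ _))
  have hc0 : ContinuousAt (fun v => s⁻¹ • (h (x + s • v) - h x)) v₀ := by
    have h1 : ContinuousAt h (x + s • v₀) := by
      apply hb
      have := hsm v₀ (mem_ball_self one_pos)
      rw [mem_ball, dist_eq_norm, add_sub_cancel_left, norm_smul, Real.norm_of_nonneg hs0.le]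
      exact lt_of_lt_of_le this (min_le_left _ _)
    have h2 : ContinuousAt (fun v : E => x + s • v) v₀ := by fun_prop
    have h3 : ContinuousAt (fun v : E => h (x + s • v)) v₀ := ContinuousAt.comp (f := fun v : E => x + s • v) h1 h2
    exact (h3.sub continuousAt_const).const_smul _
  exact hc0.congr (Filter.eventually_of_mem (ball_mem_nhds v₀ one_pos) fun v hv => (e v hv).symm)

omit [NormedSpace ℝ E] [NormedSpace ℝ F] in
theorem continuousAt_near {h : E → F} {Ω : Set E} (hΩ : IsOpen Ω) (hc : ContinuousOn h Ω) {x : E} (hx : x ∈ Ω) :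
    ∀ᶠ y in 𝓝 x, ContinuousAt h y :=
  Filter.eventually_of_mem (hΩ.mem_nhds hx) fun _ hy => hc.continuousAt (hΩ.mem_nhds hy)

/-- a continuous positively homogeneous map on a finite dimensional space is bounded. -/
theorem PosHom.bound [FiniteDimensional ℝ E] {H : E → F} (hH : PosHom H) (hc : Continuous H) :
    ∃ C : ℝ, 0 ≤ C ∧ ∀ v, ‖H v‖ ≤ C * ‖v‖ := by
  obtain ⟨C, hC⟩ := (isCompact_sphere (0 : E) 1).exists_bound_of_continuousOn hc.continuousOn
  refine ⟨max C 0, le_max_right _ _, fun v => ?_⟩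
  rcases eq_or_ne v 0 with rfl | hv
  · simp [hH.zero]
  · have hn : 0 < ‖v‖ := norm_pos_iff.2 hv
    have h1 : H v = ‖v‖ • H (‖v‖⁻¹ • v) := by
      rw [← hH _ hn.le, smul_smul, mul_inv_cancel₀ hn.ne', one_smul]
    have h2 : ‖H (‖v‖⁻¹ • v)‖ ≤ C := hC _ (by
      rw [mem_sphere_zero_iff_norm, norm_smul, norm_inv, norm_norm, inv_mul_cancel₀ hn.ne'])
    rw [h1, norm_smul, norm_norm, mul_comm]
    exact mul_le_mul_of_nonneg_right (h2.trans (le_max_left _ _)) hn.le

/-- a positively homogeneous map with no zero on the sphere is bounded below. -/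
theorem PosHom.lower [FiniteDimensional ℝ E] {H : E → F} (hH : PosHom H) (hc : Continuous H)
    (h0 : ∀ v, H v = 0 → v = 0) : ∃ c : ℝ, 0 < c ∧ ∀ v, c * ‖v‖ ≤ ‖H v‖ := by
  rcases subsingleton_or_nontrivial E with hE | hE
  · exact ⟨1, one_pos, fun v => by rw [Subsingleton.elim v 0]; simp⟩
  obtain ⟨v₀, hv₀, hmin⟩ := (isCompact_sphere (0 : E) 1).exists_isMinOn
    (NormedSpace.sphere_nonempty.2 zero_le_one) hc.norm.continuousOn
  have hpos : 0 < ‖H v₀‖ := by
    rw [norm_pos_iff]
    intro h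
    have h' := h0 v₀ h
    rw [h', mem_sphere_zero_iff_norm, norm_zero] at hv₀
    exact zero_ne_one hv₀
  refine ⟨‖H v₀‖, hpos, fun v => ?_⟩
  rcases eq_or_ne v 0 with rfl | hv
  · simp
  · have hn : 0 < ‖v‖ := norm_pos_iff.2 hv
    have h1 : H v = ‖v‖ • H (‖v‖⁻¹ • v) := by
      rw [← hH _ hn.le, smul_smul, mul_inv_cancel₀ hn.ne', one_smul]
    have h2 : ‖H v₀‖ ≤ ‖H (‖v‖⁻¹ • v)‖ := hmin (by
      rw [mem_sphere_zero_iff_norm, norm_smul, norm_inv, norm_norm, inv_mul_cancel₀ hn.ne'])
    rw [h1, norm_smul, norm_norm, mul_comm]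
    exact mul_le_mul_of_nonneg_left h2 hn.le

section finite

variable [FiniteDimensional ℝ E]

/-- a continuous linear projection with kernel a given subspace. -/
theorem exists_proj (T : Submodule ℝ E) : ∃ P : E →L[ℝ] E, (∀ u, u - P u ∈ T) ∧ (∀ u, P u ∈ T → P u = 0) ∧
    (∀ u ∈ T, P u = 0) ∧ (∀ u, P (P u) = P u) := by
  obtain ⟨N, hN⟩ := T.exists_isCompl
  set q : E →ₗ[ℝ] E := N.subtype ∘ₗ Submodule.projectionOnto N T hN.symm with hq
  have hqa : ∀ u, q u = (Submodule.projectionOnto N T hN.symm u : E) := fun u => rfl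
  have hqq : ∀ u, q (q u) = q u := by
    intro u
    rw [hqa, hqa, Submodule.projectionOnto_apply_left]
  have hker : ∀ u, q u = 0 ↔ u ∈ T := by
    intro u
    rw [hqa, Submodule.coe_eq_zero]
    exact Submodule.projectionOnto_apply_eq_zero_iff hN.symm
  refine ⟨LinearMap.toContinuousLinearMap q, ?_, ?_, ?_, ?_⟩
  · intro u
    show u - q u ∈ T
    rw [← hker, map_sub, hqq, sub_self]
  · intro u hu
    show q u = 0
    have h1 : q (q u) = 0 := (hker _).2 hu
    rwa [hqq] at h1
  · intro u hu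
    exact (hker u).2 hu
  · intro u
    exact hqq u

/-- near every point only finitely many germs occur. -/
theorem finite_germ_near {h : E → F} {Ω : Set E} (hΩ : IsOpen Ω) (hh : LocConical h Ω) :
    ∀ x ∈ Ω, ∃ δ > 0, ball x δ ⊆ Ω ∧ (germ h '' ball x δ).Finite := by
  have main : ∀ k : ℕ, ∀ x ∈ Ω, Module.finrank ℝ E ≤ Module.finrank ℝ (Tan h x) + k →
      ∃ δ > 0, ball x δ ⊆ Ω ∧ (germ h '' ball x δ).Finite := by
    intro k
    induction k with
    | zero =>
      intro x hx hk
      have hcx := hh.conAt hx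
      obtain ⟨ε, hε, hb⟩ := Metric.isOpen_iff.1 hΩ x hx
      have hT : Tan h x = ⊤ := Submodule.eq_top_of_finrank_eq
        (le_antisymm (Submodule.finrank_le _) (by simpa using hk))
      have hm : 0 < min ε (rad h x) := lt_min hε (rad_pos h x)
      refine ⟨min ε (rad h x), hm, (ball_subset_ball (min_le_left _ _)).trans hb, ?_⟩
      refine (Set.finite_singleton (germ h x)).subset ?_
      rintro _ ⟨y, hy, rfl⟩
      have hy1 : ‖y - x‖ < min ε (rad h x) := by rwa [mem_ball, dist_eq_norm] at hy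
      have hyΩ : y ∈ Ω := hb (ball_subset_ball (min_le_left _ _) hy)
      have := germ_eq_of_mem (u := y - x) hcx (lt_of_lt_of_le hy1 (min_le_right _ _))
        (by simpa using hh.conAt hyΩ) (by rw [hT]; trivial)
      simpa using this
    | succ k ih =>
      intro x hx hk
      have hcx := hh.conAt hx
      obtain ⟨ε, hε, hb⟩ := Metric.isOpen_iff.1 hΩ x hx
      set ρ : ℝ := min ε (rad h x) / 2 with hρ
      have hm : 0 < min ε (rad h x) := lt_min hε (rad_pos h x)
      have hρ0 : 0 < ρ := by positivity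
      have hρε : ρ < ε := by have := min_le_left ε (rad h x); rw [hρ]; linarith
      have hρr : ρ < rad h x := by have := min_le_right ε (rad h x); rw [hρ]; linarith
      have hmemΩ : ∀ u : E, ‖u‖ ≤ ρ → x + u ∈ Ω := fun u hu => hb (by
        rw [mem_ball, dist_eq_norm, add_sub_cancel_left]; exact lt_of_le_of_lt hu hρε)
      obtain ⟨P, hP1, hP2, hP3, hP4⟩ := exists_proj (Tan h x)
      set S : Set E := (fun ω : E => x + ω) '' (sphere 0 ρ ∩ {ω | P ω = ω}) with hS
      have hScomp : IsCompact S := by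
        apply IsCompact.image _ (by fun_prop)
        exact (isCompact_sphere 0 ρ).inter_right (isClosed_eq P.continuous continuous_id)
      have hfin : (germ h '' S).Finite := by
        refine hScomp.induction_on (p := fun t => (germ h '' t).Finite) (by simp) ?_ ?_ ?_
        · intro s t hst ht
          exact ht.subset (image_mono hst)
        · intro s t hs ht
          rw [image_union]; exact hs.union ht
        · rintro z ⟨ω, ⟨hω1, hω2⟩, rfl⟩
          have hω1' : ‖ω‖ = ρ := by simpa using hω1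
          have hω2' : P ω = ω := hω2
          have hzΩ : x + ω ∈ Ω := hmemΩ ω hω1'.le
          have hnot : ω ∉ Tan h x := by
            intro hmem
            have h1 := hP3 ω hmem
            rw [hω2'] at h1
            rw [h1, norm_zero] at hω1'
            exact hρ0.ne hω1'
          have hlt := finrank_Tan_lt hcx (by rw [hω1']; exact hρr) (hh.conAt hzΩ) hnot
          obtain ⟨δ, hδ, _, hδ2⟩ := ih (x + ω) hzΩ (by omega)
          exact ⟨ball (x + ω) δ, mem_nhdsWithin_of_mem_nhds (ball_mem_nhds _ hδ), hδ2⟩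
      refine ⟨ρ / (1 + ‖P‖), by positivity, ?_, ?_⟩
      · refine (ball_subset_ball ?_).trans hb
        have h1 : ρ / (1 + ‖P‖) ≤ ρ := div_le_self hρ0.le (by linarith [norm_nonneg P])
        linarith
      refine (hfin.union (Set.finite_singleton (germ h x))).subset ?_
      rintro _ ⟨y, hy, rfl⟩
      set u : E := y - x with hu
      have hyu : y = x + u := by rw [hu]; abel
      have hun : ‖u‖ < ρ / (1 + ‖P‖) := by rwa [mem_ball, dist_eq_norm] at hy
      have hun' : ‖u‖ * (1 + ‖P‖) < ρ := by rwa [lt_div_iff₀ (by positivity)] at hun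
      have hur : ‖u‖ < ρ := by nlinarith [norm_nonneg u, norm_nonneg P, mul_nonneg (norm_nonneg u) (norm_nonneg P)]
      have hPu : ‖P u‖ < ρ := lt_of_le_of_lt (P.le_opNorm u) (by nlinarith [norm_nonneg u, norm_nonneg P])
      rw [hyu]
      by_cases h0 : P u = 0
      · right
        have huT : u ∈ Tan h x := by simpa [h0] using hP1 u
        exact germ_eq_of_mem hcx (hur.trans hρr) (hh.conAt (hmemΩ u hur.le)) huT
      · left
        have hPn : 0 < ‖P u‖ := norm_pos_iff.2 h0
        have e1 : germ h (x + u) = germ h (x + P u) := by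
          have h1 : u = (u - P u) + P u := by abel
          have h2 := germ_trans (u := P u) (t := u - P u) hcx (hPu.trans hρr) (hh.conAt (hmemΩ _ hPu.le)) (hP1 u)
            (by rw [← h1]; exact hur.trans hρr) (by rw [← h1]; exact hh.conAt (hmemΩ _ hur.le))
          rwa [← h1] at h2
        set ω : E := (ρ / ‖P u‖) • P u with hω
        have hωn : ‖ω‖ = ρ := by
          rw [hω, norm_smul, Real.norm_of_nonneg (by positivity), div_mul_cancel₀ _ hPn.ne']
        have hωP : P ω = ω := by rw [hω, map_smul, hP4]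
        have e2 : germ h (x + P u) = germ h (x + ω) := by
          have h3 : (‖P u‖ / ρ) • ω = P u := by
            rw [hω, smul_smul, div_mul_div_cancel₀ hρ0.ne', div_self hPn.ne', one_smul]
          have h4 := germ_scale (u := ω) (c := ‖P u‖ / ρ) hcx (by rw [hωn]; exact hρr) (hh.conAt (hmemΩ _ hωn.le))
            (by positivity) (by rw [h3]; exact hPu.trans hρr) (by rw [h3]; exact hh.conAt (hmemΩ _ hPu.le))
          rwa [h3] at h4
        rw [e1, e2]
        exact ⟨x + ω, ⟨ω, ⟨by simpa using hωn, hωP⟩, rfl⟩, rfl⟩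
  intro x hx
  exact main (Module.finrank ℝ E) x hx (by omega)

/-- finitely many germs on every compact subset. -/
theorem finite_germ_image {h : E → F} {Ω : Set E} (hΩ : IsOpen Ω) (hh : LocConical h Ω) {K : Set E}
    (hK : IsCompact K) (hKΩ : K ⊆ Ω) : (germ h '' K).Finite := by
  refine hK.induction_on (p := fun t => (germ h '' t).Finite) (by simp) ?_ ?_ ?_
  · intro s t hst ht
    exact ht.subset (image_mono hst)
  · intro s t hs ht
    rw [image_union]; exact hs.union ht
  · intro x hx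
    obtain ⟨δ, hδ, _, h2⟩ := finite_germ_near hΩ hh x (hKΩ hx)
    exact ⟨ball x δ, mem_nhdsWithin_of_mem_nhds (ball_mem_nhds _ hδ), h2⟩

/-- uniform bound of the germs on a compact set. -/
theorem germ_bound {h : E → F} {Ω : Set E} (hΩ : IsOpen Ω) (hh : LocConical h Ω) (hc : ContinuousOn h Ω) {K : Set E}
    (hK : IsCompact K) (hKΩ : K ⊆ Ω) : ∃ C : ℝ, 0 ≤ C ∧ ∀ x ∈ K, ∀ v, ‖germ h x v‖ ≤ C * ‖v‖ := by
  have hfin := finite_germ_image hΩ hh hK hKΩ
  have hex : ∀ H ∈ germ h '' K, ∃ C : ℝ, 0 ≤ C ∧ ∀ v, ‖H v‖ ≤ C * ‖v‖ := by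
    rintro _ ⟨x, hx, rfl⟩
    have hcx := hh.conAt (hKΩ hx)
    exact hcx.posHom.bound (hcx.continuous_germ (continuousAt_near hΩ hc (hKΩ hx)))
  choose! C hC0 hC using hex
  obtain ⟨M, hM⟩ := (hfin.image C).bddAbove
  refine ⟨max M 0, le_max_right _ _, fun x hx v => ?_⟩
  refine (hC _ ⟨x, hx, rfl⟩ v).trans (mul_le_mul_of_nonneg_right ?_ (norm_nonneg v))
  exact (hM ⟨_, ⟨x, hx, rfl⟩, rfl⟩).trans (le_max_left _ _)

end finite

/-- Lipschitz bound along a segment from bounds of the germs. -/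
theorem norm_sub_le_of_germ {h : E → F} {a b : E} {C : ℝ} (hcon : ∀ y ∈ segment ℝ a b, ConAt h y)
    (hc : ContinuousOn h (segment ℝ a b)) (hC : ∀ y ∈ segment ℝ a b, ∀ v, ‖germ h y v‖ ≤ C * ‖v‖) :
    ‖h b - h a‖ ≤ C * ‖b - a‖ := by
  set f : ℝ → F := fun t => h (a + t • (b - a)) with hf
  have hseg : ∀ t ∈ Icc (0 : ℝ) 1, a + t • (b - a) ∈ segment ℝ a b := by
    intro t ht
    rw [segment_eq_image']
    exact ⟨t, ht, rfl⟩
  have hcf : ContinuousOn f (Icc 0 1) :=
    hc.comp (by fun_prop) hseg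
  have hder : ∀ t ∈ Ico (0 : ℝ) 1, HasDerivWithinAt f (germ h (a + t • (b - a)) (b - a)) (Ici t) t := by
    intro t ht
    have hy := hcon _ (hseg t ⟨ht.1, ht.2.le⟩)
    set y := a + t • (b - a) with hydef
    have hr := rad_pos h y
    set g : ℝ → F := fun s => h y + (s - t) • germ h y (b - a) with hg
    have hg' : HasDerivWithinAt g (germ h y (b - a)) (Ici t) t := by
      have h1 : HasDerivAt (fun s : ℝ => s - t) 1 t := (hasDerivAt_id t).sub_const t
      have h2 := (h1.smul_const (germ h y (b - a))).const_add (h y)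
      simpa [hg] using h2.hasDerivWithinAt
    refine hg'.congr_of_eventuallyEq ?_ (by simp [hf, hg, hydef])
    have hev : ∀ᶠ s in 𝓝 t, (s - t) * ‖b - a‖ < rad h y := by
      have : ContinuousAt (fun s : ℝ => (s - t) * ‖b - a‖) t := by fun_prop
      have h3 := this.eventually (gt_mem_nhds (a := rad h y) (by simpa using hr))
      exact h3
    filter_upwards [mem_nhdsWithin_of_mem_nhds hev, self_mem_nhdsWithin] with s hs hst
    have hst' : 0 ≤ s - t := sub_nonneg.2 hst
    have e : a + s • (b - a) = y + (s - t) • (b - a) := by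
      rw [hydef, add_assoc, ← add_smul]; congr 2; ring
    show h (a + s • (b - a)) = h y + (s - t) • germ h y (b - a)
    rw [e]
    exact hy.apply_add_smul hst' hs
  have := norm_image_sub_le_of_norm_deriv_right_le_segment hcf hder
    (C := C * ‖b - a‖) (fun t ht => hC _ (hseg t ⟨ht.1, ht.2.le⟩) _) 1 (right_mem_Icc.2 zero_le_one)
  simpa [hf] using this

/-- Lipschitz on convex sets. -/
theorem lipschitzOnWith_of_germ {h : E → F} {s : Set E} (hs : Convex ℝ s) {C : NNReal} (hcon : ∀ y ∈ s, ConAt h y)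
    (hc : ContinuousOn h s) (hC : ∀ y ∈ s, ∀ v, ‖germ h y v‖ ≤ C * ‖v‖) : LipschitzOnWith C h s := by
  refine LipschitzOnWith.of_dist_le_mul fun a ha b hb => ?_
  have hsub := hs.segment_subset hb ha
  have := norm_sub_le_of_germ (a := b) (b := a) (C := C) (fun y hy => hcon y (hsub hy)) (hc.mono hsub)
    (fun y hy => hC y (hsub hy))
  rwa [dist_eq_norm, dist_eq_norm]

theorem exists_lipschitzOnWith_near [FiniteDimensional ℝ E] {h : E → F} {Ω : Set E} (hΩ : IsOpen Ω)
    (hh : LocConical h Ω) (hc : ContinuousOn h Ω) {x : E} (hx : x ∈ Ω) :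
    ∃ δ > 0, ∃ C : NNReal, ball x δ ⊆ Ω ∧ LipschitzOnWith C h (ball x δ) := by
  obtain ⟨ε, hε, hb⟩ := Metric.isOpen_iff.1 hΩ x hx
  have hsub : closedBall x (ε / 2) ⊆ Ω := (closedBall_subset_ball (by linarith)).trans hb
  obtain ⟨C, hC0, hC⟩ := germ_bound hΩ hh hc (isCompact_closedBall x (ε / 2)) hsub
  refine ⟨ε / 2, by positivity, ⟨C, hC0⟩, ball_subset_closedBall.trans hsub, ?_⟩
  exact lipschitzOnWith_of_germ (convex_ball _ _) (fun y hy => hh.conAt (hsub (ball_subset_closedBall hy)))
    (hc.mono (ball_subset_closedBall.trans hsub)) (fun y hy => hC y (ball_subset_closedBall hy))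

end Crest.Agent.R096.Germ_879
end

-- ▼ part R096/Germ4_879
section

/-!
# R096: locally conical homeomorphisms: germs are bi-Lipschitz homeomorphisms, the inverse is locally conical
(helper879; P5-GERM)
-/

set_option autoImplicit false
set_option linter.unusedSectionVars false

namespace Crest.Agent.R096.Germ_879

open Set Metric Filter Topology

variable {E F : Type*} [NormedAddCommGroup E] [NormedSpace ℝ E] [NormedAddCommGroup F] [NormedSpace ℝ F]

/-- two-sided data of a homeomorphism of open sets (inverse as data). -/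
structure HomeoOn (h : E → F) (k : F → E) (Ω : Set E) (Λ : Set F) : Prop where
  openΩ : IsOpen Ω
  openΛ : IsOpen Λ
  maps : MapsTo h Ω Λ
  maps' : MapsTo k Λ Ω
  left : ∀ x ∈ Ω, k (h x) = x
  right : ∀ y ∈ Λ, h (k y) = y
  cont : ContinuousOn h Ω
  cont' : ContinuousOn k Λ

namespace HomeoOn

variable {h : E → F} {k : F → E} {Ω : Set E} {Λ : Set F}

theorem symm (H : HomeoOn h k Ω Λ) : HomeoOn k h Λ Ω :=
  ⟨H.openΛ, H.openΩ, H.maps', H.maps, H.right, H.left, H.cont', H.cont⟩

theorem injOn (H : HomeoOn h k Ω Λ) : InjOn h Ω := fun x hx y hy e => by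
  rw [← H.left x hx, ← H.left y hy, e]

theorem isOpen_image (H : HomeoOn h k Ω Λ) {U : Set E} (hU : IsOpen U) (hUΩ : U ⊆ Ω) : IsOpen (h '' U) := by
  have e : h '' U = Λ ∩ k ⁻¹' U := by
    ext y
    constructor
    · rintro ⟨x, hx, rfl⟩
      exact ⟨H.maps (hUΩ hx), by rw [mem_preimage, H.left x (hUΩ hx)]; exact hx⟩
    · rintro ⟨hy, hy'⟩
      exact ⟨k y, hy', H.right y hy⟩
  rw [e]
  exact H.cont'.isOpen_inter_preimage H.openΛ hU

end HomeoOn

/-- injectivity of the germ. -/
theorem germ_injective {h : E → F} {Ω : Set E} (hΩ : IsOpen Ω) (hinj : InjOn h Ω) {x : E} (hx : x ∈ Ω)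
    (hcx : ConAt h x) : Function.Injective (germ h x) := by
  intro v w e
  obtain ⟨ε, hε, hb⟩ := Metric.isOpen_iff.1 hΩ x hx
  have hr := rad_pos h x
  set m : ℝ := min ε (rad h x)
  have hm : 0 < m := lt_min hε hr
  set s : ℝ := m / (2 * (1 + ‖v‖ + ‖w‖)) with hs
  have hs0 : 0 < s := by positivity
  have h1 : s * ‖v‖ < m := by
    rw [hs, div_mul_eq_mul_div, div_lt_iff₀ (by positivity)]
    nlinarith [norm_nonneg v, norm_nonneg w]
  have h2 : s * ‖w‖ < m := by
    rw [hs, div_mul_eq_mul_div, div_lt_iff₀ (by positivity)]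
    nlinarith [norm_nonneg v, norm_nonneg w]
  have e1 := hcx.apply_add_smul (v := v) hs0.le (lt_of_lt_of_le h1 (min_le_right _ _))
  have e2 := hcx.apply_add_smul (v := w) hs0.le (lt_of_lt_of_le h2 (min_le_right _ _))
  rw [e, ← e2] at e1
  have h3 : x + s • v ∈ Ω := hb (by
    rw [mem_ball, dist_eq_norm, add_sub_cancel_left, norm_smul, Real.norm_of_nonneg hs0.le]
    exact lt_of_lt_of_le h1 (min_le_left _ _))
  have h4 : x + s • w ∈ Ω := hb (by
    rw [mem_ball, dist_eq_norm, add_sub_cancel_left, norm_smul, Real.norm_of_nonneg hs0.le]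
    exact lt_of_lt_of_le h2 (min_le_left _ _))
  have h5 := add_left_cancel (hinj h3 h4 e1)
  have := congrArg (fun z => s⁻¹ • z) h5
  simpa [smul_smul, inv_mul_cancel₀ hs0.ne'] using this

section homeo

variable {h : E → F} {k : F → E} {Ω : Set E} {Λ : Set F}

/-- the germ of the inverse, and its conicality: no compactness needed. -/
theorem HomeoOn.conAt_symm (H : HomeoOn h k Ω Λ) {x : E} (hx : x ∈ Ω) (hcx : ConAt h x) :
    ConAt k (h x) ∧ (∀ v, germ k (h x) (germ h x v) = v) ∧ (∀ w, germ h x (germ k (h x) w) = w) := by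
  obtain ⟨ε, hε, hb⟩ := Metric.isOpen_iff.1 H.openΩ x hx
  set m : ℝ := min ε (rad h x) with hmdef
  have hm : 0 < m := lt_min hε (rad_pos h x)
  have hinj := germ_injective H.openΩ H.injOn hx hcx
  have hpos := hcx.posHom
  -- `h` maps the ball onto an open neighbourhood of `h x`
  have hopen : IsOpen (h '' ball x m) := H.isOpen_image isOpen_ball ((ball_subset_ball (min_le_left _ _)).trans hb)
  obtain ⟨δ, hδ, hδb⟩ := Metric.isOpen_iff.1 hopen (h x) ⟨x, mem_ball_self hm, rfl⟩
  -- solving `germ h x v = w`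
  have hsol : ∀ w : F, ‖w‖ < δ → ∃ v : E, ‖v‖ < m ∧ germ h x v = w ∧ k (h x + w) = x + v := by
    intro w hw
    obtain ⟨y, hy, e⟩ := hδb (show h x + w ∈ ball (h x) δ by
      rw [mem_ball, dist_eq_norm, add_sub_cancel_left]; exact hw)
    have hy' : ‖y - x‖ < m := by rwa [mem_ball, dist_eq_norm] at hy
    refine ⟨y - x, hy', ?_, ?_⟩
    · have := hcx.apply_add (v := y - x) (lt_of_lt_of_le hy' (min_le_right _ _))
      rw [add_sub_cancel, e] at this
      exact (add_left_cancel this).symm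
    · rw [← e, H.left y (hb (ball_subset_ball (min_le_left _ _) hy))]
      abel
  have hsurj : Function.Surjective (germ h x) := by
    intro w
    have hw : 0 < 1 + ‖w‖ := by positivity
    set s : ℝ := δ / (2 * (1 + ‖w‖)) with hs
    have hs0 : 0 < s := by positivity
    obtain ⟨v, _, hv, _⟩ := hsol (s • w) (by
      rw [norm_smul, Real.norm_of_nonneg hs0.le, hs, div_mul_eq_mul_div, div_lt_iff₀ (by positivity)]
      nlinarith [norm_nonneg w])
    refine ⟨s⁻¹ • v, ?_⟩
    rw [hpos _ (inv_nonneg.2 hs0.le), hv, smul_smul, inv_mul_cancel₀ hs0.ne', one_smul]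
  set G : E ≃ F := Equiv.ofBijective _ ⟨hinj, hsurj⟩ with hG
  have hGs : ∀ v, G v = germ h x v := fun v => rfl
  have hGpos : PosHom (G.symm : F → E) := by
    intro c hc w
    apply G.injective
    rw [G.apply_symm_apply, hGs, hpos c hc, ← hGs, G.apply_symm_apply]
  have hloc : ∀ w : F, ‖w‖ < δ → k (h x + w) = k (h x) + G.symm w := by
    intro w hw
    obtain ⟨v, _, hv, e⟩ := hsol w hw
    have : G.symm w = v := by
      apply G.injective
      rw [G.apply_symm_apply, hGs, hv]
    rw [e, this, H.left x hx]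
  have hgerm : germ k (h x) = G.symm := germ_eq_of hδ hGpos hloc
  refine ⟨⟨δ, hδ, conR_of_eq hGpos hloc⟩, fun v => ?_, fun w => ?_⟩
  · rw [hgerm, ← hGs, G.symm_apply_apply]
  · rw [hgerm, ← hGs, G.apply_symm_apply]

theorem HomeoOn.locConical_symm (H : HomeoOn h k Ω Λ) (hh : LocConical h Ω) : LocConical k Λ := by
  intro y hy
  have := (H.conAt_symm (H.maps' hy) (hh.conAt (H.maps' hy))).1
  rwa [H.right y hy] at this

/-- the lineality space of the inverse. -/
theorem HomeoOn.mem_Tan_symm (H : HomeoOn h k Ω Λ) {x : E} (hx : x ∈ Ω) (hcx : ConAt h x) {u : E}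
    (hu : u ∈ Tan h x) : germ h x u ∈ Tan k (h x) := by
  obtain ⟨hck, h1, h2⟩ := H.conAt_symm hx hcx
  intro τ w
  have e : τ • germ h x u + w = germ h x (τ • u + germ k (h x) w) := by
    rw [hu, h2]
  rw [e, h1, h1]

theorem HomeoOn.mem_Tan_iff_symm (H : HomeoOn h k Ω Λ) {x : E} (hx : x ∈ Ω) (hcx : ConAt h x) {u : E} :
    germ h x u ∈ Tan k (h x) ↔ u ∈ Tan h x := by
  refine ⟨fun hu => ?_, H.mem_Tan_symm hx hcx⟩
  obtain ⟨hck, h1, h2⟩ := H.conAt_symm hx hcx
  have := H.symm.mem_Tan_symm (x := h x) (H.maps hx) hck hu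
  rwa [h1, H.left x hx] at this

/-- linear equivalence between the lineality spaces. -/
noncomputable def HomeoOn.tanEquiv (H : HomeoOn h k Ω Λ) {x : E} (hx : x ∈ Ω) (hcx : ConAt h x) :
    Tan h x ≃ₗ[ℝ] Tan k (h x) where
  toFun u := ⟨germ h x u, H.mem_Tan_symm hx hcx u.2⟩
  map_add' u v := Subtype.ext (germ_add_of_mem u.2 v)
  map_smul' c u := Subtype.ext (germ_smul_of_mem u.2 c)
  invFun w := ⟨germ k (h x) w, by
    rw [← H.mem_Tan_iff_symm hx hcx, (H.conAt_symm hx hcx).2.2]; exact w.2⟩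
  left_inv u := Subtype.ext ((H.conAt_symm hx hcx).2.1 u)
  right_inv w := Subtype.ext ((H.conAt_symm hx hcx).2.2 w)

theorem HomeoOn.finrank_Tan (H : HomeoOn h k Ω Λ) {x : E} (hx : x ∈ Ω) (hcx : ConAt h x) :
    Module.finrank ℝ (Tan k (h x)) = Module.finrank ℝ (Tan h x) :=
  (LinearEquiv.finrank_eq (H.tanEquiv hx hcx)).symm

/-- the germ as a homeomorphism. -/
noncomputable def HomeoOn.germHomeo (H : HomeoOn h k Ω Λ) {x : E} (hx : x ∈ Ω) (hcx : ConAt h x) : E ≃ₜ F where
  toFun := germ h x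
  invFun := germ k (h x)
  left_inv := (H.conAt_symm hx hcx).2.1
  right_inv := (H.conAt_symm hx hcx).2.2
  continuous_toFun := hcx.continuous_germ (continuousAt_near H.openΩ H.cont hx)
  continuous_invFun := (H.conAt_symm hx hcx).1.continuous_germ (continuousAt_near H.openΛ H.cont' (H.maps hx))

@[simp] theorem HomeoOn.germHomeo_apply (H : HomeoOn h k Ω Λ) {x : E} (hx : x ∈ Ω) (hcx : ConAt h x) (v : E) :
    H.germHomeo hx hcx v = germ h x v := rfl

@[simp] theorem HomeoOn.germHomeo_symm_apply (H : HomeoOn h k Ω Λ) {x : E} (hx : x ∈ Ω) (hcx : ConAt h x) (w : F) :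
    (H.germHomeo hx hcx).symm w = germ k (h x) w := rfl

end homeo

/-! ### the germ is itself globally conical -/

theorem PosHom.conR {H : E → F} (hH : PosHom H) (r : ℝ) : ConR H 0 r := by
  intro v _ t ht
  rw [zero_add, zero_add, hH t ht.1, hH.zero, zero_add, sub_zero]

theorem PosHom.conAt {H : E → F} (hH : PosHom H) : ConAt H 0 := ⟨1, one_pos, hH.conR 1⟩

theorem PosHom.germ {H : E → F} (hH : PosHom H) : germ H 0 = H :=
  germ_eq_of one_pos hH (fun v _ => by rw [zero_add, hH.zero, zero_add])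

/-- conicality of a positively homogeneous map is scale invariant. -/
theorem PosHom.conR_smul {H : E → F} (hH : PosHom H) {x : E} {r c : ℝ} (hc : 0 < c) (hx : ConR H x r) :
    ConR H (c • x) (c * r) := by
  intro v hv t ht
  have h1 : ‖c⁻¹ • v‖ < r := by
    rw [norm_smul, norm_inv, Real.norm_of_nonneg hc.le, inv_mul_lt_iff₀ hc]
    exact hv
  have h2 := hx (c⁻¹ • v) h1 t ht
  have e1 : c • x + t • v = c • (x + t • c⁻¹ • v) := by
    rw [smul_add, smul_comm t, smul_smul c c⁻¹, mul_inv_cancel₀ hc.ne', one_smul]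
  have e2 : c • x + v = c • (x + c⁻¹ • v) := by
    rw [smul_add, smul_smul c c⁻¹, mul_inv_cancel₀ hc.ne', one_smul]
  rw [e1, e2, hH c hc.le, hH c hc.le, hH c hc.le, h2, smul_add, smul_comm c t, smul_sub c]

/-- near `x`, conicality of `h` at `x + u` with radius `r` is conicality of the germ at `u`. -/
theorem conR_iff_germ {h : E → F} {x u : E} {r ρ : ℝ} (hρ : ∀ v : E, ‖v‖ < ρ → h (x + v) = h x + germ h x v)
    (hur : ‖u‖ + r ≤ ρ) (hr : 0 ≤ r) : ConR h (x + u) r ↔ ConR (germ h x) u r := by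
  rcases hr.eq_or_lt with rfl | hr
  · exact ⟨fun _ v hv => absurd hv (not_lt.2 (norm_nonneg v)), fun _ v hv => absurd hv (not_lt.2 (norm_nonneg v))⟩
  have key : ∀ w : E, ‖w‖ < r → h (x + u + w) = h x + germ h x (u + w) := by
    intro w hw
    rw [add_assoc, hρ]
    exact lt_of_le_of_lt (norm_add_le _ _) (by linarith)
  have key0 : h (x + u) = h x + germ h x u := by simpa using key 0 (by simpa using hr)
  have hts : ∀ v : E, ‖v‖ < r → ∀ t ∈ Icc (0 : ℝ) 1, ‖t • v‖ < r := by
    intro v hv t ht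
    rw [norm_smul, Real.norm_of_nonneg ht.1]
    exact lt_of_le_of_lt (mul_le_of_le_one_left (norm_nonneg v) ht.2) hv
  constructor
  · intro H v hv t ht
    have := H v hv t ht
    rw [key _ (hts v hv t ht), key v hv, key0, add_sub_add_left_eq_sub, add_assoc] at this
    exact add_left_cancel this
  · intro H v hv t ht
    have := H v hv t ht
    rw [key _ (hts v hv t ht), key v hv, key0, add_sub_add_left_eq_sub, add_assoc, this]

end Crest.Agent.R096.Germ_879
end

-- ▼ part R096/Germ5_879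
section

/-!
# R096: the conic radius (helper879; P5-GERM)

`crad h Ω x` = the largest `r ≤ 1` with `ball x r ⊆ Ω` and `h` conical about `x` on `ball x r`.
-/

set_option autoImplicit false
set_option linter.unusedSectionVars false

namespace Crest.Agent.R096.Germ_879

open Set Metric Filter Topology

variable {E F : Type*} [NormedAddCommGroup E] [NormedSpace ℝ E] [NormedAddCommGroup F] [NormedSpace ℝ F]

/-! ### the near lemmas with an arbitrary radius of conicality -/

theorem ConR.near_step {h : E → F} {x u : E} {ρ : ℝ} (hρ : ConR h x ρ) (hu : ‖u‖ < ρ) (hy : ConAt h (x + u)) (w : E) :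
    ∃ ε > 0, ∀ s : ℝ, 0 ≤ s → s < ε → germ h x (u + s • w) = germ h x u + s • germ h (x + u) w := by
  have hρ0 : 0 < ρ := lt_of_le_of_lt (norm_nonneg u) hu
  have hr' := rad_pos h (x + u)
  have hd : 0 < ρ - ‖u‖ := sub_pos.2 hu
  refine ⟨min ((ρ - ‖u‖) / (1 + ‖w‖)) (rad h (x + u) / (1 + ‖w‖)), lt_min (by positivity) (by positivity), ?_⟩
  intro s hs hs1
  have h1 : s * (1 + ‖w‖) < ρ - ‖u‖ := by
    rw [← lt_div_iff₀ (by positivity)]; exact lt_of_lt_of_le hs1 (min_le_left _ _)
  have h2 : s * (1 + ‖w‖) < rad h (x + u) := by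
    rw [← lt_div_iff₀ (by positivity)]; exact lt_of_lt_of_le hs1 (min_le_right _ _)
  have h3 : ‖u + s • w‖ < ρ := by
    refine lt_of_le_of_lt (norm_add_le _ _) ?_
    rw [norm_smul, Real.norm_of_nonneg hs]
    nlinarith
  have e1 := hρ.apply_add hρ0 h3
  have e2 := hρ.apply_add hρ0 hu
  have e3 := hy.apply_add_smul (v := w) hs (by nlinarith)
  rw [← add_assoc, e3, e2, add_assoc] at e1
  exact (add_left_cancel e1).symm

theorem ConR.germ_near_unique {h : E → F} {x u : E} {ρ : ℝ} (hρ : ConR h x ρ) (hu : ‖u‖ < ρ) (hy : ConAt h (x + u))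
    {w : E} {z : F} {ε : ℝ} (hε : 0 < ε) (H : ∀ s : ℝ, 0 < s → s < ε → germ h x (u + s • w) = germ h x u + s • z) :
    germ h (x + u) w = z := by
  obtain ⟨δ, hδ, H'⟩ := hρ.near_step hu hy w
  set s : ℝ := min (ε / 2) (δ / 2)
  have hs : 0 < s := lt_min (by positivity) (by positivity)
  have h1 : s < ε := lt_of_le_of_lt (min_le_left _ _) (by linarith)
  have h2 : s < δ := lt_of_le_of_lt (min_le_right _ _) (by linarith)
  have e := (H' s hs.le h2).symm.trans (H s hs h1)
  have e' := add_left_cancel e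
  have := congrArg (fun z => s⁻¹ • z) e'
  simpa [smul_smul, inv_mul_cancel₀ hs.ne'] using this

theorem ConR.conAt {h : E → F} {x : E} {ρ : ℝ} (hρ : ConR h x ρ) (h0 : 0 < ρ) : ConAt h x := ⟨ρ, h0, hρ⟩

theorem ConR.germ_near {h : E → F} {x u : E} {ρ : ℝ} (hρ : ConR h x ρ) (hu : ‖u‖ < ρ) (hy : ConAt h (x + u))
    (τ : ℝ) (v : E) : germ h (x + u) (τ • u + v) = τ • germ h x u + germ h (x + u) v := by
  have hx : ConAt h x := hρ.conAt (lt_of_le_of_lt (norm_nonneg u) hu)
  obtain ⟨δ, hδ, H⟩ := hρ.near_step hu hy v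
  refine hρ.germ_near_unique hu hy (ε := min (1 / (2 * (1 + |τ|))) (δ / 2)) (lt_min (by positivity) (by positivity)) ?_
  intro s hs hs1
  have h1 : s * (2 * (1 + |τ|)) < 1 := by
    rw [← lt_div_iff₀ (by positivity)]; exact lt_of_lt_of_le hs1 (min_le_left _ _)
  have h2 : s < δ / 2 := lt_of_lt_of_le hs1 (min_le_right _ _)
  have h3 : |s * τ| < 1 / 2 := by
    rw [abs_mul, abs_of_pos hs]
    nlinarith
  set c : ℝ := 1 + s * τ with hc
  have hc1 : 1 / 2 < c := by
    have := neg_abs_le (s * τ)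
    rw [hc]; linarith
  have hc0 : 0 < c := by linarith
  have h4 : s / c < δ := by
    rw [div_lt_iff₀ hc0]
    nlinarith
  have e1 : u + s • (τ • u + v) = c • (u + (s / c) • v) := by
    rw [smul_add c, smul_smul c, mul_div_cancel₀ _ hc0.ne', hc, add_smul, one_smul, smul_add, smul_smul, add_assoc]
  rw [e1, hx.posHom c hc0.le, H (s / c) (by positivity) h4, smul_add c, smul_smul c, mul_div_cancel₀ _ hc0.ne', hc,
    add_smul, one_smul, smul_add, smul_smul, add_assoc]

theorem ConR.self_mem_Tan_near {h : E → F} {x u : E} {ρ : ℝ} (hρ : ConR h x ρ) (hu : ‖u‖ < ρ) (hy : ConAt h (x + u)) :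
    u ∈ Tan h (x + u) := by
  intro τ v
  have e : germ h (x + u) u = germ h x u := by simpa using hρ.germ_near hu hy 1 0
  rw [hρ.germ_near hu hy, e]

theorem ConR.germ_near_of_mem {h : E → F} {x u t : E} {ρ : ℝ} (hρ : ConR h x ρ) (hu : ‖u‖ < ρ) (hy : ConAt h (x + u))
    (ht : t ∈ Tan h x) (τ : ℝ) (v : E) :
    germ h (x + u) (τ • t + v) = τ • germ h x t + germ h (x + u) v := by
  obtain ⟨δ, hδ, H⟩ := hρ.near_step hu hy v
  refine hρ.germ_near_unique hu hy hδ ?_
  intro s hs hs1
  have e1 : u + s • (τ • t + v) = (s * τ) • t + (u + s • v) := by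
    rw [smul_add, smul_smul]; abel
  rw [e1, ht, H s hs.le hs1, smul_add, smul_smul]
  abel

theorem ConR.Tan_le_near {h : E → F} {x u : E} {ρ : ℝ} (hρ : ConR h x ρ) (hu : ‖u‖ < ρ) (hy : ConAt h (x + u)) :
    Tan h x ≤ Tan h (x + u) := by
  intro t ht τ v
  have e : germ h (x + u) t = germ h x t := by simpa using hρ.germ_near_of_mem hu hy ht 1 0
  rw [hρ.germ_near_of_mem hu hy ht, e]

theorem ConR.germ_eq_of_mem {h : E → F} {x u : E} {ρ : ℝ} (hρ : ConR h x ρ) (hu : ‖u‖ < ρ) (hy : ConAt h (x + u))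
    (hT : u ∈ Tan h x) : germ h (x + u) = germ h x := by
  have hx : ConAt h x := hρ.conAt (lt_of_le_of_lt (norm_nonneg u) hu)
  funext w
  refine hρ.germ_near_unique hu hy (ε := 1) one_pos ?_
  intro s hs _
  rw [germ_add_of_mem hT, hx.posHom s hs.le]

theorem ConR.germ_scale {h : E → F} {x u : E} {ρ : ℝ} (hρ : ConR h x ρ) (hu : ‖u‖ < ρ) (hy : ConAt h (x + u))
    {c : ℝ} (hc : 0 < c) (hcu : ‖c • u‖ < ρ) (hy' : ConAt h (x + c • u)) :
    germ h (x + c • u) = germ h (x + u) := by
  have hx : ConAt h x := hρ.conAt (lt_of_le_of_lt (norm_nonneg u) hu)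
  funext w
  obtain ⟨δ, hδ, H⟩ := hρ.near_step hu hy w
  refine hρ.germ_near_unique hcu hy' (ε := δ * c) (by positivity) ?_
  intro s hs hs1
  have e1 : c • u + s • w = c • (u + (s / c) • w) := by
    rw [smul_add, smul_smul, mul_div_cancel₀ _ hc.ne']
  rw [e1, hx.posHom c hc.le, H (s / c) (by positivity) (by rwa [div_lt_iff₀ hc]), smul_add, smul_smul,
    mul_div_cancel₀ _ hc.ne', ← hx.posHom c hc.le]

theorem ConR.germ_trans {h : E → F} {x u t : E} {ρ : ℝ} (hρ : ConR h x ρ) (hu : ‖u‖ < ρ) (hy : ConAt h (x + u))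
    (ht : t ∈ Tan h x) (htu : ‖t + u‖ < ρ) (hy' : ConAt h (x + (t + u))) :
    germ h (x + (t + u)) = germ h (x + u) := by
  funext w
  obtain ⟨δ, hδ, H⟩ := hρ.near_step hu hy w
  refine hρ.germ_near_unique htu hy' hδ ?_
  intro s hs hs1
  rw [add_assoc, germ_add_of_mem ht, H s hs.le hs1, germ_add_of_mem ht, add_assoc]

theorem ConR.finrank_Tan_le [FiniteDimensional ℝ E] {h : E → F} {x u : E} {ρ : ℝ} (hρ : ConR h x ρ) (hu : ‖u‖ < ρ)
    (hy : ConAt h (x + u)) : Module.finrank ℝ (Tan h x) ≤ Module.finrank ℝ (Tan h (x + u)) :=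
  Submodule.finrank_mono (hρ.Tan_le_near hu hy)

theorem ConR.finrank_Tan_lt [FiniteDimensional ℝ E] {h : E → F} {x u : E} {ρ : ℝ} (hρ : ConR h x ρ) (hu : ‖u‖ < ρ)
    (hy : ConAt h (x + u)) (hT : u ∉ Tan h x) :
    Module.finrank ℝ (Tan h x) < Module.finrank ℝ (Tan h (x + u)) :=
  Submodule.finrank_lt_finrank_of_lt
    (lt_of_le_of_ne (hρ.Tan_le_near hu hy) fun e => hT (e ▸ hρ.self_mem_Tan_near hu hy))

theorem ConR.Tan_eq_of_mem {h : E → F} {x u : E} {ρ : ℝ} (hρ : ConR h x ρ) (hu : ‖u‖ < ρ) (hy : ConAt h (x + u))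
    (hT : u ∈ Tan h x) : Tan h (x + u) = Tan h x := Tan_eq_of_germ_eq (hρ.germ_eq_of_mem hu hy hT)

/-! ### the conic radius -/

/-- the conic radius, capped by one. -/
noncomputable def crad (h : E → F) (Ω : Set E) (x : E) : ℝ :=
  sSup {r : ℝ | 0 ≤ r ∧ r ≤ 1 ∧ ball x r ⊆ Ω ∧ ConR h x r}

theorem crad_bdd (h : E → F) (Ω : Set E) (x : E) :
    BddAbove {r : ℝ | 0 ≤ r ∧ r ≤ 1 ∧ ball x r ⊆ Ω ∧ ConR h x r} := ⟨1, fun _ hr => hr.2.1⟩

theorem crad_zero_mem (h : E → F) (Ω : Set E) (x : E) :
    (0 : ℝ) ∈ {r : ℝ | 0 ≤ r ∧ r ≤ 1 ∧ ball x r ⊆ Ω ∧ ConR h x r} :=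
  ⟨le_rfl, zero_le_one, by simp, fun v hv => absurd hv (not_lt.2 (norm_nonneg v))⟩

theorem le_crad {h : E → F} {Ω : Set E} {x : E} {r : ℝ} (h0 : 0 ≤ r) (h1 : r ≤ 1) (hb : ball x r ⊆ Ω)
    (hr : ConR h x r) : r ≤ crad h Ω x := le_csSup (crad_bdd h Ω x) ⟨h0, h1, hb, hr⟩

theorem crad_nonneg (h : E → F) (Ω : Set E) (x : E) : 0 ≤ crad h Ω x :=
  le_csSup (crad_bdd h Ω x) (crad_zero_mem h Ω x)

theorem crad_le_one (h : E → F) (Ω : Set E) (x : E) : crad h Ω x ≤ 1 :=
  csSup_le ⟨0, crad_zero_mem h Ω x⟩ fun _ hr => hr.2.1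

theorem exists_of_lt_crad {h : E → F} {Ω : Set E} {x : E} {s : ℝ} (hs : s < crad h Ω x) :
    ∃ r, s < r ∧ 0 ≤ r ∧ r ≤ 1 ∧ ball x r ⊆ Ω ∧ ConR h x r := by
  obtain ⟨r, hr, hsr⟩ := exists_lt_of_lt_csSup ⟨0, crad_zero_mem h Ω x⟩ hs
  exact ⟨r, hsr, hr⟩

theorem conR_crad (h : E → F) (Ω : Set E) (x : E) : ConR h x (crad h Ω x) := by
  intro v hv
  obtain ⟨r, hvr, _, _, _, hr⟩ := exists_of_lt_crad hv
  exact hr v hvr

theorem ball_crad_subset (h : E → F) (Ω : Set E) (x : E) : ball x (crad h Ω x) ⊆ Ω := by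
  intro y hy
  obtain ⟨r, hvr, _, _, hb, _⟩ := exists_of_lt_crad hy
  exact hb hvr

theorem add_mem_of_lt_crad {h : E → F} {Ω : Set E} {x u : E} (hu : ‖u‖ < crad h Ω x) : x + u ∈ Ω :=
  ball_crad_subset h Ω x (by rwa [mem_ball, dist_eq_norm, add_sub_cancel_left])

theorem crad_pos {h : E → F} {Ω : Set E} (hΩ : IsOpen Ω) {x : E} (hx : x ∈ Ω) (hcx : ConAt h x) :
    0 < crad h Ω x := by
  obtain ⟨ε, hε, hb⟩ := Metric.isOpen_iff.1 hΩ x hx
  have hm : 0 < min (min ε (rad h x)) 1 := lt_min (lt_min hε (rad_pos h x)) one_pos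
  refine lt_of_lt_of_le hm (le_crad hm.le (min_le_right _ _) ?_ ?_)
  · exact (ball_subset_ball ((min_le_left _ _).trans (min_le_left _ _))).trans hb
  · exact hcx.conR.mono ((min_le_left _ _).trans (min_le_right _ _))

theorem apply_add_of_lt_crad {h : E → F} {Ω : Set E} {x v : E} (hv : ‖v‖ < crad h Ω x) :
    h (x + v) = h x + germ h x v :=
  (conR_crad h Ω x).apply_add (lt_of_le_of_lt (norm_nonneg v) hv) hv

/-- along a stratum the conic radius drops at most like the distance. -/
theorem crad_sub_le {h : E → F} {Ω : Set E} {x u : E} (hu : ‖u‖ < crad h Ω x)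
    (hT : u ∈ Tan h x) : crad h Ω x - ‖u‖ ≤ crad h Ω (x + u) := by
  have hx0 : 0 < crad h Ω x := lt_of_le_of_lt (norm_nonneg u) hu
  have hcx : ConAt h x := (conR_crad h Ω x).conAt hx0
  refine le_crad (by linarith) (by linarith [crad_le_one h Ω x, norm_nonneg u]) ?_ ?_
  · refine (ball_subset_ball' ?_).trans (ball_crad_subset h Ω x)
    rw [dist_eq_norm, add_sub_cancel_left]; linarith
  · refine conR_of_eq (H := germ h x) hcx.posHom ?_
    intro v hv
    have h1 : ‖u + v‖ < crad h Ω x := lt_of_le_of_lt (norm_add_le _ _) (by linarith)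
    rw [add_assoc, apply_add_of_lt_crad h1, germ_add_of_mem hT, apply_add_of_lt_crad hu, add_assoc]

/-- the conic radius is 1-Lipschitz along a stratum. -/
theorem abs_crad_sub_le {h : E → F} {Ω : Set E} (hh : LocConical h Ω) {x u : E} (hu : ‖u‖ < crad h Ω x)
    (hT : u ∈ Tan h x) : |crad h Ω (x + u) - crad h Ω x| ≤ ‖u‖ := by
  have h1 := crad_sub_le hu hT
  rw [abs_le]
  refine ⟨by linarith, ?_⟩
  have hyΩ : x + u ∈ Ω := add_mem_of_lt_crad hu
  by_cases hlt : ‖u‖ < crad h Ω (x + u)
  · have hT' : -u ∈ Tan h (x + u) := by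
      rw [(conR_crad h Ω x).Tan_eq_of_mem hu (hh.conAt hyΩ) hT]
      exact Submodule.neg_mem _ hT
    have := crad_sub_le (x := x + u) (u := -u) (by rwa [norm_neg]) hT'
    rw [norm_neg, add_neg_cancel_right] at this
    linarith
  · have := crad_nonneg h Ω x
    push Not at hlt
    linarith

/-- a point inside the conic ball has a bigger lineality space containing the direction. -/
theorem Tan_le_of_lt_crad {h : E → F} {Ω : Set E} (hh : LocConical h Ω) {x z : E} (hz : ‖z - x‖ < crad h Ω x) :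
    Tan h x ≤ Tan h z ∧ z - x ∈ Tan h z := by
  have hzΩ : x + (z - x) ∈ Ω := add_mem_of_lt_crad hz
  have h1 := (conR_crad h Ω x).Tan_le_near hz (hh.conAt hzΩ)
  have h2 := (conR_crad h Ω x).self_mem_Tan_near hz (hh.conAt hzΩ)
  rw [add_sub_cancel] at h1 h2
  exact ⟨h1, h2⟩

/-- the conic radius is at most the distance to any point of a lower stratum. -/
theorem crad_le_norm_sub [FiniteDimensional ℝ E] {h : E → F} {Ω : Set E} (hh : LocConical h Ω) {x z : E}
    (hlow : Module.finrank ℝ (Tan h z) < Module.finrank ℝ (Tan h x)) : crad h Ω x ≤ ‖z - x‖ := by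
  by_contra hlt
  push Not at hlt
  exact absurd (Submodule.finrank_mono (Tan_le_of_lt_crad hh hlt).1) (not_le.2 hlow)

/-- two points of the same stratum inside a conic ball differ by a tangent vector. -/
theorem sub_mem_Tan_of_finrank_eq [FiniteDimensional ℝ E] {h : E → F} {Ω : Set E} (hh : LocConical h Ω) {x z : E}
    (hz : ‖z - x‖ < crad h Ω x) (he : Module.finrank ℝ (Tan h z) = Module.finrank ℝ (Tan h x)) :
    z - x ∈ Tan h x ∧ Tan h z = Tan h x ∧ germ h z = germ h x := by
  obtain ⟨h1, h2⟩ := Tan_le_of_lt_crad hh hz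
  have h3 : Tan h x = Tan h z := Submodule.eq_of_le_of_finrank_eq h1 he.symm
  refine ⟨h3 ▸ h2, h3.symm, ?_⟩
  have hzΩ : x + (z - x) ∈ Ω := add_mem_of_lt_crad hz
  have := (conR_crad h Ω x).germ_eq_of_mem hz (hh.conAt hzΩ) (h3 ▸ h2)
  rwa [add_sub_cancel] at this

/-- homogeneity of the conic radius about `x`, easy half. -/
theorem mul_crad_le {h : E → F} {Ω : Set E} {x u : E} {c r : ℝ} (hc : 0 < c) (hc1 : c ≤ 1)
    (hr0 : 0 ≤ r) (hr : r ≤ crad h Ω (x + u)) (hur : ‖u‖ + r ≤ crad h Ω x) : c * r ≤ crad h Ω (x + c • u) := by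
  rcases hr0.eq_or_lt with rfl | hr0'
  · simpa using crad_nonneg h Ω (x + c • u)
  have hx0 : 0 < crad h Ω x := by linarith [norm_nonneg u]
  have hcx : ConAt h x := (conR_crad h Ω x).conAt hx0
  have happ : ∀ v : E, ‖v‖ < crad h Ω x → h (x + v) = h x + germ h x v := fun v hv => apply_add_of_lt_crad hv
  have hcr : c * r ≤ r := mul_le_of_le_one_left hr0 hc1
  have hcu : ‖c • u‖ = c * ‖u‖ := by rw [norm_smul, Real.norm_of_nonneg hc.le]
  have hcu1 : c * ‖u‖ ≤ ‖u‖ := mul_le_of_le_one_left (norm_nonneg u) hc1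
  have h1 : ConR h (x + u) r := (conR_crad h Ω (x + u)).mono hr
  have h2 : ConR (germ h x) u r := (conR_iff_germ happ hur hr0).1 h1
  have h3 := hcx.posHom.conR_smul hc h2
  have h4 : ConR h (x + c • u) (c * r) :=
    (conR_iff_germ happ (by rw [hcu]; linarith) (by positivity)).2 h3
  refine le_crad (by positivity) ?_ ?_ h4
  · have := crad_le_one h Ω (x + u)
    linarith
  · refine (ball_subset_ball' ?_).trans (ball_crad_subset h Ω x)
    rw [dist_eq_norm, add_sub_cancel_left, hcu]; linarith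

/-- homogeneity of the conic radius about `x`. -/
theorem crad_smul {h : E → F} {Ω : Set E} {x u : E} {c : ℝ} (hc : 0 < c) (hc1 : c ≤ 1)
    (hlt : ‖u‖ + crad h Ω (x + u) < crad h Ω x) :
    crad h Ω (x + c • u) = c * crad h Ω (x + u) := by
  have hx1 := crad_le_one h Ω x
  have hx0 : 0 < crad h Ω x := by linarith [norm_nonneg u, crad_nonneg h Ω (x + u)]
  have hcx : ConAt h x := (conR_crad h Ω x).conAt hx0
  have happ : ∀ v : E, ‖v‖ < crad h Ω x → h (x + v) = h x + germ h x v := fun v hv => apply_add_of_lt_crad hv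
  apply le_antisymm _ (mul_crad_le hc hc1 (crad_nonneg _ _ _) le_rfl hlt.le)
  by_contra hlt'
  push Not at hlt'
  set r := crad h Ω (x + u) with hr
  have hr0 : 0 ≤ r := crad_nonneg _ _ _
  have hcu : ‖c • u‖ = c * ‖u‖ := by rw [norm_smul, Real.norm_of_nonneg hc.le]
  -- choose an intermediate radius
  set s : ℝ := min (crad h Ω (x + c • u)) (c * (crad h Ω x - ‖u‖)) with hs
  have h1 : c * r < s := lt_min hlt' (by nlinarith)
  have hs0 : 0 ≤ s := le_trans (by positivity) h1.le
  have hs1 : s ≤ crad h Ω (x + c • u) := min_le_left _ _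
  have hs2 : s ≤ c * (crad h Ω x - ‖u‖) := min_le_right _ _
  have h2 : ConR h (x + c • u) s := (conR_crad h Ω _).mono hs1
  have hcx' : c * crad h Ω x ≤ crad h Ω x := mul_le_of_le_one_left hx0.le hc1
  have h3 : ConR (germ h x) (c • u) s := (conR_iff_germ happ (by rw [hcu]; nlinarith) hs0).1 h2
  have h4 := hcx.posHom.conR_smul (inv_pos.2 hc) h3
  rw [smul_smul, inv_mul_cancel₀ hc.ne', one_smul] at h4
  have h5 : c⁻¹ * s ≤ crad h Ω x - ‖u‖ := by
    rw [inv_mul_le_iff₀ hc]; exact hs2
  have h6 : ConR h (x + u) (c⁻¹ * s) := (conR_iff_germ happ (by linarith) (by positivity)).2 h4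
  have h7 : c⁻¹ * s ≤ r := by
    refine le_crad (by positivity) (by linarith [norm_nonneg u]) ?_ h6
    refine (ball_subset_ball' ?_).trans (ball_crad_subset h Ω x)
    rw [dist_eq_norm, add_sub_cancel_left]; linarith
  rw [inv_mul_le_iff₀ hc] at h7
  linarith

end Crest.Agent.R096.Germ_879
end

-- ▼ part R096/Germ6_879
section

/-!
# R096: affine points are dense, germs are finite selections of linear maps; isolated vertices; quantitative
conic radius (helper879; P5-GERM)
-/

set_option autoImplicit false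
set_option linter.unusedSectionVars false

namespace Crest.Agent.R096.Germ_879

open Set Metric Filter Topology

variable {E F : Type*} [NormedAddCommGroup E] [NormedSpace ℝ E] [NormedAddCommGroup F] [NormedSpace ℝ F]
  [FiniteDimensional ℝ E]

/-- points where `h` is affine (linear germ) are dense. -/
theorem exists_affine_near {h : E → F} {Ω : Set E} (hΩ : IsOpen Ω) (hh : LocConical h Ω) :
    ∀ x ∈ Ω, ∀ ε > 0, ∃ y ∈ Ω, ‖y - x‖ < ε ∧ Tan h y = ⊤ := by
  have main : ∀ k : ℕ, ∀ x ∈ Ω, Module.finrank ℝ E ≤ Module.finrank ℝ (Tan h x) + k →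
      ∀ ε > 0, ∃ y ∈ Ω, ‖y - x‖ < ε ∧ Tan h y = ⊤ := by
    intro k
    induction k with
    | zero =>
      intro x hx hk ε hε
      refine ⟨x, hx, by simpa using hε, Submodule.eq_top_of_finrank_eq
        (le_antisymm (Submodule.finrank_le _) (by simpa using hk))⟩
    | succ k ih =>
      intro x hx hk ε hε
      by_cases hT : Tan h x = ⊤
      · exact ⟨x, hx, by simpa using hε, hT⟩
      · obtain ⟨u, hu⟩ : ∃ u, u ∉ Tan h x := by
          by_contra hcon
          push Not at hcon
          exact hT (eq_top_iff.2 fun u _ => hcon u)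
        have hcx := hh.conAt hx
        have hc0 := crad_pos hΩ hx hcx
        set m : ℝ := min (ε / 2) (crad h Ω x) with hm
        have hm0 : 0 < m := lt_min (by positivity) hc0
        set s : ℝ := m / (2 * (1 + ‖u‖)) with hs
        have hs0 : 0 < s := by positivity
        have hsu : ‖s • u‖ < m := by
          rw [norm_smul, Real.norm_of_nonneg hs0.le, hs, div_mul_eq_mul_div, div_lt_iff₀ (by positivity)]
          nlinarith [norm_nonneg u]
        have hsT : s • u ∉ Tan h x := by
          intro hmem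
          apply hu
          have := Submodule.smul_mem _ s⁻¹ hmem
          rwa [smul_smul, inv_mul_cancel₀ hs0.ne', one_smul] at this
        have hyΩ : x + s • u ∈ Ω := add_mem_of_lt_crad (lt_of_lt_of_le hsu (min_le_right _ _))
        have hlt := (conR_crad h Ω x).finrank_Tan_lt (lt_of_lt_of_le hsu (min_le_right _ _)) (hh.conAt hyΩ) hsT
        obtain ⟨y, hyΩ', hy1, hy2⟩ := ih (x + s • u) hyΩ (by omega) (ε / 2) (by positivity)
        refine ⟨y, hyΩ', ?_, hy2⟩
        have h1 : y - x = (y - (x + s • u)) + s • u := by abel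
        have h2 : ‖s • u‖ < ε / 2 := lt_of_lt_of_le hsu (min_le_left _ _)
        rw [h1]
        exact lt_of_le_of_lt (norm_add_le _ _) (by linarith)
  intro x hx
  exact main (Module.finrank ℝ E) x hx (by omega)

/-- continuous linear form of the germ at an affine point. -/
theorem exists_clm_of_top {h : E → F} {x : E} (hT : Tan h x = ⊤) : ∃ A : E →L[ℝ] F, germ h x = A := by
  obtain ⟨A, hA⟩ := Tan_eq_top_iff.1 hT
  exact ⟨LinearMap.toContinuousLinearMap A, by rw [hA]; rfl⟩

/-- the germ is a selection of finitely many linear maps, each of which is the germ of `h` at some affine point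
arbitrarily near. -/
theorem germ_selection {h : E → F} {Ω : Set E} (hΩ : IsOpen Ω) (hh : LocConical h Ω) (hc : ContinuousOn h Ω)
    {p : E} (hp : p ∈ Ω) {ρ : ℝ} (hρ : 0 < ρ) : ∃ S : Finset (E →L[ℝ] F),
      (∀ x, ∃ A ∈ S, germ h p x = A x) ∧
      (∀ A ∈ S, ∃ y ∈ Ω, ‖y - p‖ < ρ ∧ germ h y = A) := by
  classical
  have hcp := hh.conAt hp
  have hr := crad_pos hΩ hp hcp
  set m : ℝ := min (crad h Ω p) ρ / 2 with hm
  have hmin : 0 < min (crad h Ω p) ρ := lt_min hr hρ
  have hm0 : 0 < m := by positivity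
  have hmr : m < crad h Ω p := by have := min_le_left (crad h Ω p) ρ; rw [hm]; linarith
  have hmρ : m < ρ := by have := min_le_right (crad h Ω p) ρ; rw [hm]; linarith
  have hsub : closedBall p m ⊆ Ω := (closedBall_subset_ball hmr).trans (ball_crad_subset h Ω p)
  have hfin := finite_germ_image hΩ hh (isCompact_closedBall p m) hsub
  set 𝒮 : Set (E →L[ℝ] F) := {A | (A : E → F) ∈ germ h '' closedBall p m} with h𝒮
  have hfin' : 𝒮.Finite := hfin.preimage (DFunLike.coe_injective.injOn)
  refine ⟨hfin'.toFinset, ?_, ?_⟩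
  · -- closed set of good directions
    have hclosed : IsClosed {w : E | ∃ A ∈ hfin'.toFinset, germ h p w = A w} := by
      have e : {w : E | ∃ A ∈ hfin'.toFinset, germ h p w = A w} = ⋃ A ∈ hfin'.toFinset, {w | germ h p w = A w} := by
        ext w; simp
      rw [e]
      refine isClosed_biUnion_finset fun A _ => ?_
      exact isClosed_eq (hcp.continuous_germ (continuousAt_near hΩ hc hp)) A.continuous
    have key : ∀ u : E, ‖u‖ < m → u ∈ {w : E | ∃ A ∈ hfin'.toFinset, germ h p w = A w} := by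
      intro u hu
      rw [← hclosed.closure_eq, Metric.mem_closure_iff]
      intro ε hε
      have huΩ : p + u ∈ Ω := add_mem_of_lt_crad (hu.trans hmr)
      obtain ⟨y, hyΩ, hy1, hy2⟩ := exists_affine_near hΩ hh (p + u) huΩ (min ε (m - ‖u‖)) (lt_min hε (by linarith))
      have hy3 : ‖y - p‖ < m := by
        have h1 : y - p = (y - (p + u)) + u := by abel
        rw [h1]
        have := lt_of_lt_of_le hy1 (min_le_right _ _)
        exact lt_of_le_of_lt (norm_add_le _ _) (by linarith)
      obtain ⟨A, hA⟩ := exists_clm_of_top hy2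
      refine ⟨y - p, ⟨A, ?_, ?_⟩, ?_⟩
      · rw [Set.Finite.mem_toFinset]
        exact ⟨y, by rw [mem_closedBall, dist_eq_norm]; exact hy3.le, hA⟩
      · have h2 := (conR_crad h Ω p).germ_near (u := y - p) (hy3.trans hmr) (by simpa using hh.conAt hyΩ) 1 0
        rw [add_sub_cancel, one_smul, add_zero, one_smul, germ_zero, add_zero, hA] at h2
        exact h2.symm
      · rw [dist_eq_norm]
        have h1 : u - (y - p) = -(y - (p + u)) := by abel
        rw [h1, norm_neg]
        exact lt_of_lt_of_le hy1 (min_le_left _ _)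
    intro x
    set s : ℝ := m / (2 * (1 + ‖x‖)) with hs
    have hs0 : 0 < s := by positivity
    obtain ⟨A, hA, e⟩ := key (s • x) (by
      rw [norm_smul, Real.norm_of_nonneg hs0.le, hs, div_mul_eq_mul_div, div_lt_iff₀ (by positivity)]
      nlinarith [norm_nonneg x])
    refine ⟨A, hA, ?_⟩
    rw [hcp.posHom s hs0.le, map_smul] at e
    have := congrArg (fun z => s⁻¹ • z) e
    simpa [smul_smul, inv_mul_cancel₀ hs0.ne'] using this
  · intro A hA
    rw [Set.Finite.mem_toFinset] at hA
    obtain ⟨y, hy, e⟩ := hA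
    refine ⟨y, hsub hy, ?_, e⟩
    rw [mem_closedBall, dist_eq_norm] at hy
    exact lt_of_le_of_lt hy hmρ

/-- vertices are isolated inside `Ω`. -/
theorem vertex_isolated {h : E → F} {Ω : Set E} (hh : LocConical h Ω) {x y : E}
    (hxy : ‖y - x‖ < crad h Ω x) (hT : Tan h y = ⊥) : y = x := by
  have := (Tan_le_of_lt_crad hh hxy).2
  rw [hT, Submodule.mem_bot, sub_eq_zero] at this
  exact this

/-! ### quantitative conic radius -/

/-- LOWER BOUND of the conic radius by the distance to the lower strata, locally uniformly. -/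
theorem crad_lower_near {h : E → F} {Ω : Set E} (hΩ : IsOpen Ω) (hh : LocConical h Ω) :
    ∀ x ∈ Ω, ∃ δ > 0, ∃ c > 0, ball x δ ⊆ Ω ∧ ∀ p ∈ ball x δ, ∀ d : ℝ, 0 ≤ d → d ≤ 1 →
      (∀ z ∈ Ω, Module.finrank ℝ (Tan h z) < Module.finrank ℝ (Tan h p) → d ≤ ‖z - p‖) → c * d ≤ crad h Ω p := by
  have main : ∀ k : ℕ, ∀ x ∈ Ω, Module.finrank ℝ E ≤ Module.finrank ℝ (Tan h x) + k →
      ∃ δ > 0, ∃ c > 0, ball x δ ⊆ Ω ∧ ∀ p ∈ ball x δ, ∀ d : ℝ, 0 ≤ d → d ≤ 1 →
      (∀ z ∈ Ω, Module.finrank ℝ (Tan h z) < Module.finrank ℝ (Tan h p) → d ≤ ‖z - p‖) →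
        c * d ≤ crad h Ω p := by
    intro k
    -- the points of the stratum of `x` are treated in the same way for all `k`
    have onT : ∀ x ∈ Ω, ∀ u : E, ‖u‖ ≤ crad h Ω x / 2 → u ∈ Tan h x → ∀ d : ℝ, 0 ≤ d → d ≤ 1 →
        crad h Ω x / 2 * d ≤ crad h Ω (x + u) := by
      intro x hx u hu hT d hd hd1
      have h0 := crad_pos hΩ hx (hh.conAt hx)
      have := crad_sub_le (h := h) (Ω := Ω) (x := x) (u := u) (by linarith) hT
      nlinarith
    induction k with
    | zero =>
      intro x hx hk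
      have h0 := crad_pos hΩ hx (hh.conAt hx)
      have hT : Tan h x = ⊤ := Submodule.eq_top_of_finrank_eq
        (le_antisymm (Submodule.finrank_le _) (by simpa using hk))
      refine ⟨crad h Ω x / 2, by positivity, crad h Ω x / 2, by positivity,
        (ball_subset_ball (by linarith)).trans (ball_crad_subset h Ω x), ?_⟩
      intro p hp d hd hd1 _
      have hp' : ‖p - x‖ < crad h Ω x / 2 := by rwa [mem_ball, dist_eq_norm] at hp
      have := onT x hx (p - x) hp'.le (by rw [hT]; trivial) d hd hd1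
      rwa [add_sub_cancel] at this
    | succ k ih =>
      intro x hx hk
      have hcx := hh.conAt hx
      have h0 := crad_pos hΩ hx hcx
      have h01 := crad_le_one h Ω x
      set ρ : ℝ := crad h Ω x / 4 with hρ
      have hρ0 : 0 < ρ := by positivity
      have hmemΩ : ∀ u : E, ‖u‖ < crad h Ω x → x + u ∈ Ω := fun u hu => add_mem_of_lt_crad hu
      obtain ⟨P, hP1, hP2, hP3, hP4⟩ := exists_proj (Tan h x)
      set S : Set E := (fun ω : E => x + ω) '' (sphere 0 ρ ∩ {ω | P ω = ω}) with hS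
      have hScomp : IsCompact S := by
        apply IsCompact.image _ (by fun_prop)
        exact (isCompact_sphere 0 ρ).inter_right (isClosed_eq P.continuous continuous_id)
      obtain ⟨cS, hcS0, hcS⟩ : ∃ c > 0, ∀ q ∈ S, ∀ d : ℝ, 0 ≤ d → d ≤ 1 →
          (∀ z ∈ Ω, Module.finrank ℝ (Tan h z) < Module.finrank ℝ (Tan h q) → d ≤ ‖z - q‖) →
            c * d ≤ crad h Ω q := by
        refine hScomp.induction_on (p := fun t => ∃ c > 0, ∀ q ∈ t, ∀ d : ℝ, 0 ≤ d → d ≤ 1 →
          (∀ z ∈ Ω, Module.finrank ℝ (Tan h z) < Module.finrank ℝ (Tan h q) → d ≤ ‖z - q‖) →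
            c * d ≤ crad h Ω q) ⟨1, one_pos, by simp⟩ ?_ ?_ ?_
        · rintro s t hst ⟨c, hc0, hc⟩
          exact ⟨c, hc0, fun q hq => hc q (hst hq)⟩
        · rintro s t ⟨c, hc0, hc⟩ ⟨c', hc0', hc'⟩
          refine ⟨min c c', lt_min hc0 hc0', ?_⟩
          rintro q (hq | hq) d hd hd1 H
          · exact (mul_le_mul_of_nonneg_right (min_le_left _ _) hd).trans (hc q hq d hd hd1 H)
          · exact (mul_le_mul_of_nonneg_right (min_le_right _ _) hd).trans (hc' q hq d hd hd1 H)
        · rintro z ⟨ω, ⟨hω1, hω2⟩, rfl⟩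
          have hω1' : ‖ω‖ = ρ := by simpa using hω1
          have hω2' : P ω = ω := hω2
          have hωr : ‖ω‖ < crad h Ω x := by rw [hω1', hρ]; linarith
          have hzΩ : x + ω ∈ Ω := hmemΩ ω hωr
          have hnot : ω ∉ Tan h x := by
            intro hmem
            have h1 := hP3 ω hmem
            rw [hω2'] at h1
            rw [h1, norm_zero] at hω1'
            exact hρ0.ne hω1'
          have hlt := (conR_crad h Ω x).finrank_Tan_lt hωr (hh.conAt hzΩ) hnot
          obtain ⟨δ, hδ, c, hc, _, H⟩ := ih (x + ω) hzΩ (by omega)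
          exact ⟨ball (x + ω) δ, mem_nhdsWithin_of_mem_nhds (ball_mem_nhds _ hδ), c, hc, H⟩
      have hPn := norm_nonneg P
      set δ : ℝ := ρ / (2 + ‖P‖) with hδ
      have hδ0 : 0 < δ := by positivity
      have hδρ : δ ≤ ρ / 2 := by
        rw [hδ, div_le_div_iff₀ (by positivity) (by positivity)]
        nlinarith
      refine ⟨δ, hδ0, min (min cS 1) (crad h Ω x / 2), lt_min (lt_min hcS0 one_pos) (by positivity),
        (ball_subset_ball (by rw [hρ] at hδρ; linarith)).trans (ball_crad_subset h Ω x), ?_⟩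
      intro p hp d hd hd1 Hd
      set u : E := p - x with hu
      have hpu : p = x + u := by rw [hu]; abel
      have hun : ‖u‖ < δ := by rwa [mem_ball, dist_eq_norm] at hp
      have hun' : ‖u‖ * (2 + ‖P‖) < ρ := by rwa [hδ, lt_div_iff₀ (by positivity)] at hun
      have hu2 : ‖u‖ < ρ / 2 := lt_of_lt_of_le hun hδρ
      have hcr4 : crad h Ω x = 4 * ρ := by rw [hρ]; ring
      have hPu : ‖P u‖ < ρ := lt_of_le_of_lt (P.le_opNorm u) (by nlinarith [norm_nonneg u])
      by_cases hz : P u = 0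
      · have huT : u ∈ Tan h x := by simpa [hz] using hP1 u
        have h1 := onT x hx u (by rw [hcr4]; linarith) huT d hd hd1
        rw [hpu]
        exact (mul_le_mul_of_nonneg_right (min_le_right _ _) hd).trans h1
      · have hPp : 0 < ‖P u‖ := norm_pos_iff.2 hz
        set l : ℝ := ‖P u‖ / ρ with hl
        have hl0 : 0 < l := by positivity
        have hl1 : l < 1 := by rwa [hl, div_lt_one hρ0]
        set ω : E := (ρ / ‖P u‖) • P u with hω
        have hωn : ‖ω‖ = ρ := by
          rw [hω, norm_smul, Real.norm_of_nonneg (by positivity), div_mul_cancel₀ _ hPp.ne']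
        have hωP : P ω = ω := by rw [hω, map_smul, hP4]
        have hlω : l • ω = P u := by
          rw [hω, hl, smul_smul, div_mul_div_cancel₀ hρ0.ne', div_self hPp.ne', one_smul]
        set t : E := u - P u with ht
        have htT : t ∈ Tan h x := hP1 u
        have hutω : u = t + l • ω := by rw [hlω, ht]; abel
        have htn : ‖t‖ < 3 / 2 * ρ := by
          rw [ht]
          exact lt_of_le_of_lt (norm_sub_le _ _) (by linarith)
        have hq : x + ω ∈ S := ⟨ω, ⟨by simpa using hωn, hωP⟩, rfl⟩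
        have hωr : ‖ω‖ < crad h Ω x := by rw [hωn, hcr4]; linarith
        have hqΩ : x + ω ∈ Ω := hmemΩ ω hωr
        -- comparison of the lineality spaces under `w ↦ t + l • w`
        have hcmp : ∀ w : E, ‖w‖ < 2 * ρ → x + w ∈ Ω ∧ x + (t + l • w) ∈ Ω ∧
            germ h (x + (t + l • w)) = germ h (x + w) := by
          intro w hw
          have hwr : ‖w‖ < crad h Ω x := by rw [hcr4]; linarith
          have hlw : ‖l • w‖ < 2 * ρ := by
            rw [norm_smul, Real.norm_of_nonneg hl0.le]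
            exact lt_of_le_of_lt (mul_le_of_le_one_left (norm_nonneg w) hl1.le) hw
          have hlwr : ‖l • w‖ < crad h Ω x := by rw [hcr4]; linarith
          have htw : ‖t + l • w‖ < crad h Ω x := by
            rw [hcr4]
            exact lt_of_le_of_lt (norm_add_le _ _) (by linarith)
          refine ⟨hmemΩ w hwr, hmemΩ _ htw, ?_⟩
          have e1 := (conR_crad h Ω x).germ_scale hwr (hh.conAt (hmemΩ w hwr)) hl0 hlwr (hh.conAt (hmemΩ _ hlwr))
          have e2 := (conR_crad h Ω x).germ_trans hlwr (hh.conAt (hmemΩ _ hlwr)) htT htw (hh.conAt (hmemΩ _ htw))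
          rw [e2, e1]
        have hpq : germ h p = germ h (x + ω) := by
          rw [hpu, hutω]
          exact (hcmp ω (by rw [hωn]; linarith)).2.2
        have hTpq : Tan h p = Tan h (x + ω) := Tan_eq_of_germ_eq hpq
        have hnot : ω ∉ Tan h x := by
          intro hmem
          have h1 := hP3 ω hmem
          rw [hωP] at h1
          rw [h1, norm_zero] at hωn
          exact hρ0.ne hωn
        have hlt := (conR_crad h Ω x).finrank_Tan_lt hωr (hh.conAt hqΩ) hnot
        -- `d ≤ l * ρ`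
        have hdl : d ≤ l * ρ := by
          have htr : ‖t‖ < crad h Ω x := by rw [hcr4]; linarith
          have h2 := Hd (x + t) (hmemΩ t htr) (by
            rw [hTpq, (conR_crad h Ω x).Tan_eq_of_mem htr (hh.conAt (hmemΩ t htr)) htT]; exact hlt)
          have e : x + t - p = -(l • ω) := by rw [hpu, hutω]; abel
          rw [e, norm_neg, norm_smul, Real.norm_of_nonneg hl0.le, hωn] at h2
          exact h2
        have hdl' : d / l ≤ ρ := by rw [div_le_iff₀ hl0]; linarith
        have h3 := hcS (x + ω) hq (d / l) (by positivity) (by linarith) (by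
          intro z hzΩ hzlt
          rw [div_le_iff₀ hl0]
          by_cases hzb : ‖z - x‖ < 2 * ρ
          · obtain ⟨_, h4, h5⟩ := hcmp (z - x) hzb
            have h6 := Hd _ h4 (by
              rw [hTpq, Tan_eq_of_germ_eq h5, add_sub_cancel]; exact hzlt)
            have e : x + (t + l • (z - x)) - p = l • (z - (x + ω)) := by
              rw [hpu, hutω, smul_sub, smul_sub, smul_add]; abel
            rw [e, norm_smul, Real.norm_of_nonneg hl0.le] at h6
            linarith
          · push Not at hzb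
            have h7 : ρ ≤ ‖z - (x + ω)‖ := by
              have h8 : z - x = (z - (x + ω)) + ω := by abel
              rw [h8] at hzb
              have := norm_add_le (z - (x + ω)) ω
              linarith
            nlinarith)
        -- transfer of the radius
        set r : ℝ := min (crad h Ω (x + ω)) ρ with hr
        have hr0 : 0 ≤ r := le_min (crad_nonneg _ _ _) hρ0.le
        have hr1 : r ≤ crad h Ω (x + ω) := min_le_left _ _
        have hrρ : r ≤ ρ := min_le_right _ _
        have happ : ∀ v : E, ‖v‖ < crad h Ω x → h (x + v) = h x + germ h x v := fun v hv => apply_add_of_lt_crad hv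
        have h9 : ConR (germ h x) ω r :=
          (conR_iff_germ happ (by rw [hωn, hcr4]; linarith) hr0).1 ((conR_crad h Ω (x + ω)).mono hr1)
        have h10 : ConR (germ h x) (l • ω) (l * r) := hcx.posHom.conR_smul hl0 h9
        have h11 : ConR (germ h x) (t + l • ω) (l * r) := by
          intro v hv τ hτ
          rw [add_assoc, add_assoc, germ_add_of_mem htT, germ_add_of_mem htT, germ_add_of_mem htT, h10 v hv τ hτ,
            add_sub_add_left_eq_sub, add_assoc]
        have hlr : l * r ≤ ρ := by nlinarith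
        have h12 : ConR h p (l * r) := by
          rw [hpu, hutω]
          refine (conR_iff_germ happ ?_ (by positivity)).2 h11
          rw [← hutω, hcr4]; linarith
        have h13 : l * r ≤ crad h Ω p := by
          refine le_crad (by positivity) (by linarith) ?_ h12
          refine (ball_subset_ball' ?_).trans (ball_crad_subset h Ω x)
          have : dist p x = ‖u‖ := by rw [dist_eq_norm]
          rw [this, hcr4]; linarith
        have h14 : min cS 1 * d ≤ l * r := by
          have h15 : min cS 1 * (d / l) ≤ r := by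
            refine le_min ?_ ?_
            · exact (mul_le_mul_of_nonneg_right (min_le_left _ _) (by positivity)).trans h3
            · exact (mul_le_mul_of_nonneg_right (min_le_right _ _) (by positivity)).trans (by linarith)
          have h16 := mul_le_mul_of_nonneg_left h15 hl0.le
          have e : l * (min cS 1 * (d / l)) = min cS 1 * d := by field_simp
          rwa [e] at h16
        exact (mul_le_mul_of_nonneg_right (min_le_left _ _) hd).trans (h14.trans h13)
  intro x hx
  exact main (Module.finrank ℝ E) x hx (by omega)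

/-- LOWER BOUND on compact sets. -/
theorem crad_lower {h : E → F} {Ω : Set E} (hΩ : IsOpen Ω) (hh : LocConical h Ω) {K : Set E} (hK : IsCompact K)
    (hKΩ : K ⊆ Ω) : ∃ c > 0, ∀ p ∈ K, ∀ d : ℝ, 0 ≤ d → d ≤ 1 →
      (∀ z ∈ Ω, Module.finrank ℝ (Tan h z) < Module.finrank ℝ (Tan h p) → d ≤ ‖z - p‖) → c * d ≤ crad h Ω p := by
  refine hK.induction_on (p := fun t => ∃ c > 0, ∀ q ∈ t, ∀ d : ℝ, 0 ≤ d → d ≤ 1 →
    (∀ z ∈ Ω, Module.finrank ℝ (Tan h z) < Module.finrank ℝ (Tan h q) → d ≤ ‖z - q‖) →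
      c * d ≤ crad h Ω q) ⟨1, one_pos, by simp⟩ ?_ ?_ ?_
  · rintro s t hst ⟨c, hc0, hc⟩
    exact ⟨c, hc0, fun q hq => hc q (hst hq)⟩
  · rintro s t ⟨c, hc0, hc⟩ ⟨c', hc0', hc'⟩
    refine ⟨min c c', lt_min hc0 hc0', ?_⟩
    rintro q (hq | hq) d hd hd1 H
    · exact (mul_le_mul_of_nonneg_right (min_le_left _ _) hd).trans (hc q hq d hd hd1 H)
    · exact (mul_le_mul_of_nonneg_right (min_le_right _ _) hd).trans (hc' q hq d hd hd1 H)
  · intro x hx
    obtain ⟨δ, hδ, c, hc, _, H⟩ := crad_lower_near hΩ hh x (hKΩ hx)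
    exact ⟨ball x δ, mem_nhdsWithin_of_mem_nhds (ball_mem_nhds _ hδ), c, hc, H⟩

end Crest.Agent.R096.Germ_879
end

-- ▼ part R096/GermM_879
section

/-!
# R096: `MollAt` (class of 119/205) for locally conical maps at points whose lineality space has codimension `≤ 1`;
transport of `MollAt` (helper879; P5-GERM)
-/

set_option autoImplicit false
set_option linter.unusedSectionVars false

namespace Crest.Agent.R096.Germ_879

open Set Metric Filter Topology MeasureTheory
open Crest.Agent.R096.P5Spec_205 (MollAt)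
open scoped NNReal

/-! ### a determinant functional for a hyperplane -/

section det

variable {E : Type*} [NormedAddCommGroup E] [NormedSpace ℝ E] [FiniteDimensional ℝ E]

theorem exists_det_functional (T : Submodule ℝ E) (hT : Module.finrank ℝ E = Module.finrank ℝ T + 1) {u : E}
    (hu : u ∉ T) (A : E →L[ℝ] E) : ∃ D : E →ₗ[ℝ] ℝ, (∀ t ∈ T, D (A t) = 0) ∧
      ∀ C : E →L[ℝ] E, (∀ t ∈ T, C t = A t) → C.det = D (C u) := by
  classical
  set m := Module.finrank ℝ T with hm
  let b' : Module.Basis (Fin m) ℝ T := Module.finBasis ℝ T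
  have hli : ∀ (c : ℝ), ∀ x ∈ T, c • u + x = 0 → c = 0 := by
    intro c x hx hc
    by_contra hc0
    apply hu
    have : u = c⁻¹ • (-x) := by
      rw [eq_inv_smul_iff₀ hc0]
      exact eq_neg_of_add_eq_zero_left hc
    rw [this]
    exact T.smul_mem _ (T.neg_mem hx)
  have hq : Module.finrank ℝ (E ⧸ T) = 1 := by
    have := Submodule.finrank_quotient_add_finrank T
    omega
  have hne : (Submodule.Quotient.mk u : E ⧸ T) ≠ 0 := by
    rwa [Ne, Submodule.Quotient.mk_eq_zero]
  have hsp : ∀ z : E, ∃ c : ℝ, z + c • u ∈ T := by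
    intro z
    obtain ⟨c, hc⟩ := (finrank_eq_one_iff_of_nonzero' _ hne).1 hq (Submodule.Quotient.mk z)
    refine ⟨-c, ?_⟩
    rw [← Submodule.Quotient.mk_eq_zero, Submodule.Quotient.mk_add, Submodule.Quotient.mk_smul, ← hc]
    simp
  let b : Module.Basis (Fin (m + 1)) ℝ E := Module.Basis.mkFinCons u b' hli hsp
  have hb : (b : Fin (m + 1) → E) = Fin.cons u ((↑) ∘ b') := Module.Basis.coe_mkFinCons u b' hli hsp
  let tail : Fin m → E := fun i => A (b' i)
  let D : E →ₗ[ℝ] ℝ := b.det.toMultilinearMap.toLinearMap (Fin.cons 0 tail : Fin (m + 1) → E) 0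
  have hD : ∀ w, D w = b.det (Fin.cons w tail : Fin (m + 1) → E) := by
    intro w
    show b.det (Function.update (Fin.cons 0 tail : Fin (m + 1) → E) 0 w) = _
    rw [Fin.update_cons_zero]
  refine ⟨D, ?_, ?_⟩
  · intro t ht
    have h1 : ∀ i, D (A (b' i)) = 0 := by
      intro i
      rw [hD]
      refine b.det.map_eq_zero_of_eq _ (i := 0) (j := i.succ) ?_ (Fin.succ_ne_zero i).symm
      rw [Fin.cons_zero, Fin.cons_succ]
    have h2 : (D ∘ₗ (A : E →ₗ[ℝ] E) ∘ₗ T.subtype) = 0 := b'.ext fun i => by simpa using h1 i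
    have h3 := LinearMap.congr_fun h2 ⟨t, ht⟩
    simpa using h3
  · intro C hC
    have h1 := b.det_comp (C : E →ₗ[ℝ] E) b
    rw [Module.Basis.det_self, mul_one] at h1
    rw [ContinuousLinearMap.det, ← h1, hD]
    congr 1
    funext i
    refine Fin.cases ?_ (fun j => ?_) i
    · simp [hb]
    · simp [hb, tail, hC]

end det

/-! ### differentiability of conical maps -/

section diff

variable {E F : Type*} [NormedAddCommGroup E] [NormedSpace ℝ E] [NormedAddCommGroup F] [NormedSpace ℝ F]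

theorem ConAt.germ_eq_fderiv {h : E → F} {y : E} (hy : ConAt h y) (hd : DifferentiableAt ℝ h y) (v : E) :
    germ h y v = fderiv ℝ h y v := by
  have h1 : HasDerivWithinAt (fun t : ℝ => h (y + t • v)) (fderiv ℝ h y v) (Ici 0) 0 := by
    have h2 : HasFDerivAt h (fderiv ℝ h y) (y + (0 : ℝ) • v) := by simpa using hd.hasFDerivAt
    have h3 : HasDerivAt (fun t : ℝ => y + t • v) v 0 := by
      simpa using ((hasDerivAt_id (0 : ℝ)).smul_const v).const_add y
    exact (h2.comp_hasDerivAt (0 : ℝ) h3).hasDerivWithinAt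
  have h4 : HasDerivWithinAt (fun t : ℝ => h (y + t • v)) (germ h y v) (Ici 0) 0 := by
    have h5 : HasDerivWithinAt (fun t : ℝ => h y + t • germ h y v) (germ h y v) (Ici 0) 0 := by
      simpa using (((hasDerivAt_id (0 : ℝ)).smul_const (germ h y v)).const_add (h y)).hasDerivWithinAt
    refine h5.congr_of_eventuallyEq ?_ (by simp)
    have hev : ∀ᶠ s in 𝓝 (0 : ℝ), s * ‖v‖ < rad h y := by
      have : ContinuousAt (fun s : ℝ => s * ‖v‖) 0 := by fun_prop
      exact this.eventually (gt_mem_nhds (a := rad h y) (by simpa using rad_pos h y))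
    filter_upwards [mem_nhdsWithin_of_mem_nhds hev, self_mem_nhdsWithin] with s hs hs0
    exact hy.apply_add_smul hs0 hs
  have huniq := (uniqueDiffWithinAt_Ici (0 : ℝ)).eq_deriv (Ici (0 : ℝ)) h4 h1
  exact huniq

theorem ConAt.Tan_eq_top_of_differentiableAt {h : E → F} {y : E} (hy : ConAt h y) (hd : DifferentiableAt ℝ h y) :
    Tan h y = ⊤ :=
  Tan_eq_top_iff.2 ⟨(fderiv ℝ h y : E →ₗ[ℝ] F), funext fun v => hy.germ_eq_fderiv hd v⟩

end diff

section moll

variable {E : Type*} [NormedAddCommGroup E] [InnerProductSpace ℝ E] [MeasureSpace E]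

/-- transport of `MollAt` under local equality up to translations. -/
theorem MollAt.transport [BorelSpace E] [FiniteDimensional ℝ E] [(volume : Measure E).IsAddHaarMeasure]
    {f g : E → E} {x₀ x₁ c : E} {r : ℝ} (hr : 0 < r)
    (hf : MollAt f x₀) (hg : ∀ v, ‖v‖ < r → g (x₁ + v) = c + f (x₀ + v)) : MollAt g x₁ := by
  obtain ⟨r', hr', K, hK1, hK2, hK3, ⟨L, hL⟩, hae⟩ := hf
  have hm : 0 < min r r' := lt_min hr hr'
  have hg' : ∀ y, ‖y - x₁‖ < r → g y = c + f (y + (x₀ - x₁)) := by
    intro y hy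
    have := hg (y - x₁) hy
    rw [add_sub_cancel] at this
    rw [this]
    congr 2
    abel
  refine ⟨min r r', hm, K, hK1, hK2, hK3, ⟨L, ?_⟩, ?_⟩
  · refine LipschitzOnWith.of_dist_le_mul fun a ha b hb => ?_
    rw [mem_ball, dist_eq_norm] at ha hb
    have ha' : a + (x₀ - x₁) ∈ ball x₀ r' := by
      rw [mem_ball, dist_eq_norm]
      have : a + (x₀ - x₁) - x₀ = a - x₁ := by abel
      rw [this]; exact lt_of_lt_of_le ha (min_le_right _ _)
    have hb' : b + (x₀ - x₁) ∈ ball x₀ r' := by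
      rw [mem_ball, dist_eq_norm]
      have : b + (x₀ - x₁) - x₀ = b - x₁ := by abel
      rw [this]; exact lt_of_lt_of_le hb (min_le_right _ _)
    have h1 := hL.dist_le_mul _ ha' _ hb'
    rw [hg' a (lt_of_lt_of_le ha (min_le_left _ _)), hg' b (lt_of_lt_of_le hb (min_le_left _ _)), dist_add_left]
    rwa [dist_add_right] at h1
  · have h1 : ∀ᵐ y ∂(volume : Measure E), y + (x₀ - x₁) ∈ ball x₀ r' → fderiv ℝ f (y + (x₀ - x₁)) ∈ K :=
      (measurePreserving_add_right (volume : Measure E) (x₀ - x₁)).quasiMeasurePreserving.ae hae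
    filter_upwards [h1] with y hy hyb
    rw [mem_ball, dist_eq_norm] at hyb
    have hy' : y + (x₀ - x₁) ∈ ball x₀ r' := by
      rw [mem_ball, dist_eq_norm]
      have : y + (x₀ - x₁) - x₀ = y - x₁ := by abel
      rw [this]; exact lt_of_lt_of_le hyb (min_le_right _ _)
    have he : g =ᶠ[𝓝 y] fun z => c + f (z + (x₀ - x₁)) := by
      have hopen : IsOpen {z : E | ‖z - x₁‖ < r} := isOpen_lt (by fun_prop) continuous_const
      filter_upwards [hopen.mem_nhds (lt_of_lt_of_le hyb (min_le_left _ _))] with z hz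
      exact hg' z hz
    rw [he.fderiv_eq, fderiv_const_add, fderiv_comp_add_right]
    exact hy hy'

/-- scaling of `MollAt` for positively homogeneous maps. -/
theorem MollAt.of_smul [BorelSpace E] [FiniteDimensional ℝ E] [(volume : Measure E).IsAddHaarMeasure]
    {f : E → E} (hf : PosHom f) {x : E} {t : ℝ} (ht : 0 < t) (h : MollAt f (t • x)) : MollAt f x := by
  obtain ⟨r, hr, K, hK1, hK2, hK3, ⟨L, hL⟩, hae⟩ := h
  have hmem : ∀ y ∈ ball x (r / t), t • y ∈ ball (t • x) r := by
    intro y hy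
    rw [mem_ball, dist_eq_norm] at hy ⊢
    rw [← smul_sub, norm_smul, Real.norm_of_nonneg ht.le]
    rw [lt_div_iff₀ ht] at hy
    linarith
  have hsc : ∀ y, f y = t⁻¹ • f (t • y) := by
    intro y
    rw [hf t ht.le, smul_smul, inv_mul_cancel₀ ht.ne', one_smul]
  refine ⟨r / t, by positivity, K, hK1, hK2, hK3, ⟨L, ?_⟩, ?_⟩
  · refine LipschitzOnWith.of_dist_le_mul fun a ha b hb => ?_
    have h1 := hL.dist_le_mul _ (hmem a ha) _ (hmem b hb)
    rw [hf t ht.le, hf t ht.le, dist_smul₀, dist_smul₀, Real.norm_of_nonneg ht.le] at h1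
    have h2 : t * dist (f a) (f b) ≤ t * (L * dist a b) := by linarith
    exact le_of_mul_le_mul_left h2 ht
  · have h1 : ∀ᵐ y ∂(volume : Measure E), t • y ∈ ball (t • x) r → fderiv ℝ f (t • y) ∈ K :=
      (Measure.quasiMeasurePreserving_smul (volume : Measure E) ht.ne').ae hae
    filter_upwards [h1] with y hy hyb
    have e : fderiv ℝ f y = fderiv ℝ f (t • y) := by
      have h2 : f = fun z => t⁻¹ • f (t • z) := funext hsc
      have h3 : fderiv ℝ f y = fderiv ℝ (fun z => t⁻¹ • f (t • z)) y := by rw [← h2]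
      have h4 : (fun z => t⁻¹ • f (t • z)) = t⁻¹ • (fun z => f (t • z)) := rfl
      rw [h3, h4, fderiv_const_smul_field, Pi.smul_apply, fderiv_comp_smul, smul_smul, inv_mul_cancel₀ ht.ne', one_smul]
    rw [e]
    exact hy (hmem y hyb)

/-- MOLL AT FOLDS: a continuous locally conical map whose affine germs have positive determinant is in the class
`MollAt` at every point whose lineality space has codimension at most one. -/
theorem mollAt_of_codim_le_one [BorelSpace E] [FiniteDimensional ℝ E] [(volume : Measure E).IsAddHaarMeasure]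
    {h : E → E} {Ω : Set E} (hΩ : IsOpen Ω) (hh : LocConical h Ω) (hc : ContinuousOn h Ω)
    (hdet : ∀ y ∈ Ω, ∀ A : E →L[ℝ] E, germ h y = A → 0 < A.det) {p : E} (hp : p ∈ Ω)
    (hcod : Module.finrank ℝ E ≤ Module.finrank ℝ (Tan h p) + 1) : MollAt h p := by
  obtain ⟨δ, hδ, L, hδΩ, hL⟩ := exists_lipschitzOnWith_near hΩ hh hc hp
  have hcr := crad_pos hΩ hp (hh.conAt hp)
  set r : ℝ := min δ (crad h Ω p) / 2 with hrdef
  have hmin : 0 < min δ (crad h Ω p) := lt_min hδ hcr
  have hr : 0 < r := by positivity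
  have hrδ : r < δ := by have := min_le_left δ (crad h Ω p); rw [hrdef]; linarith
  have hrc : r < crad h Ω p := by have := min_le_right δ (crad h Ω p); rw [hrdef]; linarith
  have hsub : closedBall p r ⊆ Ω := (closedBall_subset_ball hrc).trans (ball_crad_subset h Ω p)
  have hfin := finite_germ_image hΩ hh (isCompact_closedBall p r) hsub
  set S : Set (E →L[ℝ] E) := {A | (A : E → E) ∈ germ h '' closedBall p r} with hS
  have hSfin : S.Finite := hfin.preimage (DFunLike.coe_injective.injOn)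
  -- all elements of `S` agree with the germ at `p` on `Tan h p`
  have hagree : ∀ A ∈ S, ∀ t ∈ Tan h p, A t = germ h p t := by
    rintro A ⟨y, hy, e⟩ t ht
    rw [mem_closedBall, dist_eq_norm] at hy
    have h1 := (conR_crad h Ω p).germ_near_of_mem (u := y - p) (lt_of_le_of_lt hy hrc)
      (by simpa using hh.conAt (hsub (by rwa [mem_closedBall, dist_eq_norm]))) ht 1 0
    simp only [add_sub_cancel, one_smul, add_zero, germ_zero] at h1
    rw [← h1, e]
  have hdetS : ∀ A ∈ S, 0 < A.det := by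
    rintro A ⟨y, hy, e⟩
    exact hdet y (hsub hy) A e
  -- positivity of the determinant on the convex hull
  have hK3 : ∀ A ∈ convexHull ℝ S, 0 < A.det := by
    by_cases htop : Tan h p = ⊤
    · obtain ⟨A₀, hA₀⟩ := exists_clm_of_top htop
      have hSsub : S ⊆ {A₀} := by
        intro A hA
        rw [mem_singleton_iff]
        ext t
        rw [hagree A hA t (by rw [htop]; trivial), hA₀]
      have h0 : 0 < A₀.det := hdet p hp A₀ hA₀
      intro A hA
      have h1 := convexHull_min hSsub (convex_singleton A₀) hA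
      rw [mem_singleton_iff] at h1
      rw [h1]; exact h0
    · obtain ⟨u, hu⟩ : ∃ u, u ∉ Tan h p := by
        by_contra hcon
        push Not at hcon
        exact htop (eq_top_iff.2 fun u _ => hcon u)
      have hlt : Module.finrank ℝ (Tan h p) < Module.finrank ℝ E :=
        Submodule.finrank_lt htop
      have hT : Module.finrank ℝ E = Module.finrank ℝ (Tan h p) + 1 := by omega
      rcases S.eq_empty_or_nonempty with hem | ⟨A₀, hA₀⟩
      · intro A hA
        rw [hem, convexHull_empty] at hA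
        exact absurd hA (notMem_empty A)
      · obtain ⟨D, _, hD⟩ := exists_det_functional (Tan h p) hT hu A₀
        have hSsub : S ⊆ {C : E →L[ℝ] E | (∀ t ∈ Tan h p, C t = A₀ t) ∧ 0 < D (C u)} := by
          intro C hC
          have h1 : ∀ t ∈ Tan h p, C t = A₀ t := fun t ht => by rw [hagree C hC t ht, hagree A₀ hA₀ t ht]
          refine ⟨h1, ?_⟩
          rw [← hD C h1]
          exact hdetS C hC
        have hconv : Convex ℝ {C : E →L[ℝ] E | (∀ t ∈ Tan h p, C t = A₀ t) ∧ 0 < D (C u)} := by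
          rintro C ⟨hC1, hC2⟩ C' ⟨hC1', hC2'⟩ a b ha hb hab
          refine ⟨fun t ht => ?_, ?_⟩
          · rw [add_apply, smul_apply, smul_apply, hC1 t ht,
              hC1' t ht, ← add_smul, hab, one_smul]
          · rw [add_apply, smul_apply, smul_apply, map_add,
              map_smul, map_smul, smul_eq_mul, smul_eq_mul]
            rcases ha.eq_or_lt with rfl | ha'
            · have : b = 1 := by linarith
              rw [this]; simpa using hC2'
            · have := mul_pos ha' hC2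
              have := mul_nonneg hb hC2'.le
              linarith
        intro A hA
        obtain ⟨h1, h2⟩ := convexHull_min hSsub hconv hA
        rw [hD A h1]
        exact h2
  refine ⟨r, hr, convexHull ℝ S, convex_convexHull ℝ S, hSfin.isCompact_convexHull ℝ, hK3,
    ⟨L, hL.mono (ball_subset_ball hrδ.le)⟩, ?_⟩
  have hrad := (hL.mono (ball_subset_ball hrδ.le)).ae_differentiableWithinAt_of_mem (μ := (volume : Measure E))
  filter_upwards [hrad] with y hy hyb
  have hd : DifferentiableAt ℝ h y := (hy hyb).differentiableAt (isOpen_ball.mem_nhds hyb)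
  have hyΩ : y ∈ Ω := hsub (ball_subset_closedBall hyb)
  refine subset_convexHull ℝ S ⟨y, ball_subset_closedBall hyb, ?_⟩
  funext v
  exact (hh.conAt hyΩ).germ_eq_fderiv hd v

end moll

end Crest.Agent.R096.Germ_879
end

-- ▼ part R096/GermS_879
section

/-!
Row 96 (S0127), helper879.  P5-GERM: the structure `P5Spec_205.Germs` for a locally conical
homeomorphism between open sets of a three dimensional space, all of whose affine germs have positive
determinant; the set `Z` of vertices and edge points is relatively closed and null.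
-/

set_option autoImplicit false
set_option linter.unusedSectionVars false
set_option linter.style.longLine false

open Set Metric MeasureTheory Filter Topology
open scoped NNReal

namespace Crest.Agent.R096.Germ_879

open Crest.Agent.R096.P5Spec_205 (MollAt)

section dir

variable {E F : Type*} [NormedAddCommGroup E] [NormedSpace ℝ E] [NormedAddCommGroup F] [NormedSpace ℝ F]

open Classical in
/-- a unit vector along which `H` splits linearly (junk value `0` if there is none); it depends on `H` only. -/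
noncomputable def dir (H : E → F) : E :=
  if hx : ∃ e : E, ‖e‖ = 1 ∧ ∀ (x : E) (s : ℝ), H (x + s • e) = H x + s • H e then hx.choose else 0

theorem dir_spec {H : E → F} (hx : ∃ e : E, ‖e‖ = 1 ∧ ∀ (x : E) (s : ℝ), H (x + s • e) = H x + s • H e) :
    ‖dir H‖ = 1 ∧ ∀ (x : E) (s : ℝ), H (x + s • dir H) = H x + s • H (dir H) := by
  unfold dir
  rw [dif_pos hx]
  exact hx.choose_spec

theorem mem_Tan_iff' {h : E → F} {p u : E} :
    u ∈ Tan h p ↔ ∀ (x : E) (s : ℝ), germ h p (x + s • u) = germ h p x + s • germ h p u := by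
  rw [mem_Tan]
  constructor
  · intro H x s
    rw [add_comm x, H s x, add_comm]
  · intro H s x
    rw [add_comm, H x s, add_comm]

theorem norm_smul_inv_norm_aux {u : E} (hu : u ≠ 0) : ‖‖u‖⁻¹ • u‖ = 1 := by
  rw [norm_smul, norm_inv, norm_norm, inv_mul_cancel₀ (norm_ne_zero_iff.2 hu)]

theorem dir_mem_Tan {h : E → F} {p : E} (hT : Tan h p ≠ ⊥) : ‖dir (germ h p)‖ = 1 ∧ dir (germ h p) ∈ Tan h p := by
  obtain ⟨u, hu, hu0⟩ := (Submodule.ne_bot_iff _).1 hT
  have hex : ∃ e : E, ‖e‖ = 1 ∧ ∀ (x : E) (s : ℝ), germ h p (x + s • e) = germ h p x + s • germ h p e := by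
    refine ⟨‖u‖⁻¹ • u, norm_smul_inv_norm_aux hu0, ?_⟩
    rw [← mem_Tan_iff']
    exact (Tan h p).smul_mem _ hu
  have := dir_spec hex
  exact ⟨this.1, mem_Tan_iff'.2 this.2⟩

theorem mem_Tan_iff_dir [FiniteDimensional ℝ E] {h : E → F} {p : E} (hT : Module.finrank ℝ (Tan h p) = 1) {v : E} :
    v ∈ Tan h p ↔ ∃ s : ℝ, v = s • dir (germ h p) := by
  have hne : Tan h p ≠ ⊥ := by
    intro h0
    rw [h0, finrank_bot] at hT
    exact zero_ne_one hT
  obtain ⟨h1, h2⟩ := dir_mem_Tan hne
  constructor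
  · intro hv
    have hd : (⟨dir (germ h p), h2⟩ : Tan h p) ≠ 0 := by
      intro h0
      have : dir (germ h p) = 0 := congrArg Subtype.val h0
      rw [this, norm_zero] at h1
      exact zero_ne_one h1
    obtain ⟨s, hs⟩ := (finrank_eq_one_iff_of_nonzero' _ hd).1 hT ⟨v, hv⟩
    exact ⟨s, (congrArg Subtype.val hs).symm⟩
  · rintro ⟨s, rfl⟩
    exact (Tan h p).smul_mem _ h2

end dir

section sets

variable {E F : Type*} [NormedAddCommGroup E] [NormedSpace ℝ E] [NormedAddCommGroup F] [NormedSpace ℝ F]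

/-- vertices -/
def VSet (h : E → F) (Ω : Set E) : Set E := {p | p ∈ Ω ∧ Module.finrank ℝ (Tan h p) = 0}

/-- vertices and edge points -/
def ZSet (h : E → F) (Ω : Set E) : Set E := {p | p ∈ Ω ∧ Module.finrank ℝ (Tan h p) ≤ 1}

theorem VSet_subset_ZSet (h : E → F) (Ω : Set E) : VSet h Ω ⊆ ZSet h Ω := fun p hp => ⟨hp.1, by rw [hp.2]; exact zero_le_one⟩

theorem ZSet_subset (h : E → F) (Ω : Set E) : ZSet h Ω ⊆ Ω := fun _ hp => hp.1

/-- `Z` is relatively closed. -/
theorem ZSet_closed [FiniteDimensional ℝ E] {h : E → F} {Ω : Set E} (hΩ : IsOpen Ω) (hh : LocConical h Ω) {q : E}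
    (hq : q ∈ Ω) (hqZ : q ∉ ZSet h Ω) : ∃ r > 0, ∀ y ∈ ball q r, y ∉ ZSet h Ω := by
  refine ⟨crad h Ω q, crad_pos hΩ hq (hh.conAt hq), fun y hy hyZ => hqZ ⟨hq, ?_⟩⟩
  rw [mem_ball, dist_eq_norm] at hy
  have h1 := (conR_crad h Ω q).finrank_Tan_le hy (by simpa using hh.conAt hyZ.1)
  rw [add_sub_cancel] at h1
  exact h1.trans hyZ.2

/-- vertices are isolated. -/
theorem VSet_isolated [FiniteDimensional ℝ E] {h : E → F} {Ω : Set E} (hΩ : IsOpen Ω) (hh : LocConical h Ω) {q : E}
    (hq : q ∈ Ω) : ∃ r > 0, ball q r ∩ VSet h Ω ⊆ {q} := by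
  refine ⟨crad h Ω q, crad_pos hΩ hq (hh.conAt hq), ?_⟩
  rintro y ⟨hy, hyV⟩
  rw [mem_ball, dist_eq_norm] at hy
  exact vertex_isolated hh hy (Submodule.finrank_eq_zero.1 hyV.2)

end sets

section null

variable {E F : Type*} [NormedAddCommGroup E] [NormedSpace ℝ E] [FiniteDimensional ℝ E] [MeasurableSpace E] [BorelSpace E]
  [NormedAddCommGroup F] [NormedSpace ℝ F] [FiniteDimensional ℝ F]

/-- almost every point is an affine point. -/
theorem null_not_affine (μ : Measure E) [μ.IsAddHaarMeasure] {h : E → F} {Ω : Set E} (hΩ : IsOpen Ω)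
    (hh : LocConical h Ω) (hc : ContinuousOn h Ω) : μ {y | y ∈ Ω ∧ Tan h y ≠ ⊤} = 0 := by
  apply measure_null_of_locally_null
  rintro x ⟨hx, -⟩
  obtain ⟨δ, hδ, C, hsub, hL⟩ := exists_lipschitzOnWith_near hΩ hh hc hx
  refine ⟨{y | y ∈ Ω ∧ Tan h y ≠ ⊤} ∩ ball x δ, ?_, ?_⟩
  · exact inter_mem self_mem_nhdsWithin (mem_nhdsWithin_of_mem_nhds (ball_mem_nhds x hδ))
  · have hr : ∀ᵐ y ∂μ, y ∈ ball x δ → DifferentiableWithinAt ℝ h (ball x δ) y :=
      hL.ae_differentiableWithinAt_of_mem
    rw [ae_iff] at hr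
    refine measure_mono_null ?_ hr
    rintro y ⟨⟨hy, hT⟩, hyb⟩
    rw [Set.mem_ofPred_eq]
    push Not
    refine ⟨hyb, fun hd => hT ?_⟩
    exact (hh.conAt hy).Tan_eq_top_of_differentiableAt (hd.differentiableAt (isOpen_ball.mem_nhds hyb))

theorem null_ZSet (μ : Measure E) [μ.IsAddHaarMeasure] {h : E → F} {Ω : Set E} (hΩ : IsOpen Ω)
    (hh : LocConical h Ω) (hc : ContinuousOn h Ω) (hdim : 2 ≤ Module.finrank ℝ E) : μ (ZSet h Ω) = 0 := by
  refine measure_mono_null ?_ (null_not_affine μ hΩ hh hc)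
  rintro y ⟨hy, hT⟩
  refine ⟨hy, fun h0 => ?_⟩
  rw [h0, finrank_top] at hT
  omega

end null

section main

variable {E : Type*} [NormedAddCommGroup E] [InnerProductSpace ℝ E] [MeasureSpace E] [BorelSpace E]
  [FiniteDimensional ℝ E] [(volume : Measure E).IsAddHaarMeasure]

/-- **GERM** (helper205 #7463): the germ data of a locally conical homeomorphism. -/
theorem germs_of_homeoOn {h k : E → E} {Ω Λ : Set E} (hfin : Module.finrank ℝ E = 3) (H : HomeoOn h k Ω Λ)
    (hh : LocConical h Ω) (hdet : ∀ y ∈ Ω, ∀ A : E →L[ℝ] E, germ h y = A → 0 < A.det) :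
    P5Spec_205.Germs h Ω (VSet h Ω) (ZSet h Ω) (germ h) (fun p => dir (germ h p)) := by
  have hΩ := H.openΩ
  have hc := H.cont
  have conR_of : ∀ {p : E} {r : ℝ}, p ∈ Ω → (∀ v, ‖v‖ < r → h (p + v) = h p + germ h p v) → ConR h p r :=
    fun hp hr => conR_of_eq (hh.conAt hp).posHom hr
  have hone : ∀ p ∈ ZSet h Ω, p ∉ VSet h Ω → Module.finrank ℝ (Tan h p) = 1 := by
    intro p hp hpV
    have h1 : Module.finrank ℝ (Tan h p) ≠ 0 := fun h0 => hpV ⟨hp.1, h0⟩
    have h2 := hp.2
    omega
  have hmoll : ∀ p ∈ Ω, p ∉ ZSet h Ω → MollAt h p := by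
    intro p hp hpZ
    refine mollAt_of_codim_le_one hΩ hh hc hdet hp ?_
    by_contra hcon
    exact hpZ ⟨hp, by omega⟩
  have hhomeo : ∀ p ∈ Ω, IsHomeomorph (germ h p) := fun p hp =>
    (H.germHomeo hp (hh.conAt hp)).isHomeomorph
  have hpl : ∀ p ∈ Ω, ∃ S : Finset (E →L[ℝ] E), ∀ x, ∃ A ∈ S, germ h p x = A x := by
    intro p hp
    obtain ⟨S, hS, -⟩ := germ_selection hΩ hh hc hp one_pos
    exact ⟨S, hS⟩
  refine ⟨VSet_subset_ZSet h Ω, ZSet_subset h Ω, ?_, hhomeo, fun p hp => (hh.conAt hp).posHom, hpl, hmoll, ?_, ?_, ?_, ?_⟩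
  · intro p hp
    exact ⟨crad h Ω p, crad_pos hΩ hp (hh.conAt hp), ball_crad_subset h Ω p, fun v hv => apply_add_of_lt_crad hv⟩
  · -- edge germs
    intro p hp hpV
    have h1 := hone p hp hpV
    have hne : Tan h p ≠ ⊥ := by
      intro h0
      rw [h0, finrank_bot] at h1
      exact zero_ne_one h1
    obtain ⟨hd1, hd2⟩ := dir_mem_Tan hne
    refine ⟨hd1, hhomeo p hp.1, (hh.conAt hp.1).posHom, mem_Tan_iff'.1 hd2, hpl p hp.1, ?_⟩
    intro x hx
    have hxT : x ∉ Tan h p := by
      rw [mem_Tan_iff_dir h1]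
      push Not
      exact hx
    have hcr := crad_pos hΩ hp.1 (hh.conAt hp.1)
    set t : ℝ := crad h Ω p / (2 * (1 + ‖x‖)) with ht
    have hn := norm_nonneg x
    have ht0 : 0 < t := by positivity
    have htx : t * ‖x‖ < crad h Ω p / 2 := by
      rw [ht, div_mul_eq_mul_div, div_lt_div_iff₀ (by positivity) two_pos]
      nlinarith
    have htx' : ‖t • x‖ < crad h Ω p / 2 := by rwa [norm_smul, Real.norm_of_nonneg ht0.le]
    have hmem : p + t • x ∈ Ω := add_mem_of_lt_crad (by linarith)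
    have htT : t • x ∉ Tan h p := fun hcon => hxT (by
      have := (Tan h p).smul_mem t⁻¹ hcon
      rwa [smul_smul, inv_mul_cancel₀ ht0.ne', one_smul] at this)
    have h2 := (conR_crad h Ω p).finrank_Tan_lt (by linarith) (hh.conAt hmem) htT
    have h3 : MollAt h (p + t • x) := hmoll _ hmem (fun hZ => by have := hZ.2; omega)
    refine MollAt.of_smul (hh.conAt hp.1).posHom ht0 ?_
    refine MollAt.transport (r := crad h Ω p / 2) (c := -h p) (by linarith) h3 ?_
    intro v hv
    have h4 : ‖t • x + v‖ < crad h Ω p := by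
      have := norm_add_le (t • x) v
      linarith
    have h5 := apply_add_of_lt_crad h4
    rw [add_assoc, h5]
    abel
  · -- `Z` is a line near an edge point
    intro p hp hpV r hr0 hr hrr v hv
    have h1 := hone p hp hpV
    have hR := conR_of hp.1 hrr
    have hmem : p + v ∈ Ω := hr (by rwa [mem_ball, dist_eq_norm, add_sub_cancel_left])
    refine ⟨?_, ?_⟩
    · rw [← mem_Tan_iff_dir h1]
      constructor
      · intro hZ
        by_contra hvT
        have h2 := hR.finrank_Tan_lt hv (hh.conAt hmem) hvT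
        have := hZ.2
        omega
      · intro hvT
        refine ⟨hmem, ?_⟩
        rw [hR.Tan_eq_of_mem hv (hh.conAt hmem) hvT, h1]
    · intro hV
      have h2 := hR.finrank_Tan_le hv (hh.conAt hmem)
      rw [hV.2, h1] at h2
      omega
  · -- constancy along edges
    intro p hp hpV r hr0 hr hrr s hs
    have h1 := hone p hp hpV
    have hne : Tan h p ≠ ⊥ := by
      intro h0
      rw [h0, finrank_bot] at h1
      exact zero_ne_one h1
    obtain ⟨hd1, hd2⟩ := dir_mem_Tan hne
    have hR := conR_of hp.1 hrr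
    have hv : ‖s • dir (germ h p)‖ < r := by rwa [norm_smul, hd1, mul_one, Real.norm_eq_abs]
    have hmem : p + s • dir (germ h p) ∈ Ω := hr (by rwa [mem_ball, dist_eq_norm, add_sub_cancel_left])
    have h2 : germ h (p + s • dir (germ h p)) = germ h p :=
      hR.germ_eq_of_mem hv (hh.conAt hmem) ((Tan h p).smul_mem s hd2)
    exact ⟨h2, by rw [h2]⟩
  · -- cones
    intro q hq r hr0 hr hrr v hv0 hv
    have hR := conR_of hq hrr
    have hmem : q + v ∈ Ω := hr (by rwa [mem_ball, dist_eq_norm, add_sub_cancel_left])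
    refine ⟨?_, ?_⟩
    · intro hV
      have h1 := hR.self_mem_Tan_near hv (hh.conAt hmem)
      rw [Submodule.finrank_eq_zero.1 hV.2, Submodule.mem_bot] at h1
      exact hv0 h1
    · intro t ht0 ht1
      have hle : ‖t • v‖ ≤ ‖v‖ := by
        rw [norm_smul, Real.norm_of_nonneg ht0.le]
        exact mul_le_of_le_one_left (norm_nonneg v) ht1
      have hmem' : q + t • v ∈ Ω := hr (by rw [mem_ball, dist_eq_norm, add_sub_cancel_left]; linarith)
      have h1 : germ h (q + t • v) = germ h (q + v) :=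
        hR.germ_scale hv (hh.conAt hmem) ht0 (by linarith) (hh.conAt hmem')
      refine ⟨?_, h1, by rw [h1]⟩
      have h2 := Tan_eq_of_germ_eq h1
      constructor
      · rintro ⟨_, h3⟩
        exact ⟨hmem, by rwa [h2] at h3⟩
      · rintro ⟨_, h3⟩
        exact ⟨hmem', by rwa [h2]⟩

/-- conversion of helper205's `HomeoOn` into the one used in `Germ4_879`. -/
theorem exists_homeoOn {h : E → E} {Ω Λ : Set E} (hΩ : IsOpen Ω) (hΛ : IsOpen Λ) (H : P5Spec_205.HomeoOn h Ω Λ) :
    ∃ k : E → E, HomeoOn h k Ω Λ := by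
  obtain ⟨hb, hcont, k, hk, hkl⟩ := H
  have hkr : ∀ y ∈ Λ, k y ∈ Ω ∧ h (k y) = y := by
    intro y hy
    obtain ⟨x, hx, rfl⟩ := hb.surjOn hy
    rw [hkl x hx]
    exact ⟨hx, rfl⟩
  exact ⟨k, hΩ, hΛ, hb.mapsTo, fun y hy => (hkr y hy).1, hkl, fun y hy => (hkr y hy).2, hcont, hk⟩

/-- **GERM**, with helper205's `HomeoOn`. -/
theorem germs_of {h : E → E} {Ω Λ : Set E} (hfin : Module.finrank ℝ E = 3) (hΩ : IsOpen Ω) (hΛ : IsOpen Λ)
    (H : P5Spec_205.HomeoOn h Ω Λ) (hh : LocConical h Ω)
    (hdet : ∀ y ∈ Ω, ∀ A : E →L[ℝ] E, germ h y = A → 0 < A.det) :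
    P5Spec_205.Germs h Ω (VSet h Ω) (ZSet h Ω) (germ h) (fun p => dir (germ h p)) ∧
      (∀ x ∈ Ω, x ∉ ZSet h Ω → ∃ r > 0, ∀ y ∈ ball x r, y ∉ ZSet h Ω) ∧ volume (ZSet h Ω) = 0 ∧
      (∀ x ∈ Ω, ∃ r > 0, ball x r ∩ VSet h Ω ⊆ {x}) := by
  obtain ⟨k, hk⟩ := exists_homeoOn hΩ hΛ H
  exact ⟨germs_of_homeoOn hfin hk hh hdet, fun x hx hxZ => ZSet_closed hΩ hh hx hxZ,
    null_ZSet volume hΩ hh H.cont (by omega), fun x hx => VSet_isolated hΩ hh hx⟩

end main

end Crest.Agent.R096.Germ_879
end

-- ▼ part R096/GermT_879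

/-!
Row 96 (S0127), helper879.  P5-GERM: bridge from helper696's selection language (`LocPL`, `AffAt`) to the
locally conical language, and the germ data of a locally PL homeomorphism of open subsets of `R3`.
-/

set_option autoImplicit false
set_option linter.unusedSectionVars false
set_option linter.style.longLine false

open Set Metric MeasureTheory Filter Topology
open scoped NNReal

namespace Crest.Agent.R096.Germ_879

open Crest.Agent.R096.Str_696 (LocPL AffAt)

section bridge

variable {E F : Type*} [NormedAddCommGroup E] [NormedSpace ℝ E] [NormedAddCommGroup F] [NormedSpace ℝ F]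

/-- locally PL maps are locally conical. -/
theorem locConical_of_locPL [FiniteDimensional ℝ E] {h : E → F} {Ω : Set E} (hh : LocPL h Ω) : LocConical h Ω := by
  intro x hx
  obtain ⟨r, S, H, hr, hH, hv⟩ := hh.conic hx
  exact ⟨r, hr, conR_of_eq (H := H) (fun c hc v => hH.homog c v hc) hv⟩

theorem continuousOn_of_locPL {h : E → F} {Ω : Set E} (hh : LocPL h Ω) : ContinuousOn h Ω := by
  intro x hx
  obtain ⟨r, hr, S, hc, -⟩ := hh x hx
  exact (hc.continuousAt (ball_mem_nhds x hr)).continuousWithinAt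

/-- `AffAt` in terms of the germ. -/
theorem ConAt.affAt_iff {h : E → F} {x : E} (hx : ConAt h x) {A : E →L[ℝ] F} : AffAt h x A ↔ germ h x = A := by
  constructor
  · intro hA
    obtain ⟨r, hr, hball⟩ := Metric.eventually_nhds_iff_ball.1 hA
    refine germ_eq_of hr (fun c _ v => by rw [map_smul]) fun v hv => ?_
    have := hball (x + v) (by rwa [mem_ball, dist_eq_norm, add_sub_cancel_left])
    rwa [add_sub_cancel_left] at this
  · intro e
    have := hx.eventually
    rw [e] at this
    exact this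

end bridge

section main

variable {E : Type*} [NormedAddCommGroup E] [InnerProductSpace ℝ E] [MeasureSpace E] [BorelSpace E]
  [FiniteDimensional ℝ E] [(volume : Measure E).IsAddHaarMeasure]

/-- **GERM** for helper696's locally PL homeomorphisms. -/
theorem germs_of_locPL {h : E → E} {Ω Λ : Set E} (hfin : Module.finrank ℝ E = 3) (hΩ : IsOpen Ω) (hΛ : IsOpen Λ)
    (H : P5Spec_205.HomeoOn h Ω Λ) (hh : LocPL h Ω)
    (hdet : ∀ y ∈ Ω, ∀ A : E →L[ℝ] E, AffAt h y A → 0 < A.det) :
    P5Spec_205.Germs h Ω (VSet h Ω) (ZSet h Ω) (germ h) (fun p => dir (germ h p)) ∧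
      (∀ x ∈ Ω, x ∉ ZSet h Ω → ∃ r > 0, ∀ y ∈ ball x r, y ∉ ZSet h Ω) ∧ volume (ZSet h Ω) = 0 ∧
      (∀ x ∈ Ω, ∃ r > 0, ball x r ∩ VSet h Ω ⊆ {x}) := by
  have hc := locConical_of_locPL hh
  exact germs_of hfin hΩ hΛ H hc fun y hy A hA => hdet y hy A ((hc.conAt hy).affAt_iff.2 hA)

/-- every point of a locally PL homeomorphism off `ZSet` is in the class `MollAt`. -/
theorem mollAt_of_locPL {h : E → E} {Ω : Set E} (hfin : Module.finrank ℝ E = 3) (hΩ : IsOpen Ω)
    (hh : LocPL h Ω) (hdet : ∀ y ∈ Ω, ∀ A : E →L[ℝ] E, AffAt h y A → 0 < A.det) {x : E} (hx : x ∈ Ω)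
    (hxZ : x ∉ ZSet h Ω) : P5Spec_205.MollAt h x := by
  have hc := locConical_of_locPL hh
  refine mollAt_of_codim_le_one hΩ hc (continuousOn_of_locPL hh)
    (fun y hy A hA => hdet y hy A ((hc.conAt hy).affAt_iff.2 hA)) hx ?_
  by_contra hcon
  exact hxZ ⟨hx, by omega⟩

end main

open Crest.AnalysisR.Sobolev in
theorem homeoOn_of_isHomeomorphOn {h : Crest.AnalysisR.VecCalc3.R3 → Crest.AnalysisR.VecCalc3.R3}
    {Ω Λ : Set Crest.AnalysisR.VecCalc3.R3} (H : IsHomeomorphOn h Ω Λ) : P5Spec_205.HomeoOn h Ω Λ := by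
  obtain ⟨k, h1, h2, h3, h4, h5, h6⟩ := H
  refine ⟨⟨h1, fun x hx y hy e => ?_, fun y hy => ⟨k y, h2 hy, h4 y hy⟩⟩, h5, k, h6, h3⟩
  rw [← h3 x hx, ← h3 y hy, e]

open Crest.AnalysisR.Sobolev in
theorem isHomeomorphOn_of_homeoOn {h : Crest.AnalysisR.VecCalc3.R3 → Crest.AnalysisR.VecCalc3.R3}
    {Ω Λ : Set Crest.AnalysisR.VecCalc3.R3} (H : P5Spec_205.HomeoOn h Ω Λ) : IsHomeomorphOn h Ω Λ := by
  obtain ⟨hb, hcont, k, hk, hkl⟩ := H
  have hkr : ∀ y ∈ Λ, k y ∈ Ω ∧ h (k y) = y := by
    intro y hy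
    obtain ⟨x, hx, rfl⟩ := hb.surjOn hy
    rw [hkl x hx]
    exact ⟨hx, rfl⟩
  exact ⟨k, hb.mapsTo, fun y hy => (hkr y hy).1, hkl, fun y hy => (hkr y hy).2, hcont, hk⟩

open Crest.AnalysisR.Sobolev Crest.AnalysisR.VecCalc3 in
/-- **GERM on `R3`**: literal output for P5-ASM. -/
theorem exists_germs_R3 {h : R3 → R3} {Ω Λ : Set R3} (hΩ : IsOpen Ω) (hΛ : IsOpen Λ)
    (H : IsHomeomorphOn h Ω Λ) (hh : LocPL h Ω) (hdet : ∀ y ∈ Ω, ∀ A : R3 →L[ℝ] R3, AffAt h y A → 0 < A.det) :
    P5Spec_205.HomeoOn h Ω Λ ∧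
    P5Spec_205.Germs h Ω (VSet h Ω) (ZSet h Ω) (germ h) (fun p => dir (germ h p)) ∧
      (∀ x ∈ Ω, x ∉ ZSet h Ω → ∃ r > 0, ∀ y ∈ ball x r, y ∉ ZSet h Ω) ∧ volume (ZSet h Ω) = 0 ∧
      (∀ x ∈ Ω, ∃ r > 0, ball x r ∩ VSet h Ω ⊆ {x}) :=
  ⟨homeoOn_of_isHomeomorphOn H, germs_of_locPL (finrank_euclideanSpace_fin) hΩ hΛ (homeoOn_of_isHomeomorphOn H) hh hdet⟩

end Crest.Agent.R096.Germ_879
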