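import Crest.Agent.R096.Brk6_582
import Crest.Agent.R096.Grd1_714

/-!
# R096 (row 96), GRID, part 2 (helper714): the bilinear coordinates `Bb` of the 2-skeleton of a foam
-/

set_option autoImplicit false
set_option linter.unusedSectionVars false

open Set

namespace Crest.Agent.R096.Grd_714

open Crest.Agent.R096.Brk1_582 Crest.Agent.R096.Brk2_582 Crest.Agent.R096.Brk6_582

variable {E : Type*} [NormedAddCommGroup E] [NormedSpace ℝ E] {I : Type*}
variable {La : Set E} {P : I → Set E} {b : Set I → E}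

/-- convex position of the quadrilateral `v P' C P` (180 degrees are allowed at `v`) -/
def QC (v P' C P : E) : Prop :=
  (∀ s t : ℝ, s • (P' - C) + t • (P - C) = 0 → s = 0 ∧ t = 0) ∧
  ∃ x y : ℝ, 0 < x ∧ 0 < y ∧ 1 ≤ x + y ∧ v - C = x • (P' - C) + y • (P - C)

/-- all quads of the foam are in convex position -/
def Quads (P : I → Set E) (b : Set I → E) : Prop :=
  ∀ (A : Set I) (c1 c2 : I), A.ncard = 2 → c1 ∉ A → c2 ∉ A → c1 ≠ c2 →
    (fc P (insert c2 (insert c1 A))).Nonempty →
    QC (b (insert c2 (insert c1 A))) (b (insert c2 A)) (b A) (b (insert c1 A))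

/-- the frame of a quadrilateral -/
noncomputable def QC.fr {v P' C P : E} (h : QC v P' C P) : Fr E where
  O := C
  f1 := P' - C
  f2 := P - C
  α := h.2.choose - 1
  β := h.2.choose_spec.choose - 1
  shp := by
    obtain ⟨h1, h2, h3, _⟩ := h.2.choose_spec.choose_spec
    exact ⟨by linarith, by linarith, by linarith⟩
  li := h.1

theorem QC.fr_v {v P' C P : E} (h : QC v P' C P) :
    v = C + ((1 + h.fr.α) • (P' - C) + (1 + h.fr.β) • (P - C)) := by
  obtain ⟨_, _, _, h4⟩ := h.2.choose_spec.choose_spec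
  have e1 : 1 + h.fr.α = h.2.choose := by simp [QC.fr]
  have e2 : 1 + h.fr.β = h.2.choose_spec.choose := by simp [QC.fr]
  rw [e1, e2, ← h4]; abel

theorem QC.fr_cross {v P' C P : E} (h : QC v P' C P) :
    h.fr.α • h.fr.f1 + h.fr.β • h.fr.f2 = v + C - P - P' := by
  have hv := h.fr_v
  have e : h.fr.α • h.fr.f1 + h.fr.β • h.fr.f2 =
      (C + ((1 + h.fr.α) • (P' - C) + (1 + h.fr.β) • (P - C))) + C - P - P' := by
    have e1 : h.fr.f1 = P' - C := rfl
    have e2 : h.fr.f2 = P - C := rfl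
    rw [e1, e2]; module
  rw [e, ← hv]


section

/-- the 2-skeleton of the cube complex -/
def K2 (P : I → Set E) : Set (I → ℝ) := {u | u ∈ K P ∧ ∃ c c', c ≠ c' ∧ u c = 0 ∧ u c' = 0}

/-- `u` lies in the closed square `A, c1, c2` -/
structure InSq (A : Set I) (c1 c2 : I) (u : I → ℝ) : Prop where
  zero : ∀ c ∈ A, u c = 0
  one : ∀ c, c ∉ A → c ≠ c1 → c ≠ c2 → u c = 1
  m1 : u c1 ∈ Icc (0 : ℝ) 1
  m2 : u c2 ∈ Icc (0 : ℝ) 1

open Classical in
/-- **bilinear coordinates** on the 2-skeleton of the cube complex -/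
noncomputable def Bb (b : Set I → E) (u : I → ℝ) : E :=
  if h : ∃ c1 c2 : I, c1 ≠ c2 ∧ av u = {c1, c2} then
    T b u + ((1 - u h.choose) * (1 - u h.choose_spec.choose) -
      min (1 - u h.choose) (1 - u h.choose_spec.choose)) •
      (b {c | u c < 1} + b {c | u c = 0} - b (insert h.choose {c | u c = 0}) -
        b (insert h.choose_spec.choose {c | u c = 0}))
  else T b u




end

section sq

variable [CompleteSpace E] (F : Foam La P b 4)
include F

theorem T_fr {A : Set I} (hA : A.Nonempty) {c1 c2 : I} (hc1 : c1 ∉ A) (hc2 : c2 ∉ A)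
    (hne : c1 ≠ c2) (hfc : (fc P (insert c2 (insert c1 A))).Nonempty)
    (hq : QC (b (insert c2 (insert c1 A))) (b (insert c2 A)) (b A) (b (insert c1 A)))
    {u : I → ℝ} (hu : InSq A c1 c2 u) : T b u = hq.fr.tl (1 - u c1, 1 - u c2) := by
  have hv := hq.fr_v
  rcases le_total (u c1) (u c2) with h | h
  · rw [T_two F hA hc1 hc2 hne hfc hu.zero hu.m1.1 h hu.m2.2 hu.one, Fr.tl,
      tw_of_le (by simp only; linarith)]
    conv_lhs => rw [hv]
    simp only [Fr.pt, QC.fr]
    module
  · have hfc' : (fc P (insert c1 (insert c2 A))).Nonempty := by rwa [insert_comm]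
    rw [T_two F hA hc2 hc1 hne.symm hfc' hu.zero hu.m2.1 h hu.m1.2
      (fun c h1 h2 h3 => hu.one c h1 h3 h2), insert_comm c1 c2 A, Fr.tl,
      tw_of_ge (by simp only; linarith)]
    conv_lhs => rw [hv]
    simp only [Fr.pt, QC.fr]
    module

omit F [CompleteSpace E] in
theorem InSq.av_sub {A : Set I} {c1 c2 : I} {u : I → ℝ} (hu : InSq A c1 c2 u) :
    av u ⊆ {c1, c2} := by
  intro c hc
  by_contra hn
  simp only [mem_insert_iff, mem_singleton_iff, not_or] at hn
  by_cases hA : c ∈ A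
  · exact absurd (hu.zero c hA) hc.1.ne'
  · exact absurd (hu.one c hA hn.1 hn.2) hc.2.ne


/-- a point of the 2-skeleton has at most one active coordinate or lies in an open square -/
theorem K2_cases {u : I → ℝ} (hu : u ∈ K2 P) : (av u).ncard ≤ 1 ∨
    ∃ c1 c2 : I, c1 ≠ c2 ∧ av u = {c1, c2} ∧ {c | u c = 0}.ncard = 2 ∧
      {c | u c < 1} = insert c2 (insert c1 {c | u c = 0}) ∧ c1 ∉ {c | u c = 0} ∧
      c2 ∉ {c | u c = 0} ∧ InSq {c | u c = 0} c1 c2 u := by
  obtain ⟨hK, c, c', hcc, h0, h0'⟩ := hu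
  have hLfin := F.K_finite hK
  have hZne := F.K_zero_nonempty hK
  have hL4 : {c | u c < 1}.ncard ≤ 4 := F.ncard_le_of_fc (F.K_lt_nonempty hK) hK.2.2
  have hZfin : {c | u c = 0}.Finite := hLfin.subset fun c (hc : u c = 0) => by
    show u c < 1; rw [hc]; exact one_pos
  have hZ2 : 2 ≤ {c | u c = 0}.ncard := by
    rw [← ncard_pair hcc]
    apply ncard_le_ncard _ hZfin
    rintro x (rfl | rfl)
    · exact h0
    · exact h0'
  have hun : {c | u c < 1} = {c | u c = 0} ∪ av u := by
    ext c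
    simp only [av, mem_union, mem_ofPred_eq]
    constructor
    · intro h
      rcases (hK.1 c).1.eq_or_lt with h' | h'
      · exact Or.inl h'.symm
      · exact Or.inr ⟨h', h⟩
    · rintro (h | h)
      · rw [h]; exact one_pos
      · exact h.2
  have hdis : Disjoint {c | u c = 0} (av u) := by
    rw [Set.disjoint_left]
    intro c (hc : u c = 0) hc'
    exact hc'.1.ne' hc
  have hcard : {c | u c < 1}.ncard = {c | u c = 0}.ncard + (av u).ncard := by
    rw [hun, ncard_union_eq hdis hZfin (F.av_finite hK)]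
  by_cases h1 : (av u).ncard ≤ 1
  · exact Or.inl h1
  right
  have h2 : (av u).ncard = 2 := by omega
  obtain ⟨c1, c2, hne, hav⟩ := ncard_eq_two.1 h2
  have m1 : c1 ∈ av u := by rw [hav]; simp
  have m2 : c2 ∈ av u := by rw [hav]; simp
  refine ⟨c1, c2, hne, hav, by omega, ?_, fun h => m1.1.ne' h, fun h => m2.1.ne' h,
    fun c hc => hc, fun c hc hc1 hc2 => ?_, ⟨m1.1.le, m1.2.le⟩, ⟨m2.1.le, m2.2.le⟩⟩
  · rw [hun, hav]
    ext c
    simp only [mem_union, mem_insert_iff, mem_singleton_iff]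
    tauto
  · by_contra h3
    have h4 : c ∈ av u := ⟨lt_of_le_of_ne (hK.1 c).1 (Ne.symm hc), lt_of_le_of_ne (hK.1 c).2 h3⟩
    rw [hav] at h4
    simp only [mem_insert_iff, mem_singleton_iff] at h4
    tauto

variable (hQ : Quads P b)
include hQ







end sq

end Crest.Agent.R096.Grd_714
namespace Crest.Agent.R096.Grd_714.Fr
end Crest.Agent.R096.Grd_714.Fr
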