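import Crest.Agent.R096.Grd1_714
import Crest.Agent.R096.Grd2_714
import Crest.Agent.R096.Grd3_714
import Crest.Agent.R096.Xp1_537
import Crest.Agent.R096.Msh3_715

-- ▼ part R096/Grt1_714
section

/-!
# R096 (row 96), GRID, T at the grid points, part 1 (helper714): the bijection lemma

`Adm N`: `N` on the unit square, nondecreasing and 1-Lipschitz in each variable, with a strict
inequality, and `N = min` on the boundary.  Then `tn α β N w = (w₂ + α N w, w₁ + β N w)` is a
bijection of the square onto the quadrilateral `Rg α β`.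
-/

set_option autoImplicit false

open Set

namespace Crest.Agent.R096.Grd_714

/-- admissible heights on the unit square -/
structure Adm (N : ℝ × ℝ → ℝ) : Prop where
  m1 : ∀ x x' y : ℝ, x ∈ Icc (0 : ℝ) 1 → x' ∈ Icc (0 : ℝ) 1 → y ∈ Icc (0 : ℝ) 1 → x' ≤ x →
    N (x', y) ≤ N (x, y) ∧ N (x, y) - N (x', y) ≤ x - x'
  m2 : ∀ x y y' : ℝ, x ∈ Icc (0 : ℝ) 1 → y ∈ Icc (0 : ℝ) 1 → y' ∈ Icc (0 : ℝ) 1 → y' ≤ y →
    N (x, y') ≤ N (x, y) ∧ N (x, y) - N (x, y') ≤ y - y'
  st : ∀ x x' y y' : ℝ, x ∈ Icc (0 : ℝ) 1 → x' ∈ Icc (0 : ℝ) 1 → y ∈ Icc (0 : ℝ) 1 →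
    y' ∈ Icc (0 : ℝ) 1 → x' < x → y' < y → N (x, y) - N (x', y') < (x - x') + (y - y')
  bd : ∀ w ∈ Sc, w ∉ So → N w = min w.1 w.2

/-- the map of the height `N` -/
def tn (α β : ℝ) (N : ℝ × ℝ → ℝ) (w : ℝ × ℝ) : ℝ × ℝ := (w.2 + α * N w, w.1 + β * N w)

namespace Adm

variable {N : ℝ × ℝ → ℝ} (A : Adm N)
include A

theorem diff {w w' : ℝ × ℝ} (hw : w ∈ Sc) (hw' : w' ∈ Sc) :
    N w - N w' ≤ max (w.1 - w'.1) 0 + max (w.2 - w'.2) 0 := by
  obtain ⟨x, y⟩ := w
  obtain ⟨x', y'⟩ := w'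
  obtain ⟨hx, hy⟩ := hw
  obtain ⟨hx', hy'⟩ := hw'
  simp only at hx hy hx' hy' ⊢
  have hX : max x x' ∈ Icc (0 : ℝ) 1 := ⟨le_max_of_le_left hx.1, max_le hx.2 hx'.2⟩
  have hY : max y y' ∈ Icc (0 : ℝ) 1 := ⟨le_max_of_le_left hy.1, max_le hy.2 hy'.2⟩
  have h1 := (A.m1 (max x x') x y hX hx hy (le_max_left _ _)).1
  have h2 := (A.m2 (max x x') (max y y') y hX hY hy (le_max_left _ _)).1
  have h3 := (A.m2 (max x x') (max y y') y' hX hY hy' (le_max_right _ _)).2
  have h4 := (A.m1 (max x x') x' y' hX hx' hy' (le_max_right _ _)).2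
  have e1 : max x x' - x' = max (x - x') 0 := by
    rcases le_total x x' with h | h
    · rw [max_eq_right h, max_eq_right (by linarith), sub_self]
    · rw [max_eq_left h, max_eq_left (by linarith)]
  have e2 : max y y' - y' = max (y - y') 0 := by
    rcases le_total y y' with h | h
    · rw [max_eq_right h, max_eq_right (by linarith), sub_self]
    · rw [max_eq_left h, max_eq_left (by linarith)]
  linarith

theorem abs_diff {w w' : ℝ × ℝ} (hw : w ∈ Sc) (hw' : w' ∈ Sc) :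
    |N w - N w'| ≤ |w.1 - w'.1| + |w.2 - w'.2| := by
  rw [abs_le]
  have h1 := A.diff hw hw'
  have h2 := A.diff hw' hw
  have a1 : max (w.1 - w'.1) 0 ≤ |w.1 - w'.1| := max_le (le_abs_self _) (abs_nonneg _)
  have a2 : max (w.2 - w'.2) 0 ≤ |w.2 - w'.2| := max_le (le_abs_self _) (abs_nonneg _)
  have a3 : max (w'.1 - w.1) 0 ≤ |w.1 - w'.1| := by
    rw [abs_sub_comm]; exact max_le (le_abs_self _) (abs_nonneg _)
  have a4 : max (w'.2 - w.2) 0 ≤ |w.2 - w'.2| := by
    rw [abs_sub_comm]; exact max_le (le_abs_self _) (abs_nonneg _)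
  constructor <;> linarith

theorem continuousOn : ContinuousOn N Sc := by
  intro w hw
  rw [ContinuousWithinAt, tendsto_iff_dist_tendsto_zero]
  have h1 : Filter.Tendsto (fun w' : ℝ × ℝ => |w'.1 - w.1| + |w'.2 - w.2|) (nhdsWithin w Sc)
      (nhds 0) := by
    have hc : Continuous (fun w' : ℝ × ℝ => |w'.1 - w.1| + |w'.2 - w.2|) := by fun_prop
    have := (hc.tendsto w).mono_left (nhdsWithin_le_nhds (s := Sc))
    simpa using this
  refine squeeze_zero' (Filter.Eventually.of_forall fun _ => dist_nonneg) ?_ h1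
  filter_upwards [self_mem_nhdsWithin] with w' hw'
  rw [Real.dist_eq]
  exact A.abs_diff hw' hw

theorem le_1 {w : ℝ × ℝ} (hw : w ∈ Sc) : N w ≤ w.1 := by
  have h0 : ((0 : ℝ), w.2) ∈ Sc := ⟨⟨le_rfl, zero_le_one⟩, hw.2⟩
  have h1 := (A.m1 w.1 0 w.2 hw.1 ⟨le_rfl, zero_le_one⟩ hw.2 hw.1.1).2
  have h2 := A.bd _ h0 (fun h => lt_irrefl _ h.1.1)
  simp only at h2
  rw [min_eq_left hw.2.1] at h2
  linarith

theorem le_2 {w : ℝ × ℝ} (hw : w ∈ Sc) : N w ≤ w.2 := by
  have h0 : (w.1, (0 : ℝ)) ∈ Sc := ⟨hw.1, ⟨le_rfl, zero_le_one⟩⟩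
  have h1 := (A.m2 w.1 w.2 0 hw.1 hw.2 ⟨le_rfl, zero_le_one⟩ hw.2.1).2
  have h2 := A.bd _ h0 (fun h => lt_irrefl _ h.2.1)
  simp only at h2
  rw [min_eq_right hw.1.1] at h2
  linarith

theorem nonneg {w : ℝ × ℝ} (hw : w ∈ Sc) : 0 ≤ N w := by
  have h0 : ((0 : ℝ), w.2) ∈ Sc := ⟨⟨le_rfl, zero_le_one⟩, hw.2⟩
  have h1 := (A.m1 w.1 0 w.2 hw.1 ⟨le_rfl, zero_le_one⟩ hw.2 hw.1.1).1
  have h2 := A.bd _ h0 (fun h => lt_irrefl _ h.1.1)
  simp only at h2
  rw [min_eq_left hw.2.1] at h2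
  linarith

theorem ge_1 {w : ℝ × ℝ} (hw : w ∈ Sc) : w.2 - N w ≤ 1 - w.1 := by
  have h0 : ((1 : ℝ), w.2) ∈ Sc := ⟨⟨zero_le_one, le_rfl⟩, hw.2⟩
  have h1 := (A.m1 1 w.1 w.2 ⟨zero_le_one, le_rfl⟩ hw.1 hw.2 hw.1.2).2
  have h2 := A.bd _ h0 (fun h => lt_irrefl _ h.1.2)
  simp only at h2
  rw [min_eq_right hw.2.2] at h2
  linarith

theorem ge_2 {w : ℝ × ℝ} (hw : w ∈ Sc) : w.1 - N w ≤ 1 - w.2 := by
  have h0 : (w.1, (1 : ℝ)) ∈ Sc := ⟨hw.1, ⟨zero_le_one, le_rfl⟩⟩
  have h1 := (A.m2 w.1 1 w.2 hw.1 ⟨zero_le_one, le_rfl⟩ hw.2 hw.2.2).2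
  have h2 := A.bd _ h0 (fun h => lt_irrefl _ h.2.2)
  simp only at h2
  rw [min_eq_left hw.1.2] at h2
  linarith

variable {α β : ℝ} (h : Shp α β)
include h


/-- strict version -/
theorem line_lt {w w' : ℝ × ℝ} (hw : w ∈ Sc) (hw' : w' ∈ Sc) {μ : ℝ} (hμ : 0 < μ)
    (e1 : w.1 - w'.1 = -(β * μ)) (e2 : w.2 - w'.2 = -(α * μ)) : N w - N w' < μ := by
  have h1 := A.diff hw hw'
  rw [e1, e2] at h1
  have ha := h.ha
  have hb := h.hb
  have hs := h.hs
  rcases le_or_gt 0 α with p | p <;> rcases le_or_gt 0 β with q | q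
  · rw [max_eq_right (by nlinarith), max_eq_right (by nlinarith)] at h1
    linarith
  · rw [max_eq_left (by nlinarith), max_eq_right (by nlinarith)] at h1
    nlinarith
  · rw [max_eq_right (by nlinarith), max_eq_left (by nlinarith)] at h1
    nlinarith
  · have k1 : w'.1 < w.1 := by nlinarith
    have k2 : w'.2 < w.2 := by nlinarith
    have := A.st w.1 w'.1 w.2 w'.2 hw.1 hw'.1 hw.2 hw'.2 k1 k2
    rw [e1, e2] at this
    have e : N (w.1, w.2) - N (w'.1, w'.2) = N w - N w' := rfl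
    rw [e] at this
    nlinarith

theorem tn_injOn : InjOn (tn α β N) Sc := by
  have key : ∀ w ∈ Sc, ∀ w' ∈ Sc, tn α β N w = tn α β N w' → ¬ 0 < N w - N w' := by
    intro w hw w' hw' he hlt
    have h1 := congrArg Prod.fst he
    have h2 := congrArg Prod.snd he
    simp only [tn] at h1 h2
    have := A.line_lt h hw hw' hlt (by linarith) (by linarith)
    exact lt_irrefl _ this
  intro w hw w' hw' he
  have k1 := key w hw w' hw' he
  have k2 := key w' hw' w hw he.symm
  have k3 : N w = N w' := by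
    rcases lt_trichotomy (N w) (N w') with h | h | h
    · exact absurd (by linarith) k2
    · exact h
    · exact absurd (by linarith) k1
  have h1 := congrArg Prod.fst he
  have h2 := congrArg Prod.snd he
  simp only [tn, k3] at h1 h2
  exact Prod.ext (by linarith) (by linarith)

theorem tn_mapsTo : MapsTo (tn α β N) Sc (Rg α β) := by
  intro w hw
  have n0 := A.nonneg hw
  have n1 := A.le_1 hw
  have n2 := A.le_2 hw
  have n3 := A.ge_1 hw
  have n4 := A.ge_2 hw
  have ha := h.ha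
  have hb := h.hb
  have hs := h.hs
  have w1 := hw.1.2
  have w2 := hw.2.2
  refine ⟨?_, ?_, ?_, ?_⟩
  · simp only [tn]
    rcases le_total 0 α with p | p
    · have := mul_nonneg p n0
      linarith [hw.2.1]
    · nlinarith [hw.2.1]
  · simp only [tn]
    rcases le_total 0 β with p | p
    · have := mul_nonneg p n0
      linarith [hw.1.1]
    · nlinarith [hw.1.1]
  · have e : F1 α β 1 (tn α β N w) = -((1 + α) * (1 - w.1)) - β * (w.2 - N w) := by
      simp only [F1, tn]; ring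
    rw [e]
    rcases le_total 0 β with p | p
    · have := mul_nonneg p (sub_nonneg.2 n2)
      have := mul_nonneg (show 0 ≤ 1 + α by linarith) (sub_nonneg.2 w1)
      linarith
    · have k1 : -β * (w.2 - N w) ≤ -β * (1 - w.1) := mul_le_mul_of_nonneg_left n3 (by linarith)
      have k2 := mul_nonneg (show 0 ≤ 1 + α + β by linarith) (sub_nonneg.2 w1)
      nlinarith
  · have e : F2 α β 1 (tn α β N w) = -((1 + β) * (1 - w.2)) - α * (w.1 - N w) := by
      simp only [F2, tn]; ring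
    rw [e]
    rcases le_total 0 α with p | p
    · have := mul_nonneg p (sub_nonneg.2 n1)
      have := mul_nonneg (show 0 ≤ 1 + β by linarith) (sub_nonneg.2 w2)
      linarith
    · have k1 : -α * (w.1 - N w) ≤ -α * (1 - w.2) := mul_le_mul_of_nonneg_left n4 (by linarith)
      have k2 := mul_nonneg (show 0 ≤ 1 + α + β by linarith) (sub_nonneg.2 w2)
      nlinarith

omit A h in
theorem isOpen_So : IsOpen So := by
  have : So = Ioo (0 : ℝ) 1 ×ˢ Ioo (0 : ℝ) 1 := rfl
  rw [this]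
  exact isOpen_Ioo.prod isOpen_Ioo

omit A h in
/-- the exit point of the square on a ray -/
theorem exit {w d : ℝ × ℝ} (hw : w ∈ Sc) (hd : d ≠ 0) :
    ∃ t : ℝ, 0 ≤ t ∧ w + t • d ∈ Sc ∧ w + t • d ∉ So := by
  set T : Set ℝ := {t | 0 ≤ t ∧ w + t • d ∈ Sc} with hT
  have hn : 0 < ‖d‖ := norm_pos_iff.2 hd
  obtain ⟨R, hR⟩ := isCompact_Sc.isBounded.exists_norm_le
  have hcl : IsClosed T := by
    refine IsClosed.inter isClosed_Ici ?_
    exact isCompact_Sc.isClosed.preimage (by fun_prop : Continuous fun t : ℝ => w + t • d)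
  have hbd : T ⊆ Icc 0 ((R + ‖w‖) / ‖d‖) := by
    rintro t ⟨h1, h2⟩
    refine ⟨h1, ?_⟩
    rw [le_div_iff₀ hn]
    have h3 := hR _ h2
    have h4 : ‖t • d‖ = t * ‖d‖ := by rw [norm_smul, Real.norm_eq_abs, abs_of_nonneg h1]
    rw [← h4]
    calc ‖t • d‖ = ‖(w + t • d) - w‖ := by rw [add_sub_cancel_left]
      _ ≤ ‖w + t • d‖ + ‖w‖ := norm_sub_le _ _
      _ ≤ R + ‖w‖ := by linarith
  have hcpt : IsCompact T := isCompact_Icc.of_isClosed_subset hcl hbd
  obtain ⟨t, ht, hmax⟩ := hcpt.exists_isGreatest ⟨0, le_rfl, by simpa using hw⟩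
  refine ⟨t, ht.1, ht.2, fun hso => ?_⟩
  have hc : Continuous (fun ε : ℝ => w + (t + ε) • d) := by fun_prop
  have h0 : (fun ε : ℝ => w + (t + ε) • d) 0 ∈ So := by simpa using hso
  have h1 := hc.continuousAt.preimage_mem_nhds (isOpen_So.mem_nhds h0)
  obtain ⟨r, hr, hb⟩ := Metric.mem_nhds_iff.1 h1
  have h2 : r / 2 ∈ Metric.ball (0 : ℝ) r := by
    rw [Metric.mem_ball, Real.dist_eq, sub_zero, abs_of_pos (by positivity)]
    linarith
  have h3 : t + r / 2 ∈ T := ⟨by linarith [ht.1], So_sub (hb h2)⟩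
  have h4 := hmax h3
  linarith

theorem tn_surj {p : ℝ × ℝ} (hp : p ∈ Rg α β) : ∃ w ∈ Sc, tn α β N w = p := by
  obtain ⟨w0, hw0, rfl⟩ := exists_tw h hp
  by_cases hz : β = 0 ∧ α = 0
  · obtain ⟨rfl, rfl⟩ := hz
    exact ⟨w0, hw0, by simp [tn, tw]⟩
  have hd : ((-β, -α) : ℝ × ℝ) ≠ 0 := by
    intro hh
    rw [Prod.mk_eq_zero] at hh
    exact hz ⟨by linarith [hh.1], by linarith [hh.2]⟩
  have hd' : ((β, α) : ℝ × ℝ) ≠ 0 := by
    intro hh
    rw [Prod.mk_eq_zero] at hh
    exact hz ⟨hh.1, hh.2⟩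
  obtain ⟨tp, tp0, tpS, tpO⟩ := exit hw0 hd
  obtain ⟨tm, tm0, tmS, tmO⟩ := exit hw0 hd'
  set l : ℝ → ℝ × ℝ := fun t => w0 + t • ((-β, -α) : ℝ × ℝ) with hl
  have l1 : ∀ t, (l t).1 = w0.1 - β * t := fun t => by simp [hl]; ring
  have l2 : ∀ t, (l t).2 = w0.2 - α * t := fun t => by simp [hl]; ring
  have em : w0 + tm • ((β, α) : ℝ × ℝ) = l (-tm) := by
    simp only [hl]; ext <;> simp
  rw [em] at tmS tmO
  have hlS : ∀ t ∈ Icc (-tm) tp, l t ∈ Sc := by
    intro t ht
    have p1 := tmS.1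
    have p2 := tmS.2
    have q1 := tpS.1
    have q2 := tpS.2
    change (l tp).1 ∈ _ at q1
    change (l tp).2 ∈ _ at q2
    rw [l1] at p1 q1
    rw [l2] at p2 q2
    refine ⟨?_, ?_⟩
    · rw [l1]
      rcases le_total 0 β with s | s
      · constructor <;> nlinarith [ht.1, ht.2, p1.1, p1.2, q1.1, q1.2]
      · constructor <;> nlinarith [ht.1, ht.2, p1.1, p1.2, q1.1, q1.2]
    · rw [l2]
      rcases le_total 0 α with s | s
      · constructor <;> nlinarith [ht.1, ht.2, p2.1, p2.2, q2.1, q2.2]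
      · constructor <;> nlinarith [ht.1, ht.2, p2.1, p2.2, q2.1, q2.2]
  have hlc : Continuous l := by simp only [hl]; fun_prop
  have hG : ContinuousOn (fun t => N (l t) - (min w0.1 w0.2 + t)) (Icc (-tm) tp) := by
    refine ContinuousOn.sub (A.continuousOn.comp hlc.continuousOn hlS) (by fun_prop)
  -- the model heights
  have Amin : ∀ w ∈ Sc, ∀ w' ∈ Sc, min w.1 w.2 - min w'.1 w'.2 ≤
      max (w.1 - w'.1) 0 + max (w.2 - w'.2) 0 := by
    intro w _ w' _
    have a1 := le_max_left (w.1 - w'.1) 0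
    have a2 := le_max_left (w.2 - w'.2) 0
    have a3 := le_max_right (w.1 - w'.1) 0
    have a4 := le_max_right (w.2 - w'.2) 0
    rcases le_total w'.1 w'.2 with k | k
    · rw [min_eq_left k]
      have := min_le_left w.1 w.2
      linarith
    · rw [min_eq_right k]
      have := min_le_right w.1 w.2
      linarith
  have lin : ∀ w ∈ Sc, ∀ w' ∈ Sc, ∀ μ : ℝ, 0 ≤ μ → w.1 - w'.1 = -(β * μ) →
      w.2 - w'.2 = -(α * μ) → min w.1 w.2 - min w'.1 w'.2 ≤ μ := by
    intro w hw w' hw' μ hμ e1 e2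
    have h1 := Amin w hw w' hw'
    rw [e1, e2] at h1
    have ha := h.ha
    have hb := h.hb
    have hs := h.hs
    rcases le_total 0 α with p | p <;> rcases le_total 0 β with q | q
    · rw [max_eq_right (by nlinarith), max_eq_right (by nlinarith)] at h1
      linarith
    · rw [max_eq_left (by nlinarith), max_eq_right (by nlinarith)] at h1
      nlinarith
    · rw [max_eq_right (by nlinarith), max_eq_left (by nlinarith)] at h1
      nlinarith
    · rw [max_eq_left (by nlinarith), max_eq_left (by nlinarith)] at h1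
      nlinarith
  have hle : -tm ≤ tp := by linarith
  have g1 : N (l tp) - (min w0.1 w0.2 + tp) ≤ 0 := by
    have e := A.bd (l tp) tpS tpO
    have k := lin (l tp) tpS w0 hw0 tp tp0 (by rw [l1]; ring) (by rw [l2]; ring)
    rw [e]; linarith
  have g2 : 0 ≤ N (l (-tm)) - (min w0.1 w0.2 + -tm) := by
    have e := A.bd (l (-tm)) tmS tmO
    have k := lin w0 hw0 (l (-tm)) tmS tm tm0 (by rw [l1]; ring) (by rw [l2]; ring)
    rw [e]; linarith
  obtain ⟨t, ht, h0⟩ := intermediate_value_Icc' hle hG ⟨g1, g2⟩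
  refine ⟨l t, hlS t ht, ?_⟩
  have hN : N (l t) = min w0.1 w0.2 + t := by
    have : N (l t) - (min w0.1 w0.2 + t) = 0 := h0
    linarith
  simp only [tn, tw, hN, l1, l2]
  ext <;> simp only <;> ring


theorem tn_mem_Rgo {w : ℝ × ℝ} (hw : w ∈ Sc) : tn α β N w ∈ Rgo α β ↔ w ∈ So := by
  constructor
  · intro hR
    by_contra hn
    have e := A.bd w hw hn
    have e2 : tn α β N w = tw α β w := by simp only [tn, tw, e]
    rw [e2, tw_mem_Rgo h hw] at hR
    exact hn hR
  · intro hwo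
    by_contra hn
    obtain ⟨w', hw', e⟩ := exists_tw h (A.tn_mapsTo h hw)
    have hno : w' ∉ So := by
      intro hh
      rw [← tw_mem_Rgo h hw', e] at hh
      exact hn hh
    have e3 : tn α β N w' = tw α β w' := by
      have := A.bd w' hw' hno
      simp only [tn, tw, this]
    have e4 : w' = w := A.tn_injOn h hw' hw (e3.trans e)
    exact hno (e4 ▸ hwo)

end Adm

end Crest.Agent.R096.Grd_714
end

-- ▼ part R096/Grt2_714
section

/-!
# R096 (row 96), GRID, T at the grid points, part 2 (helper714): the interpolated heights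

`itp ν g` = PL interpolation of `ν : ℕ → ℕ → ℝ` on the integer grid (fold = the diagonal from the
upper corner to the lower corner of every unit square); `Nf n1 n2` = interpolation of
`min w₁ w₂` on the `n1 × n2` grid; `adm_Nf`.
-/

set_option autoImplicit false
set_option linter.unusedVariables false

open Set

namespace Crest.Agent.R096.Grd_714

/-- the formula on the box `[i', i] × [j', j]` -/
def itc (ν : ℕ → ℕ → ℝ) (i' i j' j : ℕ) (g : ℝ × ℝ) : ℝ :=
  ν i j + (j - g.2) * (ν i j' - ν i j) + (i - g.1) * (ν i' j - ν i j) +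
    min (i - g.1) (j - g.2) * (ν i' j' - ν i' j - ν i j' + ν i j)

/-- the interpolation -/
noncomputable def itp (ν : ℕ → ℕ → ℝ) (g : ℝ × ℝ) : ℝ :=
  itc ν ⌊g.1⌋₊ ⌈g.1⌉₊ ⌊g.2⌋₊ ⌈g.2⌉₊ g

theorem itc_lo1 (ν : ℕ → ℕ → ℝ) {i' j' j : ℕ} {g : ℝ × ℝ} (h1 : g.1 = i')
    (h2 : (j : ℝ) - g.2 ∈ Icc (0 : ℝ) 1) :
    itc ν i' (i' + 1) j' j g = itc ν i' i' j' j g := by
  simp only [itc, h1]
  have e1 : (((i' + 1 : ℕ) : ℝ) - i') = 1 := by push_cast; ring
  rw [e1, sub_self, min_eq_right h2.2, min_eq_left h2.1]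
  ring

theorem itc_hi1 (ν : ℕ → ℕ → ℝ) {i i' j' j : ℕ} {g : ℝ × ℝ} (h1 : g.1 = i)
    (h2 : (j : ℝ) - g.2 ∈ Icc (0 : ℝ) 1) :
    itc ν i' i j' j g = itc ν i i j' j g := by
  simp only [itc, h1]
  rw [sub_self, min_eq_left h2.1]
  ring

theorem itc_lo2 (ν : ℕ → ℕ → ℝ) {i i' j' : ℕ} {g : ℝ × ℝ} (h1 : g.2 = j')
    (h2 : (i : ℝ) - g.1 ∈ Icc (0 : ℝ) 1) :
    itc ν i' i j' (j' + 1) g = itc ν i' i j' j' g := by
  simp only [itc, h1]
  have e1 : (((j' + 1 : ℕ) : ℝ) - j') = 1 := by push_cast; ring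
  rw [e1, sub_self, min_eq_left h2.2, min_eq_right h2.1]
  ring

theorem itc_hi2 (ν : ℕ → ℕ → ℝ) {i i' j' j : ℕ} {g : ℝ × ℝ} (h1 : g.2 = j)
    (h2 : (i : ℝ) - g.1 ∈ Icc (0 : ℝ) 1) :
    itc ν i' i j' j g = itc ν i' i j j g := by
  simp only [itc, h1]
  rw [sub_self, min_eq_right h2.1]
  ring

/-- change of the first interval -/
theorem itc_box1 (ν : ℕ → ℕ → ℝ) {i' i j' j : ℕ} (h : i' ≤ i) (h1 : i ≤ i' + 1) {g : ℝ × ℝ}
    (g1 : (i' : ℝ) ≤ g.1) (g1' : g.1 ≤ i) (h2 : (j : ℝ) - g.2 ∈ Icc (0 : ℝ) 1) :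
    itc ν i' i j' j g = itc ν ⌊g.1⌋₊ ⌈g.1⌉₊ j' j g := by
  rcases g1.eq_or_lt with e | e
  · -- `g.1 = i'`
    have e' : g.1 = i' := e.symm
    have e1 : ⌊g.1⌋₊ = i' := by rw [e']; exact Nat.floor_natCast _
    have e2 : ⌈g.1⌉₊ = i' := by rw [e']; exact Nat.ceil_natCast _
    rw [e1, e2]
    rcases h.eq_or_lt with hh | hh
    · rw [hh]
    · have : i = i' + 1 := by omega
      subst this
      exact itc_lo1 ν e' h2
  · rcases g1'.eq_or_lt with f | f
    · have e1 : ⌊g.1⌋₊ = i := by rw [f]; exact Nat.floor_natCast _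
      have e2 : ⌈g.1⌉₊ = i := by rw [f]; exact Nat.ceil_natCast _
      rw [e1, e2]
      exact itc_hi1 ν f h2
    · have hlt : i' < i := by exact_mod_cast e.trans f
      have hi : i = i' + 1 := by omega
      subst hi
      have g0 : 0 ≤ g.1 := (Nat.cast_nonneg _).trans e.le
      have e1 : ⌊g.1⌋₊ = i' := by
        rw [Nat.floor_eq_iff g0]
        exact ⟨e.le, by push_cast at f; exact f⟩
      have e2 : ⌈g.1⌉₊ = i' + 1 := by
        rw [Nat.ceil_eq_iff (by omega)]
        refine ⟨?_, f.le⟩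
        simpa using e
      rw [e1, e2]

/-- change of the second interval -/
theorem itc_box2 (ν : ℕ → ℕ → ℝ) {i' i j' j : ℕ} (h : j' ≤ j) (h1 : j ≤ j' + 1) {g : ℝ × ℝ}
    (g2 : (j' : ℝ) ≤ g.2) (g2' : g.2 ≤ j) (h2 : (i : ℝ) - g.1 ∈ Icc (0 : ℝ) 1) :
    itc ν i' i j' j g = itc ν i' i ⌊g.2⌋₊ ⌈g.2⌉₊ g := by
  rcases g2.eq_or_lt with e | e
  · have e' : g.2 = j' := e.symm
    have e1 : ⌊g.2⌋₊ = j' := by rw [e']; exact Nat.floor_natCast _
    have e2 : ⌈g.2⌉₊ = j' := by rw [e']; exact Nat.ceil_natCast _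
    rw [e1, e2]
    rcases h.eq_or_lt with hh | hh
    · rw [hh]
    · have : j = j' + 1 := by omega
      subst this
      exact itc_lo2 ν e' h2
  · rcases g2'.eq_or_lt with f | f
    · have e1 : ⌊g.2⌋₊ = j := by rw [f]; exact Nat.floor_natCast _
      have e2 : ⌈g.2⌉₊ = j := by rw [f]; exact Nat.ceil_natCast _
      rw [e1, e2]
      exact itc_hi2 ν f h2
    · have hlt : j' < j := by exact_mod_cast e.trans f
      have hi : j = j' + 1 := by omega
      subst hi
      have g0 : 0 ≤ g.2 := (Nat.cast_nonneg _).trans e.le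
      have e1 : ⌊g.2⌋₊ = j' := by
        rw [Nat.floor_eq_iff g0]
        exact ⟨e.le, by push_cast at f; exact f⟩
      have e2 : ⌈g.2⌉₊ = j' + 1 := by
        rw [Nat.ceil_eq_iff (by omega)]
        refine ⟨?_, f.le⟩
        simpa using e
      rw [e1, e2]

theorem sub_mem_of {i' i : ℕ} (h1 : i ≤ i' + 1) {g : ℝ} (g1 : (i' : ℝ) ≤ g) (g1' : g ≤ i) :
    (i : ℝ) - g ∈ Icc (0 : ℝ) 1 := by
  have : (i : ℝ) ≤ i' + 1 := by exact_mod_cast h1
  constructor <;> linarith

/-- **the interpolation on a box** -/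
theorem itp_box (ν : ℕ → ℕ → ℝ) {i' i j' j : ℕ} (h : i' ≤ i) (h1 : i ≤ i' + 1) (k : j' ≤ j)
    (k1 : j ≤ j' + 1) {g : ℝ × ℝ} (g1 : (i' : ℝ) ≤ g.1) (g1' : g.1 ≤ i)
    (g2 : (j' : ℝ) ≤ g.2) (g2' : g.2 ≤ j) : itp ν g = itc ν i' i j' j g := by
  rw [itc_box1 ν h h1 g1 g1' (sub_mem_of k1 g2 g2')]
  have g0 : 0 ≤ g.1 := (Nat.cast_nonneg _).trans g1
  rw [itc_box2 ν k k1 g2 g2' (sub_mem_of (Nat.ceil_le_floor_add_one _) (Nat.floor_le g0)
    (Nat.le_ceil _))]
  rfl

/-- the swap of the variables -/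
theorem itp_swap (ν : ℕ → ℕ → ℝ) (g : ℝ × ℝ) : itp (fun i j => ν j i) (g.2, g.1) = itp ν g := by
  simp only [itp, itc, min_comm]
  ring

/-- the values of `min` at the grid points -/
noncomputable def nu (n1 n2 : ℕ) (i j : ℕ) : ℝ := min (1 - (i : ℝ) / n1) (1 - (j : ℝ) / n2)

/-- the data of a unit square -/
structure Cd (h k a b c : ℝ) : Prop where
  h0 : 0 < h
  k0 : 0 < k
  a0 : 0 ≤ a
  b0 : 0 ≤ b
  c0 : 0 ≤ c
  ak : a + c ≤ k
  bh : b + c ≤ h
  ab : a = 0 ∨ b = 0

theorem cd_min {h k : ℝ} (hh : 0 < h) (hk : 0 < k) (X Y : ℝ) :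
    Cd h k (min X (Y + k) - min X Y) (min (X + h) Y - min X Y)
      (min (X + h) (Y + k) - min (X + h) Y - min X (Y + k) + min X Y) := by
  refine ⟨hh, hk, ?_, ?_, ?_, ?_, ?_, ?_⟩
  · exact sub_nonneg.2 (min_le_min le_rfl (by linarith))
  · exact sub_nonneg.2 (min_le_min (by linarith) le_rfl)
  · rcases le_total X Y with h1 | h1
    · rw [min_eq_left h1, min_eq_left (show X ≤ Y + k by linarith)]
      have := min_le_min (le_refl (X + h)) (show Y ≤ Y + k by linarith)
      linarith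
    · rw [min_eq_right h1, min_eq_right (show Y ≤ X + h by linarith)]
      have := min_le_min (show X ≤ X + h by linarith) (le_refl (Y + k))
      linarith
  · have h1 : min (X + h) (Y + k) ≤ min (X + h) Y + k := by
      rw [min_add]
      exact min_le_min (by linarith) le_rfl
    linarith
  · have h1 : min (X + h) (Y + k) ≤ min X (Y + k) + h := by
      rw [min_add]
      exact min_le_min le_rfl (by linarith)
    linarith
  · rcases le_total X Y with h1 | h1
    · left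
      rw [min_eq_left h1, min_eq_left (show X ≤ Y + k by linarith), sub_self]
    · right
      rw [min_eq_right h1, min_eq_right (show Y ≤ X + h by linarith), sub_self]

/-- the data of the unit square `[p, p+1] × [q, q+1]` -/
theorem cd_nu {n1 n2 : ℕ} (h1 : 0 < n1) (h2 : 0 < n2) (p q : ℕ) :
    Cd (1 / (n1 : ℝ)) (1 / (n2 : ℝ)) (nu n1 n2 (p + 1) q - nu n1 n2 (p + 1) (q + 1))
      (nu n1 n2 p (q + 1) - nu n1 n2 (p + 1) (q + 1))
      (nu n1 n2 p q - nu n1 n2 p (q + 1) - nu n1 n2 (p + 1) q + nu n1 n2 (p + 1) (q + 1)) := by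
  have k1 : (0 : ℝ) < n1 := by exact_mod_cast h1
  have k2 : (0 : ℝ) < n2 := by exact_mod_cast h2
  have := cd_min (one_div_pos.2 k1) (one_div_pos.2 k2) (1 - ((p + 1 : ℕ) : ℝ) / n1)
    (1 - ((q + 1 : ℕ) : ℝ) / n2)
  have e1 : 1 - ((p + 1 : ℕ) : ℝ) / n1 + 1 / n1 = 1 - (p : ℝ) / n1 := by push_cast; ring
  have e2 : 1 - ((q + 1 : ℕ) : ℝ) / n2 + 1 / n2 = 1 - (q : ℝ) / n2 := by push_cast; ring
  rw [e1, e2] at this
  exact this

/-- monotonicity can be checked on the unit intervals -/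
theorem mono_chain {f : ℝ → ℝ} : ∀ n : ℕ, (∀ p < n, MonotoneOn f (Icc (p : ℝ) (p + 1))) →
    MonotoneOn f (Icc (0 : ℝ) n)
  | 0, _ => by
    rw [Nat.cast_zero, Icc_self]
    exact (subsingleton_singleton).monotoneOn f
  | n + 1, H => by
    have h1 := mono_chain n fun p hp => H p (by omega)
    have h2 := H n (by omega)
    have h3 := h1.union_right h2 (isGreatest_Icc (Nat.cast_nonneg n))
      (isLeast_Icc (by linarith))
    rwa [Icc_union_Icc_eq_Icc (Nat.cast_nonneg n) (by linarith),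
      show (n : ℝ) + 1 = ((n + 1 : ℕ) : ℝ) by push_cast; ring] at h3

section adm

variable {n1 n2 : ℕ} (h1 : 0 < n1) (h2 : 0 < n2)
include h1 h2

/-- the box formula of the heights -/
theorem itp_nu_box {p q : ℕ} {g : ℝ × ℝ} (g1 : g.1 ∈ Icc (p : ℝ) (p + 1))
    (g2 : g.2 ∈ Icc (q : ℝ) (q + 1)) :
    ∃ a b c v : ℝ, Cd (1 / (n1 : ℝ)) (1 / (n2 : ℝ)) a b c ∧
      ∀ g' : ℝ × ℝ, g'.1 ∈ Icc (p : ℝ) (p + 1) → g'.2 ∈ Icc (q : ℝ) (q + 1) →
      itp (nu n1 n2) g' = v + (q + 1 - g'.2) * a + (p + 1 - g'.1) * b +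
        min (p + 1 - g'.1) (q + 1 - g'.2) * c := by
  refine ⟨_, _, _, nu n1 n2 (p + 1) (q + 1), cd_nu h1 h2 p q, fun g' k1 k2 => ?_⟩
  rw [itp_box (nu n1 n2) (i' := p) (i := p + 1) (j' := q) (j := q + 1) (by omega) (by omega)
    (by omega) (by omega) k1.1 (by push_cast; exact k1.2) k2.1 (by push_cast; exact k2.2)]
  simp only [itc]
  push_cast
  rfl

omit h1 h2 in
/-- the fractional cell of a coordinate -/
theorem exists_cell {n : ℕ} (hn : 0 < n) {t : ℝ} (ht : t ∈ Icc (0 : ℝ) n) :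
    ∃ q : ℕ, q < n ∧ t ∈ Icc (q : ℝ) (q + 1) := by
  rcases ht.2.eq_or_lt with h | h
  · refine ⟨n - 1, by omega, ?_⟩
    have : ((n - 1 : ℕ) : ℝ) = n - 1 := by
      rw [Nat.cast_sub (by omega)]; simp
    rw [this, h]
    constructor <;> linarith
  · refine ⟨⌊t⌋₊, (Nat.floor_lt ht.1).2 h, Nat.floor_le ht.1, ?_⟩
    exact (Nat.lt_floor_add_one t).le

theorem itp_m1 {s t y : ℝ} (hs : 0 ≤ s) (hst : s ≤ t) (ht : t ≤ n1) (hy : y ∈ Icc (0 : ℝ) n2) :
    itp (nu n1 n2) (t, y) ≤ itp (nu n1 n2) (s, y) ∧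
      itp (nu n1 n2) (s, y) - itp (nu n1 n2) (t, y) ≤ (t - s) / n1 := by
  obtain ⟨q, hq, hyq⟩ := exists_cell h2 hy
  have hn1 : (0 : ℝ) < n1 := by exact_mod_cast h1
  have H : ∀ p : ℕ, ∀ s ∈ Icc (p : ℝ) (p + 1), ∀ t ∈ Icc (p : ℝ) (p + 1), s ≤ t →
      itp (nu n1 n2) (t, y) ≤ itp (nu n1 n2) (s, y) ∧
      itp (nu n1 n2) (s, y) - itp (nu n1 n2) (t, y) ≤ (t - s) / n1 := by
    intro p s hs t ht hst
    obtain ⟨a, b, c, v, hc, hf⟩ := itp_nu_box h1 h2 (g := (s, y)) hs hyq
    rw [hf (s, y) hs hyq, hf (t, y) ht hyq]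
    simp only
    have k1 : min ((p : ℝ) + 1 - t) (q + 1 - y) ≤ min ((p : ℝ) + 1 - s) (q + 1 - y) :=
      min_le_min (by linarith) le_rfl
    have k2 : min ((p : ℝ) + 1 - s) (q + 1 - y) ≤ min ((p : ℝ) + 1 - t) (q + 1 - y) + (t - s) := by
      rw [min_add]
      exact min_le_min (by linarith) (by linarith)
    have k3 := mul_le_mul_of_nonneg_right k1 hc.c0
    have k4 := mul_le_mul_of_nonneg_right k2 hc.c0
    have k5 := mul_nonneg (sub_nonneg.2 hst) hc.b0
    have k6 := mul_le_mul_of_nonneg_left hc.bh (sub_nonneg.2 hst)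
    have e : (t - s) / n1 = (t - s) * (1 / n1) := by ring
    rw [e]
    constructor
    · nlinarith
    · nlinarith
  have M1 : MonotoneOn (fun t => -itp (nu n1 n2) (t, y)) (Icc (0 : ℝ) n1) := by
    apply mono_chain n1
    intro p _ s hs t ht hst
    have := (H p s hs t ht hst).1
    simp only
    linarith
  have M2 : MonotoneOn (fun t => itp (nu n1 n2) (t, y) + t / n1) (Icc (0 : ℝ) n1) := by
    apply mono_chain n1
    intro p _ s hs t ht hst
    have := (H p s hs t ht hst).2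
    simp only
    rw [sub_div] at this
    linarith
  have a1 := M1 ⟨hs, hst.trans ht⟩ ⟨hs.trans hst, ht⟩ hst
  have a2 := M2 ⟨hs, hst.trans ht⟩ ⟨hs.trans hst, ht⟩ hst
  simp only at a1 a2
  rw [sub_div]
  constructor <;> linarith

end adm

theorem nu_swap (n1 n2 : ℕ) : (fun i j => nu n2 n1 j i) = nu n1 n2 := by
  funext i j
  simp only [nu, min_comm]

theorem itp_nu_swap (n1 n2 : ℕ) (g : ℝ × ℝ) :
    itp (nu n2 n1) (g.2, g.1) = itp (nu n1 n2) g := by
  rw [← itp_swap (nu n1 n2) g, ← nu_swap n2 n1]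

theorem itp_m2 {n1 n2 : ℕ} (h1 : 0 < n1) (h2 : 0 < n2) {s t x : ℝ} (hs : 0 ≤ s) (hst : s ≤ t)
    (ht : t ≤ n2) (hx : x ∈ Icc (0 : ℝ) n1) :
    itp (nu n1 n2) (x, t) ≤ itp (nu n1 n2) (x, s) ∧
      itp (nu n1 n2) (x, s) - itp (nu n1 n2) (x, t) ≤ (t - s) / n2 := by
  have := itp_m1 h2 h1 hs hst ht hx
  rw [← itp_nu_swap n1 n2 (x, t), ← itp_nu_swap n1 n2 (x, s)]
  exact this

/-- the strict inequality -/
theorem itp_st {n1 n2 : ℕ} (h1 : 0 < n1) (h2 : 0 < n2) {s s' t t' : ℝ} (hs : 0 ≤ s)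
    (hss : s < s') (hs' : s' ≤ n1) (ht : 0 ≤ t) (htt : t < t') (ht' : t' ≤ n2) :
    itp (nu n1 n2) (s, t) - itp (nu n1 n2) (s', t') < (s' - s) / n1 + (t' - t) / n2 := by
  have hn1 : (0 : ℝ) < n1 := by exact_mod_cast h1
  have hn2 : (0 : ℝ) < n2 := by exact_mod_cast h2
  -- the unit square above `(s, t)`
  set p := ⌊s⌋₊ with hp
  set q := ⌊t⌋₊ with hq
  have p1 : (p : ℝ) ≤ s := Nat.floor_le hs
  have p2 : s < p + 1 := Nat.lt_floor_add_one s
  have q1 : (q : ℝ) ≤ t := Nat.floor_le ht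
  have q2 : t < q + 1 := Nat.lt_floor_add_one t
  set s1 := min s' (p + 1) with hs1
  set t1 := min t' (q + 1) with ht1
  have a1 : s < s1 := lt_min hss p2
  have a2 : s1 ≤ s' := min_le_left _ _
  have a3 : s1 ≤ p + 1 := min_le_right _ _
  have b1 : t < t1 := lt_min htt q2
  have b2 : t1 ≤ t' := min_le_left _ _
  have b3 : t1 ≤ q + 1 := min_le_right _ _
  have k1 := (itp_m1 h1 h2 (s := s1) (t := s') (y := t1) (by linarith) a2 hs'
    ⟨by linarith, b2.trans ht'⟩).2
  have k2 := (itp_m2 h1 h2 (s := t1) (t := t') (x := s') (by linarith) b2 ht'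
    ⟨by linarith, hs'⟩).2
  have k3 : itp (nu n1 n2) (s, t) - itp (nu n1 n2) (s1, t1) < (s1 - s) / n1 + (t1 - t) / n2 := by
    obtain ⟨a, b, c, v, hc, hf⟩ := itp_nu_box h1 h2 (g := (s, t)) (p := p) (q := q)
      ⟨p1, p2.le⟩ ⟨q1, q2.le⟩
    rw [hf (s, t) ⟨p1, p2.le⟩ ⟨q1, q2.le⟩, hf (s1, t1) ⟨by simp only; linarith, a3⟩
      ⟨by simp only; linarith, b3⟩]
    simp only
    have e1 : (s1 - s) / n1 = (s1 - s) * (1 / n1) := by ring
    have e2 : (t1 - t) / n2 = (t1 - t) * (1 / n2) := by ring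
    rw [e1, e2]
    have d1 : 0 < s1 - s := by linarith
    have d2 : 0 < t1 - t := by linarith
    have m0 : min ((p : ℝ) + 1 - s) (q + 1 - t) - min ((p : ℝ) + 1 - s1) (q + 1 - t1) <
        (s1 - s) + (t1 - t) := by
      rcases le_total ((p : ℝ) + 1 - s1) (q + 1 - t1) with k | k
      · rw [min_eq_left k]
        have := min_le_left ((p : ℝ) + 1 - s) (q + 1 - t)
        linarith
      · rw [min_eq_right k]
        have := min_le_right ((p : ℝ) + 1 - s) (q + 1 - t)
        linarith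
    have c1 := mul_le_mul_of_nonneg_left hc.ak d2.le
    have c2 := mul_le_mul_of_nonneg_left hc.bh d1.le
    rcases hc.c0.eq_or_lt with e | e
    · -- `c = 0`
      have hc0 : c = 0 := e.symm
      rw [hc0] at c1 c2 ⊢
      rcases hc.ab with ha | hb
      · rw [ha] at c1 ⊢
        have := mul_pos d2 hc.k0
        nlinarith
      · rw [hb] at c2 ⊢
        have := mul_pos d1 hc.h0
        nlinarith
    · have := mul_lt_mul_of_pos_left m0 e
      nlinarith
  have f1 : (s' - s) / n1 = (s' - s1) / n1 + (s1 - s) / n1 := by ring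
  have f2 : (t' - t) / n2 = (t' - t1) / n2 + (t1 - t) / n2 := by ring
  linarith

/-- the heights on the unit square -/
noncomputable def Nf (n1 n2 : ℕ) (w : ℝ × ℝ) : ℝ :=
  itp (nu n1 n2) ((n1 : ℝ) * (1 - w.1), (n2 : ℝ) * (1 - w.2))

theorem Nf_swap (n1 n2 : ℕ) (x y : ℝ) : Nf n2 n1 (y, x) = Nf n1 n2 (x, y) := by
  simp only [Nf]
  exact itp_nu_swap n1 n2 ((n1 : ℝ) * (1 - x), (n2 : ℝ) * (1 - y))

/-- the heights on the side `w₁ = 1` -/
theorem itp_bd_one {n1 n2 : ℕ} (h2 : 0 < n2) {t : ℝ} (ht : t ∈ Icc (0 : ℝ) n2) :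
    itp (nu n1 n2) (0, t) = 1 - t / n2 := by
  have hn2 : (0 : ℝ) < n2 := by exact_mod_cast h2
  obtain ⟨q, hq, htq⟩ := exists_cell h2 ht
  rw [itp_box (nu n1 n2) (i' := 0) (i := 0) (j' := q) (j := q + 1) le_rfl (by omega)
    (by omega) (by omega) (by simp) (by simp) htq.1 (by push_cast; exact htq.2)]
  have e : ∀ j : ℕ, nu n1 n2 0 j = 1 - (j : ℝ) / n2 := by
    intro j
    simp only [nu, Nat.cast_zero, zero_div, sub_zero]
    exact min_eq_right (by
      have : 0 ≤ (j : ℝ) / n2 := by positivity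
      linarith)
  simp only [itc, e]
  push_cast
  ring

/-- the heights on the side `w₁ = 0` -/
theorem itp_bd_zero {n1 n2 : ℕ} (h1 : 0 < n1) (h2 : 0 < n2) {t : ℝ} (ht : t ∈ Icc (0 : ℝ) n2) :
    itp (nu n1 n2) (n1, t) = 0 := by
  have hn1 : (0 : ℝ) < n1 := by exact_mod_cast h1
  have hn2 : (0 : ℝ) < n2 := by exact_mod_cast h2
  obtain ⟨q, hq, htq⟩ := exists_cell h2 ht
  rw [itp_box (nu n1 n2) (i' := n1) (i := n1) (j' := q) (j := q + 1) le_rfl (by omega)
    (by omega) (by omega) (by simp) (by simp) htq.1 (by push_cast; exact htq.2)]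
  have e : ∀ j : ℕ, j ≤ n2 → nu n1 n2 n1 j = 0 := by
    intro j hj
    have : (j : ℝ) / n2 ≤ 1 := by
      rw [div_le_one hn2]; exact_mod_cast hj
    simp only [nu, div_self hn1.ne', sub_self]
    exact min_eq_left (by linarith)
  simp only [itc, e q hq.le, e (q + 1) hq]
  simp

/-- **the interpolated heights are admissible** -/
theorem adm_Nf {n1 n2 : ℕ} (h1 : 0 < n1) (h2 : 0 < n2) : Adm (Nf n1 n2) := by
  have hn1 : (0 : ℝ) < n1 := by exact_mod_cast h1
  have hn2 : (0 : ℝ) < n2 := by exact_mod_cast h2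
  have lvl : ∀ {n : ℕ}, 0 < n → ∀ {x : ℝ}, x ∈ Icc (0 : ℝ) 1 → (n : ℝ) * (1 - x) ∈ Icc (0 : ℝ) n := by
    intro n hn x hx
    have : (0 : ℝ) < n := by exact_mod_cast hn
    constructor
    · exact mul_nonneg this.le (by linarith [hx.2])
    · nlinarith [hx.1]
  have dv : ∀ {n : ℕ}, 0 < n → ∀ x x' : ℝ, ((n : ℝ) * (1 - x') - n * (1 - x)) / n = x - x' := by
    intro n hn x x'
    have : (0 : ℝ) < n := by exact_mod_cast hn
    field_simp
    ring
  refine ⟨?_, ?_, ?_, ?_⟩
  · intro x x' y hx hx' hy hle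
    have := itp_m1 h1 h2 (s := n1 * (1 - x)) (t := n1 * (1 - x')) (y := n2 * (1 - y))
      (lvl h1 hx).1 (by nlinarith) (lvl h1 hx').2 (lvl h2 hy)
    rw [dv h1 x x'] at this
    exact this
  · intro x y y' hx hy hy' hle
    have := itp_m2 h1 h2 (s := n2 * (1 - y)) (t := n2 * (1 - y')) (x := n1 * (1 - x))
      (lvl h2 hy).1 (by nlinarith) (lvl h2 hy').2 (lvl h1 hx)
    rw [dv h2 y y'] at this
    exact this
  · intro x x' y y' hx hx' hy hy' hlx hly
    have := itp_st h1 h2 (s := n1 * (1 - x)) (s' := n1 * (1 - x')) (t := n2 * (1 - y))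
      (t' := n2 * (1 - y')) (lvl h1 hx).1 (by nlinarith) (lvl h1 hx').2 (lvl h2 hy).1
      (by nlinarith) (lvl h2 hy').2
    rw [dv h1 x x', dv h2 y y'] at this
    exact this
  · rintro ⟨x, y⟩ ⟨hx, hy⟩ hn
    simp only at hx hy ⊢
    have hcases : x = 0 ∨ x = 1 ∨ y = 0 ∨ y = 1 := by
      by_contra hcon
      push Not at hcon
      exact hn ⟨⟨lt_of_le_of_ne hx.1 (Ne.symm hcon.1), lt_of_le_of_ne hx.2 hcon.2.1⟩,
        ⟨lt_of_le_of_ne hy.1 (Ne.symm hcon.2.2.1), lt_of_le_of_ne hy.2 hcon.2.2.2⟩⟩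
    rcases hcases with rfl | rfl | rfl | rfl
    · rw [min_eq_left hy.1]
      simp only [Nf, sub_zero, mul_one]
      exact itp_bd_zero h1 h2 (lvl h2 hy)
    · rw [min_eq_right hy.2]
      simp only [Nf, sub_self, mul_zero]
      rw [itp_bd_one h2 (lvl h2 hy)]
      field_simp
      ring
    · rw [min_eq_right hx.1, ← Nf_swap]
      simp only [Nf, sub_zero, mul_one]
      exact itp_bd_zero h2 h1 (lvl h1 hx)
    · rw [min_eq_left hx.2, ← Nf_swap]
      simp only [Nf, sub_self, mul_zero]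
      rw [itp_bd_one h1 (lvl h1 hx)]
      field_simp
      ring

end Crest.Agent.R096.Grd_714
end

-- ▼ part R096/Grt3_714
section

/-!
# R096 (row 96), GRID, T at the grid points, part 3 (helper714): the 2-skeleton with general heights

`Bn b N u = T b u + (N c1 c2 w - min w₁ w₂) • (v + C - P - P')`, `w = (1 - u c1, 1 - u c2)`, for a
symmetric family `N c1 c2` of admissible heights (`Fam N`).
-/

set_option autoImplicit false
set_option linter.unusedSectionVars false
set_option linter.unusedVariables false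

open Set

namespace Crest.Agent.R096.Grd_714

open Crest.Agent.R096.Brk1_582 Crest.Agent.R096.Brk2_582 Crest.Agent.R096.Brk6_582

variable {E : Type*} [NormedAddCommGroup E] [NormedSpace ℝ E] {I : Type*}
variable {La : Set E} {P : I → Set E} {b : Set I → E} {N : I → I → ℝ × ℝ → ℝ}

namespace Fr

variable (X : Fr E)

/-- the chart of the height `n` -/
noncomputable def nl (n : ℝ × ℝ → ℝ) (w : ℝ × ℝ) : E := X.pt (tn X.α X.β n w)

theorem nl_tl (n : ℝ × ℝ → ℝ) (w : ℝ × ℝ) : X.nl n w = X.tl w +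
    (n w - min w.1 w.2) • (X.α • X.f1 + X.β • X.f2) := by
  simp only [nl, Fr.tl, Fr.pt, tn, tw]
  module

theorem nl_injOn {n : ℝ × ℝ → ℝ} (A : Adm n) : InjOn (X.nl n) Sc :=
  fun _ hw _ hw' he => A.tn_injOn X.shp hw hw' (X.pt_inj he)


theorem exists_tl_of_nl {n : ℝ × ℝ → ℝ} (A : Adm n) {w : ℝ × ℝ} (hw : w ∈ So) :
    ∃ w' ∈ So, X.tl w' = X.nl n w := by
  obtain ⟨w', h1, h2⟩ := exists_tw X.shp (A.tn_mapsTo X.shp (So_sub hw))
  refine ⟨w', (tw_mem_Rgo X.shp h1).1 ?_, by rw [Fr.tl, h2, nl]⟩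
  rw [h2]; exact (A.tn_mem_Rgo X.shp (So_sub hw)).2 hw

theorem exists_nl_of_tl {n : ℝ × ℝ → ℝ} (A : Adm n) {w : ℝ × ℝ} (hw : w ∈ So) :
    ∃ w' ∈ So, X.nl n w' = X.tl w := by
  obtain ⟨w', h1, h2⟩ := A.tn_surj X.shp (tw_mapsTo X.shp (So_sub hw))
  refine ⟨w', (A.tn_mem_Rgo X.shp h1).1 ?_, by rw [Fr.tl, nl, h2]⟩
  rw [h2]; exact (tw_mem_Rgo X.shp (So_sub hw)).2 hw

end Fr

open Classical in
/-- **the modified coordinates** on the 2-skeleton of the cube complex -/
noncomputable def Bn (b : Set I → E) (N : I → I → ℝ × ℝ → ℝ) (u : I → ℝ) : E :=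
  if h : ∃ c1 c2 : I, c1 ≠ c2 ∧ av u = {c1, c2} then
    T b u + (N h.choose h.choose_spec.choose (1 - u h.choose, 1 - u h.choose_spec.choose) -
      min (1 - u h.choose) (1 - u h.choose_spec.choose)) •
      (b {c | u c < 1} + b {c | u c = 0} - b (insert h.choose {c | u c = 0}) -
        b (insert h.choose_spec.choose {c | u c = 0}))
  else T b u

/-- symmetric families -/
def Sym (N : I → I → ℝ × ℝ → ℝ) : Prop := ∀ c c' x y, N c' c (y, x) = N c c' (x, y)

theorem cor_symm'' (hN : Sym N) (u : I → ℝ) (y : E) (g : I → E) {c1 c2 d1 d2 : I} (h1 : d1 ≠ d2)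
    (h2 : ({c1, c2} : Set I) = {d1, d2}) :
    (N d1 d2 (1 - u d1, 1 - u d2) - min (1 - u d1) (1 - u d2)) • (y - g d1 - g d2) =
      (N c1 c2 (1 - u c1, 1 - u c2) - min (1 - u c1) (1 - u c2)) • (y - g c1 - g c2) := by
  have k1 : d1 = c1 ∨ d1 = c2 := by
    have : d1 ∈ ({d1, d2} : Set I) := by simp
    rw [← h2] at this
    simpa using this
  have k2 : d2 = c1 ∨ d2 = c2 := by
    have : d2 ∈ ({d1, d2} : Set I) := by simp
    rw [← h2] at this
    simpa using this
  rcases k1 with k1 | k1 <;> rcases k2 with k2 | k2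
  · exact absurd (k1.trans k2.symm) h1
  · rw [k1, k2]
  · rw [k1, k2, hN c1 c2, min_comm (1 - u c2)]
    congr 1
    abel
  · exact absurd (k1.trans k2.symm) h1

theorem Bn_eq (hN : Sym N) {u : I → ℝ} {c1 c2 : I} (hne : c1 ≠ c2) (hav : av u = {c1, c2}) :
    Bn b N u = T b u + (N c1 c2 (1 - u c1, 1 - u c2) - min (1 - u c1) (1 - u c2)) •
      (b {c | u c < 1} + b {c | u c = 0} - b (insert c1 {c | u c = 0}) -
        b (insert c2 {c | u c = 0})) := by
  have h : ∃ c1 c2 : I, c1 ≠ c2 ∧ av u = {c1, c2} := ⟨c1, c2, hne, hav⟩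
  rw [Bn, dif_pos h]
  congr 1
  have hs := h.choose_spec.choose_spec
  exact cor_symm'' hN u (b {c | u c < 1} + b {c | u c = 0}) (fun c => b (insert c {c | u c = 0}))
    hs.1 (hav.symm.trans hs.2)

theorem Bn_of_ncard {u : I → ℝ} (h : (av u).ncard ≠ 2) : Bn b N u = T b u := by
  rw [Bn, dif_neg]
  rintro ⟨c1, c2, hne, hav⟩
  exact h (by rw [hav, ncard_pair hne])

section sq

variable (A : ∀ c1 c2, Adm (N c1 c2)) (hN : Sym N) [CompleteSpace E] (F : Foam La P b 4)
include A hN F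

theorem Bn_fr {Z : Set I} (hA : Z.Nonempty) {c1 c2 : I} (hc1 : c1 ∉ Z) (hc2 : c2 ∉ Z)
    (hne : c1 ≠ c2) (hfc : (fc P (insert c2 (insert c1 Z))).Nonempty)
    (hq : QC (b (insert c2 (insert c1 Z))) (b (insert c2 Z)) (b Z) (b (insert c1 Z)))
    {u : I → ℝ} (hu : InSq Z c1 c2 u) :
    Bn b N u = hq.fr.nl (N c1 c2) (1 - u c1, 1 - u c2) := by
  have hT := T_fr F hA hc1 hc2 hne hfc hq hu
  have key : hq.fr.nl (N c1 c2) (1 - u c1, 1 - u c2) = hq.fr.tl (1 - u c1, 1 - u c2) +
      (N c1 c2 (1 - u c1, 1 - u c2) - min (1 - u c1) (1 - u c2)) •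
        (b (insert c2 (insert c1 Z)) + b Z - b (insert c1 Z) - b (insert c2 Z)) := by
    rw [hq.fr.nl_tl, hq.fr_cross]
  by_cases h2 : (av u).ncard = 2
  · have hav : av u = {c1, c2} := by
      apply Set.eq_of_subset_of_ncard_le hu.av_sub
      rw [ncard_pair hne, h2]
    have h1 : 0 < u c1 ∧ u c1 < 1 := by
      have : c1 ∈ av u := by rw [hav]; simp
      exact this
    have h2 : 0 < u c2 ∧ u c2 < 1 := by
      have : c2 ∈ av u := by rw [hav]; simp
      exact this
    have hZ : {c | u c = 0} = Z := by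
      ext c
      constructor
      · intro (hc : u c = 0)
        by_contra hcA
        by_cases e1 : c = c1
        · subst e1; exact h1.1.ne' hc
        by_cases e2 : c = c2
        · subst e2; exact h2.1.ne' hc
        · rw [hu.one c hcA e1 e2] at hc; exact one_ne_zero hc
      · exact hu.zero c
    have hL : {c | u c < 1} = insert c2 (insert c1 Z) := by
      ext c
      simp only [mem_insert_iff]
      constructor
      · intro (hc : u c < 1)
        by_contra hn
        simp only [not_or] at hn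
        rw [hu.one c hn.2.2 hn.2.1 hn.1] at hc
        exact lt_irrefl _ hc
      · rintro (rfl | rfl | hc)
        · exact h2.2
        · exact h1.2
        · show u c < 1
          rw [hu.zero c hc]; exact one_pos
    rw [Bn_eq hN hne hav, hT, hZ, hL, key]
  · rw [Bn_of_ncard h2, hT, key]
    have hz : N c1 c2 (1 - u c1, 1 - u c2) - min (1 - u c1) (1 - u c2) = 0 := by
      have m1 := hu.m1
      have m2 := hu.m2
      have hin : ((1 - u c1, 1 - u c2) : ℝ × ℝ) ∈ Sc :=
        ⟨⟨by simp only; linarith [m1.2], by simp only; linarith [m1.1]⟩,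
          ⟨by simp only; linarith [m2.2], by simp only; linarith [m2.1]⟩⟩
      rw [(A c1 c2).bd _ hin, sub_self]
      intro ho
      apply h2
      have : av u = {c1, c2} := by
        apply Subset.antisymm hu.av_sub
        have k1 := ho.1
        have k2 := ho.2
        simp only [mem_Ioo] at k1 k2
        rintro c (rfl | rfl)
        · exact ⟨by linarith [k1.2], by linarith [k1.1]⟩
        · exact ⟨by linarith [k2.2], by linarith [k2.1]⟩
      rw [this, ncard_pair hne]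
    rw [hz, zero_smul, add_zero]

variable (hQ : Quads P b)
include hQ

open Classical in
/-- (K) the `Bn` point is a `T` point of the same type -/
theorem exists_T_of_Bn {u : I → ℝ} (hu : u ∈ K2 P) : ∃ v ∈ K2 P, T b v = Bn b N u ∧
    {c | v c = 0} = {c | u c = 0} ∧ {c | v c < 1} = {c | u c < 1} := by
  rcases K2_cases F hu with h | ⟨c1, c2, hne, hav, hZ, hL, n1, n2, hin⟩
  · exact ⟨u, hu, (Bn_of_ncard (by omega)).symm, rfl, rfl⟩
  have hZne := F.K_zero_nonempty hu.1
  have hfc : (fc P (insert c2 (insert c1 {c | u c = 0}))).Nonempty := by rw [← hL]; exact hu.1.2.2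
  have hq := hQ _ c1 c2 hZ n1 n2 hne hfc
  have m1 : c1 ∈ av u := by rw [hav]; simp
  have m2 : c2 ∈ av u := by rw [hav]; simp
  obtain ⟨w', hw', he⟩ := hq.fr.exists_tl_of_nl (A c1 c2) (w := (1 - u c1, 1 - u c2))
    ⟨⟨by simp only; linarith [m1.2], by simp only; linarith [m1.1]⟩,
      ⟨by simp only; linarith [m2.2], by simp only; linarith [m2.1]⟩⟩
  obtain ⟨g1, g2⟩ := hw'
  let v : I → ℝ := Function.update (Function.update u c1 (1 - w'.1)) c2 (1 - w'.2)
  have v1 : v c1 = 1 - w'.1 := by simp [v, Function.update_of_ne hne]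
  have v2 : v c2 = 1 - w'.2 := by simp [v]
  have v3 : ∀ c, c ≠ c1 → c ≠ c2 → v c = u c := fun c h1 h2 => by
    simp [v, Function.update_of_ne h1, Function.update_of_ne h2]
  have hZv : {c | v c = 0} = {c | u c = 0} := by
    ext c
    by_cases e1 : c = c1
    · subst e1
      simp only [mem_ofPred_eq, v1]
      exact ⟨fun h => absurd h (by linarith [g1.2]), fun h => absurd h m1.1.ne'⟩
    by_cases e2 : c = c2
    · subst e2
      simp only [mem_ofPred_eq, v2]
      exact ⟨fun h => absurd h (by linarith [g2.2]), fun h => absurd h m2.1.ne'⟩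
    simp only [mem_ofPred_eq, v3 c e1 e2]
  have hLv : {c | v c < 1} = {c | u c < 1} := by
    ext c
    by_cases e1 : c = c1
    · subst e1
      simp only [mem_ofPred_eq, v1]
      exact ⟨fun _ => m1.2, fun _ => by linarith [g1.1]⟩
    by_cases e2 : c = c2
    · subst e2
      simp only [mem_ofPred_eq, v2]
      exact ⟨fun _ => m2.2, fun _ => by linarith [g2.1]⟩
    simp only [mem_ofPred_eq, v3 c e1 e2]
  have hvK : v ∈ K2 P := by
    obtain ⟨hK, c, c', hcc, h0, h0'⟩ := hu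
    refine ⟨⟨fun c => ?_, ?_, ?_⟩, c, c', hcc, ?_, ?_⟩
    · by_cases e1 : c = c1
      · subst e1; rw [v1]; constructor <;> linarith [g1.1, g1.2]
      by_cases e2 : c = c2
      · subst e2; rw [v2]; constructor <;> linarith [g2.1, g2.2]
      rw [v3 c e1 e2]; exact hK.1 c
    · obtain ⟨d, hd⟩ := hK.2.1
      exact ⟨d, by have : d ∈ {c | v c = 0} := by rw [hZv]; exact hd
                   exact this⟩
    · rw [hLv]; exact hK.2.2
    · have : c ∈ {c | v c = 0} := by rw [hZv]; exact h0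
      exact this
    · have : c' ∈ {c | v c = 0} := by rw [hZv]; exact h0'
      exact this
  have hvin : InSq {c | u c = 0} c1 c2 v := by
    refine ⟨fun c hc => ?_, fun c hc h1 h2 => ?_, ?_, ?_⟩
    · have : c ∈ {c | v c = 0} := by rw [hZv]; exact hc
      exact this
    · rw [v3 c h1 h2]; exact hin.one c hc h1 h2
    · exact hvK.1.1 c1
    · exact hvK.1.1 c2
  refine ⟨v, hvK, ?_, hZv, hLv⟩
  rw [T_fr F hZne n1 n2 hne hfc hq hvin, Bn_fr A hN F hZne n1 n2 hne hfc hq hin, ← he, v1, v2]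
  simp

open Classical in
/-- (K') a `T` point is a `Bn` point of the same type -/
theorem exists_Bn_of_T {u : I → ℝ} (hu : u ∈ K2 P) : ∃ v ∈ K2 P, Bn b N v = T b u ∧
    {c | v c = 0} = {c | u c = 0} ∧ {c | v c < 1} = {c | u c < 1} := by
  rcases K2_cases F hu with h | ⟨c1, c2, hne, hav, hZ, hL, n1, n2, hin⟩
  · exact ⟨u, hu, (Bn_of_ncard (by omega)), rfl, rfl⟩
  have hZne := F.K_zero_nonempty hu.1
  have hfc : (fc P (insert c2 (insert c1 {c | u c = 0}))).Nonempty := by rw [← hL]; exact hu.1.2.2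
  have hq := hQ _ c1 c2 hZ n1 n2 hne hfc
  have m1 : c1 ∈ av u := by rw [hav]; simp
  have m2 : c2 ∈ av u := by rw [hav]; simp
  obtain ⟨w', hw', he⟩ := hq.fr.exists_nl_of_tl (A c1 c2) (w := (1 - u c1, 1 - u c2))
    ⟨⟨by simp only; linarith [m1.2], by simp only; linarith [m1.1]⟩,
      ⟨by simp only; linarith [m2.2], by simp only; linarith [m2.1]⟩⟩
  obtain ⟨g1, g2⟩ := hw'
  let v : I → ℝ := Function.update (Function.update u c1 (1 - w'.1)) c2 (1 - w'.2)
  have v1 : v c1 = 1 - w'.1 := by simp [v, Function.update_of_ne hne]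
  have v2 : v c2 = 1 - w'.2 := by simp [v]
  have v3 : ∀ c, c ≠ c1 → c ≠ c2 → v c = u c := fun c h1 h2 => by
    simp [v, Function.update_of_ne h1, Function.update_of_ne h2]
  have hZv : {c | v c = 0} = {c | u c = 0} := by
    ext c
    by_cases e1 : c = c1
    · subst e1
      simp only [mem_ofPred_eq, v1]
      exact ⟨fun h => absurd h (by linarith [g1.2]), fun h => absurd h m1.1.ne'⟩
    by_cases e2 : c = c2
    · subst e2
      simp only [mem_ofPred_eq, v2]
      exact ⟨fun h => absurd h (by linarith [g2.2]), fun h => absurd h m2.1.ne'⟩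
    simp only [mem_ofPred_eq, v3 c e1 e2]
  have hLv : {c | v c < 1} = {c | u c < 1} := by
    ext c
    by_cases e1 : c = c1
    · subst e1
      simp only [mem_ofPred_eq, v1]
      exact ⟨fun _ => m1.2, fun _ => by linarith [g1.1]⟩
    by_cases e2 : c = c2
    · subst e2
      simp only [mem_ofPred_eq, v2]
      exact ⟨fun _ => m2.2, fun _ => by linarith [g2.1]⟩
    simp only [mem_ofPred_eq, v3 c e1 e2]
  have hvK : v ∈ K2 P := by
    obtain ⟨hK, c, c', hcc, h0, h0'⟩ := hu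
    refine ⟨⟨fun c => ?_, ?_, ?_⟩, c, c', hcc, ?_, ?_⟩
    · by_cases e1 : c = c1
      · subst e1; rw [v1]; constructor <;> linarith [g1.1, g1.2]
      by_cases e2 : c = c2
      · subst e2; rw [v2]; constructor <;> linarith [g2.1, g2.2]
      rw [v3 c e1 e2]; exact hK.1 c
    · obtain ⟨d, hd⟩ := hK.2.1
      exact ⟨d, by have : d ∈ {c | v c = 0} := by rw [hZv]; exact hd
                   exact this⟩
    · rw [hLv]; exact hK.2.2
    · have : c ∈ {c | v c = 0} := by rw [hZv]; exact h0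
      exact this
    · have : c' ∈ {c | v c = 0} := by rw [hZv]; exact h0'
      exact this
  have hvin : InSq {c | u c = 0} c1 c2 v := by
    refine ⟨fun c hc => ?_, fun c hc h1 h2 => ?_, ?_, ?_⟩
    · have : c ∈ {c | v c = 0} := by rw [hZv]; exact hc
      exact this
    · rw [v3 c h1 h2]; exact hin.one c hc h1 h2
    · exact hvK.1.1 c1
    · exact hvK.1.1 c2
  refine ⟨v, hvK, ?_, hZv, hLv⟩
  rw [T_fr F hZne n1 n2 hne hfc hq hin, Bn_fr A hN F hZne n1 n2 hne hfc hq hvin, ← he, v1, v2]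
  simp

/-- the cells through the `Bn` point -/
theorem act_Bn {u : I → ℝ} (hu : u ∈ K2 P) : act P (Bn b N u) = {c | u c = 0} := by
  obtain ⟨v, hv, h1, h2, _⟩ := exists_T_of_Bn A hN F hQ hu
  rw [← h1, F.act_T hv.1, h2]

/-- **`Bn` is injective on the 2-skeleton** -/
theorem Bn_injOn : InjOn (Bn b N) (K2 P) := by
  intro u hu u' hu' he
  obtain ⟨v, hv, h1, h2, h3⟩ := exists_T_of_Bn A hN F hQ hu
  obtain ⟨v', hv', h1', h2', h3'⟩ := exists_T_of_Bn A hN F hQ hu'
  have hvv : v = v' := F.T_injOn hv.1 hv'.1 (by rw [h1, h1', he])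
  subst hvv
  rw [h2] at h2'
  rw [h3] at h3'
  have hav : av u = av u' := by
    ext c
    have a1 := Set.ext_iff.1 h2' c
    have a2 := Set.ext_iff.1 h3' c
    simp only [mem_ofPred_eq] at a1 a2
    simp only [av, mem_ofPred_eq]
    have p1 := (hu.1.1 c).1
    have p2 := (hu'.1.1 c).1
    constructor
    · rintro ⟨q1, q2⟩
      exact ⟨lt_of_le_of_ne p2 fun h => q1.ne' (a1.2 h.symm), a2.1 q2⟩
    · rintro ⟨q1, q2⟩
      exact ⟨lt_of_le_of_ne p1 fun h => q1.ne' (a1.1 h.symm), a2.2 q2⟩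
  rcases K2_cases F hu with h | ⟨c1, c2, hne, hav1, hZ, hL, n1, n2, hin⟩
  · rw [Bn_of_ncard (by omega), Bn_of_ncard (by rw [← hav]; omega)] at he
    exact F.T_injOn hu.1 hu'.1 he
  have hZne := F.K_zero_nonempty hu.1
  have hfc : (fc P (insert c2 (insert c1 {c | u c = 0}))).Nonempty := by rw [← hL]; exact hu.1.2.2
  have hq := hQ _ c1 c2 hZ n1 n2 hne hfc
  have hin' : InSq {c | u c = 0} c1 c2 u' := by
    refine ⟨fun c hc => ?_, fun c hc d1 d2 => ?_, hu'.1.1 c1, hu'.1.1 c2⟩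
    · have := (Set.ext_iff.1 h2' c).1 hc
      exact this
    · have k1 : u' c ≠ 0 := fun h => hc ((Set.ext_iff.1 h2' c).2 h)
      have k2 : c ∉ av u' := by
        rw [← hav, hav1]
        simp only [mem_insert_iff, mem_singleton_iff, not_or]
        exact ⟨d1, d2⟩
      by_contra k3
      exact k2 ⟨lt_of_le_of_ne (hu'.1.1 c).1 (Ne.symm k1), lt_of_le_of_ne (hu'.1.1 c).2 k3⟩
  rw [Bn_fr A hN F hZne n1 n2 hne hfc hq hin, Bn_fr A hN F hZne n1 n2 hne hfc hq hin'] at he
  have hmem : ∀ {z : I → ℝ}, InSq {c | u c = 0} c1 c2 z → (1 - z c1, 1 - z c2) ∈ Sc := by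
    intro z hz
    exact ⟨⟨by simp only; linarith [hz.m1.2], by simp only; linarith [hz.m1.1]⟩,
      ⟨by simp only; linarith [hz.m2.2], by simp only; linarith [hz.m2.1]⟩⟩
  have := (hq.fr.nl_injOn (A c1 c2)) (hmem hin) (hmem hin') he
  rw [Prod.mk.injEq] at this
  funext c
  by_cases hcZ : u c = 0
  · rw [hcZ]; exact (hin'.zero c hcZ).symm
  by_cases e1 : c = c1
  · subst e1; linarith [this.1]
  by_cases e2 : c = c2
  · subst e2; linarith [this.2]
  rw [hin.one c hcZ e1 e2, hin'.one c hcZ e1 e2]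

/-- **`Bn` is onto the 2-skeleton** -/
theorem exists_Bn {y : E} (hy : y ∈ La) {c c' : I} (hne : c ≠ c') (hc : y ∈ P c) (hc' : y ∈ P c') :
    ∃ u ∈ K2 P, Bn b N u = y := by
  have h1 : sc P b y ∈ K2 P :=
    ⟨F.sc_mem_K hy, c, c', hne, (F.sc_eq_zero hy).2 hc, (F.sc_eq_zero hy).2 hc'⟩
  obtain ⟨v, hv, h2, _⟩ := exists_Bn_of_T A hN F hQ h1
  exact ⟨v, hv, by rw [h2, F.T_sc hy]⟩

theorem Bn_mem_La {u : I → ℝ} (hu : u ∈ K2 P) : Bn b N u ∈ La := by
  obtain ⟨v, hv, h1, _⟩ := exists_T_of_Bn A hN F hQ hu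
  rw [← h1]; exact F.T_mem_La hv.1

end sq

end Crest.Agent.R096.Grd_714
end

-- ▼ part R096/Grd4_714
section

/-!
# R096 (row 96), GRID, part 4 (helper714): the PL map `Tq` of the grid (T at the grid points)

`Tq b m g = Bn b (Nf (m c) (m c')) (lv m g)` (level units).  `frame2`, `frame1`: `Tq` on the boxes.
-/

set_option autoImplicit false
set_option linter.unusedSectionVars false
set_option linter.unusedVariables false

open Set

namespace Crest.Agent.R096.Grd_714

open Crest.Agent.R096.Brk1_582 Crest.Agent.R096.Brk2_582 Crest.Agent.R096.Brk6_582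

variable {E : Type*} [NormedAddCommGroup E] [NormedSpace ℝ E] {I : Type*}

/-- the family of the interpolated heights -/
noncomputable def Nm (m : I → ℕ) (c c' : I) : ℝ × ℝ → ℝ := Nf (m c) (m c')

theorem adm_Nm {m : I → ℕ} (hm : ∀ c, 0 < m c) (c c' : I) : Adm (Nm m c c') :=
  adm_Nf (hm c) (hm c')

theorem sym_Nm (m : I → ℕ) : Sym (Nm m) := fun c c' x y => Nf_swap (m c) (m c') x y

/-- **the piecewise affine map of the grid** (`g` in level units) -/
noncomputable def Tq (b : Set I → E) (m : I → ℕ) (g : I → ℝ) : E := Bn b (Nm m) (lv m g)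

variable {b : Set I → E} {P : I → Set E} {m : I → ℕ}

section cd

variable {α β h k a bb c : ℝ} (S : Shp α β) (hc : Cd h k a bb c)
include S hc

theorem Cd.aux {r q : ℝ} : h * k * (1 + α * r + β * q) = h * k + h * α * (r * k) + k * β * (q * h) := by
  ring

theorem Cd.det_pos : 0 < h * k + k * β * bb + h * α * a := by
  obtain ⟨h0, k0, a0, b0, c0, ak, bh, ab⟩ := hc
  have r0 : 0 ≤ a / k := div_nonneg a0 k0.le
  have q0 : 0 ≤ bb / h := div_nonneg b0 h0.le
  have r1 : a / k ≤ 1 := (div_le_one k0).2 (by linarith)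
  have q1 : bb / h ≤ 1 := (div_le_one h0).2 (by linarith)
  have D0 : 0 < 1 + α * (a / k) + β * (bb / h) := by
    rcases ab with h1 | h1
    · rw [h1, zero_div]
      exact S.pos1 le_rfl one_pos q0 q1
    · rw [h1, zero_div]
      exact S.pos1' r0 r1 le_rfl one_pos
  have e1 : a / k * k = a := div_mul_cancel₀ _ k0.ne'
  have e2 : bb / h * h = bb := div_mul_cancel₀ _ h0.ne'
  have e : h * k + k * β * bb + h * α * a = h * k * (1 + α * (a / k) + β * (bb / h)) := by
    have e3 : h * k * (1 + α * (a / k) + β * (bb / h)) =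
      h * k + h * α * (a / k * k) + k * β * (bb / h * h) := by ring
    rw [e3, e1, e2]; ring
  rw [e]
  exact mul_pos (mul_pos h0 k0) D0

theorem Cd.det1_pos : 0 < h * k + k * β * bb + h * α * (a + c) := by
  obtain ⟨h0, k0, a0, b0, c0, ak, bh, ab⟩ := hc
  have r0 : 0 ≤ (a + c) / k := div_nonneg (by linarith) k0.le
  have q0 : 0 ≤ bb / h := div_nonneg b0 h0.le
  have r1 : (a + c) / k ≤ 1 := (div_le_one k0).2 ak
  have q1 : bb / h ≤ 1 := (div_le_one h0).2 (by linarith)
  have D0 : 0 < 1 + α * ((a + c) / k) + β * (bb / h) := by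
    rcases ab with h1 | h1
    · rcases c0.eq_or_lt with h2 | h2
      · rw [h1, ← h2, add_zero, zero_div]
        exact S.pos1 le_rfl one_pos q0 q1
      · exact S.pos1' r0 r1 q0 ((div_lt_one h0).2 (by linarith))
    · rw [h1, zero_div]
      exact S.pos1' r0 r1 le_rfl one_pos
  have e1 : (a + c) / k * k = a + c := div_mul_cancel₀ _ k0.ne'
  have e2 : bb / h * h = bb := div_mul_cancel₀ _ h0.ne'
  have e : h * k + k * β * bb + h * α * (a + c) =
      h * k * (1 + α * ((a + c) / k) + β * (bb / h)) := by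
    have e3 : h * k * (1 + α * ((a + c) / k) + β * (bb / h)) =
      h * k + h * α * ((a + c) / k * k) + k * β * (bb / h * h) := by ring
    rw [e3, e1, e2]; ring
  rw [e]
  exact mul_pos (mul_pos h0 k0) D0

theorem Cd.det2_pos : 0 < h * k + k * β * (bb + c) + h * α * a := by
  obtain ⟨h0, k0, a0, b0, c0, ak, bh, ab⟩ := hc
  have r0 : 0 ≤ a / k := div_nonneg a0 k0.le
  have q0 : 0 ≤ (bb + c) / h := div_nonneg (by linarith) h0.le
  have r1 : a / k ≤ 1 := (div_le_one k0).2 (by linarith)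
  have q1 : (bb + c) / h ≤ 1 := (div_le_one h0).2 bh
  have D0 : 0 < 1 + α * (a / k) + β * ((bb + c) / h) := by
    rcases ab with h1 | h1
    · rw [h1, zero_div]
      exact S.pos1 le_rfl one_pos q0 q1
    · rcases c0.eq_or_lt with h2 | h2
      · rw [h1, ← h2, add_zero, zero_div]
        exact S.pos1' r0 r1 le_rfl one_pos
      · exact S.pos1 r0 ((div_lt_one k0).2 (by linarith)) q0 q1
  have e1 : a / k * k = a := div_mul_cancel₀ _ k0.ne'
  have e2 : (bb + c) / h * h = bb + c := div_mul_cancel₀ _ h0.ne'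
  have e : h * k + k * β * (bb + c) + h * α * a =
      h * k * (1 + α * (a / k) + β * ((bb + c) / h)) := by
    have e3 : h * k * (1 + α * (a / k) + β * ((bb + c) / h)) =
      h * k + h * α * (a / k * k) + k * β * ((bb + c) / h * h) := by ring
    rw [e3, e1, e2]; ring
  rw [e]
  exact mul_pos (mul_pos h0 k0) D0

theorem Cd.det3_nonneg : 0 ≤ h * k + k * β * (bb + c) + h * α * (a + c) := by
  obtain ⟨h0, k0, a0, b0, c0, ak, bh, ab⟩ := hc
  have r0 : 0 ≤ (a + c) / k := div_nonneg (by linarith) k0.le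
  have q0 : 0 ≤ (bb + c) / h := div_nonneg (by linarith) h0.le
  have r1 : (a + c) / k ≤ 1 := (div_le_one k0).2 ak
  have q1 : (bb + c) / h ≤ 1 := (div_le_one h0).2 bh
  have D0 : 0 ≤ 1 + α * ((a + c) / k) + β * ((bb + c) / h) := S.nonneg1 r0 r1 q0 q1
  have e1 : (a + c) / k * k = a + c := div_mul_cancel₀ _ k0.ne'
  have e2 : (bb + c) / h * h = bb + c := div_mul_cancel₀ _ h0.ne'
  have e : h * k + k * β * (bb + c) + h * α * (a + c) =
      h * k * (1 + α * ((a + c) / k) + β * ((bb + c) / h)) := by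
    have e3 : h * k * (1 + α * ((a + c) / k) + β * ((bb + c) / h)) =
      h * k + h * α * ((a + c) / k * k) + k * β * ((bb + c) / h * h) := by ring
    rw [e3, e1, e2]; ring
  rw [e]
  exact mul_nonneg (mul_pos h0 k0).le D0

theorem Cd.shp : Shp (α * c * h / (h * k + k * β * bb + h * α * a))
    (β * c * k / (h * k + k * β * bb + h * α * a)) := by
  have Dp := hc.det_pos S
  refine ⟨?_, ?_, ?_⟩
  · rw [lt_div_iff₀ Dp]
    have := hc.det1_pos S
    nlinarith
  · rw [lt_div_iff₀ Dp]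
    have := hc.det2_pos S
    nlinarith
  · rw [← add_div, le_div_iff₀ Dp]
    have := hc.det3_nonneg S
    nlinarith

end cd

/-- the frame of a unit square -/
noncomputable def Fr.cel (X : Fr E) {h k a bb c : ℝ} (hc : Cd h k a bb c) (x y v : ℝ) : Fr E where
  O := X.pt (y + X.α * v, x + X.β * v)
  f1 := (k + X.α * a) • X.f1 + (X.β * a) • X.f2
  f2 := (X.α * bb) • X.f1 + (h + X.β * bb) • X.f2
  α := X.α * c * h / (h * k + k * X.β * bb + h * X.α * a)
  β := X.β * c * k / (h * k + k * X.β * bb + h * X.α * a)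
  shp := hc.shp X.shp
  li := by
    intro s t hst
    have h1 : (s * (k + X.α * a) + t * (X.α * bb)) • X.f1 +
        (s * (X.β * a) + t * (h + X.β * bb)) • X.f2 = 0 := by
      rw [← hst]; module
    obtain ⟨h2, h3⟩ := X.li _ _ h1
    have Dp := hc.det_pos X.shp
    have e1 : s * (h * k + k * X.β * bb + h * X.α * a) = 0 := by
      have : s * (h * k + k * X.β * bb + h * X.α * a) =
        (h + X.β * bb) * (s * (k + X.α * a) + t * (X.α * bb)) -
        (X.α * bb) * (s * (X.β * a) + t * (h + X.β * bb)) := by ring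
      rw [this, h2, h3]; ring
    have e2 : t * (h * k + k * X.β * bb + h * X.α * a) = 0 := by
      have : t * (h * k + k * X.β * bb + h * X.α * a) =
        (k + X.α * a) * (s * (X.β * a) + t * (h + X.β * bb)) -
        (X.β * a) * (s * (k + X.α * a) + t * (X.α * bb)) := by ring
      rw [this, h2, h3]; ring
    exact ⟨(mul_eq_zero.1 e1).resolve_right Dp.ne', (mul_eq_zero.1 e2).resolve_right Dp.ne'⟩

theorem Fr.cel_cross (X : Fr E) {h k a bb c : ℝ} (hc : Cd h k a bb c) (x y v : ℝ) :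
    (X.cel hc x y v).α • (X.cel hc x y v).f1 + (X.cel hc x y v).β • (X.cel hc x y v).f2 =
      c • (X.α • X.f1 + X.β • X.f2) := by
  have Dp := (hc.det_pos X.shp).ne'
  simp only [Fr.cel]
  set D := h * k + k * X.β * bb + h * X.α * a with hD
  have e1 : (X.α * c * h / D) * (k + X.α * a) + (X.β * c * k / D) * (X.α * bb) = c * X.α := by
    rw [div_mul_eq_mul_div, div_mul_eq_mul_div, ← add_div, div_eq_iff Dp, hD]; ring
  have e2 : (X.α * c * h / D) * (X.β * a) + (X.β * c * k / D) * (h + X.β * bb) = c * X.β := by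
    rw [div_mul_eq_mul_div, div_mul_eq_mul_div, ← add_div, div_eq_iff Dp, hD]; ring
  calc (X.α * c * h / D) • ((k + X.α * a) • X.f1 + (X.β * a) • X.f2) +
        (X.β * c * k / D) • ((X.α * bb) • X.f1 + (h + X.β * bb) • X.f2)
      = ((X.α * c * h / D) * (k + X.α * a) + (X.β * c * k / D) * (X.α * bb)) • X.f1 +
        ((X.α * c * h / D) * (X.β * a) + (X.β * c * k / D) * (h + X.β * bb)) • X.f2 := by module
    _ = _ := by rw [e1, e2]; module

theorem Fr.cel_tl (X : Fr E) {h k a bb c : ℝ} (hc : Cd h k a bb c) (x y v s t : ℝ) :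
    (X.cel hc x y v).tl (s, t) =
      X.pt (y + k * t + X.α * (v + t * a + s * bb + min s t * c),
        x + h * s + X.β * (v + t * a + s * bb + min s t * c)) := by
  have e : (X.cel hc x y v).tl (s, t) = (X.cel hc x y v).O + (t • (X.cel hc x y v).f1 +
      s • (X.cel hc x y v).f2) + min s t • ((X.cel hc x y v).α • (X.cel hc x y v).f1 +
        (X.cel hc x y v).β • (X.cel hc x y v).f2) := by
    simp only [Fr.tl, Fr.pt, tw]; module
  rw [e, X.cel_cross]
  simp only [Fr.cel, Fr.pt]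
  module

open Classical in
/-- the point of the box with parameters `w` -/
noncomputable def pq (q : Gx P m) (c1 c2 : I) (w : ℝ × ℝ) : I → ℝ := fun c =>
  if c = c1 then q.hi c - w.1 else if c = c2 then q.hi c - w.2 else q.hi c

theorem pq_1 (q : Gx P m) (c1 c2 : I) (w : ℝ × ℝ) : pq q c1 c2 w c1 = q.hi c1 - w.1 := by
  simp [pq]

theorem pq_2 (q : Gx P m) {c1 c2 : I} (hne : c1 ≠ c2) (w : ℝ × ℝ) :
    pq q c1 c2 w c2 = q.hi c2 - w.2 := by
  simp [pq, hne.symm]

theorem mem_pq {q : Gx P m} {c1 c2 : I} (hne : c1 ≠ c2) (hf : q.free = {c1, c2}) {w : ℝ × ℝ}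
    (hw : w ∈ Sc) : pq q c1 c2 w ∈ q.bx := by
  obtain ⟨h1, h2⟩ := hw
  intro c
  by_cases e1 : c = c1
  · subst e1
    rw [pq_1]
    have h3 : q.hi c = q.lo c + 1 := Gx.hi_eq (by rw [hf]; simp)
    rw [h3]; push_cast
    constructor <;> linarith [h1.1, h1.2]
  by_cases e2 : c = c2
  · subst e2
    rw [pq_2 q hne]
    have h3 : q.hi c = q.lo c + 1 := Gx.hi_eq (by rw [hf]; simp)
    rw [h3]; push_cast
    constructor <;> linarith [h2.1, h2.2]
  have h3 : c ∉ q.free := by rw [hf]; simp [e1, e2]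
  simp only [pq, e1, e2, if_false]
  rw [Gx.lo_eq h3]
  exact ⟨le_rfl, le_rfl⟩


theorem par_mem {q : Gx P m} {c1 c2 : I} (hf : q.free = {c1, c2}) {g : I → ℝ}
    (hg : g ∈ q.bx) : ((q.hi c1 : ℝ) - g c1, (q.hi c2 : ℝ) - g c2) ∈ Sc := by
  have h1 : q.hi c1 = q.lo c1 + 1 := Gx.hi_eq (by rw [hf]; simp)
  have h2 : q.hi c2 = q.lo c2 + 1 := Gx.hi_eq (by rw [hf]; simp)
  have k1 := hg c1
  have k2 := hg c2
  rw [h1] at k1
  rw [h2] at k2
  push_cast at k1 k2
  refine ⟨⟨?_, ?_⟩, ⟨?_, ?_⟩⟩ <;> simp only [h1, h2] <;> push_cast <;> linarith [k1.1, k1.2, k2.1, k2.2]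

open Classical in
/-- the point of the segment box with parameter `s` -/
noncomputable def p1 (q : Gx P m) (c1 : I) (s : ℝ) : I → ℝ := fun c =>
  if c = c1 then q.hi c - s else q.hi c

theorem p1_1 (q : Gx P m) (c1 : I) (s : ℝ) : p1 q c1 s c1 = q.hi c1 - s := by simp [p1]

theorem mem_p1 {q : Gx P m} {c1 : I} (hf : q.free = {c1}) {s : ℝ} (hs : s ∈ Icc (0 : ℝ) 1) :
    p1 q c1 s ∈ q.bx := by
  intro c
  by_cases e1 : c = c1
  · subst e1
    rw [p1_1]
    have h3 : q.hi c = q.lo c + 1 := Gx.hi_eq (by rw [hf]; simp)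
    rw [h3]; push_cast
    constructor <;> linarith [hs.1, hs.2]
  have h3 : c ∉ q.free := by rw [hf]; simp [e1]
  simp only [p1, e1, if_false]
  rw [Gx.lo_eq h3]
  exact ⟨le_rfl, le_rfl⟩


theorem par1_mem {q : Gx P m} {c1 : I} (hf : q.free = {c1}) {g : I → ℝ}
    (hg : g ∈ q.bx) : (q.hi c1 : ℝ) - g c1 ∈ Icc (0 : ℝ) 1 := by
  have h1 : q.hi c1 = q.lo c1 + 1 := Gx.hi_eq (by rw [hf]; simp)
  have k1 := hg c1
  rw [h1] at k1
  push_cast at k1
  rw [h1]; push_cast
  constructor <;> linarith [k1.1, k1.2]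

theorem hi_mem (q : Gx P m) : (fun c => (q.hi c : ℝ)) ∈ q.bx := fun c =>
  ⟨Nat.cast_le.2 (q.le c), le_rfl⟩

theorem lo_mem (q : Gx P m) : (fun c => (q.lo c : ℝ)) ∈ q.bx := fun c =>
  ⟨le_rfl, Nat.cast_le.2 (q.le c)⟩

section foam

variable {La : Set E} [CompleteSpace E] (F : Foam La P b 4)
include F

theorem Gx.L_fin (q : Gx P m) (hm : ∀ c, 0 < m c) : {c | q.lo c < m c}.Finite := by
  refine F.finite_of_fc ?_ q.face
  obtain ⟨c, c', _, h, _⟩ := q.two
  refine ⟨c, ?_⟩
  have := q.le c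
  have := hm c
  show q.lo c < m c
  omega

theorem Gx.L_card (q : Gx P m) (hm : ∀ c, 0 < m c) : {c | q.lo c < m c}.ncard ≤ 4 := by
  refine F.ncard_le_of_fc ?_ q.face
  obtain ⟨c, c', _, h, _⟩ := q.two
  refine ⟨c, ?_⟩
  have := q.le c
  have := hm c
  show q.lo c < m c
  omega

omit F [CompleteSpace E] in
theorem Gx.Z_sub (q : Gx P m) (hm : ∀ c, 0 < m c) : {c | q.hi c = 0} ⊆ {c | q.lo c < m c} := by
  intro c (hc : q.hi c = 0)
  have := q.le c
  have := hm c
  show q.lo c < m c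
  omega

theorem Gx.Z_card (q : Gx P m) (hm : ∀ c, 0 < m c) : 2 ≤ {c | q.hi c = 0}.ncard := by
  obtain ⟨c, c', hne, h, h'⟩ := q.two
  rw [← ncard_pair hne]
  apply ncard_le_ncard _ ((q.L_fin F hm).subset (q.Z_sub hm))
  rintro x (rfl | rfl)
  · exact h
  · exact h'

omit F [CompleteSpace E] in
theorem Gx.free_sub (q : Gx P m) : q.free ⊆ {c | q.lo c < m c} \ {c | q.hi c = 0} := by
  intro c hc
  have h1 : q.lo c < q.hi c := hc
  have h2 := q.him c
  refine ⟨?_, fun (h : q.hi c = 0) => ?_⟩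
  · show q.lo c < m c; omega
  · omega

theorem Gx.diff_card (q : Gx P m) (hm : ∀ c, 0 < m c) :
    ({c | q.lo c < m c} \ {c | q.hi c = 0}).ncard + {c | q.hi c = 0}.ncard ≤ 4 := by
  rw [ncard_sdiff_add_ncard_of_subset (q.Z_sub hm) (q.L_fin F hm)]
  exact q.L_card F hm

theorem Gx.free_fin (q : Gx P m) (hm : ∀ c, 0 < m c) : q.free.Finite :=
  ((q.L_fin F hm).subset sdiff_subset).subset q.free_sub

theorem Gx.free_card (q : Gx P m) (hm : ∀ c, 0 < m c) : q.free.ncard ≤ 2 := by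
  have h1 := q.diff_card F hm
  have h2 := q.Z_card F hm
  have h3 := ncard_le_ncard q.free_sub ((q.L_fin F hm).subset sdiff_subset)
  omega

omit F [CompleteSpace E] in
theorem lv_zero {q : Gx P m} {g : I → ℝ} (hg : g ∈ q.bx) {c : I} (hc : q.hi c = 0) :
    lv m g c = 0 := by
  have h1 := hg c
  rw [hc] at h1
  have h2 : (0 : ℝ) ≤ q.lo c := Nat.cast_nonneg _
  have h3 : g c ≤ 0 := by simpa using h1.2
  have h4 : g c = 0 := le_antisymm h3 (h2.trans h1.1)
  rw [lv, h4, zero_div]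

omit F [CompleteSpace E] in
theorem lv_one (hm : ∀ c, 0 < m c) {q : Gx P m} {g : I → ℝ} (hg : g ∈ q.bx) {c : I}
    (hc : ¬ q.lo c < m c) : lv m g c = 1 := by
  have h1 := hg c
  have h2 := q.le c
  have h3 := q.him c
  have e1 : q.lo c = m c := by omega
  have e2 : q.hi c = m c := by omega
  rw [e1, e2] at h1
  have h4 : (0 : ℝ) < m c := by exact_mod_cast hm c
  rw [lv, le_antisymm h1.2 h1.1, div_self h4.ne']

/-- the square of a box with two non trivial colours -/
theorem sq_of (q : Gx P m) (hm : ∀ c, 0 < m c) {c1 c2 : I} (hne : c1 ≠ c2)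
    (h1 : c1 ∈ {c | q.lo c < m c} \ {c | q.hi c = 0})
    (h2 : c2 ∈ {c | q.lo c < m c} \ {c | q.hi c = 0}) :
    {c | q.hi c = 0}.ncard = 2 ∧
    {c | q.lo c < m c} = insert c2 (insert c1 {c | q.hi c = 0}) ∧
    ∀ g ∈ q.bx, InSq {c | q.hi c = 0} c1 c2 (lv m g) := by
  have k1 := q.diff_card F hm
  have k2 := q.Z_card F hm
  have k3 : 2 ≤ ({c | q.lo c < m c} \ {c | q.hi c = 0}).ncard := by
    rw [← ncard_pair hne]
    apply ncard_le_ncard _ ((q.L_fin F hm).subset sdiff_subset)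
    rintro x (rfl | rfl)
    · exact h1
    · exact h2
  have k4 : ({c1, c2} : Set I) = {c | q.lo c < m c} \ {c | q.hi c = 0} := by
    apply Set.eq_of_subset_of_ncard_le
    · rintro x (rfl | rfl)
      · exact h1
      · exact h2
    · rw [ncard_pair hne]; omega
    · exact (q.L_fin F hm).subset sdiff_subset
  have k5 : {c | q.lo c < m c} = insert c2 (insert c1 {c | q.hi c = 0}) := by
    ext c
    have a1 := Set.ext_iff.1 k4 c
    have a2 := @Gx.Z_sub _ _ _ _ P m q hm c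
    simp only [mem_insert_iff, mem_singleton_iff, mem_sdiff, mem_ofPred_eq] at a1 a2 ⊢
    tauto
  refine ⟨by omega, k5, fun g hg => ⟨fun c hc => lv_zero hg hc, fun c hc hc1 hc2 => ?_, ?_, ?_⟩⟩
  · apply lv_one hm hg
    intro h
    have : c ∈ {c | q.lo c < m c} := h
    rw [k5] at this
    simp only [mem_insert_iff] at this
    tauto
  · exact (q.bx_sub hm hg).1.1 c1
  · exact (q.bx_sub hm hg).1.1 c2

variable (hQ : Quads P b)
include hQ

/-- **the frame of a grid rectangle** -/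
theorem frame2 (hm : ∀ c, 0 < m c) (q : Gx P m) {c1 c2 : I} (hne : c1 ≠ c2)
    (hf : q.free = {c1, c2}) :
    ∃ X : Fr E, ∀ g ∈ q.bx, Tq b m g = X.tl (q.hi c1 - g c1, q.hi c2 - g c2) := by
  have m1 : c1 ∈ q.free := by rw [hf]; simp
  have m2 : c2 ∈ q.free := by rw [hf]; simp
  have h1 := q.free_sub m1
  have h2 := q.free_sub m2
  obtain ⟨hZ, hL, hin⟩ := sq_of F q hm hne h1 h2
  have hfc : (fc P (insert c2 (insert c1 {c | q.hi c = 0}))).Nonempty := by
    rw [← hL]; exact q.face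
  have hq := hQ _ c1 c2 hZ h1.2 h2.2 hne hfc
  have hZne : {c | q.hi c = 0}.Nonempty := by
    obtain ⟨c, c', _, h, _⟩ := q.two
    exact ⟨c, h⟩
  have p1 : (0 : ℝ) < m c1 := by exact_mod_cast hm c1
  have p2 : (0 : ℝ) < m c2 := by exact_mod_cast hm c2
  have q1 : q.hi c1 = q.lo c1 + 1 := Gx.hi_eq m1
  have q2 : q.hi c2 = q.lo c2 + 1 := Gx.hi_eq m2
  have hc := cd_nu (hm c1) (hm c2) (q.lo c1) (q.lo c2)
  refine ⟨hq.fr.cel hc (1 - ((q.lo c1 + 1 : ℕ) : ℝ) / m c1) (1 - ((q.lo c2 + 1 : ℕ) : ℝ) / m c2)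
    (nu (m c1) (m c2) (q.lo c1 + 1) (q.lo c2 + 1)), fun g hg => ?_⟩
  have e := Bn_fr (adm_Nm hm) (sym_Nm m) F hZne h1.2 h2.2 hne hfc hq (hin g hg)
  have k1 := hg c1
  have k2 := hg c2
  rw [q1] at k1
  rw [q2] at k2
  have eN : Nm m c1 c2 (1 - lv m g c1, 1 - lv m g c2) = itp (nu (m c1) (m c2)) (g c1, g c2) := by
    simp only [Nm, Nf, lv]
    congr 1
    refine Prod.ext ?_ ?_
    · simp only; field_simp; ring
    · simp only; field_simp; ring
  have eI := itp_box (nu (m c1) (m c2)) (i' := q.lo c1) (i := q.lo c1 + 1) (j' := q.lo c2)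
    (j := q.lo c2 + 1) (g := (g c1, g c2)) (by omega) le_rfl (by omega) le_rfl k1.1 k1.2 k2.1 k2.2
  rw [Tq, e, Fr.nl, Fr.cel_tl, tn, eN, eI, q1, q2]
  simp only [itc, lv]
  congr 1
  refine Prod.ext ?_ ?_
  · simp only; push_cast; field_simp; ring
  · simp only; push_cast; field_simp; ring

/-- **`Tq` is injective on the 2-skeleton** -/
theorem Tq_injOn (hm : ∀ c, 0 < m c) : InjOn (Tq b m) (G2 P m) := fun _ hg _ hg' he =>
  lv_inj hm (Bn_injOn (adm_Nm hm) (sym_Nm m) F hQ hg hg' he)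

/-- **the foam cells through a grid point** -/
theorem act_Tq (hm : ∀ c, 0 < m c) {g : I → ℝ} (hg : g ∈ G2 P m) :
    act P (Tq b m g) = {c | g c = 0} := by
  rw [Tq, act_Bn (adm_Nm hm) (sym_Nm m) F hQ hg]
  ext c
  exact lv_eq_zero hm

theorem Tq_mem_iff (hm : ∀ c, 0 < m c) {g : I → ℝ} (hg : g ∈ G2 P m) {c : I} :
    Tq b m g ∈ P c ↔ g c = 0 := by
  have := Set.ext_iff.1 (act_Tq F hQ hm hg) c
  exact this

theorem Tq_mem_La (hm : ∀ c, 0 < m c) {g : I → ℝ} (hg : g ∈ G2 P m) : Tq b m g ∈ La :=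
  Bn_mem_La (adm_Nm hm) (sym_Nm m) F hQ hg

/-- **`Tq` is onto the 2-skeleton** -/
theorem exists_Tq (hm : ∀ c, 0 < m c) {y : E} (hy : y ∈ La) {c c' : I} (hne : c ≠ c')
    (hc : y ∈ P c) (hc' : y ∈ P c') : ∃ g ∈ G2 P m, Tq b m g = y := by
  obtain ⟨u, hu, rfl⟩ := exists_Bn (adm_Nm hm) (sym_Nm m) F hQ hy hne hc hc'
  set g : I → ℝ := fun c => m c * u c with hgd
  have e : lv m g = u := by
    funext c
    have h2 : (0 : ℝ) < m c := by exact_mod_cast hm c
    simp only [lv, hgd]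
    field_simp
  refine ⟨g, ?_, by rw [Tq, e]⟩
  show lv m g ∈ K2 P
  rw [e]; exact hu

/-- **the frame of a grid edge** -/
theorem frame1 (hm : ∀ c, 0 < m c) (q : Gx P m) {c1 : I} (hf : q.free = {c1}) :
    ∃ p f : E, f ≠ 0 ∧ ∀ g ∈ q.bx, Tq b m g = p + ((q.hi c1 : ℝ) - g c1) • f := by
  have m1 : c1 ∈ q.free := by rw [hf]; simp
  have h1 := q.free_sub m1
  have hZne : {c | q.hi c = 0}.Nonempty := by
    obtain ⟨c, c', _, h, _⟩ := q.two
    exact ⟨c, h⟩
  have p1' : (0 : ℝ) < m c1 := by exact_mod_cast hm c1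
  have q1 : q.hi c1 = q.lo c1 + 1 := Gx.hi_eq m1
  have key : ∃ p f : E, ∀ g ∈ q.bx, Tq b m g = p + ((q.hi c1 : ℝ) - g c1) • f := by
    by_cases hR : ∃ c2, c2 ≠ c1 ∧ c2 ∈ {c | q.lo c < m c} \ {c | q.hi c = 0}
    · obtain ⟨c2, hne, h2⟩ := hR
      obtain ⟨hZ, hL, hin⟩ := sq_of F q hm hne.symm h1 h2
      have hfc : (fc P (insert c2 (insert c1 {c | q.hi c = 0}))).Nonempty := by
        rw [← hL]; exact q.face
      have hq := hQ _ c1 c2 hZ h1.2 h2.2 hne.symm hfc
      have n2 : c2 ∉ q.free := by rw [hf]; simpa using hne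
      have p2 : (0 : ℝ) < m c2 := by exact_mod_cast hm c2
      have q2 : q.lo c2 = q.hi c2 := Gx.lo_eq n2
      set j := q.hi c2 with hj
      set v := nu (m c1) (m c2) (q.lo c1 + 1) j with hv
      set a := nu (m c1) (m c2) (q.lo c1) j - nu (m c1) (m c2) (q.lo c1 + 1) j with ha
      refine ⟨hq.fr.pt (1 - (j : ℝ) / m c2 + hq.fr.α * v,
        1 - ((q.lo c1 + 1 : ℕ) : ℝ) / m c1 + hq.fr.β * v),
        (hq.fr.α * a) • hq.fr.f1 + (1 / m c1 + hq.fr.β * a) • hq.fr.f2, fun g hg => ?_⟩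
      have e := Bn_fr (adm_Nm hm) (sym_Nm m) F hZne h1.2 h2.2 hne.symm hfc hq (hin g hg)
      have k1 := hg c1
      have k2 : g c2 = j := Gx.eq_of_mem n2 hg
      rw [q1] at k1
      have eN : Nm m c1 c2 (1 - lv m g c1, 1 - lv m g c2) =
          itp (nu (m c1) (m c2)) (g c1, g c2) := by
        simp only [Nm, Nf, lv]
        congr 1
        refine Prod.ext ?_ ?_
        · simp only; field_simp; ring
        · simp only; field_simp; ring
      have eI := itp_box (nu (m c1) (m c2)) (i' := q.lo c1) (i := q.lo c1 + 1) (j' := j)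
        (j := j) (g := (g c1, g c2)) (by omega) le_rfl le_rfl (by omega) k1.1 k1.2 k2.ge k2.le
      rw [Tq, e, Fr.nl, tn, eN, eI, q1]
      have hmin : min (((q.lo c1 + 1 : ℕ) : ℝ) - g c1) ((j : ℝ) - g c2) = 0 := by
        rw [k2, sub_self]
        exact min_eq_right (by linarith [k1.2])
      have eC : itc (nu (m c1) (m c2)) (q.lo c1) (q.lo c1 + 1) j j (g c1, g c2) =
          v + (((q.lo c1 + 1 : ℕ) : ℝ) - g c1) * a := by
        simp only [itc, hmin]
        rw [hv, ha]; ring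
      rw [eC]
      have el1 : 1 - lv m g c1 = 1 - ((q.lo c1 + 1 : ℕ) : ℝ) / m c1 +
          (((q.lo c1 + 1 : ℕ) : ℝ) - g c1) * (1 / m c1) := by
        simp only [lv]; ring
      have el2 : 1 - lv m g c2 = 1 - (j : ℝ) / m c2 := by
        simp only [lv, k2]
      rw [el1, el2]
      simp only [Fr.pt]
      module
    · push Not at hR
      have hL : {c | q.lo c < m c} = insert c1 {c | q.hi c = 0} := by
        ext c
        have a2 := @Gx.Z_sub _ _ _ _ P m q hm c
        have a3 := hR c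
        have a4 := h1.1
        simp only [mem_insert_iff, mem_sdiff, mem_ofPred_eq] at a2 a3 a4 ⊢
        constructor
        · intro h
          by_contra h5
          push Not at h5
          exact a3 h5.1 ⟨h, h5.2⟩
        · rintro (rfl | h)
          · exact a4
          · exact a2 h
      have hfc : (fc P (insert c1 {c | q.hi c = 0})).Nonempty := by
        rw [← hL]; exact q.face
      refine ⟨b {c | q.hi c = 0} + (1 - (q.hi c1 : ℝ) / m c1) •
        (b (insert c1 {c | q.hi c = 0}) - b {c | q.hi c = 0}),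
        (1 / (m c1 : ℝ)) • (b (insert c1 {c | q.hi c = 0}) - b {c | q.hi c = 0}),
        fun g hg => ?_⟩
      have hoth : ∀ c, c ∉ {c | q.hi c = 0} → c ≠ c1 → lv m g c = 1 := by
        intro c hc hcc
        apply lv_one hm hg
        intro h
        have : c ∈ {c | q.lo c < m c} := h
        rw [hL] at this
        simp only [mem_insert_iff] at this
        tauto
      have hav : (av (lv m g)).ncard ≠ 2 := by
        have : av (lv m g) ⊆ {c1} := by
          intro c hc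
          by_contra hcc
          by_cases hz : q.hi c = 0
          · exact hc.1.ne' (lv_zero hg hz)
          · exact hc.2.ne (hoth c hz hcc)
        have := ncard_le_ncard this
        rw [ncard_singleton] at this
        omega
      rw [Tq, Bn_of_ncard hav, T_one F hZne hfc (fun c hc => lv_zero hg hc)
        ((q.bx_sub hm hg).1.1 c1) hoth]
      have e1 : lv m g c1 = (q.hi c1 : ℝ) / m c1 - ((q.hi c1 : ℝ) - g c1) * (1 / m c1) := by
        rw [lv]; field_simp; ring
      rw [e1]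
      module
  obtain ⟨p, f, h⟩ := key
  refine ⟨p, f, ?_, h⟩
  rintro rfl
  have e1 := h _ (hi_mem q)
  have e2 := h _ (lo_mem q)
  rw [smul_zero, add_zero] at e1 e2
  have := Tq_injOn F hQ hm (q.bx_sub hm (hi_mem q)) (q.bx_sub hm (lo_mem q)) (e1.trans e2.symm)
  have h3 := congrFun this c1
  simp only [Nat.cast_inj] at h3
  have h4 := Gx.hi_eq m1
  omega

end foam

end Crest.Agent.R096.Grd_714
end

-- ▼ part R096/Grd5_714
section

/-!
# R096 (row 96), GRID, part 5 (helper714): the grid cells are convex, `Tq` is a bijection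

`Rin C O`: `C` convex compact, `O` its relative interior.
-/

set_option autoImplicit false
set_option linter.unusedSectionVars false

open Set

namespace Crest.Agent.R096.Grd_714

open Crest.Agent.R096.Brk1_582 Crest.Agent.R096.Brk2_582 Crest.Agent.R096.Brk6_582

variable {E : Type*} [NormedAddCommGroup E] [NormedSpace ℝ E] {I : Type*}

/-- `O` is the relative interior of the compact convex set `C` -/
structure Rin (C O : Set E) : Prop where
  conv : Convex ℝ C
  cpt : IsCompact C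
  sub : O ⊆ C
  seg : ∀ y ∈ C, ∀ c ∈ O, ∀ t ∈ Ioc (0 : ℝ) 1, (1 - t) • y + t • c ∈ O
  ext : ∀ z ∈ O, ∀ c ∈ C, ∃ ε : ℝ, 0 < ε ∧ z + ε • (z - c) ∈ C

theorem Fr.rin (X : Fr E) : Rin X.cell X.opn where
  conv := X.convex_cell
  cpt := X.isCompact_cell
  sub := by
    rintro _ ⟨p, hp, rfl⟩
    exact ⟨p, Rgo_sub hp, rfl⟩
  seg := fun _ hy _ hc _ ht => X.seg_opn hy hc ht
  ext := fun _ hz _ hc => X.ext_opn hz hc

theorem rin_seg (p f : E) : Rin ((fun s : ℝ => p + s • f) '' Icc 0 1)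
    ((fun s : ℝ => p + s • f) '' Ioo 0 1) where
  conv := by
    rintro _ ⟨s, hs, rfl⟩ _ ⟨t, ht, rfl⟩ a b ha hb hab
    refine ⟨a * s + b * t, (convex_Icc (0 : ℝ) 1) hs ht ha hb hab, ?_⟩
    have : p = (a + b) • p := by rw [hab, one_smul]
    calc p + (a * s + b * t) • f = (a + b) • p + (a * s + b * t) • f := by rw [← this]
      _ = a • (p + s • f) + b • (p + t • f) := by module
  cpt := isCompact_Icc.image (by fun_prop)
  sub := image_mono Ioo_subset_Icc_self
  seg := by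
    rintro _ ⟨s, hs, rfl⟩ _ ⟨r, hr, rfl⟩ t ht
    refine ⟨(1 - t) * s + t * r, ⟨?_, ?_⟩, by module⟩
    · have h1 : 0 ≤ (1 - t) * s := mul_nonneg (by linarith [ht.2]) hs.1
      have h2 : 0 < t * r := mul_pos ht.1 hr.1
      linarith
    · have h1 : (1 - t) * s ≤ (1 - t) * 1 := mul_le_mul_of_nonneg_left hs.2 (by linarith [ht.2])
      have h2 : t * r < t * 1 := mul_lt_mul_of_pos_left hr.2 ht.1
      linarith
  ext := by
    rintro _ ⟨r, hr, rfl⟩ _ ⟨s, hs, rfl⟩
    refine ⟨min r (1 - r), lt_min hr.1 (by linarith [hr.2]), r + min r (1 - r) * (r - s), ?_,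
      by module⟩
    have h0 : 0 < min r (1 - r) := lt_min hr.1 (by linarith [hr.2])
    have h1 : min r (1 - r) ≤ r := min_le_left _ _
    have h2 : min r (1 - r) ≤ 1 - r := min_le_right _ _
    have h3 : r - s ≤ 1 := by linarith [hr.2, hs.1]
    have h4 : -1 ≤ r - s := by linarith [hr.1, hs.2]
    have h5 : min r (1 - r) * (r - s) ≤ min r (1 - r) * 1 := mul_le_mul_of_nonneg_left h3 h0.le
    have h6 : min r (1 - r) * (-1) ≤ min r (1 - r) * (r - s) := mul_le_mul_of_nonneg_left h4 h0.le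
    constructor <;> linarith

theorem rin_pt (p : E) : Rin ({p} : Set E) {p} where
  conv := convex_singleton p
  cpt := isCompact_singleton
  sub := Subset.rfl
  seg := by
    rintro _ rfl _ rfl t ht
    rw [mem_singleton_iff, ← add_smul]; simp
  ext := by
    rintro _ rfl _ rfl
    exact ⟨1, one_pos, by simp⟩

variable {b : Set I → E} {P : I → Set E} {m : I → ℕ}

/-- the open box -/
def Gx.obx (q : Gx P m) : Set (I → ℝ) :=
  {g | g ∈ q.bx ∧ ∀ c ∈ q.free, (q.lo c : ℝ) < g c ∧ g c < q.hi c}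

/-- the centre of a grid cell -/
noncomputable def Gx.ctr (q : Gx P m) : I → ℝ := fun c => ((q.lo c : ℝ) + q.hi c) / 2


theorem Gx.flb_of_obx (hm : ∀ c, 0 < m c) {q : Gx P m} {g : I → ℝ} (hg : g ∈ q.obx) :
    flb hm g (q.bx_sub hm hg.1) = q := flb_eq hm _ hg.1 hg.2

theorem flb_mem_obx (hm : ∀ c, 0 < m c) {g : I → ℝ} (hg : g ∈ G2 P m) : g ∈ (flb hm g hg).obx :=
  ⟨mem_flb hm hg, fun _ hc => mem_open_of_flb hm hg hc⟩

theorem Gx.ctr_mem (q : Gx P m) : q.ctr ∈ q.obx := by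
  refine ⟨fun c => ?_, fun c hc => ?_⟩
  · have h : (q.lo c : ℝ) ≤ q.hi c := by exact_mod_cast q.le c
    unfold Gx.ctr
    constructor <;> linarith
  · have h : (q.lo c : ℝ) < q.hi c := by exact_mod_cast (show q.lo c < q.hi c from hc)
    unfold Gx.ctr
    constructor <;> linarith

theorem Gx.zero_of_bx {q : Gx P m} {g : I → ℝ} (hg : g ∈ q.bx) {c : I} (hc : q.hi c = 0) :
    g c = 0 := by
  have h1 := hg c
  rw [hc] at h1
  have h2 : (0 : ℝ) ≤ q.lo c := Nat.cast_nonneg _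
  have h3 : g c ≤ 0 := by simpa using h1.2
  exact le_antisymm h3 (h2.trans h1.1)

/-- on an open box the vanishing coordinates are those of the box -/
theorem Gx.zero_iff_of_obx {q : Gx P m} {g : I → ℝ} (hg : g ∈ q.obx) {c : I} :
    g c = 0 ↔ q.hi c = 0 := by
  refine ⟨fun h => ?_, fun h => Gx.zero_of_bx hg.1 h⟩
  by_cases hc : c ∈ q.free
  · have h1 := (hg.2 c hc).1
    rw [h] at h1
    exact absurd h1 (not_lt.2 (Nat.cast_nonneg _))
  · have h1 := Gx.eq_of_mem hc hg.1
    rw [h] at h1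
    exact_mod_cast h1.symm


section images

variable {q : Gx P m} {φ : (I → ℝ) → E}

theorem img2 {c1 c2 : I} (hne : c1 ≠ c2) (hf : q.free = {c1, c2}) {ψ : ℝ × ℝ → E}
    (h : ∀ g ∈ q.bx, φ g = ψ (q.hi c1 - g c1, q.hi c2 - g c2)) :
    φ '' q.bx = ψ '' Sc ∧ φ '' q.obx = ψ '' So := by
  have m1 : c1 ∈ q.free := by rw [hf]; simp
  have m2 : c2 ∈ q.free := by rw [hf]; simp
  have l1 : (q.hi c1 : ℝ) = q.lo c1 + 1 := by exact_mod_cast Gx.hi_eq m1
  have l2 : (q.hi c2 : ℝ) = q.lo c2 + 1 := by exact_mod_cast Gx.hi_eq m2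
  have k : ∀ w ∈ Sc, φ (pq q c1 c2 w) = ψ w := by
    intro w hw
    rw [h _ (mem_pq hne hf hw), pq_1, pq_2 q hne]
    simp
  constructor
  · apply Subset.antisymm
    · rintro _ ⟨g, hg, rfl⟩
      exact ⟨_, par_mem hf hg, (h g hg).symm⟩
    · rintro _ ⟨w, hw, rfl⟩
      exact ⟨_, mem_pq hne hf hw, k w hw⟩
  · apply Subset.antisymm
    · rintro _ ⟨g, hg, rfl⟩
      refine ⟨_, ?_, (h g hg.1).symm⟩
      have a1 := hg.2 c1 m1
      have a2 := hg.2 c2 m2
      refine ⟨⟨?_, ?_⟩, ⟨?_, ?_⟩⟩ <;> simp only <;> linarith [a1.1, a1.2, a2.1, a2.2]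
    · rintro _ ⟨w, hw, rfl⟩
      refine ⟨_, ⟨mem_pq hne hf (So_sub hw), fun c hc => ?_⟩, k w (So_sub hw)⟩
      rw [hf] at hc
      rcases hc with rfl | rfl
      · rw [pq_1]
        constructor <;> linarith [hw.1.1, hw.1.2]
      · rw [pq_2 q hne]
        constructor <;> linarith [hw.2.1, hw.2.2]

theorem img1 {c1 : I} (hf : q.free = {c1}) {ψ : ℝ → E}
    (h : ∀ g ∈ q.bx, φ g = ψ (q.hi c1 - g c1)) :
    φ '' q.bx = ψ '' Icc 0 1 ∧ φ '' q.obx = ψ '' Ioo 0 1 := by
  have m1 : c1 ∈ q.free := by rw [hf]; simp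
  have l1 : (q.hi c1 : ℝ) = q.lo c1 + 1 := by exact_mod_cast Gx.hi_eq m1
  have k : ∀ w ∈ Icc (0 : ℝ) 1, φ (p1 q c1 w) = ψ w := by
    intro w hw
    rw [h _ (mem_p1 hf hw), p1_1]
    simp
  constructor
  · apply Subset.antisymm
    · rintro _ ⟨g, hg, rfl⟩
      exact ⟨_, par1_mem hf hg, (h g hg).symm⟩
    · rintro _ ⟨w, hw, rfl⟩
      exact ⟨_, mem_p1 hf hw, k w hw⟩
  · apply Subset.antisymm
    · rintro _ ⟨g, hg, rfl⟩
      refine ⟨_, ?_, (h g hg.1).symm⟩
      have a1 := hg.2 c1 m1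
      constructor <;> linarith [a1.1, a1.2]
    · rintro _ ⟨w, hw, rfl⟩
      refine ⟨_, ⟨mem_p1 hf (Ioo_subset_Icc_self hw), fun c hc => ?_⟩,
        k w (Ioo_subset_Icc_self hw)⟩
      rw [hf] at hc
      obtain rfl : c = c1 := hc
      rw [p1_1]
      constructor <;> linarith [hw.1, hw.2]

theorem img0 (hf : q.free = ∅) :
    φ '' q.bx = {φ fun c => (q.hi c : ℝ)} ∧ φ '' q.obx = {φ fun c => (q.hi c : ℝ)} := by
  have h1 : q.bx = {fun c => (q.hi c : ℝ)} := by
    apply Subset.antisymm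
    · intro g hg
      funext c
      exact Gx.eq_of_mem (by rw [hf]; simp) hg
    · rintro _ rfl
      exact hi_mem q
  have h2 : q.obx = {fun c => (q.hi c : ℝ)} := by
    apply Subset.antisymm
    · intro g hg
      funext c
      exact Gx.eq_of_mem (by rw [hf]; simp) hg.1
    · rintro _ rfl
      exact ⟨hi_mem q, fun c hc => by rw [hf] at hc; exact absurd hc (by simp)⟩
  rw [h1, h2]
  simp



end images

section foam

variable {La : Set E} [CompleteSpace E] (F : Foam La P b 4)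
include F

theorem Gx.free_cases (q : Gx P m) (hm : ∀ c, 0 < m c) :
    q.free = ∅ ∨ (∃ c1, q.free = {c1}) ∨ ∃ c1 c2, c1 ≠ c2 ∧ q.free = {c1, c2} := by
  have h := q.free_card F hm
  have hfin := q.free_fin F hm
  interval_cases h2 : q.free.ncard
  · exact Or.inl ((ncard_eq_zero hfin).1 h2)
  · exact Or.inr (Or.inl (ncard_eq_one.1 h2))
  · obtain ⟨x, y, hxy, h3⟩ := ncard_eq_two.1 h2
    exact Or.inr (Or.inr ⟨x, y, hxy, h3⟩)

variable (hQ : Quads P b)
include hQ

/-- **the structure of a grid cell** : a convex compact set and its relative interior. -/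
theorem rin_cell (hm : ∀ c, 0 < m c) (q : Gx P m) :
    Rin (Tq b m '' q.bx) (Tq b m '' q.obx) := by
  rcases q.free_cases F hm with hf | ⟨c1, hf⟩ | ⟨c1, c2, hne, hf⟩
  · obtain ⟨a1, a2⟩ := img0 (φ := Tq b m) hf
    rw [a1, a2]; exact rin_pt _
  · obtain ⟨p, f, hf0, hpf⟩ := frame1 F hQ hm q hf
    obtain ⟨a1, a2⟩ := img1 (φ := Tq b m) (ψ := fun s => p + s • f) hf hpf
    rw [a1, a2]; exact rin_seg _ _
  · obtain ⟨X, hX⟩ := frame2 F hQ hm q hne hf
    obtain ⟨a1, a2⟩ := img2 (φ := Tq b m) (ψ := X.tl) hne hf hX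
    have b1 : X.tl '' Sc = X.cell := X.tl_bijOn.image_eq
    have opn_sub : X.opn ⊆ X.cell := X.rin.sub
    have b2 : X.tl '' So = X.opn := by
      apply Subset.antisymm
      · rintro _ ⟨w, hw, rfl⟩
        exact (X.tl_mem_opn (So_sub hw)).2 hw
      · intro y hy
        have := opn_sub hy
        rw [← b1] at this
        obtain ⟨w, hw, rfl⟩ := this
        exact ⟨w, (X.tl_mem_opn hw).1 hy, rfl⟩
    rw [a1, a2, b1, b2]; exact X.rin

/-- **the structure of a grid cell** -/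
theorem cell_spec (hm : ∀ c, 0 < m c) (q : Gx P m) :
    (Tq b m '' q.bx).Nonempty ∧ (Tq b m '' q.obx).Nonempty ∧
    Rin (Tq b m '' q.bx) (Tq b m '' q.obx) ∧ InjOn (Tq b m) q.bx :=
  ⟨⟨_, q.ctr, q.ctr_mem.1, rfl⟩, ⟨_, q.ctr, q.ctr_mem, rfl⟩, rin_cell F hQ hm q,
    (Tq_injOn F hQ hm).mono (q.bx_sub hm)⟩

/-- the open cell of a grid cell -/
theorem mem_opn_iff (hm : ∀ c, 0 < m c) {q : Gx P m} {y : E} :
    y ∈ Tq b m '' q.obx ↔ y ∈ Tq b m '' q.bx ∧ ∀ p < q, y ∉ Tq b m '' p.bx := by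
  constructor
  · rintro ⟨g, hg, rfl⟩
    refine ⟨⟨g, hg.1, rfl⟩, ?_⟩
    rintro p hp ⟨g', hg', he⟩
    have e := Tq_injOn F hQ hm (p.bx_sub hm hg') (q.bx_sub hm hg.1) he
    subst e
    have h1 := flb_le hm (q.bx_sub hm hg.1) hg'
    rw [Gx.flb_of_obx hm hg] at h1
    exact hp.not_ge h1
  · rintro ⟨⟨g, hg, rfl⟩, h⟩
    have hG := q.bx_sub hm hg
    have h1 := flb_le hm hG hg
    rcases h1.eq_or_lt with h2 | h2
    · refine ⟨g, ?_, rfl⟩
      rw [← h2]; exact flb_mem_obx hm hG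
    · exact absurd ⟨g, mem_flb hm hG, rfl⟩ (h _ h2)

end foam

end Crest.Agent.R096.Grd_714
end

-- ▼ part R096/Xp7_537
section

/-!
# R096 (row 96), EXPLODE, part 7 (helper537)

Constructors for the convex complexes `CC`: from relative interiors, and from 715's tilings.
-/

set_option autoImplicit false
set_option linter.unusedSectionVars false
set_option linter.unusedVariables false
set_option linter.deprecated false

open Set

namespace Crest.Agent.R096.Xp_537

variable {E : Type*} [NormedAddCommGroup E] [NormedSpace ℝ E]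

/-- constructor of a convex complex: `seg` = the points `b q` are in the relative interior,
`ext` = the open cells are relatively open (seen from `b q`). -/
def CC.mk' {Λ : Set E} {Q : Type*} [PartialOrder Q] (cell : Q → Set E) (b : Q → E) (dim : Q → ℕ)
    (conv : ∀ q, Convex ℝ (cell q)) (cpt : ∀ q, IsCompact (cell q)) (bmem : ∀ q, b q ∈ cell q)
    (mono : ∀ {p q}, p < q → cell p ⊆ cell q) (dim_lt : ∀ {p q}, p < q → dim p < dim q)
    (seg : ∀ {p q}, p < q → ∀ y ∈ cell q, ∀ w ∈ Ioc (0 : ℝ) 1, (1 - w) • y + w • b q ∉ cell p)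
    (ext : ∀ q, ∀ z ∈ cell q, (∀ p < q, z ∉ cell p) → z ≠ b q →
      ∃ ε : ℝ, 0 < ε ∧ z + ε • (z - b q) ∈ cell q)
    (disj : ∀ {p q : Q} {y : E}, y ∈ cell p → (∀ r < p, y ∉ cell r) → y ∈ cell q →
      (∀ r < q, y ∉ cell r) → p = q)
    (sub : ∀ q, cell q ⊆ Λ) (cover : ∀ y ∈ Λ, ∃ q, y ∈ cell q)
    (lf : ∀ y ∈ Λ, ∃ r > 0, {q | (cell q ∩ Metric.ball y r).Nonempty}.Finite) : CC Λ Q where
  cell := cell
  b := b
  dim := dim
  conv := conv
  cpt := cpt
  bmem := bmem
  mono := mono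
  dim_lt := dim_lt
  b_notMem := fun {p q} h hb => by
    refine seg h (b q) (bmem q) 1 ⟨one_pos, le_rfl⟩ ?_
    rw [sub_self, zero_smul, zero_add, one_smul]
    exact hb
  rad := fun q y hy => by
    by_cases hyb : y = b q
    · exact Or.inl hyb
    · right
      have hne : y - b q ≠ 0 := sub_ne_zero.2 hyb
      have hn : 0 < ‖y - b q‖ := norm_pos_iff.2 hne
      set T : Set ℝ := {t | 1 ≤ t ∧ b q + t • (y - b q) ∈ cell q} with hT
      have hcl : IsClosed T := by
        refine IsClosed.inter isClosed_Ici ?_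
        exact (cpt q).isClosed.preimage (by fun_prop : Continuous fun t : ℝ => b q + t • (y - b q))
      obtain ⟨R, hR⟩ := (cpt q).isBounded.exists_norm_le
      have hbd : T ⊆ Icc 1 ((R + ‖b q‖) / ‖y - b q‖) := by
        rintro t ⟨h1, h2⟩
        refine ⟨h1, ?_⟩
        rw [le_div_iff₀ hn]
        have h3 := hR _ h2
        have h4 : ‖t • (y - b q)‖ = t * ‖y - b q‖ := by
          rw [norm_smul, Real.norm_eq_abs, abs_of_pos (by linarith)]
        rw [← h4]
        calc ‖t • (y - b q)‖ = ‖(b q + t • (y - b q)) - b q‖ := by rw [add_sub_cancel_left]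
          _ ≤ ‖b q + t • (y - b q)‖ + ‖b q‖ := norm_sub_le _ _
          _ ≤ R + ‖b q‖ := by linarith
      have hcpt : IsCompact T := isCompact_Icc.of_isClosed_subset hcl hbd
      have h1T : (1 : ℝ) ∈ T := ⟨le_rfl, by rw [one_smul, add_sub_cancel]; exact hy⟩
      obtain ⟨t, ht, hmax⟩ := hcpt.exists_isGreatest ⟨1, h1T⟩
      have ht0 : 0 < t := by linarith [ht.1]
      set z := b q + t • (y - b q) with hz
      have hzb : z ≠ b q := by
        intro h
        rw [hz, add_eq_left, smul_eq_zero] at h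
        rcases h with h | h
        · exact ht0.ne' h
        · exact hne h
      by_cases hlow : ∃ p < q, z ∈ cell p
      · obtain ⟨p, hp, hzp⟩ := hlow
        refine ⟨p, hp, z, hzp, 1 - t⁻¹, ⟨sub_nonneg.2 (inv_le_one_of_one_le₀ ht.1), ?_⟩, ?_⟩
        · have := inv_pos.2 ht0; linarith
        · rw [sub_sub_cancel, hz, smul_add, smul_smul, inv_mul_cancel₀ ht0.ne', one_smul]
          module
      · push Not at hlow
        exfalso
        obtain ⟨ε, hε, hmem⟩ := ext q z ht.2 hlow hzb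
        have h5 : t * (1 + ε) ∈ T := by
          refine ⟨by nlinarith [ht.1], ?_⟩
          have : b q + (t * (1 + ε)) • (y - b q) = z + ε • (z - b q) := by
            rw [hz]; module
          rw [this]; exact hmem
        have h6 := hmax h5
        nlinarith
  rad_uniq := fun {q p p' y y' w w'} hp hp' hy hy' hw hw' he => by
    -- the common argument
    have key : ∀ (p p' : Q) (y y' : E) (w w' : ℝ), p < q → p' < q → y ∈ cell p → y' ∈ cell p' →
        w ∈ Ico (0 : ℝ) 1 → w' ∈ Ico (0 : ℝ) 1 →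
        (1 - w) • y + w • b q = (1 - w') • y' + w' • b q → ¬ w < w' := by
      intro p p' y y' w w' hp hp' hy hy' hw hw' he hlt
      have h1 : 0 < 1 - w := by linarith [hw.2]
      have h2 : (1 - (w' - w) / (1 - w)) • y' + ((w' - w) / (1 - w)) • b q = y := by
        have h3 : (1 - w) • ((1 - (w' - w) / (1 - w)) • y' + ((w' - w) / (1 - w)) • b q) =
            (1 - w) • y := by
          have e1 : (1 - w) * (1 - (w' - w) / (1 - w)) = 1 - w' := by field_simp; ring
          have e2 : (1 - w) * ((w' - w) / (1 - w)) = w' - w := by field_simp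
          rw [smul_add, smul_smul, smul_smul, e1, e2]
          have e3 : (1 - w) • y = (1 - w') • y' + w' • b q - w • b q := by
            rw [← he]; abel
          rw [e3]; module
        exact smul_right_injective E h1.ne' h3
      refine seg hp y' (mono hp' hy') ((w' - w) / (1 - w)) ⟨div_pos (by linarith) h1, ?_⟩ ?_
      · rw [div_le_one h1]; linarith [hw'.2]
      · rw [h2]; exact hy
    have h1 := key p p' y y' w w' hp hp' hy hy' hw hw' he
    have h2 := key p' p y' y w' w hp' hp hy' hy hw' hw he.symm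
    have h3 : w = w' := le_antisymm (not_lt.1 h2) (not_lt.1 h1)
    subst h3
    refine ⟨?_, rfl⟩
    have h4 := add_right_cancel he
    have h5 : (1 - w) ≠ 0 := by
      have := hw.2
      intro h; linarith
    exact smul_right_injective E h5 h4
  disj := disj
  sub := sub
  cover := cover
  lf := lf


end Crest.Agent.R096.Xp_537
end

-- ▼ part R096/Grd6_714

/-!
# R096 (row 96), GRID, part 6 (helper714): the convex complex of the grid

`grid F hQ hm : CC La (Cel P m)`: cells `P c` (dimension 3) and the grid cells `Tq '' q.bx`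
(dimension = number of free colours).
-/

set_option autoImplicit false
set_option linter.unusedSectionVars false

open Set

namespace Crest.Agent.R096.Grd_714

open Crest.Agent.R096.Brk1_582 Crest.Agent.R096.Brk2_582 Crest.Agent.R096.Brk6_582
open Crest.Agent.R096.Xp_537

variable {E : Type*} [NormedAddCommGroup E] [NormedSpace ℝ E] {I : Type*}
variable {b : Set I → E} {P : I → Set E} {m : I → ℕ}

/-- the carriers -/
def Cel.set (b : Set I → E) : Cel P m → Set E
  | .top c => P c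
  | .gr q => Tq b m '' q.bx

/-- the centres -/
noncomputable def Cel.pt (b : Set I → E) : Cel P m → E
  | .top c => b {c}
  | .gr q => Tq b m q.ctr

/-- the dimensions -/
noncomputable def Cel.dm : Cel P m → ℕ
  | .top _ => 3
  | .gr q => q.free.ncard

theorem fc_single {c : I} : fc P {c} = P c := by
  ext y; simp [fc]

variable {La : Set E} [CompleteSpace E] (F : Foam La P b 4)
include F

/-- finitely many grid cells live on a finite set of colours -/
theorem finite_Gx {N : Set I} (hN : N.Finite) : {q : Gx P m | {c | q.lo c < m c} ⊆ N}.Finite := by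
  classical
  have : Fintype N := hN.fintype
  let φ : Gx P m → (N → ℕ × ℕ) := fun q c => (q.lo c, q.hi c)
  have hT : (Set.univ.pi fun c : N => (Iic (m c) ×ˢ Iic (m c) : Set (ℕ × ℕ))).Finite :=
    Set.Finite.pi fun c => (finite_Iic _).prod (finite_Iic _)
  refine Set.Finite.of_finite_image (f := φ) (hT.subset ?_) ?_
  · rintro _ ⟨q, _, rfl⟩ c _
    exact ⟨(q.le c).trans (q.him c), q.him c⟩
  · intro q hq q' hq' he
    have out : ∀ q : Gx P m, q ∈ {q : Gx P m | {c | q.lo c < m c} ⊆ N} → ∀ c, c ∉ N →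
        q.lo c = m c ∧ q.hi c = m c := by
      intro q hq c hc
      have h1 : ¬ q.lo c < m c := fun h => hc (hq h)
      have := q.le c
      have := q.him c
      constructor <;> omega
    ext c
    · by_cases hc : c ∈ N
      · have := congrFun he ⟨c, hc⟩
        exact (Prod.ext_iff.1 this).1
      · rw [(out q hq c hc).1, (out q' hq' c hc).1]
    · by_cases hc : c ∈ N
      · have := congrFun he ⟨c, hc⟩
        exact (Prod.ext_iff.1 this).2
      · rw [(out q hq c hc).2, (out q' hq' c hc).2]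

theorem finite_Gx_of_mem (hm : ∀ c, 0 < m c) {S : Set I} (hS : S.Finite) :
    {q : Gx P m | ∃ c ∈ S, q.hi c = 0}.Finite := by
  have h : (⋃ c ∈ S, {q : Gx P m | {c' | q.lo c' < m c'} ⊆ {c' | (P c' ∩ P c).Nonempty}}).Finite :=
    hS.biUnion fun c _ => finite_Gx F (finite_touch F c)
  refine h.subset ?_
  rintro q ⟨c, hc, h0⟩
  simp only [mem_iUnion]
  refine ⟨c, hc, fun c' hc' => ?_⟩
  obtain ⟨y, hy⟩ := q.face
  rw [mem_fc] at hy
  exact ⟨y, hy c' hc', hy c (q.Z_sub hm h0)⟩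

theorem mem_top_iff {c : I} {y : E} (hy : y ∈ P c) :
    act P y = {c} ↔ ¬ ∃ c', c' ≠ c ∧ y ∈ P c' := by
  constructor
  · rintro h ⟨c', hne, hc'⟩
    have : c' ∈ act P y := hc'
    rw [h] at this
    exact hne this
  · intro h
    ext c'
    constructor
    · intro hc'
      by_contra hne
      exact h ⟨c', hne, hc'⟩
    · rintro rfl; exact hy

variable (hQ : Quads P b)
include hQ

theorem mem_P_of_gr (hm : ∀ c, 0 < m c) {q : Gx P m} {y : E} (hy : y ∈ Tq b m '' q.bx) {c : I}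
    (hc : q.hi c = 0) : y ∈ P c := by
  obtain ⟨g, hg, rfl⟩ := hy
  exact (Tq_mem_iff F hQ hm (q.bx_sub hm hg)).2 (Gx.zero_of_bx hg hc)

/-- a point of `P c` in no smaller cell lies in `P c` only -/
theorem act_of_top (hm : ∀ c, 0 < m c) {y : E} {c : I} (hy : y ∈ P c)
    (h : ∀ q : Gx P m, q.hi c = 0 → y ∉ Tq b m '' q.bx) : act P y = {c} := by
  rw [mem_top_iff F hy]
  rintro ⟨c', hne, hc'⟩
  obtain ⟨g, hg, rfl⟩ := exists_Tq F hQ hm (F.sub c hy) hne.symm hy hc'
  refine h (flb hm g hg) ?_ ⟨g, mem_flb hm hg, rfl⟩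
  rw [← Gx.zero_iff_of_obx (flb_mem_obx hm hg)]
  exact (Tq_mem_iff F hQ hm hg).1 hy

theorem act_of_gr (hm : ∀ c, 0 < m c) {q : Gx P m} {y : E} (hy : y ∈ Tq b m '' q.bx) (c : I) :
    act P y ≠ {c} := by
  intro h
  obtain ⟨c1, c2, hne, h1, h2⟩ := q.two
  have a1 : c1 ∈ act P y := mem_P_of_gr F hQ hm hy h1
  have a2 : c2 ∈ act P y := mem_P_of_gr F hQ hm hy h2
  rw [h] at a1 a2
  exact hne (a1.trans a2.symm)

/-- **the grid complex** -/
noncomputable def grid (hne : ∀ c, (P c).Nonempty) (hm : ∀ c, 0 < m c) : CC La (Cel P m) :=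
  CC.mk' (Cel.set b) (Cel.pt b) Cel.dm
    (fun q => by
      cases q with
      | top c => exact F.cvx c
      | gr q => exact (cell_spec F hQ hm q).2.2.1.conv)
    (fun q => by
      cases q with
      | top c => exact F.cpt c
      | gr q => exact (cell_spec F hQ hm q).2.2.1.cpt)
    (fun q => by
      cases q with
      | top c =>
        have h1 : b {c} ∈ fc P {c} := F.mem {c} (singleton_nonempty c) (by
          rw [fc_single]; exact hne c)
        rw [fc_single] at h1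
        exact h1
      | gr q => exact ⟨q.ctr, q.ctr_mem.1, rfl⟩)
    (fun {p q} h => by
      cases q with
      | top c =>
        cases p with
        | top c' => exact absurd h Cel.not_top_lt
        | gr p => exact fun y hy => mem_P_of_gr F hQ hm hy (Cel.gr_lt_top.1 h)
      | gr q =>
        cases p with
        | top c' => exact absurd h Cel.not_top_lt
        | gr p => exact image_mono (bx_mono (Cel.gr_lt_gr.1 h).le))
    (fun {p q} h => by
      cases q with
      | top c =>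
        cases p with
        | top c' => exact absurd h Cel.not_top_lt
        | gr p => exact (p.free_card F hm).trans_lt (show 2 < 3 by norm_num)
      | gr q =>
        cases p with
        | top c' => exact absurd h Cel.not_top_lt
        | gr p => exact ncard_lt_ncard (Gx.free_lt (Cel.gr_lt_gr.1 h)) (q.free_fin F hm))
    (fun {p q} h y hy w hw => by
      cases q with
      | top c =>
        cases p with
        | top c' => exact absurd h Cel.not_top_lt
        | gr p =>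
          have hy' : y ∈ fc P {c} := by rw [fc_single]; exact hy
          have h1 := F.rel {c} (singleton_nonempty c) y hy' (1 - w)
            ⟨by linarith [hw.2], by linarith [hw.1]⟩
          have e : b {c} + (1 - w) • (y - b {c}) = (1 - w) • y + w • b {c} := by module
          rw [e] at h1
          intro hmem
          exact act_of_gr F hQ hm hmem c h1
      | gr q =>
        cases p with
        | top c' => exact absurd h Cel.not_top_lt
        | gr p =>
          have h1 := (cell_spec F hQ hm q).2.2.1.seg y hy _ ⟨q.ctr, q.ctr_mem, rfl⟩ w hw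
          exact ((mem_opn_iff F hQ hm).1 h1).2 p (Cel.gr_lt_gr.1 h))
    (fun q z hz hlow hne => by
      cases q with
      | top c =>
        have h1 : act P z = {c} := act_of_top F hQ hm hz fun q hq =>
          hlow (.gr q) (Cel.gr_lt_top.2 hq)
        obtain ⟨t, ht, h2⟩ := F.exit z (F.sub c hz) (by rw [h1]; exact hne)
        rw [h1, fc_single] at h2
        refine ⟨t - 1, by linarith, ?_⟩
        have e : z + (t - 1) • (z - b {c}) = b {c} + t • (z - b {c}) := by module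
        show z + (t - 1) • (z - b {c}) ∈ P c
        rw [e]; exact h2
      | gr q =>
        have h1 : z ∈ Tq b m '' q.obx := (mem_opn_iff F hQ hm).2
          ⟨hz, fun p hp => hlow (.gr p) (Cel.gr_lt_gr.2 hp)⟩
        exact (cell_spec F hQ hm q).2.2.1.ext z h1 _ ⟨q.ctr, q.ctr_mem.1, rfl⟩)
    (fun {p q y} hp hpl hq hql => by
      cases p with
      | top c =>
        have h1 : act P y = {c} := act_of_top F hQ hm hp fun q hq =>
          hpl (.gr q) (Cel.gr_lt_top.2 hq)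
        cases q with
        | top c' =>
          have h2 : act P y = {c'} := act_of_top F hQ hm hq fun q hq =>
            hql (.gr q) (Cel.gr_lt_top.2 hq)
          rw [h1] at h2
          rw [singleton_injective h2]
        | gr q => exact absurd h1 (act_of_gr F hQ hm hq c)
      | gr p =>
        cases q with
        | top c =>
          have h1 : act P y = {c} := act_of_top F hQ hm hq fun q hq =>
            hql (.gr q) (Cel.gr_lt_top.2 hq)
          exact absurd h1 (act_of_gr F hQ hm hp c)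
        | gr q =>
          obtain ⟨g, hg, e⟩ := (mem_opn_iff F hQ hm).2
            ⟨hp, fun r hr => hpl (.gr r) (Cel.gr_lt_gr.2 hr)⟩
          obtain ⟨g', hg', e'⟩ := (mem_opn_iff F hQ hm).2
            ⟨hq, fun r hr => hql (.gr r) (Cel.gr_lt_gr.2 hr)⟩
          have e2 := Tq_injOn F hQ hm (p.bx_sub hm hg.1) (q.bx_sub hm hg'.1) (e.trans e'.symm)
          subst e2
          rw [← Gx.flb_of_obx hm hg, ← Gx.flb_of_obx hm hg'])
    (fun q => by
      cases q with
      | top c => exact F.sub c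
      | gr q =>
        rintro _ ⟨g, hg, rfl⟩
        exact Tq_mem_La F hQ hm (q.bx_sub hm hg))
    (fun y hy => by
      obtain ⟨c, hc⟩ := F.cov y hy
      exact ⟨.top c, hc⟩)
    (fun y hy => by
      obtain ⟨r, hr, hfin⟩ := F.lf y hy
      refine ⟨r, hr, ?_⟩
      have h1 := (hfin.image (Cel.top (P := P) (m := m))).union
        ((finite_Gx_of_mem F hm hfin).image Cel.gr)
      refine h1.subset ?_
      intro q hq
      cases q with
      | top c => exact Or.inl ⟨c, hq, rfl⟩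
      | gr q =>
        right
        refine ⟨q, ?_, rfl⟩
        obtain ⟨z, hz, hzb⟩ := hq
        obtain ⟨c, c', _, h0, _⟩ := q.two
        exact ⟨c, ⟨z, mem_P_of_gr F hQ hm hz h0, hzb⟩, h0⟩)

theorem grid_cell_top (hne : ∀ c, (P c).Nonempty) (hm : ∀ c, 0 < m c) (c : I) :
    (grid F hQ hne hm).cell (.top c) = P c := rfl

theorem grid_cell_gr (hne : ∀ c, (P c).Nonempty) (hm : ∀ c, 0 < m c) (q : Gx P m) :
    (grid F hQ hne hm).cell (.gr q) = Tq b m '' q.bx := rfl





theorem grid_dim_le (hne : ∀ c, (P c).Nonempty) (hm : ∀ c, 0 < m c) (q : Cel P m) :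
    (grid F hQ hne hm).dim q ≤ 3 := by
  cases q with
  | top c => exact le_rfl
  | gr q => exact (q.free_card F hm).trans (by norm_num)

end Crest.Agent.R096.Grd_714
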