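import Crest.Agent.R096.Ecm6_446
import Crest.Agent.R096.Rop1_441
import Crest.Agent.R096.Ecm4_446
import Crest.Agent.R096.Rop3_441
import Crest.Agent.R096.Leaf2_965
import Crest.Agent.R096.Ecm5_446
import Crest.Agent.R096.Kin1_527
import Crest.Agent.R096.Hlf1_847

-- ▼ part R096/Hl1_955
section

/-!
# R096 (row 96), BASE-R, leaf (d) of 446 (helper955), part 1: the labels on the boundary of an exact
core, discrete half

`Stp`     : from a vertex of the tile one can go down / up in one direction along a 1-cell;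
`Same`    : a 1-cell with both ends on the same side of the sheet carries no point of the sheet;
`hl_core` : `lam₀ j v = 1 ↔ (κ v).pt ∈ V j` at all vertices of the tile, as soon as this holds at the
            vertices of height `0` (label 1) and of height `N` (label 0).
-/

set_option autoImplicit false
set_option linter.unusedSectionVars false

open Set Relation

namespace Crest.Agent.R096.Hl_955

open Crest.Agent.R096.Msh_715
open Crest.Agent.R096.St_147 Crest.Agent.R096.Seq_213 Crest.Agent.R096.Seq_213.GSt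
  Crest.Agent.R096.Lm_117 Crest.Agent.R096.Ac_117 Crest.Agent.R096.Gl_422
open Crest.Agent.R096.Lab_184 Crest.Agent.R096.Agl5_543
open Crest.Agent.R096.Ecm_446

variable {E : Type} [NormedAddCommGroup E] [NormedSpace ℝ E] [FiniteDimensional ℝ E]
variable {Om : Set E} {ι : Type} {C J : Type}

/-- from every vertex of the tile `i₀` one can go one step down and up in the direction `a` along a
1-cell of the tile -/
structure Stp (T : Tiling Om ι) (i₀ : ι) (U : E → C → ℝ) (N : ℕ) : Prop where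
  down : ∀ v ∈ P (T.H i₀), T.dim v = 0 → ∀ a, ∀ n : ℕ, U v a = (n + 1 : ℕ) → n + 1 < N →
    ∃ x ∈ P (T.H i₀), T.dim x = 1 ∧ (∀ c, c ≠ a → U x c = U v c) ∧ (n : ℝ) < U x a ∧
      U x a < (n + 1 : ℕ)
  up : ∀ v ∈ P (T.H i₀), T.dim v = 0 → ∀ a, ∀ n : ℕ, 0 < n → U v a = n → n < N →
    ∃ x ∈ P (T.H i₀), T.dim x = 1 ∧ (∀ c, c ≠ a → U x c = U v c) ∧ (n : ℝ) < U x a ∧
      U x a < (n + 1 : ℕ)

/-- a 1-cell of the tile with both ends on the same side of the sheet carries no point of the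
sheet -/
def Same (T : Tiling Om ι) (i₀ : ι) (U : E → C → ℝ) (fam : J → C) (τ : J → ℝ) (X : J → Set E) :
    Prop :=
  ∀ x ∈ P (T.H i₀), T.dim x = 1 → ∀ j,
    ((∀ y ∈ T.cc x, T.dim y = 0 → U y (fam j) < τ j) ∨
      (∀ y ∈ T.cc x, T.dim y = 0 → τ j ≤ U y (fam j))) → ∀ y ∈ T.cc x, y ∉ X j

theorem flo_mid {r : ℝ} {n : ℕ} (h1 : (n : ℝ) < r) (h2 : r < (n + 1 : ℕ)) :
    ⌊r⌋₊ = n ∧ ⌈r⌉₊ = n + 1 := by
  have e1 : ⌊r⌋₊ = n := by
    rw [Nat.floor_eq_iff ((Nat.cast_nonneg n).trans h1.le)]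
    push_cast at h2
    exact ⟨h1.le, h2⟩
  refine ⟨e1, le_antisymm (Nat.ceil_le.2 h2.le) ?_⟩
  exact Nat.lt_ceil.2 h1

section core

variable {ι' Φ Q : Type} [PartialOrder Q] {dim : Q → ℕ} {M : MeshC ι' Φ E} {L : LM M Q dim}
variable {T : Tiling Om ι} {i₀ : ι} {κ : Q → T.Cell} {fam : J → C} {s : GSt M fam}
  {U : E → C → ℝ} {τ : J → ℝ} {X V : J → Set E} {lam₀ : J → Q → ZMod 2}

/-- two vertices of a 1-cell of the tile without points of the sheet -/
theorem lam_edge (hT : OnT T L.toSk κ) (hF : Full T i₀ κ)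
    (hX : ∀ w ∈ s.P, w ∈ P (T.H i₀) → w ∈ X (s.lab w)) {j : J}
    (hlab : GLab L (gp s j) (lam₀ j)) {x : E} (hx : x ∈ P (T.H i₀)) (h1 : T.dim x = 1)
    (hcc : T.cc x ⊆ P (T.H i₀)) (hno : ∀ y ∈ T.cc x, y ∉ X j) {v w : Q} (hv0 : dim v = 0)
    (hw0 : dim w = 0) (hv : (κ v).pt ∈ T.cc x) (hw : (κ w).pt ∈ T.cc x) :
    lam₀ j v = lam₀ j w := by
  have hxO : x ∈ Om := T.sub _ hx
  have hcl : (T.cl hxO).set = T.cc x := T.cl_set hxO
  have hD : T.cl hxO ∈ Dc T i₀ := by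
    refine ⟨by rw [hcl]; exact hcc, ?_⟩
    rw [T.dim_cl hxO]
    omega
  obtain ⟨e, he⟩ := hF.sur _ hD
  have hed : dim e = 1 := by
    rw [← hT.dim e, he, T.dim_cl hxO, h1]
  have hle : ∀ {u : Q}, dim u = 0 → (κ u).pt ∈ T.cc x → u ≤ e := by
    intro u hu0 hu
    obtain ⟨p, hp, hpe⟩ := hT.down e (κ u) (by
      rw [he, Tiling.Cell.le_def, hcl, (κ u).set_eq]
      exact T.cc_sub_of_mem hu)
    rwa [← hF.inj _ _ hpe]
  have hp := Crest.Agent.R096.Rop_441.edge_Ed (Z := {e}) L hed (mem_singleton e) (hle hv0 hv)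
    (hle hw0 hw) hv0 hw0
  refine hlab.const ?_ hp
  rintro e' he' - y hy hye
  rw [mem_singleton_iff.1 he'] at hye
  obtain ⟨hyP, hyj⟩ := mem_gp.1 hy
  have hyx : y ∈ T.cc x := by
    rw [← hcl, ← he, ← hye.2, hT.ed y hye.1]
    exact T.self_mem_cc y
  exact hno y hyx (hyj ▸ hX y hyP (hcc hyx))

/-- **LABELS ON THE BOUNDARY OF AN EXACT CORE** -/
theorem hl_core (hT : OnT T L.toSk κ) (hF : Full T i₀ κ) (G : CG T i₀ U) {N : ℕ}
    (S : Stp T i₀ U N) (hS : Same T i₀ U fam τ X)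
    (side : ∀ v ∈ P (T.H i₀), T.dim v = 0 → ∀ j, v ∈ V j ↔ U v (fam j) < τ j)
    (hX : ∀ w ∈ s.P, w ∈ P (T.H i₀) → w ∈ X (s.lab w))
    (hτ : ∀ j, 0 < τ j ∧ τ j < N)
    (hU : ∀ v ∈ P (T.H i₀), T.dim v = 0 → ∀ a, U v a ≤ N)
    (hlab : ∀ j, GLab L (gp s j) (lam₀ j))
    (low : ∀ v ∈ Dk i₀ κ, dim v = 0 → ∀ j, U (κ v).pt (fam j) = 0 → lam₀ j v = 1)
    (high : ∀ v ∈ Dk i₀ κ, dim v = 0 → ∀ j, U (κ v).pt (fam j) = N → lam₀ j v = 0) :
    ∀ v ∈ Dk i₀ κ, dim v = 0 → ∀ j, lam₀ j v = 1 ↔ (κ v).pt ∈ V j := by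
  -- the cell of a point of the tile
  have key : ∀ x ∈ P (T.H i₀), T.dim x = 1 → ∀ a, ∀ n : ℕ, (n : ℝ) < U x a → U x a < (n + 1 : ℕ) →
      ∀ v ∈ P (T.H i₀), T.dim v = 0 → (∀ c, c ≠ a → U x c = U v c) → (n : ℝ) ≤ U v a →
      U v a ≤ (n + 1 : ℕ) → v ∈ T.cc x := by
    intro x hx hd a n h1 h2 v hv hv0 he h3 h4
    rw [G.cell x hx (by omega)]
    refine ⟨hv, fun c => ?_⟩
    by_cases hc : c = a
    · subst hc
      obtain ⟨e1, e2⟩ := flo_mid h1 h2
      rw [e1, e2]; exact ⟨h3, h4⟩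
    · rw [← he c hc]
      exact ⟨Nat.floor_le (G.nn x hx c), Nat.le_ceil _⟩
  -- the other end
  have oth : ∀ x ∈ P (T.H i₀), T.dim x = 1 → ∀ y ∈ T.cc x, T.dim y = 0 →
      ∃ w ∈ Dk i₀ κ, dim w = 0 ∧ (κ w).pt = y := by
    intro x hx hd y hy hy0
    obtain ⟨h1, h2, -⟩ := G.sub hx (by omega) hy
    have hO : y ∈ Om := T.sub _ h1
    obtain ⟨w, hw⟩ := hF.sur (T.cl hO) (by
      refine ⟨?_, ?_⟩
      · rw [T.cl_set hO, T.cc_eq_singleton (T.dim_eq_zero_iff.1 hy0)]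
        exact singleton_subset_iff.2 h1
      · rw [T.dim_cl hO]
        omega)
    have h4 : (κ w).pt = y := pt_vertex hy0 (by rw [hw, T.cl_set])
    refine ⟨w, ?_, ?_, h4⟩
    · show κ w ∈ Dc T i₀
      rw [hw]
      refine ⟨?_, ?_⟩
      · rw [T.cl_set hO, T.cc_eq_singleton (T.dim_eq_zero_iff.1 hy0)]
        exact singleton_subset_iff.2 h1
      · rw [T.dim_cl hO]
        omega
    · rw [← hT.dim w]
      show T.dim (κ w).pt = 0
      rw [h4, hy0]
  have hccP : ∀ x ∈ P (T.H i₀), T.dim x = 1 → T.cc x ⊆ P (T.H i₀) := fun x hx hd y hy =>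
    (G.sub hx (by omega) hy).1
  have lower : ∀ j, ∀ n : ℕ, ∀ v ∈ Dk i₀ κ, dim v = 0 → U (κ v).pt (fam j) = n → (n : ℝ) < τ j →
      lam₀ j v = 1 := by
    intro j n
    induction n with
    | zero =>
      intro v hv h0 hu _
      exact low v hv h0 j (by simpa using hu)
    | succ n ih =>
      intro v hv h0 hu hlt
      have hd : T.dim (κ v).pt = 0 := (hT.dim v).trans h0
      have hvP := (dc_pt hv).1
      have hnN : n + 1 < N := by
        have := hlt.trans (hτ j).2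
        exact_mod_cast this
      obtain ⟨x, hx, hx1, hxc, g1, g2⟩ := S.down _ hvP hd (fam j) n hu hnN
      have hvx : (κ v).pt ∈ T.cc x := key x hx hx1 (fam j) n g1 g2 _ hvP hd hxc
        (by rw [hu]; exact_mod_cast Nat.le_succ n) hu.le
      obtain ⟨y, hy, hy0, hyU⟩ := G.exists_lo hx (by omega)
      obtain ⟨e1, e2⟩ := flo_mid g1 g2
      obtain ⟨w, hw, hw0, hwy⟩ := oth x hx hx1 y hy hy0
      have hno : ∀ y ∈ T.cc x, y ∉ X j := by
        refine hS x hx hx1 j (Or.inl fun y' hy' _ => ?_)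
        have h3 := ((G.sub hx (by omega) hy').2.2 (fam j)).2
        rw [e2] at h3
        exact lt_of_le_of_lt h3 hlt
      rw [lam_edge hT hF hX (hlab j) hx hx1 (hccP x hx hx1) hno h0 hw0 hvx (hwy ▸ hy)]
      refine ih w hw hw0 ?_ ?_
      · rw [hwy, hyU, e1]
      · refine lt_trans ?_ hlt
        exact_mod_cast Nat.lt_succ_self n
  have upper : ∀ j, ∀ m n : ℕ, n + m = N → ∀ v ∈ Dk i₀ κ, dim v = 0 → U (κ v).pt (fam j) = n →
      τ j ≤ n → lam₀ j v = 0 := by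
    intro j m
    induction m with
    | zero =>
      intro n hn v hv h0 hu _
      exact high v hv h0 j (by rw [hu]; exact_mod_cast hn)
    | succ m ih =>
      intro n hn v hv h0 hu hle
      have hd : T.dim (κ v).pt = 0 := (hT.dim v).trans h0
      have hvP := (dc_pt hv).1
      have hn0 : 0 < n := by
        have := (hτ j).1.trans_le hle
        exact_mod_cast this
      obtain ⟨x, hx, hx1, hxc, g1, g2⟩ := S.up _ hvP hd (fam j) n hn0 hu (by omega)
      have hvx : (κ v).pt ∈ T.cc x := key x hx hx1 (fam j) n g1 g2 _ hvP hd hxc hu.ge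
        (by rw [hu]; exact_mod_cast Nat.le_succ n)
      obtain ⟨y, hy, hy0, hyU⟩ := G.exists_hi hx (by omega)
      obtain ⟨e1, e2⟩ := flo_mid g1 g2
      obtain ⟨w, hw, hw0, hwy⟩ := oth x hx hx1 y hy hy0
      have hno : ∀ y ∈ T.cc x, y ∉ X j := by
        refine hS x hx hx1 j (Or.inr fun y' hy' _ => ?_)
        have h3 := ((G.sub hx (by omega) hy').2.2 (fam j)).1
        rw [e1] at h3
        exact hle.trans h3
      rw [lam_edge hT hF hX (hlab j) hx hx1 (hccP x hx hx1) hno h0 hw0 hvx (hwy ▸ hy)]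
      refine ih (n + 1) (by omega) w hw hw0 ?_ ?_
      · rw [hwy, hyU, e2]
      · refine hle.trans ?_
        exact_mod_cast Nat.le_succ n
  intro v hv h0 j
  have hd : T.dim (κ v).pt = 0 := (hT.dim v).trans h0
  have hvP := (dc_pt hv).1
  have hu := G.vtx hvP hd (fam j)
  rw [side _ hvP hd j]
  constructor
  · intro h1
    by_contra hcon
    rw [not_lt, hu] at hcon
    have hle : ⌊U (κ v).pt (fam j)⌋₊ ≤ N := by
      have := hU _ hvP hd (fam j)
      rw [hu] at this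
      exact_mod_cast this
    rw [upper j (N - ⌊U (κ v).pt (fam j)⌋₊) _ (by omega) v hv h0 hu hcon] at h1
    exact zero_ne_one h1
  · intro h1
    rw [hu] at h1
    exact lower j _ v hv h0 hu h1

end core

end Crest.Agent.R096.Hl_955
end

-- ▼ part R096/Hl2_955
section

/-!
# R096 (row 96), BASE-R, leaf (d) of 446 (helper955), part 2: `Stp` and `Same` for the literal exact
cores of `Mbf_337`
-/

set_option autoImplicit false
set_option linter.unusedSectionVars false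
set_option linter.style.longLine false

open Set Relation

namespace Crest.Agent.R096.Hl_955

open Crest.Agent.R096.Bsp_628 Crest.Agent.R096.Brk1_582 Crest.Agent.R096.Brk3_582
open Crest.Agent.R096.Brk5_582 Crest.Agent.R096.Msh_715
open Crest.Agent.R096.SkC1_961 (E3 FoamD th)
open Crest.Agent.R096.Mbf_337 (sb Words)
open Crest.Agent.R096.Ecm_446 Crest.Agent.R096.Rop_441

variable {δ κ0 R c0 : ℝ} {La Om : Set E3} {ι : Type} {Φ : FoamD δ κ0 R c0 La} {T : Tiling Om ι}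
  {f : E3 → E3} {κ1 κ2 : ℝ} {c : Φ.F} {i : ι} {A : E3 ≃ᵃ[ℝ] E3} {lam : ℝ} {z : E3} {M : ℕ}

/-- a point of the tile with the heights of the vertex `v` except in the direction `a` -/
theorem exists_mid (hLa : IsOpen La) (h : Mbf_337.Exact Φ T f κ1 κ2 c i A lam z)
    (hG : Grid Φ T i A lam z M) {v : E3} (hv : v ∈ P (T.H i)) (h0 : T.dim v = 0) {a : Φ.F}
    (hav : 0 < sb Φ (th A lam z v) a) {u : Φ.F → ℝ} (hu : u ∈ K (Pc Φ.F))
    (hua : ∀ e, e ≠ a → u e = sb Φ (th A lam z v) e) {n : ℕ} (h1 : (n : ℝ) < M * u a)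
    (h2 : M * u a < (n + 1 : ℕ)) :
    ∃ x ∈ P (T.H i), T.dim x = 1 ∧ (∀ e, e ≠ a → Ecm_446.U Φ A lam z M x e = Ecm_446.U Φ A lam z M v e) ∧
      (n : ℝ) < Ecm_446.U Φ A lam z M x a ∧ Ecm_446.U Φ A lam z M x a < (n + 1 : ℕ) := by
  have F := foamΦ hLa Φ
  have G := cg_of_grid hLa h hG
  obtain ⟨hM, hg⟩ := hG
  have hac : a ≠ c := by
    rintro rfl
    have h5 : sb Φ (th A lam z v) a = 0 := (F.sc_eq_zero (th_La h hv)).2 ((th_mem h).1 hv)
    rw [h5] at hav
    exact lt_irrefl _ hav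
  have huc : u c = 0 := by
    rw [hua c hac.symm]
    exact (F.sc_eq_zero (th_La h hv)).2 ((th_mem h).1 hv)
  obtain ⟨y, hy, hys⟩ := exists_pt hLa h hu huc
  have hvI : v ∉ I (T.H i) := not_I_of_dim hv (by omega)
  obtain ⟨e, hec, hev⟩ := (Leaf_965.not_mem_I_iff h hLa hv).1 hvI
  have hea : e ≠ a := by
    rintro rfl
    have h5 : sb Φ (th A lam z v) e = 0 := (F.sc_eq_zero (th_La h hv)).2 hev
    rw [h5] at hav
    exact lt_irrefl _ hav
  have hyI : y ∉ I (T.H i) := by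
    refine (Leaf_965.not_mem_I_iff h hLa hy).2 ⟨e, hec, (F.sc_eq_zero (th_La h hy)).1 ?_⟩
    have h5 : sb Φ (th A lam z y) e = 0 := by
      rw [hys e, hua e hea]
      exact (F.sc_eq_zero (th_La h hv)).2 hev
    exact h5
  refine ⟨y, hy, ?_, ?_, ?_, ?_⟩
  · rw [(hg y hy hyI).2]
    have hset : {a : Φ.F | ⌊(M : ℝ) * sb Φ (th A lam z y) a⌋₊ < ⌈(M : ℝ) * sb Φ (th A lam z y) a⌉₊} = {a} := by
      ext e
      simp only [mem_ofPred_eq, mem_singleton_iff]
      by_cases hea : e = a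
      · subst hea
        rw [hys e]
        obtain ⟨e1, e2⟩ := flo_mid h1 h2
        rw [e1, e2]
        exact ⟨fun _ => rfl, fun _ => Nat.lt_succ_self n⟩
      · rw [hys e, hua e hea]
        have h5 := G.vtx hv h0 e
        obtain ⟨e1, e2⟩ := flo_nat h5
        unfold Ecm_446.U at e1 e2
        rw [e1, e2]
        exact ⟨fun h => absurd h (lt_irrefl _), fun h => absurd h hea⟩
    rw [hset, ncard_singleton]
  · intro e he
    unfold Ecm_446.U
    rw [hys e, hua e he]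
  · unfold Ecm_446.U
    rw [hys a]; exact h1
  · unfold Ecm_446.U
    rw [hys a]; exact h2

/-- **one step down and up** -/
theorem stp_of_grid (hLa : IsOpen La) (h : Mbf_337.Exact Φ T f κ1 κ2 c i A lam z)
    (hG : Grid Φ T i A lam z M) : Stp T i (Ecm_446.U Φ A lam z M) M := by
  have F := foamΦ hLa Φ
  have hM := hG.1
  have hM' : (0 : ℝ) < M := by exact_mod_cast hM
  constructor
  · intro v hv h0 a n hu hn
    have hu' : (M : ℝ) * sb Φ (th A lam z v) a = (n + 1 : ℕ) := hu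
    have hK : sb Φ (th A lam z v) ∈ K (Pc Φ.F) := F.sc_mem_K (th_La h hv)
    have hn1 : (0 : ℝ) < (n + 1 : ℕ) := by positivity
    have ha0 : 0 < sb Φ (th A lam z v) a := by
      by_contra hcon
      rw [not_lt] at hcon
      nlinarith
    have hnM : ((n + 1 : ℕ) : ℝ) < M := by exact_mod_cast hn
    have ha1 : sb Φ (th A lam z v) a < 1 := by
      by_contra hcon
      rw [not_lt] at hcon
      nlinarith
    set r : ℝ := ((n : ℝ) + 1 / 2) / (n + 1 : ℕ) with hr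
    have hr0 : 0 ≤ r := by positivity
    have hr1 : r ≤ 1 := by
      rw [hr, div_le_one hn1]; push_cast; linarith
    have hrn : (M : ℝ) * (r * sb Φ (th A lam z v) a) = n + 1 / 2 := by
      rw [mul_left_comm, hu', hr]
      field_simp
    refine exists_mid hLa h hG hv h0 ha0 (scl_mem_K (D := {a}) hr0 hr1 hK ?_) ?_ ?_ ?_
    · rintro e rfl; exact ha1
    · intro e he
      exact scl_not he
    · rw [scl_mem (mem_singleton a), hrn]; linarith
    · rw [scl_mem (mem_singleton a), hrn]; push_cast; linarith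
  · intro v hv h0 a n hn0 hu hn
    have hu' : (M : ℝ) * sb Φ (th A lam z v) a = n := hu
    have hK : sb Φ (th A lam z v) ∈ K (Pc Φ.F) := F.sc_mem_K (th_La h hv)
    have hn1 : (0 : ℝ) < n := by exact_mod_cast hn0
    have ha0 : 0 < sb Φ (th A lam z v) a := by
      by_contra hcon
      rw [not_lt] at hcon
      nlinarith
    have hnM : (n : ℝ) + 1 ≤ M := by exact_mod_cast hn
    set r : ℝ := ((n : ℝ) + 1 / 2) / M with hr
    have hrn : (M : ℝ) * r = n + 1 / 2 := by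
      rw [hr]; field_simp
    refine exists_mid hLa h hG hv h0 ha0 (raise_mem_K hK ha0 (r := r) ?_ ?_) ?_ ?_ ?_
    · rw [hr, le_div_iff₀ hM', mul_comm, hu']; linarith
    · rw [hr, div_le_one hM']; linarith
    · intro e he
      unfold Function.update
      rw [dif_neg he]
    · unfold Function.update
      rw [dif_pos rfl, hrn]; linarith
    · unfold Function.update
      rw [dif_pos rfl, hrn]; push_cast; linarith

/-- **words** -/
theorem same_of_words {X : Set Φ.F} {ct : Φ.F → ι} {A : Φ.F → E3 ≃ᵃ[ℝ] E3} {lam : Φ.F → ℝ}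
    {z : Φ.F → E3} {M : Φ.F → ℕ} {L : Φ.F → Finset ℝ} (W : Words Φ T f X ct A lam z M L) {c : Φ.F}
    (hc : c ∈ X) (hM : 0 < M c) {J : Type} {fam : J → Φ.F} {t : J → ℝ} (ht : ∀ j, t j ∈ L (fam j)) :
    Same T (ct c) (Ecm_446.U Φ (A c) (lam c) (z c) (M c)) fam (fun j => M c * t j)
      (fun j => {y | Φ.lev (fam j) (f y) = t j}) := by
  have hM' : (0 : ℝ) < M c := by exact_mod_cast hM
  intro x hx h1 j hs y hy hyj
  obtain ⟨a, b, -, e, -⟩ := T.edge_eq (T.sub _ hx) h1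
  obtain ⟨da, db, ha, hb, -⟩ := T.dim_ends (T.sub _ hx) h1 e
  obtain ⟨-, -, -, -, -, h3⟩ := W.word c hc x hx h1 (fam j) (t j) (ht j) a b e
  refine h3 ?_ y hy hyj
  rcases hs with hs | hs
  · have g1 := hs a ha da
    have g2 := hs b hb db
    unfold Ecm_446.U at g1 g2
    rw [mul_lt_mul_iff_right₀ hM'] at g1 g2
    rintro (⟨-, h5⟩ | ⟨-, h5⟩)
    · exact lt_asymm g2 h5
    · exact lt_asymm g1 h5
  · have g1 := hs a ha da
    have g2 := hs b hb db
    unfold Ecm_446.U at g1 g2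
    rw [mul_le_mul_iff_right₀ hM'] at g1 g2
    rintro (⟨h4, -⟩ | ⟨h4, -⟩)
    · exact absurd h4 (not_lt.2 g1)
    · exact absurd h4 (not_lt.2 g2)

end Crest.Agent.R096.Hl_955
end

-- ▼ part R096/Hl3_955

/-!
# R096 (row 96), BASE-R, leaf (d) of 446 (helper955), part 3: the labels at the vertices outside the
interiors of the cores with `va a` near `0` or near `1` (441's ropes), and the labels on the boundary
of an exact core, for ANY labelled mesh
-/

set_option autoImplicit false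
set_option linter.unusedSectionVars false
set_option linter.unusedVariables false
set_option linter.style.longLine false

open Set Relation

namespace Crest.Agent.R096.Hl_955

open Crest.Agent.R096.Brk1_582 Crest.Agent.R096.Brk2_582 Crest.Agent.R096.Init_543
  Crest.Agent.R096.Vb_965 Crest.Agent.R096.Ce_537 Crest.Agent.R096.St_147 Crest.Agent.R096.Lm_117
  Crest.Agent.R096.Gl_422 Crest.Agent.R096.Seq_213 Crest.Agent.R096.Msh_715
  Crest.Agent.R096.Rop_441 Crest.Agent.R096.SkB_662 Crest.Agent.R096.Ecm_446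
  Crest.Agent.R096.Ac_117

variable {E V : Type} [NormedAddCommGroup E] [NormedSpace ℝ E] [FiniteDimensional ℝ E]
  [NormedAddCommGroup V] [NormedSpace ℝ V] [FiniteDimensional ℝ V]
variable {I ι : Type} {Om : Set E} {La : Set V} {P : I → Set V} {b : Set I → V}
  {R : V → V} {f : E → V} {g : V → E} {Kc : I → Set E} {T : Tiling Om ι} {Kor : Set ι}
variable {ι' Φ Q Kq J : Type} [PartialOrder Q] {dim : Q → ℕ} {M : MeshC ι' Φ E} {K : Q → Set E}
  {fam : J → I}
variable {s ε η0 η : ℝ} {L : LM M Q dim} {Qd : Quads ι' I Kq} {No : Set ι'}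
  {ti : ι' → ι} {tc : ι' → Q} {s₀ : GSt M fam}

/-- labels are constant along the ropes -/
theorem lam_fr0 {a : I} {v v' : Q} (h : ReflTransGen (Ed L (Fr0 L Qd s₀ a)) v v') {j : J}
    (hj : fam j = a) {lam : Q → ZMod 2} (hlam : GLab L (gp s₀ j) lam) : lam v = lam v' := by
  refine hlam.const ?_ h
  rintro e ⟨-, he⟩ he1 w hw hwe
  obtain ⟨h1, h2⟩ := mem_gp.1 hw
  exact he w h1 (by rw [h2, hj]) hwe

/-- a vertex outside the interiors of the cores is a vertex of a tile outside the cores -/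
theorem exists_no {Ω : Set E} (X : Cplx Ω Q dim K)
    (hE : Env T P b R f Kor s K L Qd No ti tc)
    (hk : ∀ q ∈ Kor, ∃ c, Msh_715.P (T.H q) ⊆ Kc c)
    (hdis : ∀ c c', c ≠ c' → Disjoint (Kc c) (Kc c')) {v : Q} (h0 : dim v = 0) {x : E}
    (hxv : x ∈ K v) (hx : x ∈ Om) (hxi : ∀ c, x ∉ interior (Kc c)) :
    ∃ q ∈ No, v ≤ tc q ∧ x ∈ K (tc q) := by
  obtain ⟨i, hi, hxi'⟩ := exists_out T hk hdis hx hxi
  obtain ⟨q, hq, rfl⟩ := hE.sur i hi
  have h1 : x ∈ K (tc q) := by rw [hE.set q hq]; exact hxi'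
  refine ⟨q, hq, X.opn_le ⟨hxv, fun j hj => ?_⟩ h1, h1⟩
  have := L.dim_lt j v hj
  omega

section ropes

variable {Ω : Set E} (X : Cplx Ω Q dim K)
  (hE : Env T P b R f Kor s K L Qd No ti tc)
  (hk : ∀ q ∈ Kor, ∃ c, Msh_715.P (T.H q) ⊆ Kc c)
  (H : Hm f g Om La) (F : Foam La P b 4) (hR : Ret La P R)
  {th : I → E → V} {tau : I → V → E} (hC : CorT Om P b R f Kc th tau η0)
  (hM : Mesh0 T P b R f Kor ε)
  (hV : Module.finrank ℝ V = 3) {θ : ℝ} (hθ0 : 0 ≤ θ) (h00 : 0 ≤ η0) (h01 : θ + η0 ≤ η)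
  (hε : 0 ≤ ε) (hs : ε + (η + η0) < s) (hs1 : s ≤ 1 / 2)
  (hL : LevOn P b R f s K L s₀ No tc)
include X hE hk H F hR hC hM hV hθ0 h00 h01 hε hs hs1 hL

/-- **LOW**: the label of `j` is 1 at the vertices with `va (fam j) ≤ θ` -/
theorem lam_low {j : J} {lam : Q → ZMod 2} (hlam : GLab L (gp s₀ j) lam) {v₀ : Q}
    (hv₀ : Deep Om La P b R f Kc tau η θ dim K No tc (fam j) v₀) (h1 : lam v₀ = 1) {v : Q}
    (h0 : dim v = 0) {x : E} (hxv : x ∈ K v) (hx : x ∈ Om) (hxi : ∀ c, x ∉ interior (Kc c))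
    (hva : va P b R f (fam j) x ≤ θ) : lam v = 1 := by
  obtain ⟨q, hq, hvq, hxq⟩ := exists_no X hE hk hC.disj h0 hxv hx hxi
  have h2 := zero_path X hE hk H F hR hC hM hV hθ0 h00 h01 hε hs hs1 hL hv₀
    (deep_of_zero H F hR hC hq hvq h0 hxq hx hxi hva)
  rw [← lam_fr0 h2 rfl hlam, h1]

/-- **HIGH**: the label of `j` is 0 at the vertices with `va (fam j) ≥ 1 - θ` -/
theorem lam_high (hLa : IsPreconnected La) {j : J}
    (hS : ∀ c, c ≠ fam j → IsPreconnected (Lset La P b c 0 \ P (fam j)))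
    {lam : Q → ZMod 2} (hlam : GLab L (gp s₀ j) lam) {v₁ : Q} (h1 : lam v₁ = 0)
    (hd1 : dim v₁ = 0) {i : ι'} (hi : i ∈ No) (hv₁ : v₁ ≤ tc i) {x₁ : E} (hx₁ : x₁ ∈ K (tc i))
    (hxi₁ : ∀ c, x₁ ∉ interior (Kc c)) (hva₁ : 1 - θ ≤ va P b R f (fam j) x₁) {v : Q}
    (h0 : dim v = 0) {x : E} (hxv : x ∈ K v) (hx : x ∈ Om) (hxi : ∀ c, x ∉ interior (Kc c))
    (hva : 1 - θ ≤ va P b R f (fam j) x) : lam v = 0 := by
  obtain ⟨q, hq, hvq, hxq⟩ := exists_no X hE hk hC.disj h0 hxv hx hxi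
  have hO : x₁ ∈ Om := by
    rw [hE.set i hi] at hx₁; exact T.sub _ hx₁
  have h2 := far_path X hE hk H F hR hC hM hV hθ0 h00 h01 hε hs hs1 hLa hS hL hO hva₁ hx hva hxi
    hi hv₁ hd1 (Or.inl ⟨hxi₁, hx₁⟩) hq hvq h0 hxq
  rw [← lam_fr0 h2 rfl hlam, h1]


end ropes

end Crest.Agent.R096.Hl_955
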