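import Crest.Agent.R096.Fil3_313
import Crest.Agent.R096.Tmap2_212
import Crest.Agent.R096.Ttr1_565
import Crest.Agent.R096.Br6_695
import Crest.Agent.R096.Fns4_360
import Crest.Agent.R096.Msb2_432

-- ▼ part R096/Cov1_58
section

/-!
# Row 96 (S0127), leaf [COVER] (753 #11141), helper58: a homeomorphism which is `r`-close to an affine
map on a cube covers the smaller parallelepiped and has no intruders there, `r ≤ κ τ s`
-/

set_option autoImplicit false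

open Set Metric Filter Topology

namespace Crest.Agent.R096.Cov_58

open Crest.AnalysisR.VecCalc3 Crest.AnalysisR.Sobolev
open Crest.Agent.R096.Fil_313
open Crest.Agent.R96.Intr_538 Crest.Agent.R96.Coarse_538

variable {Om La : Set R3} {f : R3 → R3} {κ τ s r : ℝ} {z b : R3} {L : R3 →L[ℝ] R3}

/-- covering of a slightly smaller parallelepiped -/
theorem cover_q (hf : IsHomeomorphOn f Om La) (hLa : IsOpen La) (hκ : 0 < κ)
    (low : ∀ v, κ * ‖v‖ ≤ ‖L v‖) (hs : 0 < s) (hτ : 0 < τ) (hτ4 : 4 * τ ≤ 1)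
    (hsub : cel Cb z ((1 - τ) * s) ⊆ Om)
    (hc : ∀ x ∈ cel Cb z ((1 - τ) * s), ‖f x - (b + L (x - z))‖ ≤ r) (hr : r ≤ κ * τ * s)
    {q : ℝ} (hq : τ * s ≤ q) (hq' : q < (1 - 2 * τ) * s) :
    par Cb L b q ⊆ f '' interior (cel Cb z ((1 - τ) * s)) := by
  obtain ⟨_, _, _, _, _, hcont, _⟩ := id hf
  have hR : 0 < (1 - τ) * s := mul_pos (by linarith) hs
  have hq0 : 0 < q := (mul_pos hτ hs).trans_le hq
  have hK : IsCompact (cel Cb z ((1 - τ) * s)) := isCompact_cel ref_Cb.cpt _ _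
  have hopen : IsOpen (f '' interior (cel Cb z ((1 - τ) * s))) :=
    Osc_802.isOpen_image hf hLa isOpen_interior (interior_subset.trans hsub)
  have hdis : ∀ x ∈ cel Cb z ((1 - τ) * s), x ∉ interior (cel Cb z ((1 - τ) * s)) →
      f x ∉ par Cb L b q := by
    intro x hx hxi hfx
    obtain ⟨i, hi⟩ := not_mem_interior_cel hR hxi
    have h1 := far_of_bd hκ low hq0 hi hfx
    have h2 := hc x hx
    rw [norm_sub_rev] at h2
    have h3 : κ * ((1 - τ) * s - q) ≤ κ * (τ * s) := by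
      calc κ * ((1 - τ) * s - q) ≤ r := h1.trans h2
        _ ≤ κ * (τ * s) := by rw [← mul_assoc]; exact hr
    have h4 := le_of_mul_le_mul_left h3 hκ
    linarith
  have hz : z ∈ interior (cel Cb z ((1 - τ) * s)) := by
    by_contra hcon
    obtain ⟨i, hi⟩ := not_mem_interior_cel hR hcon
    simp only [sub_self, abs_zero] at hi
    linarith
  refine Core_124.covers hK (hcont.mono hsub) hopen (convex_par L b _).isPreconnected hdis
    ⟨f z, ?_, mem_image_of_mem f hz⟩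
  refine mem_par_of_near hκ low hq0 ?_
  have h1 := hc z (interior_subset hz)
  rw [sub_self, map_zero, add_zero] at h1
  calc ‖f z - b‖ ≤ κ * τ * s := h1.trans hr
    _ = κ * (τ * s) := by ring
    _ ≤ κ * q := mul_le_mul_of_nonneg_left hq hκ.le

/-- **[COVER]** -/
theorem cover (hf : IsHomeomorphOn f Om La) (hLa : IsOpen La) (hκ : 0 < κ)
    (low : ∀ v, κ * ‖v‖ ≤ ‖L v‖) (hs : 0 < s) (hτ : 0 < τ) (hτ4 : 4 * τ ≤ 1)
    (hsub : cel Cb z ((1 - τ) * s) ⊆ Om)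
    (hc : ∀ x ∈ cel Cb z ((1 - τ) * s), ‖f x - (b + L (x - z))‖ ≤ r) (hr : r ≤ κ * τ * s) :
    par Cb L b ((1 - 2 * τ) * s) ⊆ f '' cel Cb z ((1 - τ) * s) ∧
      ∀ x ∈ Om, f x ∈ par Cb L b ((1 - 2 * τ) * s) → x ∈ cel Cb z ((1 - τ) * s) := by
  have hf0 := hf
  obtain ⟨fi, _, _, hgf, _, hcont, _⟩ := hf0
  have hK : IsCompact (cel Cb z ((1 - τ) * s)) := isCompact_cel ref_Cb.cpt _ _
  have hcl : IsClosed (f '' cel Cb z ((1 - τ) * s)) :=
    (hK.image_of_continuousOn (hcont.mono hsub)).isClosed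
  have hτs : 0 < τ * s := mul_pos hτ hs
  have h12 : 0 < (1 - 2 * τ) * s := mul_pos (by linarith) hs
  have h2 : 2 * (τ * s) ≤ (1 - 2 * τ) * s := by nlinarith
  have key : par Cb L b ((1 - 2 * τ) * s) ⊆ f '' cel Cb z ((1 - τ) * s) := by
    rintro _ ⟨u, hu, rfl⟩
    let S : Set ℝ := {θ : ℝ | b + (θ * ((1 - 2 * τ) * s)) • L u ∈ f '' cel Cb z ((1 - τ) * s)}
    have hS : IsClosed S := hcl.preimage (f := fun θ : ℝ => b + (θ * ((1 - 2 * τ) * s)) • L u)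
      (by fun_prop)
    have hsubS : Ico (1/2 : ℝ) 1 ⊆ S := by
      intro θ hθ
      have e1 : τ * s ≤ θ * ((1 - 2 * τ) * s) := by
        have := mul_le_mul_of_nonneg_right hθ.1 h12.le
        linarith
      have e2 : θ * ((1 - 2 * τ) * s) < (1 - 2 * τ) * s := by
        have := mul_lt_mul_of_pos_right hθ.2 h12
        linarith
      exact image_mono interior_subset
        (cover_q hf hLa hκ low hs hτ hτ4 hsub hc hr e1 e2 ⟨u, hu, rfl⟩)
    have h1 : (1 : ℝ) ∈ closure (Ico (1/2 : ℝ) 1) := by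
      rw [closure_Ico (by norm_num)]
      exact ⟨by norm_num, le_rfl⟩
    have h3 : (1 : ℝ) ∈ S := closure_minimal hsubS hS h1
    have h4 : b + ((1:ℝ) * ((1 - 2 * τ) * s)) • L u ∈ f '' cel Cb z ((1 - τ) * s) := h3
    rw [one_mul] at h4
    exact h4
  refine ⟨key, fun x hx hfx => ?_⟩
  obtain ⟨w, hw, hwx⟩ := key hfx
  have : w = x := by rw [← hgf w (hsub hw), hwx, hgf x hx]
  rw [← this]
  exact hw

end Crest.Agent.R096.Cov_58
end

-- ▼ part R096/Ins1_685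
section

/-!
Row 96 (S0127), p ≤ 2, helper685.  **[INS]**: the data `InP` of a block of `PreIN p` (in `R3`) are the data
`InS` of `EA0 p` (in `E3`).  Part 1: algebra of an affine map `A` near the affine map of the good cube,
and the clauses `gam`, `tra`.
-/

set_option autoImplicit false
set_option linter.style.longLine false
set_option linter.unusedSectionVars false

open MeasureTheory Set Filter Topology Metric
open scoped ENNReal NNReal

namespace Crest.Agent.R096.Ins_685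

open Crest.AnalysisR.VecCalc3 Crest.AnalysisR.Sobolev
open Crest.Agent.R096.Bsp_628 Crest.Agent.R096.Brk1_582 Crest.Agent.R096.Brk3_582
open Crest.Agent.R096.Msh_715 Crest.Agent.R096.Mal_874
open Crest.Agent.R096.Sk_962 (SH)
open Crest.Agent.R096.SkC1_961 (E3 Hom3)
open Crest.Agent.R096.Er_594 (e3 D3 norm_P3_symm_le norm_P3_le norm_le_P3 norm_le_P3_symm vol_P3)
open Crest.Agent.R096.EaX_766 (cbx lin)
open Crest.Agent.R096.Br_695 (lin_apply det_le)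
open Crest.Agent.R96.Lu_538 (Gmat)
open Crest.Agent.R96.Intr_538 (cel par)
open Crest.Agent.R96.Coarse_538 (vt Cb)
open Crest.Agent.R96.En10_199 (P3)
open Crest.Agent.R096.Tmap_212 (mp)
open Crest.Agent.R096.Ttr_565 (InP4 T4)

noncomputable section

/-- `L` seen in `E3` -/
def L3 (L : R3 →L[ℝ] R3) : E3 →L[ℝ] E3 :=
  (P3.symm : R3 →L[ℝ] E3).comp (L.comp (P3 : E3 →L[ℝ] R3))

theorem L3_apply (L : R3 →L[ℝ] R3) (v : E3) : L3 L v = P3.symm (L (P3 v)) := rfl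

theorem D3_eq_L3 (G : Fin 3 → R3 → R3) (x : E3) : D3 G x = L3 (Gmat G (P3 x)) := rfl

theorem det_L3 (L : R3 →L[ℝ] R3) : (L3 L).det = L.det :=
  Crest.Agent.R096.Er_594.det_conj' P3.toLinearEquiv (L : R3 →ₗ[ℝ] R3)

theorem norm_L3 (L : R3 →L[ℝ] R3) : ‖L3 L‖ ≤ 2 * ‖L‖ := by
  refine ContinuousLinearMap.opNorm_le_bound _ (by positivity) fun v => ?_
  rw [L3_apply]
  calc ‖P3.symm (L (P3 v))‖ ≤ ‖L (P3 v)‖ := norm_P3_symm_le _
    _ ≤ ‖L‖ * ‖P3 v‖ := L.le_opNorm _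
    _ ≤ ‖L‖ * (2 * ‖v‖) := by gcongr; exact norm_P3_le v
    _ = 2 * ‖L‖ * ‖v‖ := by ring

section lin

variable {L : R3 →L[ℝ] R3} {κ kl : ℝ} {A : E3 ≃ᵃ[ℝ] E3}

theorem low_L3 (low : ∀ v, κ * ‖v‖ ≤ ‖L v‖) (hκ : 0 < κ) (v : E3) : κ / 2 * ‖v‖ ≤ ‖L3 L v‖ := by
  have h1 := low (P3 v)
  have h2 := norm_le_P3_symm (L (P3 v))
  have h3 := norm_le_P3 v
  rw [L3_apply]
  nlinarith

/-- **the linear part of `A` is bounded below** -/
theorem low_lin (hκ : 0 < κ) (low : ∀ v, κ * ‖v‖ ≤ ‖L v‖) (hkl : kl ≤ κ / 8)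
    (hl : ∀ v, ‖lin A v - L3 L v‖ ≤ kl * ‖v‖) (v : E3) : κ / 4 * ‖v‖ ≤ ‖lin A v‖ := by
  have h1 := low_L3 low hκ v
  have h2 := hl v
  have h3 : kl * ‖v‖ ≤ κ / 8 * ‖v‖ := mul_le_mul_of_nonneg_right hkl (norm_nonneg _)
  have h4 : ‖L3 L v‖ ≤ ‖lin A v‖ + ‖lin A v - L3 L v‖ := by
    have : L3 L v = lin A v - (lin A v - L3 L v) := by abel
    calc ‖L3 L v‖ = ‖lin A v - (lin A v - L3 L v)‖ := by rw [← this]
      _ ≤ _ := norm_sub_le _ _
  have h5 := norm_nonneg v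
  nlinarith

theorem kap_le (low : ∀ v, κ * ‖v‖ ≤ ‖L v‖) : κ ≤ ‖L‖ := by
  have h1 := low (EuclideanSpace.single 0 1)
  have h2 := L.le_opNorm (EuclideanSpace.single 0 1)
  have h3 : ‖(EuclideanSpace.single (0 : Fin 3) (1 : ℝ) : R3)‖ = 1 := by simp
  rw [h3, mul_one] at h1 h2
  exact h1.trans h2

theorem norm_lin_le (hκ : 0 < κ) (low : ∀ v, κ * ‖v‖ ≤ ‖L v‖) (hkl : kl ≤ κ / 8)
    (hl : ∀ v, ‖lin A v - L3 L v‖ ≤ kl * ‖v‖) : ‖lin A‖ ≤ 3 * ‖L‖ := by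
  have h0 := kap_le low
  refine ContinuousLinearMap.opNorm_le_bound _ (by positivity) fun v => ?_
  have h1 := (L3 L).le_opNorm v
  have h2 : ‖L3 L‖ * ‖v‖ ≤ 2 * ‖L‖ * ‖v‖ := mul_le_mul_of_nonneg_right (norm_L3 L) (norm_nonneg _)
  have h3 : kl * ‖v‖ ≤ κ / 8 * ‖v‖ := mul_le_mul_of_nonneg_right hkl (norm_nonneg _)
  have h4 : ‖lin A v‖ ≤ ‖lin A v - L3 L v‖ + ‖L3 L v‖ := norm_le_norm_sub_add _ _
  have h5 := hl v
  have h6 := norm_nonneg v
  have h7 : κ / 8 * ‖v‖ ≤ ‖L‖ * ‖v‖ := mul_le_mul_of_nonneg_right (by linarith) h6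
  linarith

theorem lin_le_L (hκ : 0 < κ) (low : ∀ v, κ * ‖v‖ ≤ ‖L v‖) (hkl : kl ≤ κ / 8)
    (hl : ∀ v, ‖lin A v - L3 L v‖ ≤ kl * ‖v‖) (v : E3) : ‖lin A v‖ ≤ 2 * ‖L (P3 v)‖ := by
  have h1 := low (P3 v)
  have h2 : ‖L3 L v‖ ≤ ‖L (P3 v)‖ := norm_P3_symm_le _
  have h3 : kl * ‖v‖ ≤ κ / 8 * ‖v‖ := mul_le_mul_of_nonneg_right hkl (norm_nonneg _)
  have h4 : ‖lin A v‖ ≤ ‖lin A v - L3 L v‖ + ‖L3 L v‖ := norm_le_norm_sub_add _ _
  have h5 := hl v
  have h6 := norm_le_P3 v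
  have h7 : κ / 8 * ‖v‖ ≤ κ * ‖P3 v‖ := by
    have : κ / 8 * ‖v‖ ≤ κ / 8 * ‖P3 v‖ := mul_le_mul_of_nonneg_left h6 (by positivity)
    have := norm_nonneg (P3 v)
    nlinarith
  linarith

/-- `lin A⁻¹` -/
theorem lin_symm_apply (A : E3 ≃ᵃ[ℝ] E3) (v : E3) : lin A (lin A.symm v) = v := by
  have h1 := lin_apply A.symm v 0
  rw [sub_zero] at h1
  rw [h1, lin_apply, A.apply_symm_apply, A.apply_symm_apply, sub_zero]

theorem det_L_le (hκ : 0 < κ) (low : ∀ v, κ * ‖v‖ ≤ ‖L v‖) (hkl : kl ≤ κ / 8)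
    (hl : ∀ v, ‖lin A v - L3 L v‖ ≤ kl * ‖v‖) : |L.det| ≤ 27 / 8 * |(lin A).det| := by
  set S : E3 →L[ℝ] E3 := (L3 L).comp (lin A.symm) with hS
  have hS1 : ‖S‖ ≤ 3 / 2 := by
    refine ContinuousLinearMap.opNorm_le_bound _ (by positivity) fun v => ?_
    set u := lin A.symm v with hu
    have h1 : lin A u = v := lin_symm_apply A v
    have h2 := low_lin hκ low hkl hl u
    rw [h1] at h2
    have h3 := hl u
    rw [h1] at h3
    have h4 : ‖S v‖ ≤ ‖v‖ + ‖v - L3 L u‖ := by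
      have : S v = v - (v - L3 L u) := by
        rw [sub_sub_cancel]; rfl
      rw [this]
      exact norm_sub_le _ _
    have h5 : kl * ‖u‖ ≤ κ / 8 * ‖u‖ := mul_le_mul_of_nonneg_right hkl (norm_nonneg _)
    linarith
  have h1 : S.comp (lin A) = L3 L := by
    ext1 v
    show L3 L (lin A.symm (lin A v)) = L3 L v
    congr 1
    have := lin_apply A v 0
    rw [sub_zero] at this
    rw [this, lin_apply, A.symm_apply_apply, A.symm_apply_apply, sub_zero]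
  have h2 : (L3 L).det = S.det * (lin A).det := by
    rw [← h1]
    exact LinearMap.det_comp _ _
  rw [← det_L3, h2, abs_mul]
  refine mul_le_mul_of_nonneg_right ?_ (abs_nonneg _)
  refine (det_le (by norm_num) hS1).trans (by norm_num)

theorem det_lin_pos (A : E3 ≃ᵃ[ℝ] E3) : 0 < |(lin A).det| := by
  rw [abs_pos]
  intro h
  have h1 : (lin A).comp (lin A.symm) = ContinuousLinearMap.id ℝ E3 := by
    ext1 v
    exact lin_symm_apply A v
  have h2 : (lin A).det * (lin A.symm).det = 1 := by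
    have h3 : ((lin A).comp (lin A.symm)).det = (lin A).det * (lin A.symm).det :=
      LinearMap.det_comp _ _
    rw [← h3, h1]
    exact LinearMap.det_id
  rw [h, zero_mul] at h2
  exact zero_ne_one h2

theorem det_L_pos (hκ : 0 < κ) (low : ∀ v, κ * ‖v‖ ≤ ‖L v‖) : 0 < |L.det| := by
  rw [abs_pos]
  intro h
  have h1 : LinearMap.ker (L : R3 →ₗ[ℝ] R3) = ⊥ := by
    rw [LinearMap.ker_eq_bot']
    intro v hv
    have h2 := low v
    have h3 : L v = 0 := hv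
    rw [h3, norm_zero] at h2
    have h4 : ‖v‖ = 0 := by
      have := norm_nonneg v
      nlinarith
    exact norm_eq_zero.1 h4
  have h2 : LinearMap.det (L : R3 →ₗ[ℝ] R3) = 0 := h
  exact absurd (LinearMap.bot_lt_ker_of_det_eq_zero h2) (by rw [h1]; exact lt_irrefl _)

/-- the prefactor of (2b) -/
theorem pref_le {p : ℝ} (hp : 0 ≤ p) (hp3 : p ≤ 3) (hκ : 0 < κ) (low : ∀ v, κ * ‖v‖ ≤ ‖L v‖)
    (hkl : kl ≤ κ / 8) (hl : ∀ v, ‖lin A v - L3 L v‖ ≤ kl * ‖v‖) :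
    ‖lin A‖ ^ p / |(lin A).det| ≤ 100 * (‖L‖ ^ p / |L.det|) := by
  have h1 := det_lin_pos A
  have h2 := det_L_pos hκ low
  have h3 := det_L_le hκ low hkl hl
  have h4 := norm_lin_le hκ low hkl hl
  have h5 : ‖lin A‖ ^ p ≤ 27 * ‖L‖ ^ p := by
    calc ‖lin A‖ ^ p ≤ (3 * ‖L‖) ^ p := Real.rpow_le_rpow (norm_nonneg _) h4 hp
      _ = 3 ^ p * ‖L‖ ^ p := Real.mul_rpow (by norm_num) (norm_nonneg _)
      _ ≤ 3 ^ (3 : ℝ) * ‖L‖ ^ p := by
          refine mul_le_mul_of_nonneg_right ?_ (by positivity)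
          exact Real.rpow_le_rpow_of_exponent_le (by norm_num) hp3
      _ = 27 * ‖L‖ ^ p := by
          congr 1
          norm_num
  have h6 : 0 ≤ ‖L‖ ^ p := by positivity
  rw [div_le_iff₀ h1]
  have h7 : 100 * (‖L‖ ^ p / |L.det|) * |(lin A).det| = 100 * ‖L‖ ^ p * (|(lin A).det| / |L.det|) := by
    ring
  have h8 : 8 / 27 ≤ |(lin A).det| / |L.det| := by
    rw [le_div_iff₀ h2]
    linarith
  rw [h7]
  nlinarith [mul_le_mul_of_nonneg_left h8 h6]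

end lin

end

end Crest.Agent.R096.Ins_685
end

-- ▼ part R096/Ins2_685
section

/-!
Row 96 (S0127), p ≤ 2, helper685.  **[INS]**, part 2: `InP` of a block of `PreIN p` ⟹ `InS` of `EA0 p`.
-/

set_option autoImplicit false
set_option linter.style.longLine false
set_option linter.unusedSectionVars false
set_option linter.unusedVariables false

open MeasureTheory Set Filter Topology Metric
open scoped ENNReal NNReal

namespace Crest.Agent.R096.Ins_685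

open Crest.AnalysisR.VecCalc3 Crest.AnalysisR.Sobolev
open Crest.Agent.R096.Bsp_628 Crest.Agent.R096.Brk1_582 Crest.Agent.R096.Brk3_582
open Crest.Agent.R096.Msh_715 Crest.Agent.R096.Mal_874
open Crest.Agent.R096.Sk_962 (SH)
open Crest.Agent.R096.SkC1_961 (E3 Hom3)
open Crest.Agent.R096.Er_594 (e3 D3 norm_P3_symm_le norm_P3_le norm_le_P3 norm_le_P3_symm vol_P3)
open Crest.Agent.R096.EaX_766 (cbx lin)
open Crest.Agent.R096.Br_695 (lin_apply det_le)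
open Crest.Agent.R96.Lu_538 (Gmat)
open Crest.Agent.R96.Intr_538 (cel par)
open Crest.Agent.R96.Coarse_538 (vt Cb)
open Crest.Agent.R96.En10_199 (P3)
open Crest.Agent.R096.Tmap_212 (mp)
open Crest.Agent.R096.Ttr_565 (InP4 T4)
open Crest.Agent.R096.Pin_753 (Bk InP)
open Crest.Agent.R096.Ea0_961 (InS)

noncomputable section

variable {p : ℝ} {f : R3 → R3} {G : Fin 3 → R3 → R3} {C1 κw s κ ka kl κw' : ℝ} {b z : R3}
  {L : R3 →L[ℝ] R3} {er : ℝ≥0∞} {A : E3 ≃ᵃ[ℝ] E3}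

theorem preT4 (Q : CB E3 3) (k0 : ℕ) : P3 ⁻¹' T4 (mp P3 Q) k0 = Ea0_961.Tw Q k0 := by
  ext w
  show (∀ l, 0 ≤ Q.ψ (P3.symm (P3 w)) l ∧ Q.ψ (P3.symm (P3 w)) l ≤ 1 / (10 * 2 ^ k0)) ↔ _
  rw [P3.symm_apply_apply]
  rfl

theorem cc_sub_Kc (Q : CB E3 3) {k0 : ℕ} (hk : Q.kc ≤ k0) {x y : E3} (hx : x ∈ Q.Kc)
    (hy : y ∈ (Q.T k0 hk).cc x) : y ∈ Q.Kc := by
  rw [← Q.P_core k0 hk] at hx ⊢
  exact fun h hh => (hy (Q.cix k0 hk) hx h hh).1

theorem vol_shell_mp (Q : CB E3 3) : volume ((mp P3 Q).N \ (mp P3 Q).Kc) = volume (Q.N \ Q.Kc) := by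
  rw [← vol_P3, preimage_sdiff, Tmap_212.pre_N_mp, Tmap_212.pre_Kc_mp]

/-- the term of (2b) at one edge -/
theorem term_le (hp : 0 ≤ p) (hp3 : p ≤ 3) (hκ : 0 < κ) (low : ∀ v, κ * ‖v‖ ≤ ‖L v‖)
    (hkl : kl ≤ κ / 8) (hl : ∀ v, ‖lin A v - L3 L v‖ ≤ kl * ‖v‖) (u v w : E3) :
    ENNReal.ofReal (‖lin A (v - u)‖ ^ (3 - p)) *
      (∫⁻ τ in Icc (0:ℝ) 1, ‖D3 G (u + w + τ • (v - u)) (v - u)‖ₑ ^ p) ≤
    8 * (ENNReal.ofReal (‖L (P3 v - P3 u)‖ ^ (3 - p)) *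
      (∫⁻ τ in Icc (0:ℝ) 1, ‖Gmat G (P3 u + P3 w + τ • (P3 v - P3 u)) (P3 v - P3 u)‖ₑ ^ p)) := by
  rw [← mul_assoc]
  refine mul_le_mul' ?_ (lintegral_mono fun τ => ENNReal.rpow_le_rpow ?_ hp)
  · have h8 : (8 : ℝ≥0∞) = ENNReal.ofReal 8 := by simp
    rw [h8, ← ENNReal.ofReal_mul (by norm_num)]
    apply ENNReal.ofReal_le_ofReal
    have h1 := lin_le_L hκ low hkl hl (v - u)
    rw [map_sub P3] at h1
    calc ‖lin A (v - u)‖ ^ (3 - p) ≤ (2 * ‖L (P3 v - P3 u)‖) ^ (3 - p) :=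
          Real.rpow_le_rpow (norm_nonneg _) h1 (by linarith)
      _ = 2 ^ (3 - p) * ‖L (P3 v - P3 u)‖ ^ (3 - p) := Real.mul_rpow (by norm_num) (norm_nonneg _)
      _ ≤ 2 ^ (3 : ℝ) * ‖L (P3 v - P3 u)‖ ^ (3 - p) := by
          refine mul_le_mul_of_nonneg_right ?_ (by positivity)
          exact Real.rpow_le_rpow_of_exponent_le (by norm_num) (by linarith)
      _ = _ := by
          congr 1
          norm_num
  · rw [D3_eq_L3, L3_apply, ← ofReal_norm, ← ofReal_norm]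
    apply ENNReal.ofReal_le_ofReal
    refine (norm_P3_symm_le _).trans (le_of_eq ?_)
    simp only [map_add, map_sub, map_smul]

/-- the integral of (2a) at one edge -/
theorem near_le (hκ : 0 < κ) (low : ∀ v, κ * ‖v‖ ≤ ‖L v‖)
    (hkl : kl ≤ κ / 8) (hl : ∀ v, ‖lin A v - L3 L v‖ ≤ kl * ‖v‖) (hkw : 0 ≤ κw)
    (hkl0 : 0 ≤ kl) (n2 : 2 * κw + kl ≤ κ / 4 * κw') (u v w : E3)
    (h : ∫⁻ τ in Icc (0:ℝ) 1, ‖Gmat G (P3 u + P3 w + τ • (P3 v - P3 u)) (P3 v - P3 u) -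
      L (P3 v - P3 u)‖ₑ ≤ ENNReal.ofReal (κw * ‖P3 v - P3 u‖)) :
    ∫⁻ τ in Icc (0:ℝ) 1, ‖D3 G (u + w + τ • (v - u)) (v - u) - lin A (v - u)‖ₑ ≤
      ENNReal.ofReal (κw' * ‖lin A (v - u)‖) := by
  have hpt : ∀ τ : ℝ, ‖D3 G (u + w + τ • (v - u)) (v - u) - lin A (v - u)‖ₑ ≤
      ‖Gmat G (P3 u + P3 w + τ • (P3 v - P3 u)) (P3 v - P3 u) - L (P3 v - P3 u)‖ₑ +
        ENNReal.ofReal (kl * ‖v - u‖) := by
    intro τ
    rw [← ofReal_norm, ← ofReal_norm, ← ENNReal.ofReal_add (norm_nonneg _) (by positivity)]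
    apply ENNReal.ofReal_le_ofReal
    have e1 : D3 G (u + w + τ • (v - u)) (v - u) - lin A (v - u) =
        P3.symm (Gmat G (P3 u + P3 w + τ • (P3 v - P3 u)) (P3 v - P3 u) - L (P3 v - P3 u)) -
          (lin A (v - u) - L3 L (v - u)) := by
      rw [D3_eq_L3, L3_apply, L3_apply, map_sub P3.symm]
      simp only [map_add, map_sub, map_smul]
      abel
    rw [e1]
    exact (norm_sub_le _ _).trans (add_le_add (norm_P3_symm_le _) (hl _))
  calc ∫⁻ τ in Icc (0:ℝ) 1, ‖D3 G (u + w + τ • (v - u)) (v - u) - lin A (v - u)‖ₑ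
      ≤ ∫⁻ τ in Icc (0:ℝ) 1, (‖Gmat G (P3 u + P3 w + τ • (P3 v - P3 u)) (P3 v - P3 u) -
          L (P3 v - P3 u)‖ₑ + ENNReal.ofReal (kl * ‖v - u‖)) := lintegral_mono hpt
    _ = (∫⁻ τ in Icc (0:ℝ) 1, ‖Gmat G (P3 u + P3 w + τ • (P3 v - P3 u)) (P3 v - P3 u) -
          L (P3 v - P3 u)‖ₑ) + ENNReal.ofReal (kl * ‖v - u‖) := by
        rw [lintegral_add_right _ measurable_const, setLIntegral_const, Real.volume_Icc]
        norm_num
    _ ≤ ENNReal.ofReal (κw * ‖P3 v - P3 u‖) + ENNReal.ofReal (kl * ‖v - u‖) := by gcongr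
    _ = ENNReal.ofReal (κw * ‖P3 v - P3 u‖ + kl * ‖v - u‖) := by
        rw [← ENNReal.ofReal_add (by positivity) (by positivity)]
    _ ≤ ENNReal.ofReal (κw' * ‖lin A (v - u)‖) := by
        apply ENNReal.ofReal_le_ofReal
        have h1 : ‖P3 v - P3 u‖ ≤ 2 * ‖v - u‖ := by
          rw [← map_sub]
          exact norm_P3_le _
        have h2 := low_lin hκ low hkl hl (v - u)
        have h3 : κw * ‖P3 v - P3 u‖ ≤ κw * (2 * ‖v - u‖) := mul_le_mul_of_nonneg_left h1 hkw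
        have h4 : (2 * κw + kl) * ‖v - u‖ ≤ κ / 4 * κw' * ‖v - u‖ :=
          mul_le_mul_of_nonneg_right n2 (norm_nonneg _)
        have hkw' : 0 ≤ κw' := by
          by_contra hc
          have : κ / 4 * κw' < 0 := mul_neg_of_pos_of_neg (by positivity) (not_le.1 hc)
          linarith
        have h5 : κw' * (κ / 4 * ‖v - u‖) ≤ κw' * ‖lin A (v - u)‖ :=
          mul_le_mul_of_nonneg_left h2 hkw'
        nlinarith

/-- **[INS], core**: the data in `R3` of the block `mp P3 Q` give the data in `E3` of `Q` -/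
theorem ins_core (hp : 0 ≤ p) (hp3 : p ≤ 3) {Om : Set R3} (Q : CB E3 3) {k0 : ℕ} (hk : Q.kc ≤ k0)
    (H : InP4 p f (Gmat G) C1 κw s b L z er (mp P3 Q) k0 hk)
    (hκ : 0 < κ) (low : ∀ v, κ * ‖v‖ ≤ ‖L v‖) (hkl0 : 0 ≤ kl) (hkl : kl ≤ κ / 8)
    (hl : ∀ v, ‖lin A v - L3 L v‖ ≤ kl * ‖v‖) (hkw : 0 ≤ κw)
    (hA : ∀ x ∈ closedBall (P3.symm z) s, ‖A x - P3.symm (Bk b L z (P3 x))‖ ≤ ka * s)
    (hN : ∀ y ∈ Q.Kc, ∀ w, ‖Q.ψ w‖ ≤ 1 / (10 * 2 ^ k0) → y + w ∈ closedBall (P3.symm z) s)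
    {Cc κ1 κ2 lam : ℝ} {M : ℕ} {c : Bx (Fin 3)} (hCc : 0 ≤ Cc)
    (n1 : (κw + ka) * s ≤ κw' * (lam * c.sz) / M) (n2 : 2 * κw + kl ≤ κ / 4 * κw')
    {t r : ℝ} (hts : t ≤ s) (hsub : closedBall (P3.symm z) t ⊆ P3 ⁻¹' Om)
    (hcl : ∀ x ∈ closedBall (P3.symm z) t, ‖e3 f x - P3.symm (Bk b L z (P3 x))‖ ≤ r)
    (hcor : ∀ x : E3, (x ∈ P3 ⁻¹' Om ∧ e3 f x ∈ cbx c lam) ∨ A x ∈ cbx c ((1 + 2 * κ2) * lam) →
      x ∈ closedBall (P3.symm z) t)
    (n3 : r + ka * s ≤ κ1 * (lam * c.sz)) :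
    InS p (P3 ⁻¹' Om) (e3 f) (D3 G) Cc κ1 κ2 κw' M c A lam
      (1000 * (ENNReal.ofReal (C1 * ‖L‖ ^ p) * volume (Q.N \ Q.Kc) + er)) Q k0 hk := by
  refine ⟨?_, ?_, ?_⟩
  · intro x hx
    have h1 := hcor x hx
    refine ⟨hsub h1, ?_⟩
    have h2 := hcl x h1
    have h3 := hA x (closedBall_subset_closedBall hts h1)
    have e1 : e3 f x - A x = (e3 f x - P3.symm (Bk b L z (P3 x))) -
        (A x - P3.symm (Bk b L z (P3 x))) := by abel
    rw [e1]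
    exact (norm_sub_le _ _).trans ((add_le_add h2 h3).trans n3)
  · intro x hx hd y hy w hw
    have hx' : P3 x ∈ (mp P3 Q).Kc := (Tmap_212.mem_Kc_mp' P3 Q).2 hx
    have hd' : ((mp P3 Q).T k0 hk).dim (P3 x) = 1 := by
      rw [Tmap_212.T_dim P3 Q k0 hk]; exact hd
    have hy' : P3 y ∈ ((mp P3 Q).T k0 hk).cc (P3 x) := by
      rw [Tmap_212.T_cc P3 Q k0 hk]; exact ⟨y, hy, rfl⟩
    have hw' : ‖(mp P3 Q).ψ (P3 w)‖ ≤ 1 / (10 * 2 ^ k0) := by
      rw [Tmap_212.mp_ψ, P3.symm_apply_apply]; exact hw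
    have h1 := H.gam (P3 x) hx' hd' (P3 y) hy' (P3 w) hw'
    have hyK : y ∈ Q.Kc := cc_sub_Kc Q hk hx hy
    have h3 := hA (y + w) (hN y hyK w hw)
    have e1 : e3 f (y + w) - A (y + w) =
        P3.symm (f (P3 y + P3 w) - Bk b L z (P3 y + P3 w)) -
        (A (y + w) - P3.symm (Bk b L z (P3 (y + w)))) := by
      rw [map_sub P3.symm, ← map_add P3]
      show P3.symm (f (P3 (y + w))) - _ = _
      abel
    rw [e1]
    refine (norm_sub_le _ _).trans (le_trans (add_le_add ((norm_P3_symm_le _).trans h1) h3) ?_)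
    linarith
  · obtain ⟨Gd, hG1, hG2⟩ := H.tra
    refine ⟨P3 ⁻¹' Gd, ?_, ?_⟩
    · rw [← preT4, ← preimage_sdiff, vol_P3, vol_P3]
      exact hG1
    · intro w hw hwT
      have hwT' : P3 w ∈ T4 (mp P3 Q) k0 := by
        rw [← preT4] at hwT; exact hwT
      obtain ⟨g1, g2⟩ := hG2 (P3 w) hw hwT'
      refine ⟨?_, ?_⟩
      · intro e he heK
        have he' : (P3 e.1, P3 e.2) ∈ Pin_753.Ed (mp P3 Q) k0 hk := by
          rw [Tmap_212.mem_Ed, P3.symm_apply_apply, P3.symm_apply_apply]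
          exact he
        have h1 := g1 _ he' ((Tmap_212.seg_Kc Q).2 heK)
        exact near_le hκ low hkl hl hkw hkl0 n2 e.1 e.2 w h1
      · have hpr := pref_le hp hp3 hκ low hkl hl
        have h1 : ∑' e : Ea0_961.Ed Q k0 hk, ENNReal.ofReal (‖lin A (e.1.2 - e.1.1)‖ ^ (3 - p)) *
            (∫⁻ τ in Icc (0:ℝ) 1, ‖D3 G (e.1.1 + w + τ • (e.1.2 - e.1.1)) (e.1.2 - e.1.1)‖ₑ ^ p) ≤
            8 * ∑' e : Pin_753.Ed (mp P3 Q) k0 hk,
              ENNReal.ofReal (‖L (e.1.2 - e.1.1)‖ ^ (3 - p)) *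
              (∫⁻ τ in Icc (0:ℝ) 1,
                ‖Gmat G (e.1.1 + P3 w + τ • (e.1.2 - e.1.1)) (e.1.2 - e.1.1)‖ₑ ^ p) := by
          rw [Tmap_212.tsum_Ed Q k0 hk (fun e => ENNReal.ofReal (‖L (e.2 - e.1)‖ ^ (3 - p)) *
              (∫⁻ τ in Icc (0:ℝ) 1,
                ‖Gmat G (e.1 + P3 w + τ • (e.2 - e.1)) (e.2 - e.1)‖ₑ ^ p)), ← ENNReal.tsum_mul_left]
          exact ENNReal.tsum_le_tsum fun e => term_le hp hp3 hκ low hkl hl _ _ _
        have h100 : ENNReal.ofReal (‖lin A‖ ^ p / |(lin A).det|) ≤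
            100 * ENNReal.ofReal (‖L‖ ^ p / |L.det|) := by
          have e8 : (100 : ℝ≥0∞) = ENNReal.ofReal 100 := by simp
          rw [e8, ← ENNReal.ofReal_mul (by norm_num)]
          exact ENNReal.ofReal_le_ofReal hpr
        have h2 := mul_le_mul' h100 h1
        refine h2.trans ?_
        calc 100 * ENNReal.ofReal (‖L‖ ^ p / |L.det|) * (8 * ∑' e : Pin_753.Ed (mp P3 Q) k0 hk,
              ENNReal.ofReal (‖L (e.1.2 - e.1.1)‖ ^ (3 - p)) *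
              (∫⁻ τ in Icc (0:ℝ) 1,
                ‖Gmat G (e.1.1 + P3 w + τ • (e.1.2 - e.1.1)) (e.1.2 - e.1.1)‖ₑ ^ p))
            = 800 * (ENNReal.ofReal (‖L‖ ^ p / |L.det|) * ∑' e : Pin_753.Ed (mp P3 Q) k0 hk,
              ENNReal.ofReal (‖L (e.1.2 - e.1.1)‖ ^ (3 - p)) *
              (∫⁻ τ in Icc (0:ℝ) 1,
                ‖Gmat G (e.1.1 + P3 w + τ • (e.1.2 - e.1.1)) (e.1.2 - e.1.1)‖ₑ ^ p)) := by ring
          _ ≤ 1000 * (ENNReal.ofReal (‖L‖ ^ p / |L.det|) * ∑' e : Pin_753.Ed (mp P3 Q) k0 hk,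
              ENNReal.ofReal (‖L (e.1.2 - e.1.1)‖ ^ (3 - p)) *
              (∫⁻ τ in Icc (0:ℝ) 1,
                ‖Gmat G (e.1.1 + P3 w + τ • (e.1.2 - e.1.1)) (e.1.2 - e.1.1)‖ₑ ^ p)) := by
              gcongr; norm_num
          _ ≤ 1000 * (ENNReal.ofReal (C1 * ‖L‖ ^ p) * volume ((mp P3 Q).N \ (mp P3 Q).Kc) + er) := by
              gcongr
          _ = 1000 * (ENNReal.ofReal (C1 * ‖L‖ ^ p) * volume (Q.N \ Q.Kc) + er) := by
              rw [vol_shell_mp]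
          _ ≤ _ := le_add_self

end

end Crest.Agent.R096.Ins_685
end

-- ▼ part R096/Ins3_685

/-!
Row 96 (S0127), p ≤ 2, helper685.  **[INS]**, part 3: `InP` of the block `mp P3 Q` of `PreIN p` at the position
`a` gives `InS` of `EA0 p` for the block at the (rational) position `P3.symm a + v`.
-/

set_option autoImplicit false
set_option linter.style.longLine false
set_option linter.unusedSectionVars false
set_option linter.unusedVariables false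

open MeasureTheory Set Filter Topology Metric
open scoped ENNReal NNReal

namespace Crest.Agent.R096.Ins_685

open Crest.AnalysisR.VecCalc3 Crest.AnalysisR.Sobolev
open Crest.Agent.R096.Bsp_628 Crest.Agent.R096.Brk1_582 Crest.Agent.R096.Brk3_582
open Crest.Agent.R096.Msh_715 Crest.Agent.R096.Mal_874
open Crest.Agent.R096.Sk_962 (SH)
open Crest.Agent.R096.SkC1_961 (E3 Hom3)
open Crest.Agent.R096.Er_594 (e3 D3 norm_P3_symm_le norm_P3_le norm_le_P3 norm_le_P3_symm vol_P3)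
open Crest.Agent.R096.EaX_766 (cbx lin)
open Crest.Agent.R096.Br_695 (lin_apply det_le cbx_mono)
open Crest.Agent.R96.Lu_538 (Gmat)
open Crest.Agent.R96.Intr_538 (cel par)
open Crest.Agent.R96.Coarse_538 (vt Cb)
open Crest.Agent.R96.En10_199 (P3)
open Crest.Agent.R096.Tmap_212 (mp)
open Crest.Agent.R096.Ttr_565 (InP4 T4)
open Crest.Agent.R096.Pin_753 (Bk InP BlkP)
open Crest.Agent.R096.Ea0_961 (InS)
open Crest.Agent.R096.Fil_313 (aff3 aff3_apply aff3_image cel_preimage)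
open Crest.Agent.R096.Fns_360 (trA trA_apply trA_linear trA_sub)

noncomputable section

variable {p : ℝ} {f : R3 → R3} {G : Fin 3 → R3 → R3} {C1 κw s κ ka kl κw' : ℝ} {b z : R3}
  {L : R3 →L[ℝ] R3} {er : ℝ≥0∞} {A : E3 ≃ᵃ[ℝ] E3}

theorem lin_trA (A : E3 ≃ᵃ[ℝ] E3) (v : E3) : lin (trA A v) = lin A := by
  unfold lin
  rw [trA_linear]

theorem lin_eq_linear (A : E3 ≃ᵃ[ℝ] E3) (v : E3) : lin A v = A.linear v := rfl

/-- `Bk` in `E3` -/
theorem Bk3 (hκ : 0 < κ) (low : ∀ v, κ * ‖v‖ ≤ ‖L v‖) (x : E3) :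
    P3.symm (Bk b L z (P3 x)) = aff3 L hκ low z b x := rfl

/-- the linear part of a map which is close to `Bk` on the cube -/
theorem lin_close (hs : 0 < s) (hκ : 0 < κ) (low : ∀ v, κ * ‖v‖ ≤ ‖L v‖)
    (hA : ∀ x ∈ closedBall (P3.symm z) s, ‖A x - P3.symm (Bk b L z (P3 x))‖ ≤ ka * s) (v : E3) :
    ‖lin A v - L3 L v‖ ≤ 2 * ka * ‖v‖ := by
  rcases eq_or_ne v 0 with rfl | hv
  · simp
  have hv0 : 0 < ‖v‖ := norm_pos_iff.2 hv
  set t : ℝ := s / ‖v‖ with ht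
  have ht0 : 0 < t := div_pos hs hv0
  set z3 : E3 := P3.symm z with hz3
  have h1 : z3 + t • v ∈ closedBall z3 s := by
    rw [mem_closedBall, dist_eq_norm, add_sub_cancel_left, norm_smul, Real.norm_eq_abs,
      abs_of_pos ht0, ht, div_mul_cancel₀ _ hv0.ne']
  have h2 := hA _ h1
  have h3 := hA z3 (mem_closedBall_self hs.le)
  have e1 : lin A (t • v) = A (z3 + t • v) - A z3 := by
    rw [← lin_apply, add_sub_cancel_left]
  have e2 : L3 L (t • v) = P3.symm (Bk b L z (P3 (z3 + t • v))) - P3.symm (Bk b L z (P3 z3)) := by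
    rw [L3_apply, ← map_sub P3.symm]
    congr 1
    unfold Bk
    rw [add_sub_add_left_eq_sub, ← map_sub L]
    congr 1
    rw [map_add]
    abel
  have h4 : ‖t • (lin A v - L3 L v)‖ ≤ 2 * ka * s := by
    rw [smul_sub, ← map_smul (lin A), ← map_smul (L3 L), e1, e2]
    have e3 : A (z3 + t • v) - A z3 -
        (P3.symm (Bk b L z (P3 (z3 + t • v))) - P3.symm (Bk b L z (P3 z3))) =
        (A (z3 + t • v) - P3.symm (Bk b L z (P3 (z3 + t • v)))) -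
        (A z3 - P3.symm (Bk b L z (P3 z3))) := by abel
    rw [e3]
    refine (norm_sub_le _ _).trans ?_
    linarith
  rw [norm_smul, Real.norm_eq_abs, abs_of_pos ht0, ht, div_mul_eq_mul_div, div_le_iff₀ hv0] at h4
  have h5 : s * ‖lin A v - L3 L v‖ ≤ s * (2 * ka * ‖v‖) := by linarith
  exact le_of_mul_le_mul_left h5 hs

/-- the translated affine map -/
theorem trA_close (hκ : 0 < κ) (low : ∀ v, κ * ‖v‖ ≤ ‖L v‖) (up : ‖L‖ ≤ κ⁻¹)
    (hs : 0 < s)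
    (hA : ∀ x ∈ closedBall (P3.symm z) s, ‖A x - P3.symm (Bk b L z (P3 x))‖ ≤ ka * s)
    (hka : ka ≤ κ / 16) {v : E3} {ρ : ℝ} (hv : ‖v‖ ≤ ρ * s) :
    ∀ x ∈ closedBall (P3.symm z) s,
      ‖trA A v x - P3.symm (Bk b L z (P3 x))‖ ≤ (ka + 3 * κ⁻¹ * ρ) * s := by
  intro x hx
  have h1 := hA x hx
  have h2 := norm_lin_le hκ low (by linarith) (lin_close hs hκ low hA)
  have h3 : ‖lin A v‖ ≤ 3 * κ⁻¹ * (ρ * s) := by
    calc ‖lin A v‖ ≤ ‖lin A‖ * ‖v‖ := (lin A).le_opNorm v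
      _ ≤ (3 * κ⁻¹) * (ρ * s) := by
          gcongr
          exact h2.trans (mul_le_mul_of_nonneg_left up (by norm_num))
  have e1 : trA A v x - P3.symm (Bk b L z (P3 x)) = (A x - P3.symm (Bk b L z (P3 x))) - lin A v := by
    rw [lin_eq_linear, ← trA_sub A v x]; abel
  rw [e1]
  refine (norm_sub_le _ _).trans ?_
  linarith

theorem inP4_of_eq {D : R3 → R3 →L[ℝ] R3} {Q Q' : CB R3 3} (h : Q = Q') {k0 : ℕ} {hk : Q.kc ≤ k0}
    {hk' : Q'.kc ≤ k0} (H : InP4 p f D C1 κw s b L z er Q k0 hk) :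
    InP4 p f D C1 κw s b L z er Q' k0 hk' := by
  subst h
  exact H

/-- **[INS]**: the data `InP` of the block `mp P3 Q` of `PreIN p` at the position `a` give the data `InS` of `EA0 p`
for the block `Q` at the position `P3.symm a + v`, `v` small against `2 ^ -k0` -/
theorem ins (hp : 0 ≤ p) (hp3 : p ≤ 3) {Om La : Set R3} (hf : IsHomeomorphOn f Om La)
    (hLa : IsOpen La) (hκ : 0 < κ) (hκ1 : κ ≤ 1) (low : ∀ v, κ * ‖v‖ ≤ ‖L v‖) (up : ‖L‖ ≤ κ⁻¹)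
    {τ hh c1 θ0 θ1 : ℝ} {Bs Nn : ℕ} (hs : 0 < s) (hτ : 0 < τ) (hτ4 : τ ≤ 1 / 4)
    (hsub : cel Cb z ((1 - τ) * s) ⊆ Om)
    (hcl : ∀ x ∈ cel Cb z ((1 - τ) * s), ‖f x - Bk b L z x‖ ≤ C1 * hh * s)
    (hhh : C1 * hh ≤ κ * τ) (Q : CB E3 3) {k0 : ℕ} (hk : Q.kc ≤ k0)
    (HB : BlkP κ s τ hh c1 θ0 θ1 Bs Nn z (mp P3 Q) k0) {a : R3} (ha : ‖a‖ ≤ κw * s) {v : E3}
    (hv : ‖Q.ψ v‖ ≤ 1 / (20 * 2 ^ k0))
    (H : InP p f (Gmat G) C1 κw s b L z er ((mp P3 Q).tr a) k0 hk)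
    (hkw : 0 ≤ κw) (hroom : κw + θ0 / κ ≤ τ)
    (hA : ∀ x ∈ closedBall (P3.symm z) s, ‖A x - P3.symm (Bk b L z (P3 x))‖ ≤ ka * s)
    (hka0 : 0 ≤ ka) {kb : ℝ} (hkb : ka + 3 * κ⁻¹ * (κw + θ0 / (5 * κ)) ≤ kb)
    (hkb1 : kb ≤ κ * τ / 16)
    {Cc κ1 κ2 lam : ℝ} {M : ℕ} {c : Bx (Fin 3)} (hc : c.Pos) (hlam : 0 ≤ lam) (hκ2 : 0 ≤ κ2)
    (hCc : 0 ≤ Cc)
    (hin : cbx c ((1 + 2 * κ2) * lam) ⊆ P3 ⁻¹' par Cb L b ((1 - 3 * τ) * s))
    (n1 : (κw + kb) * s ≤ κw' * (lam * c.sz) / M) (n2 : 2 * κw + 2 * kb ≤ κ / 4 * κw')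
    (n3 : (C1 * hh + kb) * s ≤ κ1 * (lam * c.sz)) :
    InS p (P3 ⁻¹' Om) (e3 f) (D3 G) Cc κ1 κ2 κw' M c (trA A (P3.symm a + v)) lam
      (1000 * (ENNReal.ofReal (C1 * ‖L‖ ^ p) * volume (Q.N \ Q.Kc) + er))
      (Q.tr (P3.symm a + v)) k0 hk := by
  set a' : E3 := P3.symm a + v with ha'
  -- numbers
  have hpos : (0 : ℝ) < 2 ^ k0 := by positivity
  have hhi := HB.hi
  have hki : (0 : ℝ) < 1 / 2 ^ k0 := by positivity
  have hθ0 : 0 < θ0 := by
    by_contra hc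
    have : θ0 * s ≤ 0 := mul_nonpos_of_nonpos_of_nonneg (not_lt.1 hc) hs.le
    linarith
  have hnrm : ∀ {w : E3} {q : ℝ}, 0 < q → ‖Q.ψ w‖ ≤ 1 / (q * 2 ^ k0) → ‖w‖ ≤ 4 * θ0 / (q * κ) * s := by
    intro w q hq hw
    have h1 := (HB.cnd (P3 w)).1
    rw [Tmap_212.mp_ψ, P3.symm_apply_apply] at h1
    have h2 := norm_le_P3 w
    have h3 : (1 : ℝ) / (q * 2 ^ k0) = 1 / q * (1 / 2 ^ k0) := by field_simp
    rw [h3] at hw
    have h4 : 1 / q * (1 / 2 ^ k0) ≤ 1 / q * (θ0 * s) :=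
      mul_le_mul_of_nonneg_left hhi (by positivity)
    have h5 : κ / 4 * ‖w‖ ≤ κ / 4 * ‖P3 w‖ := mul_le_mul_of_nonneg_left h2 (by positivity)
    have h6 : κ / 4 * ‖w‖ ≤ κ / 4 * (4 * θ0 / (q * κ) * s) := by
      have : κ / 4 * (4 * θ0 / (q * κ) * s) = 1 / q * (θ0 * s) := by field_simp
      linarith
    exact le_of_mul_le_mul_left h6 (by positivity)
  have hvn : ‖v‖ ≤ θ0 / (5 * κ) * s := by
    have := hnrm (by norm_num : (0 : ℝ) < 20) hv
    have e : 4 * θ0 / (20 * κ) = θ0 / (5 * κ) := by field_simp; norm_num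
    rwa [e] at this
  have ha'n : ‖a'‖ ≤ (κw + θ0 / (5 * κ)) * s := by
    calc ‖a'‖ ≤ ‖P3.symm a‖ + ‖v‖ := norm_add_le _ _
      _ ≤ κw * s + θ0 / (5 * κ) * s := add_le_add ((norm_P3_symm_le a).trans ha) hvn
      _ = _ := by ring
  have hkaκ : ka ≤ κ / 16 := by
    have h1 : 0 ≤ 3 * κ⁻¹ * (κw + θ0 / (5 * κ)) := by positivity
    have h2 : κ * τ ≤ κ * 1 := mul_le_mul_of_nonneg_left (by linarith) hκ.le
    linarith
  have hkbκ : kb ≤ κ / 16 := by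
    have h2 : κ * τ ≤ κ * 1 := mul_le_mul_of_nonneg_left (by linarith) hκ.le
    linarith
  have hkb0 : 0 ≤ kb := by
    have h1 : 0 ≤ 3 * κ⁻¹ * (κw + θ0 / (5 * κ)) := by positivity
    linarith
  have hA' : ∀ x ∈ closedBall (P3.symm z) s,
      ‖trA A a' x - P3.symm (Bk b L z (P3 x))‖ ≤ kb * s := by
    intro x hx
    refine (trA_close hκ low up hs hA hkaκ ha'n x hx).trans ?_
    exact mul_le_mul_of_nonneg_right hkb hs.le
  have hl : ∀ w, ‖lin (trA A a') w - L3 L w‖ ≤ 2 * kb * ‖w‖ := lin_close hs hκ low hA'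
  -- the block
  have hblk : mp P3 (Q.tr a') = ((mp P3 Q).tr a).tr (P3 v) := by
    rw [Tmap_212.mp_tr, ha', map_add, P3.apply_symm_apply, CB.tr_add]
  have H4 : InP4 p f (Gmat G) C1 κw s b L z er (mp P3 (Q.tr a')) k0 hk := by
    have h1 := Ttr_565.InP.shift H (d := P3 v) (by
      show ‖Q.ψ (P3.symm (P3 v))‖ ≤ _
      rw [P3.symm_apply_apply]; exact hv)
    exact inP4_of_eq hblk.symm h1
  have hNs : ∀ y ∈ Q.N, y ∈ closedBall (P3.symm z) ((1 - τ) * s) := by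
    intro y hy
    rw [← cel_preimage z (mul_pos (by linarith) hs)]
    exact HB.sub ((Tmap_212.mem_N_mp' P3 Q).2 hy)
  have hvol : volume ((Q.tr a').N \ (Q.tr a').Kc) = volume (Q.N \ Q.Kc) := by
    have e : (Q.tr a').N \ (Q.tr a').Kc = (fun y => y + (-a')) ⁻¹' (Q.N \ Q.Kc) := by
      ext y
      rw [Set.mem_sdiff, Q.mem_N_tr a', Q.mem_Kc_tr a', mem_preimage, Set.mem_sdiff, sub_eq_add_neg]
    rw [e, measure_preimage_add_right]
  rw [← hvol]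
  refine ins_core (t := (1 - τ) * s) (r := C1 * hh * s) (ka := kb) (kl := 2 * kb) hp hp3 (Q.tr a') hk H4 hκ low
    (by linarith) (by linarith) hl hkw hA' ?_ hCc n1 n2 ?_ ?_ ?_ ?_ ?_
  · intro y hy w hw
    have h1 : y - a' ∈ Q.Kc := (Q.mem_Kc_tr a' y).1 hy
    have h2 := hNs _ (Msb_432.Kc_sub_N Q h1)
    have h3 := hnrm (by norm_num : (0 : ℝ) < 10) (w := w) hw
    rw [mem_closedBall, dist_eq_norm] at h2 ⊢
    have e1 : y + w - P3.symm z = (y - a' - P3.symm z) + (a' + w) := by abel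
    have h5 : (κw + θ0 / (5 * κ)) * s + 4 * θ0 / (10 * κ) * s ≤ τ * s := by
      rw [← add_mul]
      refine mul_le_mul_of_nonneg_right ?_ hs.le
      have e3 : κw + θ0 / (5 * κ) + 4 * θ0 / (10 * κ) = κw + 3 / 5 * (θ0 / κ) := by
        field_simp; ring
      have : 0 < θ0 / κ := by positivity
      linarith
    calc ‖y + w - P3.symm z‖ ≤ ‖y - a' - P3.symm z‖ + ‖a' + w‖ := by rw [e1]; exact norm_add_le _ _
      _ ≤ (1 - τ) * s + ((κw + θ0 / (5 * κ)) * s + 4 * θ0 / (10 * κ) * s) :=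
          add_le_add h2 ((norm_add_le _ _).trans (add_le_add ha'n h3))
      _ ≤ s := by linarith
  · have : τ * s ≤ s := by nlinarith
    nlinarith
  · rw [← cel_preimage z (mul_pos (by linarith) hs)]
    exact preimage_mono hsub
  · intro x hx
    rw [← cel_preimage z (mul_pos (by linarith) hs)] at hx
    have h1 := hcl _ hx
    have e1 : e3 f x - P3.symm (Bk b L z (P3 x)) = P3.symm (f (P3 x) - Bk b L z (P3 x)) := by
      rw [map_sub]; rfl
    rw [e1]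
    exact (norm_P3_symm_le _).trans h1
  · have hcov := (Cov_58.cover hf hLa hκ low hs hτ (by linarith) hsub hcl (by
        have := mul_le_mul_of_nonneg_right hhh hs.le
        linarith)).2
    have himg : ∀ {r : ℝ}, 0 < r →
        aff3 L hκ low z b '' closedBall (P3.symm z) r = P3 ⁻¹' par Cb L b r :=
      fun {r} hr => aff3_image L hκ low z b hr
    have r3 : 0 < (1 - 3 * τ) * s := mul_pos (by linarith) hs
    have r2 : 0 < (1 - 2 * τ) * s := mul_pos (by linarith) hs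
    intro x hx
    rcases hx with ⟨hxO, hx⟩ | hx
    · have h1 : e3 f x ∈ P3 ⁻¹' par Cb L b ((1 - 3 * τ) * s) :=
        hin (cbx_mono hc (by nlinarith) hx)
      have h2 : e3 f x ∈ P3 ⁻¹' par Cb L b ((1 - 2 * τ) * s) := by
        rw [← himg r3] at h1
        rw [← himg r2]
        exact image_mono (closedBall_subset_closedBall (by nlinarith)) h1
      have h3 : f (P3 x) ∈ par Cb L b ((1 - 2 * τ) * s) := by
        have : P3 (e3 f x) ∈ par Cb L b ((1 - 2 * τ) * s) := h2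
        rwa [Er_594.P3_e3] at this
      have h4 := hcov (P3 x) hxO h3
      rw [← cel_preimage z (mul_pos (by linarith) hs)]
      exact h4
    · have h1 := hin hx
      rw [← himg r3] at h1
      obtain ⟨u, hu, hux⟩ := h1
      have hus : u ∈ closedBall (P3.symm z) s :=
        closedBall_subset_closedBall (by nlinarith) hu
      have h2 := hA' u hus
      rw [Bk3 hκ low, hux, ← lin_apply] at h2
      have h3 := low_lin hκ low (by linarith : 2 * kb ≤ κ / 8) hl (u - x)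
      have h4 : ‖u - x‖ ≤ τ / 4 * s := by
        have h5 : κ / 4 * ‖u - x‖ ≤ κ / 4 * (τ / 4 * s) := by
          have h6 : kb * s ≤ κ * τ / 16 * s := mul_le_mul_of_nonneg_right hkb1 hs.le
          have e : κ / 4 * (τ / 4 * s) = κ * τ / 16 * s := by ring
          linarith
        exact le_of_mul_le_mul_left h5 (by positivity)
      rw [mem_closedBall, dist_eq_norm] at hu ⊢
      have e1 : x - P3.symm z = (u - P3.symm z) - (u - x) := by abel
      rw [e1]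
      refine (norm_sub_le _ _).trans ?_
      have : 0 < τ * s := mul_pos hτ hs
      linarith
  · linarith

end

end Crest.Agent.R096.Ins_685
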