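import Crest.Agent.R096.Srg2_465
import Crest.Agent.R096.Sk2a_855
import Crest.Agent.R096.PlSph_296
import Crest.Agent.R096.Cb3_609
import Crest.Agent.R096.Msh1_715

-- ▼ part R096/Srg3_465
section

/-!
# R096 (row 96), 2SK-SURG, part 3: the induction (helper465)

* `Mesh Om S F`: the faces `F k` (they meet only in `S`) and the local move (812's `disc_move`).
* `Lvls La u K Z I`: the level spheres of the target.
* `St ..`: a homeomorphism of `Om` onto `La` with regular levels; `𝒜 t D`: the allowed discs.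
* `surgery`: a PL homeomorphism of the source, supported off `S`, moving points of faces only into
  allowed discs, after which on a smaller interval no face has a circle with an allowed side.
-/

set_option autoImplicit false
set_option linter.unusedSectionVars false

open Set Metric Topology Filter

namespace Crest.Agent.R096.Srg_465

open Ce_537 Pl Cb_609
open Sk2_855 (HP)

variable {E : Type*} [NormedAddCommGroup E] [NormedSpace ℝ E]

/-- a PL homeomorphism of the space, supported in a compact part of `Om` off `S` -/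
structure MvS (Om S : Set E) (ψ : E ≃ₜ E) : Prop where
  plh : PLH ψ
  supp : ∃ K : Set E, IsCompact K ∧ K ⊆ Om ∧ Disjoint K S ∧ ∀ x, x ∉ K → ψ x = x

namespace MvS

variable {Om S : Set E} {ψ φ : E ≃ₜ E}

theorem refl : MvS Om S (Homeomorph.refl E) :=
  ⟨PLH.refl, ∅, isCompact_empty, empty_subset _, empty_disjoint _, fun _ _ => rfl⟩


theorem mapsTo (h : MvS Om S ψ) : MapsTo ψ Om Om := by
  obtain ⟨K, -, hO, -, hK⟩ := h.supp
  intro x hx
  by_contra hn
  have h1 : ψ x ∉ K := fun hk => hn (hO hk)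
  have h2 := ψ.injective (hK _ h1)
  exact hn (by rw [h2]; exact hx)

theorem symm (h : MvS Om S ψ) : MvS Om S ψ.symm := by
  obtain ⟨K, hc, hO, hd, hK⟩ := h.supp
  refine ⟨h.plh.symm, K, hc, hO, hd, fun x hx => ?_⟩
  rw [Homeomorph.symm_apply_eq, hK x hx]

theorem trans (h : MvS Om S ψ) (h' : MvS Om S φ) : MvS Om S (ψ.trans φ) := by
  obtain ⟨K, hc, hO, hd, hK⟩ := h.supp
  obtain ⟨K', hc', hO', hd', hK'⟩ := h'.supp
  refine ⟨h.plh.trans h'.plh, K ∪ K', hc.union hc', union_subset hO hO',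
    disjoint_union_left.2 ⟨hd, hd'⟩, fun x hx => ?_⟩
  rw [mem_union, not_or] at hx
  show φ (ψ x) = x
  rw [hK x hx.1, hK' x hx.2]

end MvS

section HPlemmas

variable {Om La S : Set E} {h hi : E → E}

theorem HP.compS (H : HP Om La h hi) {ψ : E ≃ₜ E} (hψ : MvS Om S ψ) :
    HP Om La (fun x => h (ψ x)) (fun y => ψ.symm (hi y)) where
  mt := fun x hx => H.mt (hψ.mapsTo hx)
  mti := fun y hy => hψ.symm.mapsTo (H.mti hy)
  li := fun x hx => by rw [H.li _ (hψ.mapsTo hx), Homeomorph.symm_apply_apply]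
  ri := fun y hy => by rw [Homeomorph.apply_symm_apply, H.ri _ hy]
  pl := Sk2_855.locPL_comp_PLMap hψ.plh.1 hψ.mapsTo H.pl
  pli := Sk2_855.PLMap_comp_locPL hψ.plh.2 H.pli

theorem HP.injOn (H : HP Om La h hi) : InjOn h Om := by
  intro x hx y hy e
  rw [← H.li x hx, ← H.li y hy, e]

theorem HP.inv (H : HP Om La h hi) : HP La Om hi h :=
  ⟨H.mti, H.mt, H.ri, H.li, H.pli, H.pl⟩

/-- the PL equivalence of a compact set onto its image -/
noncomputable def HP.equiv (H : HP Om La h hi) {A : Set E} (hA : IsCompact A) (hAO : A ⊆ Om) :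
    PLEquiv A (h '' A) where
  f := h
  g := hi
  pf := Msh_715.LocPL.plOn H.pl hA hAO
  pg := Msh_715.LocPL.plOn H.pli (hA.image_of_continuousOn (H.contOn.mono hAO))
    (by rintro _ ⟨x, hx, rfl⟩; exact H.mt (hAO hx))
  mf := fun x hx => ⟨x, hx, rfl⟩
  mg := by rintro _ ⟨x, hx, rfl⟩; rw [H.li x (hAO hx)]; exact hx
  li := fun x hx => H.li x (hAO hx)
  ri := by rintro _ ⟨x, hx, rfl⟩; rw [H.li x (hAO hx)]

theorem HP.ball_image (H : HP Om La h hi) {n : ℕ} {A B : Set E} (hA : IsBall n A B)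
    (hAO : A ⊆ Om) : IsBall n (h '' A) (h '' B) :=
  hA.map (HP.equiv H hA.isCompact hAO)

theorem HP.image_hi (H : HP Om La h hi) {A : Set E} (hAO : A ⊆ Om) : hi '' (h '' A) = A := by
  rw [image_image]
  ext x
  constructor
  · rintro ⟨y, hy, rfl⟩
    show hi (h y) ∈ A
    rw [H.li y (hAO hy)]; exact hy
  · intro hx; exact ⟨x, hx, H.li x (hAO hx)⟩

end HPlemmas

/-- the faces and the local move -/
structure Mesh (Om S : Set E) {κ : Type*} (F : κ → Set E) : Prop where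
  comp : ∀ k, IsCompact (F k)
  sub : ∀ k, F k ⊆ Om
  meet : ∀ k k', k ≠ k' → F k ∩ F k' ⊆ S
  move : ∀ k Fc D Γ O, IsBall 2 Fc Γ → Fc ⊆ F k \ S → IsOpen O → O ∩ F k = Fc \ Γ →
    IsBall 2 D Γ → D ⊆ Om → (∀ k', Disjoint (D \ Γ) (F k')) →
    ∃ ψ : E ≃ₜ E, MvS Om S ψ ∧ (∀ k', k' ≠ k → ∀ x ∈ F k', ∀ᶠ y in 𝓝 x, ψ y = y) ∧
      (∀ x ∈ F k \ Fc, ∀ᶠ y in 𝓝 x, ψ y = y) ∧ ψ '' Fc = D

/-- the level spheres -/
structure Lvls (La : Set E) (u : E → ℝ) (K Z : ℝ → Set E) (I : Set ℝ) : Prop where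
  cont : ContinuousOn u La
  ball : ∀ t ∈ I, IsBall 3 (K t) (Z t)
  sub : ∀ t ∈ I, Z t ⊆ La
  eq : ∀ t ∈ I, ∀ y ∈ La, y ∈ Z t ↔ u y = t

theorem Lvls.mono {La : Set E} {u : E → ℝ} {K Z : ℝ → Set E} {I J : Set ℝ}
    (L : Lvls La u K Z I) (h : J ⊆ I) : Lvls La u K Z J :=
  ⟨L.cont, fun t ht => L.ball t (h ht), fun t ht => L.sub t (h ht), fun t ht => L.eq t (h ht)⟩

/-- the state -/
structure St (Om La S : Set E) {κ : Type*} (F : κ → Set E) (J : Finset κ) (u : E → ℝ)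
    (𝒜 : ℝ → Set E → Prop) (I : Set ℝ) (h hi : E → E) : Prop where
  hp : HP Om La h hi
  lev : ∀ k ∈ J, Lev (F k) (F k ∩ S) (fun x => u (h x)) I
  off : ∀ k, k ∉ J → ∀ x ∈ F k, u (h x) ∉ I
  rim : ∀ k ∈ J, ∀ t ∈ I, ∀ x ∈ F k, u (h x) = t →
    (connectedComponentIn (Ls (F k) (fun x => u (h x)) t) x ∩ (F k ∩ S)).Nonempty →
    ∀ D, 𝒜 t D → h x ∉ D

section Main

variable {Om La S : Set E} {κ : Type*} {F : κ → Set E} {J : Finset κ} {u : E → ℝ}
  {𝒜 : ℝ → Set E → Prop} {I : Set ℝ} {h hi : E → E} {K Z : ℝ → Set E}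

theorem Circ.subset {F rim : Set E} {φ : E → ℝ} {t : ℝ} {Γ : Set E} (c : Circ F rim φ t Γ) :
    Γ ⊆ Ls F φ t := by
  obtain ⟨⟨x, hx, hxt, rfl⟩, -⟩ := c
  exact connectedComponentIn_subset _ _

/-- circles of one level of one face are equal or disjoint -/
theorem Circ.disjoint {F rim : Set E} {φ : E → ℝ} {t : ℝ} {Γ Γ' : Set E}
    (c : Circ F rim φ t Γ) (c' : Circ F rim φ t Γ') (hne : Γ ≠ Γ') : Disjoint Γ Γ' := by
  obtain ⟨⟨x, hx, hxt, rfl⟩, -⟩ := c
  obtain ⟨⟨y, hy, hyt, rfl⟩, -⟩ := c'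
  rw [disjoint_left]
  intro z hz hz'
  exact hne ((connectedComponentIn_eq hz).trans (connectedComponentIn_eq hz').symm)

theorem Circ.off_rim {F rim : Set E} {φ : E → ℝ} {t : ℝ} {Γ : Set E} (c : Circ F rim φ t Γ) :
    Disjoint Γ rim := by
  obtain ⟨-, Fc, hB, hsub, -⟩ := c
  rw [disjoint_left]
  intro x hx hx'
  exact (hsub (hB.subset hx)).2 hx'

theorem circ_congr {F rim : Set E} {φ ψ : E → ℝ} (he : EqOn φ ψ F) (t : ℝ) (Γ : Set E) :
    Circ F rim ψ t Γ ↔ Circ F rim φ t Γ := by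
  have hL : Ls F ψ t = Ls F φ t := by
    ext y; constructor
    · rintro ⟨h1, h2⟩; exact ⟨h1, (he h1).trans h2⟩
    · rintro ⟨h1, h2⟩; exact ⟨h1, (he h1).symm.trans h2⟩
  unfold Circ
  rw [hL]
  constructor
  · rintro ⟨⟨x, hx, h1, h2⟩, h3⟩; exact ⟨⟨x, hx, (he hx).trans h1, h2⟩, h3⟩
  · rintro ⟨⟨x, hx, h1, h2⟩, h3⟩; exact ⟨⟨x, hx, (he hx).symm.trans h1, h2⟩, h3⟩

/-- the disc with innermost circle -/
theorem St.exists_disc (M : Mesh Om S F) (L : Lvls La u K Z I)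
    (hA : ∀ t D D', 𝒜 t D → D' ⊆ D → 𝒜 t D') (s : St Om La S F J u 𝒜 I h hi)
    {t : ℝ} (ht : t ∈ I) {k : κ} (hk : k ∈ J) {Γ D : Set E}
    (hΓ : Circ (F k) (F k ∩ S) (fun x => u (h x)) t Γ) (hD : Side (K t) (Z t) D (h '' Γ))
    (hAD : 𝒜 t D) :
    ∃ k₁ ∈ J, ∃ Γ₁, Circ (F k₁) (F k₁ ∩ S) (fun x => u (h x)) t Γ₁ ∧
      ∃ D₁, Side (K t) (Z t) D₁ (h '' Γ₁) ∧ 𝒜 t D₁ ∧ D₁ ⊆ D ∧
        ∀ k', ∀ x ∈ F k', h x ∈ D₁ → x ∈ Γ₁ := by
  classical
  let 𝒞 : Set (Set E) := {c | ∃ k ∈ J, ∃ Γ, Circ (F k) (F k ∩ S) (fun x => u (h x)) t Γ ∧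
    c = h '' Γ}
  have hsubO : ∀ {k Γ}, Circ (F k) (F k ∩ S) (fun x => u (h x)) t Γ → Γ ⊆ Om :=
    fun {k Γ} c => c.subset.trans fun y hy => M.sub k hy.1
  have hfin : 𝒞.Finite := by
    have h1 : (⋃ k ∈ (J : Set κ), (fun Γ => h '' Γ) '' {Γ | Circ (F k) (F k ∩ S)
        (fun x => u (h x)) t Γ}).Finite :=
      J.finite_toSet.biUnion fun k hk => ((s.lev k (by simpa using hk)).fin t ht).image _
    refine h1.subset ?_
    rintro _ ⟨k, hk, Γ, hΓ, rfl⟩
    exact mem_biUnion (show k ∈ (J : Set κ) from by simpa using hk) ⟨Γ, hΓ, rfl⟩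
  have hcirc : ∀ c ∈ 𝒞, Nonempty (PLEquiv (S1 ℝ) c) := by
    rintro _ ⟨k, hk, Γ, hΓ, rfl⟩
    obtain ⟨-, Fc, hB, hsub, -⟩ := hΓ
    exact circle_of_disc (HP.ball_image s.hp hB (hsub.trans fun x hx => M.sub k hx.1))
  have hZ : ∀ c ∈ 𝒞, c ⊆ Z t := by
    rintro _ ⟨k, hk, Γ, hΓ, rfl⟩ _ ⟨x, hx, rfl⟩
    exact (L.eq t ht _ (s.hp.mt (hsubO hΓ hx))).2 (hΓ.subset hx).2
  have hdis : ∀ c ∈ 𝒞, ∀ c' ∈ 𝒞, c ≠ c' → Disjoint c c' := by
    rintro _ ⟨k, hk, Γ, hΓ, rfl⟩ _ ⟨k', hk', Γ', hΓ', rfl⟩ hne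
    have h2 : Disjoint Γ Γ' := by
      by_cases hkk : k = k'
      · subst hkk
        exact hΓ.disjoint hΓ' fun e => hne (by rw [e])
      · rw [disjoint_left]
        intro x hx hx'
        have h3 : x ∈ S := M.meet k k' hkk ⟨(hΓ.subset hx).1, (hΓ'.subset hx').1⟩
        exact disjoint_left.1 hΓ.off_rim hx ⟨(hΓ.subset hx).1, h3⟩
    rw [disjoint_left]
    rintro _ ⟨x, hx, rfl⟩ ⟨y, hy, e⟩
    have := HP.injOn s.hp (hsubO hΓ' hy) (hsubO hΓ hx) e
    subst this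
    exact disjoint_left.1 h2 hx hy
  obtain ⟨c₁, hc₁, D₁, hD₁, hsub, hoth⟩ := exists_innermost (L.ball t ht) hfin hcirc hZ hdis _
    (h '' Γ) ⟨k, hk, Γ, hΓ, rfl⟩ D hD le_rfl
  obtain ⟨k₁, hk₁, Γ₁, hΓ₁, rfl⟩ := hc₁
  refine ⟨k₁, hk₁, Γ₁, hΓ₁, D₁, hD₁, hA t D D₁ hAD hsub, hsub, fun k' x hx hxD => ?_⟩
  have hxO := M.sub k' hx
  have hxt : u (h x) = t := (L.eq t ht _ (s.hp.mt hxO)).1 (hD₁.sub hxD)
  have hk' : k' ∈ J := by
    by_contra hn
    exact s.off k' hn x hx (by rw [hxt]; exact ht)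
  rcases (s.lev k' hk').comp t ht x hx hxt with h1 | h1
  · exact absurd hxD (s.rim k' hk' t ht x hx hxt h1 D₁ (hA t D D₁ hAD hsub))
  · have h2 : h x ∈ h '' connectedComponentIn (Ls (F k') (fun x => u (h x)) t) x :=
      ⟨x, mem_connectedComponentIn ⟨hx, hxt⟩, rfl⟩
    by_cases h3 : h '' connectedComponentIn (Ls (F k') (fun x => u (h x)) t) x = h '' Γ₁
    · rw [h3] at h2
      obtain ⟨y, hy, e⟩ := h2
      rw [← HP.injOn s.hp (hsubO hΓ₁ hy) hxO e]
      exact hy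
    · exact absurd h2 (disjoint_left.1 (hoth _ ⟨k', hk', _, h1, rfl⟩ h3) hxD)

/-- **one step** -/
theorem St.step (M : Mesh Om S F) {a b : ℝ} (L : Lvls La u K Z (Ioo a b))
    (hA : ∀ t D D', 𝒜 t D → D' ⊆ D → 𝒜 t D') (s : St Om La S F J u 𝒜 (Ioo a b) h hi)
    {t' : ℝ} (ht : t' ∈ Ioo a b) {k : κ} (hk : k ∈ J) {Γ D : Set E}
    (hΓ : Circ (F k) (F k ∩ S) (fun x => u (h x)) t' Γ) (hD : Side (K t') (Z t') D (h '' Γ))
    (hAD : 𝒜 t' D) :
    ∃ ψ : E ≃ₜ E, MvS Om S ψ ∧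
      (∀ k', ∀ x ∈ F k', (∀ᶠ y in 𝓝 x, ψ y = y) ∨ (h (ψ x) ∈ D)) ∧
      (∀ k', (∀ x ∈ F k', u (h x) ∉ Ioo a b) → ∀ x ∈ F k', ∀ᶠ y in 𝓝 x, ψ y = y) ∧
      ∃ a' b', a ≤ a' ∧ a' < b' ∧ b' ≤ b ∧
        (∀ k', ∀ x ∈ F k', u (h (ψ x)) ∈ Ioo a' b' → ∀ᶠ y in 𝓝 x, ψ y = y) ∧
        St Om La S F J u 𝒜 (Ioo a' b') (fun x => h (ψ x)) (fun y => ψ.symm (hi y)) ∧
        ∀ t ∈ Ioo a' b', (∑ k' ∈ J, {Γ | Circ (F k') (F k' ∩ S) (fun x => u (h (ψ x))) t Γ}.ncard) <
          ∑ k' ∈ J, {Γ | Circ (F k') (F k' ∩ S) (fun x => u (h x)) t Γ}.ncard := by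
  classical
  obtain ⟨k₁, hk₁, Γ₁, hΓ₁, D₁, hD₁, hAD₁, hsub, hmiss⟩ := s.exists_disc M L hA ht hk hΓ hD hAD
  have hΓL := hΓ₁.subset
  obtain ⟨-, Fc, hB, hFsub, O, hO, hOF⟩ := id hΓ₁
  have hΓO : Γ₁ ⊆ Om := fun x hx => M.sub k₁ (hΓL hx).1
  have hD₁La : D₁ ⊆ La := hD₁.sub.trans (L.sub t' ht)
  -- the disc in the source
  have hDball : IsBall 2 (hi '' D₁) Γ₁ := by
    have h1 := HP.ball_image (HP.inv s.hp) hD₁.isBall hD₁La
    rw [HP.image_hi s.hp hΓO] at h1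
    exact h1
  have hDO : hi '' D₁ ⊆ Om := by
    rintro _ ⟨y, hy, rfl⟩; exact s.hp.mti (hD₁La hy)
  have hDmiss : ∀ k', Disjoint (hi '' D₁ \ Γ₁) (F k') := by
    intro k'
    rw [disjoint_left]
    rintro _ ⟨⟨y, hy, rfl⟩, hn⟩ hF
    exact hn (hmiss k' _ hF (by rw [s.hp.ri y (hD₁La hy)]; exact hy))
  obtain ⟨ψ, hψ, hψothN, hψoutN, hψim⟩ := M.move k₁ Fc (hi '' D₁) Γ₁ O hB
    (fun x hx => ⟨(hFsub hx).1, fun hS => (hFsub hx).2 ⟨(hFsub hx).1, hS⟩⟩) hO hOF hDball hDO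
    hDmiss
  have hψoth : ∀ k', k' ≠ k₁ → ∀ x ∈ F k', ψ x = x := fun k' hne x hx =>
    (hψothN k' hne x hx).self_of_nhds
  have hψout : ∀ x ∈ F k₁ \ Fc, ψ x = x := fun x hx => (hψoutN x hx).self_of_nhds
  have hin : ∀ x ∈ Fc, h (ψ x) ∈ D₁ := by
    intro x hx
    have h1 : ψ x ∈ hi '' D₁ := by rw [← hψim]; exact ⟨x, hx, rfl⟩
    obtain ⟨y, hy, e⟩ := h1
    rw [← e, s.hp.ri y (hD₁La hy)]; exact hy
  have hint : ∀ x ∈ Fc, u (h (ψ x)) = t' := fun x hx =>
    (L.eq t' ht _ (hD₁La (hin x hx))).1 (hD₁.sub (hin x hx))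
  have hcasesN : ∀ k', ∀ x ∈ F k', (∀ᶠ y in 𝓝 x, ψ y = y) ∨ (k' = k₁ ∧ x ∈ Fc) := by
    intro k' x hx
    by_cases hkk : k' = k₁
    · subst hkk
      by_cases hxF : x ∈ Fc
      · exact Or.inr ⟨rfl, hxF⟩
      · exact Or.inl (hψoutN x ⟨hx, hxF⟩)
    · exact Or.inl (hψothN k' hkk x hx)
  have hcases : ∀ k', ∀ x ∈ F k', ψ x = x ∨ (k' = k₁ ∧ x ∈ Fc) := fun k' x hx =>
    (hcasesN k' x hx).imp (fun h => h.self_of_nhds) id
  have hm : MoveF (F k₁) (F k₁ ∩ S) (fun x => u (h x)) (fun x => u (h (ψ x))) Fc Γ₁ O t' :=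
    { ball := hB
      sub := hFsub
      op := hO
      opF := hOF
      lev := fun x hx => (hΓL hx).2
      out := fun x hx => by
        show u (h (ψ x)) = u (h x)
        rw [hψout x hx]
      ins := hint }
  have hp' := HP.compS s.hp hψ
  -- the half interval
  have hcore : ∀ a' b', a ≤ a' → b' ≤ b → t' ∉ Ioo a' b' →
      (∀ t ∈ Ioo a' b', ∃ x ∈ Fc, u (h x) = t) →
      (∀ k', ∀ x ∈ F k', u (h (ψ x)) ∈ Ioo a' b' → ∀ᶠ y in 𝓝 x, ψ y = y) ∧
        St Om La S F J u 𝒜 (Ioo a' b') (fun x => h (ψ x)) (fun y => ψ.symm (hi y)) ∧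
        ∀ t ∈ Ioo a' b',
          (∑ k' ∈ J, {Γ | Circ (F k') (F k' ∩ S) (fun x => u (h (ψ x))) t Γ}.ncard) <
          ∑ k' ∈ J, {Γ | Circ (F k') (F k' ∩ S) (fun x => u (h x)) t Γ}.ncard := by
    intro a' b' ha hb hn hatt
    have hI : Ioo a' b' ⊆ Ioo a b := Ioo_subset_Ioo ha hb
    have hne : ∀ t ∈ Ioo a' b', t ≠ t' := fun t ht e => hn (e ▸ ht)
    have hc' : ∀ k', ContinuousOn (fun x => u (h (ψ x))) (F k') := fun k' =>
      L.cont.comp (hp'.contOn.mono (M.sub k')) fun x hx => hp'.mt (M.sub k' hx)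
    have heq : ∀ k', k' ≠ k₁ → EqOn (fun x => u (h x)) (fun x => u (h (ψ x))) (F k') :=
      fun k' hkk x hx => by
        show u (h x) = u (h (ψ x))
        rw [hψoth k' hkk x hx]
    refine ⟨fun k' x hx hxI => ?_, ⟨hp', fun k' hk' => ?_, fun k' hk' x hx => ?_, ?_⟩, ?_⟩
    · rcases hcasesN k' x hx with h1 | ⟨rfl, h1⟩
      · exact h1
      · exfalso
        rw [hint x h1] at hxI
        exact hn hxI
    · have h1 := (s.lev k' hk').mono hI
      by_cases hkk : k' = k₁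
      · subst hkk
        exact h1.move hm hn (hc' k')
      · exact h1.congr (heq k' hkk)
    · have hkk : k' ≠ k₁ := fun e => hk' (e ▸ hk₁)
      show u (h (ψ x)) ∉ Ioo a' b'
      rw [hψoth k' hkk x hx]
      exact fun h1 => s.off k' hk' x hx (hI h1)
    · intro k' hk' t ht1 x hx hxt hne' D' hD'
      change u (h (ψ x)) = t at hxt
      rcases hcases k' x hx with h1 | ⟨rfl, h1⟩
      · rw [h1] at hxt ⊢
        refine s.rim k' hk' t (hI ht1) x hx hxt ?_ D' hD'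
        by_cases hkk : k' = k₁
        · subst hkk
          have hxF : x ∉ Fc := by
            intro hxF
            have h2 := hint x hxF
            rw [h1, hxt] at h2
            exact hne t ht1 h2
          have h3 := hm.comp_eq (hne t ht1) (show x ∈ Ls (F k') (fun x => u (h x)) t from
            ⟨hx, hxt⟩) hxF
          rw [h3] at hne'
          exact hne'
        · have h4 : Ls (F k') (fun x => u (h (ψ x))) t = Ls (F k') (fun x => u (h x)) t := by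
            ext y
            constructor
            · rintro ⟨h5, h6⟩; exact ⟨h5, (heq k' hkk h5).trans h6⟩
            · rintro ⟨h5, h6⟩; exact ⟨h5, (heq k' hkk h5).symm.trans h6⟩
          rw [h4] at hne'
          exact hne'
      · exfalso
        exact hne t ht1 (hxt.symm.trans (hint x h1))
    · intro t ht1
      apply Finset.sum_lt_sum
      · intro k' hk'
        by_cases hkk : k' = k₁
        · subst hkk
          exact hm.ncard_le (s.lev k' hk') (hI ht1) (hne t ht1)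
        · apply le_of_eq
          have h4 : ∀ Γ, Circ (F k') (F k' ∩ S) (fun x => u (h (ψ x))) t Γ ↔
              Circ (F k') (F k' ∩ S) (fun x => u (h x)) t Γ :=
            circ_congr (heq k' hkk) t
          simp only [h4]
      · exact ⟨k₁, hk₁, hm.ncard_lt (s.lev k₁ hk₁) (hI ht1) (hne t ht1) (hatt t ht1)⟩
  refine ⟨ψ, hψ, fun k' x hx => ?_, fun k' hk' x hx => ?_, ?_⟩
  · rcases hcasesN k' x hx with h1 | ⟨-, h1⟩
    · exact Or.inl h1
    · exact Or.inr (hsub (hin x h1))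
  · refine hψothN k' (fun e => ?_) x hx
    subst e
    obtain ⟨z, hz⟩ := nonempty_of_disc hB
    have hzt : u (h z) = t' := (hΓL hz).2
    exact hk' z (hΓL hz).1 (by rw [hzt]; exact ht)
  · rcases (s.lev k₁ hk₁).half ht hB hFsub hO hOF (fun x hx => (hΓL hx).2) with h1 | h1
    · exact ⟨a, t', le_rfl, ht.1, ht.2.le, hcore a t' le_rfl ht.2.le (fun h => lt_irrefl _ h.2) h1⟩
    · exact ⟨t', b, ht.1.le, ht.2, le_rfl, hcore t' b ht.1.le le_rfl (fun h => lt_irrefl _ h.1) h1⟩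

/-- **the surgery** -/
theorem surgery (M : Mesh Om S F) (hA : ∀ t D D', 𝒜 t D → D' ⊆ D → 𝒜 t D') :
    ∀ (n : ℕ) (a b : ℝ), a < b → Lvls La u K Z (Ioo a b) →
    ∀ h hi : E → E, St Om La S F J u 𝒜 (Ioo a b) h hi →
    (∀ t ∈ Ioo a b, (∑ k ∈ J, {Γ | Circ (F k) (F k ∩ S) (fun x => u (h x)) t Γ}.ncard) ≤ n) →
    ∃ ψ : E ≃ₜ E, MvS Om S ψ ∧
      (∀ k, ∀ x ∈ F k, (∀ᶠ y in 𝓝 x, ψ y = y) ∨ ∃ t ∈ Ioo a b, ∃ D Γ, 𝒜 t D ∧
        Side (K t) (Z t) D Γ ∧ h (ψ x) ∈ D) ∧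
      (∀ k, (∀ x ∈ F k, u (h x) ∉ Ioo a b) → ∀ x ∈ F k, ∀ᶠ y in 𝓝 x, ψ y = y) ∧
      ∃ a' b', a ≤ a' ∧ a' < b' ∧ b' ≤ b ∧
        (∀ k, ∀ x ∈ F k, u (h (ψ x)) ∈ Ioo a' b' → ∀ᶠ y in 𝓝 x, ψ y = y) ∧
        St Om La S F J u 𝒜 (Ioo a' b') (fun x => h (ψ x)) (fun y => ψ.symm (hi y)) ∧
        ∀ t ∈ Ioo a' b', ∀ k ∈ J, ∀ Γ, Circ (F k) (F k ∩ S) (fun x => u (h (ψ x))) t Γ →
          ∀ D, Side (K t) (Z t) D ((fun x => h (ψ x)) '' Γ) → ¬ 𝒜 t D := by
  intro n
  induction n with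
  | zero =>
    intro a b hab L h hi s hn
    refine ⟨Homeomorph.refl E, MvS.refl, fun k x _ => Or.inl (Eventually.of_forall fun _ => rfl),
      fun k _ x _ => Eventually.of_forall fun _ => rfl, a, b,
      le_rfl, hab, le_rfl, fun k x _ _ => Eventually.of_forall fun _ => rfl, s, ?_⟩
    intro t ht k hk Γ hΓ D hD hAD
    have h1 := hn t ht
    have h2 : {Γ | Circ (F k) (F k ∩ S) (fun x => u (h x)) t Γ}.ncard = 0 := by
      have := Finset.single_le_sum (f := fun k => {Γ | Circ (F k) (F k ∩ S)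
        (fun x => u (h x)) t Γ}.ncard) (fun _ _ => Nat.zero_le _) hk
      omega
    rw [Set.ncard_eq_zero ((s.lev k hk).fin t ht)] at h2
    exact (eq_empty_iff_forall_notMem.1 h2) Γ hΓ
  | succ n ih =>
    intro a b hab L h hi s hn
    by_cases hgood : ∀ t ∈ Ioo a b, ∀ k ∈ J, ∀ Γ, Circ (F k) (F k ∩ S) (fun x => u (h x)) t Γ →
          ∀ D, Side (K t) (Z t) D (h '' Γ) → ¬ 𝒜 t D
    · exact ⟨Homeomorph.refl E, MvS.refl, fun k x _ => Or.inl (Eventually.of_forall fun _ => rfl),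
        fun k _ x _ => Eventually.of_forall fun _ => rfl, a, b,
        le_rfl, hab, le_rfl, fun k x _ _ => Eventually.of_forall fun _ => rfl, s, hgood⟩
    · push Not at hgood
      obtain ⟨t, ht, k, hk, Γ, hΓ, D, hD, hAD⟩ := hgood
      obtain ⟨ψ₁, m1, c1, u1, a', b', ha', hab', hb', e1, s1, n1⟩ :=
        s.step M L hA ht hk hΓ hD hAD
      have hI : Ioo a' b' ⊆ Ioo a b := Ioo_subset_Ioo ha' hb'
      have hcomp : ∀ {ψ₂ : E ≃ₜ E} {x : E}, (∀ᶠ y in 𝓝 x, ψ₂ y = y) → (∀ᶠ y in 𝓝 x, ψ₁ y = y) →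
          ∀ᶠ y in 𝓝 x, (ψ₂.trans ψ₁) y = y := by
        intro ψ₂ x h1 h2
        filter_upwards [h1, h2] with y g1 g2
        show ψ₁ (ψ₂ y) = y
        rw [g1, g2]
      obtain ⟨ψ₂, m2, c2, u2, a'', b'', ha'', hab'', hb'', e2, s2, g2⟩ :=
        ih a' b' hab' (L.mono hI) _ _ s1 (fun t ht => by
          have h1 := n1 t ht
          have h2 := hn t (hI ht)
          omega)
      refine ⟨ψ₂.trans ψ₁, m2.trans m1, fun k x hx => ?_, fun k hk x hx => ?_, a'', b'',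
        ha'.trans ha'', hab'', hb''.trans hb', fun k x hx hxI => ?_, s2, g2⟩
      · show (∀ᶠ y in 𝓝 x, ψ₁ (ψ₂ y) = y) ∨ ∃ t ∈ Ioo a b, ∃ D Γ, 𝒜 t D ∧
          Side (K t) (Z t) D Γ ∧ h (ψ₁ (ψ₂ x)) ∈ D
        rcases c2 k x hx with h1 | ⟨t1, ht1, D1, Γ1, hA1, hS1, hx1⟩
        · rcases c1 k x hx with h2 | h2
          · exact Or.inl (hcomp h1 h2)
          · rw [h1.self_of_nhds]
            exact Or.inr ⟨t, ht, D, _, hAD, hD, h2⟩
        · exact Or.inr ⟨t1, hI ht1, D1, Γ1, hA1, hS1, hx1⟩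
      · have h1 : ∀ y ∈ F k, ∀ᶠ z in 𝓝 y, ψ₁ z = z := u1 k hk
        exact hcomp (u2 k (fun y hy => by
          show u (h (ψ₁ y)) ∉ Ioo a' b'
          rw [(h1 y hy).self_of_nhds]
          exact fun hc => hk y hy (hI hc)) x hx) (h1 x hx)
      · have h1 := e2 k x hx hxI
        have h2 : u (h (ψ₁ (ψ₂ x))) ∈ Ioo a'' b'' := hxI
        rw [h1.self_of_nhds] at h2
        exact hcomp h1 (e1 k x hx (Ioo_subset_Ioo ha'' hb'' h2))

end Main

end Crest.Agent.R096.Srg_465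
end

-- ▼ part R096/Lm1_812
section

/-!
# The local move (helper812, row 96, 2SK)

`exists_move`: if `Fc ∪ D` is a standard sphere bounding `K`, `Q` is a convex cell with
`Q ∩ K = Fc` and `Fc \ D` is open in `Q`, then a PL homeomorphism supported in any neighbourhood of
`K` maps `Fc` onto `D` and is the identity on `Q \ Fc` (the push of helper296 across the double
cone, `ε` small by domination on the cells of `Q`).
-/

namespace Crest.Agent.R096.Lm_812

open Set Metric Crest.Agent.R096.Pl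

variable {F : Type*} [NormedAddCommGroup F] [NormedSpace ℝ F]

/-- the slightly larger double cones lie in any neighbourhood of the double cone -/
theorem exists_eps_nhds [FiniteDimensional ℝ F] {U : Set (F × ℝ)} (hU : IsOpen U)
    (hK : {p : F × ℝ | N1 p ≤ 1} ⊆ U) :
    ∃ e : ℝ, 0 < e ∧ ∀ ε : ℝ, 0 < ε → ε ≤ e → ∀ p : F × ℝ,
      ‖p.1‖ + |p.2| / (1 + ε) ≤ 1 → p ∈ U := by
  have hc : IsCompact {p : F × ℝ | N1 p ≤ 1} := by
    refine Metric.isCompact_of_isClosed_isBounded (isClosed_le N1_continuous continuous_const) ?_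
    refine (Metric.isBounded_closedBall (x := (0 : F × ℝ)) (r := 1)).subset fun p hp => ?_
    rw [mem_closedBall, dist_zero_right]
    exact (norm_le_N1 p).trans hp
  obtain ⟨δ, hδ, hδU⟩ := hc.exists_thickening_subset_open hU hK
  refine ⟨δ / 2, by positivity, fun ε hε hεδ p hp => hδU ?_⟩
  rw [mem_thickening_iff]
  have h1 : 0 < 1 + ε := by linarith
  have hp2 : |p.2| ≤ 1 + ε := by
    have h2 : |p.2| / (1 + ε) ≤ 1 := by have := norm_nonneg p.1; linarith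
    rwa [div_le_one h1] at h2
  refine ⟨(p.1, p.2 / (1 + ε)), ?_, ?_⟩
  · show ‖p.1‖ + |p.2 / (1 + ε)| ≤ 1
    rw [abs_div, abs_of_pos h1]; exact hp
  · rw [Prod.dist_eq, dist_self, max_eq_right dist_nonneg, Real.dist_eq]
    have e : p.2 - p.2 / (1 + ε) = p.2 * (ε / (1 + ε)) := by field_simp; ring
    rw [e, abs_mul, abs_of_pos (show (0 : ℝ) < ε / (1 + ε) by positivity)]
    calc |p.2| * (ε / (1 + ε)) ≤ (1 + ε) * (ε / (1 + ε)) :=
          mul_le_mul_of_nonneg_right hp2 (by positivity)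
      _ = ε := by field_simp
      _ < δ := by linarith

/-- **the local move**, the identity near the points of `Q \ Fc` -/
theorem exists_move_near (hF : PolyNorm F) [FiniteDimensional ℝ F] [Nontrivial F]
    {Fc D K Q U : Set (F × ℝ)} (hS : StdS Fc D) (hKc : IsCompact K) (hsub : Fc ∪ D ⊆ K)
    (hop : IsOpen (K \ (Fc ∪ D))) (hne : (K \ (Fc ∪ D)).Nonempty) (hU : IsOpen U) (hKU : K ⊆ U)
    (hQ : VP Q) (hQK : Q ∩ K = Fc) (hrel : ∃ O, IsOpen O ∧ Fc \ D = Q ∩ O) :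
    ∃ ψ : (F × ℝ) ≃ₜ (F × ℝ), PLH ψ ∧ (∀ x, x ∉ U → ψ x = x) ∧
      (∀ x ∈ Q \ Fc, ∀ᶠ y in nhds x, ψ y = y) ∧
      ψ '' Fc = D ∧ ∀ x ∈ Fc ∩ D, ψ x = x := by
  classical
  obtain ⟨H, hH, h1, h2⟩ := hS
  obtain ⟨O, hO, hFO⟩ := hrel
  have hS1 : H '' S1 F = Fc ∪ D := by rw [← Kp_union_Km, image_union, h1, h2]
  have hKeq : K = H '' {p | N1 p ≤ 1} := by
    refine eq_inside hKc (by rw [hS1]; exact hsub) (by rw [hS1]; exact hop) (by rw [hS1]; exact hne)
  have memK : ∀ x, x ∈ K ↔ N1 (H.symm x) ≤ 1 := by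
    intro x
    rw [hKeq]
    constructor
    · rintro ⟨p, hp, rfl⟩; rw [H.symm_apply_apply]; exact hp
    · intro hx; exact ⟨H.symm x, hx, H.apply_symm_apply x⟩
  have memFc : ∀ x, x ∈ Fc ↔ H.symm x ∈ Kp F := by
    intro x
    rw [← h1]
    constructor
    · rintro ⟨p, hp, rfl⟩; rw [H.symm_apply_apply]; exact hp
    · intro hx; exact ⟨H.symm x, hx, H.apply_symm_apply x⟩
  have memD : ∀ x, x ∈ D ↔ H.symm x ∈ Km F := by
    intro x
    rw [← h2]
    constructor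
    · rintro ⟨p, hp, rfl⟩; rw [H.symm_apply_apply]; exact hp
    · intro hx; exact ⟨H.symm x, hx, H.apply_symm_apply x⟩
  -- step A
  obtain ⟨e, he, hA⟩ := exists_eps_nhds (F := F) (U := H ⁻¹' U) (hU.preimage H.continuous) (by
    intro p hp
    exact hKU (by rw [hKeq]; exact ⟨p, hp, rfl⟩))
  -- step B
  let g : F × ℝ → ℝ := fun x => N1 (H.symm x) - 1
  let w : F × ℝ → ℝ := fun x => |(H.symm x).2|
  have hgPL : PLMap g := ((N1_pl hF).comp hH.2).sub (PLMap.const 1)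
  have hwPL : PLMap w := (hH.2.snd).abs
  obtain ⟨𝒞, hfin, hVP, hUn, haff, -⟩ := hgPL.cells hQ (A := ∅) finite_empty
  have key : ∀ C ∈ 𝒞, ¬ C ⊆ Fc → ∃ M : ℝ, 0 < M ∧ ∀ x ∈ C, 0 < w x → w x ≤ M * g x := by
    intro C hC hCF
    have hCQ : C ⊆ Q := by rw [← hUn]; exact subset_sUnion_of_mem hC
    refine domination (hVP C hC) hwPL hgPL fun x hx hwx => ?_
    by_contra hgx
    push Not at hgx
    have hxK : x ∈ K := by rw [memK]; simp only [g] at hgx; linarith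
    have hxF : x ∈ Fc := by rw [← hQK]; exact ⟨hCQ hx, hxK⟩
    have hxKp := (memFc x).1 hxF
    have hxD : x ∉ D := by
      intro hxD
      have h3 := (memD x).1 hxD
      have h4 : (H.symm x).2 = 0 := le_antisymm h3.1 hxKp.1
      simp only [w, h4, abs_zero, lt_irrefl] at hwx
    have hxO : x ∈ O := by
      have : x ∈ Q ∩ O := by rw [← hFO]; exact ⟨hxF, hxD⟩
      exact this.2
    obtain ⟨y, hy, hyF⟩ := not_subset.1 hCF
    obtain ⟨a, ha⟩ := haff C hC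
    have hgx0 : g x = 0 := by
      have : N1 (H.symm x) = 1 := hxKp.2
      simp only [g, this, sub_self]
    -- a point of the segment near x
    have hcont : ContinuousAt (fun t : ℝ => (1 - t) • x + t • y) 0 := by fun_prop
    have hev : ∀ᶠ t in nhds (0 : ℝ), (1 - t) • x + t • y ∈ O := by
      refine hcont.eventually_mem (hO.mem_nhds ?_)
      simpa using hxO
    obtain ⟨r, hr, hr'⟩ := Metric.eventually_nhds_iff.1 hev
    let t : ℝ := min (r / 2) 1
    have ht0 : 0 < t := lt_min (by positivity) one_pos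
    have ht1 : t ≤ 1 := min_le_right _ _
    have htr : dist t 0 < r := by
      rw [Real.dist_eq, sub_zero, abs_of_pos ht0]
      exact (min_le_left _ _).trans_lt (by linarith)
    have hz : (1 - t) • x + t • y ∈ C :=
      (hVP C hC).convex hx hy (by linarith) ht0.le (by ring)
    have hzF : (1 - t) • x + t • y ∈ Fc := by
      have : (1 - t) • x + t • y ∈ Fc \ D := by rw [hFO]; exact ⟨hCQ hz, hr' htr⟩
      exact this.1
    have hgz : g ((1 - t) • x + t • y) = 0 := by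
      have : N1 (H.symm ((1 - t) • x + t • y)) = 1 := ((memFc _).1 hzF).2
      simp only [g, this, sub_self]
    have hgy : g y = 0 := by
      rw [ha _ hz, affine_comb a (by ring), ← ha _ hx, ← ha _ hy, hgx0] at hgz
      have : t * g y = 0 := by linarith
      rcases mul_eq_zero.1 this with h | h
      · exact absurd h ht0.ne'
      · exact h
    apply hyF
    rw [← hQK]
    refine ⟨hCQ hy, ?_⟩
    rw [memK]
    simp only [g] at hgy
    linarith
  choose! M hM hMle using key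
  obtain ⟨B, hB⟩ := (hfin.image M).bddAbove
  let ε : ℝ := min e (1 / max B 1)
  have hB1 : 0 < max B 1 := lt_max_of_lt_right one_pos
  have hε : 0 < ε := lt_min he (by positivity)
  have hεe : ε ≤ e := min_le_left _ _
  have hεB : max B 1 * ε ≤ 1 := by
    calc max B 1 * ε ≤ max B 1 * (1 / max B 1) := mul_le_mul_of_nonneg_left (min_le_right _ _) hB1.le
      _ = 1 := by field_simp
  obtain ⟨P, hP, hP1, hP2⟩ := exists_push (F := F) hF.pl hε
  have hPKp : P '' Kp F = Km F := by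
    rw [← ep_image, ← em_image, ← image_comp]
    refine image_congr fun x hx => ?_
    have hx' : ‖x‖ ≤ 1 := by simpa using hx
    simp only [Function.comp, ep]
    exact hP1 x hx'
  refine ⟨H.symm.trans (P.trans H), hH.symm.trans (hP.trans hH), ?_, ?_, ?_, ?_⟩
  · intro x hx
    have hu : H.symm x ∉ H ⁻¹' U := by
      simp only [mem_preimage, H.apply_symm_apply]; exact hx
    have : 1 ≤ ‖(H.symm x).1‖ + |(H.symm x).2| / (1 + ε) := by
      by_contra h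
      push Not at h
      exact hu (hA ε hε hεe _ h.le)
    show H (P (H.symm x)) = x
    rw [hP2 _ this, H.apply_symm_apply]
  · rintro x ⟨hxQ, hxF⟩
    have hgx : 0 < g x := by
      by_contra h
      push Not at h
      apply hxF
      rw [← hQK]
      refine ⟨hxQ, ?_⟩
      rw [memK]
      simp only [g] at h
      linarith
    have hxQ' := hxQ
    rw [← hUn] at hxQ'
    obtain ⟨C, hC, hxC⟩ := hxQ'
    have hCF : ¬ C ⊆ Fc := fun h => hxF (h hxC)
    have h1ε : 0 < 1 + ε := by linarith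
    have hmain : 1 < ‖(H.symm x).1‖ + |(H.symm x).2| / (1 + ε) := by
      have hN : ‖(H.symm x).1‖ + |(H.symm x).2| = 1 + g x := by
        simp only [g, N1]; ring
      have hw0 : 0 ≤ w x := abs_nonneg _
      have hwle : w x * ε ≤ g x := by
        rcases hw0.eq_or_lt with h0 | h0
        · rw [← h0, zero_mul]; exact hgx.le
        · have h3 := hMle C hC hCF x hxC h0
          have h4 : M C ≤ max B 1 := (hB (mem_image_of_mem _ hC)).trans (le_max_left _ _)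
          calc w x * ε ≤ (M C * g x) * ε := mul_le_mul_of_nonneg_right h3 hε.le
            _ ≤ (max B 1 * g x) * ε := by gcongr
            _ = (max B 1 * ε) * g x := by ring
            _ ≤ 1 * g x := mul_le_mul_of_nonneg_right hεB hgx.le
            _ = g x := one_mul _
      have h5 : |(H.symm x).2| / (1 + ε) = |(H.symm x).2| - w x * (ε / (1 + ε)) := by
        simp only [w]; field_simp; ring
      have h6 : w x * (ε / (1 + ε)) < g x := by
        have e6 : w x * (ε / (1 + ε)) = (w x * ε) / (1 + ε) := by ring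
        rw [e6, div_lt_iff₀ h1ε]; nlinarith
      rw [h5]; linarith
    have hcont : Continuous fun y => ‖(H.symm y).1‖ + |(H.symm y).2| / (1 + ε) :=
      ((continuous_fst.comp H.symm.continuous).norm).add
        (((continuous_snd.comp H.symm.continuous).abs).div_const _)
    filter_upwards [(isOpen_lt continuous_const hcont).mem_nhds hmain] with y hy
    show H (P (H.symm y)) = y
    rw [hP2 _ (le_of_lt hy), H.apply_symm_apply]
  · have e1 : (H.symm.trans (P.trans H)) '' Fc = H '' (P '' (H.symm '' Fc)) := by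
      rw [← image_comp, ← image_comp]; rfl
    rw [e1, ← h1, ← image_comp H.symm H]
    have e2 : (H.symm ∘ H) '' Kp F = Kp F := by
      have : (H.symm ∘ H : F × ℝ → F × ℝ) = id := by ext1 p; simp
      rw [this, image_id]
    rw [e2, hPKp, h2]
  · rintro x ⟨hxF, hxD⟩
    have h3 := (memFc x).1 hxF
    have h4 := (memD x).1 hxD
    have h5 : (H.symm x).2 = 0 := le_antisymm h4.1 h3.1
    have h6 : ‖(H.symm x).1‖ = 1 := by
      have := h3.2
      simp only [N1, h5, abs_zero, add_zero] at this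
      exact this
    show H (P (H.symm x)) = x
    rw [hP2 _ (by rw [h5, h6]; simp), H.apply_symm_apply]


end Crest.Agent.R096.Lm_812
end

-- ▼ part R096/Lm2_812

/-!
# The local move, cell form (helper812, row 96, 2SK)

`cell_move`: a disc `Fc` in a flat face `Q` of a convex cell `P`, a disc `D` in `P` with the same
rim meeting the boundary of `P` only in the rim; then a PL homeomorphism, the identity off a compact
subset of `U ⊇ interior P ∪ Fc`, maps `Q` onto `(Q \ Fc) ∪ D`.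
`exists_cell`: a disc whose inside misses all the boundaries of the cells lies in one cell.
-/

namespace Crest.Agent.R096.Lm_812

open Set Metric Crest.Agent.R096.Pl Crest.Agent.R096.Ce_537

section Convex

variable {E : Type*} [NormedAddCommGroup E] [NormedSpace ℝ E]

/-- the closed inside of a sphere lying in a closed convex set lies in this set -/
theorem subset_of_sphere {K S P : Set E} (hK : IsCompact K) (hop : IsOpen (K \ S)) (hS : S ⊆ P)
    (hP : Convex ℝ P) (hPc : IsClosed P) (hPn : P.Nonempty) : K ⊆ P := by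
  intro x hx
  by_contra hxP
  obtain ⟨f, u, hu, hux⟩ := geometric_hahn_banach_closed_point hP hPc hxP
  obtain ⟨y, hyK, hy⟩ := hK.exists_isMaxOn ⟨x, hx⟩ f.continuous.continuousOn
  have hxy : f x ≤ f y := hy hx
  obtain ⟨a, ha⟩ := hPn
  have hyW : y ∈ K \ S := ⟨hyK, fun h => by have := hu y (hS h); linarith⟩
  have hcont : ContinuousAt (fun t : ℝ => y + t • (x - a)) 0 := by fun_prop
  have hev : ∀ᶠ t in nhds (0 : ℝ), y + t • (x - a) ∈ K \ S := by
    refine hcont.eventually_mem (hop.mem_nhds ?_)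
    simpa using hyW
  obtain ⟨r, hr, hr'⟩ := Metric.eventually_nhds_iff.1 hev
  have h1 : y + (r / 2) • (x - a) ∈ K \ S := hr' (by
    rw [Real.dist_eq, sub_zero, abs_of_pos (by positivity)]; linarith)
  have h2 : f (y + (r / 2) • (x - a)) ≤ f y := hy h1.1
  rw [map_add, map_smul, map_sub, smul_eq_mul] at h2
  have h3 : f a < f x := (hu a ha).trans hux
  have h4 : 0 < r / 2 * (f x - f a) := by
    apply mul_pos (by positivity); linarith
  linarith

/-- a disc whose inside lies in the union of disjoint open sets lies in the closure of one -/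
theorem exists_cell {k : ℕ} {ι : Type*} {D Γ : Set E} (hD : IsBall k D Γ) {I : ι → Set E}
    (hI : ∀ i, IsOpen (I i)) (hdis : ∀ i j, i ≠ j → Disjoint (I i) (I j))
    (hsub : D \ Γ ⊆ ⋃ i, I i) : ∃ i, D \ Γ ⊆ I i ∧ D ⊆ closure (I i) := by
  obtain ⟨x, hx⟩ := hD.nonempty_diff
  obtain ⟨i, hi⟩ := mem_iUnion.1 (hsub hx)
  have h : D \ Γ ⊆ I i := by
    refine hD.isPreconnected_diff.subset_left_of_subset_union (hI i)
      (isOpen_iUnion fun j : {j // j ≠ i} => hI j) ?_ ?_ ⟨x, hx, hi⟩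
    · rw [disjoint_iUnion_right]
      exact fun j => hdis i j (Ne.symm j.2)
    · intro y hy
      obtain ⟨j, hj⟩ := mem_iUnion.1 (hsub hy)
      by_cases hji : j = i
      · left; rw [← hji]; exact hj
      · right; exact mem_iUnion.2 ⟨⟨j, hji⟩, hj⟩
  refine ⟨i, h, ?_⟩
  rw [← hD.closure_diff]
  exact closure_mono h

end Convex

variable {F : Type*} [NormedAddCommGroup F] [NormedSpace ℝ F]

/-- **the local move, cell form**, the identity near the points of `Q \ Fc` -/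
theorem cell_move_near (hF : PolyNorm F) [FiniteDimensional ℝ F] [Nontrivial F]
    {P Q Γ Fc D U : Set (F × ℝ)} (hPc : Convex ℝ P) (hPk : IsClosed P) (hQ : VP Q)
    (hQP : Q ⊆ frontier P) (hFcQ : Fc ⊆ Q) (hrel : ∃ O, IsOpen O ∧ O ∩ Q = Fc \ Γ)
    (hDP : D ⊆ P) (hΓF : Γ ⊆ Fc) (hΓD : Γ ⊆ D) (hDf : D ∩ frontier P ⊆ Γ)
    (hS : StdS Fc D) (hU : IsOpen U) (hPU : interior P ⊆ U) (hFU : Fc ⊆ U) :
    ∃ ψ : (F × ℝ) ≃ₜ (F × ℝ), PLH ψ ∧ (∃ C ⊆ U, IsCompact C ∧ ∀ x ∉ C, ψ x = x) ∧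
      (∀ x ∈ Q \ Fc, ∀ᶠ y in nhds x, ψ y = y) ∧ ψ '' Fc = D ∧ ψ '' Q = (Q \ Fc) ∪ D ∧ ∀ x ∈ Γ, ψ x = x := by
  have hQf : ∀ x ∈ Q, x ∉ interior P := fun x hx => (hQP hx).2
  obtain ⟨H, hH, h1, h2⟩ := id hS
  have hS1 : H '' S1 F = Fc ∪ D := by rw [← Kp_union_Km, image_union, h1, h2]
  have hball : IsCompact {p : F × ℝ | N1 p ≤ 1} := by
    refine Metric.isCompact_of_isClosed_isBounded (isClosed_le N1_continuous continuous_const) ?_
    refine (Metric.isBounded_closedBall (x := (0 : F × ℝ)) (r := 1)).subset fun p hp => ?_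
    rw [mem_closedBall, dist_zero_right]
    exact (norm_le_N1 p).trans hp
  set K : Set (F × ℝ) := H '' {p | N1 p ≤ 1} with hKdef
  have hKc : IsCompact K := hball.image H.continuous
  have hsub : Fc ∪ D ⊆ K := by
    rw [← hS1]; exact image_mono fun p hp => le_of_eq hp
  have hKS : K \ (Fc ∪ D) = H '' {p | N1 p < 1} := by
    rw [← hS1, hKdef, ← image_sdiff H.injective]
    congr 1
    ext p
    simp only [mem_sdiff, mem_ofPred_eq, S1]
    exact ⟨fun h => lt_of_le_of_ne h.1 h.2, fun h => ⟨h.le, h.ne⟩⟩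
  have hop : IsOpen (K \ (Fc ∪ D)) := by
    rw [hKS]; exact H.isOpenMap _ (isOpen_lt N1_continuous continuous_const)
  have hne : (K \ (Fc ∪ D)).Nonempty := by
    rw [hKS]; exact ⟨_, 0, by simp [N1], rfl⟩
  have hFP : Fc ⊆ P := fun x hx => hPk.frontier_subset (hQP (hFcQ hx))
  have hPn : P.Nonempty := by
    obtain ⟨x, hx⟩ := hne
    by_contra hP
    rw [not_nonempty_iff_eq_empty] at hP
    have h3 : Fc ∪ D = ∅ := by
      rw [eq_empty_iff_forall_notMem]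
      rintro y (h | h)
      · have := hFP h; rw [hP] at this; exact this
      · have := hDP h; rw [hP] at this; exact this
    rw [← hS1, image_eq_empty] at h3
    obtain ⟨v, hv⟩ := exists_norm_eq F (c := (1 : ℝ)) zero_le_one
    have h4 : ((v, 0) : F × ℝ) ∈ S1 F := by simp [S1, N1, hv]
    rw [h3] at h4
    exact h4
  have hKP : K ⊆ P := subset_of_sphere hKc hop (union_subset hFP hDP) hPc hPk hPn
  have hWP : K \ (Fc ∪ D) ⊆ interior P := interior_maximal (sdiff_subset.trans hKP) hop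
  have hKQ : Q ∩ K = Fc := by
    apply Subset.antisymm
    · rintro x ⟨hxQ, hxK⟩
      by_contra hxF
      have hxD : x ∉ D := fun h => hxF (hΓF (hDf ⟨h, hQP hxQ⟩))
      exact hQf x hxQ (hWP ⟨hxK, by simp [hxF, hxD]⟩)
    · exact fun x hx => ⟨hFcQ hx, hsub (Or.inl hx)⟩
  have hKU : K ⊆ U := by
    intro x hx
    by_cases hxi : x ∈ interior P
    · exact hPU hxi
    · have hxf : x ∈ frontier P := ⟨subset_closure (hKP hx), hxi⟩
      by_cases hxF : x ∈ Fc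
      · exact hFU hxF
      · have hxD : x ∉ D := fun h => hxF (hΓF (hDf ⟨h, hxf⟩))
        exact absurd (hWP ⟨hx, by simp [hxF, hxD]⟩) hxi
  have hFD : Fc ∩ D = Γ := by
    apply Subset.antisymm
    · rintro x ⟨hxF, hxD⟩
      exact hDf ⟨hxD, hQP (hFcQ hxF)⟩
    · exact fun x hx => ⟨hΓF hx, hΓD hx⟩
  have hrel' : ∃ O, IsOpen O ∧ Fc \ D = Q ∩ O := by
    obtain ⟨O, hO, hOQ⟩ := hrel
    refine ⟨O, hO, ?_⟩
    rw [inter_comm Q O, hOQ]
    ext x
    constructor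
    · rintro ⟨h, h'⟩
      exact ⟨h, fun hΓ => h' (hΓD hΓ)⟩
    · rintro ⟨h, h'⟩
      exact ⟨h, fun hD => h' (hFD ▸ ⟨h, hD⟩)⟩
  -- a compact neighbourhood of `K` in `U`
  obtain ⟨C, hC, hKC, hCU⟩ := exists_compact_between hKc hU hKU
  obtain ⟨ψ, hψ, hψU, hψQ, hψF, hψΓ⟩ := exists_move_near hF hS hKc hsub hop hne
    (isOpen_interior (s := C)) hKC hQ hKQ hrel'
  refine ⟨ψ, hψ, ⟨C, hCU, hC, fun x hx => hψU x fun h => hx (interior_subset h)⟩, hψQ, hψF, ?_,
    fun x hx => hψΓ x (hFD ▸ hx)⟩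
  have e : Q = (Q \ Fc) ∪ Fc := (sdiff_union_of_subset hFcQ).symm
  conv_lhs => rw [e]
  rw [image_union, hψF]
  congr 1
  ext x
  constructor
  · rintro ⟨y, hy, rfl⟩
    rw [(hψQ y hy).self_of_nhds]; exact hy
  · intro hx
    exact ⟨x, hx, (hψQ x hx).self_of_nhds⟩


/-- the space of the row, with the PL Schoenflies statement for two discs as hypothesis -/
theorem disc_move_near
    (hP2 : ∀ A B Γ : Set ((ℝ × ℝ) × ℝ), IsBall 2 A Γ → IsBall 2 B Γ → A ∩ B = Γ → StdS A B)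
    {P Q Γ Fc D U : Set ((ℝ × ℝ) × ℝ)} (hPc : Convex ℝ P) (hPk : IsClosed P) (hQ : VP Q)
    (hQP : Q ⊆ frontier P) (hFcQ : Fc ⊆ Q) (hrel : ∃ O, IsOpen O ∧ O ∩ Q = Fc \ Γ)
    (hFc : IsBall 2 Fc Γ) (hD : IsBall 2 D Γ) (hDi : D \ Γ ⊆ interior P)
    (hU : IsOpen U) (hPU : interior P ⊆ U) (hFU : Fc ⊆ U) :
    ∃ ψ : ((ℝ × ℝ) × ℝ) ≃ₜ ((ℝ × ℝ) × ℝ), PLH ψ ∧
      (∃ C ⊆ U, IsCompact C ∧ ∀ x ∉ C, ψ x = x) ∧
      (∀ x ∈ Q \ Fc, ∀ᶠ y in nhds x, ψ y = y) ∧ ψ '' Fc = D ∧ ψ '' Q = (Q \ Fc) ∪ D ∧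
      ∀ x ∈ Γ, ψ x = x := by
  have hDP : D ⊆ P := by
    rw [← hD.closure_diff]
    exact closure_minimal (hDi.trans interior_subset) hPk
  have hDf : D ∩ frontier P ⊆ Γ := by
    rintro x ⟨hxD, hxf⟩
    by_contra hx
    exact hxf.2 (hDi ⟨hxD, hx⟩)
  have hFD : Fc ∩ D = Γ := by
    apply Subset.antisymm
    · rintro x ⟨hxF, hxD⟩
      exact hDf ⟨hxD, hQP (hFcQ hxF)⟩
    · exact fun x hx => ⟨hFc.subset hx, hD.subset hx⟩
  exact cell_move_near polyNorm_plane hPc hPk hQ hQP hFcQ hrel hDP hFc.subset hD.subset hDf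
    (hP2 _ _ _ hFc hD hFD) hU hPU hFU


end Crest.Agent.R096.Lm_812
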