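import Crest.Agent.R096.Mal5_874

-- ▼ part R096/Mal6_874
section

/-!
# Row 96, library (MESH-AL), part 6: the universal list, the list of a block, configurations of the
final mesh
-/

set_option autoImplicit false

open Set Filter Topology Metric

namespace Crest.Agent.R096.Mal_874

open Msh_715 Cut_874 Msh_810

variable {n : ℕ} {E : Type*} [NormedAddCommGroup E] [NormedSpace ℝ E]
variable {Om : Set E} {ι : Type*}

/-- the unit vectors and their opposites -/
noncomputable def N0 (n : ℕ) : Finset (Fin n → ℝ) := by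
  classical
  exact Finset.univ.image (fun m : Fin n => Pi.single m (1 : ℝ)) ∪
    Finset.univ.image (fun m : Fin n => fun l => -(Pi.single m (1 : ℝ) : Fin n → ℝ) l)

theorem single_mem_N0 (m : Fin n) : (Pi.single m (1 : ℝ) : Fin n → ℝ) ∈ N0 n := by
  classical
  unfold N0
  exact Finset.mem_union_left _ (Finset.mem_image_of_mem _ (Finset.mem_univ m))

theorem neg_single_mem_N0 (m : Fin n) :
    (fun l => -(Pi.single m (1 : ℝ) : Fin n → ℝ) l) ∈ N0 n := by
  classical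
  unfold N0
  exact Finset.mem_union_right _ (Finset.mem_image_of_mem
    (fun m : Fin n => fun l => -(Pi.single m (1 : ℝ) : Fin n → ℝ) l) (Finset.mem_univ m))

theorem N0_rat {d : ℕ} (hd : 0 < d) : ∀ ν ∈ N0 n, ∀ m, ∃ c : ℤ, ν m = c / d := by
  classical
  have hd' : (d : ℝ) ≠ 0 := by exact_mod_cast hd.ne'
  intro ν hν m
  unfold N0 at hν
  rcases Finset.mem_union.1 hν with h | h
  · obtain ⟨l, -, rfl⟩ := Finset.mem_image.1 h
    by_cases hml : m = l
    · subst hml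
      exact ⟨d, by simp [hd']⟩
    · exact ⟨0, by simp [Pi.single_eq_of_ne hml]⟩
  · obtain ⟨l, -, rfl⟩ := Finset.mem_image.1 h
    by_cases hml : m = l
    · subst hml
      refine ⟨-d, ?_⟩
      simp only [Pi.single_eq_same]
      push_cast
      rw [neg_div, div_self hd']
    · exact ⟨0, by simp [Pi.single_eq_of_ne hml]⟩

theorem dt_single (m : Fin n) (u : Fin n → ℝ) : dt (Pi.single m 1) u = u m := by
  unfold dt
  rw [Finset.sum_eq_single m]
  · rw [Pi.single_eq_same, one_mul]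
  · intro l _ h
    rw [Pi.single_eq_of_ne h, zero_mul]
  · intro h
    exact absurd (Finset.mem_univ m) h

/-- scaled coordinates `2 ^ k (φ x - a)` -/
noncomputable def chi (φ : E ≃L[ℝ] (Fin n → ℝ)) (a : Fin n → ℝ) (k : ℕ) :
    E ≃ᵃ[ℝ] (Fin n → ℝ) :=
  (φ.toLinearEquiv.toAffineEquiv.trans (AffineEquiv.constVAdd ℝ (Fin n → ℝ) (-a))).trans
    (LinearEquiv.smulOfNeZero ℝ (Fin n → ℝ) ((2 : ℝ) ^ k) (by positivity)).toAffineEquiv

theorem chi_apply (φ : E ≃L[ℝ] (Fin n → ℝ)) (a : Fin n → ℝ) (k : ℕ) (x : E) (m : Fin n) :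
    chi φ a k x m = 2 ^ k * (φ x m - a m) := by
  show (2 : ℝ) ^ k * ((-a) m + φ x m) = _
  rw [Pi.neg_apply]
  ring

theorem fr_self (φ : E ≃L[ℝ] (Fin n → ℝ)) (a : Fin n → ℝ) (k : ℕ) {𝒩 : Finset (Fin n → ℝ)}
    (h : N0 n ⊆ 𝒩) (d : ℕ) : Fr (chi φ a k) k 𝒩 d φ a := by
  intro m
  refine ⟨Pi.single m 1, h (single_mem_N0 m), h (neg_single_mem_N0 m), 0, fun y => ?_⟩
  rw [dt_single, chi_apply]
  simp

/-- the frame of a block: `ψ y - a' = M (φ y - a) - b` with rational `M`, `b` -/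
theorem fr_block {φ ψ : E ≃L[ℝ] (Fin n → ℝ)} {a a' : Fin n → ℝ} {k : ℕ} {𝒩 : Finset (Fin n → ℝ)}
    {d : ℕ} (M : Fin n → Fin n → ℝ) (b : Fin n → ℝ)
    (hM : ∀ y m, ψ y m - a' m = dt (M m) (fun l => φ y l - a l) - b m)
    (h1 : ∀ m, M m ∈ 𝒩 ∧ (fun l => -(M m l)) ∈ 𝒩)
    (h2 : ∀ m, ∃ c : ℤ, 2 ^ k * b m = c / d) : Fr (chi φ a k) k 𝒩 d ψ a' := by
  intro m
  obtain ⟨c, hc⟩ := h2 m
  refine ⟨M m, (h1 m).1, (h1 m).2, -c, fun y => ?_⟩
  rw [hM y m, mul_sub, hc]
  have e : dt (M m) (chi φ a k y) = 2 ^ k * dt (M m) (fun l => φ y l - a l) := by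
    unfold dt
    rw [Finset.mul_sum]
    refine Finset.sum_congr rfl fun l _ => ?_
    rw [chi_apply]
    ring
  rw [e]
  push_cast
  ring

/-! ### the universal list -/

/-- two neighbouring tiles of a Whitney mesh: the scales differ by at most one -/
theorem K_le_succ {D : Dat n} {τ : Cel D} {x : Fin n → ℝ} (hx : x ∈ τ.c) : K D x ≤ τ.1.k + 1 := by
  have h1 := τ.2.lower hx
  have h0 : 0 < D.ρ x := τ.2.pos hx
  have h2 := K_upper h0
  have hC := D.hC
  by_contra hcon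
  push Not at hcon
  have h3 : (2 : ℝ) ^ (τ.1.k + 2) ≤ 2 ^ (K D x) := pow_le_pow_right₀ (by norm_num) hcon
  rw [pow_add] at h3
  nlinarith

theorem size_tile {φ : E ≃L[ℝ] (Fin n → ℝ)} {a : Fin n → ℝ} {k k' : ℕ} {z : Fin n → ℤ} {x y : E}
    (hx : φ x ∈ Cu a k' z) (hy : φ y ∈ Cu a k' z) (m : Fin n) :
    |chi φ a k y m - chi φ a k x m| ≤ 2 ^ k / 2 ^ k' := by
  have hp : (0 : ℝ) < 2 ^ k' := by positivity
  have hk : (0 : ℝ) < 2 ^ k := by positivity
  have h1 := dist_le_of_mem_Cu hy hx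
  have h2 : dist (φ y m) (φ x m) ≤ dist (φ y) (φ x) := dist_le_pi_dist _ _ m
  rw [Real.dist_eq] at h2
  rw [chi_apply, chi_apply, ← mul_sub, abs_mul, abs_of_pos hk, le_div_iff₀ hp]
  have e : φ y m - a m - (φ x m - a m) = φ y m - φ x m := by ring
  rw [e]
  have h3 : 2 ^ k' * |φ y m - φ x m| ≤ 1 := (mul_le_mul_of_nonneg_left h2 hp.le).trans h1
  nlinarith

/-- **every tile of a Whitney mesh has a configuration of the universal list** -/
theorem sim_univ (φ : E ≃L[ℝ] (Fin n → ℝ)) (D : Dat n) (τ : Top D) :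
    ∃ z : Fin n → ℤ, (fun K => ((chi φ D.a (τ.1.1.k + 1)).trans (trz z)) '' K) ''
      cfg (tiling φ D) τ ∈ simL (N0 n) 1 2 := by
  refine sim_tile (s := 2 ^ (τ.1.1.k + 1)) (by positivity) one_pos (N0_rat one_pos) ?_ ?_
  · rintro l ⟨x, hl, hx⟩
    refine gf_cube one_pos (fr_self φ D.a _ subset_rfl 1) ?_ _
    exact (tile_k_le hl).trans (K_le_succ (mem_at.1 hx))
  · intro x hx y hy m
    have hx' : φ x ∈ Cu D.a τ.1.1.k τ.1.1.z := by
      have h1 : x ∈ P (Hc φ D.a τ.1.1.k τ.1.1.z) := hx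
      rwa [P_Hc] at h1
    have hy' : φ y ∈ Cu D.a τ.1.1.k τ.1.1.z := by
      have h1 : y ∈ P (Hc φ D.a τ.1.1.k τ.1.1.z) := hy
      rwa [P_Hc] at h1
    refine (size_tile (k := τ.1.1.k + 1) hx' hy' m).trans ?_
    rw [pow_succ, mul_comm, mul_div_assoc, div_self (by positivity), mul_one]

/-! ### configurations of patched and cut tilings -/

theorem cfg_congr {Om' : Set E} {ι' : Type*} {T : Tiling Om ι} {T' : Tiling Om' ι'} {i : ι} {i' : ι'}
    (hP : P (T.H i) = P (T'.H i')) (h : ∀ x ∈ P (T.H i), T.cc x = T'.cc x) :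
    cfg T i = cfg T' i' := by
  ext K
  constructor
  · rintro ⟨x, hx, rfl⟩
    exact ⟨x, hP ▸ hx, h x hx⟩
  · rintro ⟨x, hx, rfl⟩
    exact ⟨x, hP ▸ hx, (h x (hP ▸ hx)).symm⟩

/-- a tile all of whose neighbours are untouched keeps its configuration -/
theorem cfg_cut {T : Tiling Om ι} {A : ι → Finset ((E →L[ℝ] ℝ) × ℝ)} {hA : ∀ i, ∀ a ∈ A i, a.1 ≠ 0}
    {p : CutIx T A} (h : ∀ l, (P (T.H l) ∩ P (T.H p.par)).Nonempty → A l = ∅) :
    cfg (cut T A hA) p = cfg T p.par := by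
  have h0 : A p.par = ∅ := by
    obtain ⟨x, hx⟩ := T.ne p.par
    exact h p.par ⟨x, I_sub_P _ hx, I_sub_P _ hx⟩
  have hP : P ((cut T A hA).H p) = P (T.H p.par) := by
    refine Set.Subset.antisymm (cut_tile_sub p) ?_
    intro x hx
    refine mem_P_cutH.2 ⟨hx, ?_, ?_⟩
    · intro a ha
      have h1 : a ∈ A p.par := p.2.1 ha
      rw [h0] at h1
      exact absurd h1 (Finset.notMem_empty _)
    · intro a ha
      have h1 : a ∈ A p.par := ha
      rw [h0] at h1
      exact absurd h1 (Finset.notMem_empty _)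
  refine cfg_congr hP fun x hx => ?_
  exact cc_cut_eq fun l hl => h l ⟨x, hl, hP ▸ hx⟩

section blocks

variable {J : Type*} {T : Tiling Om ι} {Om' : J → Set E} {ι' : J → Type*}
  {S : ∀ j, Tiling (Om' j) (ι' j)} {N : J → Set E} {hT : ∀ j, IsUn T (N j)}
  {hS : ∀ j, IsUn (S j) (N j)} {hc : ∀ j, IsCompact (N j)} {hO : ∀ j, N j ⊆ Om' j}
  {hd : ∀ j l, j ≠ l → Disjoint (N j) (N l)}
  {hlf : ∀ x ∈ Om, ∃ r > 0, {j | (N j ∩ ball x r).Nonempty}.Finite}

/-- a tile off the blocks keeps its configuration -/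
theorem cfg_off {i : {i // i ∉ {i | P (T.H i) ⊆ ⋃ j, N j}}} (h : Disjoint (P (T.H i.1)) (⋃ j, N j)) :
    cfg (blocks T S hT hS hc hO hd hlf) (Sum.inl i) = cfg T i.1 :=
  cfg_congr rfl fun _ hx => (blocks_off (Set.disjoint_left.1 h hx)).1


end blocks

end Crest.Agent.R096.Mal_874
end

-- ▼ part R096/Mal7_874
section

/-!
# Row 96, library (MESH-AL), part 7: the layer tiles
-/

set_option autoImplicit false

open Set Filter Topology Metric

namespace Crest.Agent.R096.Mal_874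

open Msh_715 Cut_874 Msh_810

variable {n : ℕ} {E : Type*} [NormedAddCommGroup E] [NormedSpace ℝ E]

section layer

variable {J : Type*} {φ : E ≃L[ℝ] (Fin n → ℝ)} {D : Dat n}
  {ψ : J → E ≃L[ℝ] (Fin n → ℝ)} {a' : J → Fin n → ℝ} {κ : J → ℕ} {Z : J → Set (Fin n → ℤ)}
  {Om' : J → Set E} {ι' : J → Type*} {S : ∀ j, Tiling (Om' j) (ι' j)}
  {hT : ∀ j, IsUn (outer (tiling φ D) ψ a' κ Z) (blk (ψ j) (a' j) (κ j) (Z j))}
  {hS : ∀ j, IsUn (S j) (blk (ψ j) (a' j) (κ j) (Z j))}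
  {hc : ∀ j, IsCompact (blk (ψ j) (a' j) (κ j) (Z j))}
  {hO : ∀ j, blk (ψ j) (a' j) (κ j) (Z j) ⊆ Om' j}
  {hd : ∀ j l, j ≠ l → Disjoint (blk (ψ j) (a' j) (κ j) (Z j)) (blk (ψ l) (a' l) (κ l) (Z l))}
  {hlf : ∀ x ∈ φ ⁻¹' D.Om, ∃ r > 0,
    {j | (blk (ψ j) (a' j) (κ j) (Z j) ∩ ball x r).Nonempty}.Finite}

/-- the inequalities of a piece of the cut outer mesh are in good form -/
theorem gf_outer {χ : E → Fin n → ℝ} {k : ℕ} {𝒩 : Finset (Fin n → ℝ)} {d : ℕ} (hd : 0 < d)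
    (F0 : Fr χ k 𝒩 d φ D.a) {p : CutIx (tiling φ D) (AF (tiling φ D) ψ a' κ Z)}
    (F : ∀ j, (P ((tiling φ D).H p.par) ∩ frontier (blk (ψ j) (a' j) (κ j) (Z j))).Nonempty →
      Fr χ k 𝒩 d (ψ j) (a' j) ∧ κ j ≤ k) (hk : p.par.1.1.k ≤ k) :
    ∀ h ∈ (outer (tiling φ D) ψ a' κ Z).H p, ∃ ν, ∃ t : ℤ, GF χ (2 ^ k) 𝒩 d h ν t := by
  intro h hh
  rcases mem_cutH.1 hh with h1 | h1 | ⟨b, h1, -, rfl⟩
  · exact gf_cube hd F0 hk _ h h1
  · obtain ⟨j, hj, m, t, rfl, -⟩ := of_mem_AF (p.2.1 h1)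
    exact (gf_wall hd (F j hj).1 (F j hj).2 m t).1
  · obtain ⟨j, hj, m, t, rfl, -⟩ := of_mem_AF h1
    exact (gf_wall hd (F j hj).1 (F j hj).2 m t).2


end layer

/-! ### patching preserves unions of tiles -/

theorem IsUn.patch {Om : Set E} {ι κ : Type*} {T : Tiling Om ι} {A : Set ι}
    {H : κ → Finset ((E →L[ℝ] ℝ) × ℝ)} {R : Repl T A H} {N : Set E} (h : IsUn T N)
    (hsub : ∀ k, (P (H k) ∩ N).Nonempty → P (H k) ⊆ N) : IsUn (Mal_874.patch T A H R) N := by
  intro x hx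
  obtain ⟨i, hi, hN⟩ := h x hx
  by_cases hA : i ∈ A
  · have h1 : x ∈ ⋃ k, P (H k) := R.eq ▸ Set.mem_iUnion.2 ⟨i, Set.mem_iUnion.2 ⟨hA, hi⟩⟩
    obtain ⟨k, hk⟩ := Set.mem_iUnion.1 h1
    exact ⟨Sum.inr k, hk, hsub k ⟨x, hk, hx⟩⟩
  · exact ⟨Sum.inl ⟨i, hA⟩, hi, hN⟩

/-! ### fans and shells of frustums -/

/-- a complete fan with centre `b` and face functionals: `w τ` is the gauge of the box on the cone
`τ` -/
structure Fan (E : Type*) [NormedAddCommGroup E] [NormedSpace ℝ E] (Tc : Type*) where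
  /-- centre -/
  b : E
  /-- face functional -/
  w : Tc → E →L[ℝ] ℝ
  /-- sides of the cone -/
  S : Tc → Finset (E →L[ℝ] ℝ)
  /-- a direction inside the cone -/
  v : Tc → E
  v_neg : ∀ τ, ∀ π ∈ S τ, π (v τ) < 0
  v_one : ∀ τ, w τ (v τ) = 1
  cov : ∀ u : E, ∃ τ, ∀ π ∈ S τ, π u ≤ 0
  dis : ∀ τ τ', τ ≠ τ' → ∀ u : E, (∀ π ∈ S τ, π u < 0) → ¬ ∀ π ∈ S τ', π u < 0
  max : ∀ τ, ∀ u : E, (∀ π ∈ S τ, π u ≤ 0) → ∀ τ', w τ' u ≤ w τ u

namespace Fan

variable {Tc : Type*} (F : Fan E Tc)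

/-- the box of size `r` -/
def box (r : ℝ) : Set E := {x | ∀ τ, F.w τ (x - F.b) ≤ r}

/-- the frustum over the cone `τ` -/
def fr (d : ℝ) (τ : Tc) : Set E :=
  {x | (∀ π ∈ F.S τ, π (x - F.b) ≤ 0) ∧ 1 ≤ F.w τ (x - F.b) ∧ F.w τ (x - F.b) ≤ 1 + d}

/-- inequalities of the core -/
noncomputable def HC [Fintype Tc] : Finset ((E →L[ℝ] ℝ) × ℝ) := by
  classical
  exact Finset.univ.image fun τ => (F.w τ, F.w τ F.b + 1)

/-- inequalities of the frustum -/
noncomputable def HF (d : ℝ) (τ : Tc) : Finset ((E →L[ℝ] ℝ) × ℝ) := by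
  classical
  exact (F.S τ).image (fun π => (π, π F.b)) ∪
    {(F.w τ, F.w τ F.b + (1 + d)), (-F.w τ, -(F.w τ F.b + 1))}

theorem P_HC [Fintype Tc] : P F.HC = F.box 1 := by
  classical
  ext x
  unfold HC box P
  simp only [Finset.mem_image, Finset.mem_univ, true_and, Set.mem_ofPred_eq, forall_exists_index,
    forall_apply_eq_imp_iff, map_sub]
  refine forall_congr' fun τ => ?_
  constructor <;> intro h <;> linarith

theorem I_HC [Fintype Tc] : I F.HC = {x | ∀ τ, F.w τ (x - F.b) < 1} := by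
  classical
  ext x
  unfold HC I
  simp only [Finset.mem_image, Finset.mem_univ, true_and, Set.mem_ofPred_eq, forall_exists_index,
    forall_apply_eq_imp_iff, map_sub]
  refine forall_congr' fun τ => ?_
  constructor <;> intro h <;> linarith

theorem forall_HF {d : ℝ} {τ : Tc} {Q : (E →L[ℝ] ℝ) × ℝ → Prop} :
    (∀ h ∈ F.HF d τ, Q h) ↔ (∀ π ∈ F.S τ, Q (π, π F.b)) ∧ Q (F.w τ, F.w τ F.b + (1 + d)) ∧
      Q (-F.w τ, -(F.w τ F.b + 1)) := by
  classical
  unfold HF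
  simp only [Finset.mem_union, Finset.mem_image, Finset.mem_insert, Finset.mem_singleton]
  constructor
  · intro h
    exact ⟨fun π hπ => h _ (Or.inl ⟨π, hπ, rfl⟩), h _ (Or.inr (Or.inl rfl)), h _ (Or.inr (Or.inr rfl))⟩
  · rintro ⟨h1, h2, h3⟩ h (⟨π, hπ, rfl⟩ | rfl | rfl)
    · exact h1 π hπ
    · exact h2
    · exact h3

theorem P_HF (d : ℝ) (τ : Tc) : P (F.HF d τ) = F.fr d τ := by
  ext x
  change (∀ h ∈ F.HF d τ, h.1 x ≤ h.2) ↔ _
  rw [F.forall_HF (Q := fun h => h.1 x ≤ h.2)]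
  unfold fr
  simp only [Set.mem_ofPred_eq, map_sub]
  have e : (-F.w τ) x = -(F.w τ x) := rfl
  rw [e]
  constructor
  · rintro ⟨h1, h2, h3⟩
    exact ⟨fun π hπ => by have := h1 π hπ; linarith, by linarith, by linarith⟩
  · rintro ⟨h1, h2, h3⟩
    exact ⟨fun π hπ => by have := h1 π hπ; linarith, by linarith, by linarith⟩

theorem mem_I_HF {d : ℝ} {τ : Tc} {x : E} : x ∈ I (F.HF d τ) ↔
    (∀ π ∈ F.S τ, π (x - F.b) < 0) ∧ 1 < F.w τ (x - F.b) ∧ F.w τ (x - F.b) < 1 + d := by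
  change (∀ h ∈ F.HF d τ, h.1 x < h.2) ↔ _
  rw [F.forall_HF (Q := fun h => h.1 x < h.2)]
  simp only [map_sub]
  have e : (-F.w τ) x = -(F.w τ x) := rfl
  rw [e]
  constructor
  · rintro ⟨h1, h2, h3⟩
    exact ⟨fun π hπ => by have := h1 π hπ; linarith, by linarith, by linarith⟩
  · rintro ⟨h1, h2, h3⟩
    exact ⟨fun π hπ => by have := h1 π hπ; linarith, by linarith, by linarith⟩

/-- the inequalities of the core and its frustums -/
noncomputable def H [Fintype Tc] (d : ℝ) : Option Tc → Finset ((E →L[ℝ] ℝ) × ℝ)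
  | none => F.HC
  | some τ => F.HF d τ

theorem union [Fintype Tc] {d : ℝ} (hd : 0 < d) : ⋃ k, P (F.H d k) = F.box (1 + d) := by
  ext x
  simp only [Set.mem_iUnion]
  constructor
  · rintro ⟨_ | τ, h⟩
    · have h' : x ∈ P F.HC := h
      rw [P_HC] at h'
      intro τ
      have := h' τ
      linarith
    · have h' : x ∈ P (F.HF d τ) := h
      rw [P_HF] at h'
      intro τ'
      exact (F.max τ _ h'.1 τ').trans h'.2.2
  · intro h
    by_cases h1 : ∀ τ, F.w τ (x - F.b) ≤ 1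
    · refine ⟨none, ?_⟩
      show x ∈ P F.HC
      rw [P_HC]
      exact h1
    · push Not at h1
      obtain ⟨τ', h2⟩ := h1
      obtain ⟨τ, hτ⟩ := F.cov (x - F.b)
      refine ⟨some τ, ?_⟩
      show x ∈ P (F.HF d τ)
      rw [P_HF]
      exact ⟨hτ, (h2.trans_le (F.max τ _ hτ τ')).le, h τ⟩

theorem ne [Fintype Tc] {d : ℝ} (hd : 0 < d) (k : Option Tc) : (I (F.H d k)).Nonempty := by
  rcases k with _ | τ
  · refine ⟨F.b, ?_⟩
    show F.b ∈ I F.HC
    rw [I_HC]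
    intro τ
    simp
  · refine ⟨F.b + (1 + d / 2) • F.v τ, ?_⟩
    show F.b + (1 + d / 2) • F.v τ ∈ I (F.HF d τ)
    rw [mem_I_HF]
    simp only [add_sub_cancel_left, map_smul, smul_eq_mul, F.v_one]
    refine ⟨fun π hπ => ?_, by linarith, by linarith⟩
    have := F.v_neg τ π hπ
    nlinarith

theorem disj [Fintype Tc] {d : ℝ} {k l : Option Tc} (h : k ≠ l) :
    Disjoint (I (F.H d k)) (I (F.H d l)) := by
  rw [Set.disjoint_left]
  intro x hx hy
  rcases k with _ | τ <;> rcases l with _ | τ'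
  · exact h rfl
  · have h1 : x ∈ I F.HC := hx
    have h2 : x ∈ I (F.HF d τ') := hy
    rw [I_HC] at h1
    rw [mem_I_HF] at h2
    exact absurd (h1 τ') (not_lt.2 h2.2.1.le)
  · have h1 : x ∈ I F.HC := hy
    have h2 : x ∈ I (F.HF d τ) := hx
    rw [I_HC] at h1
    rw [mem_I_HF] at h2
    exact absurd (h1 τ) (not_lt.2 h2.2.1.le)
  · have h1 : x ∈ I (F.HF d τ) := hx
    have h2 : x ∈ I (F.HF d τ') := hy
    rw [mem_I_HF] at h1 h2
    exact F.dis τ τ' (fun e => h (by rw [e])) _ h1.1 h2.1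


end Fan



end Crest.Agent.R096.Mal_874
end

-- ▼ part R096/Mal8_874

/-!
# Row 96, library (MESH-AL), part 8: explicit size functions
-/

set_option autoImplicit false

open Set Filter Topology Metric

namespace Crest.Agent.R096.Mal_874

open Msh_715 Cut_874 Msh_810

variable {n : ℕ}

/-! ### the size function of a block -/

/-- size function of a block: `C 2^-kc` deep inside, `C 2^-k` at the wall `W` -/
noncomputable def blkD (W : Set (Fin n → ℝ)) (C : ℝ) (hC : 1 < C) (kc k : ℕ) (a : Fin n → ℝ)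
    (h : C ≤ 2 ^ kc) : Dat n where
  ρ x := min (C / 2 ^ kc) (C / 2 ^ k + infDist x W)
  C := C
  a := a
  lip x y := by
    have h1 := infDist_le_infDist_add_dist (s := W) (x := x) (y := y)
    rcases le_total (C / 2 ^ kc) (C / 2 ^ k + infDist y W) with h2 | h2
    · rw [min_eq_left h2]
      exact (min_le_left _ _).trans (by linarith [dist_nonneg (x := x) (y := y)])
    · rw [min_eq_right h2]
      exact (min_le_right _ _).trans (by linarith)
  nonneg x := le_min (by positivity) (by have := infDist_nonneg (s := W) (x := x); positivity)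
  le_one x := (min_le_left _ _).trans (by
    rw [div_le_one (by positivity)]
    exact h)
  hC := hC

section

variable {W : Set (Fin n → ℝ)} {C : ℝ} {hC : 1 < C} {kc k : ℕ} {a : Fin n → ℝ} {h : C ≤ 2 ^ kc}












end

/-! ### the size function outside -/

/-- the family of size functions -/
noncomputable def outF {J : Type*} (ρ0 : (Fin n → ℝ) → ℝ) (C : ℝ) (k : J → ℕ)
    (W : J → Set (Fin n → ℝ)) (x : Fin n → ℝ) : Option J → ℝ
  | none => ρ0 x
  | some j => C / 2 ^ k j + infDist x (W j)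

theorem outF_nonneg {J : Type*} {ρ0 : (Fin n → ℝ) → ℝ} {C : ℝ} (hC : 0 < C)
    (h0 : ∀ x, 0 ≤ ρ0 x) {k : J → ℕ}
    {W : J → Set (Fin n → ℝ)} (x : Fin n → ℝ) (o : Option J) : 0 ≤ outF ρ0 C k W x o := by
  rcases o with _ | j
  · exact h0 x
  · have := infDist_nonneg (s := W j) (x := x)
    show 0 ≤ C / 2 ^ k j + infDist x (W j)
    positivity

/-- size function of the outer mesh: `≤ ρ0`, and `≈ C 2^-k j` at the walls `W j` -/
noncomputable def outD {J : Type*} (D0 : Dat n) (k : J → ℕ) (W : J → Set (Fin n → ℝ))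
    (a : Fin n → ℝ) : Dat n where
  ρ x := ⨅ o, outF D0.ρ D0.C k W x o
  C := D0.C
  a := a
  lip x y := by
    have hC : 0 < D0.C := D0.C_pos
    have hbd : BddBelow (range (outF D0.ρ D0.C k W x)) :=
      ⟨0, by rintro _ ⟨o, rfl⟩; exact outF_nonneg hC D0.nonneg x o⟩
    rw [← sub_le_iff_le_add]
    refine le_ciInf fun o => ?_
    have h1 : ⨅ o, outF D0.ρ D0.C k W x o ≤ outF D0.ρ D0.C k W x o := ciInf_le hbd o
    have h2 : outF D0.ρ D0.C k W x o ≤ outF D0.ρ D0.C k W y o + dist x y := by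
      rcases o with _ | j
      · exact D0.lip x y
      · have := infDist_le_infDist_add_dist (s := W j) (x := x) (y := y)
        show D0.C / 2 ^ k j + infDist x (W j) ≤ D0.C / 2 ^ k j + infDist y (W j) + dist x y
        linarith
    linarith
  nonneg x := le_ciInf fun o => outF_nonneg D0.C_pos D0.nonneg x o
  le_one x := by
    have hbd : BddBelow (range (outF D0.ρ D0.C k W x)) :=
      ⟨0, by rintro _ ⟨o, rfl⟩; exact outF_nonneg D0.C_pos D0.nonneg x o⟩
    exact (ciInf_le hbd none).trans (D0.le_one x)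
  hC := D0.hC

section

variable {J : Type*} {D0 : Dat n} {k : J → ℕ} {W : J → Set (Fin n → ℝ)} {a : Fin n → ℝ}

theorem outD_C : (outD D0 k W a).C = D0.C := rfl


theorem outD_le (x : Fin n → ℝ) (o : Option J) : (outD D0 k W a).ρ x ≤ outF D0.ρ D0.C k W x o :=
  ciInf_le ⟨0, by rintro _ ⟨o, rfl⟩; exact outF_nonneg D0.C_pos D0.nonneg x o⟩ o

theorem outD_le_ρ0 (x : Fin n → ℝ) : (outD D0 k W a).ρ x ≤ D0.ρ x := outD_le x none

theorem le_outD {x : Fin n → ℝ} {r : ℝ} (h0 : r ≤ D0.ρ x)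
    (h : ∀ j, r ≤ D0.C / 2 ^ k j + infDist x (W j)) : r ≤ (outD D0 k W a).ρ x := by
  refine le_ciInf fun o => ?_
  rcases o with _ | j
  · exact h0
  · exact h j

/-- the domain does not change -/
theorem outD_Om (hne : ∀ j, (W j).Nonempty)
    (hlf : ∀ x ∈ D0.Om, ∃ r > 0, {j | (W j ∩ ball x r).Nonempty}.Finite) :
    (outD D0 k W a).Om = D0.Om := by
  have hC := D0.C_pos
  ext x
  constructor
  · intro hx
    exact lt_of_lt_of_le hx (outD_le_ρ0 x)
  · intro hx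
    obtain ⟨r, hr, hf⟩ := hlf x hx
    have hm : ∃ m > 0, ∀ j ∈ {j | (W j ∩ ball x r).Nonempty}, m ≤ D0.C / 2 ^ k j := by
      have h2 := hf.exists_finset_coe
      obtain ⟨s, hs⟩ := h2
      by_cases hne' : s.Nonempty
      · obtain ⟨j0, hj0, hmin⟩ := s.exists_min_image (fun j => D0.C / 2 ^ k j) hne'
        refine ⟨D0.C / 2 ^ k j0, by positivity, fun j hj => hmin j ?_⟩
        rw [← hs] at hj
        exact hj
      · refine ⟨1, one_pos, fun j hj => ?_⟩
        rw [← hs] at hj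
        exact absurd ⟨j, hj⟩ hne'
    obtain ⟨m, hm0, hm⟩ := hm
    have hx0 : 0 < D0.ρ x := hx
    have h3 : min (D0.ρ x) (min m r) ≤ (outD D0 k W a).ρ x := by
      refine le_outD (min_le_left _ _) fun j => ?_
      have h5 := infDist_nonneg (s := W j) (x := x)
      by_cases hj : (W j ∩ ball x r).Nonempty
      · have h6 := hm j hj
        have : min (D0.ρ x) (min m r) ≤ m := (min_le_right _ _).trans (min_le_left _ _)
        linarith
      · have h6 : r ≤ infDist x (W j) := by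
          rw [le_infDist (hne j)]
          intro y hy
          by_contra hcon
          push Not at hcon
          exact hj ⟨y, hy, by rw [mem_ball, dist_comm]; exact hcon⟩
        have : min (D0.ρ x) (min m r) ≤ r := (min_le_right _ _).trans (min_le_right _ _)
        have h7 : 0 < D0.C / 2 ^ k j := by positivity
        linarith
    exact lt_of_lt_of_le (lt_min hx0 (lt_min hm0 hr)) h3

/-- near the wall `W j` the scale is exactly `k j` -/
theorem outD_K_wall {j : J} {x : Fin n → ℝ} (hx : infDist x (W j) < D0.C / 2 ^ k j)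
    (h0 : ∀ y, dist x y ≤ (2 ^ k j)⁻¹ → D0.C / 2 ^ k j ≤ D0.ρ y)
    (h1 : ∀ y, dist x y ≤ (2 ^ k j)⁻¹ → ∀ l, l ≠ j → D0.C / 2 ^ k j ≤ infDist y (W l)) :
    K (outD D0 k W a) x = k j := by
  have hC := D0.C_pos
  have hp : (0 : ℝ) < 2 ^ k j := by positivity
  refine K_eq_of ?_ ?_
  · intro y hy
    have h2 : D0.C / 2 ^ k j ≤ (outD D0 k W a).ρ y := by
      refine le_outD (h0 y hy) fun l => ?_
      by_cases hl : l = j
      · subst hl
        have := infDist_nonneg (s := W l) (x := y)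
        linarith
      · have h3 := h1 y hy l hl
        have h4 : 0 < D0.C / 2 ^ k l := by positivity
        linarith
    calc (outD D0 k W a).C = 2 ^ k j * (D0.C / 2 ^ k j) := by rw [outD_C]; field_simp
      _ ≤ _ := mul_le_mul_of_nonneg_left h2 hp.le
  · have h2 := outD_le (D0 := D0) (k := k) (W := W) (a := a) x (some j)
    have h3 : outF D0.ρ D0.C k W x (some j) = D0.C / 2 ^ k j + infDist x (W j) := rfl
    rw [h3] at h2
    rw [outD_C]
    calc (2 : ℝ) ^ k j * (outD D0 k W a).ρ x ≤ 2 ^ k j * (D0.C / 2 ^ k j + infDist x (W j)) :=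
          mul_le_mul_of_nonneg_left h2 hp.le
      _ < 2 ^ k j * (D0.C / 2 ^ k j + D0.C / 2 ^ k j) := by
          refine mul_lt_mul_of_pos_left ?_ hp
          linarith
      _ = 2 * D0.C := by field_simp; ring

end

end Crest.Agent.R096.Mal_874
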