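import Crest.Agent.R096.Grd7_714
import Crest.Agent.R096.Rel2_628

-- ▼ part R096/Rlp1_150
section

/-!
# R096 (row 96), REL-P, part 1 (helper150): homogenisation and clamps

`hom g τ x = τ g (x/τ)`, `clp t m e = max (min t (m + e)) (m - e)`.
-/

set_option autoImplicit false
set_option linter.unusedSectionVars false

open Set

namespace Crest.Agent.R096.Rlp_150

open Crest.Agent.R096.Rel_628 Crest.Agent.R096.Grd_714

section hom

variable {V : Type*} [NormedAddCommGroup V] [NormedSpace ℝ V]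

/-- homogenisation -/
noncomputable def hom (g : V → ℝ) (τ : ℝ) (x : V) : ℝ := τ * g (τ⁻¹ • x)

theorem hom_zero (g : V → ℝ) (x : V) : hom g 0 x = 0 := by simp [hom]

theorem hom_mul {g : V → ℝ} {τ : ℝ} (hτ : 0 < τ) (x : V) : hom g τ (τ • x) = τ * g x := by
  rw [hom, smul_smul, inv_mul_cancel₀ hτ.ne', one_smul]

theorem hom_lip {D : Set V} {g : V → ℝ} {L : ℝ} (hL : 0 ≤ L)
    (hg : ∀ x ∈ D, ∀ x' ∈ D, |g x - g x'| ≤ L * ‖x - x'‖) (hb : ∀ x ∈ D, |g x| ≤ 1)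
    {τ τ' : ℝ} {x x' : V} (hτ : 0 ≤ τ) (hτ' : 0 ≤ τ') (hx : τ⁻¹ • x ∈ D) (hx' : τ'⁻¹ • x' ∈ D)
    (nx : ‖x‖ ≤ τ) (nx' : ‖x'‖ ≤ τ') :
    |hom g τ x - hom g τ' x'| ≤ L * ‖x - x'‖ + (L + 1) * |τ - τ'| := by
  wlog hle : τ' ≤ τ generalizing τ τ' x x'
  · have := this hτ' hτ hx' hx nx' nx (not_le.1 hle).le
    rwa [abs_sub_comm, norm_sub_rev, abs_sub_comm τ' τ] at this
  have h3 : 0 ≤ τ - τ' := sub_nonneg.2 hle
  have e3 : |τ - τ'| = τ - τ' := abs_of_nonneg h3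
  rcases hτ'.eq_or_lt with h0 | h0
  · subst h0
    rw [hom_zero, sub_zero, hom, abs_mul, abs_of_nonneg hτ, e3, sub_zero]
    have h1 := hb _ hx
    have h2 : 0 ≤ L * ‖x - x'‖ := mul_nonneg hL (norm_nonneg _)
    nlinarith
  · have ht : 0 < τ := h0.trans_le hle
    have e : hom g τ x - hom g τ' x' =
        (τ - τ') * g (τ⁻¹ • x) + τ' * (g (τ⁻¹ • x) - g (τ'⁻¹ • x')) := by
      simp only [hom]; ring
    have h1 := hb _ hx
    have h2 := hg _ hx _ hx'
    have h4 : τ' * ‖τ⁻¹ • x - τ'⁻¹ • x'‖ ≤ ‖x - x'‖ + (τ - τ') := by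
      have e4 : τ' * ‖τ⁻¹ • x - τ'⁻¹ • x'‖ = ‖τ' • (τ⁻¹ • x - τ'⁻¹ • x')‖ := by
        rw [norm_smul, Real.norm_of_nonneg h0.le]
      have e5 : τ' • (τ⁻¹ • x - τ'⁻¹ • x') = (x - x') - ((τ - τ') / τ) • x := by
        rw [smul_sub, smul_smul, smul_smul, mul_inv_cancel₀ h0.ne', one_smul]
        have : (τ - τ') / τ = 1 - τ' * τ⁻¹ := by field_simp
        rw [this, sub_smul, one_smul]
        abel
      rw [e4, e5]
      refine (norm_sub_le _ _).trans (add_le_add_right ?_ _)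
      rw [norm_smul, Real.norm_of_nonneg (div_nonneg h3 ht.le), div_mul_eq_mul_div,
        div_le_iff₀ ht]
      exact mul_le_mul_of_nonneg_left nx h3
    rw [e, e3]
    calc |(τ - τ') * g (τ⁻¹ • x) + τ' * (g (τ⁻¹ • x) - g (τ'⁻¹ • x'))|
        ≤ |(τ - τ') * g (τ⁻¹ • x)| + |τ' * (g (τ⁻¹ • x) - g (τ'⁻¹ • x'))| := abs_add_le _ _
      _ = (τ - τ') * |g (τ⁻¹ • x)| + τ' * |g (τ⁻¹ • x) - g (τ'⁻¹ • x')| := by
          rw [abs_mul, abs_mul, e3, abs_of_nonneg h0.le]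
      _ ≤ (τ - τ') * 1 + L * (‖x - x'‖ + (τ - τ')) := by
          refine add_le_add (mul_le_mul_of_nonneg_left h1 h3) ?_
          calc τ' * |g (τ⁻¹ • x) - g (τ'⁻¹ • x')| ≤ τ' * (L * ‖τ⁻¹ • x - τ'⁻¹ • x'‖) :=
                mul_le_mul_of_nonneg_left h2 h0.le
            _ = L * (τ' * ‖τ⁻¹ • x - τ'⁻¹ • x'‖) := by ring
            _ ≤ _ := mul_le_mul_of_nonneg_left h4 hL
      _ = _ := by ring

variable {X : Type*} [NormedAddCommGroup X] [NormedSpace ℝ X] {W : Type*} [NormedAddCommGroup W]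
  [NormedSpace ℝ W] {K : Set X}

theorem sel_prod {f : X → V} {g : X → W} (hf : Sel K f) (hg : Sel K g) :
    Sel K (fun x => (f x, g x)) := by
  obtain ⟨S, hS, h1⟩ := hf
  obtain ⟨S', hS', h2⟩ := hg
  refine ⟨image2 (fun a b => a.prod b) S S', hS.image2 _ hS', fun x hx => ?_⟩
  obtain ⟨a, ha, e⟩ := h1 x hx
  obtain ⟨a', ha', e'⟩ := h2 x hx
  exact ⟨a.prod a', mem_image2_of_mem ha ha', by
    show (f x, g x) = _
    rw [AffineMap.prod_apply, e, e']⟩

theorem sel_hom {D : Set V} {g : V → ℝ} (hg : Sel D g) {τ : X → ℝ} {x : X → V} (hτ : Sel K τ)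
    (hx : Sel K x) (h0 : ∀ z ∈ K, τ z = 0 → x z = 0) (hm : ∀ z ∈ K, (τ z)⁻¹ • x z ∈ D) :
    Sel K (fun z => hom g (τ z) (x z)) := by
  have key : Sel {p : ℝ × V | (p.1 = 0 → p.2 = 0) ∧ p.1⁻¹ • p.2 ∈ D} (fun p => hom g p.1 p.2) := by
    obtain ⟨S, hS, h1⟩ := hg
    refine ⟨(fun a : V →ᵃ[ℝ] ℝ => (a.linear.comp (LinearMap.snd ℝ ℝ V) +
      (a 0) • LinearMap.fst ℝ ℝ V).toAffineMap) '' S, hS.image _, fun p hp => ?_⟩
    obtain ⟨a, ha, e⟩ := h1 _ hp.2
    refine ⟨_, mem_image_of_mem _ ha, ?_⟩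
    have e2 : a (p.1⁻¹ • p.2) = p.1⁻¹ * a.linear p.2 + a 0 := by
      have := a.decomp
      have h3 : a (p.1⁻¹ • p.2) = a.linear (p.1⁻¹ • p.2) + a 0 := congrFun this _
      rw [h3, map_smul, smul_eq_mul]
    simp only [hom, e, e2, LinearMap.coe_toAffineMap, LinearMap.add_apply, LinearMap.comp_apply,
      LinearMap.snd_apply, LinearMap.smul_apply, LinearMap.fst_apply, smul_eq_mul]
    by_cases h : p.1 = 0
    · rw [hp.1 h, h]; simp
    · field_simp
      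
  exact key.comp (sel_prod hτ hx) fun z hz => ⟨h0 z hz, hm z hz⟩

end hom

/-! ## clamps -/

/-- clamp of `t` between `m - e` and `m + e` -/
noncomputable def clp (t m e : ℝ) : ℝ := max (min t (m + e)) (m - e)

theorem clp_zero (t m : ℝ) : clp t m 0 = m := by
  simp [clp]

theorem clp_of_abs {t m e : ℝ} (h : |t - m| ≤ e) : clp t m e = t := by
  rw [abs_le] at h
  rw [clp, min_eq_left (by linarith), max_eq_left (by linarith)]

theorem clp_self {m e : ℝ} (h : 0 ≤ e) : clp m m e = m := clp_of_abs (by simpa using h)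

theorem clp_mono {t t' m m' : ℝ} (e : ℝ) (h : t ≤ t') (hm : m ≤ m') : clp t m e ≤ clp t' m' e :=
  max_le_max (min_le_min h (by linarith)) (by linarith)

theorem clp_lt {t t' m m' : ℝ} (e : ℝ) (h : t < t') (hm : m < m') : clp t m e < clp t' m' e :=
  max_lt_max (min_lt_min h (by linarith)) (by linarith)

theorem clp_mul {τ : ℝ} (hτ : 0 ≤ τ) (t m e : ℝ) : τ * clp t m e = clp (τ * t) (τ * m) (τ * e) := by
  rw [clp, clp, mul_max_of_nonneg _ _ hτ, mul_min_of_nonneg _ _ hτ, mul_add, mul_sub]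

theorem clp_add (s t m e : ℝ) : s + clp t m e = clp (s + t) (s + m) e := by
  rw [clp, clp, add_max, add_min, ← add_assoc, add_sub_assoc]


theorem clp_sub_le {t t' m m' e e' A : ℝ} (h1 : t - t' ≤ A) (h2 : (m + e) - (m' + e') ≤ A)
    (h3 : (m - e) - (m' - e') ≤ A) : clp t m e - clp t' m' e' ≤ A := by
  have : clp t m e ≤ clp t' m' e' + A := by
    refine max_le ?_ ?_
    · have : min t (m + e) ≤ min t' (m' + e') + A := by
        rw [min_add]
        exact min_le_min (by linarith) (by linarith)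
      exact this.trans (by simp only [clp]; linarith [le_max_left (min t' (m' + e')) (m' - e')])
    · have := le_max_right (min t' (m' + e')) (m' - e')
      simp only [clp]; linarith
  linarith

theorem abs_clp_sub {t t' m m' e e' A : ℝ} (h1 : |t - t'| ≤ A) (h2 : |m - m'| + |e - e'| ≤ A) :
    |clp t m e - clp t' m' e'| ≤ A := by
  rw [abs_le] at h1 ⊢
  have a1 := le_abs_self (m - m')
  have a2 := neg_abs_le (m - m')
  have a3 := le_abs_self (e - e')
  have a4 := neg_abs_le (e - e')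
  constructor
  · have := clp_sub_le (t := t') (t' := t) (m := m') (m' := m) (e := e') (e' := e) (A := A)
      (by linarith) (by linarith) (by linarith)
    linarith
  · exact clp_sub_le (by linarith) (by linarith) (by linarith)

theorem sel_clp {X : Type*} [NormedAddCommGroup X] [NormedSpace ℝ X] {K : Set X} {t m e : X → ℝ}
    (ht : Sel K t) (hm : Sel K m) (he : Sel K e) : Sel K (fun x => clp (t x) (m x) (e x)) :=
  (ht.min (hm.add he)).max (hm.sub he)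

/-- the clamped relabelling is a relabelling -/
theorem rl_clp {I : Type*} {σ : I → ℝ → ℝ} (h : Rl σ) {e : ℝ} (he : 0 ≤ e) :
    Rl (fun a x => clp (σ a x) x e) where
  zero c := by rw [h.zero]; exact clp_self he
  one c := by rw [h.one]; exact clp_self he
  mono c := fun x hx y hy hxy => clp_lt e (h.mono c hx hy hxy) hxy
  cont c := ContinuousOn.sup (ContinuousOn.inf (h.cont c) (continuousOn_id.add continuousOn_const))
    (continuousOn_id.sub continuousOn_const)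

/-- clamped heights are admissible -/
theorem adm_clp {N : ℝ × ℝ → ℝ} (A : Adm N) {e : ℝ} (he : 0 ≤ e) :
    Adm (fun w => clp (N w) (min w.1 w.2) e) where
  m1 x x' y hx hx' hy hle := by
    obtain ⟨h1, h2⟩ := A.m1 x x' y hx hx' hy hle
    have h3 : min x' y ≤ min x y := min_le_min hle le_rfl
    have h4 : min x y - min x' y ≤ x - x' := by
      have : min x y ≤ min x' y + (x - x') := by
        rw [min_add]
        exact min_le_min (by linarith) (by linarith)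
      linarith
    exact ⟨clp_mono e h1 h3, clp_sub_le h2 (by simp only; linarith) (by simp only; linarith)⟩
  m2 x y y' hx hy hy' hle := by
    obtain ⟨h1, h2⟩ := A.m2 x y y' hx hy hy' hle
    have h3 : min x y' ≤ min x y := min_le_min le_rfl hle
    have h4 : min x y - min x y' ≤ y - y' := by
      have : min x y ≤ min x y' + (y - y') := by
        rw [min_add]
        exact min_le_min (by linarith) (by linarith)
      linarith
    exact ⟨clp_mono e h1 h3, clp_sub_le h2 (by simp only; linarith) (by simp only; linarith)⟩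
  st x x' y y' hx hx' hy hy' hlx hly := by
    have h1 := A.st x x' y y' hx hx' hy hy' hlx hly
    have h4 : min x y - min x' y' < (x - x') + (y - y') := by
      rcases le_total x' y' with h | h
      · have := min_le_left x y
        rw [min_eq_left h]; linarith
      · have := min_le_right x y
        rw [min_eq_right h]; linarith
    set B := max (N (x, y) - N (x', y')) (min x y - min x' y') with hB
    have h5 : clp (N (x, y)) (min x y) e - clp (N (x', y')) (min x' y') e ≤ B :=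
      clp_sub_le (le_max_left _ _) (by have := le_max_right (N (x, y) - N (x', y'))
                                        (min x y - min x' y'); linarith)
        (by have := le_max_right (N (x, y) - N (x', y')) (min x y - min x' y'); linarith)
    exact h5.trans_lt (max_lt h1 h4)
  bd w hw ho := by
    show clp (N w) (min w.1 w.2) e = _
    rw [A.bd w hw ho]; exact clp_self he

theorem sym_clp {I : Type*} {N : I → I → ℝ × ℝ → ℝ} (h : Sym N) (e : ℝ) :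
    Sym (fun c c' w => clp (N c c' w) (min w.1 w.2) e) := fun c c' x y => by
  show clp (N c' c (y, x)) (min y x) e = clp (N c c' (x, y)) (min x y) e
  rw [h c c' x y, min_comm]

theorem Adm.nonneg' {N : ℝ × ℝ → ℝ} (A : Adm N) {w : ℝ × ℝ} (hw : w ∈ Sc) : 0 ≤ N w := by
  have h0 : ((0, w.2) : ℝ × ℝ) ∈ Sc := ⟨⟨le_rfl, zero_le_one⟩, hw.2⟩
  have h1 := A.bd (0, w.2) h0 (fun h => lt_irrefl _ h.1.1)
  have h2 := (A.m1 w.1 0 w.2 hw.1 ⟨le_rfl, zero_le_one⟩ hw.2 hw.1.1).1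
  rw [h1, min_eq_left hw.2.1] at h2
  exact h2

theorem Adm.le_one' {N : ℝ × ℝ → ℝ} (A : Adm N) {w : ℝ × ℝ} (hw : w ∈ Sc) : N w ≤ 1 := by
  have h0 : ((0, w.2) : ℝ × ℝ) ∈ Sc := ⟨⟨le_rfl, zero_le_one⟩, hw.2⟩
  have h1 := A.bd (0, w.2) h0 (fun h => lt_irrefl _ h.1.1)
  have h2 := (A.m1 w.1 0 w.2 hw.1 ⟨le_rfl, zero_le_one⟩ hw.2 hw.1.1).2
  rw [h1, min_eq_left hw.2.1] at h2
  linarith [hw.1.2]

theorem Adm.lip' {N : ℝ × ℝ → ℝ} (A : Adm N) {w w' : ℝ × ℝ} (hw : w ∈ Sc) (hw' : w' ∈ Sc) :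
    |N w - N w'| ≤ 2 * ‖w - w'‖ := by
  have h1 := A.diff hw hw'
  have h2 := A.diff hw' hw
  have n1 : |w.1 - w'.1| ≤ ‖w - w'‖ := by
    have := norm_fst_le (w - w'); simpa using this
  have n2 : |w.2 - w'.2| ≤ ‖w - w'‖ := by
    have := norm_snd_le (w - w'); simpa using this
  rw [abs_le] at n1 n2 ⊢
  have m1 : max (w.1 - w'.1) 0 ≤ ‖w - w'‖ := max_le n1.2 (norm_nonneg _)
  have m2 : max (w.2 - w'.2) 0 ≤ ‖w - w'‖ := max_le n2.2 (norm_nonneg _)
  have m3 : max (w'.1 - w.1) 0 ≤ ‖w - w'‖ := max_le (by linarith) (norm_nonneg _)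
  have m4 : max (w'.2 - w.2) 0 ≤ ‖w - w'‖ := max_le (by linarith) (norm_nonneg _)
  constructor <;> linarith

end Crest.Agent.R096.Rlp_150
end

-- ▼ part R096/Rlp2_150
section

/-!
# R096 (row 96), REL-P, part 2 (helper150): the layers `{gauge = 1 - δ}` of a cell of a foam

`dl C c0 u = min_{a ≠ c0} u a` (1 - gauge).
-/

set_option autoImplicit false
set_option linter.unusedSectionVars false

open Set

namespace Crest.Agent.R096.Rlp_150

open Crest.Agent.R096.Brk1_582 Crest.Agent.R096.Brk2_582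
open Crest.Agent.R096.Rel_628 Crest.Agent.R096.Grd_714

variable {E : Type*} [NormedAddCommGroup E] [NormedSpace ℝ E] {I : Type*}
variable {La : Set E} {P : I → Set E} {b : Set I → E}

open Classical in
/-- the least coordinate off `c0` -/
noncomputable def dl (C : Finset I) (c0 : I) (u : I → ℝ) : ℝ := (C.erase c0).fold min 1 u

section dl

variable {C : Finset I} {c0 : I} {u u' : I → ℝ}

theorem dl_le_one : dl C c0 u ≤ 1 := by
  classical
  rw [dl, Finset.fold_min_le]; exact Or.inl le_rfl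

theorem le_dl {x : ℝ} (h1 : x ≤ 1) (h : ∀ a, a ≠ c0 → x ≤ u a) : x ≤ dl C c0 u := by
  classical
  rw [dl, Finset.le_fold_min]
  exact ⟨h1, fun a ha => h a (Finset.ne_of_mem_erase ha)⟩

theorem le_dl' {x : ℝ} (h1 : x ≤ 1) (h : ∀ a ∈ C, a ≠ c0 → x ≤ u a) : x ≤ dl C c0 u := by
  classical
  rw [dl, Finset.le_fold_min]
  exact ⟨h1, fun a ha => h a (Finset.mem_of_mem_erase ha) (Finset.ne_of_mem_erase ha)⟩

theorem dl_le {a : I} (ha : a ∈ C) (h : a ≠ c0) : dl C c0 u ≤ u a := by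
  classical
  rw [dl, Finset.fold_min_le]
  exact Or.inr ⟨a, Finset.mem_erase.2 ⟨h, ha⟩, le_rfl⟩

theorem exists_dl (h : dl C c0 u < 1) : ∃ a ∈ C, a ≠ c0 ∧ u a = dl C c0 u := by
  classical
  have h1 : (C.erase c0).fold min 1 u ≤ dl C c0 u := le_rfl
  rw [Finset.fold_min_le] at h1
  rcases h1 with h1 | ⟨a, ha, h2⟩
  · exact absurd h (not_lt.2 h1)
  · exact ⟨a, Finset.mem_of_mem_erase ha, Finset.ne_of_mem_erase ha,
      le_antisymm h2 (dl_le (Finset.mem_of_mem_erase ha) (Finset.ne_of_mem_erase ha))⟩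

theorem dl_sub_le {t : ℝ} (ht : 0 ≤ t) (h : ∀ a, u a - u' a ≤ t) : dl C c0 u - dl C c0 u' ≤ t := by
  have : dl C c0 u - t ≤ dl C c0 u' := by
    refine le_dl' (by linarith [dl_le_one (C := C) (c0 := c0) (u := u)]) fun a ha hne => ?_
    have := dl_le (u := u) ha hne
    linarith [h a]
  linarith

theorem abs_dl_sub {t : ℝ} (ht : 0 ≤ t) (h : ∀ a, |u a - u' a| ≤ t) :
    |dl C c0 u - dl C c0 u'| ≤ t := by
  rw [abs_le]
  constructor
  · have := dl_sub_le (C := C) (c0 := c0) (u := u') (u' := u) ht fun a => by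
      have := (abs_le.1 (h a)).1; linarith
    linarith
  · exact dl_sub_le ht fun a => (abs_le.1 (h a)).2

end dl

variable (F : Foam La P b 4) {c0 : I}

/-- points of the cell: coordinates -/
def KC (P : I → Set E) (c0 : I) : Set (I → ℝ) := {u | u ∈ K P ∧ u c0 = 0}

/-- points of the boundary of the cell: coordinates -/
def KB (P : I → Set E) (c0 : I) : Set (I → ℝ) := {u | u ∈ K P ∧ u c0 = 0 ∧ ∃ d, d ≠ c0 ∧ u d = 0}

theorem KB_sub_K2 {u : I → ℝ} (h : u ∈ KB P c0) : u ∈ K2 P := by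
  obtain ⟨h1, h2, d, hd, h3⟩ := h
  exact ⟨h1, c0, d, hd.symm, h2, h3⟩

theorem KB_of_K2 {u : I → ℝ} (h : u ∈ K2 P) (h0 : u c0 = 0) : u ∈ KB P c0 := by
  obtain ⟨h1, c, c', hne, h2, h3⟩ := h
  by_cases e : c = c0
  · exact ⟨h1, h0, c', fun h' => hne (e.trans h'.symm), h3⟩
  · exact ⟨h1, h0, c, e, h2⟩

section lay

variable [CompleteSpace E]

include F

theorem KC_one {u : I → ℝ} (hu : u ∈ KC P c0) {a : I} (ha : a ∉ nbF F c0) : u a = 1 :=
  one_of_not_nbF F hu.1 hu.2 ha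

theorem dl_le_all {u : I → ℝ} (hu : u ∈ KC P c0) {a : I} (ha : a ≠ c0) :
    dl (nbF F c0) c0 u ≤ u a := by
  by_cases h : a ∈ nbF F c0
  · exact dl_le h ha
  · rw [KC_one F hu h]; exact dl_le_one

theorem dl_nonneg {u : I → ℝ} (hu : u ∈ KC P c0) : 0 ≤ dl (nbF F c0) c0 u :=
  le_dl zero_le_one fun a _ => (hu.1.1 a).1


theorem one_of_dl {u : I → ℝ} (hu : u ∈ KC P c0) (h : dl (nbF F c0) c0 u = 1) {a : I}
    (ha : a ≠ c0) : u a = 1 :=
  le_antisymm (hu.1.1 a).2 (by rw [← h]; exact dl_le_all F hu ha)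

omit F in
theorem cone_c0 (μ : ℝ) (u : I → ℝ) : cone {c0} μ u c0 = 0 := by simp [cone]

omit F in
theorem cone_ne (μ : ℝ) (u : I → ℝ) {a : I} (h : a ≠ c0) :
    cone {c0} μ u a = (1 - μ) + μ * u a := by simp [cone, h]

omit F in
theorem cone_one {u : I → ℝ} (h0 : u c0 = 0) : cone {c0} 1 u = u := by
  funext a
  by_cases h : a = c0
  · rw [h, cone_c0, h0]
  · rw [cone_ne _ _ h]; ring

omit F in
theorem cone_mem' {u : I → ℝ} (hu : u ∈ KC P c0) {μ : ℝ} (h0 : 0 ≤ μ) (h1 : μ ≤ 1) :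
    cone {c0} μ u ∈ KC P c0 := by
  refine ⟨?_, cone_c0 _ _⟩
  rcases h1.eq_or_lt with rfl | h
  · rw [cone_one hu.2]; exact hu.1
  · exact Foam.cone_mem_K (singleton_nonempty _) hu.1 (by rintro _ rfl; exact hu.2) h0 h

theorem dl_cone {w : I → ℝ} (hw : w ∈ KB P c0) {μ : ℝ} (h0 : 0 ≤ μ) (h1 : μ ≤ 1) :
    dl (nbF F c0) c0 (cone {c0} μ w) = 1 - μ := by
  have hC := cone_mem' (c0 := c0) ⟨hw.1, hw.2.1⟩ h0 h1
  apply le_antisymm
  · obtain ⟨_, _, d, hd, h3⟩ := hw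
    have := dl_le_all F hC hd
    rw [cone_ne _ _ hd, h3, mul_zero, add_zero] at this
    exact this
  · refine le_dl (by linarith) fun a ha => ?_
    rw [cone_ne _ _ ha]
    have := mul_nonneg h0 (hw.1.1 a).1
    linarith

omit F in
theorem up_cone {w : I → ℝ} (hw : w ∈ KC P c0) {μ : ℝ} (h0 : 0 < μ) (h1 : μ ≤ 1) :
    up (1 - μ) (cone {c0} μ w) = w := by
  funext a
  have e : 1 - (1 - μ) = μ := by ring
  simp only [up, e]
  by_cases h : a = c0
  · rw [h, cone_c0, hw.2]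
    exact max_eq_left (div_nonpos_of_nonpos_of_nonneg (by linarith) h0.le)
  · rw [cone_ne _ _ h, add_sub_cancel_left, mul_div_cancel_left₀ _ h0.ne']
    exact max_eq_right (hw.1.1 a).1


/-- every point of the cell which is not the centre is in a layer -/
theorem exists_cone {u : I → ℝ} (hu : u ∈ KC P c0) (h : dl (nbF F c0) c0 u < 1) :
    up (dl (nbF F c0) c0 u) u ∈ KB P c0 ∧
      u = cone {c0} (1 - dl (nbF F c0) c0 u) (up (dl (nbF F c0) c0 u) u) := by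
  have h0 := dl_nonneg F hu
  set δ := dl (nbF F c0) c0 u with hδ
  have h1 : 0 < 1 - δ := by linarith
  have hK := Foam.up_mem_K hu.1 h0 h
  have hc0 : up δ u c0 = 0 := (Foam.up_eq_zero h c0).2 (by rw [hu.2]; exact h0)
  obtain ⟨d, hd, hdc, hde⟩ := exists_dl h
  refine ⟨⟨hK, hc0, d, hdc, (Foam.up_eq_zero h d).2 (by rw [hde])⟩, ?_⟩
  funext a
  by_cases ha : a = c0
  · rw [ha, cone_c0, hu.2]
  · rw [cone_ne _ _ ha]
    have h2 : δ ≤ u a := dl_le_all F hu ha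
    simp only [up]
    rw [max_eq_right (div_nonneg (by linarith) h1.le)]
    field_simp
    ring

theorem eq_center {u : I → ℝ} (hu : u ∈ KC P c0) (h : dl (nbF F c0) c0 u = 1) {w : I → ℝ}
    (hw : w ∈ KC P c0) : u = cone {c0} 0 w := by
  funext a
  by_cases ha : a = c0
  · rw [ha, cone_c0, hu.2]
  · rw [cone_ne _ _ ha, one_of_dl F hu h ha]; ring

theorem T_cone' {u : I → ℝ} (hu : u ∈ KC P c0) {μ : ℝ} (h0 : 0 ≤ μ) (h1 : μ ≤ 1) :
    T b (cone {c0} μ u) = b {c0} + μ • (T b u - b {c0}) := by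
  rcases h1.eq_or_lt with rfl | h
  · rw [cone_one hu.2]; module
  · exact F.T_cone (singleton_nonempty _) hu.1 (by rintro _ rfl; exact hu.2) h0 h

theorem sc_mem_KC {y : E} (hy : y ∈ P c0) : sc P b y ∈ KC P c0 :=
  ⟨F.sc_mem_K (F.sub c0 hy), (F.sc_eq_zero (F.sub c0 hy)).2 hy⟩

theorem T_mem_P {u : I → ℝ} (hu : u ∈ KC P c0) : T b u ∈ P c0 :=
  mem_fc.1 (F.T_mem_fc hu.1) c0 hu.2

theorem eq_b_of_dl {y : E} (hy : y ∈ P c0) (h : dl (nbF F c0) c0 (sc P b y) = 1) : y = b {c0} := by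
  have hu := sc_mem_KC F hy
  rw [← F.T_sc (F.sub c0 hy), eq_center F hu h hu, T_cone' F hu le_rfl zero_le_one]
  simp

theorem b_mem (hne : (P c0).Nonempty) : b {c0} ∈ P c0 := by
  have h1 : (fc P {c0}).Nonempty := by simpa [fc] using hne
  have := F.mem {c0} (singleton_nonempty _) h1
  simpa [fc] using this

end lay

end Crest.Agent.R096.Rlp_150
end

-- ▼ part R096/Rlp3_150

/-!
# R096 (row 96), REL-P, part 3 (helper150): the map `Rm`, layer by layer; it is a bijection of the cell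

`lvm e` = map of the boundary of the cell with relabelling `clp (σ a x) x e` and heights
`clp (N w) (min w) e`; `Rm` = `lvm (Ef δ / (1 - δ))` on the layer `gauge = 1 - δ`.
-/

set_option autoImplicit false
set_option linter.unusedSectionVars false
set_option linter.unusedVariables false

open Set

namespace Crest.Agent.R096.Rlp_150

open Crest.Agent.R096.Brk1_582 Crest.Agent.R096.Brk2_582
open Crest.Agent.R096.Rel_628 Crest.Agent.R096.Grd_714

variable {E : Type*} [NormedAddCommGroup E] [NormedSpace ℝ E] {I : Type*}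
variable {La : Set E} {P : I → Set E} {b : Set I → E}

/-- clamped relabelling -/
noncomputable def cs (σ : I → ℝ → ℝ) (e : ℝ) : I → ℝ → ℝ := fun a x => clp (σ a x) x e

/-- clamped heights -/
noncomputable def Nc (N : I → I → ℝ × ℝ → ℝ) (e : ℝ) : I → I → ℝ × ℝ → ℝ :=
  fun c c' w => clp (N c c' w) (min w.1 w.2) e

/-- the map of the boundary -/
noncomputable def lvm (b : Set I → E) (σ : I → ℝ → ℝ) (N : I → I → ℝ × ℝ → ℝ) (e : ℝ)
    (w : I → ℝ) : E := Bn b (Nc N e) (sg (cs σ e) w)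

open Classical in
/-- **the map of the cell** -/
noncomputable def Rm (P : I → Set E) (b : Set I → E) (C : Finset I) (c0 : I) (σ : I → ℝ → ℝ)
    (N : I → I → ℝ × ℝ → ℝ) (Ef : ℝ → ℝ) (y : E) : E :=
  if dl C c0 (sc P b y) = 1 then b {c0} else
    b {c0} + (1 - dl C c0 (sc P b y)) •
      (lvm b σ N (Ef (dl C c0 (sc P b y)) / (1 - dl C c0 (sc P b y)))
        (up (dl C c0 (sc P b y)) (sc P b y)) - b {c0})

section main

variable [CompleteSpace E] (F : Foam La P b 4) (hQ : Quads P b) {c0 : I}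
variable {σ : I → ℝ → ℝ} (hσ : Rl σ) {N : I → I → ℝ × ℝ → ℝ} (hA : ∀ c1 c2, Adm (N c1 c2))
  (hN : Sym N) {Ef : ℝ → ℝ} (hE : ∀ δ, 0 ≤ Ef δ)

omit [CompleteSpace E] in
theorem rl_cs (hσ : Rl σ) {e : ℝ} (he : 0 ≤ e) : Rl (cs σ e) := rl_clp hσ he

theorem adm_Nc (hA : ∀ c1 c2, Adm (N c1 c2)) {e : ℝ} (he : 0 ≤ e) (c1 c2 : I) :
    Adm (Nc N e c1 c2) := adm_clp (hA c1 c2) he

theorem sym_Nc (hN : Sym N) (e : ℝ) : Sym (Nc N e) := sym_clp hN e


theorem sg_mem_KB {τ : I → ℝ → ℝ} (h : Rl τ) {w : I → ℝ} (hw : w ∈ KB P c0) :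
    sg τ w ∈ KB P c0 := by
  obtain ⟨h1, h2, d, hd, h3⟩ := hw
  exact ⟨sg_mem_K h h1, by simp only [sg, h2]; exact h.zero c0, d, hd,
    by simp only [sg, h3]; exact h.zero d⟩

theorem sg_inj {τ : I → ℝ → ℝ} (h : Rl τ) {w w' : I → ℝ} (hw : w ∈ KC P c0) (hw' : w' ∈ KC P c0)
    (he : sg τ w = sg τ w') : w = w' := by
  funext a
  exact (h.mono a).injOn (hw.1.1 a) (hw'.1.1 a) (congrFun he a)

include F hQ hσ hA hN

/-- the image of a boundary point is a boundary point -/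
theorem lvm_mem {e : ℝ} (he : 0 ≤ e) {w : I → ℝ} (hw : w ∈ KB P c0) :
    lvm b σ N e w ∈ P c0 ∧ sc P b (lvm b σ N e w) ∈ KB P c0 := by
  have h1 := sg_mem_KB (rl_cs hσ he) hw
  have h2 : lvm b σ N e w ∈ La := Bn_mem_La (adm_Nc hA he) (sym_Nc hN e) F hQ (KB_sub_K2 h1)
  have h3 : act P (lvm b σ N e w) = {c | sg (cs σ e) w c = 0} :=
    act_Bn (adm_Nc hA he) (sym_Nc hN e) F hQ (KB_sub_K2 h1)
  obtain ⟨h4, h5, d, hd, h6⟩ := h1
  have m0 : lvm b σ N e w ∈ P c0 := (Set.ext_iff.1 h3 c0).2 h5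
  have m1 : lvm b σ N e w ∈ P d := (Set.ext_iff.1 h3 d).2 h6
  exact ⟨m0, F.sc_mem_K h2, (F.sc_eq_zero h2).2 m0, d, hd, (F.sc_eq_zero h2).2 m1⟩

/-- `lvm` is injective on the boundary -/
theorem lvm_inj {e : ℝ} (he : 0 ≤ e) {w w' : I → ℝ} (hw : w ∈ KB P c0) (hw' : w' ∈ KB P c0)
    (h : lvm b σ N e w = lvm b σ N e w') : w = w' := by
  have h1 := sg_mem_KB (rl_cs hσ he) hw
  have h1' := sg_mem_KB (rl_cs hσ he) hw'
  have := Bn_injOn (adm_Nc hA he) (sym_Nc hN e) F hQ (KB_sub_K2 h1) (KB_sub_K2 h1') h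
  exact sg_inj (rl_cs hσ he) ⟨hw.1, hw.2.1⟩ ⟨hw'.1, hw'.2.1⟩ this

/-- `lvm` is onto the boundary -/
theorem exists_lvm {e : ℝ} (he : 0 ≤ e) {w : I → ℝ} (hw : w ∈ KB P c0) :
    ∃ w' ∈ KB P c0, lvm b σ N e w' = T b w := by
  obtain ⟨h1, h2, d, hd, h3⟩ := id hw
  have hz := F.act_T h1
  have m0 : T b w ∈ P c0 := (Set.ext_iff.1 hz c0).2 h2
  have m1 : T b w ∈ P d := (Set.ext_iff.1 hz d).2 h3
  obtain ⟨u, hu, hBu⟩ := exists_Bn (adm_Nc hA he) (sym_Nc hN e) F hQ (F.T_mem_La h1) hd m1 m0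
  have h4 := act_Bn (adm_Nc hA he) (sym_Nc hN e) F hQ hu
  rw [hBu, hz] at h4
  have hu0 : u c0 = 0 := (Set.ext_iff.1 h4 c0).1 h2
  have huB : u ∈ KB P c0 := KB_of_K2 hu hu0
  obtain ⟨τ, hτ, hl, hr⟩ := (rl_cs hσ he).exists_inv
  refine ⟨sg τ u, sg_mem_KB hτ huB, ?_⟩
  have h5 : sg (cs σ e) (sg τ u) = u := funext fun a => hr a _ (huB.1.1 a)
  rw [lvm, h5, hBu]

include hE

theorem Rm_center {y : E} (hy : y ∈ P c0) (h : dl (nbF F c0) c0 (sc P b y) = 1) :
    Rm P b (nbF F c0) c0 σ N Ef y = b {c0} := by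
  rw [Rm, if_pos h]

/-- **`Rm` on a layer** -/
theorem Rm_cone {w : I → ℝ} (hw : w ∈ KB P c0) {μ : ℝ} (h0 : 0 < μ) (h1 : μ ≤ 1) :
    Rm P b (nbF F c0) c0 σ N Ef (T b (cone {c0} μ w)) =
      b {c0} + μ • (lvm b σ N (Ef (1 - μ) / μ) w - b {c0}) := by
  have hC := cone_mem' (c0 := c0) ⟨hw.1, hw.2.1⟩ h0.le h1
  have e1 : sc P b (T b (cone {c0} μ w)) = cone {c0} μ w := F.sc_T hC.1
  have e2 := dl_cone F hw h0.le h1
  rw [Rm, e1, e2, if_neg (by linarith), up_cone ⟨hw.1, hw.2.1⟩ h0 h1]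
  have e3 : 1 - (1 - μ) = μ := by ring
  rw [e3]

/-- `Rm` on a layer, coordinates of the image -/
theorem Rm_cone' {w : I → ℝ} (hw : w ∈ KB P c0) {μ : ℝ} (h0 : 0 < μ) (h1 : μ ≤ 1) :
    Rm P b (nbF F c0) c0 σ N Ef (T b (cone {c0} μ w)) =
      T b (cone {c0} μ (sc P b (lvm b σ N (Ef (1 - μ) / μ) w))) := by
  have he : 0 ≤ Ef (1 - μ) / μ := div_nonneg (hE _) h0.le
  obtain ⟨m1, m2⟩ := lvm_mem F hQ hσ hA hN he hw
  rw [Rm_cone F hQ hσ hA hN hE hw h0 h1, T_cone' F ⟨m2.1, m2.2.1⟩ h0.le h1, F.T_sc (F.sub c0 m1)]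

theorem Rm_mapsTo : MapsTo (Rm P b (nbF F c0) c0 σ N Ef) (P c0) (P c0) := by
  intro y hy
  have hu := sc_mem_KC F hy
  rcases (dl_le_one (C := nbF F c0) (c0 := c0) (u := sc P b y)).eq_or_lt with h | h
  · rw [Rm_center F hQ hσ hA hN hE hy h]; exact b_mem F ⟨y, hy⟩
  · obtain ⟨h1, h2⟩ := exists_cone F hu h
    have h3 := dl_nonneg F hu
    have hy' : y = T b (sc P b y) := (F.T_sc (F.sub c0 hy)).symm
    set δ := dl (nbF F c0) c0 (sc P b y) with hδ
    have h4 : 0 < 1 - δ := by linarith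
    have h5 : (1 : ℝ) - δ ≤ 1 := by linarith
    rw [hy', h2, Rm_cone' F hQ hσ hA hN hE h1 h4 h5]
    obtain ⟨m1, m2⟩ := lvm_mem F hQ hσ hA hN
      (div_nonneg (hE (1 - (1 - δ))) h4.le) h1
    exact T_mem_P F (cone_mem' ⟨m2.1, m2.2.1⟩ h4.le h5)

/-- `Rm` preserves the gauge -/
theorem dl_Rm {y : E} (hy : y ∈ P c0) :
    dl (nbF F c0) c0 (sc P b (Rm P b (nbF F c0) c0 σ N Ef y)) = dl (nbF F c0) c0 (sc P b y) := by
  have hu := sc_mem_KC F hy
  rcases (dl_le_one (C := nbF F c0) (c0 := c0) (u := sc P b y)).eq_or_lt with h | h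
  · rw [Rm_center F hQ hσ hA hN hE hy h, ← eq_b_of_dl F hy h]
  · obtain ⟨h1, h2⟩ := exists_cone F hu h
    have h3 := dl_nonneg F hu
    set δ := dl (nbF F c0) c0 (sc P b y) with hδ
    have hy' : y = T b (sc P b y) := (F.T_sc (F.sub c0 hy)).symm
    have h4 : 0 < 1 - δ := by linarith
    have h5 : (1 : ℝ) - δ ≤ 1 := by linarith
    rw [hy', h2, Rm_cone' F hQ hσ hA hN hE h1 h4 h5]
    obtain ⟨m1, m2⟩ := lvm_mem F hQ hσ hA hN
      (div_nonneg (hE (1 - (1 - δ))) h4.le) h1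
    rw [F.sc_T (cone_mem' ⟨m2.1, m2.2.1⟩ h4.le h5).1, dl_cone F m2 h4.le h5]
    ring

theorem Rm_injOn : InjOn (Rm P b (nbF F c0) c0 σ N Ef) (P c0) := by
  intro y hy y' hy' he
  have hu := sc_mem_KC F hy
  have hu' := sc_mem_KC F hy'
  have hd := dl_Rm F hQ hσ hA hN hE hy
  have hd' := dl_Rm F hQ hσ hA hN hE hy'
  rw [he, hd'] at hd
  rcases (dl_le_one (C := nbF F c0) (c0 := c0) (u := sc P b y)).eq_or_lt with h | h
  · rw [eq_b_of_dl F hy h, eq_b_of_dl F hy' (hd.trans h)]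
  · obtain ⟨h1, h2⟩ := exists_cone F hu h
    obtain ⟨h1', h2'⟩ := exists_cone F hu' (by rw [hd]; exact h)
    rw [hd] at h1' h2'
    have h3 := dl_nonneg F hu
    set δ := dl (nbF F c0) c0 (sc P b y) with hδ
    have e1 : y = T b (sc P b y) := (F.T_sc (F.sub c0 hy)).symm
    have e1' : y' = T b (sc P b y') := (F.T_sc (F.sub c0 hy')).symm
    have h4 : 0 < 1 - δ := by linarith
    have h5 : (1 : ℝ) - δ ≤ 1 := by linarith
    have E1 : y = T b (cone {c0} (1 - δ) (up δ (sc P b y))) := by rw [← h2]; exact e1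
    have E1' : y' = T b (cone {c0} (1 - δ) (up δ (sc P b y'))) := by rw [← h2']; exact e1'
    rw [E1, E1', Rm_cone F hQ hσ hA hN hE h1 h4 h5, Rm_cone F hQ hσ hA hN hE h1' h4 h5] at he
    have h6 := smul_right_injective E h4.ne' (add_left_cancel he)
    have h7 := lvm_inj F hQ hσ hA hN (div_nonneg (hE (1 - (1 - δ))) h4.le) h1 h1'
      (sub_left_inj.1 h6)
    rw [E1, E1', h7]

theorem Rm_surjOn : SurjOn (Rm P b (nbF F c0) c0 σ N Ef) (P c0) (P c0) := by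
  intro y hy
  have hu := sc_mem_KC F hy
  rcases (dl_le_one (C := nbF F c0) (c0 := c0) (u := sc P b y)).eq_or_lt with h | h
  · exact ⟨y, hy, by rw [Rm_center F hQ hσ hA hN hE hy h, eq_b_of_dl F hy h]⟩
  · obtain ⟨h1, h2⟩ := exists_cone F hu h
    have h3 := dl_nonneg F hu
    set δ := dl (nbF F c0) c0 (sc P b y) with hδ
    have e1 : y = T b (sc P b y) := (F.T_sc (F.sub c0 hy)).symm
    have h4 : 0 < 1 - δ := by linarith
    have h5 : (1 : ℝ) - δ ≤ 1 := by linarith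
    obtain ⟨w, hw, hwe⟩ := exists_lvm F hQ hσ hA hN
      (div_nonneg (hE (1 - (1 - δ))) h4.le) h1
    refine ⟨T b (cone {c0} (1 - δ) w), T_mem_P F (cone_mem' ⟨hw.1, hw.2.1⟩ h4.le h5), ?_⟩
    rw [Rm_cone F hQ hσ hA hN hE hw h4 h5, hwe, ← T_cone' F ⟨h1.1, h1.2.1⟩ h4.le h5, ← h2]
    exact e1.symm

/-- **radial form** -/
theorem Rm_ray {z : E} (hz : z ∈ P c0) {d : I} (hd : d ≠ c0) (hzd : z ∈ P d) {ρ : ℝ} (h0 : 0 < ρ)
    (h1 : ρ ≤ 1) : Rm P b (nbF F c0) c0 σ N Ef (b {c0} + ρ • (z - b {c0})) =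
      b {c0} + ρ • (lvm b σ N (Ef (1 - ρ) / ρ) (sc P b z) - b {c0}) := by
  have hzL := F.sub c0 hz
  have hw : sc P b z ∈ KB P c0 := ⟨F.sc_mem_K hzL, (F.sc_eq_zero hzL).2 hz, d, hd,
    (F.sc_eq_zero hzL).2 hzd⟩
  rw [← Rm_cone F hQ hσ hA hN hE hw h0 h1, T_cone' F ⟨hw.1, hw.2.1⟩ h0.le h1, F.T_sc hzL]

end main

end Crest.Agent.R096.Rlp_150
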