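import Crest.Agent.R096.Rlp4_150
import Crest.Agent.R096.Brk5_582
import Crest.Agent.R096.Ncl1_914
import Crest.Agent.R096.Rlp3_150
import Crest.Agent.R096.Cmh1_63
import Crest.Agent.R096.Fl1_835
import Crest.Agent.R096.Grd7_714
import Crest.Agent.R096.Bin8_181
import Crest.Agent.R096.Xq1_537
import Crest.Agent.R096.Xq2_537
import Crest.Agent.R096.Bin9_181

-- ▼ part R096/Rlp5_150
section

/-!
# R096 (row 96), REL-P, part 5 (helper150): `Rm` is Lipschitz on the cell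

`(2L+..)`: with `diam P c0 ≤ D`, `sc` `S`-Lipschitz on `P c0`, `σ` `L`-Lipschitz, `Ef` 1-Lipschitz:
`‖Rm y - Rm y'‖ ≤ D * S * (27 L + 24) * ‖y - y'‖`.
-/

set_option autoImplicit false
set_option linter.unusedSectionVars false
set_option linter.unusedVariables false

open Set

namespace Crest.Agent.R096.Rlp_150

open Crest.Agent.R096.Brk1_582 Crest.Agent.R096.Brk2_582
open Crest.Agent.R096.Rel_628 Crest.Agent.R096.Grd_714

variable {E : Type*} [NormedAddCommGroup E] [NormedSpace ℝ E] {I : Type*}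
variable {La : Set E} {P : I → Set E} {b : Set I → E}

theorem inv_mem {δ x : ℝ} (h1 : δ ≤ 1) (hx : x ∈ Icc (0 : ℝ) (1 - δ)) :
    (1 - δ)⁻¹ * x ∈ Icc (0 : ℝ) 1 := by
  rcases h1.eq_or_lt with h | h
  · rw [h]; simp
  · have h2 : 0 < 1 - δ := by linarith
    refine ⟨mul_nonneg (inv_nonneg.2 h2.le) hx.1, ?_⟩
    rw [inv_mul_le_iff₀ h2, mul_one]
    exact hx.2

theorem hh_lip {N : I → I → ℝ × ℝ → ℝ} (hA : ∀ c1 c2, Adm (N c1 c2)) {Ef : ℝ → ℝ}
    {c1 c2 : I} {δ δ' : ℝ} {v v' : I → ℝ} (hd1 : δ ≤ 1) (hd1' : δ' ≤ 1)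
    (h1 : v c1 ∈ Icc δ 1) (h2 : v c2 ∈ Icc δ 1) (h1' : v' c1 ∈ Icc δ' 1) (h2' : v' c2 ∈ Icc δ' 1)
    {s t : ℝ} (hs1 : |v c1 - v' c1| ≤ s) (hs2 : |v c2 - v' c2| ≤ s) (ht : |δ - δ'| ≤ t)
    (hE : |Ef δ - Ef δ'| ≤ t) :
    |hh N Ef c1 c2 δ v - hh N Ef c1 c2 δ' v'| ≤ 3 * s + 3 * t := by
  have hs0 : 0 ≤ s := (abs_nonneg _).trans hs1
  have ht0 : 0 ≤ t := (abs_nonneg _).trans ht
  have nm : ∀ {δ : ℝ} {v : I → ℝ}, δ ≤ 1 → v c1 ∈ Icc δ 1 → v c2 ∈ Icc δ 1 →
      (1 - δ)⁻¹ • ((1 - v c1, 1 - v c2) : ℝ × ℝ) ∈ Sc ∧ ‖((1 - v c1, 1 - v c2) : ℝ × ℝ)‖ ≤ 1 - δ := by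
    intro δ v hd h1 h2
    have a1 : 1 - v c1 ∈ Icc (0 : ℝ) (1 - δ) := ⟨by linarith [h1.2], by linarith [h1.1]⟩
    have a2 : 1 - v c2 ∈ Icc (0 : ℝ) (1 - δ) := ⟨by linarith [h2.2], by linarith [h2.1]⟩
    refine ⟨⟨inv_mem hd a1, inv_mem hd a2⟩, ?_⟩
    rw [Prod.norm_def]
    refine max_le ?_ ?_
    · show ‖1 - v c1‖ ≤ _
      rw [Real.norm_of_nonneg a1.1]; exact a1.2
    · show ‖1 - v c2‖ ≤ _
      rw [Real.norm_of_nonneg a2.1]; exact a2.2
  obtain ⟨m1, m2⟩ := nm hd1 h1 h2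
  obtain ⟨m1', m2'⟩ := nm hd1' h1' h2'
  have e1 : |(1 - δ) - (1 - δ')| ≤ t := by
    have : (1 - δ) - (1 - δ') = -(δ - δ') := by ring
    rw [this, abs_neg]; exact ht
  have e2 : ‖((1 - v c1, 1 - v c2) : ℝ × ℝ) - (1 - v' c1, 1 - v' c2)‖ ≤ s := by
    rw [Prod.norm_def]
    refine max_le ?_ ?_
    · show ‖(1 - v c1) - (1 - v' c1)‖ ≤ s
      have : (1 - v c1) - (1 - v' c1) = -(v c1 - v' c1) := by ring
      rw [this, norm_neg, Real.norm_eq_abs]; exact hs1
    · show ‖(1 - v c2) - (1 - v' c2)‖ ≤ s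
      have : (1 - v c2) - (1 - v' c2) = -(v c2 - v' c2) := by ring
      rw [this, norm_neg, Real.norm_eq_abs]; exact hs2
  have k1 := hom_lip (D := Sc) (g := N c1 c2) (L := 2) (by norm_num)
    (fun x hx x' hx' => Adm.lip' (hA c1 c2) hx hx')
    (fun x hx => by rw [abs_of_nonneg (Adm.nonneg' (hA c1 c2) hx)]; exact Adm.le_one' (hA c1 c2) hx)
    (sub_nonneg.2 hd1) (sub_nonneg.2 hd1') m1 m1' m2 m2'
  have k2 : |hom (N c1 c2) (1 - δ) (1 - v c1, 1 - v c2) -
      hom (N c1 c2) (1 - δ') (1 - v' c1, 1 - v' c2)| ≤ 2 * s + 3 * t := by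
    refine k1.trans ?_
    have := mul_le_mul_of_nonneg_left e2 (by norm_num : (0 : ℝ) ≤ 2)
    have := mul_le_mul_of_nonneg_left e1 (by norm_num : (0 : ℝ) ≤ 2 + 1)
    linarith
  have k3 : |min (1 - v c1) (1 - v c2) - min (1 - v' c1) (1 - v' c2)| ≤ s := by
    refine (abs_min_sub_min_le_max _ _ _ _).trans (max_le ?_ ?_)
    · have : (1 - v c1) - (1 - v' c1) = -(v c1 - v' c1) := by ring
      rw [this, abs_neg]; exact hs1
    · have : (1 - v c2) - (1 - v' c2) = -(v c2 - v' c2) := by ring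
      rw [this, abs_neg]; exact hs2
  have k4 := abs_clp_sub (e := Ef δ) (e' := Ef δ') k2 (m := min (1 - v c1) (1 - v c2))
    (m' := min (1 - v' c1) (1 - v' c2)) (by linarith)
  have e3 : hh N Ef c1 c2 δ v - hh N Ef c1 c2 δ' v' =
      (clp (hom (N c1 c2) (1 - δ) (1 - v c1, 1 - v c2)) (min (1 - v c1) (1 - v c2)) (Ef δ) -
        clp (hom (N c1 c2) (1 - δ') (1 - v' c1, 1 - v' c2)) (min (1 - v' c1) (1 - v' c2)) (Ef δ')) -
      (min (1 - v c1) (1 - v c2) - min (1 - v' c1) (1 - v' c2)) := by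
    simp only [hh]; ring
  rw [e3]
  refine (abs_sub _ _).trans ?_
  linarith

section main

variable [CompleteSpace E] (F : Foam La P b 4) (hQ : Quads P b) {c0 : I}
variable {σ : I → ℝ → ℝ} (hσ : Rl σ) {N : I → I → ℝ × ℝ → ℝ} (hA : ∀ c1 c2, Adm (N c1 c2))
  (hN : Sym N) {Ef : ℝ → ℝ} (hE : ∀ δ, 0 ≤ Ef δ)

include F hσ in
theorem dl_le_su (hE : ∀ δ, 0 ≤ Ef δ) {u : I → ℝ} (hu : u ∈ KC P c0) {a : I} (ha : a ≠ c0) :
    dl (nbF F c0) c0 u ≤ su (nbF F c0) c0 σ Ef u a := by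
  rcases (dl_le_one (C := nbF F c0) (c0 := c0) (u := u)).eq_or_lt with h | h
  · rw [su_center F hE hu h, one_of_dl F hu h ha]; exact h.le
  · obtain ⟨h1, h2⟩ := exists_cone F hu h
    have h3 := dl_nonneg F hu
    set δ := dl (nbF F c0) c0 u with hδ
    have h4 : 0 < 1 - δ := by linarith
    have h5 : (1 : ℝ) - δ ≤ 1 := by linarith
    rw [h2, su_cone F hE h1 h4 h5, cone_ne _ _ ha]
    have he : 0 ≤ Ef (1 - (1 - δ)) / (1 - δ) := div_nonneg (hE _) h4.le
    have := sg_mem_KB (rl_cs hσ he) h1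
    have h6 := mul_nonneg h4.le (this.1.1 a).1
    linarith

/-- `T` is Lipschitz over the cell -/
theorem T_lip' (F : Foam La P b 4) {D : ℝ} (hD0 : 0 ≤ D)
    (hD : ∀ x ∈ P c0, ∀ y ∈ P c0, ‖x - y‖ ≤ D) {u v : I → ℝ} (hu : u ∈ KC P c0)
    (hv : v ∈ KC P c0) (S : Finset I) (hS : ∀ c, c ∉ S → u c = v c) :
    ‖T b u - T b v‖ ≤ D * ∑ c ∈ S, |u c - v c| := by
  refine norm_T_sub_le (F.K_finite hu.1) (F.K_finite hv.1) S hS hD0 fun τ hτ => ?_
  have hb : ∀ u : I → ℝ, u ∈ KC P c0 → b {c | u c ≤ τ} ∈ P c0 := by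
    intro u hu
    have h1 : c0 ∈ {c | u c ≤ τ} := by
      change u c0 ≤ τ
      rw [hu.2]; exact hτ.1.le
    have h2 : (fc P {c | u c ≤ τ}).Nonempty :=
      hu.1.2.2.mono (fc_anti fun c (hc : u c ≤ τ) => hc.trans_lt hτ.2)
    exact mem_fc.1 (F.mem _ ⟨c0, h1⟩ h2) c0 h1
  exact hD _ (hb u hu) _ (hb v hv)

/-- the cross vector is bounded -/
theorem norm_Vc_le (F : Foam La P b 4) {D : ℝ} (hD0 : 0 ≤ D)
    (hD : ∀ x ∈ P c0, ∀ y ∈ P c0, ‖x - y‖ ≤ D) (d c1 c2 : I) : ‖Vc P b c0 d c1 c2‖ ≤ 2 * D := by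
  by_cases hV : c1 ≠ c2 ∧ c1 ≠ c0 ∧ c1 ≠ d ∧ c2 ≠ c0 ∧ c2 ≠ d ∧
      (fc P (insert c2 (insert c1 {c0, d}))).Nonempty
  · have hb : ∀ A : Set I, c0 ∈ A → A ⊆ insert c2 (insert c1 {c0, d}) → b A ∈ P c0 := by
      intro A h1 h2
      exact mem_fc.1 (F.mem A ⟨c0, h1⟩ (hV.2.2.2.2.2.mono (fc_anti h2))) c0 h1
    have b1 := hb (insert c2 (insert c1 {c0, d})) (by simp) Subset.rfl
    have b2 := hb {c0, d} (by simp) ((subset_insert _ _).trans (subset_insert _ _))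
    have b3 := hb (insert c1 {c0, d}) (by simp) (subset_insert _ _)
    have b4 := hb (insert c2 {c0, d}) (by simp) (insert_subset_insert (subset_insert _ _))
    rw [Vc, if_pos hV]
    have e : b (insert c2 (insert c1 {c0, d})) + b {c0, d} - b (insert c1 {c0, d}) -
        b (insert c2 {c0, d}) = (b (insert c2 (insert c1 {c0, d})) - b (insert c1 {c0, d})) +
        (b {c0, d} - b (insert c2 {c0, d})) := by abel
    rw [e]
    refine (norm_add_le _ _).trans ?_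
    have := hD _ b1 _ b3
    have := hD _ b2 _ b4
    linarith
  · rw [Vc, if_neg hV, norm_zero]; linarith

include F hσ in
/-- the new coordinates are Lipschitz -/
theorem su_lip (hE : ∀ δ, 0 ≤ Ef δ)
    (hE1 : ∀ δ ∈ Icc (0 : ℝ) 1, ∀ δ' ∈ Icc (0 : ℝ) 1, |Ef δ - Ef δ'| ≤ |δ - δ'|) {L : ℝ}
    (hL : 0 ≤ L) (hσL : ∀ a ∈ nbF F c0, ∀ x ∈ Icc (0 : ℝ) 1, ∀ x' ∈ Icc (0 : ℝ) 1,
      |σ a x - σ a x'| ≤ L * |x - x'|) {u u' : I → ℝ} (hu : u ∈ KC P c0) (hu' : u' ∈ KC P c0)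
    {t : ℝ} (ht : ∀ a, |u a - u' a| ≤ t) (a : I) :
    |su (nbF F c0) c0 σ Ef u a - su (nbF F c0) c0 σ Ef u' a| ≤ (3 * L + 2) * t := by
  have ht0 : 0 ≤ t := (abs_nonneg _).trans (ht a)
  have hLt : 0 ≤ L * t := mul_nonneg hL ht0
  by_cases ha : a = c0
  · rw [ha, su_c0, su_c0, sub_self, abs_zero]; nlinarith
  by_cases haC : a ∈ nbF F c0
  · have hδ : |dl (nbF F c0) c0 u - dl (nbF F c0) c0 u'| ≤ t := abs_dl_sub ht0 ht
    have z0 := dl_nonneg F hu
    have z0' := dl_nonneg F hu'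
    have z1 := dl_le_one (C := nbF F c0) (c0 := c0) (u := u)
    have z1' := dl_le_one (C := nbF F c0) (c0 := c0) (u := u')
    have y0 := dl_le_all F hu ha
    have y0' := dl_le_all F hu' ha
    have hEE := hE1 _ ⟨z0, z1⟩ _ ⟨z0', z1'⟩
    rw [su_ne ha, su_ne ha]
    set δ := dl (nbF F c0) c0 u with hδ1
    set δ' := dl (nbF F c0) c0 u' with hδ2
    have w1 : u a - δ ∈ Icc (0 : ℝ) (1 - δ) := ⟨by linarith, by linarith [(hu.1.1 a).2]⟩
    have w1' : u' a - δ' ∈ Icc (0 : ℝ) (1 - δ') := ⟨by linarith, by linarith [(hu'.1.1 a).2]⟩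
    have k1 := hom_lip (D := Icc (0 : ℝ) 1) (g := σ a) hL
      (fun x hx x' hx' => by rw [Real.norm_eq_abs]; exact hσL a haC x hx x' hx')
      (fun x hx => by
        have := hσ.mem a hx
        rw [abs_of_nonneg this.1]; exact this.2)
      (sub_nonneg.2 z1) (sub_nonneg.2 z1') (x := u a - δ) (x' := u' a - δ')
      (inv_mem z1 w1) (inv_mem z1' w1')
      (by rw [Real.norm_of_nonneg w1.1]; exact w1.2)
      (by rw [Real.norm_of_nonneg w1'.1]; exact w1'.2)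
    have e1 : |(1 - δ) - (1 - δ')| ≤ t := by
      have : (1 - δ) - (1 - δ') = -(δ - δ') := by ring
      rw [this, abs_neg]; exact hδ
    have e2 : ‖(u a - δ) - (u' a - δ')‖ ≤ 2 * t := by
      have : (u a - δ) - (u' a - δ') = (u a - u' a) - (δ - δ') := by ring
      rw [this, Real.norm_eq_abs]
      refine (abs_sub _ _).trans ?_
      linarith [ht a]
    have k2 : |hom (σ a) (1 - δ) (u a - δ) - hom (σ a) (1 - δ') (u' a - δ')| ≤
        (3 * L + 1) * t := by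
      refine k1.trans ?_
      have g1 := mul_le_mul_of_nonneg_left e2 hL
      have g2 := mul_le_mul_of_nonneg_left e1 (by linarith : (0 : ℝ) ≤ L + 1)
      linarith
    refine abs_clp_sub ?_ ?_
    · have e3 : δ + hom (σ a) (1 - δ) (u a - δ) - (δ' + hom (σ a) (1 - δ') (u' a - δ')) =
          (δ - δ') + (hom (σ a) (1 - δ) (u a - δ) - hom (σ a) (1 - δ') (u' a - δ')) := by ring
      rw [e3]
      refine (abs_add_le _ _).trans ?_
      linarith
    · have := ht a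
      linarith
  · rw [su_one F hσ hE hu (KC_one F hu haC), su_one F hσ hE hu' (KC_one F hu' haC), sub_self,
      abs_zero]
    nlinarith

/-- the pieces -/
def Qc (F : Foam La P b 4) (c0 d c1 c2 : I) : Set E :=
  {y | y ∈ P c0 ∧ (∀ a ∈ nbF F c0, a ≠ c0 → sc P b y d ≤ sc P b y a) ∧
    ∀ a ∈ nbF F c0, a ≠ c0 → a ≠ d → a ≠ c1 → a ≠ c2 → 1 ≤ sc P b y a}

include F in
theorem isClosed_Qc (d c1 c2 : I) : IsClosed (Qc F c0 d c1 c2) := by
  have hP := (F.cpt c0).isClosed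
  have hc : ∀ a, ContinuousOn (fun y => sc P b y a) (P c0) := fun a =>
    (continuousOn_sc_apply F a).mono (F.sub c0)
  have e : Qc F c0 d c1 c2 = P c0 ∩ ((⋂ a, {y | y ∈ P c0 ∧ (a ∈ nbF F c0 → a ≠ c0 →
      sc P b y d ≤ sc P b y a)}) ∩ ⋂ a, {y | y ∈ P c0 ∧ (a ∈ nbF F c0 → a ≠ c0 → a ≠ d →
      a ≠ c1 → a ≠ c2 → 1 ≤ sc P b y a)}) := by
    ext y
    simp only [Qc, mem_ofPred_eq, mem_inter_iff, mem_iInter]
    constructor
    · rintro ⟨h1, h2, h3⟩
      exact ⟨h1, fun a => ⟨h1, h2 a⟩, fun a => ⟨h1, h3 a⟩⟩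
    · rintro ⟨h1, h2, h3⟩
      exact ⟨h1, fun a => (h2 a).2, fun a => (h3 a).2⟩
  rw [e]
  refine hP.inter ((isClosed_iInter fun a => ?_).inter (isClosed_iInter fun a => ?_))
  · by_cases h : a ∈ nbF F c0 ∧ a ≠ c0
    · have : {y | y ∈ P c0 ∧ (a ∈ nbF F c0 → a ≠ c0 → sc P b y d ≤ sc P b y a)} =
          {y | y ∈ P c0 ∧ sc P b y d ≤ sc P b y a} := by
        ext y
        simp only [mem_ofPred_eq]
        exact ⟨fun g => ⟨g.1, g.2 h.1 h.2⟩, fun g => ⟨g.1, fun _ _ => g.2⟩⟩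
      rw [this]
      exact hP.isClosed_le (hc d) (hc a)
    · have : {y | y ∈ P c0 ∧ (a ∈ nbF F c0 → a ≠ c0 → sc P b y d ≤ sc P b y a)} = P c0 := by
        ext y
        simp only [mem_ofPred_eq]
        exact ⟨fun g => g.1, fun g => ⟨g, fun h1 h2 => absurd ⟨h1, h2⟩ h⟩⟩
      rw [this]
      exact hP
  · by_cases h : a ∈ nbF F c0 ∧ a ≠ c0 ∧ a ≠ d ∧ a ≠ c1 ∧ a ≠ c2
    · have : {y | y ∈ P c0 ∧ (a ∈ nbF F c0 → a ≠ c0 → a ≠ d → a ≠ c1 → a ≠ c2 →
          1 ≤ sc P b y a)} = {y | y ∈ P c0 ∧ (fun _ => (1 : ℝ)) y ≤ sc P b y a} := by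
        ext y
        simp only [mem_ofPred_eq]
        exact ⟨fun g => ⟨g.1, g.2 h.1 h.2.1 h.2.2.1 h.2.2.2.1 h.2.2.2.2⟩,
          fun g => ⟨g.1, fun _ _ _ _ _ => g.2⟩⟩
      rw [this]
      exact hP.isClosed_le continuousOn_const (hc a)
    · have : {y | y ∈ P c0 ∧ (a ∈ nbF F c0 → a ≠ c0 → a ≠ d → a ≠ c1 → a ≠ c2 →
          1 ≤ sc P b y a)} = P c0 := by
        ext y
        simp only [mem_ofPred_eq]
        exact ⟨fun g => g.1, fun g => ⟨g, fun h1 h2 h3 h4 h5 => absurd ⟨h1, h2, h3, h4, h5⟩ h⟩⟩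
      rw [this]
      exact hP

/-- a set of at most two elements -/
theorem sub_pair {S : Set I} (hS : S.Finite) (h : S.ncard ≤ 2) (x0 : I) :
    ∃ c1 c2, (c1 ∈ S ∨ c1 = x0) ∧ (c2 ∈ S ∨ c2 = x0) ∧ S ⊆ {c1, c2} := by
  have h3 : S.ncard = 0 ∨ S.ncard = 1 ∨ S.ncard = 2 := by omega
  rcases h3 with h | h | h
  · rw [ncard_eq_zero hS] at h
    exact ⟨x0, x0, Or.inr rfl, Or.inr rfl, by rw [h]; exact empty_subset _⟩
  · obtain ⟨x, rfl⟩ := ncard_eq_one.1 h
    exact ⟨x, x, Or.inl rfl, Or.inl rfl, by simp⟩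
  · obtain ⟨x, y, hne, rfl⟩ := ncard_eq_two.1 h
    exact ⟨x, y, Or.inl (by simp), Or.inl (by simp), Subset.rfl⟩

include F in
/-- **the pieces cover the cell** -/
theorem cover_Qc {a0 : I} (ha0 : a0 ∈ nbF F c0) (ha0' : a0 ≠ c0) {y : E} (hy : y ∈ P c0) :
    ∃ d ∈ nbF F c0, d ≠ c0 ∧ ∃ c1 ∈ nbF F c0, ∃ c2 ∈ nbF F c0, y ∈ Qc F c0 d c1 c2 := by
  classical
  have hu := sc_mem_KC F hy
  obtain ⟨d, hd, hdm⟩ := Finset.exists_min_image ((nbF F c0).erase c0) (fun a => sc P b y a)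
    ⟨a0, Finset.mem_erase.2 ⟨ha0', ha0⟩⟩
  have hdC := Finset.mem_of_mem_erase hd
  have hdc := Finset.ne_of_mem_erase hd
  refine ⟨d, hdC, hdc, ?_⟩
  have hmin : ∀ a ∈ nbF F c0, a ≠ c0 → sc P b y d ≤ sc P b y a := fun a ha hac =>
    hdm a (Finset.mem_erase.2 ⟨hac, ha⟩)
  by_cases hd1 : sc P b y d < 1
  · set S : Set I := {a | sc P b y a < 1} \ {c0, d} with hS
    have hfin : {a | sc P b y a < 1}.Finite := F.K_finite hu.1
    have h4 : {a | sc P b y a < 1}.ncard ≤ 4 := F.ncard_le_of_fc (F.K_lt_nonempty hu.1) hu.1.2.2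
    have hsub : ({c0, d} : Set I) ⊆ {a | sc P b y a < 1} := by
      rintro a (rfl | rfl)
      · show sc P b y a < 1
        rw [hu.2]; exact one_pos
      · exact hd1
    have h2 : S.ncard ≤ 2 := by
      rw [hS, ncard_sdiff hsub (hfin.subset hsub), ncard_pair hdc.symm]
      omega
    obtain ⟨c1, c2, g1, g2, g3⟩ := sub_pair (hfin.subset sdiff_subset) h2 c0
    have hc0 := self_mem_nbF F ⟨y, hy⟩
    have mem : ∀ c, (c ∈ S ∨ c = c0) → c ∈ nbF F c0 := by
      rintro c (h | rfl)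
      · by_contra hn
        exact (show sc P b y c < 1 from h.1).ne (KC_one F hu hn)
      · exact hc0
    refine ⟨c1, mem c1 g1, c2, mem c2 g2, hy, hmin, fun a ha g4 g5 g6 g7 => ?_⟩
    by_contra hn
    have : a ∈ S := ⟨not_le.1 hn, by simp [g4, g5]⟩
    rcases g3 this with h | h
    · exact g6 h
    · exact g7 h
  · exact ⟨d, hdC, d, hdC, hy, hmin, fun a ha g4 g5 g6 g7 =>
      (not_lt.1 hd1).trans (hmin a ha g4)⟩

include F hQ hσ hA hN

/-- **`Rm` is Lipschitz on a piece** -/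
theorem Rm_lip_Qc (hE : ∀ δ, 0 ≤ Ef δ)
    (hE1 : ∀ δ ∈ Icc (0 : ℝ) 1, ∀ δ' ∈ Icc (0 : ℝ) 1, |Ef δ - Ef δ'| ≤ |δ - δ'|) {L : ℝ}
    (hL : 0 ≤ L) (hσL : ∀ a ∈ nbF F c0, ∀ x ∈ Icc (0 : ℝ) 1, ∀ x' ∈ Icc (0 : ℝ) 1,
      |σ a x - σ a x'| ≤ L * |x - x'|) {D S : ℝ} (hD0 : 0 ≤ D)
    (hD : ∀ x ∈ P c0, ∀ y ∈ P c0, ‖x - y‖ ≤ D)
    (hS : ∀ y ∈ P c0, ∀ y' ∈ P c0, ∀ a, |sc P b y a - sc P b y' a| ≤ S * ‖y - y'‖)
    {d c1 c2 : I} (hd : d ≠ c0) (hdC : d ∈ nbF F c0) {y y' : E} (hy : y ∈ Qc F c0 d c1 c2)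
    (hy' : y' ∈ Qc F c0 d c1 c2) :
    ‖Rm P b (nbF F c0) c0 σ N Ef y - Rm P b (nbF F c0) c0 σ N Ef y'‖ ≤
      D * S * (27 * L + 24) * ‖y - y'‖ := by
  classical
  obtain ⟨yP, ym, y1⟩ := hy
  obtain ⟨yP', ym', y1'⟩ := hy'
  have hu := sc_mem_KC F yP
  have hu' := sc_mem_KC F yP'
  set t := S * ‖y - y'‖ with ht
  have htd : ∀ a, |sc P b y a - sc P b y' a| ≤ t := hS y yP y' yP'
  have ht0 : 0 ≤ t := (abs_nonneg _).trans (htd c0)
  have hLt : 0 ≤ L * t := mul_nonneg hL ht0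
  rw [Rm_eq F hQ hσ hA hN hE yP (c1 := c1) (c2 := c2) hd hdC ym
      (fun a a1 a2 a3 a4 a5 => le_antisymm (hu.1.1 a).2 (y1 a a1 a2 a3 a4 a5)),
    Rm_eq F hQ hσ hA hN hE yP' (c1 := c1) (c2 := c2) hd hdC ym'
      (fun a a1 a2 a3 a4 a5 => le_antisymm (hu'.1.1 a).2 (y1' a a1 a2 a3 a4 a5))]
  have hv := su_mem F hσ hE hu
  have hv' := su_mem F hσ hE hu'
  have hsu := su_lip F hσ hE hE1 hL hσL hu hu' htd
  set v := su (nbF F c0) c0 σ Ef (sc P b y) with hvdef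
  set v' := su (nbF F c0) c0 σ Ef (sc P b y') with hvdef'
  set δ := dl (nbF F c0) c0 (sc P b y) with hδ
  set δ' := dl (nbF F c0) c0 (sc P b y') with hδ'
  have hδδ : |δ - δ'| ≤ t := abs_dl_sub ht0 htd
  have z0 : 0 ≤ δ := dl_nonneg F hu
  have z0' : 0 ≤ δ' := dl_nonneg F hu'
  have z1 : δ ≤ 1 := dl_le_one
  have z1' : δ' ≤ 1 := dl_le_one
  have hEE : |Ef δ - Ef δ'| ≤ t := (hE1 δ ⟨z0, z1⟩ δ' ⟨z0', z1'⟩).trans hδδ
  -- the T part
  have hT : ‖T b v - T b v'‖ ≤ D * (3 * ((3 * L + 2) * t)) := by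
    have hoff : ∀ c, c ∉ ({d, c1, c2} : Finset I) → v c = v' c := by
      intro a ha
      simp only [Finset.mem_insert, Finset.mem_singleton, not_or] at ha
      by_cases ha0 : a = c0
      · rw [ha0, hv.2, hv'.2]
      have o : ∀ z : E, z ∈ P c0 → (∀ a ∈ nbF F c0, a ≠ c0 → a ≠ d → a ≠ c1 → a ≠ c2 →
          1 ≤ sc P b z a) → sc P b z a = 1 := by
        intro z hz h
        by_cases haC : a ∈ nbF F c0
        · exact le_antisymm ((sc_mem_KC F hz).1.1 a).2 (h a haC ha0 ha.1 ha.2.1 ha.2.2)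
        · exact KC_one F (sc_mem_KC F hz) haC
      rw [hvdef, hvdef', su_one F hσ hE hu (o y yP y1), su_one F hσ hE hu' (o y' yP' y1')]
    refine (T_lip' F hD0 hD hv hv' {d, c1, c2} hoff).trans (mul_le_mul_of_nonneg_left ?_ hD0)
    refine (Finset.sum_le_card_nsmul _ _ ((3 * L + 2) * t) fun a _ => hsu a).trans ?_
    rw [nsmul_eq_mul]
    refine mul_le_mul_of_nonneg_right ?_ (by nlinarith)
    exact_mod_cast Finset.card_le_three
  -- the height part
  have hH : ‖hh N Ef c1 c2 δ v • Vc P b c0 d c1 c2 - hh N Ef c1 c2 δ' v' • Vc P b c0 d c1 c2‖ ≤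
      (3 * ((3 * L + 2) * t) + 3 * t) * (2 * D) := by
    rw [← sub_smul, norm_smul, Real.norm_eq_abs]
    by_cases hV : c1 ≠ c2 ∧ c1 ≠ c0 ∧ c1 ≠ d ∧ c2 ≠ c0 ∧ c2 ≠ d ∧
        (fc P (insert c2 (insert c1 {c0, d}))).Nonempty
    · have m : ∀ c, c ≠ c0 → v c ∈ Icc δ 1 ∧ v' c ∈ Icc δ' 1 := fun c hc =>
        ⟨⟨dl_le_su F hσ hE hu hc, (hv.1.1 c).2⟩, ⟨dl_le_su F hσ hE hu' hc, (hv'.1.1 c).2⟩⟩
      have k := hh_lip hA (N := N) (Ef := Ef) (c1 := c1) (c2 := c2) z1 z1' (m c1 hV.2.1).1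
        (m c2 hV.2.2.2.1).1 (m c1 hV.2.1).2 (m c2 hV.2.2.2.1).2 (hsu c1) (hsu c2) hδδ hEE
      exact mul_le_mul k (norm_Vc_le F hD0 hD d c1 c2) (norm_nonneg _) (by nlinarith)
    · rw [Vc, if_neg hV, norm_zero, mul_zero]
      exact mul_nonneg (by nlinarith) (by linarith)
  have e : (T b v + hh N Ef c1 c2 δ v • Vc P b c0 d c1 c2) -
      (T b v' + hh N Ef c1 c2 δ' v' • Vc P b c0 d c1 c2) = (T b v - T b v') +
      (hh N Ef c1 c2 δ v • Vc P b c0 d c1 c2 - hh N Ef c1 c2 δ' v' • Vc P b c0 d c1 c2) := by abel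
  rw [e]
  refine (norm_add_le _ _).trans ((add_le_add hT hH).trans (le_of_eq ?_))
  rw [ht]; ring

/-- **`Rm` is Lipschitz on the cell** -/
theorem Rm_lip (hE : ∀ δ, 0 ≤ Ef δ)
    (hE1 : ∀ δ ∈ Icc (0 : ℝ) 1, ∀ δ' ∈ Icc (0 : ℝ) 1, |Ef δ - Ef δ'| ≤ |δ - δ'|) {L : ℝ}
    (hL : 0 ≤ L) (hσL : ∀ a ∈ nbF F c0, ∀ x ∈ Icc (0 : ℝ) 1, ∀ x' ∈ Icc (0 : ℝ) 1,
      |σ a x - σ a x'| ≤ L * |x - x'|) {D S : ℝ} (hD0 : 0 ≤ D)
    (hD : ∀ x ∈ P c0, ∀ y ∈ P c0, ‖x - y‖ ≤ D)
    (hS : ∀ y ∈ P c0, ∀ y' ∈ P c0, ∀ a, |sc P b y a - sc P b y' a| ≤ S * ‖y - y'‖)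
    {y y' : E} (hy : y ∈ P c0) (hy' : y' ∈ P c0) :
    ‖Rm P b (nbF F c0) c0 σ N Ef y - Rm P b (nbF F c0) c0 σ N Ef y'‖ ≤
      D * S * (27 * L + 24) * ‖y - y'‖ := by
  by_cases hex : ∃ a0 ∈ nbF F c0, a0 ≠ c0
  · obtain ⟨a0, ha0, ha0'⟩ := hex
    set f := Rm P b (nbF F c0) c0 σ N Ef with hf
    obtain ⟨g, hg1, hg2⟩ := exists_dual_vector'' ℝ (f y - f y')
    have key := Brk4_582.lip_of_cover (f := fun z => g (f z)) (F.cvx c0)
      (s := {p : I × I × I | (p.1 ∈ nbF F c0 ∧ p.1 ≠ c0) ∧ p.2.1 ∈ nbF F c0 ∧ p.2.2 ∈ nbF F c0})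
      ?_ (C := fun p => Qc F c0 p.1 p.2.1 p.2.2) (fun p _ => isClosed_Qc F _ _ _) ?_
      (K := D * S * (27 * L + 24)) ?_ y hy y' hy'
    · rw [← map_sub, hg2] at key
      have h0 : |(((‖f y - f y'‖ : ℝ)) : ℝ)| = ‖f y - f y'‖ := abs_of_nonneg (norm_nonneg _)
      calc ‖f y - f y'‖ = |(((‖f y - f y'‖ : ℝ)) : ℝ)| := h0.symm
        _ ≤ _ := key
    · refine ((nbF F c0).finite_toSet.prod ((nbF F c0).finite_toSet.prod
        (nbF F c0).finite_toSet)).subset ?_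
      rintro ⟨d, c1, c2⟩ ⟨⟨h1, -⟩, h2, h3⟩
      exact ⟨h1, h2, h3⟩
    · intro z hz
      obtain ⟨d, hd, hdc, c1, hc1, c2, hc2, hzQ⟩ := cover_Qc F ha0 ha0' hz
      exact mem_iUnion₂.2 ⟨(d, c1, c2), ⟨⟨hd, hdc⟩, hc1, hc2⟩, hzQ⟩
    · rintro ⟨d, c1, c2⟩ ⟨⟨h1, h1'⟩, h2, h3⟩ x hx z hz
      show |g (f x) - g (f z)| ≤ _
      rw [← map_sub, ← Real.norm_eq_abs]
      refine (g.le_opNorm _).trans ?_
      have := Rm_lip_Qc F hQ hσ hA hN hE hE1 hL hσL hD0 hD hS h1' h1 hx hz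
      calc ‖g‖ * ‖f x - f z‖ ≤ 1 * ‖f x - f z‖ :=
            mul_le_mul_of_nonneg_right hg1 (norm_nonneg _)
        _ = ‖f x - f z‖ := one_mul _
        _ ≤ _ := this
  · push Not at hex
    have h1 : ∀ z ∈ P c0, z = b {c0} := by
      intro z hz
      refine eq_b_of_dl F hz (le_antisymm dl_le_one ?_)
      exact le_dl' le_rfl fun a ha hac => absurd (hex a ha) hac
    rw [h1 y hy, h1 y' hy']
    simp

end main

end Crest.Agent.R096.Rlp_150
end

-- ▼ part R096/Rlp6_714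
section

/-!
# R096 (row 96), REL-P, part 6 (helper714): `Rm` is a selection of finitely many affine maps
-/

set_option autoImplicit false
set_option linter.unusedSectionVars false
set_option linter.unusedVariables false

open Set

namespace Crest.Agent.R096.Rlp_150

open Crest.Agent.R096.Brk1_582 Crest.Agent.R096.Brk2_582
open Crest.Agent.R096.Rel_628 Crest.Agent.R096.Grd_714

variable {E : Type*} [NormedAddCommGroup E] [NormedSpace ℝ E] {I : Type*}
variable {La : Set E} {P : I → Set E} {b : Set I → E}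

section sel

variable [CompleteSpace E] (F : Foam La P b 4) {c0 : I}
variable {σ : I → ℝ → ℝ} (hσ : Rl σ) {N : I → I → ℝ × ℝ → ℝ} {Ef : ℝ → ℝ}
  (hE : ∀ δ, 0 ≤ Ef δ)

include F hσ hE in
theorem dl_le_su' {u : I → ℝ} (hu : u ∈ KC P c0) {a : I} (ha : a ≠ c0) :
    dl (nbF F c0) c0 u ≤ su (nbF F c0) c0 σ Ef u a := by
  rcases (dl_le_one (C := nbF F c0) (c0 := c0) (u := u)).eq_or_lt with h | h
  · rw [su_center F hE hu h]; exact dl_le_all F hu ha
  · obtain ⟨h1, h2⟩ := exists_cone F hu h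
    have h3 := dl_nonneg F hu
    set δ := dl (nbF F c0) c0 u with hδ
    have h4 : 0 < 1 - δ := by linarith
    have h5 : (1 : ℝ) - δ ≤ 1 := by linarith
    rw [h2, su_cone F hE h1 h4 h5, cone_ne _ _ ha]
    have he : 0 ≤ Ef (1 - (1 - δ)) / (1 - δ) := div_nonneg (hE _) h4.le
    have h6 := ((sg_mem_KB (rl_cs hσ he) h1).1.1 a).1
    have := mul_nonneg h4.le h6
    linarith

/-- `1 - τ = 0` or in the cube, homogenised -/
theorem inv_smul_mem_Sc {τ x y : ℝ} (hx : 0 ≤ x) (hy : 0 ≤ y) (hxt : x ≤ τ) (hyt : y ≤ τ) :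
    τ⁻¹ • ((x, y) : ℝ × ℝ) ∈ Sc := by
  have h0 : 0 ≤ τ := hx.trans hxt
  have key : ∀ z : ℝ, 0 ≤ z → z ≤ τ → τ⁻¹ * z ∈ Icc (0 : ℝ) 1 := by
    intro z hz hzt
    refine ⟨mul_nonneg (inv_nonneg.2 h0) hz, ?_⟩
    rcases h0.eq_or_lt with h | h
    · rw [← h]; simp
    · rw [inv_mul_le_iff₀ h]; linarith
  exact ⟨key x hx hxt, key y hy hyt⟩

theorem inv_smul_mem_Icc {τ z : ℝ} (hz : 0 ≤ z) (hzt : z ≤ τ) : τ⁻¹ • z ∈ Icc (0 : ℝ) 1 := by
  have := (inv_smul_mem_Sc hz hz hzt hzt).1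
  exact this

variable [FiniteDimensional ℝ E]

include F

theorem sel_sc (a : I) : Sel (P c0) (fun y => sc P b y a) := (plOn_sc_apply F c0 a).2

theorem sel_dl : Sel (P c0) (fun y => dl (nbF F c0) c0 (sc P b y)) := by
  classical
  have := sel_fold_min (K := P c0) ((nbF F c0).erase c0) (f := fun a y => sc P b y a) 1
    fun a _ => sel_sc F a
  refine this.congr fun y _ => ?_
  simp only [dl]

theorem sel_om : Sel (P c0) (fun y => 1 - dl (nbF F c0) c0 (sc P b y)) :=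
  (sel_const 1).sub (sel_dl F)

theorem sel_E (hsE : Sel (Icc 0 1) Ef) : Sel (P c0) (fun y => Ef (dl (nbF F c0) c0 (sc P b y))) :=
  Sel.comp (L := Icc (0 : ℝ) 1) hsE (sel_dl F) fun y hy =>
    ⟨dl_nonneg F (sc_mem_KC F hy), dl_le_one⟩

theorem sel_su (hsσ : ∀ a, Sel (Icc 0 1) (σ a)) (hsE : Sel (Icc 0 1) Ef) (a : I) :
    Sel (P c0) (fun y => su (nbF F c0) c0 σ Ef (sc P b y) a) := by
  by_cases ha : a = c0
  · refine (sel_const (K := P c0) (0 : ℝ)).congr fun y _ => ?_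
    simp only [ha, su_c0]
  · refine Sel.congr (f := fun y => clp (dl (nbF F c0) c0 (sc P b y) +
      hom (σ a) (1 - dl (nbF F c0) c0 (sc P b y)) (sc P b y a - dl (nbF F c0) c0 (sc P b y)))
      (sc P b y a) (Ef (dl (nbF F c0) c0 (sc P b y)))) ?_ fun y _ => su_ne ha
    refine sel_clp ((sel_dl F).add (sel_hom (hsσ a) (sel_om F) ((sel_sc F a).sub (sel_dl F)) ?_ ?_))
      (sel_sc F a) (sel_E F hsE)
    · intro y hy h
      have h1 : dl (nbF F c0) c0 (sc P b y) = 1 := by linarith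
      rw [h1, one_of_dl F (sc_mem_KC F hy) h1 ha, sub_self]
    · intro y hy
      have h1 := dl_le_all F (sc_mem_KC F hy) ha
      have h2 := ((sc_mem_KC F hy).1.1 a).2
      exact inv_smul_mem_Icc (by linarith) (by linarith)

include hσ in
theorem sel_T_su (hE : ∀ δ, 0 ≤ Ef δ) (hsσ : ∀ a, Sel (Icc 0 1) (σ a)) (hsE : Sel (Icc 0 1) Ef) :
    Sel (P c0) (fun y => T b (su (nbF F c0) c0 σ Ef (sc P b y))) := by
  have h1 : Sel (P c0) (fun y => rs (nbF F c0) (su (nbF F c0) c0 σ Ef (sc P b y))) :=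
    sel_pi fun c => sel_su F hsσ hsE c
  have e : ∀ y ∈ P c0, ex (nbF F c0) (rs (nbF F c0) (su (nbF F c0) c0 σ Ef (sc P b y))) =
      su (nbF F c0) c0 σ Ef (sc P b y) := fun y hy => ex_rs fun c hc =>
    su_one F hσ hE (sc_mem_KC F hy) (KC_one F (sc_mem_KC F hy) hc)
  have h2 := Sel.comp (L := KF P (nbF F c0) c0) (plOn_T F (nbF F c0) c0).2 h1 fun y hy => by
    have := su_mem F hσ hE (sc_mem_KC F hy)
    refine ⟨by rw [e y hy]; exact this.1, by rw [e y hy]; exact this.2⟩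
  refine h2.congr fun y hy => ?_
  change T b _ = T b (ex _ (rs _ _))
  rw [e y hy]

include hσ in
theorem sel_hh (hE : ∀ δ, 0 ≤ Ef δ) (hsσ : ∀ a, Sel (Icc 0 1) (σ a)) (hsE : Sel (Icc 0 1) Ef)
    (hsN : ∀ c1 c2, Sel Sc (N c1 c2)) (d c1 c2 : I) :
    Sel (P c0) (fun y => hh N Ef c1 c2 (dl (nbF F c0) c0 (sc P b y))
      (su (nbF F c0) c0 σ Ef (sc P b y)) • Vc P b c0 d c1 c2) := by
  by_cases hV : c1 ≠ c2 ∧ c1 ≠ c0 ∧ c1 ≠ d ∧ c2 ≠ c0 ∧ c2 ≠ d ∧
      (fc P (insert c2 (insert c1 {c0, d}))).Nonempty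
  · refine Sel.smul_const ?_ _
    have s1 : ∀ a, Sel (P c0) (fun y => 1 - su (nbF F c0) c0 σ Ef (sc P b y) a) := fun a =>
      (sel_const 1).sub (sel_su F hsσ hsE a)
    have h0 : ∀ a, a ≠ c0 → ∀ y ∈ P c0, 0 ≤ 1 - su (nbF F c0) c0 σ Ef (sc P b y) a ∧
        1 - su (nbF F c0) c0 σ Ef (sc P b y) a ≤ 1 - dl (nbF F c0) c0 (sc P b y) := by
      intro a ha y hy
      have h1 := dl_le_su' F hσ hE (sc_mem_KC F hy) ha
      have h2 := ((su_mem F hσ hE (sc_mem_KC F hy)).1.1 a).2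
      exact ⟨by linarith, by linarith⟩
    refine Sel.sub (sel_clp (sel_hom (hsN c1 c2) (sel_om F) (sel_prod (s1 c1) (s1 c2)) ?_ ?_)
      ((s1 c1).min (s1 c2)) (sel_E F hsE)) ((s1 c1).min (s1 c2))
    · intro y hy h
      obtain ⟨a1, a2⟩ := h0 c1 hV.2.1 y hy
      obtain ⟨b1, b2⟩ := h0 c2 hV.2.2.2.1 y hy
      rw [h] at a2 b2
      exact Prod.ext (le_antisymm a2 a1) (le_antisymm b2 b1)
    · intro y hy
      obtain ⟨a1, a2⟩ := h0 c1 hV.2.1 y hy
      obtain ⟨b1, b2⟩ := h0 c2 hV.2.2.2.1 y hy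
      exact inv_smul_mem_Sc a1 b1 a2 b2
  · refine (sel_const (K := P c0) (0 : E)).congr fun y _ => ?_
    simp only [Vc, if_neg hV, smul_zero]

/-- the local formula is a selection -/
theorem sel_piece (hσ : Rl σ) (hE : ∀ δ, 0 ≤ Ef δ) (hsσ : ∀ a, Sel (Icc 0 1) (σ a))
    (hsE : Sel (Icc 0 1) Ef) (hsN : ∀ c1 c2, Sel Sc (N c1 c2)) (d c1 c2 : I) :
    Sel (P c0) (fun y => T b (su (nbF F c0) c0 σ Ef (sc P b y)) +
      hh N Ef c1 c2 (dl (nbF F c0) c0 (sc P b y)) (su (nbF F c0) c0 σ Ef (sc P b y)) •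
        Vc P b c0 d c1 c2) :=
  (sel_T_su F hσ hE hsσ hsE).add (sel_hh F hσ hE hsσ hsE hsN d c1 c2)

omit [FiniteDimensional ℝ E] in
/-- **every point of the cell off the centre lies in a piece** -/
theorem exists_piece {y : E} (hy : y ∈ P c0) (h : dl (nbF F c0) c0 (sc P b y) < 1) :
    ∃ d ∈ nbF F c0, ∃ c1 ∈ nbF F c0, ∃ c2 ∈ nbF F c0, d ≠ c0 ∧
      (∀ a ∈ nbF F c0, a ≠ c0 → sc P b y d ≤ sc P b y a) ∧
      ∀ a, a ≠ c0 → a ≠ d → a ≠ c1 → a ≠ c2 → sc P b y a = 1 := by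
  classical
  obtain ⟨d, hd, hdc, hde⟩ := exists_dl h
  have hc0 : c0 ∈ nbF F c0 := self_mem_nbF F ⟨y, hy⟩
  have hK := sc_mem_KC F hy
  set B : Set I := {a | sc P b y a < 1} with hB
  have hBne : B.Nonempty := ⟨c0, by rw [hB, mem_ofPred_eq, hK.2]; exact one_pos⟩
  have hBf : (fc P B).Nonempty := hK.1.2.2
  have hcard : B.ncard ≤ 4 := F.ncard_le_of_fc hBne hBf
  have hBsub : B ⊆ (nbF F c0 : Set I) := by
    intro a ha
    by_contra hn
    have := KC_one F hK (a := a) hn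
    rw [hB, mem_ofPred_eq, this] at ha
    exact lt_irrefl _ ha
  have hBfin : B.Finite := (nbF F c0).finite_toSet.subset hBsub
  have hcB : c0 ∈ B := by rw [hB, mem_ofPred_eq, hK.2]; exact one_pos
  have hdB : d ∈ B := by rw [hB, mem_ofPred_eq, hde]; exact h
  have h2 : (B \ {c0, d}).ncard ≤ 2 := by
    have e1 : ({c0, d} : Set I).ncard = 2 := ncard_pair hdc.symm
    have e2 := ncard_sdiff_add_ncard_of_subset (s := {c0, d}) (t := B) (by
      rintro a (rfl | rfl)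
      · exact hcB
      · exact hdB) hBfin
    omega
  have hf2 : (B \ {c0, d}).Finite := hBfin.subset sdiff_subset
  obtain ⟨c1, hc1, c2, hc2, h12⟩ : ∃ c1 ∈ nbF F c0, ∃ c2 ∈ nbF F c0, B \ {c0, d} ⊆ {c1, c2} := by
    have hs : ∀ x ∈ B \ {c0, d}, x ∈ nbF F c0 := fun x hx => hBsub hx.1
    obtain h0 | h0 | h0 : (B \ {c0, d}).ncard = 0 ∨ (B \ {c0, d}).ncard = 1 ∨
        (B \ {c0, d}).ncard = 2 := by omega
    · refine ⟨c0, hc0, c0, hc0, ?_⟩
      rw [(ncard_eq_zero hf2).1 h0]; exact empty_subset _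
    · obtain ⟨x, hx⟩ := ncard_eq_one.1 h0
      refine ⟨x, hs x (by rw [hx]; rfl), x, hs x (by rw [hx]; rfl), ?_⟩
      rw [hx]; intro z hz; exact Or.inl hz
    · obtain ⟨x, z, -, hx⟩ := ncard_eq_two.1 h0
      exact ⟨x, hs x (by rw [hx]; simp), z, hs z (by rw [hx]; simp), by rw [hx]⟩
  refine ⟨d, hd, c1, hc1, c2, hc2, hdc, fun a ha hac => by rw [hde]; exact dl_le ha hac, ?_⟩
  intro a g1 g2 g3 g4
  by_contra hne
  have ha : a ∈ B \ {c0, d} := ⟨lt_of_le_of_ne (hK.1.1 a).2 hne, by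
    rintro (h | h)
    · exact g1 h
    · exact g2 h⟩
  rcases h12 ha with h | h
  · exact g3 h
  · exact g4 h

/-- **SEL half of REL-P: `Rm` is a selection of finitely many affine maps on the cell** -/
theorem sel_Rm (hQ : Quads P b) (hσ : Rl σ) (hA : ∀ c1 c2, Adm (N c1 c2)) (hN : Sym N)
    (hE : ∀ δ, 0 ≤ Ef δ) (hsσ : ∀ a, Sel (Icc 0 1) (σ a)) (hsE : Sel (Icc 0 1) Ef)
    (hsN : ∀ c1 c2, Sel Sc (N c1 c2)) :
    Sel (P c0) (Rm P b (nbF F c0) c0 σ N Ef) := by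
  choose! S hS h1 using fun p : I × I × I => sel_piece (c0 := c0) F hσ hE hsσ hsE hsN p.1 p.2.1
    p.2.2
  set C := nbF F c0 with hC
  refine ⟨{AffineMap.const ℝ E (b {c0})} ∪ ⋃ p ∈ (C ×ˢ C ×ˢ C : Finset (I × I × I)), S p,
    (finite_singleton _).union ((C ×ˢ C ×ˢ C).finite_toSet.biUnion fun p _ => hS p),
    fun y hy => ?_⟩
  rcases (dl_le_one (C := C) (c0 := c0) (u := sc P b y)).eq_or_lt with h | h
  · exact ⟨_, Or.inl rfl, by rw [Rm_center F hQ hσ hA hN hE hy h]; rfl⟩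
  · obtain ⟨d, hd, c1, hc1, c2, hc2, hdc, hdm, h2⟩ := exists_piece F hy h
    obtain ⟨g, hg, e⟩ := h1 (d, c1, c2) y hy
    refine ⟨g, Or.inr (mem_iUnion₂.2 ⟨(d, c1, c2), ?_, hg⟩), ?_⟩
    · simp only [Finset.mem_product]
      exact ⟨hd, hc1, hc2⟩
    · rw [Rm_eq F hQ hσ hA hN hE hy hdc hd hdm fun a _ g1 g2 g3 g4 => h2 a g1 g2 g3 g4]
      exact e

end sel

end Crest.Agent.R096.Rlp_150
end

-- ▼ part R096/Ncl2_914
section

/-!
# R096 (row 96), REL (helper914 for helper150): sup-closeness of the relabelling, part 2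

`T_eq` : `T` = the grid map with one level; `T_close` : `T` is Lipschitz on a face;
`Tq_T` : `‖Tq b m g - T b (lv m g)‖ ≤ 2 M`; `Tq_close`; `rc_close` : the relabelling of the boundary
of a cell is close to the identity; `rcR_close_box` for box foams.
-/

set_option autoImplicit false
set_option linter.unusedVariables false
set_option linter.unusedSectionVars false

open Set

namespace Crest.Agent.R096.Ncl_914

open Crest.Agent.R096.Brk1_582 Crest.Agent.R096.Brk2_582 Crest.Agent.R096.Brk6_582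
open Crest.Agent.R096.Grd_714 Crest.Agent.R096.Bin_181 Crest.Agent.R096.Fl_835
open Crest.Agent.R096.Bsp_628 Crest.Agent.R096.Brk3_582 Crest.Agent.R096.Brk5_582

variable {E : Type*} [NormedAddCommGroup E] [NormedSpace ℝ E] {I : Type*}
variable {La : Set E} {P : I → Set E} {b : Set I → E} {m m' : I → ℕ} [CompleteSpace E]





variable (F : Foam La P b 4) (hQ : Quads P b) {D : I → ℝ} (hD : StepLe P b D)
include F hQ hD





omit [CompleteSpace E] F hQ hD in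
lemma nuR_injOn {n : ℕ → ℝ} (hN : StrictMono n) (h0 : n 0 = 0) {M : ℕ} (hM : 0 < M) :
    InjOn (nuR n M) (Icc (0 : ℝ) M) := fun x hx y hy he => by
  rw [← niR_nuR hN h0 hM hx, he, niR_nuR hN h0 hM hy]

section N

variable {n : I → ℕ → ℝ} (hN : ∀ a, StrictMono (n a)) (hN0 : ∀ a, n a 0 = 0)
  (hNm : ∀ a, n a (m' a) = m a)


end N

end Crest.Agent.R096.Ncl_914

namespace Crest.Agent.R096.Ncl_914

open Crest.Agent.R096.Brk1_582 Crest.Agent.R096.Brk2_582 Crest.Agent.R096.Brk6_582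
open Crest.Agent.R096.Grd_714 Crest.Agent.R096.Bin_181 Crest.Agent.R096.Fl_835
open Crest.Agent.R096.Bsp_628 Crest.Agent.R096.Brk3_582 Crest.Agent.R096.Brk5_582

section box

variable {κ : Type*} [Fintype κ] [Nonempty κ] {La : Set (κ → ℝ)} {F : Set (Bx κ)} {δ κ0 : ℝ}



end box

end Crest.Agent.R096.Ncl_914
end

-- ▼ part R096/Ncl3_458
section

/-!
# R096 (row 96), REL-P (helper458 for helper150): the relabelling of the levels in the language of
`Rlp3_150`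

`sgm n M m a x = nuR (n a) M (M x) / m a`.
-/

set_option autoImplicit false
set_option linter.unusedVariables false
set_option linter.unusedSectionVars false

open Set

namespace Crest.Agent.R096.Ncl_458

open Crest.Agent.R096.Brk1_582 Crest.Agent.R096.Brk2_582 Crest.Agent.R096.Brk6_582
open Crest.Agent.R096.Grd_714 Crest.Agent.R096.Bin_181 Crest.Agent.R096.Fl_835
open Crest.Agent.R096.Bsp_628 Crest.Agent.R096.Brk3_582 Crest.Agent.R096.Brk5_582
open Crest.Agent.R096.Rel_628 Crest.Agent.R096.Rlp_150 Crest.Agent.R096.Ncl_914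
open Crest.Agent.R096.Cmh_63

/-! ### the clamp and `nuR` -/

theorem c01_eq (t : ℝ) : c01 t = max 0 (min t 1) := by
  rcases le_total t 0 with h | h
  · rw [c01_of_le h, max_eq_left ((min_le_left _ _).trans h)]
  rcases le_total t 1 with h1 | h1
  · rw [c01_of_mem h h1, min_eq_left h1, max_eq_right h]
  · rw [c01_of_ge h1, min_eq_right h1, max_eq_right zero_le_one]

theorem continuous_nuR (n : ℕ → ℝ) (M : ℕ) : Continuous (nuR n M) := by
  unfold nuR
  simp only [c01_eq]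
  fun_prop

/-- the sum of the clamps is the identity -/
theorem sum_c01 {M : ℕ} {x : ℝ} (hx : x ∈ Icc (0 : ℝ) M) :
    ∑ i ∈ Finset.range M, c01 (x - i) = x := by
  have hN : StrictMono (fun i : ℕ => (i : ℝ)) := Nat.strictMono_cast
  rcases Nat.eq_zero_or_pos M with h0 | h0
  · subst h0
    have : x = 0 := le_antisymm (by simpa using hx.2) hx.1
    simp [this]
  · obtain ⟨i, hi, h1, h2⟩ := exists_cell h0 hx
    have h3 := nuR_eq (n := fun i : ℕ => (i : ℝ)) hN (by simp) hi h1 h2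
    have h4 : nuR (fun i : ℕ => (i : ℝ)) M x = ∑ i ∈ Finset.range M, c01 (x - i) := by
      unfold nuR
      refine Finset.sum_congr rfl fun i _ => ?_
      push_cast
      ring
    rw [← h4, h3]
    push_cast
    ring

/-- **slope bound of `nuR`** -/
theorem nuR_sub_le {n : ℕ → ℝ} {M : ℕ} {K : ℝ} (hK : ∀ j < M, n (j + 1) - n j ≤ K) {x x' : ℝ}
    (hx : x ∈ Icc (0 : ℝ) M) (hx' : x' ∈ Icc (0 : ℝ) M) (h : x ≤ x') :
    nuR n M x' - nuR n M x ≤ K * (x' - x) := by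
  have e : K * (x' - x) = ∑ i ∈ Finset.range M, K * (c01 (x' - i) - c01 (x - i)) := by
    rw [← Finset.mul_sum, Finset.sum_sub_distrib, sum_c01 hx, sum_c01 hx']
  rw [e]
  unfold nuR
  rw [← Finset.sum_sub_distrib]
  refine Finset.sum_le_sum fun i hi => ?_
  rw [← mul_sub]
  refine mul_le_mul_of_nonneg_right (hK i (Finset.mem_range.1 hi)) ?_
  have := c01_mono (show x - (i : ℝ) ≤ x' - i by linarith)
  linarith

/-! ### the relabelling -/

variable {I : Type*}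

/-- the relabelling in the coordinates `sc` -/
noncomputable def sgm (n : I → ℕ → ℝ) (M : ℕ) (m : I → ℕ) : I → ℝ → ℝ :=
  fun a x => nuR (n a) M (M * x) / m a

section sgm

variable {n : I → ℕ → ℝ} (hN : ∀ a, StrictMono (n a)) (hN0 : ∀ a, n a 0 = 0) {M : ℕ} (hM : 0 < M)
  {m : I → ℕ} (hm : ∀ a, 0 < m a) (hNm : ∀ a, n a M = m a)

theorem mul_mem {M : ℕ} {x : ℝ} (hx : x ∈ Icc (0 : ℝ) 1) : (M : ℝ) * x ∈ Icc (0 : ℝ) M := by
  have h : (0 : ℝ) ≤ M := Nat.cast_nonneg M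
  exact ⟨mul_nonneg h hx.1, by nlinarith [hx.2]⟩

include hN hN0 hM hm hNm

/-- (1) -/
theorem rl_sgm : Rl (sgm n M m) where
  zero a := by
    have := nuR_nat (hN a) (hN0 a) (Nat.zero_le M)
    rw [sgm, mul_zero]
    rw [hN0] at this
    simp only [Nat.cast_zero] at this
    rw [this, zero_div]
  one a := by
    have hmr : (0 : ℝ) < m a := by exact_mod_cast hm a
    rw [sgm, mul_one, nuR_nat (hN a) (hN0 a) le_rfl, hNm, div_self hmr.ne']
  mono a := by
    intro x hx y hy hxy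
    have hmr : (0 : ℝ) < m a := by exact_mod_cast hm a
    have hMr : (0 : ℝ) < M := by exact_mod_cast hM
    refine div_lt_div_of_pos_right ?_ hmr
    refine lt_of_le_of_ne (nuR_mono (hN a) (by nlinarith)) fun he => ?_
    have h1 := nuR_injOn (hN a) (hN0 a) hM (mul_mem hx) (mul_mem hy) he
    exact hxy.ne (mul_left_cancel₀ hMr.ne' h1)
  cont a := by
    have : Continuous (sgm n M m a) :=
      ((continuous_nuR _ _).comp (continuous_const.mul continuous_id)).div_const _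
    exact this.continuousOn

omit hm hNm in
/-- (2) -/
theorem sel_sgm (a : I) : Sel (Icc (0 : ℝ) 1) (sgm n M m a) := by
  classical
  refine ⟨(fun i : ℕ => (AffineMap.const ℝ ℝ ((n a i - (n a (i + 1) - n a i) * i) / m a) +
    ((n a (i + 1) - n a i) * M / m a) • (LinearMap.id : ℝ →ₗ[ℝ] ℝ).toAffineMap)) ''
      (Set.Iio M), (finite_Iio M).image _, fun x hx => ?_⟩
  obtain ⟨i, hi, h1⟩ := exists_cell hM (mul_mem (M := M) hx)
  refine ⟨_, mem_image_of_mem _ hi, ?_⟩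
  rw [sgm, nuR_eq (hN a) (hN0 a) hi h1.1 h1.2]
  simp only [AffineMap.coe_add, AffineMap.coe_const, AffineMap.coe_smul, Pi.add_apply,
    Function.const_apply, Pi.smul_apply, LinearMap.coe_toAffineMap, LinearMap.id_coe, id_eq,
    smul_eq_mul]
  ring

omit hN0 hNm in
/-- (3) -/
theorem sgm_lip {L : ℝ} (a : I) (hL : ∀ j < M, n a (j + 1) - n a j ≤ L * (m a / M)) :
    ∀ x ∈ Icc (0 : ℝ) 1, ∀ x' ∈ Icc (0 : ℝ) 1, |sgm n M m a x - sgm n M m a x'| ≤ L * |x - x'| := by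
  have hmr : (0 : ℝ) < m a := by exact_mod_cast hm a
  have hMr : (0 : ℝ) < M := by exact_mod_cast hM
  have key : ∀ x ∈ Icc (0 : ℝ) 1, ∀ x' ∈ Icc (0 : ℝ) 1, x ≤ x' →
      |sgm n M m a x - sgm n M m a x'| ≤ L * |x - x'| := by
    intro x hx x' hx' h
    have h1 := nuR_sub_le hL (mul_mem hx) (mul_mem hx') (by nlinarith)
    have h2 : nuR (n a) M (M * x) ≤ nuR (n a) M (M * x') := nuR_mono (hN a) (by nlinarith)
    rw [abs_sub_comm, abs_sub_comm x x', sgm, sgm, ← sub_div, abs_div, abs_of_pos hmr,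
      abs_of_nonneg (by linarith), abs_of_nonneg (by linarith), div_le_iff₀ hmr]
    refine h1.trans (le_of_eq ?_)
    field_simp
  intro x hx x' hx'
  rcases le_total x x' with h | h
  · exact key x hx x' hx' h
  · have := key x' hx' x hx h
    rwa [abs_sub_comm, abs_sub_comm x' x] at this

omit hNm in
/-- (4) -/
theorem sgm_close {η : ℝ} (a : I) (h : ∀ j ≤ M, |n a j / m a - (j : ℝ) / M| ≤ η) {x : ℝ}
    (hx : x ∈ Icc (0 : ℝ) 1) : |sgm n M m a x - x| ≤ η := by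
  have hmr : (0 : ℝ) < m a := by exact_mod_cast hm a
  have hMr : (0 : ℝ) < M := by exact_mod_cast hM
  have h1 := nuR_close (hN a) (hN0 a) hM hmr h (mul_mem hx)
  rwa [mul_div_cancel_left₀ _ hMr.ne'] at h1


end sgm

/-! ### the heights -/

section sel

variable {V W : Type*} [NormedAddCommGroup V] [NormedSpace ℝ V] [NormedAddCommGroup W]
  [NormedSpace ℝ W] {K : Set V}

theorem sel_cases {ι : Type*} (s : Finset ι) {f : ι → V → W} {k : V → W}
    (h : ∀ i ∈ s, Sel K (f i)) (hk : ∀ x ∈ K, ∃ i ∈ s, k x = f i x) : Sel K k := by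
  classical
  choose! S hS h1 using h
  refine ⟨⋃ i ∈ s, S i, s.finite_toSet.biUnion fun i hi => hS i hi, fun x hx => ?_⟩
  obtain ⟨i, hi, e⟩ := hk x hx
  obtain ⟨a, ha, e'⟩ := h1 i hi x hx
  exact ⟨a, mem_iUnion₂.2 ⟨i, hi, ha⟩, e.trans e'⟩

theorem Sel.mul_const {f : V → ℝ} (hf : Sel K f) (c : ℝ) : Sel K (fun x => f x * c) := by
  have := hf.smul_const c
  simpa only [smul_eq_mul] using this

end sel

theorem sel_fst {K : Set (ℝ × ℝ)} : Sel K (fun w : ℝ × ℝ => w.1) :=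
  sel_affine (K := K) (LinearMap.fst ℝ ℝ ℝ).toAffineMap

theorem sel_snd {K : Set (ℝ × ℝ)} : Sel K (fun w : ℝ × ℝ => w.2) :=
  sel_affine (K := K) (LinearMap.snd ℝ ℝ ℝ).toAffineMap

/-- (5) -/
theorem sel_Nf {n1 n2 : ℕ} (h1 : 0 < n1) (h2 : 0 < n2) : Sel Sc (Nf n1 n2) := by
  classical
  have hn1 : (0 : ℝ) < n1 := by exact_mod_cast h1
  have hn2 : (0 : ℝ) < n2 := by exact_mod_cast h2
  refine sel_cases (Finset.range n1 ×ˢ Finset.range n2)
    (f := fun q w => itc (Grd_714.nu n1 n2) q.1 (q.1 + 1) q.2 (q.2 + 1)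
      ((n1 : ℝ) * (1 - w.1), (n2 : ℝ) * (1 - w.2))) (fun q _ => ?_) (fun w hw => ?_)
  · have e1 : Sel Sc (fun w : ℝ × ℝ => ((q.1 + 1 : ℕ) : ℝ) - (n1 : ℝ) * (1 - w.1)) := by
      refine (((sel_const (K := Sc) (((q.1 + 1 : ℕ) : ℝ) - n1)).add
        (Sel.mul_const (sel_fst) (n1 : ℝ)))).congr fun w _ => ?_
      ring
    have e2 : Sel Sc (fun w : ℝ × ℝ => ((q.2 + 1 : ℕ) : ℝ) - (n2 : ℝ) * (1 - w.2)) := by
      refine (((sel_const (K := Sc) (((q.2 + 1 : ℕ) : ℝ) - n2)).add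
        (Sel.mul_const (sel_snd) (n2 : ℝ)))).congr fun w _ => ?_
      ring
    exact (((sel_const (K := Sc) _).add (Sel.mul_const e2 _)).add (Sel.mul_const e1 _)).add
      (Sel.mul_const (e1.min e2) _)
  · obtain ⟨x, y⟩ := w
    obtain ⟨hx, hy⟩ := hw
    simp only at hx hy
    obtain ⟨p, hp, hp1⟩ := exists_cell h1 (t := n1 * (1 - x))
      ⟨mul_nonneg hn1.le (by linarith [hx.2]), by nlinarith [hx.1]⟩
    obtain ⟨q, hq, hq1⟩ := exists_cell h2 (t := n2 * (1 - y))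
      ⟨mul_nonneg hn2.le (by linarith [hy.2]), by nlinarith [hy.1]⟩
    refine ⟨(p, q), Finset.mem_product.2 ⟨Finset.mem_range.2 hp, Finset.mem_range.2 hq⟩, ?_⟩
    simp only [Nf]
    exact itp_box _ (by omega) le_rfl (by omega) le_rfl hp1.1 (by push_cast; exact hp1.2) hq1.1
      (by push_cast; exact hq1.2)

/-! ### the relabelling of the boundary is `lvm` -/

variable {E : Type*} [NormedAddCommGroup E] [NormedSpace ℝ E]
variable {La : Set E} {P : I → Set E} {b : Set I → E}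

/-- only the heights of the active pair count -/
theorem Bn_congr {N N' : I → I → ℝ × ℝ → ℝ} {u : I → ℝ}
    (h : ∀ c1 c2, c1 ≠ c2 → av u = {c1, c2} →
      N c1 c2 (1 - u c1, 1 - u c2) = N' c1 c2 (1 - u c1, 1 - u c2)) : Bn b N u = Bn b N' u := by
  by_cases hx : ∃ c1 c2 : I, c1 ≠ c2 ∧ av u = {c1, c2}
  · rw [Bn, Bn, dif_pos hx, dif_pos hx,
      h _ _ hx.choose_spec.choose_spec.1 hx.choose_spec.choose_spec.2]
  · rw [Bn, Bn, dif_neg hx, dif_neg hx]

variable [CompleteSpace E]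

section lvm

variable (F : Foam La P b 4) (hQ : Quads P b)
include F hQ

/-- a point of the boundary of the cell in the coordinates `sc` -/
theorem sc_bdP {M : ℕ} (hM : 0 < M) {c0 : I} {z : E} (hz : z ∈ bdP P b (fun _ => M) c0) :
    z ∈ P c0 ∧ sc P b z ∈ KB P c0 ∧ co P b (fun _ => M) z = fun a => (M : ℝ) * sc P b z a := by
  have hm : ∀ c : I, 0 < (fun _ : I => M) c := fun _ => hM
  have hMr : (0 : ℝ) < M := by exact_mod_cast hM
  obtain ⟨hg, hb, hT⟩ := co_bxS F hQ hm hz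
  have h0 : co P b (fun _ => M) z c0 = 0 := by
    have := (hb c0).2
    rw [Hc_self] at this
    exact le_antisymm (by simpa using this) (G2_nonneg hm hg c0)
  have h1 : z = T b (lv (fun _ => M) (co P b (fun _ => M) z)) := by
    conv_lhs => rw [← hT]
    exact Tq_const hM hg
  have h2 : sc P b z = lv (fun _ => M) (co P b (fun _ => M) z) := by
    conv_lhs => rw [h1]
    exact F.sc_T hg.1
  have h3 : sc P b z ∈ K2 P := by rw [h2]; exact hg
  have h4 : sc P b z c0 = 0 := by rw [h2]; show co P b (fun _ => M) z c0 / _ = 0; rw [h0, zero_div]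
  have h5 : z ∈ La := by rw [h1]; exact F.T_mem_La hg.1
  refine ⟨(F.sc_eq_zero h5).1 h4, KB_of_K2 h3 h4, ?_⟩
  funext a
  rw [h2]
  show _ = (M : ℝ) * (co P b (fun _ => M) z a / M)
  field_simp

/-- (6) **the relabelling of the boundary (181's `rcR` for the constant mesh) is `lvm`** for every
clamp width `e ≥ η` -/
theorem rc_lvm {n : I → ℕ → ℝ} {M : ℕ} {m : I → ℕ} (hN : ∀ a, StrictMono (n a))
    (hN0 : ∀ a, n a 0 = 0) (hM : 0 < M) (hm : ∀ a, 0 < m a) (hNm : ∀ a, n a M = m a)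
    {c0 : I} {η e : ℝ} (hη : 0 ≤ η) (he : η ≤ e)
    (hε : ∀ a, (P a ∩ P c0).Nonempty → ∀ j ≤ M, |n a j / m a - (j : ℝ) / M| ≤ η)
    (hmη : ∀ a, (P a ∩ P c0).Nonempty → 1 / (m a : ℝ) ≤ η) {z : E}
    (hz : z ∈ bdP P b (fun _ => M) c0) :
    (rcR (m' := fun _ => M) hN hN0 hNm F hQ (fun _ => hM) hm c0).f z =
      lvm b (sgm n M m) (Nm m) e (sc P b z) := by
  have he0 : 0 ≤ e := hη.trans he
  obtain ⟨hz0, hKB, hco⟩ := sc_bdP F hQ hM hz
  have hR := rl_sgm hN hN0 hM hm hNm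
  have hK : sc P b z ∈ K P := hKB.1
  have h0 : sc P b z c0 = 0 := hKB.2.1
  have h01 : ∀ a, sc P b z a ∈ Icc (0 : ℝ) 1 := fun a => hK.1 a
  have touch : ∀ a, sc P b z a < 1 → (P a ∩ P c0).Nonempty := by
    intro a ha
    obtain ⟨y, hy⟩ := hK.2.2
    refine ⟨y, mem_fc.1 hy a ha, mem_fc.1 hy c0 ?_⟩
    show sc P b z c0 < 1
    rw [h0]; exact one_pos
  -- the clamps of the relabelling
  have e1 : sg (cs (sgm n M m) e) (sc P b z) = sg (sgm n M m) (sc P b z) := by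
    funext a
    show clp (sgm n M m a (sc P b z a)) (sc P b z a) e = sgm n M m a (sc P b z a)
    rcases (h01 a).2.eq_or_lt with h | h
    · rw [h, hR.one]; exact clp_self he0
    · exact clp_of_abs ((sgm_close hN hN0 hM hm a (hε a (touch a h)) (h01 a)).trans he)
  -- the clamps of the heights
  have e2 : Bn b (Nc (Nm m) e) (sg (sgm n M m) (sc P b z)) =
      Bn b (Nm m) (sg (sgm n M m) (sc P b z)) := by
    refine Bn_congr fun c1 c2 hne hav => ?_
    set u := sg (sgm n M m) (sc P b z) with hu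
    have m1 : c1 ∈ av u := by rw [hav]; simp
    have m2 : c2 ∈ av u := by rw [hav]; simp
    have t1 := touch c1 ((hR.lt_one c1 (h01 c1)).1 m1.2)
    have t2 := touch c2 ((hR.lt_one c2 (h01 c2)).1 m2.2)
    have hw : ((1 - u c1, 1 - u c2) : ℝ × ℝ) ∈ Sc :=
      ⟨⟨by simp only; linarith [m1.2], by simp only; linarith [m1.1]⟩,
      ⟨by simp only; linarith [m2.2], by simp only; linarith [m2.1]⟩⟩
    show clp (Nm m c1 c2 (1 - u c1, 1 - u c2)) (min (1 - u c1) (1 - u c2)) e = _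
    exact clp_of_abs ((nf_close (hm c1) (hm c2) hw).trans ((max_le (hmη c1 t1) (hmη c2 t2)).trans he))
  rw [rcR_f, lvm, e1, e2, Tq]
  congr 1
  funext a
  show nuR (n a) M (co P b (fun _ => M) z a) / m a = nuR (n a) M (M * sc P b z a) / m a
  rw [hco]

end lvm

/-! ### box foams -/

section box

variable {κ : Type*} [Fintype κ] [Nonempty κ] {La : Set (κ → ℝ)} {F : Set (Bx κ)} {δ κ0 : ℝ}





end box

end Crest.Agent.R096.Ncl_458
end

-- ▼ part R096/Lco1_714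
section

/-!
# R096 (row 96), LIP-CORE (helper714), part 1: calculus

* `lip_of_local` : a pointwise Lipschitz bound (inside a convex set) is a Lipschitz bound
* `pr s g = ⌊g⌋ + 1/2 + cl (s (g - ⌊g⌋ - 1/2))` : the one dimensional clamps on every unit interval
* radial coordinates of a box
* nearby points of the 2-skeleton lie in one closed grid cell
-/

set_option autoImplicit false
set_option linter.unusedSectionVars false

open Set Filter Topology

namespace Crest.Agent.R096.Lco_714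

open Crest.Agent.R096.Brk1_582 Crest.Agent.R096.Brk2_582 Crest.Agent.R096.Brk6_582
open Crest.Agent.R096.Grd_714

/-! ### local Lipschitz bounds -/

section loc

variable {E F : Type*} [NormedAddCommGroup E] [NormedSpace ℝ E] [NormedAddCommGroup F]

theorem cont_of_local {K : Set E} {S : ℝ} {f : E → F} {x : E}
    (h : ∀ᶠ y in 𝓝[K] x, ‖f y - f x‖ ≤ S * ‖y - x‖) : ContinuousWithinAt f K x := by
  have h1 : Tendsto (fun y => f y - f x) (𝓝[K] x) (𝓝 0) := by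
    have h2 : Tendsto (fun y : E => S * ‖y - x‖) (𝓝[K] x) (𝓝 0) := by
      have : Tendsto (fun y : E => S * ‖y - x‖) (𝓝 x) (𝓝 (S * ‖x - x‖)) := by
        apply Continuous.tendsto
        fun_prop
      have h3 := this.mono_left (nhdsWithin_le_nhds (s := K))
      simpa using h3
    exact squeeze_zero_norm' h h2
  have h3 := h1.add_const (f x)
  simpa [ContinuousWithinAt] using h3

theorem seg_lip {φ : ℝ → F} {c : ℝ} (hφ : ContinuousOn φ (Icc 0 1))
    (h : ∀ t ∈ Ico (0 : ℝ) 1, ∀ᶠ s in 𝓝[>] t, s ≤ 1 → ‖φ s - φ t‖ ≤ c * (s - t)) :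
    ‖φ 1 - φ 0‖ ≤ c := by
  set S : Set ℝ := {t | ‖φ t - φ 0‖ ≤ c * t} with hS
  have hcl : IsClosed (S ∩ Icc 0 1) := by
    have h1 : ContinuousOn (fun t => ‖φ t - φ 0‖ - c * t) (Icc 0 1) := by
      intro t ht
      exact ((hφ t ht).sub continuousWithinAt_const).norm.sub
        (continuousWithinAt_const.mul continuousWithinAt_id)
    have h2 := h1.preimage_isClosed_of_isClosed isClosed_Icc (isClosed_Iic (a := (0:ℝ)))
    have h3 : S ∩ Icc 0 1 = Icc 0 1 ∩ (fun t => ‖φ t - φ 0‖ - c * t) ⁻¹' Iic 0 := by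
      ext t
      simp only [hS, mem_inter_iff, mem_ofPred_eq, mem_preimage, mem_Iic, sub_nonpos]
      tauto
    rw [h3]
    exact h2
  have h0 : (0 : ℝ) ∈ S := by simp [hS]
  have h1 := hcl.Icc_subset_of_forall_mem_nhdsWithin h0 (by
    rintro t ⟨ht, ht2⟩
    have h1' : ∀ᶠ s in 𝓝[>] t, s < 1 := by
      have : Ioo t 1 ∈ 𝓝[>] t := Ioo_mem_nhdsGT ht2.2
      filter_upwards [this] with s hs
      exact hs.2
    filter_upwards [h t ht2, h1'] with s hs hs1
    have hs' := hs hs1.le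
    have h4 : ‖φ s - φ 0‖ ≤ ‖φ s - φ t‖ + ‖φ t - φ 0‖ := by
      have : φ s - φ 0 = (φ s - φ t) + (φ t - φ 0) := by abel
      rw [this]
      exact norm_add_le _ _
    have h5 : ‖φ t - φ 0‖ ≤ c * t := ht
    change ‖φ s - φ 0‖ ≤ c * s
    linarith)
  have h2 : (1 : ℝ) ∈ S := h1 (right_mem_Icc.2 zero_le_one)
  have h3 : ‖φ 1 - φ 0‖ ≤ c * 1 := h2
  linarith

/-- **pointwise Lipschitz on a convex set ⟹ Lipschitz** -/
theorem lip_of_local {K : Set E} (hK : Convex ℝ K) {S : ℝ} {f : E → F}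
    (h : ∀ x ∈ K, ∀ᶠ y in 𝓝[K] x, ‖f y - f x‖ ≤ S * ‖y - x‖) {x y : E} (hx : x ∈ K)
    (hy : y ∈ K) : ‖f y - f x‖ ≤ S * ‖y - x‖ := by
  set φ : ℝ → F := fun t => f (x + t • (y - x)) with hφ
  have hm : ∀ t ∈ Icc (0 : ℝ) 1, x + t • (y - x) ∈ K := fun t ht => hK.add_smul_sub_mem hx hy ht
  have hc : Continuous (fun t : ℝ => x + t • (y - x)) := by fun_prop
  have h1 := seg_lip (φ := φ) (c := S * ‖y - x‖)
    (by
      intro t ht
      have h2 := cont_of_local (h _ (hm t ht))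
      exact h2.comp (f := fun t : ℝ => x + t • (y - x)) hc.continuousWithinAt hm)
    (by
      intro t ht
      have h2 := h _ (hm t ⟨ht.1, ht.2.le⟩)
      have h3 : Tendsto (fun s : ℝ => x + s • (y - x)) (𝓝[>] t) (𝓝 (x + t • (y - x))) :=
        (hc.tendsto t).mono_left nhdsWithin_le_nhds
      have h2' := eventually_nhdsWithin_iff.1 h2
      filter_upwards [h3.eventually h2', self_mem_nhdsWithin] with s hs hst hs1
      have hst' : t < s := hst
      have hs' := hs (hm s ⟨ht.1.trans hst'.le, hs1⟩)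
      have e : x + s • (y - x) - (x + t • (y - x)) = (s - t) • (y - x) := by
        rw [sub_smul]; abel
      rw [e, norm_smul, Real.norm_eq_abs, abs_of_pos (by linarith)] at hs'
      change ‖f (x + s • (y - x)) - f (x + t • (y - x))‖ ≤ S * ‖y - x‖ * (s - t)
      linarith)
  have e1 : φ 1 = f y := by simp [hφ]
  have e0 : φ 0 = f x := by simp [hφ]
  rwa [e1, e0] at h1

end loc

/-! ### the clamps on the unit intervals -/

open Crest.Agent.R096.Bd_416 (cl cl_mem cl_of_mem cl_of_le cl_of_ge abs_cl_sub)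

/-- clamp with slope `s` on every unit interval -/
noncomputable def pr (s g : ℝ) : ℝ := ⌊g⌋ + 1/2 + cl (s * (g - ⌊g⌋ - 1/2))








/-! ### radial coordinates -/

section rad

variable {E : Type*} [NormedAddCommGroup E] [NormedSpace ℝ E] (A : E ≃L[ℝ] E) (o : E)

/-- the gauge of the convex body `o + A '' closedBall 0 1` -/
noncomputable def rho (y : E) : ℝ := ‖A.symm (y - o)‖

/-- the radial projection to the boundary -/
noncomputable def zz (y : E) : E := o + (rho A o y)⁻¹ • (y - o)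

variable {A o}


theorem rho_center : rho A o o = 0 := by simp [rho]

theorem rho_pos {y : E} (h : y ≠ o) : 0 < rho A o y := by
  rw [rho, norm_pos_iff]
  intro h'
  exact h (sub_eq_zero.1 ((A.symm.map_eq_zero_iff).1 h'))

theorem rho_add_smul {t : ℝ} (ht : 0 ≤ t) (y : E) : rho A o (o + t • (y - o)) = t * rho A o y := by
  rw [rho, add_sub_cancel_left, map_smul, norm_smul, Real.norm_eq_abs, abs_of_nonneg ht, rho]

theorem rho_zz {y : E} (h : y ≠ o) : rho A o (zz A o y) = 1 := by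
  have h1 := rho_pos (A := A) h
  rw [zz, rho_add_smul (inv_nonneg.2 h1.le), inv_mul_cancel₀ h1.ne']

theorem add_zz {y : E} (h : y ≠ o) : o + rho A o y • (zz A o y - o) = y := by
  have h1 := rho_pos (A := A) h
  rw [zz, add_sub_cancel_left, smul_smul, mul_inv_cancel₀ h1.ne', one_smul]
  abel


theorem continuous_rho : Continuous (rho A o) := by
  unfold rho
  fun_prop

variable {a h : ℝ} (ha : ∀ v, ‖A.symm v‖ ≤ a * ‖v‖) (hh : ∀ w, ‖A w‖ ≤ h * ‖w‖)
include ha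

theorem rho_lip (y y' : E) : |rho A o y - rho A o y'| ≤ a * ‖y - y'‖ := by
  unfold rho
  refine (abs_norm_sub_norm_le _ _).trans ?_
  rw [← map_sub]
  refine (ha _).trans (le_of_eq ?_)
  congr 2
  abel

include hh

theorem norm_sub_le_rho (y : E) : ‖y - o‖ ≤ h * rho A o y := by
  have := hh (A.symm (y - o))
  rwa [A.apply_symm_apply] at this

/-- the radial projection is Lipschitz on `1/2 ≤ rho` -/
theorem zz_lip {y y' : E} (h1 : 1/2 ≤ rho A o y) (h2 : 1/2 ≤ rho A o y') :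
    ‖zz A o y - zz A o y'‖ ≤ 2 * (1 + h * a) * ‖y - y'‖ := by
  have p1 : 0 < rho A o y := by linarith
  have p2 : 0 < rho A o y' := by linarith
  have e : zz A o y - zz A o y' =
      (rho A o y)⁻¹ • (y - y') + ((rho A o y)⁻¹ - (rho A o y')⁻¹) • (y' - o) := by
    unfold zz
    module
  rw [e]
  refine (norm_add_le _ _).trans ?_
  rw [norm_smul, norm_smul, Real.norm_eq_abs, Real.norm_eq_abs, abs_of_pos (inv_pos.2 p1)]
  have h3 : (rho A o y)⁻¹ ≤ 2 := by
    rw [inv_le_comm₀ p1 two_pos]; linarith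
  have h4 : |(rho A o y)⁻¹ - (rho A o y')⁻¹| * ‖y' - o‖ ≤ 2 * (h * a) * ‖y - y'‖ := by
    have e2 : (rho A o y)⁻¹ - (rho A o y')⁻¹ =
        (rho A o y)⁻¹ * (rho A o y')⁻¹ * (rho A o y' - rho A o y) := by
      field_simp
    rw [e2, abs_mul, abs_of_pos (by positivity), abs_sub_comm]
    have h5 := rho_lip (A := A) (o := o) ha y y'
    have h6 := norm_sub_le_rho (A := A) (o := o) ha hh y'
    have hh0 : 0 ≤ h := by
      have h8 : 0 ≤ h * rho A o y' := (norm_nonneg _).trans h6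
      exact nonneg_of_mul_nonneg_left h8 p2
    have h9 : 0 ≤ a * ‖y - y'‖ := (abs_nonneg _).trans h5
    calc (rho A o y)⁻¹ * (rho A o y')⁻¹ * |rho A o y - rho A o y'| * ‖y' - o‖
        ≤ (rho A o y)⁻¹ * (rho A o y')⁻¹ * (a * ‖y - y'‖) * (h * rho A o y') := by
          refine mul_le_mul ?_ h6 (norm_nonneg _) (by positivity)
          exact mul_le_mul_of_nonneg_left h5 (by positivity)
      _ = (rho A o y)⁻¹ * (h * (a * ‖y - y'‖)) := by field_simp
      _ ≤ 2 * (h * (a * ‖y - y'‖)) := by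
        refine mul_le_mul_of_nonneg_right h3 ?_
        exact mul_nonneg hh0 ((abs_nonneg _).trans h5)
      _ = 2 * (h * a) * ‖y - y'‖ := by ring
  have h7 := mul_le_mul_of_nonneg_right h3 (norm_nonneg (y - y'))
  linarith

end rad

/-! ### nearby points lie in one closed grid cell -/


section cells

variable {E : Type*} [NormedAddCommGroup E] [NormedSpace ℝ E] {I : Type*}
variable {b : Set I → E} {P : I → Set E} {m : I → ℕ}


end cells

end Crest.Agent.R096.Lco_714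
end

-- ▼ part R096/Cst1_476
section

/-!
# R096 (row 96), CORE-ST (helper476): the base point `st C κ` on a brick in level coordinates

`337 #10350 (2) (d)` with `Y = id`: on the shell `p = (1 - κ r) y + κ r b_c` (`y` in a grid cell `q` of
`bd P_c`) the base point `st C κ p` is `Tq b m` of the clamps of
`((1 - κ r) g a - κ (1 - r) ctr a) / (1 - κ)`, `g = co y`.  Consequence: Lipschitz bounds in which the
inverse of `Tq` does not occur.
-/

set_option autoImplicit false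
set_option linter.unusedSectionVars false
set_option linter.unusedVariables false

open Set Metric

namespace Crest.Agent.R096.Cst_476

open Crest.Agent.R096.Ce_537 Crest.Agent.R096.Bd_416 Crest.Agent.R096.Xp_537
open Crest.Agent.R096.Brk1_582 Crest.Agent.R096.Brk2_582 Crest.Agent.R096.Brk6_582
open Crest.Agent.R096.Grd_714 Crest.Agent.R096.Bin_181 Crest.Agent.R096.Fl_835

/-- clamp to `[lo, hi]` -/
def cl (lo hi x : ℝ) : ℝ := max lo (min hi x)

lemma cl_lip (lo hi x y : ℝ) : |cl lo hi x - cl lo hi y| ≤ |x - y| := by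
  unfold cl
  refine (abs_max_sub_max_le_max _ _ _ _).trans ?_
  rw [sub_self, abs_zero, max_eq_right (abs_nonneg _)]
  refine (abs_min_sub_min_le_max _ _ _ _).trans ?_
  rw [sub_self, abs_zero, max_eq_right (abs_nonneg _)]

lemma cl_mem {lo hi x : ℝ} (h : lo ≤ hi) : lo ≤ cl lo hi x ∧ cl lo hi x ≤ hi := by
  unfold cl
  exact ⟨le_max_left _ _, max_le h (min_le_left _ _)⟩

lemma cl_eq {lo hi x : ℝ} (h : lo ≤ x) (h' : x ≤ hi) : cl lo hi x = x := by
  unfold cl; rw [min_eq_right h', max_eq_right h]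

lemma cl_lo {lo hi x : ℝ} (h : x ≤ lo) (h' : lo ≤ hi) : cl lo hi x = lo := by
  unfold cl; rw [min_eq_right (h.trans h'), max_eq_left h]

lemma cl_hi {lo hi x : ℝ} (h : hi ≤ x) (h' : lo ≤ hi) : cl lo hi x = hi := by
  unfold cl; rw [min_eq_left h, max_eq_right h']

variable {E : Type*} [NormedAddCommGroup E] [NormedSpace ℝ E] {I : Type*}
variable {b : Set I → E} {P : I → Set E} {m : I → ℕ}

/-- **the level coordinates of the base point on the shell** -/
noncomputable def cG (q : Gx P m) (κ r : ℝ) (g : I → ℝ) (a : I) : ℝ :=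
  cl (q.lo a) (q.hi a) (((1 - κ * r) * g a - κ * (1 - r) * q.ctr a) / (1 - κ))

lemma cG_mem (q : Gx P m) (κ r : ℝ) (g : I → ℝ) : cG q κ r g ∈ q.bx := by
  intro a
  have h : (q.lo a : ℝ) ≤ q.hi a := by exact_mod_cast q.le a
  exact cl_mem h

lemma cG_lip {q : Gx P m} {κ r r' : ℝ} (hκ : 0 < κ ∧ κ < 1) (h0 : 0 ≤ r) (h1 : r ≤ 1)
    {g g' : I → ℝ} (hg' : g' ∈ q.bx) (a : I) :
    |cG q κ r g a - cG q κ r' g' a| ≤ (|g a - g' a| + κ / 2 * |r - r'|) / (1 - κ) := by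
  have hd : 0 < 1 - κ := by linarith [hκ.2]
  refine (cl_lip _ _ _ _).trans ?_
  have h2 := hg' a
  have e : q.ctr a = ((q.lo a : ℝ) + q.hi a) / 2 := rfl
  have h3 : (q.hi a : ℝ) ≤ q.lo a + 1 := by exact_mod_cast q.le1 a
  have h4 : |g' a - q.ctr a| ≤ 1 / 2 := by
    rw [e, abs_le]; constructor <;> linarith [h2.1, h2.2]
  rw [← sub_div, abs_div, abs_of_pos hd]
  refine div_le_div_of_nonneg_right ?_ hd.le
  have e2 : (1 - κ * r) * g a - κ * (1 - r) * q.ctr a -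
      ((1 - κ * r') * g' a - κ * (1 - r') * q.ctr a) =
      (1 - κ * r) * (g a - g' a) + κ * (r' - r) * (g' a - q.ctr a) := by ring
  rw [e2]
  refine (abs_add_le _ _).trans (add_le_add ?_ ?_)
  · rw [abs_mul]
    have h5 : |1 - κ * r| ≤ 1 := by
      rw [abs_le]; constructor <;> nlinarith [hκ.1, hκ.2, mul_nonneg hκ.1.le h0]
    exact mul_le_of_le_one_left (abs_nonneg _) h5
  · rw [abs_mul, abs_mul, abs_of_pos hκ.1, abs_sub_comm r' r]
    have h5 : 0 ≤ κ * |r - r'| := mul_nonneg hκ.1.le (abs_nonneg _)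
    calc κ * |r - r'| * |g' a - q.ctr a| ≤ κ * |r - r'| * (1 / 2) :=
        mul_le_mul_of_nonneg_left h4 h5
      _ = κ / 2 * |r - r'| := by ring

/-- the state of a point of the shell -/
noncomputable def lc (c : I) (r : ℝ) (l : Cel P m →₀ ℝ) : Cel P m →₀ ℝ :=
  Finsupp.single (.top c) r + (1 - r) • l

open Classical in
lemma lc_val (c : I) (r : ℝ) (l' : Cel P m →₀ ℝ) (ρ : Cel P m) :
    lc c r l' ρ = (if ρ = .top c then r else 0) + (1 - r) * l' ρ := by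
  show (Finsupp.single (.top c) r : Cel P m →₀ ℝ) ρ + (1 - r) * l' ρ = _
  rw [Finsupp.single_apply]
  simp only [eq_comm]

open Classical in
lemma lc_sup (c : I) (r : ℝ) (l' : Cel P m →₀ ℝ) :
    (lc c r l').support ⊆ insert (.top c) l'.support := by
  intro ρ hρ
  rw [Finset.mem_insert]
  by_contra hcon
  push Not at hcon
  rw [Finsupp.mem_support_iff] at hρ
  apply hρ
  rw [lc_val, if_neg hcon.1, Finsupp.notMem_support_iff.1 hcon.2]
  ring

lemma lc_sum {c : I} {l' : Cel P m →₀ ℝ} (hl0 : l' (.top c) = 0) (r : ℝ) {V : Type*}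
    [AddCommGroup V] [Module ℝ V] (w : Cel P m → V) :
    ∑ ρ ∈ (lc c r l').support, lc c r l' ρ • w ρ =
      r • w (.top c) + (1 - r) • ∑ ρ ∈ l'.support, l' ρ • w ρ := by
  classical
  have e1 : ∑ ρ ∈ (lc c r l').support, lc c r l' ρ • w ρ =
      ∑ ρ ∈ insert (.top c) l'.support, lc c r l' ρ • w ρ := by
    refine Finset.sum_subset (lc_sup c r l') fun ρ _ h => ?_
    rw [Finsupp.notMem_support_iff.1 h, zero_smul]
  have hnot : (.top c : Cel P m) ∉ l'.support := by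
    rw [Finsupp.notMem_support_iff]; exact hl0
  rw [e1, Finset.sum_insert hnot, lc_val, if_pos rfl, hl0, mul_zero, add_zero, Finset.smul_sum]
  congr 1
  refine Finset.sum_congr rfl fun ρ hρ => ?_
  have hne' : ρ ≠ .top c := by rintro rfl; exact hnot hρ
  rw [lc_val, if_neg hne', zero_add, mul_smul]

section foam

variable {La : Set E} [CompleteSpace E] (F : Foam La P b 4) (hQ : Quads P b)
  (hne : ∀ c, (P c).Nonempty) (hm : ∀ c, 0 < m c)
variable {κ : ℝ} (hκ : 0 < κ ∧ κ < 1)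

include hκ in
/-- **(a)**: on a grid cell the base point is a product of one dimensional clamps -/
theorem co_st {q : Gx P m} {y : E} (hy : y ∈ (grid F hQ hne hm).cell (.gr q)) (a : I) :
    co P b m (st (grid F hQ hne hm) κ y) a =
      cl (q.lo a) (q.hi a) ((co P b m y a - κ * q.ctr a) / (1 - κ)) := by
  have hd : 0 < 1 - κ := by linarith [hκ.2]
  have hle : (q.lo a : ℝ) ≤ q.hi a := by exact_mod_cast q.le a
  have e : q.ctr a = ((q.lo a : ℝ) + q.hi a) / 2 := rfl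
  by_cases hB : y ∈ (ek (grid F hQ hne hm) b κ (.gr q)).B a
  · obtain ⟨h1, h2, h3⟩ := clampA F hQ hne hm hκ (.gr q) hy hB
    have h4 : (q.hi a : ℝ) = q.lo a + 1 := by exact_mod_cast Gx.hi_eq h1
    have e2 : (co P b m y a - κ * q.ctr a) / (1 - κ) = co P b m (st (grid F hQ hne hm) κ y) a := by
      rw [div_eq_iff hd.ne', h3, e, h4]; ring
    rw [e2, cl_eq h2.1 (by rw [h4]; exact h2.2)]
  · obtain ⟨k, k1, k2, k3, k4⟩ := clampB F hQ hne hm hκ (.gr q) hy hB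
    rw [k3]
    by_cases hf : a ∈ q.free
    · have h4 : (q.hi a : ℝ) = q.lo a + 1 := by exact_mod_cast Gx.hi_eq hf
      have h5 := Gx.hi_eq hf
      rw [abs_lt] at k4
      have h6 : k = q.lo a ∨ k = q.hi a := by omega
      rcases h6 with h6 | h6
      · rw [h6] at k4 ⊢
        rw [cl_lo _ hle]
        rw [div_le_iff₀ hd, e, h4]
        nlinarith [k4.2]
      · rw [h6] at k4 ⊢
        rw [cl_hi _ hle]
        rw [le_div_iff₀ hd, e, h4]
        nlinarith [k4.1, h4]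
    · have h5 := Gx.lo_eq hf
      have h6 : k = q.lo a := by omega
      have h7 : (q.hi a : ℝ) = q.lo a := by exact_mod_cast h5.symm
      rw [h6, h7]
      exact (le_antisymm (cl_mem le_rfl).2 (cl_mem le_rfl).1).symm

include hκ in
/-- **(d)**: the base point on the shell of the brick `c` -/
theorem core_st {c : I} {q : Gx P m} (hq : q.hi c = 0) {y : E}
    (hy : y ∈ (grid F hQ hne hm).cell (.gr q)) {r : ℝ} (h0 : 0 ≤ r) (h1 : r < 1) :
    (1 - κ * r) • y + (κ * r) • b {c} ∈ (grid F hQ hne hm).cell (.top c) ∧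
    sl (grid F hQ hne hm) κ ((1 - κ * r) • y + (κ * r) • b {c}) (.top c) = r ∧
    co P b m (st (grid F hQ hne hm) κ ((1 - κ * r) • y + (κ * r) • b {c})) =
      cG q κ r (co P b m y) ∧
    st (grid F hQ hne hm) κ ((1 - κ * r) • y + (κ * r) • b {c}) =
      Tq b m (cG q κ r (co P b m y)) := by
  classical
  have hκr : κ * r < 1 := by nlinarith [hκ.1, hκ.2]
  have hd : 0 < 1 - κ * r := by linarith
  have hd1 : 0 < 1 - κ := by linarith [hκ.2]
  set κ' : ℝ := κ * (1 - r) / (1 - κ * r) with hκ'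
  have hκp : 0 < κ' ∧ κ' < 1 := by
    constructor
    · exact div_pos (mul_pos hκ.1 (by linarith)) hd
    · rw [hκ', div_lt_one hd]; nlinarith [hκ.2]
  have k1 : (1 - κ * r) * κ' = κ * (1 - r) := by
    rw [hκ', mul_div_cancel₀ _ hd.ne']
  have k2 : (1 - κ * r) * (1 - κ') = 1 - κ := by
    rw [mul_sub, k1]; ring
  obtain ⟨s1, s2, s3⟩ := st_spec (grid F hQ hne hm) hκp hy
  set l' := sl (grid F hQ hne hm) κ' y with hl'
  set t := st (grid F hQ hne hm) κ' y with ht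
  have htop : ∀ ρ ∈ l'.support, ρ ≤ (.top c : Cel P m) := fun ρ hρ =>
    (s3 ρ hρ).trans (Cel.gr_le_top.2 hq)
  have hl0 : l' (.top c) = 0 := by
    by_contra h
    exact Cel.top_le_gr (s3 _ (Finsupp.mem_support_iff.2 h))
  obtain ⟨ρ0, hρ0, -⟩ := s1.exists_top
  have htc : t ∈ (grid F hQ hne hm).cell (.top c) :=
    (grid F hQ hne hm).mono_le (htop ρ0 hρ0) (s1.mem _ hρ0)
  have hsup := lc_sup c r l'
  have hval := lc_val c r l'
  have hsum : ∑ ρ ∈ (lc c r l').support, lc c r l' ρ = 1 := by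
    have h := lc_sum (c := c) hl0 r (fun _ => (1 : ℝ))
    simp only [smul_eq_mul, mul_one] at h
    rw [h, s1.sum]; ring
  have hst : State (grid F hQ hne hm) (lc c r l') t := by
    refine ⟨fun ρ => ?_, ?_, ?_, ?_⟩
    · rw [hval]
      have := s1.nn ρ
      split_ifs
      · have := mul_nonneg (sub_nonneg.2 h1.le) this; linarith
      · have := mul_nonneg (sub_nonneg.2 h1.le) this; linarith
    · exact hsum
    · intro ρ hρ σ hσ
      have e1 := hsup hρ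
      have e2 := hsup hσ
      rw [Finset.mem_insert] at e1 e2
      rcases e1 with rfl | e1
      · rcases e2 with rfl | e2
        · exact Or.inl le_rfl
        · exact Or.inr (htop _ e2)
      · rcases e2 with rfl | e2
        · exact Or.inl (htop _ e1)
        · exact s1.chain _ e1 _ e2
    · intro ρ hρ
      have e1 := hsup hρ
      rw [Finset.mem_insert] at e1
      rcases e1 with rfl | e1
      · exact htc
      · exact s1.mem _ e1
  have hle : ∀ ρ ∈ (lc c r l').support, ρ ≤ (.top c : Cel P m) := by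
    intro ρ hρ
    have e1 := hsup hρ
    rw [Finset.mem_insert] at e1
    rcases e1 with rfl | e1
    · exact le_rfl
    · exact htop _ e1
  have hpk : pk (grid F hQ hne hm) κ (lc c r l') t = (1 - κ * r) • y + (κ * r) • b {c} := by
    have e1 : bs (grid F hQ hne hm).b (lc c r l') =
        r • b {c} + (1 - r) • bs (grid F hQ hne hm).b l' := by
      unfold bs
      exact lc_sum (c := c) hl0 r _
    unfold pk
    rw [e1, ← s2]
    unfold pk
    have e2 : (1 - κ * r) • ((1 - κ') • t + κ' • bs (grid F hQ hne hm).b l') =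
        (1 - κ) • t + (κ * (1 - r)) • bs (grid F hQ hne hm).b l' := by
      rw [smul_add, smul_smul, smul_smul, k1, k2]
    rw [e2]
    module
  rw [← hpk]
  have hct : co P b m t = cG q κ r (co P b m y) := by
    funext a
    rw [ht, co_st F hQ hne hm hκp hy a]
    unfold cG
    congr 1
    rw [div_eq_div_iff (by linarith [hκp.2]) hd1.ne']
    have k3 : κ * (1 - r) = (1 - κ * r) * κ' := k1.symm
    rw [k3, ← k2]
    ring
  refine ⟨pk_mem _ hκ hst hle, ?_, ?_, ?_⟩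
  · rw [sl_pk _ hκ hst, hval, if_pos rfl, hl0]; ring
  · rw [st_pk _ hκ hst]; exact hct
  · rw [st_pk _ hκ hst, ← hct]
    exact (Tq_co_of_mem F hQ hm (st_mem _ hκp hy)).symm

include hκ in
/-- the inner copy -/
theorem core_in {c : I} {u : E} (hu : u ∈ P c) :
    st (grid F hQ hne hm) κ ((1 - κ) • u + κ • b {c}) = u ∧
    sl (grid F hQ hne hm) κ ((1 - κ) • u + κ • b {c}) = Finsupp.single (.top c) 1 := by
  classical
  have hs : (Finsupp.single (.top c) 1 : Cel P m →₀ ℝ).support = {.top c} :=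
    Finsupp.support_single _ one_ne_zero
  have hst : State (grid F hQ hne hm) (Finsupp.single (.top c) 1) u := by
    refine ⟨fun ρ => ?_, ?_, ?_, ?_⟩
    · rw [Finsupp.single_apply]; split_ifs <;> norm_num
    · rw [hs, Finset.sum_singleton, Finsupp.single_eq_same]
    · intro ρ hρ σ hσ
      rw [hs, Finset.mem_singleton] at hρ hσ
      rw [hρ, hσ]; exact Or.inl le_rfl
    · intro ρ hρ
      rw [hs, Finset.mem_singleton] at hρ
      rw [hρ]; exact hu
  have hpk : pk (grid F hQ hne hm) κ (Finsupp.single (.top c) 1) u = (1 - κ) • u + κ • b {c} := by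
    unfold pk bs
    rw [hs, Finset.sum_singleton, Finsupp.single_eq_same, one_smul]; rfl
  rw [← hpk]
  exact ⟨st_pk _ hκ hst, sl_pk _ hκ hst⟩

include hκ in
/-- **(d) for `r ≤ 1`** -/
theorem core_st' {c : I} {q : Gx P m} (hq : q.hi c = 0) {y : E}
    (hy : y ∈ (grid F hQ hne hm).cell (.gr q)) {r : ℝ} (h0 : 0 ≤ r) (h1 : r ≤ 1) :
    st (grid F hQ hne hm) κ ((1 - κ * r) • y + (κ * r) • b {c}) =
      Tq b m (cG q κ r (co P b m y)) := by
  rcases h1.lt_or_eq with h1 | rfl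
  · exact (core_st F hQ hne hm hκ hq hy h0 h1).2.2.2
  · have hyc : y ∈ P c := (grid F hQ hne hm).mono_le
      (p := .gr q) (q := .top c) (Cel.gr_le_top.2 hq) hy
    rw [mul_one, (core_in F hQ hne hm hκ hyc).1]
    have e : cG q κ 1 (co P b m y) = co P b m y := by
      funext a
      unfold cG
      have hd : (1 : ℝ) - κ ≠ 0 := by linarith [hκ.2]
      have h2 := co_mem F hQ hm hy a
      rw [mul_one, sub_self, mul_zero, zero_mul, sub_zero, mul_div_cancel_left₀ _ hd,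
        cl_eq h2.1 h2.2]
    rw [e]
    exact (Tq_co_of_mem F hQ hm hy).symm

include hκ in
/-- **Lipschitz bound on the shell over a grid cell**: no inverse of `Tq`, no fatness. -/
theorem core_st_lip {D : I → ℝ} (hD : StepLe P b D) {c : I} {q : Gx P m} (hq : q.hi c = 0)
    {y y' : E} (hy : y ∈ (grid F hQ hne hm).cell (.gr q))
    (hy' : y' ∈ (grid F hQ hne hm).cell (.gr q)) {r r' : ℝ} (h0 : 0 ≤ r) (h1 : r ≤ 1)
    (h0' : 0 ≤ r') (h1' : r' ≤ 1) {M : ℝ} (hM0 : 0 ≤ M)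
    (hM : ∀ a ∈ q.free, 0 ≤ D a ∧ D a * (|co P b m y a - co P b m y' a| + κ / 2 * |r - r'|) ≤
      (1 - κ) * M * m a) :
    ‖st (grid F hQ hne hm) κ ((1 - κ * r) • y + (κ * r) • b {c}) -
      st (grid F hQ hne hm) κ ((1 - κ * r') • y' + (κ * r') • b {c})‖ ≤ 2 * M := by
  have hd : 0 < 1 - κ := by linarith [hκ.2]
  rw [core_st' F hQ hne hm hκ hq hy h0 h1, core_st' F hQ hne hm hκ hq hy' h0' h1']
  refine Tq_lip F hQ hD hm (cG_mem _ _ _ _) (cG_mem _ _ _ _) hM0 fun a ha => ?_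
  obtain ⟨k0, k1⟩ := hM a ha
  have k2 := cG_lip (r' := r') hκ h0 h1 (g := co P b m y) (co_mem F hQ hm hy') a
  calc D a * |cG q κ r (co P b m y) a - cG q κ r' (co P b m y') a|
      ≤ D a * ((|co P b m y a - co P b m y' a| + κ / 2 * |r - r'|) / (1 - κ)) :=
        mul_le_mul_of_nonneg_left k2 k0
    _ = D a * (|co P b m y a - co P b m y' a| + κ / 2 * |r - r'|) / (1 - κ) := by ring
    _ ≤ M * m a := by
        rw [div_le_iff₀ hd]; linarith

end foam

end Crest.Agent.R096.Cst_476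
end

-- ▼ part R096/Xq4_537
section

/-!
# R096 (row 96), EXPLODE, part q4 (helper537): LIP-ST

The Lipschitz constant of the base point `st C κ` on a cell `q` is at most
`(1 + S) ^ dim q / (1 - κ)` where `S` bounds diameter / (relative inradius at the barycentre) of the
cells `≤ q`: uniform in the number of cells.
-/

set_option autoImplicit false
set_option linter.unusedSectionVars false
set_option linter.unusedVariables false
set_option linter.deprecated false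

open Set Filter Topology
open scoped NNReal

namespace Crest.Agent.R096.Xp_537

open Crest.Agent.R096.Ce_537 (PLOn PLEquiv cube sph IsBall LocPL)
open Crest.Agent.R096.Bd_416

variable {E : Type*} [NormedAddCommGroup E] [NormedSpace ℝ E]
variable {Q : Type*} [PartialOrder Q] {Λ : Set E}



variable {C : CC Λ Q} {κ : ℝ}





open Classical in
/-- moving the mass of `q` to `p` -/
noncomputable def shift (q p : Q) (l : Q →₀ ℝ) : Q →₀ ℝ := l.erase q + Finsupp.single p (l q)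






end Crest.Agent.R096.Xp_537
end

-- ▼ part R096/Cst2_476
section

/-!
# R096 (row 96), CORE-ST 2 (helper476): common cells near a point; local Lipschitz bounds on a convex
set are global
-/

set_option autoImplicit false
set_option linter.unusedSectionVars false
set_option linter.unusedVariables false

open Set Metric Filter Topology

namespace Crest.Agent.R096.Cst_476

open Crest.Agent.R096.Ce_537 Crest.Agent.R096.Bd_416 Crest.Agent.R096.Xp_537
open Crest.Agent.R096.Brk1_582 Crest.Agent.R096.Brk2_582 Crest.Agent.R096.Brk6_582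
open Crest.Agent.R096.Grd_714 Crest.Agent.R096.Bin_181 Crest.Agent.R096.Fl_835

section lip

variable {V W : Type*} [NormedAddCommGroup V] [NormedSpace ℝ V] [NormedAddCommGroup W]

/-- **local => global** on a convex set -/
theorem lip_of_local {S : Set V} (hS : Convex ℝ S) {G : V → W} {K : ℝ} (hK : 0 ≤ K)
    (h : ∀ x ∈ S, ∀ᶠ x' in 𝓝[S] x, ‖G x' - G x‖ ≤ K * ‖x' - x‖) {x x' : V} (hx : x ∈ S)
    (hx' : x' ∈ S) : ‖G x' - G x‖ ≤ K * ‖x' - x‖ := by
  set L := K * ‖x' - x‖ with hL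
  have hL0 : 0 ≤ L := mul_nonneg hK (norm_nonneg _)
  set γ : ℝ → V := fun t => x + t • (x' - x) with hγ
  have hγc : Continuous γ := by fun_prop
  have hγS : ∀ t ∈ Icc (0 : ℝ) 1, γ t ∈ S := by
    intro t ht
    have := hS hx hx' (sub_nonneg.2 ht.2) ht.1 (by ring)
    have e : γ t = (1 - t) • x + t • x' := by simp only [hγ]; module
    rw [e]; exact this
  have hd : ∀ s t, ‖γ s - γ t‖ = |s - t| * ‖x' - x‖ := by
    intro s t
    have e : γ s - γ t = (s - t) • (x' - x) := by simp only [hγ]; module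
    rw [e, norm_smul, Real.norm_eq_abs]
  have hloc : ∀ t ∈ Icc (0 : ℝ) 1, ∀ᶠ s in 𝓝[Icc 0 1] t,
      ‖G (γ s) - G (γ t)‖ ≤ L * |s - t| := by
    intro t ht
    have h1 : Tendsto γ (𝓝[Icc 0 1] t) (𝓝[S] (γ t)) :=
      tendsto_nhdsWithin_iff.2 ⟨(hγc.tendsto t).mono_left nhdsWithin_le_nhds,
        eventually_mem_nhdsWithin.mono fun s hs => hγS s hs⟩
    filter_upwards [h1.eventually (h _ (hγS t ht))] with s hs
    refine hs.trans (le_of_eq ?_)
    rw [hd, hL]; ring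
  have hc : ContinuousOn (fun t => G (γ t)) (Icc 0 1) := by
    intro t ht
    rw [ContinuousWithinAt, tendsto_iff_norm_sub_tendsto_zero]
    have h2 : Tendsto (fun s => L * |s - t|) (𝓝[Icc 0 1] t) (𝓝 0) := by
      have : Tendsto (fun s : ℝ => L * |s - t|) (𝓝 t) (𝓝 (L * |t - t|)) :=
        ((continuous_const.mul ((continuous_id.sub continuous_const).abs)).tendsto t)
      rw [sub_self, abs_zero, mul_zero] at this
      exact this.mono_left nhdsWithin_le_nhds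
    refine squeeze_zero' (Eventually.of_forall fun s => norm_nonneg _) (hloc t ht) h2
  have hsub : Icc (0 : ℝ) 1 ⊆ {t | ‖G (γ t) - G (γ 0)‖ ≤ L * t} := by
    have hcl : IsClosed ({t | ‖G (γ t) - G (γ 0)‖ ≤ L * t} ∩ Icc (0 : ℝ) 1) := by
      have h3 : ContinuousOn (fun t => L * t - ‖G (γ t) - G (γ 0)‖) (Icc (0 : ℝ) 1) :=
        (continuousOn_const.mul continuousOn_id).sub ((hc.sub continuousOn_const).norm)
      have h4 := h3.preimage_isClosed_of_isClosed isClosed_Icc (isClosed_Ici (a := (0 : ℝ)))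
      have e : {t | ‖G (γ t) - G (γ 0)‖ ≤ L * t} ∩ Icc (0 : ℝ) 1 =
          Icc 0 1 ∩ (fun t => L * t - ‖G (γ t) - G (γ 0)‖) ⁻¹' Ici 0 := by
        ext t
        simp only [mem_inter_iff, mem_ofPred_eq, mem_preimage, mem_Ici, sub_nonneg, and_comm]
      rw [e]; exact h4
    refine hcl.Icc_subset_of_forall_exists_gt ?_ ?_
    · show ‖G (γ 0) - G (γ 0)‖ ≤ L * 0
      rw [sub_self, norm_zero, mul_zero]
    · rintro t ⟨ht, ht0⟩ y hy
      have h5 : ∀ᶠ s in 𝓝[>] t, ‖G (γ s) - G (γ t)‖ ≤ L * |s - t| := by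
        have h6 : 𝓝[>] t ≤ 𝓝[Icc 0 1] t := by
          rw [nhdsWithin, nhdsWithin]
          refine le_inf inf_le_left ?_
          have h7 : Icc (0 : ℝ) 1 ∈ 𝓝[>] t := by
            refine mem_nhdsWithin_iff_exists_mem_nhds_inter.2 ⟨Iio 1, Iio_mem_nhds ht0.2, ?_⟩
            rintro s ⟨hs1, hs2⟩
            exact ⟨ht0.1.trans (le_of_lt hs2), le_of_lt hs1⟩
          exact le_principal_iff.2 h7
        exact h6 (hloc t ⟨ht0.1, ht0.2.le⟩)
      have h8 : ∀ᶠ s in 𝓝[>] t, s ∈ Ioc t y := Ioc_mem_nhdsGT hy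
      obtain ⟨s, hs1, hs2⟩ := (h5.and h8).exists
      refine ⟨s, ?_, hs2⟩
      show ‖G (γ s) - G (γ 0)‖ ≤ L * s
      have ht' : ‖G (γ t) - G (γ 0)‖ ≤ L * t := ht
      rw [abs_of_pos (sub_pos.2 hs2.1)] at hs1
      calc ‖G (γ s) - G (γ 0)‖ = ‖(G (γ s) - G (γ t)) + (G (γ t) - G (γ 0))‖ := by
            rw [sub_add_sub_cancel]
        _ ≤ ‖G (γ s) - G (γ t)‖ + ‖G (γ t) - G (γ 0)‖ := norm_add_le _ _
        _ ≤ L * (s - t) + L * t := add_le_add hs1 ht'
        _ = L * s := by ring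
  have h9 := hsub (right_mem_Icc.2 zero_le_one)
  have e0 : γ 0 = x := by simp [hγ]
  have e1 : γ 1 = x' := by simp [hγ]
  have h10 : ‖G (γ 1) - G (γ 0)‖ ≤ L * 1 := h9
  rwa [e0, e1, mul_one] at h10

end lip

section cc

variable {E : Type*} [NormedAddCommGroup E] [NormedSpace ℝ E]
variable {Q : Type*} [PartialOrder Q] {Λ : Set E}

/-- near `y` only the cells of `y` occur -/
theorem near_cells (C : CC Λ Q) {y : E} (hy : y ∈ Λ) :
    ∀ᶠ y' in 𝓝 y, ∀ q, y' ∈ C.cell q → y ∈ C.cell q := by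
  obtain ⟨r, hr, hf⟩ := C.lf y hy
  have h1 : ∀ q ∈ {q | (C.cell q ∩ Metric.ball y r).Nonempty},
      ∀ᶠ y' in 𝓝 y, y' ∈ C.cell q → y ∈ C.cell q := by
    intro q _
    by_cases h : y ∈ C.cell q
    · exact Eventually.of_forall fun _ _ => h
    · filter_upwards [(C.cpt q).isClosed.isOpen_compl.mem_nhds h] with y' hy' h'
      exact absurd h' hy'
  filter_upwards [(hf.eventually_all).2 h1, Metric.ball_mem_nhds y hr] with y' h2 h3 q hq
  exact h2 q ⟨y', hq, h3⟩ hq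

end cc

section foam

variable {E : Type*} [NormedAddCommGroup E] [NormedSpace ℝ E] {I : Type*}
variable {b : Set I → E} {P : I → Set E} {m : I → ℕ}
variable {La : Set E} [CompleteSpace E] (F : Foam La P b 4) (hQ : Quads P b)
  (hne : ∀ c, (P c).Nonempty) (hm : ∀ c, 0 < m c)

/-- the points of `bd P_c` lie in grid cells of `c` -/
theorem exists_gr {c c' : I} (hcc : c' ≠ c) {y : E} (hy : y ∈ P c) (hy' : y ∈ P c') :
    ∃ q : Gx P m, q.hi c = 0 ∧ y ∈ (grid F hQ hne hm).cell (.gr q) := by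
  obtain ⟨g, hg, rfl⟩ := exists_Tq F hQ hm (F.sub c hy) hcc hy' hy
  refine ⟨flb hm g hg, ?_, g, mem_flb hm hg, rfl⟩
  rw [← Gx.zero_iff_of_obx (flb_mem_obx hm hg)]
  exact (Tq_mem_iff F hQ hm hg).1 hy

/-- **a point of `bd P_c` near `y` shares a grid cell with `y`** -/
theorem share {c : I} {y : E} (hy : y ∈ P c) :
    ∀ᶠ y' in 𝓝 y, y' ∈ P c → (∃ c', c' ≠ c ∧ y' ∈ P c') →
      ∃ q : Gx P m, q.hi c = 0 ∧ y ∈ (grid F hQ hne hm).cell (.gr q) ∧
        y' ∈ (grid F hQ hne hm).cell (.gr q) := by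
  filter_upwards [near_cells (grid F hQ hne hm) (F.sub c hy)] with y' h h1 ⟨c', h2, h3⟩
  obtain ⟨q, hq, hq'⟩ := exists_gr F hQ hne hm h2 h1 h3
  exact ⟨q, hq, h _ hq', hq'⟩

variable {κ : ℝ} (hκ : 0 < κ ∧ κ < 1)


end foam

end Crest.Agent.R096.Cst_476
end

-- ▼ part R096/Lco2_714
section

/-!
# R096 (row 96), LIP-CORE (helper714), part 2: `st κ ∘ R` is uniformly Lipschitz on the core cell

`lip_core` : `R` keeps the shells of `P c` and is radial over `Y : bd P c → bd P c` near the boundary;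
the level coordinates of `Y` are `L m a / D a`-Lipschitz.  Then `st κ ∘ R` is Lipschitz with a constant
which does not depend on `κ ≤ 1/2` and on the numbers of levels `m`.
-/

set_option autoImplicit false
set_option linter.unusedSectionVars false
set_option linter.unusedVariables false

open Set Metric Filter Topology

namespace Crest.Agent.R096.Lco_714

open Crest.Agent.R096.Ce_537 Crest.Agent.R096.Bd_416 Crest.Agent.R096.Xp_537
open Crest.Agent.R096.Brk1_582 Crest.Agent.R096.Brk2_582 Crest.Agent.R096.Brk6_582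
open Crest.Agent.R096.Grd_714 Crest.Agent.R096.Bin_181 Crest.Agent.R096.Fl_835
open Crest.Agent.R096.Cst_476

variable {E : Type*} [NormedAddCommGroup E] [NormedSpace ℝ E] {I : Type*}
variable {b : Set I → E} {P : I → Set E} {m : I → ℕ}
variable {La : Set E} [CompleteSpace E] (F : Foam La P b 4) (hQ : Quads P b)
  (hne : ∀ c, (P c).Nonempty) (hm : ∀ c, 0 < m c)
variable {κ : ℝ} {c : I}
variable {A : E ≃L[ℝ] E} {a0 h0 : ℝ}

/-- data of the radial map on one core -/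
structure Rad (P : I → Set E) (b : Set I → E) (m : I → ℕ) (D : I → ℝ) (c : I) (κ : ℝ)
    (A : E ≃L[ℝ] E) (a0 h0 S L K2 : ℝ) (R Y : E → E) : Prop where
  ball : P c = {y | rho A (b {c}) y ≤ 1}
  ha : ∀ v, ‖A.symm v‖ ≤ a0 * ‖v‖
  hh : ∀ w, ‖A w‖ ≤ h0 * ‖w‖
  lip : ∀ x ∈ P c, ∀ x' ∈ P c, ‖R x' - R x‖ ≤ S * ‖x' - x‖
  inn : ∀ x ∈ P c, rho A (b {c}) x ≤ 1 - κ → rho A (b {c}) (R x) ≤ 1 - κ
  shell : ∀ x ∈ P c, 1 - κ ≤ rho A (b {c}) x →
    R x = b {c} + rho A (b {c}) x • (Y (zz A (b {c}) x) - b {c})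
  wall : ∀ z, rho A (b {c}) z = 1 → Y z ∈ P c ∧ ∃ c', c' ≠ c ∧ Y z ∈ P c'
  co : ∀ z z', rho A (b {c}) z = 1 → rho A (b {c}) z' = 1 → ∀ a,
    D a * |co P b m (Y z) a - co P b m (Y z') a| ≤ L * m a * ‖z - z'‖
  step : StepLe P b D
  D0 : ∀ a, 0 ≤ D a
  Da : ∀ a, (P a ∩ P c).Nonempty → D a * a0 ≤ K2

include hm in
/-- the shell estimate -/
theorem Rad.shell_lip {D : I → ℝ} {S L K2 : ℝ} {R Y : E → E}
    (X : Rad P b m D c κ A a0 h0 S L K2 R Y) (hκ : 0 < κ) (hκ2 : κ ≤ 1/2) (hL : 0 ≤ L)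
    (hK : 0 ≤ K2) {x : E} (hx : x ∈ P c) (hρ : 1 - κ ≤ rho A (b {c}) x) :
    ∀ᶠ x' in 𝓝[P c] x, 1 - κ ≤ rho A (b {c}) x' →
      ‖st (grid F hQ hne hm) κ (R x') - st (grid F hQ hne hm) κ (R x)‖ ≤
        (8 * (1 + h0 * a0) * L + 2 * K2) * ‖x' - x‖ := by
  set o := b {c} with ho
  have hκ' : 0 < κ ∧ κ < 1 := ⟨hκ, by linarith⟩
  have hρ0 : 0 < rho A o x := by linarith
  have hxo : x ≠ o := by
    intro e; rw [e, rho_center] at hρ0; exact lt_irrefl _ hρ0
  -- continuity of the wall point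
  have hcR : ContinuousWithinAt R (P c) x := by
    refine cont_of_local (S := S) ?_
    filter_upwards [self_mem_nhdsWithin] with x' hx'
    exact X.lip x hx x' hx'
  set W : E → E := fun x' => o + (rho A o x')⁻¹ • (R x' - o) with hW
  have hcW : ContinuousWithinAt W (P c) x := by
    have h1 : ContinuousWithinAt (fun x' => (rho A o x')⁻¹) (P c) x :=
      (continuous_rho.continuousWithinAt).inv₀ hρ0.ne'
    exact continuousWithinAt_const.add (h1.smul (hcR.sub continuousWithinAt_const))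
  have hWY : ∀ x' ∈ P c, 1 - κ ≤ rho A o x' → W x' = Y (zz A o x') ∧
      rho A o (zz A o x') = 1 := by
    intro x' hx' h'
    have p : 0 < rho A o x' := by linarith
    have hne' : x' ≠ o := by
      intro e; rw [e, rho_center] at p; exact lt_irrefl _ p
    refine ⟨?_, rho_zz hne'⟩
    have h2 : R x' = o + rho A o x' • (Y (zz A o x') - o) := X.shell x' hx' h'
    simp only [hW]
    rw [h2, add_sub_cancel_left, smul_smul, inv_mul_cancel₀ p.ne', one_smul]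
    abel
  have hyx := hWY x hx hρ
  have hyP : W x ∈ P c := by rw [hyx.1]; exact (X.wall _ hyx.2).1
  have hsh := hcW.eventually (share F hQ hne hm hyP)
  filter_upwards [hsh, self_mem_nhdsWithin] with x' hs hx' hρ'
  have hyx' := hWY x' hx' hρ'
  obtain ⟨w1, w2⟩ := X.wall _ hyx'.2
  obtain ⟨q, hq, hq1, hq2⟩ := hs (by rw [hyx'.1]; exact w1) (by rw [hyx'.1]; exact w2)
  have hle : rho A o x ≤ 1 := by rw [X.ball] at hx; exact hx
  have hle' : rho A o x' ≤ 1 := by rw [X.ball] at hx'; exact hx'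
  -- the parameter
  have par : ∀ x' ∈ P c, 1 - κ ≤ rho A o x' → rho A o x' ≤ 1 →
      R x' = (1 - κ * ((1 - rho A o x') / κ)) • W x' + (κ * ((1 - rho A o x') / κ)) • o := by
    intro x' hx' h' h1
    have h2 : R x' = o + rho A o x' • (Y (zz A o x') - o) := X.shell x' hx' h'
    rw [(hWY x' hx' h').1, h2, mul_div_cancel₀ _ hκ.ne']
    module
  rw [par x' hx' hρ' hle', par x hx hρ hle]
  have hL' : ∀ x', 1 - κ ≤ rho A o x' → rho A o x' ≤ 1 →
      0 ≤ (1 - rho A o x') / κ ∧ (1 - rho A o x') / κ ≤ 1 := by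
    intro x' h1 h2
    refine ⟨div_nonneg (by linarith) hκ.le, ?_⟩
    rw [div_le_one hκ]; linarith
  obtain ⟨r0, r1⟩ := hL' x hρ hle
  obtain ⟨r0', r1'⟩ := hL' x' hρ' hle'
  have hzz := zz_lip (A := A) (o := o) X.ha X.hh (y := x') (y' := x) (by linarith) (by linarith)
  have hrl := rho_lip (A := A) (o := o) X.ha x' x
  have hh0 : 0 ≤ 1 + h0 * a0 := by
    have h2 : 0 ≤ 2 * (1 + h0 * a0) * ‖x' - x‖ := (norm_nonneg _).trans hzz
    by_cases hxx : x' = x
    · -- use the two bounds at `x`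
      have h3 := norm_sub_le_rho (A := A) (o := o) X.ha X.hh x
      have h4 : 0 < ‖x - o‖ := norm_pos_iff.2 (sub_ne_zero.2 hxo)
      have h5 := rho_lip (A := A) (o := o) X.ha x o
      rw [rho_center, sub_zero, abs_of_pos hρ0] at h5
      have ha' : 0 < a0 := by
        by_contra hcon
        have : a0 * ‖x - o‖ ≤ 0 := mul_nonpos_of_nonpos_of_nonneg (not_lt.1 hcon) h4.le
        linarith
      have hh' : 0 < h0 := by
        by_contra hcon
        have : h0 * rho A o x ≤ 0 := mul_nonpos_of_nonpos_of_nonneg (not_lt.1 hcon) hρ0.le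
        linarith
      positivity
    · have h3 : 0 < ‖x' - x‖ := norm_pos_iff.2 (sub_ne_zero.2 hxx)
      by_contra hcon
      have h4 : 2 * (1 + h0 * a0) * ‖x' - x‖ < 0 :=
        mul_neg_of_neg_of_pos (by linarith) h3
      linarith
  set T : ℝ := (2 * (1 + h0 * a0) * L + K2 / 2) * ‖x' - x‖ with hT
  have hT0 : 0 ≤ T := by positivity
  have main := core_st_lip F hQ hne hm hκ' X.step hq (y := W x') (y' := W x) hq2 hq1 r0' r1' r0 r1
    (M := T / (1 - κ)) (div_nonneg hT0 (by linarith)) (by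
      intro a ha
      refine ⟨X.D0 a, ?_⟩
      have hm1 : (1 : ℝ) ≤ m a := by exact_mod_cast hm a
      rw [mul_div_cancel₀ _ (by linarith : (1 - κ) ≠ 0)]
      have h1 := X.co (zz A o x') (zz A o x) hyx'.2 hyx.2 a
      rw [← hyx.1, ← hyx'.1] at h1
      -- the neighbour
      have hPa : (P a ∩ P c).Nonempty := by
        obtain ⟨y, hy⟩ := q.face
        rw [mem_fc] at hy
        refine ⟨y, hy a ?_, hy c ?_⟩
        · have := Gx.hi_eq ha
          have := q.him a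
          show q.lo a < m a
          omega
        · have := q.le c
          have := hm c
          show q.lo c < m c
          omega
      have h2 := X.Da a hPa
      have h3 : κ / 2 * |(1 - rho A o x') / κ - (1 - rho A o x) / κ| =
          |rho A o x' - rho A o x| / 2 := by
        rw [← sub_div, abs_div, abs_of_pos hκ]
        have : |1 - rho A o x' - (1 - rho A o x)| = |rho A o x' - rho A o x| := by
          rw [← abs_neg]; congr 1; ring
        rw [this]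
        field_simp
      rw [h3]
      have h4 : D a * (|rho A o x' - rho A o x| / 2) ≤ K2 / 2 * ‖x' - x‖ := by
        have := mul_le_mul_of_nonneg_left hrl (X.D0 a)
        have h5 : D a * (a0 * ‖x' - x‖) ≤ K2 * ‖x' - x‖ := by
          rw [← mul_assoc]
          exact mul_le_mul_of_nonneg_right h2 (norm_nonneg _)
        linarith
      have h6 : L * m a * ‖zz A o x' - zz A o x‖ ≤
          L * m a * (2 * (1 + h0 * a0) * ‖x' - x‖) :=
        mul_le_mul_of_nonneg_left hzz (by positivity)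
      have h7 : K2 / 2 * ‖x' - x‖ ≤ K2 / 2 * ‖x' - x‖ * m a :=
        le_mul_of_one_le_right (by positivity) hm1
      calc D a * (|Grd_714.co P b m (W x') a - Grd_714.co P b m (W x) a| +
            |rho A o x' - rho A o x| / 2)
          = D a * |Grd_714.co P b m (W x') a - Grd_714.co P b m (W x) a| +
            D a * (|rho A o x' - rho A o x| / 2) := by ring
        _ ≤ L * m a * (2 * (1 + h0 * a0) * ‖x' - x‖) + K2 / 2 * ‖x' - x‖ * m a :=
          add_le_add (h1.trans h6) (h4.trans h7)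
        _ = T * m a := by rw [hT]; ring)
  refine main.trans ?_
  have h8 : 2 * (T / (1 - κ)) ≤ 4 * T := by
    rw [← mul_div_assoc, div_le_iff₀ (by linarith)]
    nlinarith
  refine h8.trans (le_of_eq ?_)
  rw [hT]; ring

/-- the inner copy -/
theorem Rad.inner_lip {D : I → ℝ} {S L K2 : ℝ} {R Y : E → E}
    (X : Rad P b m D c κ A a0 h0 S L K2 R Y) (hκ : 0 < κ) (hκ2 : κ ≤ 1/2) {x x' : E}
    (hx : x ∈ P c) (hx' : x' ∈ P c) (hρ : rho A (b {c}) x ≤ 1 - κ)
    (hρ' : rho A (b {c}) x' ≤ 1 - κ) :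
    ‖st (grid F hQ hne hm) κ (R x') - st (grid F hQ hne hm) κ (R x)‖ ≤
        2 * S * ‖x' - x‖ := by
  have hκ' : 0 < κ ∧ κ < 1 := ⟨hκ, by linarith⟩
  have key : ∀ x ∈ P c, rho A (b {c}) x ≤ 1 - κ →
      st (grid F hQ hne hm) κ (R x) = b {c} + (1 - κ)⁻¹ • (R x - b {c}) := by
    intro x hx hρ
    have h1 := X.inn x hx hρ
    have h2 : b {c} + (1 - κ)⁻¹ • (R x - b {c}) ∈ P c := by
      rw [X.ball, mem_ofPred_eq, rho_add_smul (inv_nonneg.2 (by linarith)),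
        inv_mul_le_iff₀ (by linarith)]
      linarith
    have h3 := (core_in F hQ hne hm hκ' h2).1
    have e : (1 - κ) • (b {c} + (1 - κ)⁻¹ • (R x - b {c})) + κ • b {c} = R x := by
      rw [smul_add, smul_smul, mul_inv_cancel₀ (by linarith : (1 - κ) ≠ 0), one_smul]
      module
    rwa [e] at h3
  rw [key x hx hρ, key x' hx' hρ']
  have e : b {c} + (1 - κ)⁻¹ • (R x' - b {c}) - (b {c} + (1 - κ)⁻¹ • (R x - b {c})) =
      (1 - κ)⁻¹ • (R x' - R x) := by module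
  rw [e, norm_smul, Real.norm_eq_abs, abs_of_pos (inv_pos.2 (by linarith))]
  have h1 : (1 - κ)⁻¹ ≤ 2 := by
    rw [inv_le_comm₀ (by linarith) two_pos]; linarith
  have h2 := X.lip x hx x' hx'
  calc (1 - κ)⁻¹ * ‖R x' - R x‖ ≤ 2 * ‖R x' - R x‖ :=
        mul_le_mul_of_nonneg_right h1 (norm_nonneg _)
    _ ≤ 2 * (S * ‖x' - x‖) := by linarith
    _ = 2 * S * ‖x' - x‖ := by ring

/-- **LIP-CORE** -/
theorem Rad.lip_core {D : I → ℝ} {S L K2 : ℝ} {R Y : E → E}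
    (X : Rad P b m D c κ A a0 h0 S L K2 R Y) (hκ : 0 < κ) (hκ2 : κ ≤ 1/2) (hL : 0 ≤ L)
    (hK : 0 ≤ K2) {x x' : E} (hx : x ∈ P c) (hx' : x' ∈ P c) :
    ‖st (grid F hQ hne hm) κ (R x') - st (grid F hQ hne hm) κ (R x)‖ ≤
        max (2 * S) (8 * (1 + h0 * a0) * L + 2 * K2) * ‖x' - x‖ := by
  refine Lco_714.lip_of_local (F.cvx c) (f := fun x => st (grid F hQ hne hm) κ (R x)) ?_ hx hx'
  intro x hx
  set o := b {c} with ho
  have hc := (continuous_rho (A := A) (o := o)).continuousAt (x := x)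
  have m1 : ∀ x' : E, 2 * S * ‖x' - x‖ ≤
      max (2 * S) (8 * (1 + h0 * a0) * L + 2 * K2) * ‖x' - x‖ := fun x' =>
    mul_le_mul_of_nonneg_right (le_max_left _ _) (norm_nonneg _)
  have m2 : ∀ x' : E, (8 * (1 + h0 * a0) * L + 2 * K2) * ‖x' - x‖ ≤
      max (2 * S) (8 * (1 + h0 * a0) * L + 2 * K2) * ‖x' - x‖ := fun x' =>
    mul_le_mul_of_nonneg_right (le_max_right _ _) (norm_nonneg _)
  rcases lt_trichotomy (rho A o x) (1 - κ) with h | h | h
  · filter_upwards [nhdsWithin_le_nhds (hc.eventually (gt_mem_nhds h)),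
      self_mem_nhdsWithin] with x' h1 hx'
    exact (X.inner_lip F hQ hne hm hκ hκ2 hx hx' h.le (le_of_lt h1)).trans (m1 x')
  · filter_upwards [X.shell_lip F hQ hne hm hκ hκ2 hL hK hx h.ge, self_mem_nhdsWithin]
      with x' h1 hx'
    rcases le_total (rho A o x') (1 - κ) with h2 | h2
    · exact (X.inner_lip F hQ hne hm hκ hκ2 hx hx' h.le h2).trans (m1 x')
    · exact (h1 h2).trans (m2 x')
  · filter_upwards [nhdsWithin_le_nhds (hc.eventually (lt_mem_nhds h)),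
      X.shell_lip F hQ hne hm hκ hκ2 hL hK hx h.le] with x' h1 h2
    exact (h2 (le_of_lt h1)).trans (m2 x')

end Crest.Agent.R096.Lco_714
end

-- ▼ part R096/Lco3_714
section

/-!
# R096 (row 96), LIP-CORE (helper714), part 3: box foams

`lip_core_box` : `R` = radial over 181's `rcR` near the boundary of the box, `S1`-Lipschitz, keeps the
inner copy.  Then `st κ ∘ R` is Lipschitz on the box with a constant which depends only on `S1`, the
constants of the foam and the slope bound `Λ` of the nodes.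
-/

set_option autoImplicit false
set_option linter.unusedSectionVars false
set_option linter.unusedVariables false

open Set Metric Filter Topology

namespace Crest.Agent.R096.Lco_714

open Crest.Agent.R096.Ce_537 Crest.Agent.R096.Bd_416 Crest.Agent.R096.Xp_537
open Crest.Agent.R096.Brk1_582 Crest.Agent.R096.Brk2_582 Crest.Agent.R096.Brk6_582
open Crest.Agent.R096.Grd_714 Crest.Agent.R096.Bin_181 Crest.Agent.R096.Fl_835
open Crest.Agent.R096.Cst_476
open Crest.Agent.R096.Bsp_628 Crest.Agent.R096.Brk3_582 Crest.Agent.R096.Brk5_582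

/-! ### slopes of the node functions -/

theorem nuR_lip {n : ℕ → ℝ} {M : ℕ} {s : ℝ} (hs : ∀ i < M, n (i + 1) - n i ≤ s) {x y : ℝ}
    (hx : x ∈ Icc (0 : ℝ) M) (hy : y ∈ Icc (0 : ℝ) M) (hN : StrictMono n) :
    |nuR n M x - nuR n M y| ≤ s * |x - y| := by
  wlog h : y ≤ x generalizing x y
  · rw [abs_sub_comm, abs_sub_comm x]
    exact this hy hx (not_le.1 h).le
  have h1 := nuR_mono (M := M) hN h
  rw [abs_of_nonneg (by linarith), abs_of_nonneg (by linarith)]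
  have e : nuR n M x - nuR n M y =
      ∑ i ∈ Finset.range M, (n (i+1) - n i) * (c01 (x - i) - c01 (y - i)) := by
    unfold nuR
    rw [← Finset.sum_sub_distrib]
    exact Finset.sum_congr rfl fun i _ => by ring
  have e2 : ∑ i ∈ Finset.range M, (c01 (x - i) - c01 (y - i)) = x - y := by
    rw [Finset.sum_sub_distrib, sum_c01 M hx.1 hx.2, sum_c01 M hy.1 hy.2]
  rw [e, ← e2, Finset.mul_sum]
  refine Finset.sum_le_sum fun i hi => ?_
  exact mul_le_mul_of_nonneg_right (hs i (Finset.mem_range.1 hi))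
    (sub_nonneg.2 (c01_mono (by linarith)))

/-! ### the level coordinates of `rcR` -/

section foam

variable {E : Type*} [NormedAddCommGroup E] [NormedSpace ℝ E] {I : Type*}
variable {b : Set I → E} {P : I → Set E} {m m' : I → ℕ}
variable {La : Set E} [CompleteSpace E] (F : Foam La P b 4) (hQ : Quads P b)

/-- the wall of a cell -/
def Wall (P : I → Set E) (c : I) : Set E := {z | z ∈ P c ∧ ∃ c', c' ≠ c ∧ z ∈ P c'}

variable {n : I → ℕ → ℝ} (hN : ∀ a, StrictMono (n a)) (hN0 : ∀ a, n a 0 = 0)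

include hN hN0 in
theorem rcR_wall (hNm : ∀ a, n a (m' a) = m a) (hm' : ∀ c, 0 < m' c) (hm : ∀ c, 0 < m c)
    {c : I} {z : E} (hz : z ∈ Wall P c) :
    (rcR hN hN0 hNm F hQ hm' hm c).f z ∈ Wall P c := by
  have h1 : z ∈ bdP P b m' c := by rw [bdP_eq F hQ hm']; exact hz
  have h2 := (rcR hN hN0 hNm F hQ hm' hm c).mf h1
  have h3 : ∀ y, y ∈ bdP P b m c → y ∈ Wall P c := fun y hy => by
    rw [bdP_eq F hQ hm] at hy; exact hy
  exact h3 _ h2

include hN hN0 in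
theorem co_rcR (hNm : ∀ a, n a (m' a) = m a) (hm' : ∀ c, 0 < m' c) (hm : ∀ c, 0 < m c)
    {c : I} {z : E} (hz : z ∈ Wall P c) (a : I) :
    co P b m ((rcR hN hN0 hNm F hQ hm' hm c).f z) a = nuR (n a) (m' a) (co P b m' z a) := by
  obtain ⟨h1, c', hc', h2⟩ := hz
  obtain ⟨h3, h4⟩ := Tq_co F hQ hm' (F.sub c h1) hc'.symm h1 h2
  rw [rcR_f, co_Tq F hQ hm (G2_nu (nuR_Nu hN hN0 hNm) hm' hm h3)]

/-- **the level coordinates of `rcR` over the constant mesh are Lipschitz** -/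
theorem rcR_lip {M : ℕ} (hM : 0 < M) (hNm : ∀ a, n a M = m a) (hm : ∀ c, 0 < m c) {c : I}
    {Λ Ls : ℝ} (hsc : ∀ z ∈ P c, ∀ z' ∈ P c, ∀ a, |sc P b z a - sc P b z' a| ≤ Ls * ‖z - z'‖)
    (hΛ : 0 ≤ Λ) {z z' : E} (hz : z ∈ Wall P c) (hz' : z' ∈ Wall P c) (a : I)
    (hsl : ∀ i < M, n a (i + 1) - n a i ≤ Λ * m a / M) :
    |co P b m ((rcR (m' := fun _ => M) hN hN0 hNm F hQ (fun _ => hM) hm c).f z) a -
      co P b m ((rcR (m' := fun _ => M) hN hN0 hNm F hQ (fun _ => hM) hm c).f z') a| ≤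
      Λ * Ls * m a * ‖z - z'‖ := by
  have hM0 : (0 : ℝ) < M := by exact_mod_cast hM
  rw [co_rcR F hQ hN hN0 hNm _ hm hz, co_rcR F hQ hN hN0 hNm _ hm hz']
  obtain ⟨h1, c1, hc1, h2⟩ := hz
  obtain ⟨h1', c1', hc1', h2'⟩ := hz'
  have hL := F.sub c h1
  have hL' := F.sub c h1'
  rw [Cmh_63.co_const F hQ hM hL hc1.symm h1 h2, Cmh_63.co_const F hQ hM hL' hc1'.symm h1' h2']
  have hk := F.sc_mem_K hL
  have hk' := F.sc_mem_K hL'
  have k1 : ∀ u : I → ℝ, u ∈ K P → (M : ℝ) * u a ∈ Icc (0 : ℝ) M := by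
    intro u hu
    have := hu.1 a
    refine ⟨mul_nonneg hM0.le this.1, ?_⟩
    have h3 := mul_le_mul_of_nonneg_left this.2 hM0.le
    linarith
  refine (nuR_lip hsl (k1 _ hk) (k1 _ hk') (hN a)).trans ?_
  rw [← mul_sub, abs_mul, abs_of_pos hM0]
  have h3 := hsc z h1 z' h1' a
  have hma : (0 : ℝ) ≤ m a := Nat.cast_nonneg _
  calc Λ * m a / M * (M * |sc P b z a - sc P b z' a|)
      = Λ * m a * |sc P b z a - sc P b z' a| := by field_simp
    _ ≤ Λ * m a * (Ls * ‖z - z'‖) := mul_le_mul_of_nonneg_left h3 (by positivity)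
    _ = Λ * Ls * m a * ‖z - z'‖ := by ring

include F hQ in
/-- levels of cells which do not touch `c` do not move -/
theorem co_far (hm : ∀ c, 0 < m c) {c : I} {y : E} (hy : y ∈ Wall P c) {a : I}
    (ha : ¬ (P a ∩ P c).Nonempty) : co P b m y a = m a := by
  obtain ⟨h1, c1, hc1, h2⟩ := hy
  obtain ⟨h3, h4⟩ := Tq_co F hQ hm (F.sub c h1) hc1.symm h1 h2
  by_contra hcon
  have h5 : co P b m y a < m a := lt_of_le_of_ne (G2_le hm h3 a) hcon
  have h6 : co P b m y c = 0 := (Tq_mem_iff F hQ hm h3).1 (by rw [h4]; exact h1)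
  apply ha
  obtain ⟨w, hw⟩ := h3.1.2.2
  rw [mem_fc] at hw
  refine ⟨w, hw a ?_, hw c ?_⟩
  · exact (lv_lt_one hm).2 h5
  · refine (lv_lt_one hm).2 ?_
    rw [h6]
    exact_mod_cast hm c

include F in
/-- points of the boundary of a cell with a gauge are in two cells -/
theorem wall_of_rho {A : E ≃L[ℝ] E} {c : I} (hb : P c = {y | rho A (b {c}) y ≤ 1}) {z : E}
    (hz : rho A (b {c}) z = 1) : z ∈ Wall P c := by
  have h1 : z ∈ P c := by rw [hb]; exact hz.le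
  refine ⟨h1, ?_⟩
  by_contra hcon
  have h2 : act P z = {c} := by
    rw [mem_top_iff F h1]
    rintro ⟨c', h3, h4⟩
    exact hcon ⟨c', h3, h4⟩
  have h3 : z ≠ b (act P z) := by
    rw [h2]; intro e
    rw [e, rho_center] at hz; exact zero_ne_one hz
  obtain ⟨t, ht, h4⟩ := F.exit z (F.sub c h1) h3
  rw [h2, fc_single, hb, mem_ofPred_eq, rho_add_smul (by linarith), hz] at h4
  linarith

include F in
/-- walls have gauge one -/
theorem rho_of_wall {A : E ≃L[ℝ] E} {c : I} (hb : P c = {y | rho A (b {c}) y ≤ 1}) {z : E}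
    (hz : z ∈ Wall P c) : rho A (b {c}) z = 1 := by
  obtain ⟨h1, c', hc', h2⟩ := hz
  have h3 : rho A (b {c}) z ≤ 1 := by rw [hb] at h1; exact h1
  refine le_antisymm h3 ?_
  by_contra hcon
  push Not at hcon
  have hzb : z ≠ b {c} ∨ z = b {c} := (em _).symm
  -- `z = b + t (w - b)` with `w ∈ P c`, `t < 1`
  have key : act P z = {c} := by
    rcases hzb with h | h
    · have hp := rho_pos (A := A) h
      have h5 : zz A (b {c}) z ∈ fc P {c} := by
        rw [fc_single, hb, mem_ofPred_eq, rho_zz h]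
      have h6 := F.rel {c} (singleton_nonempty c) _ h5 (rho A (b {c}) z) ⟨hp.le, hcon⟩
      rwa [add_zz h] at h6
    · have h5 : z ∈ fc P {c} := by rw [fc_single]; exact h1
      have h6 := F.rel {c} (singleton_nonempty c) _ h5 0 ⟨le_rfl, one_pos⟩
      rwa [zero_smul, add_zero, ← h] at h6
  rw [mem_top_iff F h1] at key
  exact key ⟨c', hc', h2⟩

end foam

/-! ### the radial coordinates of a box -/

section box

variable {κ : Type*} [Fintype κ] [Nonempty κ]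

/-- diagonal map -/
noncomputable def dg (w : κ → ℝ) (hw : ∀ k, 0 < w k) : (κ → ℝ) ≃L[ℝ] (κ → ℝ) :=
  (LinearEquiv.piCongrRight fun k => LinearEquiv.smulOfNeZero ℝ ℝ (w k) (hw k).ne')
    |>.toContinuousLinearEquiv

theorem dg_apply (w : κ → ℝ) (hw : ∀ k, 0 < w k) (v : κ → ℝ) (k : κ) :
    dg w hw v k = w k * v k := rfl

theorem dg_symm_apply (w : κ → ℝ) (hw : ∀ k, 0 < w k) (v : κ → ℝ) (k : κ) :
    (dg w hw).symm v k = (w k)⁻¹ * v k := by
  obtain ⟨u, rfl⟩ := (dg w hw).surjective v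
  rw [(dg w hw).symm_apply_apply, dg_apply, ← mul_assoc, inv_mul_cancel₀ (hw k).ne', one_mul]

theorem dg_le (w : κ → ℝ) (hw : ∀ k, 0 < w k) {h : ℝ} (hh : ∀ k, w k ≤ h) (v : κ → ℝ) :
    ‖dg w hw v‖ ≤ h * ‖v‖ := by
  have hh0 : 0 ≤ h := (hw (Classical.arbitrary κ)).le.trans (hh _)
  refine (pi_norm_le_iff_of_nonneg (by positivity)).2 fun k => ?_
  rw [dg_apply, norm_mul, Real.norm_eq_abs, abs_of_pos (hw k)]
  exact mul_le_mul (hh k) (norm_le_pi_norm v k) (norm_nonneg _) hh0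

theorem dg_symm_le (w : κ → ℝ) (hw : ∀ k, 0 < w k) {a : ℝ} (ha : ∀ k, (w k)⁻¹ ≤ a) (v : κ → ℝ) :
    ‖(dg w hw).symm v‖ ≤ a * ‖v‖ := by
  have ha0 : 0 ≤ a := (inv_pos.2 (hw (Classical.arbitrary κ))).le.trans (ha _)
  refine (pi_norm_le_iff_of_nonneg (by positivity)).2 fun k => ?_
  rw [dg_symm_apply, norm_mul, Real.norm_eq_abs, abs_of_pos (inv_pos.2 (hw k))]
  exact mul_le_mul (ha k) (norm_le_pi_norm v k) (norm_nonneg _) ha0

/-- half sides -/
noncomputable def hs (Q : Bx κ) (k : κ) : ℝ := Q.side k / 2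

theorem hs_pos {Q : Bx κ} (h : Q.Pos) (k : κ) : 0 < hs Q k := by
  have := Bx.side_pos h k
  unfold hs; linarith

/-- the linear map of the box -/
noncomputable def Ab (Q : Bx κ) (h : Q.Pos) : (κ → ℝ) ≃L[ℝ] (κ → ℝ) := dg (hs Q) (hs_pos h)

variable {La : Set (κ → ℝ)} {F : Set (Bx κ)} {δ κ0 : ℝ}

theorem bc_single (c : F) (k : κ) : bc ({c} : Set F) k = (c.1.lo k + c.1.hi k) / 2 := by
  simp [Brk3_582.bc, loA, hiA]

theorem mem_Pc_iff (c : F) (h : c.1.Pos) (y : κ → ℝ) :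
    y ∈ Pc F c ↔ rho (Ab c.1 h) (bc {c}) y ≤ 1 := by
  rw [rho, pi_norm_le_iff_of_nonneg zero_le_one, Pc, Bx.mem_set]
  refine forall_congr' fun k => ?_
  rw [Ab, dg_symm_apply, Real.norm_eq_abs, abs_mul, abs_of_pos (inv_pos.2 (hs_pos h k)),
    inv_mul_le_iff₀ (hs_pos h k), mul_one, Pi.sub_apply, bc_single, abs_le]
  unfold hs Bx.side
  constructor
  · rintro ⟨h1, h2⟩; constructor <;> linarith
  · rintro ⟨h1, h2⟩; constructor <;> linarith

theorem Pc_eq (c : F) (h : c.1.Pos) : Pc F c = {y | rho (Ab c.1 h) (bc {c}) y ≤ 1} := by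
  ext y; exact mem_Pc_iff c h y

theorem Ab_le (BF : BoxFoam La F δ κ0) (c : F) (v : κ → ℝ) :
    ‖Ab c.1 (BF.pos _ c.2) v‖ ≤ c.1.sz / 2 * ‖v‖ :=
  dg_le _ _ (fun k => by
    have := Bx.side_le_sz c.1 k
    unfold hs; linarith) v

theorem Ab_symm_le (BF : BoxFoam La F δ κ0) (c : F) (v : κ → ℝ) :
    ‖(Ab c.1 (BF.pos _ c.2)).symm v‖ ≤ 2 * κ0 / c.1.sz * ‖v‖ :=
  dg_symm_le _ _ (fun k => by
    have h1 := BF.asp _ c.2 k
    have h2 := Bx.side_pos (BF.pos _ c.2) k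
    have h3 := Bx.sz_pos (BF.pos _ c.2)
    unfold hs
    rw [inv_div, div_le_div_iff₀ h2 h3]
    nlinarith) v

theorem foam4 (BF : BoxFoam La F δ κ0) (hLa : IsOpen La) (h3 : Fintype.card κ = 3) :
    Foam La (Pc F) (bc (F := F)) 4 := by
  have := foam BF hLa
  rwa [h3] at this

theorem Pc_ne (BF : BoxFoam La F δ κ0) (c : F) : (Pc F c).Nonempty :=
  ⟨c.1.lo, Bx.mem_set.2 fun k => ⟨le_rfl, (BF.pos _ c.2 k).le⟩⟩

/-- the inner copy -/
def Cpy (c : F) (s : ℝ) : Set (κ → ℝ) := (fun u => (1 - s) • u + s • bc {c}) '' Pc F c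

theorem mem_Cpy_iff (BF : BoxFoam La F δ κ0) (c : F) {s : ℝ} (hs : s < 1) (y : κ → ℝ) :
    y ∈ Cpy c s ↔ rho (Ab c.1 (BF.pos _ c.2)) (bc {c}) y ≤ 1 - s := by
  have h1 : (0 : ℝ) < 1 - s := by linarith
  constructor
  · rintro ⟨u, hu, rfl⟩
    have e : (1 - s) • u + s • bc {c} = bc {c} + (1 - s) • (u - bc {c}) := by module
    show rho _ _ ((1 - s) • u + s • bc {c}) ≤ _
    rw [e, rho_add_smul h1.le]
    have := (mem_Pc_iff c (BF.pos _ c.2) u).1 hu
    nlinarith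
  · intro h
    refine ⟨bc {c} + (1 - s)⁻¹ • (y - bc {c}), ?_, ?_⟩
    · rw [mem_Pc_iff c (BF.pos _ c.2), rho_add_smul (inv_nonneg.2 h1.le), inv_mul_le_iff₀ h1]
      linarith
    · show (1 - s) • (bc {c} + (1 - s)⁻¹ • (y - bc {c})) + s • bc {c} = y
      rw [smul_add, smul_smul, mul_inv_cancel₀ h1.ne', one_smul]
      module

variable (BF : BoxFoam La F δ κ0) (hLa : IsOpen La) (h3 : Fintype.card κ = 3)
  {m : F → ℕ} (hm : ∀ c, 0 < m c)

/-- the constant of LIP-CORE -/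
noncomputable def Sc (S1 δ κ0 R Λ : ℝ) : ℝ :=
  max (2 * S1) (8 * (1 + κ0) * (R * R * Λ * Cs 3 δ R) + 4 * (R * R * κ0))

/-- the data of the core box -/
theorem rad_box (hδ : 0 < δ) {R : ℝ} (hR : 0 < R) (hcmp : Cmp F R) {M : ℕ} (hM : 0 < M)
    {n : F → ℕ → ℝ} (hN : ∀ a, StrictMono (n a)) (hN0 : ∀ a, n a 0 = 0)
    (hNm : ∀ a, n a M = m a) {Λ : ℝ} (hΛ : 0 ≤ Λ)
    {κ' S1 : ℝ} (hκ : 0 < κ') (hκ2 : κ' ≤ 1/2) (c : F)
    (hsl : ∀ a, (Pc F a ∩ Pc F c).Nonempty → ∀ i < M, n a (i + 1) - n a i ≤ Λ * m a / M) {Rm : (κ → ℝ) → κ → ℝ}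
    (hlip : ∀ x ∈ Pc F c, ∀ x' ∈ Pc F c, ‖Rm x' - Rm x‖ ≤ S1 * ‖x' - x‖)
    (hin : ∀ x ∈ Cpy c κ', Rm x ∈ Cpy c κ')
    (hsh : ∀ z ∈ Wall (Pc F) c, ∀ r ∈ Icc (1 - κ') 1, Rm (bc {c} + r • (z - bc {c})) =
      bc {c} + r • ((rcR (m' := fun _ => M) hN hN0 hNm (foam4 BF hLa h3) (quads_box BF h3)
        (fun _ => hM) hm c).f z - bc {c})) :
    Rad (Pc F) (bc (F := F)) m (fun a => R * a.1.sz) c κ' (Ab c.1 (BF.pos _ c.2))
      (2 * κ0 / c.1.sz) (c.1.sz / 2) S1 (R * R * Λ * Cs 3 δ R) (2 * (R * R * κ0)) Rm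
      (rcR (m' := fun _ => M) hN hN0 hNm (foam4 BF hLa h3) (quads_box BF h3)
        (fun _ => hM) hm c).f := by
  have FF := foam4 BF hLa h3
  have hQ := quads_box BF h3
  have hsz : 0 < c.1.sz := Bx.sz_pos (BF.pos _ c.2)
  have hb := Pc_eq c (BF.pos _ c.2)
  exact
    { ball := hb
      ha := Ab_symm_le BF c
      hh := Ab_le BF c
      lip := hlip
      inn := fun x hx h => by
        have h1 := (mem_Cpy_iff BF c (s := κ') (by linarith) x).2 h
        exact (mem_Cpy_iff BF c (s := κ') (by linarith) _).1 (hin x h1)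
      shell := fun x hx h => by
        have hle : rho (Ab c.1 (BF.pos _ c.2)) (bc {c}) x ≤ 1 := (mem_Pc_iff c _ x).1 hx
        have hxo : x ≠ bc {c} := by
          intro e; rw [e, rho_center] at h; linarith
        have h1 := hsh _ (wall_of_rho FF hb (rho_zz (A := Ab c.1 (BF.pos _ c.2)) hxo))
          (rho (Ab c.1 (BF.pos _ c.2)) (bc {c}) x) ⟨h, hle⟩
        rwa [add_zz hxo] at h1
      wall := fun z hz => rcR_wall FF hQ hN hN0 hNm _ hm (wall_of_rho FF hb hz)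
      co := fun z z' hz hz' a => by
        have w := wall_of_rho FF hb hz
        have w' := wall_of_rho FF hb hz'
        by_cases ha : (Pc F a ∩ Pc F c).Nonempty
        · have h1 := rcR_lip FF hQ hN hN0 hM hNm hm (c := c) (Ls := Cs 3 δ R / c.1.sz)
            (fun z hz z' hz' a => by
              have := lip_cell BF hLa hδ hR hcmp c z hz z' hz' a
              rwa [h3] at this) hΛ w w' a (hsl a ha)
          have h2 := hcmp a c ha
          have h4 : 0 ≤ Cs 3 δ R := Cs_nonneg hδ hR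
          have hma : (0 : ℝ) ≤ m a := Nat.cast_nonneg _
          have hsa : 0 < a.1.sz := Bx.sz_pos (BF.pos _ a.2)
          have h5 : a.1.sz / c.1.sz ≤ R := by rw [div_le_iff₀ hsz]; exact h2
          calc R * a.1.sz * _ ≤ R * a.1.sz * (Λ * (Cs 3 δ R / c.1.sz) * m a * ‖z - z'‖) :=
                mul_le_mul_of_nonneg_left h1 (by positivity)
            _ = R * (a.1.sz / c.1.sz) * (Λ * Cs 3 δ R * m a * ‖z - z'‖) := by
                field_simp
            _ ≤ R * R * (Λ * Cs 3 δ R * m a * ‖z - z'‖) := by gcongr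
            _ = R * R * Λ * Cs 3 δ R * m a * ‖z - z'‖ := by ring
        · have k1 := co_far FF hQ hm (rcR_wall FF hQ hN hN0 hNm (fun _ => hM) hm w) ha
          have k2 := co_far FF hQ hm (rcR_wall FF hQ hN hN0 hNm (fun _ => hM) hm w') ha
          rw [k1, k2, sub_self, abs_zero, mul_zero]
          have h4 : 0 ≤ Cs 3 δ R := Cs_nonneg hδ hR
          positivity
      step := step_box BF hLa hcmp
      D0 := fun a => by
        have hsa : 0 < a.1.sz := Bx.sz_pos (BF.pos _ a.2)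
        positivity
      Da := fun a ha => by
        have h2 := hcmp a c ha
        have h5 : a.1.sz / c.1.sz ≤ R := by rw [div_le_iff₀ hsz]; exact h2
        have hκ0 : 0 ≤ κ0 := by
          have h6 := BF.asp _ c.2 (Classical.arbitrary κ)
          have h7 := Bx.side_pos (BF.pos _ c.2) (Classical.arbitrary κ)
          by_contra hcon
          have : κ0 * c.1.side (Classical.arbitrary κ) < 0 :=
            mul_neg_of_neg_of_pos (not_le.1 hcon) h7
          linarith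
        calc R * a.1.sz * (2 * κ0 / c.1.sz) = 2 * κ0 * R * (a.1.sz / c.1.sz) := by
              field_simp
          _ ≤ 2 * κ0 * R * R := by gcongr
          _ = 2 * (R * R * κ0) := by ring }

/-- **LIP-CORE for box foams** -/
theorem lip_core_box (hδ : 0 < δ) {R : ℝ} (hR : 0 < R) (hcmp : Cmp F R) {M : ℕ} (hM : 0 < M)
    {n : F → ℕ → ℝ} (hN : ∀ a, StrictMono (n a)) (hN0 : ∀ a, n a 0 = 0)
    (hNm : ∀ a, n a M = m a) {Λ : ℝ} (hΛ : 0 ≤ Λ)
    {κ' S1 : ℝ} (hκ : 0 < κ') (hκ2 : κ' ≤ 1/2) (c : F)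
    (hsl : ∀ a, (Pc F a ∩ Pc F c).Nonempty → ∀ i < M, n a (i + 1) - n a i ≤ Λ * m a / M) {Rm : (κ → ℝ) → κ → ℝ}
    (hlip : ∀ x ∈ Pc F c, ∀ x' ∈ Pc F c, ‖Rm x' - Rm x‖ ≤ S1 * ‖x' - x‖)
    (hin : ∀ x ∈ Cpy c κ', Rm x ∈ Cpy c κ')
    (hsh : ∀ z ∈ Wall (Pc F) c, ∀ r ∈ Icc (1 - κ') 1, Rm (bc {c} + r • (z - bc {c})) =
      bc {c} + r • ((rcR (m' := fun _ => M) hN hN0 hNm (foam4 BF hLa h3) (quads_box BF h3)
        (fun _ => hM) hm c).f z - bc {c})) {x x' : κ → ℝ} (hx : x ∈ Pc F c)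
    (hx' : x' ∈ Pc F c) :
    ‖st (grid (foam4 BF hLa h3) (quads_box BF h3) (Pc_ne BF) hm) κ' (Rm x') -
      st (grid (foam4 BF hLa h3) (quads_box BF h3) (Pc_ne BF) hm) κ' (Rm x)‖ ≤
      Sc S1 δ κ0 R Λ * ‖x' - x‖ := by
  have X := rad_box BF hLa h3 hm hδ hR hcmp hM hN hN0 hNm hΛ hκ hκ2 c hsl hlip hin hsh
  have hsz : 0 < c.1.sz := Bx.sz_pos (BF.pos _ c.2)
  have hκ0 : 0 ≤ κ0 := by
    have h6 := BF.asp _ c.2 (Classical.arbitrary κ)
    have h7 := Bx.side_pos (BF.pos _ c.2) (Classical.arbitrary κ)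
    by_contra hcon
    have : κ0 * c.1.side (Classical.arbitrary κ) < 0 :=
      mul_neg_of_neg_of_pos (not_le.1 hcon) h7
    linarith
  have h4 : 0 ≤ Cs 3 δ R := Cs_nonneg hδ hR
  have main := X.lip_core (foam4 BF hLa h3) (quads_box BF h3) (Pc_ne BF) hm hκ hκ2
    (by positivity) (by positivity) hx hx'
  refine main.trans (le_of_eq ?_)
  rw [Sc]
  congr 2
  have e : c.1.sz / 2 * (2 * κ0 / c.1.sz) = κ0 := by field_simp
  rw [e]
  ring

end box

end Crest.Agent.R096.Lco_714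
end

-- ▼ part R096/Rpk1_714

/-!
# R096 (row 96), REL-PACK (helper714): the relabelling of a box, packed

`rel_pack` : the PL self-map `Rc` of the cell `Pc F c` with `rcR` on the boundary, radial near the
boundary, the identity on the inner copy of size `1 - s`, keeping the copies, and with
`st κ' ∘ Rc` Lipschitz with a constant chosen before `s`.
On Rlp1-5 of helper150, Ncl3 of helper458 / helper914, Rlp6 and Lco1-3 (helper714).
-/

set_option autoImplicit false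
set_option linter.unusedSectionVars false
set_option linter.unusedVariables false

open Set Metric Filter Topology

namespace Crest.Agent.R096.Rpk_714

open Crest.Agent.R096.Ce_537 Crest.Agent.R096.Bd_416 Crest.Agent.R096.Xp_537
open Crest.Agent.R096.Brk1_582 Crest.Agent.R096.Brk2_582 Crest.Agent.R096.Brk6_582
open Crest.Agent.R096.Grd_714 Crest.Agent.R096.Bin_181 Crest.Agent.R096.Fl_835
open Crest.Agent.R096.Bsp_628 Crest.Agent.R096.Brk3_582 Crest.Agent.R096.Brk5_582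
open Crest.Agent.R096.Rel_628 Crest.Agent.R096.Rlp_150 Crest.Agent.R096.Ncl_458
open Crest.Agent.R096.Lco_714

/-! ### the clamp size -/

/-- the clamp size -/
noncomputable def Es (s : ℝ) (t : ℝ) : ℝ := max (s - t) 0

theorem Es_nonneg (s t : ℝ) : 0 ≤ Es s t := le_max_right _ _

theorem Es_zero {s t : ℝ} (h : s ≤ t) : Es s t = 0 := max_eq_right (by linarith)

theorem Es_lip (s t t' : ℝ) : |Es s t - Es s t'| ≤ |t - t'| := by
  refine (abs_max_sub_max_le_abs (s - t) (s - t') 0).trans (le_of_eq ?_)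
  have : s - t - (s - t') = -(t - t') := by ring
  rw [this, abs_neg]

theorem sel_Es (s : ℝ) (K : Set ℝ) : Sel K (Es s) := by
  have h1 : Sel K (fun t : ℝ => t) := sel_affine (K := K) (LinearMap.id : ℝ →ₗ[ℝ] ℝ).toAffineMap
  exact ((sel_const s).sub h1).max (sel_const 0)

theorem Es_ge {s ρ : ℝ} (hs : 0 ≤ s) (h0 : 0 < ρ) (h1 : ρ ≤ 1) (h : 1 - ρ ≤ s / 2) :
    s / 2 ≤ Es s (1 - ρ) / ρ := by
  have h2 : s / 2 ≤ Es s (1 - ρ) := le_max_of_le_left (by linarith)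
  rw [le_div_iff₀ h0]
  nlinarith

/-! ### gauge -/

section foam

variable {E : Type*} [NormedAddCommGroup E] [NormedSpace ℝ E] {I : Type*}
variable {b : Set I → E} {P : I → Set E} {La : Set E} [CompleteSpace E] (F : Foam La P b 4)

include F in
/-- **the gauge is `1 - dl`** -/
theorem rho_dl {A : E ≃L[ℝ] E} {c : I} (hb : P c = {y | rho A (b {c}) y ≤ 1}) {y : E}
    (hy : y ∈ P c) : rho A (b {c}) y = 1 - dl (nbF F c) c (sc P b y) := by
  rcases (dl_le_one (C := nbF F c) (c0 := c) (u := sc P b y)).eq_or_lt with h | h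
  · rw [h, eq_b_of_dl F hy h, rho_center, sub_self]
  · obtain ⟨h1, h2⟩ := exists_cone F (sc_mem_KC F hy) h
    have h3 := dl_nonneg F (sc_mem_KC F hy)
    set δ := dl (nbF F c) c (sc P b y) with hδ
    have h4 : 0 ≤ 1 - δ := by linarith
    have e1 : y = T b (sc P b y) := (F.T_sc (F.sub c hy)).symm
    have hw : T b (up δ (sc P b y)) ∈ Wall P c := by
      obtain ⟨k1, k2, d, hd, k3⟩ := h1
      have m : ∀ a, up δ (sc P b y) a = 0 → T b (up δ (sc P b y)) ∈ P a := fun a ha =>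
        mem_fc.1 (F.T_mem_fc k1) a ha
      exact ⟨m c k2, d, hd, m d k3⟩
    have e2 : y = b {c} + (1 - δ) • (T b (up δ (sc P b y)) - b {c}) := by
      rw [← T_cone' F ⟨h1.1, h1.2.1⟩ h4 (by linarith), ← h2]; exact e1
    conv_lhs => rw [e2]
    rw [rho_add_smul h4, rho_of_wall F hb hw, mul_one]

variable [FiniteDimensional ℝ E] (hQ : Quads P b) {c0 : I}
variable {σ : I → ℝ → ℝ} (hσ : Rl σ) {N : I → I → ℝ × ℝ → ℝ} (hA : ∀ c1 c2, Adm (N c1 c2))
  (hN : Sym N) {Ef : ℝ → ℝ} (hE : ∀ δ, 0 ≤ Ef δ)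

include F hQ hσ hA hN hE in
/-- **`Rm` is the identity where the clamp vanishes** -/
theorem Rm_id {y : E} (hy : y ∈ P c0) (h0 : Ef (dl (nbF F c0) c0 (sc P b y)) = 0) :
    Rm P b (nbF F c0) c0 σ N Ef y = y := by
  rcases (dl_le_one (C := nbF F c0) (c0 := c0) (u := sc P b y)).eq_or_lt with h | h
  · rw [Rm_center F hQ hσ hA hN hE hy h]; exact (eq_b_of_dl F hy h).symm
  · obtain ⟨d, hd, c1, hc1, c2, hc2, hdc, hdm, h2⟩ := exists_piece F hy h
    rw [Rm_eq F hQ hσ hA hN hE hy hdc hd hdm fun a _ g1 g2 g3 g4 => h2 a g1 g2 g3 g4]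
    have e1 : su (nbF F c0) c0 σ Ef (sc P b y) = sc P b y := by
      funext a
      by_cases ha : a = c0
      · rw [ha, su_c0, (sc_mem_KC F hy).2]
      · rw [su_ne ha, h0, clp_zero]
    rw [e1, hh, h0, clp_zero, sub_self, zero_smul, add_zero, F.T_sc (F.sub c0 hy)]

include hQ hσ hA hN hE in
/-- `Rm` is a PL equivalence -/
theorem exists_equiv (hsσ : ∀ a, Sel (Icc 0 1) (σ a)) (hsE : Sel (Icc 0 1) Ef)
    (hsN : ∀ c1 c2, Sel Sc (N c1 c2)) {L : ℝ}
    (hL : ∀ y ∈ P c0, ∀ y' ∈ P c0, ‖Rm P b (nbF F c0) c0 σ N Ef y -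
      Rm P b (nbF F c0) c0 σ N Ef y'‖ ≤ L * ‖y - y'‖) :
    ∃ e : PLEquiv (P c0) (P c0), e.f = Rm P b (nbF F c0) c0 σ N Ef := by
  refine Cx_609.exists_equiv_of_bijOn (F.cvx c0).finConv (F.cpt c0).isClosed
    (Cx_609.plOn_iff.1 ⟨?_, sel_Rm F hQ hσ hA hN hE hsσ hsE hsN⟩)
    ⟨Rm_mapsTo F hQ hσ hA hN hE, Rm_injOn F hQ hσ hA hN hE, Rm_surjOn F hQ hσ hA hN hE⟩
  refine LipschitzOnWith.continuousOn (K := Real.toNNReal L) ?_
  refine LipschitzOnWith.of_dist_le_mul fun x hx y hy => ?_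
  rw [dist_eq_norm, dist_eq_norm]
  refine (hL x hx y hy).trans (mul_le_mul_of_nonneg_right ?_ (norm_nonneg _))
  exact Real.le_coe_toNNReal L

end foam

/-! ### nodes from densities -/


/-! ### box foams -/

section box

variable {κ : Type*} [Fintype κ] [Nonempty κ] {La : Set (κ → ℝ)} {F : Set (Bx κ)} {δ κ0 : ℝ}

/-- the Lipschitz constant of `Rc` -/
noncomputable def S1c (δ R : ℝ) : ℝ := Cs 3 δ R * (27 * 4 + 24)

/-- the Lipschitz constant of `st ∘ Rc` -/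
noncomputable def Spk (δ κ0 R : ℝ) : ℝ := max 1 (Lco_714.Sc (S1c δ R) δ κ0 R 4)

/-- **REL-PACK**, explicit: `κs = η = s / 2` -/
theorem rel_pack' (h3 : Fintype.card κ = 3) (hδ : 0 < δ) {R : ℝ} (hR : 0 < R) {s : ℝ}
    (hs : 0 < s) (hs1 : s < 1) (BF : BoxFoam La F δ κ0) (hLa : IsOpen La) (hcmp : Cmp F R)
    {m : F → ℕ} (hm : ∀ a, 0 < m a) {M : ℕ} (hM : 0 < M) {n : F → ℕ → ℝ}
    (hN : ∀ a, StrictMono (n a)) (hN0 : ∀ a, n a 0 = 0) (hNm : ∀ a, n a M = m a) (c : F)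
    (hn : ∀ a, (Pc F a ∩ Pc F c).Nonempty → (∀ i < M, n a (i + 1) - n a i ≤ 4 * m a / M) ∧
      (∀ j ≤ M, |n a j / m a - (j : ℝ) / M| ≤ s / 2) ∧ 1 ≤ s / 2 * m a) :
    ∃ Rc : PLEquiv (Pc F c) (Pc F c),
      (∀ z ∈ bdP (Pc F) (bc (F := F)) (fun _ => M) c, Rc.f z =
        (rcR (m' := fun _ => M) hN hN0 hNm (foam4 BF hLa h3) (quads_box BF h3)
          (fun _ => hM) hm c).f z) ∧
      (∀ z ∈ Wall (Pc F) c, ∀ r ∈ Icc (1 - s / 2) 1, Rc.f (bc {c} + r • (z - bc {c})) =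
        bc {c} + r • ((rcR (m' := fun _ => M) hN hN0 hNm (foam4 BF hLa h3) (quads_box BF h3)
          (fun _ => hM) hm c).f z - bc {c})) ∧
      (∀ u ∈ Pc F c, Rc.f ((1 - s) • u + s • bc {c}) = (1 - s) • u + s • bc {c}) ∧
      (∀ κ', 0 ≤ κ' → κ' < 1 → ∀ y ∈ Cpy c κ', Rc.f y ∈ Cpy c κ') ∧
      (∀ y ∈ Pc F c, ∀ y' ∈ Pc F c, ‖Rc.f y - Rc.f y'‖ ≤ S1c δ R * ‖y - y'‖) ∧
      (∀ κ', 0 < κ' → κ' ≤ s / 2 → ∀ y ∈ Pc F c, ∀ y' ∈ Pc F c,
        ‖st (grid (foam4 BF hLa h3) (quads_box BF h3) (Pc_ne BF) hm) κ' (Rc.f y) -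
          st (grid (foam4 BF hLa h3) (quads_box BF h3) (Pc_ne BF) hm) κ' (Rc.f y')‖ ≤
          Spk δ κ0 R * ‖y - y'‖) := by
  have FF := foam4 BF hLa h3
  have hQ := quads_box BF h3
  have hsz : 0 < c.1.sz := Bx.sz_pos (BF.pos _ c.2)
  have hb := Pc_eq c (BF.pos _ c.2)
  have hσ : Rl (sgm n M m) := rl_sgm hN hN0 hM hm hNm
  have hA : ∀ c1 c2, Adm (Nm m c1 c2) := adm_Nm hm
  have hNs : Sym (Nm m) := sym_Nm m
  have hE := Es_nonneg s
  have hEs : ∀ t ∈ Icc (0 : ℝ) 1, ∀ t' ∈ Icc (0 : ℝ) 1, |Es s t - Es s t'| ≤ |t - t'| :=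
    fun t _ t' _ => Es_lip s t t'
  have hσL : ∀ a ∈ nbF FF c, ∀ x ∈ Icc (0 : ℝ) 1, ∀ x' ∈ Icc (0 : ℝ) 1,
      |sgm n M m a x - sgm n M m a x'| ≤ 4 * |x - x'| := fun a ha =>
    sgm_lip hN hM hm a fun j hj => by
      have := (hn a ((mem_nbF FF).1 ha)).1 j hj
      rwa [mul_div_assoc] at this
  have hlip : ∀ y ∈ Pc F c, ∀ y' ∈ Pc F c,
      ‖Rm (Pc F) (bc (F := F)) (nbF FF c) c (sgm n M m) (Nm m) (Es s) y -
        Rm (Pc F) (bc (F := F)) (nbF FF c) c (sgm n M m) (Nm m) (Es s) y'‖ ≤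
        S1c δ R * ‖y - y'‖ := by
    intro y hy y' hy'
    have h1 := Rm_lip FF hQ hσ hA hNs hE hEs (L := 4) (by norm_num) hσL (D := c.1.sz)
      (S := Cs 3 δ R / c.1.sz) hsz.le (fun x hx y hy => norm_sub_le_sz (BF.pos _ c.2) hx hy)
      (fun y hy y' hy' a => by
        have := lip_cell BF hLa hδ hR hcmp c y hy y' hy' a
        rwa [h3] at this) hy hy'
    refine h1.trans (le_of_eq ?_)
    rw [S1c]
    field_simp
  obtain ⟨Rc, hRc⟩ := exists_equiv FF hQ hσ hA hNs hE (fun a => sel_sgm hN hN0 hM a)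
    (sel_Es s _) (fun c1 c2 => sel_Nf (hm c1) (hm c2)) hlip
  have hcpy : ∀ κ' < 1, ∀ y ∈ Pc F c, y ∈ Cpy c κ' ↔ κ' ≤ dl (nbF FF c) c (sc (Pc F) bc y) := by
    intro κ' hκ' y hy
    rw [mem_Cpy_iff BF c hκ', rho_dl FF hb hy]
    constructor <;> intro h <;> linarith
  have hsub : ∀ κ' < 1, 0 ≤ κ' → Cpy c κ' ⊆ Pc F c := by
    intro κ' h1 h0 y hy
    rw [mem_Cpy_iff BF c h1] at hy
    rw [hb]
    exact hy.trans (by linarith)
  have hray : ∀ z ∈ Wall (Pc F) c, ∀ r ∈ Icc (1 - s / 2) 1, Rc.f (bc {c} + r • (z - bc {c})) =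
        bc {c} + r • ((rcR (m' := fun _ => M) hN hN0 hNm (foam4 BF hLa h3) (quads_box BF h3)
          (fun _ => hM) hm c).f z - bc {c}) := by
    rintro z hz r ⟨hr0, hr1⟩
    have hrp : 0 < r := by linarith
    obtain ⟨hz1, d, hd, hz2⟩ := hz
    have hzb : z ∈ bdP (Pc F) (bc (F := F)) (fun _ => M) c := by
      rw [bdP_eq FF hQ (fun _ => hM)]; exact ⟨hz1, d, hd, hz2⟩
    rw [hRc, Rm_ray FF hQ hσ hA hNs hE hz1 hd hz2 hrp hr1,
      rc_lvm FF hQ hN hN0 hM hm hNm (η := s / 2) (e := Es s (1 - r) / r) (by linarith)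
        (Es_ge hs.le hrp hr1 (by linarith)) (fun a ha => (hn a ha).2.1)
        (fun a ha => by
          have h1 := (hn a ha).2.2
          have h2 : (0 : ℝ) < m a := by exact_mod_cast hm a
          rw [div_le_iff₀ h2]; exact h1) hzb]
  have hkeep : ∀ κ', 0 ≤ κ' → κ' < 1 → ∀ y ∈ Cpy c κ', Rc.f y ∈ Cpy c κ' := by
    intro κ' h0 hκ' y hy
    have hyP := hsub κ' hκ' h0 hy
    rw [hRc, hcpy κ' hκ' _ (Rm_mapsTo FF hQ hσ hA hNs hE hyP), dl_Rm FF hQ hσ hA hNs hE hyP]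
    exact (hcpy κ' hκ' y hyP).1 hy
  have hRlip : ∀ y ∈ Pc F c, ∀ y' ∈ Pc F c, ‖Rc.f y - Rc.f y'‖ ≤ S1c δ R * ‖y - y'‖ := by
    intro y hy y' hy'
    rw [hRc]; exact hlip y hy y' hy'
  refine ⟨Rc, fun z hz => ?_, hray, fun u hu => ?_, hkeep, hRlip, ?_⟩
  · have hzW : z ∈ Wall (Pc F) c := by
      rw [bdP_eq FF hQ (fun _ => hM)] at hz; exact hz
    have := hray z hzW 1 ⟨by linarith, le_rfl⟩
    simpa using this
  · have h1 : (1 - s) • u + s • bc {c} ∈ Cpy c s := ⟨u, hu, rfl⟩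
    have h2 := hsub s hs1 hs.le h1
    rw [hRc]
    refine Rm_id FF hQ hσ hA hNs hE h2 (Es_zero ((hcpy s hs1 _ h2).1 h1))
  · intro κ' hκ0 hκ1 y hy y' hy'
    have h1 := lip_core_box BF hLa h3 hm hδ hR hcmp hM hN hN0 hNm (Λ := 4) (by norm_num)
      (κ' := κ') (S1 := S1c δ R) hκ0 (by linarith) c (fun a ha => (hn a ha).1) (Rm := Rc.f)
      (fun x hx x' hx' => hRlip x' hx' x hx) (fun x hx => hkeep κ' hκ0.le (by linarith) x hx)
      (fun z hz r hr => hray z hz r ⟨by linarith [hr.1], hr.2⟩) hy' hy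
    refine h1.trans (mul_le_mul_of_nonneg_right (le_max_right _ _) (norm_nonneg _))

theorem Spk_pos (δ κ0 R : ℝ) : 0 < Spk δ κ0 R := one_pos.trans_le (le_max_left _ _)


end box

end Crest.Agent.R096.Rpk_714
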