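import Crest.Agent.R096.Fin7_147
import Crest.Agent.R096.Ecm5_446
import Crest.Agent.R096.Cin1_181
import Crest.Agent.R096.Rpk1_714

/-!
# R096 (row 96), NODES (helper714): the nodes of the relabelling from `Mbf_337.Levels`

`nn_dens` : density of the numbers `NN` of 446 from `Levels.dens`;
`exists_nodes_levels` : the real nodes with all hypotheses of 181's `core_base` and of `rel_pack'`;
`exists_m0` : the lower bound of the number of the levels.
-/

set_option autoImplicit false
set_option linter.unusedSectionVars false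
set_option linter.unusedVariables false

open Set Filter Topology

namespace Crest.Agent.R096.Nod_714

open Crest.Agent.R096.Brk1_582 Crest.Agent.R096.Brk2_582 Crest.Agent.R096.Brk3_582
open Crest.Agent.R096.Brk5_582 Crest.Agent.R096.Bsp_628
open Crest.Agent.R096.Grd_714 Crest.Agent.R096.Bin_181
open Crest.Agent.R096.SkC1_961 (E3 FoamD)
open Crest.Agent.R096.Msh_715 Crest.Agent.R096.SkB_662 Crest.Agent.R096.Gl_422
open Crest.Agent.R096.Init_543 (JJ)
open Crest.Agent.R096.Fin_147 (fmJ jj_inj jj_finite)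
open Crest.Agent.R096.Ecm_446 (NN cnt NN_eq NN_mono NN_zero NN_top)
open Crest.Agent.R096.Mbf_337 (Levels)

variable {δ κ0 R c0 : ℝ} {La Om : Set E3} {ι : Type} {Φ : FoamD δ κ0 R c0 La} {Tl : Tiling Om ι}
  {f : E3 → E3} {κp μ κ3 : ℝ} {Z : Φ.F → Set ℝ} {m0 κw kap : Φ.F → ℕ} {Lv : Φ.F → Finset ℝ}

/-- the height of a sheet in units of the mesh -/
noncomputable def hgt (Φ : FoamD δ κ0 R c0 La) (Lv : Φ.F → Finset ℝ) (M : ℕ) : JJ Φ Lv → ℝ :=
  fun j => M * j.2.1







/-- **the number of the levels which is needed**: finitely many neighbours -/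
theorem exists_m0 (hLa : IsOpen La) (Φ : FoamD δ κ0 R c0 La) (M : Φ.F → ℕ) (η : ℝ) :
    ∃ m0 : Φ.F → ℕ, ∀ c a, (Pc Φ.F a ∩ Pc Φ.F c).Nonempty → M c ≤ m0 a ∧ 4 / η ≤ m0 a := by
  have FF := foam Φ.bf hLa
  refine ⟨fun a => (finite_touch FF a).toFinset.sup M + ⌈4 / η⌉₊, fun c a h => ⟨?_, ?_⟩⟩
  · refine le_trans ?_ (Nat.le_add_right _ _)
    refine Finset.le_sup (f := M) ?_
    rw [Set.Finite.mem_toFinset]
    rwa [inter_comm] at h
  · refine (Nat.le_ceil _).trans ?_
    exact_mod_cast Nat.le_add_left _ _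

end Crest.Agent.R096.Nod_714
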