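import Crest.Agent.R096.Mno2_534
import Crest.Agent.R096.Fl6_835
import Crest.Agent.R096.Mi5_117
import Crest.Agent.R096.Csub9_487
import Crest.Agent.R096.Be9_416
import Crest.Agent.R096.Nod1_714
import Crest.Agent.R096.SkN2_477
import Crest.Agent.R096.Oa3_527

-- ▼ part R096/Mnb1_747
section

/-!
# R096 (row 96), MachNO, bottom side (helper747): `FinNO` from the final state

`finNO_of_st` : 534's `FinNO` (all that `OutNO` reads) from the final state `StO` (662), the structure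
`Inv`, (K4) at all base points of the ordinary tiles, the agreement of the cells with the tiling off
the cores, and the Lipschitz bounds of the tiles which touch no excluded tile.
-/

set_option autoImplicit false
set_option linter.unusedSectionVars false
set_option linter.unusedVariables false
set_option linter.style.longLine false

open Set Filter Topology Metric Module MeasureTheory
open scoped ENNReal

namespace Crest.Agent.R096.Mnb_747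

open Crest.Agent.R096.Ce_537 (PLOn PLEquiv cube sph IsBall Cplx)
open Crest.Agent.R096.Bd_416 Crest.Agent.R096.Grd_714 Crest.Agent.R096.Mg_441
open Crest.Agent.R096.Xp_537 (gG)
open Crest.Agent.R096.On_441
open Crest.Agent.R096.Brk1_582 Crest.Agent.R096.Brk2_582 Crest.Agent.R096.Brk3_582
open Crest.Agent.R096.Brk5_582 Crest.Agent.R096.Brk6_582
open Crest.Agent.R096.Bsp_628
open Crest.Agent.R096.SkC1_961 (E3 Hom3 FoamD Cfg th NN)
open Crest.Agent.R096.SkN1_477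
open Crest.Agent.R096.Msh_715
open Crest.Agent.R096.Mbf_337 (KJ sb gau)
open Crest.Agent.R096.St_147 Crest.Agent.R096.Seq_213 Crest.Agent.R096.Lm_117
  Crest.Agent.R096.Cp_298 Crest.Agent.R096.Gl_422 Crest.Agent.R096.SkB_662
open Crest.Agent.R096.Fl_835 (wk)
open Crest.Agent.R96.Nu7_199 (WE)
open Crest.Agent.R096.Mno_534

variable {δ κ0 R c0 : ℝ} {La Om : Set E3} {ι : Type} {Φ : FoamD δ κ0 R c0 La} {Tl : Tiling Om ι}
  {f : E3 → E3} {V : Φ.F → Set ι}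

/-- in a complex the cell is determined by its set of points -/
theorem K_inj {E' : Type*} [NormedAddCommGroup E'] [NormedSpace ℝ E'] {Q : Type*} [PartialOrder Q]
    {dim : Q → ℕ} {K : Q → Set E'} {Om' : Set E'} (X : Cplx Om' Q dim K) {q q' : Q}
    (h : K q = K q') : q = q' := by
  have key : ∀ e : Q, ∃ z, Ce_537.Opn K e z := by
    intro e
    obtain ⟨f, hf⟩ := X.isBall e
    have h0 : (0 : Fin (dim e) → ℝ) ∈ cube (dim e) := by simp [cube]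
    refine ⟨f.f 0, f.mf h0, fun j hj hx => ?_⟩
    have h1 : f.f 0 ∈ f.f '' sph (dim e) := by
      rw [hf]
      exact mem_biUnion (show j ∈ {j | j < e} from hj) hx
    obtain ⟨w, hw, hwe⟩ := h1
    have h2 := f.injOn (Ce_537.sph_subset_cube hw) h0 hwe
    rw [h2] at hw
    simp [sph] at hw
  obtain ⟨z, hz⟩ := key q
  obtain ⟨z', hz'⟩ := key q'
  exact le_antisymm (X.opn_le hz (h ▸ hz.1)) (X.opn_le hz' (h ▸ hz'.1))

/-- **`FinNO` from the final state** -/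
theorem finNO_of_st (hLa : IsOpen La)
    -- the final state
    {ι' Φc Q J Kq : Type} {M : MeshC ι' Φc E3} [PartialOrder Q] {dim : Q → ℕ}
    {L : LM M Q dim} {O : Ori M} {τ : Q → ZMod 2} {Rel : E3 → E3 → Prop} {Vc : Set E3}
    {Qd : Quads ι' Φ.F Kq} {κw : Φ.F → ℕ} {fam : J → Φ.F} {s₀ : GSt M fam} {far₀ : J → Set E3}
    {Z : Φ.F → Set Q} {lam₀ : J → Q → ZMod 2} {v₀ v₁ : Φ.F → Q}
    {hfin : ∀ a, {j | fam j = a}.Finite} {kap : Φ.F → ℕ} {s : GSt M (fam' fam (Rk κw kap))}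
    {far : Nm' fam (Rk κw kap) → Set E3} {β : E3 → E3}
    {lm : Nm' fam (Rk κw kap) → Q → ZMod 2}
    (h : StO L O τ Rel Vc Qd κw s₀ far₀ Z lam₀ v₀ v₁ hfin kap s far β lm)
    (hrel : ∀ x w, Rel x w → (x ∈ L.W1 ∨ w ∈ L.W1) → x ∈ L.W1 ∧ w ∈ L.W1 ∧ L.ed x = L.ed w)
    -- the levels
    {Lv : Φ.F → Finset ℝ} {t : J → ℝ} (hinj : ∀ j j', fam j = fam j' → t j = t j' → j = j')
    (hLv : ∀ j, t j ∈ Lv (fam j)) (hcard : ∀ a, mm hfin a = (Lv a).card)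
    (hlev : ∀ i, (∀ c, i ∉ V c) → ∀ x ∈ s₀.P, x ∈ P (Tl.H i) → Tl.dim x ≤ 1 →
      Φ.lev (fam (s₀.lab x)) (f x) = t (s₀.lab x))
    {hf1 : ∀ a, {j | h.cmb.fam j = a}.Finite} (hm : ∀ a, 0 < mm hf1 a)
    -- the mesh and its structure
    {K : Q → Set E3} {Gf : Gd E3 (Nm' fam (Rk κw kap))} {Pp : ∀ q, h.cmb.I q → Set E3}
    {cc : ∀ q, h.cmb.I q → E3 → ℝ} (H : Inv h.cmb K univ Gf Pp cc)
    {Om' : Set E3} (Xc : Cplx Om' Q dim K)
    -- the ordinary tiles: (K4) at all base points, the numbers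
    {Cu : Set (Set E3) → ℝ} (hCu : ∀ 𝒦, 0 < Cu 𝒦)
    (tile : ∀ i, (∀ c, i ∉ V c) → ∃ q, K q = P (Tl.H i) ∧
      (∀ e, e < q → dim e = 1 → L.toSk.On1 e ⊆ {y | y ∈ P (Tl.H i) ∧ Tl.dim y ≤ 1}) ∧
      (∀ x0 ∈ P (Tl.H i), Ex h.cmb (Pc Φ.F) q (sb Φ (Φ.Psi (f x0)))) ∧
      ((∀ j ∈ ⋃ c, V c, Disjoint (P (Tl.H i)) (P (Tl.H j))) →
        ∀ (B : E3 ≃ᵃ[ℝ] E3) (x : h.cmb.I q), ∀ y ∈ K q,
          LB B (Cu ((fun K => B '' K) '' Cfg Tl i) * WE Xc h.cmb (wk κw kap fam) q /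
            wk κw kap fam (h.cmb.col q x)) (cc q x) (K q) y))
    -- the ordinary 1-cells
    (edge : ∀ x ∈ Om, Tl.dim x = 1 → (∀ i, x ∈ P (Tl.H i) → ∀ c, i ∉ V c) →
      (∃ q, dim q = 1 ∧ K q = Tl.cc x) ∧
        ∀ q, dim q = 1 → K q = Tl.cc x → L.toSk.On1 q ⊆ Tl.cc x)
    {G : E3 → E3}
    (hG : ∀ q, ∀ x ∈ K q, G x = gG (Tq (bc (F := Φ.F)) (mm hf1)) (merge hf1 Gf) x)
    (Ds : Set E3) (μ : ℝ) :
    FinNO Φ h.cmb K Gf Pp cc hf1 Tl f (⋃ c, V c) κw (Rk κw kap) Lv Ds μ Cu G := by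
  have hEx : ∀ i, i ∉ (⋃ c, V c) → ∀ c, i ∉ V c := by
    intro i hi c hc
    exact hi (mem_iUnion.2 ⟨c, hc⟩)
  have hmm : ∀ a, mm hf1 a = Rk κw kap a * (Lv a).card := fun a => by
    rw [← hcard]; exact h.mm_eq a
  refine
    { inv := H
      foam := foam Φ.bf hLa
      quads := quads_box Φ.bf (by simp)
      r_pos := fun a => Rk_pos κw kap a
      mm_eq := hmm
      mm_pos := hm
      tile := ?_
      edge := ?_
      lipB := ?_
      Cs_pos := hCu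
      GT := ?_ }
  · intro i hi
    obtain ⟨q, hq, -, hE, -⟩ := tile i (hEx i hi)
    exact ⟨q, hq, hE⟩
  · intro x hx hd hE
    have hE' : ∀ i, x ∈ P (Tl.H i) → ∀ c, i ∉ V c := fun i hi => hEx i (hE i hi)
    obtain ⟨hq, hOn⟩ := edge x hx hd hE'
    refine ⟨hq, fun S => ?_⟩
    have hl : ∀ y ∈ s₀.P, y ∈ Tl.cc x → Φ.lev (fam (s₀.lab y)) (f y) = t (s₀.lab y) := by
      intro y hy hyc
      obtain ⟨i, hi⟩ := Tl.cov x hx
      refine hlev i (hE' i hi) y hy (Tl.cc_sub_tile (i := i) hi hyc) ?_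
      rw [← hd]
      exact Tl.dim_le hyc
    exact Mna_747.cnt h hrel (lv := fun c y => Φ.lev c (f y)) hinj hLv (B := Tl.cc x) hl K hq hOn S
  · intro i hi hd B N hN hNN _ q' hq' z hz
    obtain ⟨q, hq, hB, hE, hLB⟩ := tile i (hEx i hi)
    obtain rfl : q = q' := K_inj Xc (hq.trans hq'.symm)
    intro x
    have hz' : z ∈ K q := by rw [hq]; exact I_sub_P _ hz
    have h1 := Fl_835.we_le_NN (T := Tl) (f := f) (i := i) Xc h hrel hinj hLv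
      (hlev i (hEx i hi)) hB
    have h2 : WE Xc h.cmb (wk κw kap fam) q ≤ N :=
      (ENNReal.ofReal_le_ofReal_iff hN).1 (h1.trans hNN)
    have hw : (2 : ℝ)⁻¹ ^ κw (h.cmb.fam (h.cmb.col q x)) /
        (Rk κw kap (h.cmb.fam (h.cmb.col q x)) : ℕ) = wk κw kap fam (h.cmb.col q x) :=
      Mna_747.pow_div_Rk (h.le _)
    rw [hw]
    have hwp := Fl_835.wk_pos κw kap fam (h.cmb.col q x)
    have h3 := hLB hd B x z hz'
    have h4 := hCu ((fun K => B '' K) '' Cfg Tl i)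
    filter_upwards [h3] with y hy
    refine hy.trans ?_
    gcongr
  · intro i hi x hx
    obtain ⟨q, hq, -⟩ := tile i (hEx i hi)
    exact hG q x (hq ▸ hx)

end Crest.Agent.R096.Mnb_747
end

-- ▼ part R096/Mnb2_747
section

/-!
# R096 (row 96), MachNO, bottom side (helper747): the clause `edge` (of `fin_st`, `finNO_of_st`)

`edge_clause` : the clause about the ordinary 1-cells, from the same `hord` as 117's `tile_clause`.
-/

set_option autoImplicit false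
set_option linter.unusedSectionVars false
set_option linter.unusedVariables false
set_option linter.style.longLine false

open Set Metric Filter Topology Module

namespace Crest.Agent.R096.Mnb_747

open Crest.Agent.R096.St_147 Crest.Agent.R096.Lm_117 Crest.Agent.R096.Ce_537
open Crest.Agent.R096.Msh_715 Crest.Agent.R096.Ecm_446 Crest.Agent.R096.Csub_487

variable {E : Type} [NormedAddCommGroup E] [NormedSpace ℝ E] [FiniteDimensional ℝ E]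
  {Om Om' : Set E} {ι3 ιt : Type} {T3 : Tiling Om' ι3} {Tl : Tiling Om ιt}
  {ι Φc Q : Type} {M : MeshC ι Φc E} [PartialOrder Q] {dim : Q → ℕ} {K : Q → Set E}
  {L : LM M Q dim} {cell : Q → T3.Cell}

/-- a cell of an ordinary tile is a cell of `Q` -/
theorem cell_of_hord (hI : CellIx T3 dim K cell) {i : ιt} {i3 : ι3}
    (h0 : P (T3.H i3) = P (Tl.H i)) (hcc : ∀ x ∈ P (Tl.H i), T3.cc x = Tl.cc x)
    (hq : ∃ q, K q = P (T3.H i3)) {x : E} (hx : x ∈ P (Tl.H i)) :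
    ∃ q, dim q = Tl.dim x ∧ K q = Tl.cc x := by
  obtain ⟨q, hq⟩ := hq
  have hxO : x ∈ Om := Tl.sub i hx
  have hx3 : x ∈ P (T3.H i3) := by rw [h0]; exact hx
  have hxO' : x ∈ Om' := T3.sub i3 hx3
  have hle : T3.cl hxO' ≤ cell q := by
    rw [Tiling.Cell.le_def, ← hI.set_eq, hq]
    exact T3.cc_sub_tile hx3
  obtain ⟨σ, hσ⟩ := hI.down q _ hle
  refine ⟨σ, ?_, ?_⟩
  · rw [hI.dim_eq, hσ, Tiling.dim_cl]
    exact (Mf_113.dim_of_cc hxO hxO' (hcc x hx)).2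
  · rw [hI.set_eq, hσ]
    exact hcc x hx

/-- the points of a 1-cell -/
theorem on1_sub (hI : CellIx T3 dim K cell) (hO : OnT T3 L.toSk cell) (q : Q) :
    L.toSk.On1 q ⊆ K q := by
  rintro w ⟨hw1, hwe⟩
  have h4 : L.ed w = q := hwe
  have h2 := hO.ed w hw1
  rw [hI.set_eq, ← h4, h2]
  exact T3.self_mem_cc w

/-- **the clause `edge` of `fin_st` / `finNO_of_st`** -/
theorem edge_clause {Fm : Type} {V : Fm → Set ιt} (hI : CellIx T3 dim K cell)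
    (hO : OnT T3 L.toSk cell)
    (hord : ∀ i, (∀ c, i ∉ V c) → ∃ i3 : ι3, P (T3.H i3) = P (Tl.H i) ∧
      (∀ x ∈ P (Tl.H i), T3.cc x = Tl.cc x) ∧ ∃ q, K q = P (T3.H i3)) :
    ∀ x ∈ Om, Tl.dim x = 1 → (∀ i, x ∈ P (Tl.H i) → ∀ c, i ∉ V c) →
      (∃ q, dim q = 1 ∧ K q = Tl.cc x) ∧
        ∀ q, dim q = 1 → K q = Tl.cc x → L.toSk.On1 q ⊆ Tl.cc x := by
  intro x hx hd hV
  obtain ⟨i, hi⟩ := Tl.cov x hx
  obtain ⟨i3, h0, hcc, hq⟩ := hord i (hV i hi)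
  obtain ⟨q, h1, h2⟩ := cell_of_hord hI h0 hcc hq hi
  exact ⟨⟨q, h1.trans hd, h2⟩, fun q' _ hq' => (on1_sub hI hO q').trans hq'.subset⟩

end Crest.Agent.R096.Mnb_747
end

-- ▼ part R096/Num1_689
section

/-!
# R096 (row 96), bottom: NUMBERS, part 1 (helper689)

The constants of the machine in the order of `Mno_534.MachGN`.

* before `e`: `K1n` (base constant), `Ckn`, `Csn` (mesh constant and Lipschitz constant of a shape),
  `CuF`, `Cun` (shape constants off the exact cores), `C0n` (constant of the exact cores);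
* `NumK β0 e κb κf sg bt` : all inequalities between the numbers which are chosen after `e`;
  `exists_numK`.
-/

set_option autoImplicit false
set_option linter.unusedSectionVars false
set_option linter.unusedVariables false
set_option linter.style.longLine false

open Set Filter Topology Metric

namespace Crest.Agent.R096.Num_689

open Crest.Agent.R096.Bd_416 Crest.Agent.R096.Brk5_582 Crest.Agent.R096.Csub_487
open Crest.Agent.R096.SkC1_961 (E3)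

/-! ### before `e` -/

/-- the constant of the base at the exact cores (`BaseC.of_Kbase`) -/
noncomputable def K1n (δ R : ℝ) : ℝ := 8 * (R * R) * Cs (Fintype.card (Fin 3)) δ R

theorem K1n_nonneg {δ R : ℝ} (hδ : 0 < δ) (hR : 0 < R) : 0 ≤ K1n δ R :=
  mul_nonneg (by positivity) (Cs_nonneg hδ hR)


/-- the number of a shape, all ordinary tiles (`tile_clauseX`) -/
noncomputable def Ckn (KN ε₁ δ R : ℝ) (𝒦 : Set (Set E3)) : ℝ :=
  2 * CUe (max KN (K1n δ R)) ε₁ 3 𝒦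

theorem Ckn_nonneg {KN ε₁ δ R : ℝ} (hKN : 0 ≤ KN) (𝒦 : Set (Set E3)) : 0 ≤ Ckn KN ε₁ δ R 𝒦 :=
  mul_nonneg (by norm_num) (CUe_nonneg (hKN.trans (le_max_left _ _)) _ _)

/-- the Lipschitz constant of a shape -/
noncomputable def Csn (KN ε₁ δ R κ3 : ℝ) (𝒦 : Set (Set E3)) : ℝ :=
  2 * R * κ3 * Ckn KN ε₁ δ R 𝒦 + 1

theorem Csn_pos {KN ε₁ δ R κ3 : ℝ} (hKN : 0 ≤ KN) (hR : 0 ≤ R) (hκ3 : 0 ≤ κ3)
    (𝒦 : Set (Set E3)) : 0 < Csn KN ε₁ δ R κ3 𝒦 := by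
  have := mul_nonneg (mul_nonneg (mul_nonneg (by norm_num : (0:ℝ) ≤ 2) hR) hκ3)
    (Ckn_nonneg (ε₁ := ε₁) (δ := δ) (R := R) hKN 𝒦)
  unfold Csn
  linarith

theorem Csn_le {KN ε₁ δ R κ3 : ℝ} (𝒦 : Set (Set E3)) :
    2 * R * κ3 * Ckn KN ε₁ δ R 𝒦 ≤ Csn KN ε₁ δ R κ3 𝒦 := by
  unfold Csn
  linarith

/-- the number of a shape, tiles which touch no exact core (`tile_clauseN`) -/
noncomputable def CuF (KN ε₁ : ℝ) (𝒦 : Set (Set E3)) : ℝ := 2 * CUe KN ε₁ 3 𝒦 + 1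

theorem CuF_pos {KN ε₁ : ℝ} (hKN : 0 ≤ KN) (𝒦 : Set (Set E3)) : 0 < CuF KN ε₁ 𝒦 := by
  have := CUe_nonneg (ε := ε₁) hKN 3 𝒦
  unfold CuF
  linarith

theorem CuF_le {KN ε₁ : ℝ} (𝒦 : Set (Set E3)) : 2 * CUe KN ε₁ 3 𝒦 ≤ CuF KN ε₁ 𝒦 := by
  unfold CuF
  linarith

/-- `Cu` of `GNO` (`FinNO.gno`) -/
noncomputable def Cun (KN ε₁ : ℝ) : Set (Set E3) → ℝ := fun 𝒦 => 2 * CuF KN ε₁ 𝒦

theorem Cun_pos {KN ε₁ : ℝ} (hKN : 0 ≤ KN) (𝒦 : Set (Set E3)) : 0 < Cun KN ε₁ 𝒦 :=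
  mul_pos (by norm_num) (CuF_pos hKN 𝒦)

/-- the constant of the exact cores -/
noncomputable def C0n (δ κ0 R : ℝ) : ℝ := Rpk_714.Spk δ κ0 R + 1

theorem lt_C0n (δ κ0 R : ℝ) : Rpk_714.Spk δ κ0 R < C0n δ κ0 R := lt_add_one _

theorem C0n_pos (δ κ0 R : ℝ) : 0 < C0n δ κ0 R := (Rpk_714.Spk_pos δ κ0 R).trans (lt_C0n δ κ0 R)

/-! ### after `e` -/

/-- **the numbers after `e`**: `κb` = size of the base bands, `bt` = squeezes (4 steps), `κf` = size of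
the final bands, `sg` = clamp size `s` of `rel_pack'`; `sg / 2` = closeness `η` of the nodes. -/
structure NumK (β0 e κb κf sg : ℝ) (bt : ℕ → ℝ) : Prop where
  kb0 : 0 < κb
  kb2 : κb ≤ 1/2
  b0 : ∀ n, 0 < bt n
  b2 : ∀ n, bt n < 1/2
  bβ : ∀ n, β0 ≤ bt n
  b4 : ∀ n, 1/4 ≤ bt n
  kf : κf = 1 - (1 - κb) * bet bt (3 + 1)
  kf0 : 0 < κf
  kf2 : κf ≤ sg / 2
  sg0 : 0 < sg
  sg1 : sg ≤ 1/4
  e1 : 3 * sg ≤ e
  e2 : κf / (1 - κf) < e

namespace NumK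

variable {β0 e κb κf sg : ℝ} {bt : ℕ → ℝ} (h : NumK β0 e κb κf sg bt)

include h

theorem kb : 0 < κb ∧ κb < 1 := ⟨h.kb0, h.kb2.trans_lt (by norm_num)⟩
theorem kfs : κf ≤ sg := h.kf2.trans (by linarith [h.sg0])
theorem sglt : sg < 1 := h.sg1.trans_lt (by norm_num)
theorem η0 : 0 < sg / 2 := half_pos h.sg0
theorem η1 : sg / 2 ≤ 1 := by linarith [h.sg1]

end NumK

/-- **the numbers exist** -/
theorem exists_numK {β0 e : ℝ} (hβ : β0 < 1/2) (he : 0 < e) :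
    ∃ (κb κf sg : ℝ) (bt : ℕ → ℝ), NumK β0 e κb κf sg bt := by
  set sg : ℝ := min (1/4) (e / 3) with hsg
  have s0 : 0 < sg := lt_min (by norm_num) (by positivity)
  have s1 : sg ≤ 1/4 := min_le_left _ _
  have s2 : sg ≤ e / 3 := min_le_right _ _
  set t : ℝ := sg / 2 with ht
  have t0 : 0 < t := half_pos s0
  have t1 : t ≤ 1/8 := by rw [ht]; linarith
  set b : ℝ := max (max β0 (1/4)) (1/2 - t/16) with hb
  have b2 : b < 1/2 := max_lt (max_lt hβ (by norm_num)) (by linarith)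
  have b4 : 1/4 ≤ b := (le_max_right β0 (1/4)).trans (le_max_left _ _)
  have bβ : β0 ≤ b := (le_max_left β0 (1/4)).trans (le_max_left _ _)
  have b1 : 1/2 - t/16 ≤ b := le_max_right _ _
  have hbet : bet (fun _ => b) (3 + 1) = (2 * b) ^ 4 := by
    unfold bet
    rw [Finset.prod_const, Finset.card_range]
  have h5 : 1 - t / 2 ≤ (2 * b) ^ 4 := by
    set u : ℝ := 2 * b with hu
    have u1 : 1 - t / 8 ≤ u := by rw [hu]; linarith
    have u0 : 0 < u := by rw [hu]; linarith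
    have u2 : u ≤ 1 := by rw [hu]; linarith
    have k1 : (1 - t / 8) ^ 4 ≤ u ^ 4 := pow_le_pow_left₀ (by linarith) u1 4
    have k2 : 1 - t / 2 ≤ (1 - t / 8) ^ 4 := by
      have := one_add_mul_le_pow (a := -(t / 8)) (by linarith) 4
      push_cast at this
      have e1 : 1 + 4 * -(t / 8) = 1 - t / 2 := by ring
      have e2 : 1 + -(t / 8) = 1 - t / 8 := by ring
      rw [e1, e2] at this
      exact this
    exact k2.trans k1
  have h6 : (2 * b) ^ 4 ≤ 1 := pow_le_one₀ (by linarith) (by linarith)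
  set κf : ℝ := 1 - (1 - t / 2) * bet (fun _ => b) (3 + 1) with hκf
  have kf0 : 0 < κf := by
    rw [hκf, hbet]
    nlinarith
  have kf2 : κf ≤ sg / 2 := by
    rw [hκf, hbet]
    nlinarith
  refine ⟨t / 2, κf, sg, fun _ => b, ⟨by positivity, by linarith, fun _ => by linarith, fun _ => b2,
    fun _ => bβ, fun _ => b4, hκf, kf0, kf2, s0, s1, by linarith, ?_⟩⟩
  have k8 : κf ≤ 1/8 := by linarith
  rw [div_lt_iff₀ (by linarith)]
  nlinarith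

end Crest.Agent.R096.Num_689
end

-- ▼ part R096/Mno1_534
section

/-!
Row 96 (S0127), helper534.  **The common target of the bottom half**: `MachAll p` gives both
`Mbf_337.MachBF` and `SkN2_477.MachNO p`.

Order: `Λ`, `e'` (accuracy of the face rule), then `η`, `Cu`, then `δ κ0 R c0 κ2 κ3`, `C0`, `C`, then
`e` (accuracy of the exact cores), `κp`, `μ`, `κ1`, the data, the designated faces, `Z`, `m0`,
the levels, `tol`.
-/

set_option autoImplicit false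
set_option linter.style.longLine false

open MeasureTheory Set Filter Topology Metric
open scoped ENNReal

namespace Crest.Agent.R096.Mno_534

open Crest.Agent.R096.Msh_715
open Crest.Agent.R096.SkC1_961 (E3 Hom3 FoamD)
open Crest.Agent.R096.SkN1_477
open Crest.Agent.R096.Mbf_337

/-- **the machine** (bounded factor + exact cores + designated faces) -/
def MachAll (p : ℝ) : Prop :=
  ∀ Λ e' : ℝ, 1 ≤ Λ → 0 < e' →
  ∃ η : ℝ, 0 < η ∧ ∃ Cu : Set (Set E3) → ℝ, (∀ 𝒦, 0 < Cu 𝒦) ∧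
  ∀ δ κ0 R c0 κ2 κ3 : ℝ, 0 < δ → 1 ≤ κ0 → 1 ≤ R → 0 < c0 → 0 < κ2 → 8 ≤ κ3 →
  ∃ (C0 : ℝ) (C : Set (Set E3) → ℝ), 0 < C0 ∧ (∀ 𝒦, 0 < C 𝒦) ∧ ∀ e : ℝ, 0 < e →
  ∃ κp : ℝ, 0 < κp ∧ ∀ μ : ℝ, 0 < μ → μ ≤ κp → ∃ κ1 : ℝ, 0 < κ1 ∧
  ∀ (Om La : Set E3) (f : E3 → E3), IsOpen Om → Bornology.IsBounded Om → IsConnected Om →
    IsOpen La → Bornology.IsBounded La → IsConnected La → Hom3 f Om La →
  ∀ (Φ : FoamD δ κ0 R c0 La) (ι : Type) (T : Tiling Om ι) (X : Set Φ.F) (J0 J V : Φ.F → Set ι)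
    (ct : Φ.F → ι) (A : Φ.F → E3 ≃ᵃ[ℝ] E3) (lam : Φ.F → ℝ) (z : Φ.F → E3) (θ : Φ.F → E3 → E3)
    (φ : Φ.F → E3 → ℝ) (M : Φ.F → ℕ),
    Star Φ → Cores Φ T f κ1 κ2 X J0 J V ct A lam z θ φ → Fine Φ T f κ1 J0 →
  ∀ (Ds : Set E3) (B : E3 → E3 ≃ᵃ[ℝ] E3) (ν : ℝ) (a : Fin 2 → ℝ),
    FaceD T (⋃ c, V c) Ds B Λ ν a →
  ∃ (Z : Φ.F → Set ℝ) (m0 : Φ.F → ℕ), (∀ c, volume (Z c) = 0) ∧
  ∀ (κ : Φ.F → ℕ) (L : Φ.F → Finset ℝ), Levels Φ T f κp μ κ3 Z m0 κ L →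
    Words Φ T f X ct A lam z M L →
  ∀ tol : ι → ℝ, (∀ i, 0 < tol i) →
  ∃ (g : E3 → E3) (u : E3 → Φ.F → ℝ) (n : Set E3 → Φ.F → ℝ),
    SkN2_477.OutF C0 C e Φ T f X V ct A lam κ L tol Ds ν g ∧
    OutNO p Cu e' η Φ T f (⋃ c, V c) κ L tol Ds B ν a g u n



/-- the target gives `MachNO` (order of record (E1): all constants of the foam first) -/
theorem machNO_of {p : ℝ} (h : MachAll p) : SkN2_477.MachNO p := by
  intro Λ e hΛ he
  obtain ⟨η, hη, Cu, hCu, h⟩ := h Λ e hΛ he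
  refine ⟨η, hη, Cu, hCu, ?_⟩
  intro δ κ0 R c0 κ2 κ3 h1 h2 h3 h4 h5 h6
  obtain ⟨C0, C, hC0, hC, h⟩ := h δ κ0 R c0 κ2 κ3 h1 h2 h3 h4 h5 h6
  obtain ⟨κp, hκp, h⟩ := h e he
  exact ⟨C0, C, hC0, hC, κp, hκp, h⟩

end Crest.Agent.R096.Mno_534
end

-- ▼ part R096/Mno3_534

/-!
Row 96 (S0127), helper534.  **`MachGN p`** = the common target of the bottom half for the structure
map `G` (no `g`, no tolerances): `machAll_of : MachGN p → MachAll p` (on 527's OUT-ASM).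
-/

set_option autoImplicit false
set_option linter.style.longLine false
set_option linter.unusedVariables false

open MeasureTheory Set Filter Topology Metric
open scoped ENNReal

namespace Crest.Agent.R096.Mno_534

open Crest.Agent.R096.Brk3_582 Crest.Agent.R096.Brk5_582 Crest.Agent.R096.Bsp_628
open Crest.Agent.R096.Msh_715
open Crest.Agent.R096.SkC1_961 (E3 Hom3 FoamD Cfg NN)
open Crest.Agent.R096.SkN1_477
open Crest.Agent.R096.Mbf_337 (Star Cores Fine Levels Words)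
open Crest.Agent.R096.Nr_527 Crest.Agent.R096.Oa_527
open Crest.Agent.R096.Xp_537 (CC Expl)

section GF

variable {δ κ0 R c0 : ℝ} {La Om : Set E3} {ι : Type}

/-- the metric clauses for the structure map; in `lip` the number `N` is at least `μ` on the tiles
which touch a designated face -/
structure OutGF (C0 : ℝ) (C : Set (Set E3) → ℝ) (e : ℝ)
    (Φ : FoamD δ κ0 R c0 La) (T : Tiling Om ι) (f : E3 → E3) (X : Set Φ.F) (V : Φ.F → Set ι)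
    (ct : Φ.F → ι) (A : Φ.F → E3 ≃ᵃ[ℝ] E3) (lam : Φ.F → ℝ) (κ : Φ.F → ℕ) (L : Φ.F → Finset ℝ)
    (Ds : Set E3) (μ : ℝ) (G : E3 → E3) : Prop where
  lip : ∀ i, (∀ c, i ∉ V c) → ∀ B : E3 ≃ᵃ[ℝ] E3, ∀ N : ℝ, 0 ≤ N →
    NN Φ T f κ L i ≤ ENNReal.ofReal N → (TouchD T Ds i → μ ≤ N) → ∀ x ∈ I (T.H i), ∀ᶠ y in 𝓝 x,
      ‖G y - G x‖ ≤ C ((fun K => B '' K) '' Cfg T i) * N * ‖B y - B x‖
  core : ∀ c ∈ X, (∀ x ∈ I (T.H (ct c)), ∀ᶠ y in 𝓝 x,
      ‖G y - G x‖ ≤ C0 * (1 / lam c * ‖A c y - A c x‖)) ∧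
    ∃ W : Set E3, volume (W ∩ P (T.H (ct c))) ≤ ENNReal.ofReal e * volume (P (T.H (ct c))) ∧
      ∀ x ∈ I (T.H (ct c)), x ∉ W → ∀ᶠ y in 𝓝 x,
        ‖(G y - G x) - (1 / lam c) • (A c y - A c x)‖ ≤ e * (1 / lam c * ‖A c y - A c x‖)

/-- the conclusion of the machine for the structure map -/
structure GOutF (C0 : ℝ) (C : Set (Set E3) → ℝ) (e : ℝ)
    (Φ : FoamD δ κ0 R c0 La) (T : Tiling Om ι) (f : E3 → E3) (X : Set Φ.F) (J0 V : Φ.F → Set ι)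
    (ct : Φ.F → ι) (A : Φ.F → E3 ≃ᵃ[ℝ] E3) (lam : Φ.F → ℝ) (κ : Φ.F → ℕ) (L : Φ.F → Finset ℝ)
    (Ds : Set E3) (μ : ℝ) (G : E3 → E3) : Prop where
  expl : ∃ (Q : Type) (_ : PartialOrder Q) (𝒞 : CC La Q), Nonempty (Expl Om 𝒞 G)
  adj : ∀ x ∈ Om, (∃ c : Φ.F, x ∈ Mbf_337.KJ T (V c) ∧ G x ∈ Pc Φ.F c) ∨
    ∃ i, (∀ c, i ∉ J0 c) ∧ x ∈ P (T.H i) ∧ ∃ x0 ∈ P (T.H i), ∀ a : Φ.F,
      Φ.Psi (f x0) ∈ Pc Φ.F a → G x ∈ Pc Φ.F a
  met : OutGF C0 C e Φ T f X V ct A lam κ L Ds μ G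

theorem gOutF_of_gOut {C0 : ℝ} {C : Set (Set E3) → ℝ} {e : ℝ}
    {Φ : FoamD δ κ0 R c0 La} {T : Tiling Om ι} {f : E3 → E3} {X : Set Φ.F} {J0 V : Φ.F → Set ι}
    {ct : Φ.F → ι} {A : Φ.F → E3 ≃ᵃ[ℝ] E3} {lam : Φ.F → ℝ} {κ : Φ.F → ℕ} {L : Φ.F → Finset ℝ}
    {Ds : Set E3} {μ : ℝ} {G : E3 → E3} (h : GOut C0 C e Φ T f X J0 V ct A lam κ L G) :
    GOutF C0 C e Φ T f X J0 V ct A lam κ L Ds μ G :=
  ⟨h.expl, h.adj, fun i hi B N h0 hN _ => h.met.lip i hi B N h0 hN, h.met.core⟩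

end GF

/-- **the machine for the structure map** -/
def MachGN (p : ℝ) : Prop :=
  ∀ Λ e' : ℝ, 1 ≤ Λ → 0 < e' →
  ∃ η : ℝ, 0 < η ∧ ∃ Cu : Set (Set E3) → ℝ, (∀ 𝒦, 0 < Cu 𝒦) ∧
  ∀ δ κ0 R c0 κ2 κ3 : ℝ, 0 < δ → 1 ≤ κ0 → 1 ≤ R → 0 < c0 → 0 < κ2 → 8 ≤ κ3 →
  ∃ (C0 : ℝ) (C : Set (Set E3) → ℝ), 0 < C0 ∧ (∀ 𝒦, 0 < C 𝒦) ∧ ∀ e : ℝ, 0 < e →
  ∃ κp : ℝ, 0 < κp ∧ ∀ μ : ℝ, 0 < μ → μ ≤ κp → ∃ κ1 : ℝ, 0 < κ1 ∧
  ∀ (Om La : Set E3) (f : E3 → E3), IsOpen Om → Bornology.IsBounded Om → IsConnected Om →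
    IsOpen La → Bornology.IsBounded La → IsConnected La → Hom3 f Om La →
  ∀ (Φ : FoamD δ κ0 R c0 La) (ι : Type) (T : Tiling Om ι) (X : Set Φ.F) (J0 J V : Φ.F → Set ι)
    (ct : Φ.F → ι) (A : Φ.F → E3 ≃ᵃ[ℝ] E3) (lam : Φ.F → ℝ) (z : Φ.F → E3) (θ : Φ.F → E3 → E3)
    (φ : Φ.F → E3 → ℝ) (M : Φ.F → ℕ),
    Star Φ → Cores Φ T f κ1 κ2 X J0 J V ct A lam z θ φ → Fine Φ T f κ1 J0 →
  ∀ (Ds : Set E3) (B : E3 → E3 ≃ᵃ[ℝ] E3) (ν : ℝ) (a : Fin 2 → ℝ),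
    FaceD T (⋃ c, V c) Ds B Λ ν a →
  ∃ (Z : Φ.F → Set ℝ) (m0 : Φ.F → ℕ), (∀ c, volume (Z c) = 0) ∧
  ∀ (κ : Φ.F → ℕ) (L : Φ.F → Finset ℝ), Levels Φ T f κp μ κ3 Z m0 κ L →
    Words Φ T f X ct A lam z M L →
  ∃ (G : E3 → E3) (u : E3 → Φ.F → ℝ) (n : Set E3 → Φ.F → ℝ),
    GOutF C0 C e Φ T f X J0 V ct A lam κ L Ds ν G ∧
    GNO p Cu e' η Φ T f (⋃ c, V c) κ L Ds B ν a G u n

variable {δ κ0 R c0 : ℝ} {La Om : Set E3} {ι : Type} {Φ : FoamD δ κ0 R c0 La}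

/-- 527's `out_of` with the closeness of `g` and `G` -/
theorem out_of' {Q : Type*} [PartialOrder Q] (hOm : IsOpen Om) (hLa : IsOpen La)
    (hne : La.Nonempty) {C : CC La Q} {G f : E3 → E3} (E : Expl Om C G) {T : Tiling Om ι}
    (hf : Hom3 f Om La) (hA : Adj Φ.F Om f G) {X : Set Φ.F} {V : Φ.F → Set ι} {ct : Φ.F → ι}
    (hinj : InjOn ct X) {A : Φ.F → E3 ≃ᵃ[ℝ] E3} {lam : Φ.F → ℝ}
    (hlam : ∀ c ∈ X, 0 < lam c) {κ : Φ.F → ℕ} {L : Φ.F → Finset ℝ} {C0 C0' e e' : ℝ}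
    {Cs : Set (Set E3) → ℝ} (he' : e < e') (hC : C0 + (e' - e) ≤ C0')
    (hC' : 2 + R ≤ C0') {Ds : Set E3} {μ : ℝ} (hG : OutGF C0 Cs e Φ T f X V ct A lam κ L Ds μ G)
    {tol : ι → ℝ} (htol : ∀ i, 0 < tol i) :
    ∃ g : E3 → E3, SkN2_477.OutF C0' Cs e' Φ T f X V ct A lam κ L tol Ds μ g ∧
      (∀ i, ∀ x ∈ P (T.H i), ‖g x - G x‖ ≤ tol i) ∧
      ∀ i, ∀ x ∈ P (T.H i), ∀ᶠ y in 𝓝 x,
        ‖(g y - g x) - (G y - G x)‖ ≤ tol i * ‖y - x‖ := by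
  obtain ⟨tol', t1, t2, t3⟩ := exists_tolc' hinj A lam hlam (sub_pos.2 he') tol htol
  obtain ⟨g, g1, g2, -, g3, g4, g5⟩ := exists_g hOm hLa hne E T hf hA tol' t1
  have hl : ∀ c ∈ X, 0 < 1 / lam c := fun c hc => one_div_pos.2 (hlam c hc)
  refine ⟨g, ⟨g1, g2, fun x hx c hc => (g3 x hx c hc).trans
    (mul_le_mul_of_nonneg_right hC' (Bx.sz_pos (Φ.bf.pos _ c.2)).le), ?_, ?_⟩,
    fun i x hx => (g4 i x hx).trans (t2 i), fun i x hx => ?_⟩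
  · intro i hi B N hN hNN hNμ x hx
    filter_upwards [lip_add (hG.lip i hi B N hN hNN hNμ x hx) (g5 i x (I_sub_P _ hx))] with y hy
    exact hy.trans (by gcongr; exact t2 i)
  · intro c hc
    obtain ⟨h1, W, hW, h2⟩ := hG.core c hc
    refine ⟨fun x hx => ?_, W, hW.trans ?_, fun x hx hxW => ?_⟩
    · filter_upwards [core_add (h1 x hx) (g5 (ct c) x (I_sub_P _ hx)) (t3 c hc)] with y hy
      refine hy.trans (mul_le_mul_of_nonneg_right hC ?_)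
      have := hl c hc
      positivity
    · gcongr
    · filter_upwards [core_add' (h2 x hx hxW) (g5 (ct c) x (I_sub_P _ hx)) (t3 c hc)] with y hy
      simpa using hy
  · filter_upwards [g5 i x hx] with y hy
    exact hy.trans (mul_le_mul_of_nonneg_right (t2 i) (norm_nonneg _))

/-- **from the structure map to the homeomorphism** -/
theorem machAll_of {p : ℝ} (h : MachGN p) : MachAll p := by
  intro Λ e' hΛ he'
  obtain ⟨η, hη, Cu, hCu, h⟩ := h Λ e' hΛ he'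
  refine ⟨η, hη, Cu, hCu, ?_⟩
  intro δ κ0 R c0 κ2 κ3 hδ hκ0 hR hc0 hκ2 hκ3
  obtain ⟨C0, Cs, hC0, hCs, h⟩ := h δ κ0 R c0 κ2 κ3 hδ hκ0 hR hc0 hκ2 hκ3
  refine ⟨max (C0 + 1) (2 + R), Cs, lt_max_of_lt_left (by linarith), hCs, fun e he => ?_⟩
  obtain ⟨κp, hκp, h⟩ := h (max (e / 2) (e - 1)) (lt_max_of_lt_left (half_pos he))
  refine ⟨κp, hκp, fun μ hμ hμp => ?_⟩
  obtain ⟨κ1, hκ1, h⟩ := h μ hμ hμp
  obtain ⟨κs, hκs, hs⟩ := exists_small (κ0 := κ0) hδ (zero_lt_one.trans_le hR)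
    (zero_le_one.trans hκ0) hκ2
  refine ⟨min κ1 κs, lt_min hκ1 hκs, ?_⟩
  intro Om La f hOm hOmb hOmc hLa hLab hLac hf Φ ι T X J0 J V ct A lam z θ φ M hst hcr hF
    Ds B ν a hDs
  obtain ⟨Z, m0, hZ, h⟩ := h Om La f hOm hOmb hOmc hLa hLab hLac hf Φ ι T X J0 J V ct A lam z θ φ M
    hst (cores_mono (min_le_left _ _) hcr) (fine_mono (min_le_left _ _) hF) Ds B ν a hDs
  refine ⟨Z, m0, hZ, fun κ L hL hW tol htol => ?_⟩
  obtain ⟨G, u, n, ⟨⟨Q, hQ, 𝒞, ⟨hE⟩⟩, hadj, hmet⟩, hgn⟩ := h κ L hL hW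
  have hs' : Small δ κ0 R (min κ1 κs) κ2 := hs _ (lt_min hκ1 hκs).le (min_le_right _ _)
  have hA : Adj Φ.F Om f G := adj2 hLa hf hs' hcr hF hadj
  obtain ⟨g, hg, cl0, cl1⟩ := out_of' (C0' := max (C0 + 1) (2 + R)) (e' := e) hOm hLa
    hLac.nonempty hE hf hA (ct_inj hcr) (fun c hc => (hcr.exact_ c hc).lam0)
    (max_lt (half_lt_self he) (by linarith))
    (by
      refine le_trans ?_ (le_max_left _ _)
      have : e - 1 ≤ max (e / 2) (e - 1) := le_max_right _ _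
      linarith) (le_max_right _ _) hmet htol
  exact ⟨g, u, n, hg, hgn.outNO htol cl0 cl1⟩

end Crest.Agent.R096.Mno_534
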