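import Crest.Agent.R096.Fin7_147
import Crest.Agent.R096.Mfr1_487
import Crest.Agent.R096.Shg8_334
import Crest.Agent.R096.Gia7_537
import Crest.Agent.R096.Mi6_117
import Crest.Agent.R096.Onb2_63
import Crest.Agent.R096.Ecm8_446
import Crest.Agent.R096.Onb3_63_Mg
import Crest.Agent.R096.Mi7_117
import Crest.Agent.R096.Crb2_609
import Crest.Agent.R096.Be7_416
import Crest.Agent.R096.Nod1_714
import Crest.Agent.R096.Mch1_534

-- ▼ part R096/Fin9_147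
section

/-!
# R096 (row 96), bottom assembly, part 9 (helper147): from the seam `Front` (337) to the structure map

`front_out0` : `fin_stG` over 337's `Lp`: the blocks (2) levels, (4) MeshEx, (5) complex and cores,
(9) tiny cores, (11) sheets are proved from `Lay`, `Front`, `Cores`; the other blocks are hypotheses.
-/

set_option autoImplicit false
set_option linter.unusedSectionVars false
set_option linter.unusedVariables false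
set_option linter.style.longLine false

open Set Filter Topology Metric Module MeasureTheory Relation
open scoped ENNReal

namespace Crest.Agent.R096.Fin_147

open Crest.Agent.R096.Ce_537 (PLOn PLEquiv cube sph IsBall Cplx)
open Crest.Agent.R096.Bd_416 Crest.Agent.R096.Grd_714 Crest.Agent.R096.Mg_441
open Crest.Agent.R096.Xp_537 Crest.Agent.R096.Bin_181
open Crest.Agent.R096.Ar_241 (Tr0 TopC Exact cod SheetData)
open Crest.Agent.R096.Shp_334 (OnMesh Bls)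
open Crest.Agent.R096.Brk1_582 Crest.Agent.R096.Brk2_582 Crest.Agent.R096.Brk3_582
open Crest.Agent.R096.Brk5_582 Crest.Agent.R096.Brk6_582
open Crest.Agent.R096.Bsp_628
open Crest.Agent.R096.SkC1_961 (E3 Hom3 FoamD Cfg th NN)
open Crest.Agent.R096.Msh_715 Crest.Agent.R096.Nr_527 Crest.Agent.R096.Oa_527
open Crest.Agent.R096.Mbf_337 (KJ sb gau)
open Crest.Agent.R096.St_147 Crest.Agent.R096.Seq_213 Crest.Agent.R096.Seq_213.GSt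
  Crest.Agent.R096.Lm_117 Crest.Agent.R096.Ac_117 Crest.Agent.R096.Agl5_543
  Crest.Agent.R096.Ori_543 Crest.Agent.R096.Gm_298
  Crest.Agent.R096.Cp_298 Crest.Agent.R096.Gl_422 Crest.Agent.R096.SkB_662
open Crest.Agent.R096.Fl_835 (wk)
open Crest.Agent.R96.Nu7_199 (WE)
open Crest.Agent.R096.Mno_534 (FinG)
open Crest.Agent.R096.Init_543 (JJ fr3)
open Crest.Agent.R096.Frn_337 (Ti Lay Front Kcs pO Lp pO_ne cti rel_p)
open Crest.Agent.R096.Ecm_446 (nr sto_inj sto_lt sto_sur)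
open Crest.Agent.R096.Mfr_487 (Xc_Lp hKJ_Lp hKc_Lp hKX_Lp)

variable {δ κ0 R c0 : ℝ} {La Om : Set E3} {ι : Type} {Φ : FoamD δ κ0 R c0 La} {T : Tiling Om ι}
  {f : E3 → E3} {κ1 κ2 : ℝ} {X : Set Φ.F} {J0 Jt V : Φ.F → Set ι} {ct : Φ.F → ι}
  {A : Φ.F → E3 ≃ᵃ[ℝ] E3} {lam : Φ.F → ℝ} {z : Φ.F → E3} {θ : Φ.F → E3 → E3} {φ : Φ.F → E3 → ℝ}
  {Mm : Φ.F → ℕ} {ι3 : Type} {T3 : Tiling Om ι3} {KK : Ti X → Set E3} {c3 : ι → ι3}
  [Nonempty T3.Cell] {hH : ∀ k, CoreH T3 (KK k)}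
  {hdis : ∀ k k', k ≠ k' → Disjoint (KK k) (KK k')} {hne : ∃ c, OutK T3 KK c}
  {Lv : Φ.F → Finset ℝ} {Qd : Quads (ι3 ⊕ Ti X) Φ.F (Init_543.QK (Pc Φ.F))}
  {s₀ : GSt (mK fr3 hH hdis) (fun j : JJ Φ Lv => j.1)} {far₀ : JJ Φ Lv → Set E3}
  {Gc : Φ.F → Set E3} {Zc : Φ.F → Set (QK (belK T3 KK))}
  {lam₀ : JJ Φ Lv → QK (belK T3 KK) → ZMod 2} {v₀ v₁ : Φ.F → QK (belK T3 KK)}
  {κw : Φ.F → ℕ} {hfin : ∀ a, {j : JJ Φ Lv | j.1 = a}.Finite} {kap : Φ.F → ℕ}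
  {s : GSt (mK fr3 hH hdis) (fam' (fun j : JJ Φ Lv => j.1) (Rk κw kap))}
  {far : Nm' (fun j : JJ Φ Lv => j.1) (Rk κw kap) → Set E3} {β : E3 → E3}
  {lmf : Nm' (fun j : JJ Φ Lv => j.1) (Rk κw kap) →
    {c : QK (belK T3 KK) // pO T3 KK c3 ct c} → ZMod 2}

/-- there is a brick -/
theorem exists_brick (Φ : FoamD δ κ0 R c0 La) (hLa : IsOpen La) (hf : Hom3 f Om La) {x : E3}
    (hx : x ∈ Om) : Nonempty Φ.F := by
  obtain ⟨fi, h1, -⟩ := hf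
  obtain ⟨a, -⟩ := (foam Φ.bf hLa).cov _ (h1 hx)
  exact ⟨a⟩

set_option maxHeartbeats 1000000 in
/-- **FRONT -> BACK**, the blocks `tile`, `core`, `sq`, `arcs` being hypotheses -/
theorem front_out0 (hOm : IsOpen Om) (hLa : IsOpen La) (hf : Hom3 f Om La)
    (hs : Small δ κ0 R κ1 κ2)
    (hC : Mbf_337.Cores Φ T f κ1 κ2 X J0 Jt V ct A lam z θ φ)
    (hF : Mbf_337.Fine Φ T f κ1 J0) (hL : Lay Φ T X J0 Jt T3 KK c3)
    (hFr : Front T f J0 Jt V ct c3 hH hdis hne Qd s₀ far₀ Gc Zc lam₀ v₀ v₁)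
    -- the levels
    {κp μ κ3 : ℝ} {Zx : Φ.F → Set ℝ} {m0 : Φ.F → ℕ} (hR : 0 ≤ R) (h3 : 0 ≤ κ3)
    (hLv : Mbf_337.Levels Φ T f κp μ κ3 Zx m0 κw Lv)
    -- the final state
    (h : StO (Lp c3 ct hH hdis hne) (oriK fr3 hH hdis) (fun c => tauK T3 KK c.1) (RelM T3)
      (lmK fr3 hH hdis hne).W1 Qd κw s₀ far₀ (fun c => {v | v.1 ∈ Zc c})
      (fun j v => lam₀ j v.1) (fun c => sv (pO T3 KK c3 ct) (pO_ne hne) (v₀ c))
      (fun c => sv (pO T3 KK c3 ct) (pO_ne hne) (v₁ c)) hfin kap s far β lmf)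
    {hf1 : ∀ a, {j | h.cmb.fam j = a}.Finite} (hm : ∀ a, 0 < mm hf1 a)
    -- the mesh
    {Gf : Gd E3 (Nm' (fun j : JJ Φ Lv => j.1) (Rk κw kap))} {Pp : ∀ q, h.cmb.I q → Set E3}
    {cc : ∀ q, h.cmb.I q → E3 → ℝ} (H : Inv h.cmb (fun q => setK T3 KK q.1) univ Gf Pp cc)
    (hB : ∀ j, Bls h.cmb (fun q => setK T3 KK q.1) cc j)
    (hnp : ∀ c : Φ.F, (Pc Φ.F c).Nonempty)
    -- the numbers on the tiles
    {Ck Cs : Set (Set E3) → ℝ} (hCk : ∀ 𝒦, 0 ≤ Ck 𝒦) (hCs : ∀ 𝒦, 2 * R * κ3 * Ck 𝒦 ≤ Cs 𝒦)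
    (tile : ∀ i, (∀ c, i ∉ V c) → ∃ q : {c : QK (belK T3 KK) // pO T3 KK c3 ct c},
      setK T3 KK q.1 = P (T.H i) ∧
      (∀ e, e < q → dimK (belK T3 KK) (fun c => c.1.dim) e.1 = 1 →
        (Lp c3 ct hH hdis hne).toSk.On1 e ⊆ {y | y ∈ P (T.H i) ∧ T.dim y ≤ 1}) ∧
      ∀ (B : E3 ≃ᵃ[ℝ] E3) (x : h.cmb.I q), ∀ y ∈ setK T3 KK q.1,
        LB B (Ck ((fun K => B '' K) '' Cfg T i) *
          WE (Xc_Lp hC hL) h.cmb (wk κw kap (fun j : JJ Φ Lv => j.1)) q /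
          wk κw kap (fun j : JJ Φ Lv => j.1) (h.cmb.col q x)) (cc q x) (setK T3 KK q.1) y)
    -- the exact cores
    {κb : ℝ} (hκb : 0 < κb ∧ κb < 1) {bt : ℕ → ℝ} (hb0 : ∀ n, 0 < bt n) (hb2 : ∀ n, bt n < 1/2)
    {κf : ℝ} (hκf : κf = 1 - (1 - κb) * bet bt 4)
    {g0 : Gd E3 (Nm' (fun j : JJ Φ Lv => j.1) (Rk κw kap))} (Rr : Φ.F → E3 → E3)
    (core : ∀ a ∈ X, ∃ (U : PLEquiv (Kcs T KK ct a) (Pc Φ.F a))
      (e : PLEquiv (frontier (Kcs T KK ct a)) (bdP (Pc Φ.F) (bc (F := Φ.F)) (mm hf1) a)),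
      (∀ x ∈ Kcs T KK ct a, U.f x = Rr a (th (A a) (lam a) (z a) x)) ∧
      (∀ x ∈ Kcs T KK ct a, x ∈ frontier (Kcs T KK ct a) ↔
        U.f x ∈ bdP (Pc Φ.F) (bc (F := Φ.F)) (mm hf1) a) ∧
      (∀ x ∈ frontier (Kcs T KK ct a), e.f x = U.f x) ∧
      (∀ y ∈ bdP (Pc Φ.F) (bc (F := Φ.F)) (mm hf1) a, e.g y = U.g y) ∧
      (∀ x ∈ frontier (Kcs T KK ct a),
        EqAt (ekS (gr Φ hLa hnp hm) (bc (F := Φ.F)) κb (.top a) h.cmb.fam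
          (nr (Lp c3 ct hH hdis hne) s lmf h.fin1) e) g0 x) ∧
      (∀ x ∈ frontier (Kcs T KK ct a), EqAt (sqs g0 bt 4) Gf x) ∧
      ∀ x ∈ frontier (Kcs T KK ct a), ∃ q : {c : QK (belK T3 KK) // pO T3 KK c3 ct c},
        x ∈ setK T3 KK q.1 ∧ setK T3 KK q.1 ⊆ frontier (Kcs T KK ct a) ∧
          IsClosed (setK T3 KK q.1))
    {C0 e S sg : ℝ} (hSC : S < C0)
    (hS : ∀ a ∈ X, ∀ y ∈ a.1.set, ∀ y' ∈ a.1.set,
      ‖st (gr Φ hLa hnp hm) κf (Rr a y) - st (gr Φ hLa hnp hm) κf (Rr a y')‖ ≤ S * ‖y - y'‖)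
    (hs0 : κf ≤ sg) (hs1 : sg < 1) (he1 : 3 * sg ≤ e) (he2 : κf / (1 - κf) < e)
    (hRr : ∀ a ∈ X, ∀ u ∈ interior a.1.set,
      Rr a ((1 - sg) • u + sg • (gr Φ hLa hnp hm).b (.top a)) =
        (1 - sg) • u + sg • (gr Φ hLa hnp hm).b (.top a))
    -- the squares on the tiny cores
    (sq : ∀ a, a ∉ X → ∀ q : Gx (Pc Φ.F) (mm hf1), q.free.ncard = 2 → q.hi a = 0 →
      ∃ x, {w | w ∈ At_241.Sc (Lp c3 ct hH hdis hne) (cti X c3 ct) (fun q => setK T3 KK q.1) a ∧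
        gG (Tq (bc (F := Φ.F)) (mm hf1)) (merge hf1 Gf) w = (gr Φ hLa hnp hm).b (.gr q)} = {x})
    -- arcs
    (arcs : ∀ (G : E3 → E3) (Y : Tr0 Om (gr Φ hLa hnp hm) G),
      OnMesh Y (fun q : {c : QK (belK T3 KK) // pO T3 KK c3 ct c} => setK T3 KK q.1) Gf
        (Tq (bc (F := Φ.F)) (mm hf1))
        (XM Om (fun q : {c : QK (belK T3 KK) // pO T3 KK c3 ct c} => setK T3 KK q.1)) →
      Nonempty (Exact Y (fun _ => κf) (fun _ => 0)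
        (Ktc (hfin := hf1) (Pf := Pc Φ.F) (Kcs T KK ct))
        (XM Om (fun q : {c : QK (belK T3 KK) // pO T3 KK c3 ct c} => setK T3 KK q.1))) →
      ∀ q, cod (gr Φ hLa hnp hm) q = 1 →
      IsBall 1 (Y.F q ∩ XM Om (fun q : {c : QK (belK T3 KK) // pO T3 KK c3 ct c} => setK T3 KK q.1))
        (Y.F q ∩ XM Om (fun q : {c : QK (belK T3 KK) // pO T3 KK c3 ct c} => setK T3 KK q.1) ∩
          ⋃ c : TopC (Cel (Pc Φ.F) (mm hf1)),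
            Ktc (hfin := hf1) (Pf := Pc Φ.F) (Kcs T KK ct) c)) :
    ∃ G : E3 → E3, FinG Φ T f J0 V X (fun q : {c : QK (belK T3 KK) // pO T3 KK c3 ct c} =>
        setK T3 KK q.1) (gG (Tq (bc (F := Φ.F)) (mm hf1)) (merge hf1 Gf)) (Kcs T KK ct)
      (fun a x => st (gr Φ hLa hnp hm) κf (Rr a (th (A a) (lam a) (z a) x))) G ∧
      GOut C0 Cs e Φ T f X J0 V ct A lam κw Lv G := by
  have hκf1 : 0 < κf ∧ κf < 1 := by
    rw [hκf]; exact Xr_537.kf_pos hκb (bet_pos hb0 4) (bet_le hb0 hb2 4)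
  obtain ⟨a0⟩ := exists_brick Φ hLa hf (Classical.arbitrary T3.Cell).pt_mem
  have hdA : ∀ a a', a ≠ a' → Disjoint (Kcs T KK ct a) (Kcs T KK ct a') := fun a a' ha =>
    Gia_537.Kcs_disj hLa hC hL ha
  have keep : ∀ c ∈ X, P (T3.H (c3 (ct c))) = P (T.H (ct c)) := fun c hc => Onb_63.keep_ct hL hC hc
  have : Nonempty {c : QK (belK T3 KK) // pO T3 KK c3 ct c} := by
    obtain ⟨c, hc⟩ := pO_ne (c3 := c3) (ct := ct) hne
    exact ⟨⟨c, hc⟩⟩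
  refine fin_stG (n := 3) hOm hLa hf hs hC hF h rel_p hR h3 hLv (Mi_117.Front.hlev hFr) hm H
    (hFr.meshEx hLv.lf h) hnp (Xc_Lp hC hL) (hKJ_Lp hC hL) (hKc_Lp hL) hKX_Lp (.top a0) hCk hCs
    tile hκb hb0 hb2 hκf (lv := nr (Lp c3 ct hH hdis hne) s lmf h.fin1)
    (sto_inj h) (sto_lt h) (sto_sur h) Rr core hSC hS hs0 hs1 he1 he2 hRr
    (fun a ha => Gia_537.tiny_front hLa hf hs hC hL hFr hLv.lf h hm hnp (.top a0) H hB hκf1 ha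
      (sq a ha)) arcs ?_
  intro G Y hM hX
  exact Shg_334.front_sheets hFr hL.ball keep hdA hOm h H hB (Xc_Lp hC hL) hLa hm hnp G Y hM hX

end Crest.Agent.R096.Fin_147
end

-- ▼ part R096/Fin10_147
section

/-!
# R096 (row 96), bottom assembly, part 10 (helper147): the whole back half

* `front_out` : `front_out0` with the arcs and the squares of 241;
* `back_out` : from the seam `Lay` + `Front` (337) and the numbers to the structure map.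
-/

set_option autoImplicit false
set_option linter.unusedSectionVars false
set_option linter.unusedVariables false
set_option linter.style.longLine false

open Set Filter Topology Metric Module MeasureTheory Relation
open scoped ENNReal

namespace Crest.Agent.R096.Fin_147

open Crest.Agent.R096.Ce_537 (PLOn PLEquiv cube sph IsBall Cplx)
open Crest.Agent.R096.Bd_416 Crest.Agent.R096.Grd_714 Crest.Agent.R096.Mg_441
open Crest.Agent.R096.Xp_537 Crest.Agent.R096.Bin_181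
open Crest.Agent.R096.Ar_241 (Tr0 TopC Exact cod SheetData)
open Crest.Agent.R096.Shp_334 (OnMesh Bls)
open Crest.Agent.R096.Brk1_582 Crest.Agent.R096.Brk2_582 Crest.Agent.R096.Brk3_582
open Crest.Agent.R096.Brk5_582 Crest.Agent.R096.Brk6_582
open Crest.Agent.R096.Bsp_628
open Crest.Agent.R096.SkC1_961 (E3 Hom3 FoamD Cfg th NN)
open Crest.Agent.R096.Msh_715 Crest.Agent.R096.Nr_527 Crest.Agent.R096.Oa_527
open Crest.Agent.R096.Mbf_337 (KJ sb gau)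
open Crest.Agent.R096.St_147 Crest.Agent.R096.Seq_213 Crest.Agent.R096.Seq_213.GSt
  Crest.Agent.R096.Lm_117 Crest.Agent.R096.Ac_117 Crest.Agent.R096.Agl5_543
  Crest.Agent.R096.Ori_543 Crest.Agent.R096.Gm_298
  Crest.Agent.R096.Cp_298 Crest.Agent.R096.Gl_422 Crest.Agent.R096.SkB_662
open Crest.Agent.R096.Fl_835 (wk)
open Crest.Agent.R96.Nu7_199 (WE)
open Crest.Agent.R096.Mno_534 (FinG)
open Crest.Agent.R096.Init_543 (JJ fr3)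
open Crest.Agent.R096.Frn_337 (Ti Lay Front Kcs pO Lp pO_ne cti rel_p)
open Crest.Agent.R096.Ecm_446 (nr sto_inj sto_lt sto_sur)
open Crest.Agent.R096.Mfr_487 (Xc_Lp hKJ_Lp hKc_Lp hKX_Lp)
open Crest.Agent.R096.On_441 (Lf xlf)

variable {δ κ0 R c0 : ℝ} {La Om : Set E3} {ι : Type} {Φ : FoamD δ κ0 R c0 La} {T : Tiling Om ι}
  {f : E3 → E3} {κ1 κ2 : ℝ} {X : Set Φ.F} {J0 Jt V : Φ.F → Set ι} {ct : Φ.F → ι}
  {A : Φ.F → E3 ≃ᵃ[ℝ] E3} {lam : Φ.F → ℝ} {z : Φ.F → E3} {θ : Φ.F → E3 → E3} {φ : Φ.F → E3 → ℝ}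
  {Mm : Φ.F → ℕ} {ι3 : Type} {T3 : Tiling Om ι3} {KK : Ti X → Set E3} {c3 : ι → ι3}
  [Nonempty T3.Cell] {hH : ∀ k, CoreH T3 (KK k)}
  {hdis : ∀ k k', k ≠ k' → Disjoint (KK k) (KK k')} {hne : ∃ c, OutK T3 KK c}
  {Lv : Φ.F → Finset ℝ} {Qd : Quads (ι3 ⊕ Ti X) Φ.F (Init_543.QK (Pc Φ.F))}
  {s₀ : GSt (mK fr3 hH hdis) (fun j : JJ Φ Lv => j.1)} {far₀ : JJ Φ Lv → Set E3}
  {Gc : Φ.F → Set E3} {Zc : Φ.F → Set (QK (belK T3 KK))}
  {lam₀ : JJ Φ Lv → QK (belK T3 KK) → ZMod 2} {v₀ v₁ : Φ.F → QK (belK T3 KK)}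
  {κw : Φ.F → ℕ} {hfin : ∀ a, {j : JJ Φ Lv | j.1 = a}.Finite} {kap : Φ.F → ℕ}
  {s : GSt (mK fr3 hH hdis) (fam' (fun j : JJ Φ Lv => j.1) (Rk κw kap))}
  {far : Nm' (fun j : JJ Φ Lv => j.1) (Rk κw kap) → Set E3} {β : E3 → E3}
  {lmf : Nm' (fun j : JJ Φ Lv => j.1) (Rk κw kap) →
    {c : QK (belK T3 KK) // pO T3 KK c3 ct c} → ZMod 2}

set_option maxHeartbeats 1000000 in
/-- **FRONT -> BACK**, the blocks `tile` and `core` being hypotheses -/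
theorem front_out (hOm : IsOpen Om) (hLa : IsOpen La) (hf : Hom3 f Om La)
    (hs : Small δ κ0 R κ1 κ2)
    (hC : Mbf_337.Cores Φ T f κ1 κ2 X J0 Jt V ct A lam z θ φ)
    (hF : Mbf_337.Fine Φ T f κ1 J0) (hL : Lay Φ T X J0 Jt T3 KK c3)
    (hFr : Front T f J0 Jt V ct c3 hH hdis hne Qd s₀ far₀ Gc Zc lam₀ v₀ v₁)
    -- the levels
    {κp μ κ3 : ℝ} {Zx : Φ.F → Set ℝ} {m0 : Φ.F → ℕ} (hR : 0 ≤ R) (h3 : 0 ≤ κ3)
    (hLv : Mbf_337.Levels Φ T f κp μ κ3 Zx m0 κw Lv)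
    -- the final state
    (h : StO (Lp c3 ct hH hdis hne) (oriK fr3 hH hdis) (fun c => tauK T3 KK c.1) (RelM T3)
      (lmK fr3 hH hdis hne).W1 Qd κw s₀ far₀ (fun c => {v | v.1 ∈ Zc c})
      (fun j v => lam₀ j v.1) (fun c => sv (pO T3 KK c3 ct) (pO_ne hne) (v₀ c))
      (fun c => sv (pO T3 KK c3 ct) (pO_ne hne) (v₁ c)) hfin kap s far β lmf)
    {hf1 : ∀ a, {j | h.cmb.fam j = a}.Finite} (hm : ∀ a, 0 < mm hf1 a)
    -- the mesh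
    {Gf : Gd E3 (Nm' (fun j : JJ Φ Lv => j.1) (Rk κw kap))} {Pp : ∀ q, h.cmb.I q → Set E3}
    {cc : ∀ q, h.cmb.I q → E3 → ℝ} (H : Inv h.cmb (fun q => setK T3 KK q.1) univ Gf Pp cc)
    {Rb : Set {c : QK (belK T3 KK) // pO T3 KK c3 ct c}}
    (hRb : ∀ q ∈ Rb, dimK (belK T3 KK) (fun c => c.1.dim) q.1 ≤ 2)
    (MG : Mi_117.MGeo h.lfs (Lf lmf) (xlf h.lab.lab) (fun q => setK T3 KK q.1) Rb cc)
    (hnp : ∀ c : Φ.F, (Pc Φ.F c).Nonempty)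
    -- the numbers on the tiles
    {Ck Cs : Set (Set E3) → ℝ} (hCk : ∀ 𝒦, 0 ≤ Ck 𝒦) (hCs : ∀ 𝒦, 2 * R * κ3 * Ck 𝒦 ≤ Cs 𝒦)
    (tile : ∀ i, (∀ c, i ∉ V c) → ∃ q : {c : QK (belK T3 KK) // pO T3 KK c3 ct c},
      setK T3 KK q.1 = P (T.H i) ∧
      (∀ e, e < q → dimK (belK T3 KK) (fun c => c.1.dim) e.1 = 1 →
        (Lp c3 ct hH hdis hne).toSk.On1 e ⊆ {y | y ∈ P (T.H i) ∧ T.dim y ≤ 1}) ∧
      ∀ (B : E3 ≃ᵃ[ℝ] E3) (x : h.cmb.I q), ∀ y ∈ setK T3 KK q.1,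
        LB B (Ck ((fun K => B '' K) '' Cfg T i) *
          WE (Xc_Lp hC hL) h.cmb (wk κw kap (fun j : JJ Φ Lv => j.1)) q /
          wk κw kap (fun j : JJ Φ Lv => j.1) (h.cmb.col q x)) (cc q x) (setK T3 KK q.1) y)
    -- the exact cores
    {κb : ℝ} (hκb : 0 < κb ∧ κb < 1) {bt : ℕ → ℝ} (hb0 : ∀ n, 0 < bt n) (hb2 : ∀ n, bt n < 1/2)
    {κf : ℝ} (hκf : κf = 1 - (1 - κb) * bet bt 4)
    {g0 : Gd E3 (Nm' (fun j : JJ Φ Lv => j.1) (Rk κw kap))} (Rr : Φ.F → E3 → E3)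
    (core : ∀ a ∈ X, ∃ (U : PLEquiv (Kcs T KK ct a) (Pc Φ.F a))
      (e : PLEquiv (frontier (Kcs T KK ct a)) (bdP (Pc Φ.F) (bc (F := Φ.F)) (mm hf1) a)),
      (∀ x ∈ Kcs T KK ct a, U.f x = Rr a (th (A a) (lam a) (z a) x)) ∧
      (∀ x ∈ Kcs T KK ct a, x ∈ frontier (Kcs T KK ct a) ↔
        U.f x ∈ bdP (Pc Φ.F) (bc (F := Φ.F)) (mm hf1) a) ∧
      (∀ x ∈ frontier (Kcs T KK ct a), e.f x = U.f x) ∧
      (∀ y ∈ bdP (Pc Φ.F) (bc (F := Φ.F)) (mm hf1) a, e.g y = U.g y) ∧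
      (∀ x ∈ frontier (Kcs T KK ct a),
        EqAt (ekS (gr Φ hLa hnp hm) (bc (F := Φ.F)) κb (.top a) h.cmb.fam
          (nr (Lp c3 ct hH hdis hne) s lmf h.fin1) e) g0 x) ∧
      (∀ x ∈ frontier (Kcs T KK ct a), EqAt (sqs g0 bt 4) Gf x) ∧
      ∀ x ∈ frontier (Kcs T KK ct a), ∃ q : {c : QK (belK T3 KK) // pO T3 KK c3 ct c},
        x ∈ setK T3 KK q.1 ∧ setK T3 KK q.1 ⊆ frontier (Kcs T KK ct a) ∧
          IsClosed (setK T3 KK q.1))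
    {C0 e S sg : ℝ} (hSC : S < C0)
    (hS : ∀ a ∈ X, ∀ y ∈ a.1.set, ∀ y' ∈ a.1.set,
      ‖st (gr Φ hLa hnp hm) κf (Rr a y) - st (gr Φ hLa hnp hm) κf (Rr a y')‖ ≤ S * ‖y - y'‖)
    (hs0 : κf ≤ sg) (hs1 : sg < 1) (he1 : 3 * sg ≤ e) (he2 : κf / (1 - κf) < e)
    (hRr : ∀ a ∈ X, ∀ u ∈ interior a.1.set,
      Rr a ((1 - sg) • u + sg • (gr Φ hLa hnp hm).b (.top a)) =
        (1 - sg) • u + sg • (gr Φ hLa hnp hm).b (.top a)) :
    ∃ G : E3 → E3, FinG Φ T f J0 V X (fun q : {c : QK (belK T3 KK) // pO T3 KK c3 ct c} =>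
        setK T3 KK q.1) (gG (Tq (bc (F := Φ.F)) (mm hf1)) (merge hf1 Gf)) (Kcs T KK ct)
      (fun a x => st (gr Φ hLa hnp hm) κf (Rr a (th (A a) (lam a) (z a) x))) G ∧
      GOut C0 Cs e Φ T f X J0 V ct A lam κw Lv G := by
  have hdA : ∀ a a', a ≠ a' → Disjoint (Kcs T KK ct a) (Kcs T KK ct a') := fun a a' ha =>
    Gia_537.Kcs_disj hLa hC hL ha
  have keep : ∀ c ∈ X, P (T3.H (c3 (ct c))) = P (T.H (ct c)) := fun c hc => Onb_63.keep_ct hL hC hc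
  exact front_out0 hOm hLa hf hs hC hF hL hFr hR h3 hLv h hm H MG.bls hnp hCk hCs tile hκb hb0 hb2
    hκf Rr core hSC hS hs0 hs1 he1 he2 hRr
    (fun a _ q hq ha => At_241.front_sq hFr hFr.actO keep hdA hLv.lf h H (Xc_Lp hC hL) hRb MG hLa
      hm hnp a q hq ha)
    (At_241.front_arcs hFr hFr.actO keep hdA hLv.lf h H (Xc_Lp hC hL) hRb MG hLa hm hnp κf)

end Crest.Agent.R096.Fin_147
end

-- ▼ part R096/Crb4_609
section

/-!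
# R096 (row 96), helper609: CORE-BLOCK, part 4

`core_block_R` : the blocks `core`, `hS`, `hRr` of `Fin_147.fin_stG` over the final state, from 446's
`CoresR` and `base_R` (a single datum `g0`) and the last clause of the mesh.
-/

set_option autoImplicit false
set_option linter.unusedSectionVars false
set_option linter.unusedVariables false
set_option linter.style.longLine false

open Set Metric

namespace Crest.Agent.R096.Crb_609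

open Crest.Agent.R096.Ce_537 (PLOn PLEquiv plOn_affine)
open Crest.Agent.R096.Bd_416 Crest.Agent.R096.Grd_714
open Crest.Agent.R096.Xp_537 Crest.Agent.R096.Bin_181
open Crest.Agent.R096.Brk1_582 Crest.Agent.R096.Brk2_582 Crest.Agent.R096.Brk3_582
open Crest.Agent.R096.Brk5_582 Crest.Agent.R096.Brk6_582
open Crest.Agent.R096.Bsp_628
open Crest.Agent.R096.SkC1_961 (E3 Hom3 FoamD Cfg th NN)
open Crest.Agent.R096.Msh_715
open Crest.Agent.R096.Cin_181 (thC thA thI thA_eq thI_th th_thI)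
open Crest.Agent.R096.Fin_147 (gr fmJ)
open Crest.Agent.R096.Be_416 (ug ug_eqAt eqAt_sqs)
open Crest.Agent.R096.St_147 Crest.Agent.R096.Seq_213 Crest.Agent.R096.Seq_213.GSt
  Crest.Agent.R096.Lm_117 Crest.Agent.R096.Ac_117 Crest.Agent.R096.Gl_422
  Crest.Agent.R096.Mg_441 Crest.Agent.R096.Lab_184 Crest.Agent.R096.Agl5_543
  Crest.Agent.R096.Cp_298 Crest.Agent.R096.SkB_662
open Crest.Agent.R096.Ecm_446 (CoresR gbR chR Dk nr Nod NNt exists_dk dk_sub_frontier)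

variable {δ κ0 R c0 : ℝ} {La Om : Set E3} {ι : Type} {Φ : FoamD δ κ0 R c0 La} {T : Tiling Om ι}
  {f : E3 → E3} {κ1 κ2 : ℝ}
variable {ι' Fc Q J K : Type} [PartialOrder Q] {dim : Q → ℕ} {Mc : MeshC ι' Fc E3}
  {L : LM Mc Q dim} {κ : Q → T.Cell}
variable {O : Ori Mc} {σ : Q → ZMod 2} {Rel : E3 → E3 → Prop} {VV : Set E3}
  {Qd : Quads ι' Φ.F K} {κc : Φ.F → ℕ} {fam : J → Φ.F} {s₀ : GSt Mc fam} {far₀ : J → Set E3}
  {Z : Φ.F → Set Q} {lam₀ : J → Q → ZMod 2} {v₀ v₁ : Φ.F → Q}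
  {hfin : ∀ a, {j | fam j = a}.Finite} {kap : Φ.F → ℕ} {s : GSt Mc (fam' fam (Rk κc kap))}
  {far : Nm' fam (Rk κc kap) → Set E3} {β : E3 → E3} {lab : Nm' fam (Rk κc kap) → Q → ZMod 2}
variable {X : Set Φ.F} {ct : Φ.F → ι} {A : Φ.F → E3 ≃ᵃ[ℝ] E3} {lam : Φ.F → ℝ} {z : Φ.F → E3}
  {M : Φ.F → ℕ} {t : J → ℝ} {κb : ℝ} {n : Φ.F → Φ.F → ℕ → ℝ}

/-- the nodes of 446's `CoresR` -/
theorem nodeOK_of (H : CoresR Φ T f κ1 κ2 L κ Qd κc s₀ Z lam₀ v₀ kap X ct A lam z M t κb n hfin)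
    {sg : ℝ} {c : Φ.F} (hc : c ∈ X)
    (near : ∀ a : Φ.F, (Pc Φ.F a ∩ Pc Φ.F c).Nonempty →
      (∀ i < M c, n c a (i + 1) - n c a i ≤
        4 * mm (fin_copies (Rk κc kap) hfin) a / M c) ∧
      (∀ j ≤ M c, |n c a j / mm (fin_copies (Rk κc kap) hfin) a -
        (j : ℝ) / M c| ≤ sg / 2) ∧
      1 ≤ sg / 2 * mm (fin_copies (Rk κc kap) hfin) a) :
    NodeOK Φ (mm (fin_copies (Rk κc kap) hfin)) sg c (M c) (n c) :=
  ⟨(H.gr c hc).1, (H.nd c hc).mono, (H.nd c hc).zero, (H.nd c hc).top, near⟩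

/-- **CORE-BLOCK over the final state** (446's base of all exact cores) -/
theorem core_block_R
    (h : StO L O σ Rel VV Qd κc s₀ far₀ Z lam₀ v₀ v₁ hfin kap s far β lab)
    (hLa : IsOpen La) (hδ : 0 < δ) (hR : 0 < R)
    (hne : ∀ c, (Pc Φ.F c).Nonempty)
    (hm : ∀ a, 0 < mm (fin_copies (Rk κc kap) hfin) a)
    (H : CoresR Φ T f κ1 κ2 L κ Qd κc s₀ Z lam₀ v₀ kap X ct A lam z M t κb n hfin)
    {g0 Gf : Gd E3 (Nm' fam (Rk κc kap))}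
    (hb : ∀ c : X, ∀ x ∈ frontier (P (T.H (ct c))),
      EqAt (gbR hLa hne hm (fun a => .top a) (nr L s lab h.fin1) H c) g0 x)
    {sg κf : ℝ} (hs : 0 < sg) (hs1 : sg < 1) (hκf : 0 < κf) (hκs : 2 * κf ≤ sg)
    (near : ∀ c ∈ X, ∀ a : Φ.F, (Pc Φ.F a ∩ Pc Φ.F c).Nonempty →
      (∀ i < M c, n c a (i + 1) - n c a i ≤
        4 * mm (fin_copies (Rk κc kap) hfin) a / M c) ∧
      (∀ j ≤ M c, |n c a j / mm (fin_copies (Rk κc kap) hfin) a -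
        (j : ℝ) / M c| ≤ sg / 2) ∧
      1 ≤ sg / 2 * mm (fin_copies (Rk κc kap) hfin) a)
    {Kc : Φ.F → Set E3} (hKX : ∀ a ∈ X, Kc a = P (T.H (ct a))) {bt : ℕ → ℝ} {k : ℕ}
    (hg : ∀ c : X, ∀ q ∈ Dk (ct c) κ, ∀ x ∈ (κ q).set, EqAt (sqs g0 bt k) Gf x) :
    ∃ Rr : Φ.F → E3 → E3,
      (∀ a ∈ X, ∃ (U : PLEquiv (Kc a) (Pc Φ.F a))
        (e : PLEquiv (frontier (Kc a)) (bdP (Pc Φ.F) (bc (F := Φ.F))
          (mm (fin_copies (Rk κc kap) hfin)) a)),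
        (∀ x ∈ Kc a, U.f x = Rr a (th (A a) (lam a) (z a) x)) ∧
        (∀ x ∈ Kc a, x ∈ frontier (Kc a) ↔ U.f x ∈ bdP (Pc Φ.F) (bc (F := Φ.F))
          (mm (fin_copies (Rk κc kap) hfin)) a) ∧
        (∀ x ∈ frontier (Kc a), e.f x = U.f x) ∧
        (∀ y ∈ bdP (Pc Φ.F) (bc (F := Φ.F))
          (mm (fin_copies (Rk κc kap) hfin)) a, e.g y = U.g y) ∧
        (∀ x ∈ frontier (Kc a),
          EqAt (ekS (gr Φ hLa hne hm) (bc (F := Φ.F)) κb (.top a) h.cmb.fam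
            (nr L s lab h.fin1) e) g0 x) ∧
        (∀ x ∈ frontier (Kc a), EqAt (sqs g0 bt k) Gf x) ∧
        ∀ x ∈ frontier (Kc a), ∃ q, x ∈ (κ q).set ∧ (κ q).set ⊆ frontier (Kc a) ∧
          IsClosed (κ q).set) ∧
      (∀ a ∈ X, ∀ y ∈ a.1.set, ∀ y' ∈ a.1.set,
        ‖st (gr Φ hLa hne hm) κf (Rr a y) - st (gr Φ hLa hne hm) κf (Rr a y')‖ ≤
          Rpk_714.Spk δ κ0 R * ‖y - y'‖) ∧
      (∀ a ∈ X, ∀ u ∈ interior a.1.set,
        Rr a ((1 - sg) • u + sg • (gr Φ hLa hne hm).b (.top a)) =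
          (1 - sg) • u + sg • (gr Φ hLa hne hm).b (.top a)) :=
  core_block (Q := Q) hLa hδ hR H.ex hm hne hs hs1 hκf hκs (fun a ha => nodeOK_of H ha (near a ha)) hKX
    (K := fun q => (κ q).set) (D := fun a => Dk (ct a) κ)
    (fun a ha x hx => exists_dk (H.st a ha).full hx)
    (fun a ha q hq => ⟨dk_sub_frontier hq, by
      rw [(κ q).set_eq]; exact (T.isCompact_cc (κ q).pt_mem).isClosed⟩)
    (fun a ha q hq x hx => hb ⟨a, ha⟩ x (dk_sub_frontier hq hx))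
    (fun a ha q hq x hx => hg ⟨a, ha⟩ q hq x hx)

end Crest.Agent.R096.Crb_609
end

-- ▼ part R096/Mch2_534

/-!
# R096 (row 96), MachNO (helper534): the composition for given data

`data_out` : `Lay` + `Front` + `MeshLp` (+ numbers) ⟹ `GOutF` and `GNO` for one structure map;
`dataP` : 689's `DataP p (MeshLp p)`.
-/

set_option autoImplicit false
set_option linter.unusedSectionVars false
set_option linter.unusedVariables false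
set_option linter.style.longLine false

open Set Metric Filter Topology Module MeasureTheory

namespace Crest.Agent.R096.Mno_534

open Crest.Agent.R096.Brk1_582 Crest.Agent.R096.Brk2_582 Crest.Agent.R096.Brk3_582
open Crest.Agent.R096.Brk5_582 Crest.Agent.R096.Bsp_628
open Crest.Agent.R096.Bd_416 Crest.Agent.R096.Grd_714 Crest.Agent.R096.Mg_441
open Crest.Agent.R096.St_147 Crest.Agent.R096.Seq_213 Crest.Agent.R096.Seq_213.GSt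
open Crest.Agent.R096.Lm_117 Crest.Agent.R096.Ac_117 Crest.Agent.R096.Msh_715
open Crest.Agent.R096.Cp_298 Crest.Agent.R096.Gm_298 Crest.Agent.R096.Gl_422
open Crest.Agent.R096.SkB_662 Crest.Agent.R096.Cpo_642
open Crest.Agent.R096.Agl5_543 Crest.Agent.R096.Ori_543
open Crest.Agent.R096.Init_543 (JJ fr3)
open Crest.Agent.R096.Ce_537 (PLEquiv IsBall Cplx)
open Crest.Agent.R096.SkC1_961 (E3 Hom3 FoamD Cfg th NN)
open Crest.Agent.R096.SkN1_477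
open Crest.Agent.R096.Mbf_337 (KJ sb)
open Crest.Agent.R096.Frn_337
open Crest.Agent.R096.On_441
open Crest.Agent.R096.Csub_487
open Crest.Agent.R096.Fl_835 (wk)
open Crest.Agent.R96.Nu7_199 (WE)
open Crest.Agent.R096.Mi_117
open Crest.Agent.R096.Be_416 (BaseC Kbase wts)
open Crest.Agent.R096.Fin_147 (Xout)
open Crest.Agent.R096.Ecm_446 (CoresR gbR chR Dk nr Nod NNt exists_dk dk_sub_frontier base_R)
open Crest.Agent.R096.Num_689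
open Crest.Agent.R096.Xp_537 (gG)

variable {δ κ0 R c0 : ℝ} {La Om : Set E3} {ι : Type} {Φ : FoamD δ κ0 R c0 La} {T : Tiling Om ι}
  {f : E3 → E3} {κ1 κ2 : ℝ} {X : Set Φ.F} {J0 J V : Φ.F → Set ι} {ct : Φ.F → ι}
  {A : Φ.F → E3 ≃ᵃ[ℝ] E3} {lam : Φ.F → ℝ} {z : Φ.F → E3} {θ : Φ.F → E3 → E3} {φ : Φ.F → E3 → ℝ}
  {M : Φ.F → ℕ}

open scoped Classical in
set_option maxHeartbeats 2000000 in
/-- **the composition for given data** -/
theorem data_out {p Λ e' η β0 ε₁ KN : ℝ} (hε1 : ε₁ < 1) (hKN : 0 ≤ KN)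
    (hMn : MeshLp p Λ e' η β0 ε₁ KN)
    (hδ : 0 < δ) (hR : 1 ≤ R) {κ3 : ℝ} (hκ3 : 8 ≤ κ3)
    {e κb κf sg : ℝ} {bt : ℕ → ℝ} (hK : NumK β0 e κb κf sg bt)
    {κp μ : ℝ} (hE : NumE δ κ0 R κ2 sg κp μ κ1)
    (hOm : IsOpen Om) (hLa : IsOpen La) (hf : Hom3 f Om La)
    (hC : Mbf_337.Cores Φ T f κ1 κ2 X J0 J V ct A lam z θ φ) (hFi : Mbf_337.Fine Φ T f κ1 J0)
    {Ds : Set E3} {B : E3 → E3 ≃ᵃ[ℝ] E3} {ν : ℝ} {a : Fin 2 → ℝ}
    (hDs : FaceD T (⋃ c, V c) Ds B Λ ν a)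
    {Z : Φ.F → Set ℝ} {m0 : Φ.F → ℕ}
    (hm0 : ∀ c b : Φ.F, (Pc Φ.F b ∩ Pc Φ.F c).Nonempty → M c ≤ m0 b ∧ 4 / (sg / 2) ≤ m0 b)
    {κ : Φ.F → ℕ} {L : Φ.F → Finset ℝ} (hLv : Mbf_337.Levels Φ T f κp μ κ3 Z m0 κ L)
    (hW : Mbf_337.Words Φ T f X ct A lam z M L)
    {ι3 : Type} {T3 : Tiling Om ι3} {KK : Ti X → Set E3} {c3 : ι → ι3} [Nonempty T3.Cell]
    {hH : ∀ k, CoreH T3 (KK k)} {hdis : ∀ k k', k ≠ k' → Disjoint (KK k) (KK k')}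
    {hne : ∃ c, OutK T3 KK c}
    {Qd : Quads (ι3 ⊕ Ti X) Φ.F (Init_543.QK (Pc Φ.F))}
    {s₀ : GSt (mK fr3 hH hdis) (fun j : JJ Φ L => j.1)} {far₀ : JJ Φ L → Set E3}
    {Gc : Φ.F → Set E3} {Zc : Φ.F → Set (QK (belK T3 KK))}
    {lam₀ : JJ Φ L → QK (belK T3 KK) → ZMod 2} {v₀ v₁ : Φ.F → QK (belK T3 KK)}
    (hL : Lay Φ T X J0 J T3 KK c3)
    (hF : Front T f J0 J V ct c3 hH hdis hne Qd s₀ far₀ Gc Zc lam₀ v₀ v₁) :
    ∃ (G : E3 → E3) (u : E3 → Φ.F → ℝ) (n : Set E3 → Φ.F → ℝ),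
      GOutF (C0n δ κ0 R) (Csn KN ε₁ δ R κ3) e Φ T f X J0 V ct A lam κ L Ds ν G ∧
      GNO p (Cun KN ε₁) e' η Φ T f (⋃ c, V c) κ L Ds B ν a G u n := by
  have hR0 : 0 < R := zero_lt_one.trans_le hR
  -- the final state
  obtain ⟨kap, s, far, β, lm, hO⟩ := exists_out (hF.stI hLv.lf)
  have hnp : ∀ c : Φ.F, (Pc Φ.F c).Nonempty := fun c => Fin_147.ne_Pc c
  have hm : ∀ a, 0 < mm (fin_copies (Rk κ kap) (jj_finite L)) a :=
    Fin_147.mm_pos_final hO hLv _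
  -- the exact cores
  obtain ⟨nd, HR, hNO⟩ := Onb_63.Front.coresR_nodeOK hLa hL hC hW hLv hE.μ0 hF (jj_finite L) kap
    hK.kb0 (by linarith [hK.kb2]) hE.κp0.le hK.sg0 hK.sglt (by linarith [hE.κps])
    (fun c hc b hb => ⟨(hm0 c b hb).1, by
      have h1 := (hm0 c b hb).2
      have h2 : 4 / (sg / 2) = 8 / sg := by
        have := hK.sg0.ne'
        field_simp
        norm_num
      rwa [h2] at h1⟩)
  have hKs : (fun q : {c : QK (belK T3 KK) // pO T3 KK c3 ct c} => setK T3 KK q.1) =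
      fun q => (celK T3 KK (tlX X c3 ct) q).set := funext fun q => celK_set _ q
  have hI := cellIx_p (T3 := T3) (KK := KK) (c3 := c3) (ct := ct)
  have hXc := Mfr_487.Xc_Lp hC hL
  obtain ⟨g0, P0, c00, hB, hE0⟩ := base_R (hF.stI hLv.lf) hO hLa hδ hR0 onT_p (hKs ▸ hXc)
    (fun q => by
      have h1 := hI.bd q
      rw [hKs] at h1
      rw [h1]; exact congrArg (fun S : Set E3 => S \ R96.Nu3_199.ri S) (celK_set _ q)) hnp hm
    (fun j => (Onb_63.lv_mem hLv hE.μ0 j).2) ⟨hK.kb0, hK.kb.2⟩ (fun a => .top a) HR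
  rw [← hKs] at hB
  have hB' := hB.of_Kbase hδ hR0 hK.kb2 (fun j => by positivity)
  set Rb : Set {c : QK (belK T3 KK) // pO T3 KK c3 ct c} :=
    ⋃ c : X, Dk (c3 (ct c)) (celK T3 KK (tlX X c3 ct)) with hRbdef
  have hRb : ∀ q ∈ Rb, ∃ c ∈ X, setK T3 KK q.1 ⊆ P (T.H (ct c)) := by
    intro q hq
    obtain ⟨c, hc⟩ := mem_iUnion.1 hq
    refine ⟨c, c.2, ?_⟩
    have h1 : setK T3 KK q.1 = (celK T3 KK (tlX X c3 ct) q).set := celK_set _ q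
    rw [h1, ← Lay.keepX hL hC c.2]
    exact hc.1
  have hRb2 : ∀ q ∈ Rb, dimK (belK T3 KK) (fun c => c.1.dim) q.1 ≤ 2 := by
    intro q hq
    obtain ⟨c, hc⟩ := mem_iUnion.1 hq
    have h1 := hI.dim_eq q
    rw [h1]
    exact hc.2
  -- the mesh
  obtain ⟨δt, hδt, hδt2, Gf, Pp, cc, H, MG, ⟨g1, P1, cc1, SpecX, hT⟩, hEq, hFace⟩ :=
    hMn hC hL hO hXc hK.bβ hK.b2 (K1n_nonneg hδ hR0) hRb hB' Ds B ν a hDs
  have tile := Mxo_487.tile_clauseX (V := V) hO hXc Mfr_487.cellIx_Lp Mfr_487.onT_Lp hK.b4 le_rfl hε1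
    (K1n_nonneg hδ hR0) hKN hδt hδt2 hT (Mfr_487.hord_Lp hC hL)
  -- the cores
  have hfr : ∀ c : X, frontier (P (T3.H (c3 (ct c)))) = frontier (Kcs T KK ct c) := by
    intro c
    rw [Mi_117.kcs_X c.2, Lay.keepX hL hC c.2]
  obtain ⟨Rr, core, hS, hRr⟩ := Crb_609.core_block_R hO hLa hδ hR0 hnp hm HR
    (g0 := g0) (Gf := Gf) (fun c x hx => (hE0 c x hx).1) hK.sg0 hK.sglt hK.kf0
    (by linarith [hK.kf2]) (fun c hc => (hNO c hc).near)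
    (Kc := Kcs T KK ct) (fun a ha => by rw [Mi_117.kcs_X ha, Lay.keepX hL hC ha])
    (bt := bt) (k := 4) (fun c q hq x hx => by
      have h1 : setK T3 KK q.1 = (celK T3 KK (tlX X c3 ct) q).set := celK_set _ q
      exact hEq q (mem_iUnion.2 ⟨c, hq⟩) x (by rw [h1]; exact hx))
  -- the structure map
  obtain ⟨G, hG, hGO⟩ := Fin_147.front_out hOm hLa hf hE.small hC hFi hL hF hR0.le
    (by linarith : (0:ℝ) ≤ κ3) hLv hO hm H hRb2 MG hnp (Ckn_nonneg (ε₁ := ε₁) (δ := δ) (R := R) hKN)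
    (Csn_le (KN := KN) (ε₁ := ε₁) (δ := δ) (R := R) (κ3 := κ3)) tile
    hK.kb hK.b0 hK.b2 hK.kf Rr (by
      intro a ha
      obtain ⟨U, e1, a1, a2, a3, a4, a5, a6, a7⟩ := core a ha
      refine ⟨U, e1, a1, a2, a3, a4, a5, a6, fun x hx => ?_⟩
      obtain ⟨q, h1, h2, h3⟩ := a7 x hx
      have h4 : setK T3 KK q.1 = (celK T3 KK (tlX X c3 ct) q).set := celK_set _ q
      exact ⟨q, by rw [h4]; exact h1, by rw [h4]; exact h2, by rw [h4]; exact h3⟩)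
    (lt_C0n δ κ0 R) hS hK.kfs hK.sglt hK.e1 hK.e2 hRr
  refine ⟨G, uu hO.fin1 Gf, Mna_747.nn hO.cmb (fun c => setK T3 KK c.1) (Rk κ kap),
    gOutF_of_gOut hGO, ?_⟩
  have hFin := Mxo_487.finNO_mesh hLa hC hL hF hLv hO hm hXc hK.b4 le_rfl hε1 hKN hδt hδt2 H hT hRb
    (CuF_pos (ε₁ := ε₁) hKN) (CuF_le (KN := KN) (ε₁ := ε₁)) hG.mesh Ds ν
  exact hFin.gno hFace

/-- **689's `DataP`** -/
theorem dataP (p : ℝ) : DataP p (MeshLp p) := by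
  intro Λ e' η β0 ε₁ KN hΛ he' hη hβ0 hβ0' hε0 hε1 hKN hMn δ κ0 R c0 κ2 κ3 hδ hκ0 hR hc0 hκ2 hκ3
    e κb κf sg bt he hK κp μ hκp hκp1 hκp2 hμ hμp
  refine ⟨1, one_pos, fun κ1 hκ1 _ hE => ?_⟩
  intro Om La f hOm hOmb hOmc hLa hLab hLac hf Φ ι T X J0 J V ct A lam z θ φ M hst hcr hfi
    Ds B ν a hDs
  refine ⟨fun _ => ∅, fun _ => 0, fun _ => measure_empty, fun Z m0 _ _ hm0 κ L hL hW hFr => ?_⟩
  obtain ⟨ι3, T3, KK, c3, hNe, hH, hdis, hne, Qd, s₀, far₀, Gc, Zc, lam₀, v₀, v₁, hLay, hF⟩ := hFr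
  exact data_out hε1 hKN hMn hδ hR hκ3 hK hE hOm hLa hf hcr hfi hDs hm0 hL hW hLay hF


end Crest.Agent.R096.Mno_534
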