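import Crest.Agent.R096.Fns4_360

-- ▼ part R096/Mdd1_360
section

/-!
Row 96 (S0127), helper360.  MD-DATA, part 1: the core block (`CB E3 3` of 874) of an exact affine core.

* `psA A t` = `t⁻¹ • A.linear`;
* **`mkCB Q A lam u kc S w`** : the block of the core `A⁻¹' cbx Q lam` in lattice units: one unit of
  the shell is `u / 2^kc` in the target, `lam u / 2^kc` in the `A`-coordinates;
* `mkCB_ps`, **`mkCB_Kc`**, **`mkCB_N`**, `mkCB_uA`.
-/

set_option autoImplicit false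
set_option linter.style.longLine false
set_option linter.unusedSectionVars false

open MeasureTheory Set Filter Topology Metric

namespace Crest.Agent.R096.Mdd_360

open Crest.Agent.R096.Bsp_628
open Crest.Agent.R096.SkC1_961 (E3)
open Crest.Agent.R096.EaX_766 (cbx RatA)
open Crest.Agent.R096.Bxs_627 (ctr CoriE)
open Crest.Agent.R096.Mal_874 Crest.Agent.R096.Msh_810

noncomputable section

/-- the frame `t⁻¹ • A.linear` -/
def psA (A : E3 ≃ᵃ[ℝ] E3) (t : ℝ) (ht : t ≠ 0) : E3 ≃L[ℝ] (Fin 3 → ℝ) :=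
  (A.linear.trans (LinearEquiv.smulOfNeZero ℝ E3 t⁻¹ (inv_ne_zero ht))).toContinuousLinearEquiv

theorem psA_apply (A : E3 ≃ᵃ[ℝ] E3) (t : ℝ) (ht : t ≠ 0) (x : E3) (l : Fin 3) :
    psA A t ht x l = t⁻¹ * A.linear x l := rfl

theorem lin_val (A : E3 ≃ᵃ[ℝ] E3) (x : E3) (l : Fin 3) : A.linear x l = A x l - A 0 l := by
  have h := A.toAffineMap.linearMap_vsub x 0
  rw [vsub_eq_sub, vsub_eq_sub, sub_zero] at h
  have h2 := congrFun h l
  exact h2

theorem lin_dif (A : E3 ≃ᵃ[ℝ] E3) (x y : E3) : A.linear (x - y) = A x - A y := by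
  have h := A.toAffineMap.linearMap_vsub x y
  rw [vsub_eq_sub, vsub_eq_sub] at h
  exact h

variable (Q : Bx (Fin 3)) (A : E3 ≃ᵃ[ℝ] E3) {lam u : ℝ} (hl : 0 < lam) (hu : 0 < u) (kc : ℕ)
  (hkc : 3 ≤ kc) (S : PS 3) (w : ℤ) (hw : S.t + 10 ≤ w)

/-- **the block of the exact core `A⁻¹' cbx Q lam`** -/
def mkCB : CB E3 3 where
  ψ := psA A (lam * u) (mul_pos hl hu).ne'
  a' := fun l => (ctr Q l - lam * Q.side l / 2 - A 0 l) / (lam * u) - S.lo l / 2 ^ kc
  kc := kc
  S := S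
  w := w
  hkc := hkc
  hw := hw

theorem mkCB_ps (y : E3) (l : Fin 3) :
    ps (mkCB Q A hl hu kc hkc S w hw).a' (mkCB Q A hl hu kc hkc S w hw).kc
      ((mkCB Q A hl hu kc hkc S w hw).ψ y) l =
    S.lo l + 2 ^ kc * (A y l - (ctr Q l - lam * Q.side l / 2)) / (lam * u) := by
  have hp : (2 : ℝ) ^ kc ≠ 0 := by positivity
  have hlu : lam * u ≠ 0 := (mul_pos hl hu).ne'
  change 2 ^ kc * (psA A (lam * u) hlu y l -
    ((ctr Q l - lam * Q.side l / 2 - A 0 l) / (lam * u) - S.lo l / 2 ^ kc)) = _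
  rw [psA_apply, lin_val]
  field_simp
  ring

/-- **the core of the block is the exact core** -/
theorem mkCB_Kc (hS : ∀ l, u * ((S.hi l : ℝ) - S.lo l) = 2 ^ kc * Q.side l) :
    (mkCB Q A hl hu kc hkc S w hw).Kc = A ⁻¹' cbx Q lam := by
  ext y
  have hp : (0 : ℝ) < 2 ^ kc := by positivity
  have hlu : 0 < lam * u := mul_pos hl hu
  change (∀ l, (S.lo l : ℝ) ≤ ps (mkCB Q A hl hu kc hkc S w hw).a' (mkCB Q A hl hu kc hkc S w hw).kc
      ((mkCB Q A hl hu kc hkc S w hw).ψ y) l ∧ ps (mkCB Q A hl hu kc hkc S w hw).a'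
        (mkCB Q A hl hu kc hkc S w hw).kc ((mkCB Q A hl hu kc hkc S w hw).ψ y) l ≤ S.hi l) ↔
    ∀ l, |A y l - ctr Q l| ≤ lam * Q.side l / 2
  refine forall_congr' fun l => ?_
  rw [mkCB_ps, abs_le]
  have e : (S.hi l : ℝ) - S.lo l = 2 ^ kc * Q.side l / u := by
    rw [← hS l]; field_simp
  have h1 : ((S.lo l : ℝ) ≤ S.lo l + 2 ^ kc * (A y l - (ctr Q l - lam * Q.side l / 2)) / (lam * u)) ↔
      0 ≤ A y l - (ctr Q l - lam * Q.side l / 2) := by
    rw [le_add_iff_nonneg_right]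
    constructor
    · intro h
      by_contra hc
      push Not at hc
      exact absurd h (not_le.2 (div_neg_of_neg_of_pos (mul_neg_of_pos_of_neg hp hc) hlu))
    · exact fun h => div_nonneg (mul_nonneg hp.le h) hlu.le
  have h2 : ((S.lo l : ℝ) + 2 ^ kc * (A y l - (ctr Q l - lam * Q.side l / 2)) / (lam * u) ≤ S.hi l) ↔
      A y l - (ctr Q l - lam * Q.side l / 2) ≤ lam * Q.side l := by
    rw [← le_sub_iff_add_le', e, div_le_div_iff₀ hlu hu]
    have e2 : 2 ^ kc * Q.side l * (lam * u) = (2 ^ kc * u) * (lam * Q.side l) := by ring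
    have e3 : 2 ^ kc * (A y l - (ctr Q l - lam * Q.side l / 2)) * u =
      (2 ^ kc * u) * (A y l - (ctr Q l - lam * Q.side l / 2)) := by ring
    rw [e2, e3, mul_le_mul_iff_right₀ (mul_pos hp hu)]
  rw [h1, h2]
  constructor
  · rintro ⟨h3, h4⟩
    constructor <;> linarith
  · rintro ⟨h3, h4⟩
    constructor <;> linarith

/-- **the block in the target coordinates** -/
theorem mkCB_N (hS : ∀ l, u * ((S.hi l : ℝ) - S.lo l) = 2 ^ kc * Q.side l) {κ : ℝ}
    (hκ : ∀ l, w * u ≤ κ * (2 ^ kc * Q.side l)) :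
    (mkCB Q A hl hu kc hkc S w hw).N ⊆ A ⁻¹' cbx Q ((1 + 2 * κ) * lam) := by
  intro y hy
  have hp : (0 : ℝ) < 2 ^ kc := by positivity
  have hlu : 0 < lam * u := mul_pos hl hu
  rw [CB.mem_N] at hy
  intro l
  have h1 := hy l
  rw [mkCB_ps] at h1
  have hw' : (w : ℝ) * u ≤ κ * (2 ^ kc * Q.side l) := hκ l
  change ((S.lo l : ℝ) - w ≤ _) ∧ (_ ≤ (S.hi l : ℝ) + w) at h1
  obtain ⟨h2, h3⟩ := h1
  have h4 : -(w : ℝ) ≤ 2 ^ kc * (A y l - (ctr Q l - lam * Q.side l / 2)) / (lam * u) := by linarith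
  have h5 : 2 ^ kc * (A y l - (ctr Q l - lam * Q.side l / 2)) / (lam * u) ≤
      (S.hi l : ℝ) - S.lo l + w := by linarith
  rw [le_div_iff₀ hlu] at h4
  rw [div_le_iff₀ hlu] at h5
  have h6 : ((S.hi l : ℝ) - S.lo l + w) * (lam * u) ≤ 2 ^ kc * ((1 + κ) * lam * Q.side l) := by
    have e : ((S.hi l : ℝ) - S.lo l + w) * (lam * u) =
        lam * (u * ((S.hi l : ℝ) - S.lo l)) + lam * (w * u) := by ring
    rw [e, hS l]
    have := mul_le_mul_of_nonneg_left hw' hl.le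
    linarith
  have h7 : 2 ^ kc * (-(κ * lam * Q.side l)) ≤ -(w : ℝ) * (lam * u) := by
    have := mul_le_mul_of_nonneg_left hw' hl.le
    linarith
  have h8 := le_of_mul_le_mul_left (h5.trans h6) hp
  have h9 := le_of_mul_le_mul_left (h7.trans h4) hp
  rw [abs_le]
  constructor <;> linarith


end

end Crest.Agent.R096.Mdd_360
end

-- ▼ part R096/Mdd2_360

/-!
Row 96 (S0127), helper360.  MD-DATA, part 2: 874's mesh data `MD E3 3 J` (outer frame = identity) from a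
homeomorphism which is close to affine maps over the cores.

* `img_open` : the closed box `A⁻¹' cbx ((1 + 2 κ2) lam)` lies in `Om` and is mapped into the open brick;
* **`exists_rooms`** : rooms for the translations of the blocks, as small as we please;
* `mdR` : the mesh data;  `Adm` vectors are small (`adm_lin`), **`cor_tr`** : the core statement for the
  translated maps;
* **`exists_Dat`** : the outer size function.
-/

set_option autoImplicit false
set_option linter.style.longLine false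
set_option linter.unusedSectionVars false

open MeasureTheory Set Filter Topology Metric

namespace Crest.Agent.R096.Mdd_360

open Crest.Agent.R096.Bsp_628 Crest.Agent.R096.Brk5_582
open Crest.Agent.R096.SkC1_961 (E3 FoamD)
open Crest.Agent.R096.EaX_766 (cbx RatA)
open Crest.Agent.R096.Bxs_627 (ctr CoriE)
open Crest.Agent.R096.Mal_874 Crest.Agent.R096.Msh_810
open Crest.Agent.R096.Fns_360

noncomputable section

/-! ### the boxes over the bricks -/

/-- the enlarged box is mapped into the open brick -/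
theorem img_open {Om : Set E3} {f : E3 → E3} {A : E3 ≃ᵃ[ℝ] E3} {Q : Bx (Fin 3)} (hQ : Q.Pos)
    {κ0 : ℝ} (hasp : ∀ i, Q.sz ≤ κ0 * Q.side i) {lam κ1 κ2 : ℝ} (hl : 0 < lam) (hκ1 : 0 ≤ κ1)
    (hlκ : (1 / 2 + κ2) * lam + κ1 * κ0 * lam < 1 / 2) (hcor : CoriE Om f A Q lam κ1 κ2) {x : E3}
    (hx : x ∈ A ⁻¹' cbx Q ((1 + 2 * κ2) * lam)) :
    x ∈ Om ∧ ∀ k, Q.lo k < f x k ∧ f x k < Q.hi k := by
  have hx' : ∀ k, |A x k - ctr Q k| ≤ (1 + 2 * κ2) * lam * Q.side k / 2 := hx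
  obtain ⟨h1, h2⟩ := hcor x (Or.inr fun k => (hx' k).trans (le_of_eq (by ring)))
  refine ⟨h1, fun k => ?_⟩
  have hs := Bx.side_pos hQ k
  have h3 : |f x k - A x k| ≤ κ1 * (lam * (κ0 * Q.side k)) := by
    have h4 : |f x k - A x k| ≤ ‖f x - A x‖ := by
      have := norm_le_pi_norm (f x - A x) k
      rwa [Real.norm_eq_abs] at this
    refine h4.trans (h2.trans ?_)
    exact mul_le_mul_of_nonneg_left (mul_le_mul_of_nonneg_left (hasp k) hl.le) hκ1
  have h5 := hx' k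
  have h6 : ((1 / 2 + κ2) * lam + κ1 * κ0 * lam) * Q.side k < 1 / 2 * Q.side k :=
    mul_lt_mul_of_pos_right hlκ hs
  have e1 : ctr Q k = (Q.lo k + Q.hi k) / 2 := rfl
  have e2 : Q.side k = Q.hi k - Q.lo k := rfl
  rw [abs_le] at h3 h5
  rw [e1] at h5
  constructor <;> nlinarith [h3.1, h3.2, h5.1, h5.2]

theorem cbx_mono {Q : Bx (Fin 3)} (hQ : Q.Pos) {s t : ℝ} (h : s ≤ t) : cbx Q s ⊆ cbx Q t := by
  intro y hy k
  refine (hy k).trans ?_
  have := Bx.side_pos hQ k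
  have := mul_le_mul_of_nonneg_right h this.le
  linarith

/-- a bigger box is a neighbourhood -/
theorem cbx_sub_open {Q : Bx (Fin 3)} (hQ : Q.Pos) {s t : ℝ} (h : s < t) :
    ∃ U : Set E3, IsOpen U ∧ cbx Q s ⊆ U ∧ U ⊆ cbx Q t := by
  refine ⟨{y | ∀ k, |y k - ctr Q k| < t * Q.side k / 2}, ?_, ?_, ?_⟩
  · have : {y : E3 | ∀ k, |y k - ctr Q k| < t * Q.side k / 2} =
        ⋂ k, {y : E3 | |y k - ctr Q k| < t * Q.side k / 2} := by
      ext y; simp
    rw [this]
    refine isOpen_iInter_of_finite fun k => isOpen_lt ?_ continuous_const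
    fun_prop
  · intro y hy k
    refine (hy k).trans_lt ?_
    have h1 := Bx.side_pos hQ k
    have h2 := mul_lt_mul_of_pos_right h h1
    linarith
  · intro y hy k
    exact (hy k).le

/-! ### rooms -/

/-- room for the translations of the blocks -/
structure Rooms {J : Type*} (D0 : Dat 3) (Q : J → CB E3 3) (r : J → ℝ) : Prop where
  pos : ∀ j, 0 < r j
  dis : ∀ j l, j ≠ l → Disjoint (cthickening (r j) (Q j).N) (cthickening (r l) (Q l).N)
  sub : ∀ j, cthickening (r j) (Q j).N ⊆ D0.Om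
  lf : ∀ x ∈ D0.Om, ∃ s > 0, {j | (cthickening (r j) (Q j).N ∩ ball x s).Nonempty}.Finite

theorem refl_image (S : Set E3) : (ContinuousLinearEquiv.refl ℝ E3) '' S = S := by
  ext x
  simp

/-- **mesh data, outer frame = identity** -/
def mdR {J : Type*} (D0 : Dat 3) (hC : 6 ≤ D0.C) (Q : J → CB E3 3) (r : J → ℝ)
    (h : Rooms D0 Q r) : MD E3 3 J where
  φ := ContinuousLinearEquiv.refl ℝ E3
  D0 := D0
  hC := hC
  Q := Q
  r := r
  r_pos := h.pos
  Vdis j l hjl := by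
    rw [refl_image, refl_image]
    exact h.dis j l hjl
  Vsub j := by
    rw [refl_image]
    exact h.sub j
  Vlf x hx := by
    obtain ⟨s, hs, hf⟩ := h.lf x hx
    refine ⟨s, hs, ?_⟩
    simp only [refl_image]
    exact hf


/-! ### small translations -/

theorem lin_le (A : E3 ≃ᵃ[ℝ] E3) : ∃ L : ℝ, 0 < L ∧ ∀ v : E3, ‖A.linear v‖ ≤ L * ‖v‖ := by
  set T : E3 →L[ℝ] E3 := LinearMap.toContinuousLinearMap (A.linear : E3 →ₗ[ℝ] E3)
  refine ⟨‖T‖ + 1, by positivity, fun v => ?_⟩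
  have h := T.le_opNorm v
  have h2 := norm_nonneg v
  have e : T v = A.linear v := rfl
  rw [e] at h
  linarith

/-- a bound for the translations under which the core statement survives -/
theorem exists_small {Q : Bx (Fin 3)} (hQ : Q.Pos) (A : E3 ≃ᵃ[ℝ] E3) {lam : ℝ} (hl : 0 < lam)
    {τ : ℝ} (hτ : 0 < τ) : ∃ η : ℝ, 0 < η ∧ ∀ v : E3, ‖v‖ ≤ η →
      ‖A.linear v‖ ≤ τ * (lam * Q.sz) ∧ ∀ k, |A.linear v k| ≤ τ * (lam * Q.side k) := by
  obtain ⟨L, hL, hA⟩ := lin_le A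
  obtain ⟨i, -, hi⟩ := Finset.exists_min_image (Finset.univ : Finset (Fin 3)) (fun k => Q.side k)
    ⟨0, Finset.mem_univ _⟩
  have hsi := Bx.side_pos hQ i
  have hs := Bx.sz_pos hQ
  refine ⟨min (τ * (lam * Q.sz) / L) (τ * (lam * Q.side i) / L), by positivity, fun v hv => ⟨?_, ?_⟩⟩
  · refine (hA v).trans ?_
    have h1 := hv.trans (min_le_left _ _)
    rw [le_div_iff₀ hL] at h1
    linarith
  · intro k
    have h0 : |A.linear v k| ≤ ‖A.linear v‖ := by
      have := norm_le_pi_norm (A.linear v) k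
      rwa [Real.norm_eq_abs] at this
    refine h0.trans ((hA v).trans ?_)
    have h1 := hv.trans (min_le_right _ _)
    rw [le_div_iff₀ hL] at h1
    have h2 := hi k (Finset.mem_univ _)
    have h3 : τ * (lam * Q.side i) ≤ τ * (lam * Q.side k) := by gcongr
    linarith

/-- **the core statement for the translated map** -/
theorem cor_tr {Om : Set E3} {f : E3 → E3} {A : E3 ≃ᵃ[ℝ] E3} {Q : Bx (Fin 3)}
    {lam κ1 κ2 τ : ℝ} (h : CoriE Om f A Q lam κ1 κ2) {v : E3}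
    (hv : ‖A.linear v‖ ≤ τ * (lam * Q.sz) ∧ ∀ k, |A.linear v k| ≤ τ * (lam * Q.side k)) :
    CoriE Om f (trA A v) Q lam (κ1 + τ) (κ2 - τ) :=
  CoriE.tr h (fun k => (hv.2 k).trans (le_of_eq (by ring)))
    (hv.1.trans (le_of_eq (by ring)))

/-! ### the outer size function -/

variable {δ κ0 R c0 : ℝ} {La Om : Set E3}

/-- **the outer Whitney data**: fine off the exact cores, below a given size function -/
theorem exists_Dat (Φ : FoamD δ κ0 R c0 La) (hOm : IsOpen Om)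
    (hLa : IsOpen La) (hδ : 0 < δ) (hR : 0 < R) {f : E3 → E3} (hfm : MapsTo f Om La)
    (hfc : ContinuousOn f Om) {O : Φ.F → Set E3} (hO : ∀ c, IsOpen (O c))
    (hB : ∀ c, (Φ.B c).S ⊆ O c) {ε : ℝ} (hε : 0 < ε) {σ : E3 → ℝ}
    (hσ : ∀ x y, σ x ≤ σ y + dist x y) (hσ0 : ∀ x, 0 ≤ σ x) (hσ1 : ∀ x ∈ Om, 0 < σ x)
    {C : ℝ} (hC : 1 < C) (a : Fin 3 → ℝ) :
    ∃ D : Dat 3, D.C = C ∧ D.a = a ∧ D.Om = Om ∧ (∀ x, D.ρ x ≤ σ x) ∧
      ∀ x ∈ Om, closedBall x (D.ρ x) ⊆ Om ∧ FineS Φ f ε (closedBall x (D.ρ x) ∩ (Om ∩ offO f O)) := by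
  obtain ⟨ρ, h1, h2, h3, h4, h5⟩ := exists_dat_off (ContinuousLinearEquiv.refl ℝ E3) Φ hOm hLa hδ hR
    hfm hfc hO hB hε
  refine ⟨⟨fun x => min (ρ x) (σ x), C, a, fun x y => ?_, fun x => le_min (h2 x) (hσ0 x),
    fun x => (min_le_left _ _).trans (h3 x), hC⟩, rfl, rfl, ?_, fun x => min_le_right _ _,
    fun x hx => ?_⟩
  · have h6 := h1 x y
    have h7 := hσ x y
    rcases le_total (ρ y) (σ y) with h | h
    · rw [min_eq_left h]
      exact (min_le_left _ _).trans h6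
    · rw [min_eq_right h]
      exact (min_le_right _ _).trans h7
  · ext x
    change 0 < min (ρ x) (σ x) ↔ x ∈ Om
    rw [lt_min_iff]
    have h6 := h4 x
    constructor
    · intro h
      exact h6.1 h.1
    · intro h
      exact ⟨h6.2 h, hσ1 x h⟩
  · obtain ⟨h6, h7⟩ := h5 x hx
    have hsub : closedBall x (min (ρ x) (σ x)) ⊆ closedBall x (ρ x) :=
      closedBall_subset_closedBall (min_le_left _ _)
    exact ⟨fun y hy => h6 (hsub hy), h7.mono (inter_subset_inter_left _ fun y hy => hsub hy)⟩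

end

end Crest.Agent.R096.Mdd_360
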