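import Crest.Agent.R096.Mfi1_290
import Crest.Agent.R096.Mfa1_880
import Crest.Agent.R096.Mfe2_161

-- ▼ part R096/Mfi2_290
section

/-!
# Row 96, instance of `Pm_199.MF`, inner half, part 2

Potential tiles, classes, rigid frames, shapes of the inner tiles of 874's `MD.mesh`.
-/

set_option autoImplicit false
set_option linter.unusedSectionVars false

open Set Filter Topology Metric

namespace Crest.Agent.R096.Mfi_290

open Msh_715 Cut_874 Msh_810 Mal_874

variable {n : ℕ} {E : Type*} [NormedAddCommGroup E] [NormedSpace ℝ E]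

/-! ### rigid frames -/

/-- translation by `-s` -/
noncomputable def shE (s : E) : E ≃ᵃ[ℝ] E := AffineEquiv.constVAdd ℝ E (-s)

theorem shE_apply (s y : E) : shE s y = y - s := by
  show -s + y = y - s
  abel

/-- integer parts of the coordinates of a point -/
noncomputable def flo (u : Fin n → ℝ) : Fin n → ℤ := fun m => ⌊u m⌋

/-- the frame `χ`, normalised at the point `x0` -/
noncomputable def nrm (χ : E ≃ᵃ[ℝ] (Fin n → ℝ)) (x0 : E) : E ≃ᵃ[ℝ] (Fin n → ℝ) :=
  χ.trans (trz (flo (χ x0)))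

/-- **the shape of a good tile in a rigid frame, normalised at any point of the tile** -/
theorem good_at {Om : Set E} {ι : Type*} {T : Tiling Om ι} {t : ι} {χ χ0 : E ≃ᵃ[ℝ] (Fin n → ℝ)}
    {k : ℕ} {𝒩 : Finset (Fin n → ℝ)} {d : ℕ} {R : ℝ} (h : Good T t χ k 𝒩 d R) (hd : 0 < d)
    (h𝒩 : ∀ ν ∈ 𝒩, ∀ m, ∃ c : ℤ, ν m = c / d) {s x0 : E} (hχ : ∀ y, χ y = χ0 (y - s))
    (hx0 : x0 + s ∈ P (T.H t)) :
    (fun K => ((shE s).trans (nrm χ0 x0)) '' K) '' cfg T t ∈ simL 𝒩 d R := by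
  have e0 : χ (x0 + s) = χ0 x0 := by rw [hχ, add_sub_cancel_right]
  have hfr : ∀ y, ((shE s).trans (nrm χ0 x0)) y = fun m => χ y m - (flo (χ (x0 + s)) m : ℝ) := by
    intro y
    unfold nrm
    rw [AffineEquiv.trans_apply, AffineEquiv.trans_apply, trz_apply, shE_apply, ← hχ, e0]
  rintro _ ⟨_, ⟨x, hx, rfl⟩, rfl⟩
  obtain ⟨S, hS, e⟩ := h.cc hd h𝒩 hx
  refine ⟨S, hS, fun m => ⌊χ x m⌋ - flo (χ (x0 + s)) m, ?_, ?_⟩
  · intro m
    have h1 := Int.floor_le (χ x m)
    have h2 := Int.lt_floor_add_one (χ x m)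
    have h3 := Int.floor_le (χ (x0 + s) m)
    have h4 := Int.lt_floor_add_one (χ (x0 + s) m)
    have h5 := abs_le.1 (h.sz _ hx0 x hx m)
    have h6 := le_abs_self R
    unfold flo
    push_cast
    rw [abs_le]
    constructor <;> linarith
  · ext u
    simp only [Set.mem_image, Set.mem_ofPred_eq]
    constructor
    · rintro ⟨y, hy, rfl⟩
      rw [e] at hy
      have h1 : (fun m => ((shE s).trans (nrm χ0 x0)) y m -
          ((⌊χ x m⌋ - flo (χ (x0 + s)) m : ℤ) : ℝ)) = fun m => χ y m - (⌊χ x m⌋ : ℝ) := by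
        funext m
        rw [hfr]
        push_cast
        ring
      rw [h1]
      exact hy
    · intro hu
      refine ⟨((shE s).trans (nrm χ0 x0)).symm u, ?_, by simp⟩
      rw [e]
      simp only [Set.mem_ofPred_eq]
      have h1 : (fun m => χ (((shE s).trans (nrm χ0 x0)).symm u) m - (⌊χ x m⌋ : ℝ)) =
          fun m => u m - ((⌊χ x m⌋ - flo (χ (x0 + s)) m : ℤ) : ℝ) := by
        funext m
        have h2 := congrFun (hfr (((shE s).trans (nrm χ0 x0)).symm u)) m
        rw [AffineEquiv.apply_symm_apply] at h2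
        rw [h2]
        push_cast
        ring
      rw [h1]
      exact hu

theorem chi_tr (ψ : E ≃L[ℝ] (Fin n → ℝ)) (a' : Fin n → ℝ) (v : E) (k : ℕ) (y : E) :
    chi ψ (a' + ψ v) k y = chi ψ a' k (y - v) := by
  funext m
  rw [chi_apply, chi_apply, map_sub]
  simp only [Pi.add_apply, Pi.sub_apply]
  ring

theorem chi_linear (ψ : E ≃L[ℝ] (Fin n → ℝ)) (a' : Fin n → ℝ) (k : ℕ) (y : E) :
    (chi ψ a' k).linear y = (2 : ℝ) ^ k • ψ y := by
  have h := (chi ψ a' k).toAffineMap.linearMap_vsub y 0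
  have h1 : (chi ψ a' k).linear (y -ᵥ 0) = chi ψ a' k y -ᵥ chi ψ a' k 0 := h
  rw [vsub_eq_sub, sub_zero, vsub_eq_sub] at h1
  rw [h1]
  funext m
  rw [Pi.sub_apply, chi_apply, chi_apply, map_zero]
  simp only [Pi.zero_apply, Pi.smul_apply, smul_eq_mul]
  ring

theorem shE_trans_linear (s : E) (χ : E ≃ᵃ[ℝ] (Fin n → ℝ)) (y : E) :
    ((shE s).trans χ).linear y = χ.linear y := by
  have h : ((shE s).trans χ).linear (y -ᵥ 0) = ((shE s).trans χ) y -ᵥ ((shE s).trans χ) 0 :=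
    ((shE s).trans χ).toAffineMap.linearMap_vsub y 0
  have h' : χ.linear ((y - s) -ᵥ (0 - s)) = χ (y - s) -ᵥ χ (0 - s) :=
    χ.toAffineMap.linearMap_vsub (y - s) (0 - s)
  rw [AffineEquiv.trans_apply, AffineEquiv.trans_apply, shE_apply, shE_apply, ← h'] at h
  rw [vsub_eq_sub, sub_zero, vsub_eq_sub, sub_sub_sub_cancel_right, sub_zero] at h
  exact h

theorem nrm_linear (χ : E ≃ᵃ[ℝ] (Fin n → ℝ)) (x0 y : E) : (nrm χ x0).linear y = χ.linear y := by
  have h : (nrm χ x0).linear (y -ᵥ 0) = nrm χ x0 y -ᵥ nrm χ x0 0 :=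
    (nrm χ x0).toAffineMap.linearMap_vsub y 0
  have h' : χ.linear (y -ᵥ 0) = χ y -ᵥ χ 0 := χ.toAffineMap.linearMap_vsub y 0
  rw [vsub_eq_sub, sub_zero, vsub_eq_sub] at h h'
  rw [h, h']
  unfold nrm
  rw [AffineEquiv.trans_apply, AffineEquiv.trans_apply, trz_apply, trz_apply]
  funext m
  simp only [Pi.sub_apply]
  ring

theorem chi_norm (ψ : E ≃L[ℝ] (Fin n → ℝ)) (a' : Fin n → ℝ) (k : ℕ) (y : E) :
    ‖(chi ψ a' k).linear y‖ ≤ 2 ^ k * ‖(ψ : E →L[ℝ] (Fin n → ℝ))‖ * ‖y‖ := by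
  rw [chi_linear, norm_smul, mul_assoc]
  have e : ‖(2 : ℝ) ^ k‖ = 2 ^ k := by
    rw [Real.norm_eq_abs, abs_of_pos (by positivity)]
  rw [e]
  exact mul_le_mul_of_nonneg_left ((ψ : E →L[ℝ] (Fin n → ℝ)).le_opNorm y) (by positivity)

/-! ### potential tiles are not empty -/

theorem cube_ne (Q : CB E n) (m : ℕ) (z : Fin n → ℤ) : (cube Q m z).Nonempty := by
  obtain ⟨x, hx⟩ := Dc_nonempty Q.a' ⟨m, z, Finset.univ⟩
  refine ⟨Q.ψ.symm x, ?_⟩
  show Q.ψ (Q.ψ.symm x) ∈ Cu Q.a' m z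
  rw [ContinuousLinearEquiv.apply_symm_apply]
  exact Do_subset_Dc _ _ hx

theorem pol_ne (Q : CB E n) (s : Q.S.Ix) : (pol Q s).Nonempty := by
  obtain ⟨u, hu⟩ := Q.S.ne s
  obtain ⟨y, hy⟩ := exists_ps Q.ψ Q.a' Q.kc u
  refine ⟨y, ?_⟩
  show ps Q.a' Q.kc (Q.ψ y) ∈ ZP (Q.S.GG s)
  rw [hy]
  exact ZI_sub_ZP _ hu

theorem til_ne (Q : CB E n) (t : Pt Q) : (til Q t).Nonempty := by
  rcases t with p | s
  · exact cube_ne Q p.1 p.2
  · exact pol_ne Q s

/-! ### the mesh -/

variable {J : Type*} (M : MD E n J) (k : J → ℕ) (W : J → Set E)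

/-- kinds of the inner classes of a block -/
inductive Kd
  | far
  | near
  | core
  | wall

instance : Finite Kd :=
  Finite.of_injective (fun a : Kd => match a with
    | Kd.far => (0 : Fin 4) | Kd.near => 1 | Kd.core => 2 | Kd.wall => 3) (by
    intro a b h
    cases a <;> cases b <;> first | rfl | (exact absurd h (by decide)))

/-- **potential inner tiles**: tiles of the blocks (away from the wall), cubes at the wall -/
abbrev Ti : Type _ := (Σ j, Pt (M.Q j)) ⊕ (Σ j, W j × (Fin n → ℤ))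

/-- kind of a potential tile of a block -/
noncomputable def kd (j : J) : Pt (M.Q j) → Kd := by
  classical
  exact fun t => match t with
  | Sum.inl p =>
    if (cube (M.Q j) p.1 p.2 ∩ (M.Q j).S.bp (M.Q j).ψ (M.Q j).a' (M.Q j).kc).Nonempty then Kd.near
    else Kd.far
  | Sum.inr s => if s = (M.Q j).S.core then Kd.core else Kd.near

/-- class of a potential inner tile -/
noncomputable def icl : Ti M W → J × Kd
  | Sum.inl t => (t.1, kd M t.1 t.2)
  | Sum.inr t => (t.1, Kd.wall)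

/-- the classes at the walls move with `a`, the others with the block -/
def ibl : J × Kd → Option J
  | (_, Kd.wall) => none
  | (j, _) => some j

/-- the potential inner tiles as sets -/
def iTil : Ti M W → Set E
  | Sum.inl t => til (M.Q t.1) t.2
  | Sum.inr t => (fun y => y + (t.2.1 : E)) '' cube (M.Q t.1) (k t.1) t.2.2

theorem iTil_ne (t : Ti M W) : (iTil M k W t).Nonempty := by
  rcases t with t | t
  · exact til_ne _ _
  · exact (cube_ne _ _ _).image _

/-- the shifts for which a potential inner tile is used -/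
def iAc : Ti M W → Set E
  | Sum.inl ⟨j, Sum.inl p⟩ => {s | ‖M.φ s‖ ≤ M.r j ∧ Use (M.Q j) p ∧
      ¬ (cube (M.Q j) p.1 p.2 ∩ frontier (M.Q j).N).Nonempty}
  | Sum.inl ⟨j, Sum.inr _⟩ => {s | ‖M.φ s‖ ≤ M.r j}
  | Sum.inr ⟨j, w, z⟩ => {s | ‖M.φ (s + w)‖ ≤ M.r j ∧
      (cube (M.Q j) (k j) z ∩ frontier (M.Q j).N).Nonempty ∧ cube (M.Q j) (k j) z ⊆ (M.Q j).N}

theorem iAc_closed (t : Ti M W) : IsClosed (iAc M k W t) := by
  rcases t with ⟨j, p | s⟩ | ⟨j, w, z⟩
  · by_cases h : Use (M.Q j) p ∧ ¬ (cube (M.Q j) p.1 p.2 ∩ frontier (M.Q j).N).Nonempty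
    · have e : iAc M k W (Sum.inl ⟨j, Sum.inl p⟩) = {s | ‖M.φ s‖ ≤ M.r j} := by
        ext s
        exact ⟨fun hs => hs.1, fun hs => ⟨hs, h⟩⟩
      rw [e]
      exact isClosed_le (M.φ.continuous.norm) continuous_const
    · have e : iAc M k W (Sum.inl ⟨j, Sum.inl p⟩) = ∅ := by
        ext s
        simp only [Set.mem_empty_iff_false, iff_false]
        exact fun hs => h hs.2
      rw [e]
      exact isClosed_empty
  · exact isClosed_le (M.φ.continuous.norm) continuous_const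
  · by_cases h : (cube (M.Q j) (k j) z ∩ frontier (M.Q j).N).Nonempty ∧
        cube (M.Q j) (k j) z ⊆ (M.Q j).N
    · have e : iAc M k W (Sum.inr ⟨j, w, z⟩) = {s | ‖M.φ (s + w)‖ ≤ M.r j} := by
        ext s
        exact ⟨fun hs => hs.1, fun hs => ⟨hs, h⟩⟩
      rw [e]
      exact isClosed_le ((M.φ.continuous.comp (continuous_id.add continuous_const)).norm)
        continuous_const
    · have e : iAc M k W (Sum.inr ⟨j, w, z⟩) = ∅ := by
        ext s
        simp only [Set.mem_empty_iff_false, iff_false]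
        exact fun hs => h hs.2
      rw [e]
      exact isClosed_empty

/-- coordinates of a potential inner tile -/
noncomputable def iχ : Ti M W → E ≃ᵃ[ℝ] (Fin n → ℝ) := by
  classical
  exact fun t => match t with
  | Sum.inl ⟨j, Sum.inl p⟩ =>
    if kd M j (Sum.inl p) = Kd.far then chi (M.Q j).ψ (M.Q j).a' (p.1 + 1)
    else chi (M.Q j).ψ (M.Q j).a' (M.Q j).kc
  | Sum.inl ⟨j, Sum.inr _⟩ => chi (M.Q j).ψ (M.Q j).a' (M.Q j).kc
  | Sum.inr ⟨j, _, _⟩ => chi M.φ 0 (k j)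

/-- **the rigid frame of a potential inner tile** -/
noncomputable def ifr (t : Ti M W) : E ≃ᵃ[ℝ] (Fin n → ℝ) :=
  nrm (iχ M k W t) (iTil_ne M k W t).some

/-- norm of the frame of a potential inner tile -/
noncomputable def iβ : Ti M W → ℝ := by
  classical
  exact fun t => match t with
  | Sum.inl ⟨j, Sum.inl p⟩ =>
    if kd M j (Sum.inl p) = Kd.far then 2 ^ (p.1 + 1) * ‖((M.Q j).ψ : E →L[ℝ] (Fin n → ℝ))‖
    else 2 ^ (M.Q j).kc * ‖((M.Q j).ψ : E →L[ℝ] (Fin n → ℝ))‖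
  | Sum.inl ⟨j, Sum.inr _⟩ => 2 ^ (M.Q j).kc * ‖((M.Q j).ψ : E →L[ℝ] (Fin n → ℝ))‖
  | Sum.inr ⟨j, _, _⟩ => 2 ^ k j * ‖(M.φ : E →L[ℝ] (Fin n → ℝ))‖

theorem ifr_norm (t : Ti M W) (y : E) : ‖(ifr M k W t).linear y‖ ≤ iβ M k W t * ‖y‖ := by
  unfold ifr
  rw [nrm_linear]
  rcases t with ⟨j, p | s⟩ | ⟨j, w, z⟩
  · by_cases h : kd M j (Sum.inl p) = Kd.far
    · have e1 : iχ M k W (Sum.inl ⟨j, Sum.inl p⟩) = chi (M.Q j).ψ (M.Q j).a' (p.1 + 1) := if_pos h
      have e2 : iβ M k W (Sum.inl ⟨j, Sum.inl p⟩) =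
          2 ^ (p.1 + 1) * ‖((M.Q j).ψ : E →L[ℝ] (Fin n → ℝ))‖ := if_pos h
      rw [e1, e2]
      exact chi_norm _ _ _ _
    · have e1 : iχ M k W (Sum.inl ⟨j, Sum.inl p⟩) = chi (M.Q j).ψ (M.Q j).a' (M.Q j).kc :=
        if_neg h
      have e2 : iβ M k W (Sum.inl ⟨j, Sum.inl p⟩) =
          2 ^ (M.Q j).kc * ‖((M.Q j).ψ : E →L[ℝ] (Fin n → ℝ))‖ := if_neg h
      rw [e1, e2]
      exact chi_norm _ _ _ _
  · exact chi_norm _ _ _ _
  · exact chi_norm _ _ _ _

/-- the lists of shapes of the inner classes -/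
noncomputable def iSh (X : RD M) : J × Kd → Set (Set (Set (Fin n → ℝ)))
  | (_, Kd.far) => simL (N0 n) 1 2
  | (j, Kd.near) => simL (NB n (X.B j)) 1 (X.R j)
  | (_, Kd.core) => ∅
  | (j, Kd.wall) => simL (NR (X.A j) (X.d j)) (X.d j) (X.c j)


/-! ### the inner tiles of the mesh -/

/-- the potential tile of a tile with name `t`, at offset `w` -/
noncomputable def ipt {W : J → Set E} (w : ∀ j, W j) (j : J) : Pt (M.Q j) → Ti M W := by
  classical
  exact fun t => match t with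
  | Sum.inl p => if (cube (M.Q j) p.1 p.2 ∩ frontier (M.Q j).N).Nonempty then
      Sum.inr ⟨j, w j, p.2⟩ else Sum.inl ⟨j, Sum.inl p⟩
  | Sum.inr s => Sum.inl ⟨j, Sum.inr s⟩

theorem ipt_wall {W : J → Set E} (w : ∀ j, W j) (j : J) {p : ℕ × (Fin n → ℤ)}
    (h : (cube (M.Q j) p.1 p.2 ∩ frontier (M.Q j).N).Nonempty) :
    ipt M w j (Sum.inl p) = Sum.inr ⟨j, w j, p.2⟩ := if_pos h

theorem ipt_in {W : J → Set E} (w : ∀ j, W j) (j : J) {p : ℕ × (Fin n → ℤ)}
    (h : ¬ (cube (M.Q j) p.1 p.2 ∩ frontier (M.Q j).N).Nonempty) :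
    ipt M w j (Sum.inl p) = Sum.inl ⟨j, Sum.inl p⟩ := if_neg h


end Crest.Agent.R096.Mfi_290
end

-- ▼ part R096/Mfi3_290
section

/-!
# Row 96, instance of `Pm_199.MF`, inner half, part 3

All fields of `PreMF` / `MF` for the inner tiles of 874's `MD.mesh`: potential tile, class, shift,
translate, injectivity, activity, rigid frame, shape.
-/

set_option autoImplicit false
set_option linter.unusedSectionVars false

open Set Filter Topology Metric

namespace Crest.Agent.R096.Mfi_290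

open Msh_715 Cut_874 Msh_810 Mal_874

variable {n : ℕ} {E : Type*} [NormedAddCommGroup E] [NormedSpace ℝ E]

section good

variable {J : Type*} (M : MD E n J) [NeZero n] {k : J → ℕ} (hk : M.Sc k) (a : Fin n → ℝ)
  {v : J → E} (hv : M.Adm v)

/-- **good tiles, inner** (874's `inner_good`, the three cases are exclusive) -/
theorem inner_good' (X : RD M) (RPx : RP X a v k) {j : J} (i : M.IIx hk a hv j)
    (hi : i ≠ M.core hk a hv j) :
    (∃ τ, i.1 = Sum.inl τ ∧
      Disjoint (P ((M.mesh hk a hv).H (Sum.inr ⟨j, i⟩))) (frontier (M.Bk v j).N) ∧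
      Disjoint (P ((M.mesh hk a hv).H (Sum.inr ⟨j, i⟩)))
        ((M.Bk v j).S.bp (M.Bk v j).ψ (M.Bk v j).a' (M.Bk v j).kc) ∧
      Good (M.mesh hk a hv) (Sum.inr ⟨j, i⟩) (chi (M.Q j).ψ (M.Bk v j).a' (τ.1.1.1.k + 1))
        (τ.1.1.1.k + 1) (N0 n) 1 2) ∨
    (Disjoint (P ((M.mesh hk a hv).H (Sum.inr ⟨j, i⟩))) (frontier (M.Bk v j).N) ∧
      (P ((M.mesh hk a hv).H (Sum.inr ⟨j, i⟩)) ∩
        ((M.Bk v j).S.bp (M.Bk v j).ψ (M.Bk v j).a' (M.Bk v j).kc)).Nonempty ∧
      (∀ x ∈ P ((M.mesh hk a hv).H (Sum.inr ⟨j, i⟩)), (M.Bk v j).near 1 x) ∧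
      Good (M.mesh hk a hv) (Sum.inr ⟨j, i⟩) (chi (M.Q j).ψ (M.Bk v j).a' (M.Q j).kc)
        (M.Q j).kc (NB n (X.B j)) 1 (X.R j)) ∨
    ((∃ τ, i.1 = Sum.inl τ ∧ τ.1.1.1.k = k j) ∧
      (P ((M.mesh hk a hv).H (Sum.inr ⟨j, i⟩)) ∩ frontier (M.Bk v j).N).Nonempty ∧
      Good (M.mesh hk a hv) (Sum.inr ⟨j, i⟩) (chi M.φ a (k j)) (k j) (NR (X.A j) (X.d j)) (X.d j)
        (X.c j)) := by
  have hp : (0 : ℝ) < 1 / 2 ^ k j := by positivity
  have e3 : (3 : ℝ) / 2 ^ k j = 3 * (1 / 2 ^ k j) := by ring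
  have e5 : (5 : ℝ) / 2 ^ k j = 5 * (1 / 2 ^ k j) := by ring
  -- inner tiles which meet `i`
  have hin : ∀ l (m : M.IIx hk a hv l), (P ((M.mesh hk a hv).H (Sum.inr ⟨l, m⟩)) ∩
      P ((M.mesh hk a hv).H (Sum.inr ⟨j, i⟩))).Nonempty → l = j := by
    rintro l m ⟨y, hy1, hy2⟩
    by_contra hne
    exact Set.disjoint_left.1 ((M.ad hk a hv).dis l j hne) (m.2 hy1) (i.2 hy2)
  by_cases hw : (P ((M.S hk (v := v) j).H i.1) ∩ frontier (M.Bk v j).N).Nonempty
  · right; right
    have hF : Fr (chi M.φ a (k j)) (k j) (NR (X.A j) (X.d j)) (X.d j) (M.Q j).ψ (M.Bk v j).a' :=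
      fr_rat (X.dpos j) (X.rat j) (RPx.hκ j) (RPx.h0 j) (RPx.hv j)
    have hself : (P ((M.S hk (v := v) j).H i.1) ∩ P ((M.S hk (v := v) j).H i.1)).Nonempty :=
      ⟨hw.some, hw.some_mem.1, hw.some_mem.1⟩
    obtain ⟨τ, hiτ, hτ⟩ := (M.Bk v j).wall_tile (k j) (hk.kc j) hw hself
    refine ⟨⟨τ, hiτ, hτ⟩, hw, ⟨?_, ?_⟩⟩
    · rintro (q | ⟨l, m⟩) hl
      · obtain ⟨y, hy1, hy2⟩ := hl
        have hyf := M.outer_touch hk a hv q hy1 (i.2 hy2)
        have hy1' : y ∈ P ((M.ad hk a hv).T0.H q.1.par) := cut_tile_sub (hA := AF_ne) q.1 hy1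
        have h0 : infDist (M.φ y) (M.W j) = 0 := infDist_zero_of_mem (MD.wall_mem hv j hyf)
        have hkq : q.1.par.1.1.k = k j :=
          AD.zone_k (M := M.ad hk a hv) (j := j) (by
            show infDist (M.φ y) (M.W j) < 5 / 2 ^ k j
            rw [h0, e5]; linarith) hy1'
        refine gf_outer (φ := M.φ) (D := (M.ad hk a hv).D) (X.dpos j)
          (fr_self M.φ a (k j) (N0_sub_NR _ _) _) (p := q.1) ?_ hkq.le
        intro l hl
        have hlj : l = j := AD.zone_wall (M := M.ad hk a hv) hy1' (by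
          show infDist (M.φ y) (M.W j) ≤ 3 / 2 ^ k j
          rw [h0, e3]; linarith) hl
        subst hlj
        exact ⟨hF, hk.kc l⟩
      · obtain rfl : l = j := hin l m hl
        obtain ⟨σ, hσ1, hσ⟩ := (M.Bk v l).wall_tile (k l) (hk.kc l) hw hl
        rw [MD.mesh_inr, hσ1]
        exact gf_cube (X.dpos l) hF hσ.le _
    · intro x hx y hy m
      refine chi_dist ?_ m
      rw [MD.mesh_inr, hiτ] at hx hy
      have h1 := dist_cube (((M.Bk v j).tile_T0 (k j) (hk.kc j)).1 hy)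
        (((M.Bk v j).tile_T0 (k j) (hk.kc j)).1 hx)
      rw [hτ] at h1
      refine (X.cn j y x).trans ?_
      have h2 := X.c1 j
      calc X.c j * dist ((M.Q j).ψ y) ((M.Q j).ψ x) ≤ X.c j * (1 / 2 ^ k j) :=
            mul_le_mul_of_nonneg_left h1 (by linarith)
        _ = X.c j / 2 ^ k j := by ring
  · -- no outer piece meets the tile
    have hout : ∀ q : M.OIx hk a hv, ¬ (P ((M.mesh hk a hv).H (Sum.inl q)) ∩
        P ((M.mesh hk a hv).H (Sum.inr ⟨j, i⟩))).Nonempty := by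
      rintro q ⟨y, hy1, hy2⟩
      exact hw ⟨y, hy2, M.outer_touch hk a hv q hy1 (i.2 hy2)⟩
    by_cases hb : (P ((M.S hk (v := v) j).H i.1) ∩
        (M.Bk v j).S.bp (M.Bk v j).ψ (M.Bk v j).a' (M.Bk v j).kc).Nonempty
    · right; left
      have hcore : i.1 ≠ (M.Bk v j).cix (k j) (hk.kc j) := fun h => hi (Subtype.ext h)
      refine ⟨?_, hb, ?_, ?_, ?_⟩
      · rw [Set.disjoint_iff_inter_eq_empty, ← Set.not_nonempty_iff_eq_empty, MD.mesh_inr]
        exact hw
      · intro x hx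
        rw [MD.mesh_inr] at hx
        rcases hi1 : i.1 with τ | s
        · rw [hi1] at hx hb
          obtain ⟨y, hy1, hy2⟩ := hb
          have := (M.Bk v j).near_tile (k j) (hk.kc j) hy1 hx ((M.Bk v j).near_of_bp hy2)
          rwa [zero_add] at this
        · rw [hi1] at hx
          have := (M.Bk v j).near_of_bp ((M.Bk v j).P_inr_sub (k j) (hk.kc j) s hx)
          intro l
          have h := this l
          constructor <;> linarith [h.1, h.2]
      · rintro (q | ⟨l, m⟩) hl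
        · exact absurd hl (hout q)
        · obtain rfl : l = j := hin l m hl
          exact (M.Bk v l).near_good (k l) (hk.kc l) (X.B1 l) (X.hB l) hb hl
      · intro x hx y hy l
        rw [chi_eq_ps, chi_eq_ps]
        rw [MD.mesh_inr] at hx hy
        rcases hi1 : i.1 with τ | s
        · rw [hi1] at hx hy
          exact ((M.Bk v j).tile_size (k j) (hk.kc j) hy hx l).trans (X.R1 j)
        · rw [hi1] at hx hy
          change x ∈ P (iH (M.Bk v j).ψ (M.Bk v j).a' (M.Bk v j).kc ((M.Bk v j).S.GG s)) at hx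
          change y ∈ P (iH (M.Bk v j).ψ (M.Bk v j).a' (M.Bk v j).kc ((M.Bk v j).S.GG s)) at hy
          rw [mem_P_iH] at hx hy
          refine X.hR j s ?_ _ hx _ hy l
          rintro rfl
          exact hcore hi1
    · left
      rcases hi1 : i.1 with τ | s
      · have hb' : Disjoint (P ((M.mesh hk a hv).H (Sum.inr ⟨j, i⟩)))
            ((M.Bk v j).S.bp (M.Bk v j).ψ (M.Bk v j).a' (M.Bk v j).kc) := by
          rw [Set.disjoint_iff_inter_eq_empty, ← Set.not_nonempty_iff_eq_empty, MD.mesh_inr]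
          exact hb
        refine ⟨τ, rfl, ?_, hb', ⟨?_, ?_⟩⟩
        · rw [Set.disjoint_iff_inter_eq_empty, ← Set.not_nonempty_iff_eq_empty, MD.mesh_inr]
          exact hw
        · rintro (q | ⟨l, m⟩) hl
          · exact absurd hl (hout q)
          · obtain rfl : l = j := hin l m hl
            obtain ⟨y, hy1, hy2⟩ := hl
            rw [MD.mesh_inr] at hy1
            rcases hm1 : m.1 with σ | s
            · rw [MD.mesh_inr, hm1]
              rw [hm1] at hy1
              rw [MD.mesh_inr, hi1] at hy2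
              have hkσ : σ.1.1.1.k ≤ τ.1.1.1.k + 1 :=
                (tile_k_le (φ := (M.Bk v l).ψ) (D := (M.Bk v l).D (k l) (hk.kc l)) hy1).trans
                  (K_le_succ (mem_at.1 (show τ.1 ∈ (tiling (M.Bk v l).ψ
                    ((M.Bk v l).D (k l) (hk.kc l))).at_ y from hy2)))
              exact gf_cube one_pos (fr_self (M.Q l).ψ (M.Bk v l).a' _ subset_rfl 1) hkσ _
            · rw [hm1] at hy1
              exact absurd ((M.Bk v l).P_inr_sub (k l) (hk.kc l) s hy1)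
                (Set.disjoint_left.1 hb' hy2)
        · intro x hx y hy m
          rw [MD.mesh_inr, hi1] at hx hy
          have hx' := ((M.Bk v j).tile_T0 (k j) (hk.kc j)).1 hx
          have hy' := ((M.Bk v j).tile_T0 (k j) (hk.kc j)).1 hy
          refine (size_tile (k := τ.1.1.1.k + 1) hx' hy' m).trans ?_
          rw [pow_succ, mul_comm, mul_div_assoc, div_self (by positivity), mul_one]
      · exfalso
        apply hb
        rw [hi1]
        obtain ⟨y, hy⟩ := (M.S hk (v := v) j).ne (Sum.inr s)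
        exact ⟨y, I_sub_P _ hy, (M.Bk v j).P_inr_sub (k j) (hk.kc j) s (I_sub_P _ hy)⟩


/-- a tile of a block which touches the wall is a cube of scale `k j` -/
theorem touch {j : J} (i : M.IIx hk a hv j)
    (h : (P ((M.S hk (v := v) j).H i.1) ∩ frontier (M.Bk v j).N).Nonempty) :
    ∃ τ, i.1 = Sum.inl τ ∧ τ.1.1.1.k = k j :=
  (M.Bk v j).wall_tile (k j) (hk.kc j) h ⟨h.some, h.some_mem.1, h.some_mem.1⟩



end good

/-! ### the fields -/

/-- the shift of a class (`Pm_199.sh` in general form) -/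
def ish {J : Type*} : Option J → E → (J → E) → E
  | none, a, _ => a
  | some j, a, w => a + w j

section fields

variable {J : Type*} (M : MD E n J) [NeZero n] {k : J → ℕ} (hk : M.Sc k) (a : E)
  {W : J → Set E} (w : ∀ j, W j) (hv : M.Adm (fun j => a + (w j : E)))

/-- the name of an inner tile in its block -/
noncomputable def inm (j : J) (i : M.IIx hk (M.φ a) hv j) : Pt (M.Q j) :=
  nmt (M.Q j) (a + (w j : E)) (k j) (hk.kc j) i.1

theorem inm_inj (j : J) : Function.Injective (inm M hk a w hv j) := by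
  intro i i' h
  exact Subtype.ext (nmt_inj (M.Q j) (a + (w j : E)) (k j) (hk.kc j) h)

/-- **the potential tile of an inner tile** -/
noncomputable def ipot (p : Σ j, M.IIx hk (M.φ a) hv j) : Ti M W :=
  ipt M w p.1 (inm M hk a w hv p.1 p.2)

theorem P_inm (j : J) (i : M.IIx hk (M.φ a) hv j) :
    P ((M.mesh hk (M.φ a) hv).H (Sum.inr ⟨j, i⟩)) =
      (fun y => y + (a + (w j : E))) '' til (M.Q j) (inm M hk a w hv j i) :=
  P_nmt (M.Q j) (a + (w j : E)) (k j) (hk.kc j) i.1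

theorem touch_iff (j : J) (i : M.IIx hk (M.φ a) hv j) :
    (P ((M.mesh hk (M.φ a) hv).H (Sum.inr ⟨j, i⟩)) ∩
      frontier (M.Bk (fun j => a + (w j : E)) j).N).Nonempty ↔
      (til (M.Q j) (inm M hk a w hv j i) ∩ frontier (M.Q j).N).Nonempty := by
  rw [P_inm]
  exact inter_tr fun y => CB.frontier_N_tr (M.Q j) (a + (w j : E))

theorem bp_iff (j : J) (i : M.IIx hk (M.φ a) hv j) :
    (P ((M.mesh hk (M.φ a) hv).H (Sum.inr ⟨j, i⟩)) ∩
      (M.Bk (fun j => a + (w j : E)) j).S.bp (M.Bk (fun j => a + (w j : E)) j).ψ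
        (M.Bk (fun j => a + (w j : E)) j).a' (M.Bk (fun j => a + (w j : E)) j).kc).Nonempty ↔
      (til (M.Q j) (inm M hk a w hv j i) ∩
        (M.Q j).S.bp (M.Q j).ψ (M.Q j).a' (M.Q j).kc).Nonempty := by
  rw [P_inm]
  exact inter_tr fun y => mem_bp_tr (M.Q j) (a + (w j : E)) y

/-- the scale of a cube at the wall -/
theorem inm_wall (j : J) (i : M.IIx hk (M.φ a) hv j) (p : ℕ × (Fin n → ℤ))
    (hp : inm M hk a w hv j i = Sum.inl p)
    (h : (cube (M.Q j) p.1 p.2 ∩ frontier (M.Q j).N).Nonempty) : p.1 = k j := by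
  have h1 : (til (M.Q j) (inm M hk a w hv j i) ∩ frontier (M.Q j).N).Nonempty := by
    rw [hp]
    exact h
  obtain ⟨τ, h2, h3⟩ := touch M hk (M.φ a) hv i ((touch_iff M hk a w hv j i).2 h1)
  have h4 : inm M hk a w hv j i = Sum.inl (τ.1.1.1.k, τ.1.1.1.z) := by
    unfold inm
    rw [h2]
    rfl
  rw [h4] at hp
  have h5 := Sum.inl.inj hp
  rw [← h5]
  exact h3


theorem ibl_inl (j : J) (t : Pt (M.Q j)) : ibl (icl M W (Sum.inl ⟨j, t⟩)) = some j := by
  have h : icl M W (Sum.inl ⟨j, t⟩) = (j, kd M j t) := rfl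
  rw [h]
  rcases hkd : kd M j t with _ | _ | _ | _
  · rfl
  · rfl
  · rfl
  · exfalso
    unfold kd at hkd
    rcases t with p | s
    · simp only [] at hkd
      split_ifs at hkd
    · simp only [] at hkd
      split_ifs at hkd

/-- **the inner tiles are translates of potential inner tiles** -/
theorem itile (p : Σ j, M.IIx hk (M.φ a) hv j) :
    P ((M.mesh hk (M.φ a) hv).H (Sum.inr p)) =
      (fun y => y + ish (ibl (icl M W (ipot M hk a w hv p))) a (fun j => (w j : E))) ''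
        iTil M k W (ipot M hk a w hv p) := by
  obtain ⟨j, i⟩ := p
  have h0 := P_inm M hk a w hv j i
  rw [h0]
  unfold ipot
  rcases h1 : inm M hk a w hv j i with p | s
  · by_cases h2 : (cube (M.Q j) p.1 p.2 ∩ frontier (M.Q j).N).Nonempty
    · have h3 := inm_wall M hk a w hv j i p h1 h2
      simp only []
      rw [ipt_wall M w j h2]
      change _ = (fun y => y + a) '' ((fun y => y + (w j : E)) '' cube (M.Q j) (k j) p.2)
      rw [image_image, ← h3]
      change (fun y => y + (a + (w j : E))) '' cube (M.Q j) p.1 p.2 = _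
      refine image_congr fun y _ => ?_
      abel
    · simp only []
      rw [ipt_in M w j h2, ibl_inl]
      rfl
  · simp only []
    change _ = (fun y => y + ish (ibl (icl M W (Sum.inl ⟨j, Sum.inr s⟩))) a
      (fun j => (w j : E))) '' _
    rw [ibl_inl]
    rfl

/-- **activity** -/
theorem iact (p : Σ j, M.IIx hk (M.φ a) hv j) :
    ish (ibl (icl M W (ipot M hk a w hv p))) a (fun j => (w j : E)) ∈
      iAc M k W (ipot M hk a w hv p) := by
  obtain ⟨j, i⟩ := p
  unfold ipot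
  have hN : P (((M.Bk (fun j => a + (w j : E)) j).T (k j) (hk.kc j)).H i.1) ⊆
    (M.Bk (fun j => a + (w j : E)) j).N := i.2
  rcases h1 : inm M hk a w hv j i with p | s
  · have hU := use_nmt (M.Q j) (a + (w j : E)) (k j) (hk.kc j) hN h1
    by_cases h2 : (cube (M.Q j) p.1 p.2 ∩ frontier (M.Q j).N).Nonempty
    · have h3 := inm_wall M hk a w hv j i p h1 h2
      simp only []
      rw [ipt_wall M w j h2]
      refine ⟨hv j, ?_, ?_⟩
      · rw [← h3]
        exact h2
      · rw [← h3]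
        exact hU.2.1
    · simp only []
      rw [ipt_in M w j h2, ibl_inl]
      exact ⟨hv j, hU, h2⟩
  · simp only []
    change ish (ibl (icl M W (Sum.inl ⟨j, Sum.inr s⟩))) a (fun j => (w j : E)) ∈ _
    rw [ibl_inl]
    exact hv j

/-- the name of the core -/
theorem inm_core (j : J) : inm M hk a w hv j (M.core hk (M.φ a) hv j) =
    Sum.inr (M.Q j).S.core := rfl

/-- the core is the only tile of the core class -/
theorem kd_core_iff (j : J) (i : M.IIx hk (M.φ a) hv j) :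
    icl M W (ipot M hk a w hv ⟨j, i⟩) = (j, Kd.core) ↔ i = M.core hk (M.φ a) hv j := by
  constructor
  · intro h
    apply inm_inj M hk a w hv j
    rw [inm_core]
    unfold ipot at h
    rcases h1 : inm M hk a w hv j i with p | s
    · exfalso
      simp only [] at h
      rw [h1] at h
      by_cases h2 : (cube (M.Q j) p.1 p.2 ∩ frontier (M.Q j).N).Nonempty
      · rw [ipt_wall M w j h2] at h
        have h3 : Kd.wall = Kd.core := congrArg Prod.snd h
        cases h3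
      · rw [ipt_in M w j h2] at h
        have h3 : kd M j (Sum.inl p) = Kd.core := congrArg Prod.snd h
        unfold kd at h3
        simp only [] at h3
        split_ifs at h3
    · simp only [] at h
      rw [h1] at h
      have h3 : kd M j (Sum.inr s) = Kd.core := congrArg Prod.snd h
      unfold kd at h3
      simp only [] at h3
      split_ifs at h3 with h4
      rw [h4]
  · rintro rfl
    unfold ipot
    simp only []
    rw [inm_core]
    change (j, kd M j (Sum.inr (M.Q j).S.core)) = (j, Kd.core)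
    have : kd M j (Sum.inr (M.Q j).S.core) = Kd.core := if_pos rfl
    rw [this]

/-- a point of the tile -/
theorem mem_itile (p : Σ j, M.IIx hk (M.φ a) hv j) :
    (iTil_ne M k W (ipot M hk a w hv p)).some +
      ish (ibl (icl M W (ipot M hk a w hv p))) a (fun j => (w j : E)) ∈
        P ((M.mesh hk (M.φ a) hv).H (Sum.inr p)) := by
  rw [itile]
  exact ⟨_, (iTil_ne M k W (ipot M hk a w hv p)).some_mem, rfl⟩

/-- the frame of an inner tile of the mesh -/
noncomputable def ifm (p : Σ j, M.IIx hk (M.φ a) hv j) : E ≃ᵃ[ℝ] (Fin n → ℝ) :=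
  (shE (ish (ibl (icl M W (ipot M hk a w hv p))) a (fun j => (w j : E)))).trans
    (ifr M k W (ipot M hk a w hv p))



/-- **shapes** -/
theorem ishape (X : RD M) (RPx : RP X (M.φ a) (fun j => a + (w j : E)) k)
    (p : Σ j, M.IIx hk (M.φ a) hv j) (hp : p.2 ≠ M.core hk (M.φ a) hv p.1) :
    (fun K => (ifm M hk a w hv p) '' K) '' cfg (M.mesh hk (M.φ a) hv) (Sum.inr p) ∈
      iSh M X (icl M W (ipot M hk a w hv p)) := by
  have hmem := mem_itile M hk a w hv p
  obtain ⟨j, i⟩ := p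
  have hmem' := hmem
  unfold ifm ifr
  rcases inner_good' M hk (M.φ a) hv X RPx i hp with ⟨τ, h1, h2, h3, h4⟩ | ⟨h2, h3, -, h4⟩ |
    ⟨⟨τ, h1, h1'⟩, h2, h4⟩
  · -- far cube
    have hn : inm M hk a w hv j i = Sum.inl (τ.1.1.1.k, τ.1.1.1.z) := by
      unfold inm
      rw [h1]
      rfl
    have h5 : ¬ (cube (M.Q j) τ.1.1.1.k τ.1.1.1.z ∩ frontier (M.Q j).N).Nonempty := by
      intro h
      have h6 := (touch_iff M hk a w hv j i).2 (by rw [hn]; exact h)
      rw [Set.disjoint_iff_inter_eq_empty, ← Set.not_nonempty_iff_eq_empty] at h2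
      exact h2 h6
    have h6 : ¬ (cube (M.Q j) τ.1.1.1.k τ.1.1.1.z ∩
        (M.Q j).S.bp (M.Q j).ψ (M.Q j).a' (M.Q j).kc).Nonempty := by
      intro h
      have h6 := (bp_iff M hk a w hv j i).2 (by rw [hn]; exact h)
      rw [Set.disjoint_iff_inter_eq_empty, ← Set.not_nonempty_iff_eq_empty] at h3
      exact h3 h6
    have e : ipot M hk a w hv ⟨j, i⟩ = Sum.inl ⟨j, Sum.inl (τ.1.1.1.k, τ.1.1.1.z)⟩ := by
      unfold ipot
      simp only []
      rw [hn]
      exact ipt_in M w j h5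
    have ek : kd M j (Sum.inl (τ.1.1.1.k, τ.1.1.1.z)) = Kd.far := if_neg h6
    rw [e] at hmem ⊢
    rw [ibl_inl] at hmem ⊢
    have eχ : iχ M k W (Sum.inl ⟨j, Sum.inl (τ.1.1.1.k, τ.1.1.1.z)⟩) =
        chi (M.Q j).ψ (M.Q j).a' (τ.1.1.1.k + 1) := if_pos ek
    have ec : iSh M X (icl M W (Sum.inl ⟨j, Sum.inl (τ.1.1.1.k, τ.1.1.1.z)⟩)) =
        simL (N0 n) 1 2 := by
      have : icl M W (Sum.inl ⟨j, Sum.inl (τ.1.1.1.k, τ.1.1.1.z)⟩) = (j, Kd.far) := by
        show (j, kd M j _) = _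
        rw [ek]
      rw [this]
      rfl
    rw [ec, eχ]
    exact good_at h4 one_pos (N0_rat one_pos)
      (fun y => chi_tr (M.Q j).ψ (M.Q j).a' (a + (w j : E)) _ y) hmem
  · -- near the core
    have h5 : ¬ (til (M.Q j) (inm M hk a w hv j i) ∩ frontier (M.Q j).N).Nonempty := by
      intro h
      have h6 := (touch_iff M hk a w hv j i).2 h
      rw [Set.disjoint_iff_inter_eq_empty, ← Set.not_nonempty_iff_eq_empty] at h2
      exact h2 h6
    have h6 := (bp_iff M hk a w hv j i).1 h3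
    have h7 : inm M hk a w hv j i ≠ Sum.inr (M.Q j).S.core := by
      intro h
      rw [← inm_core M hk a w hv j] at h
      exact hp (inm_inj M hk a w hv j h)
    obtain ⟨t, ht⟩ : ∃ t, inm M hk a w hv j i = t := ⟨_, rfl⟩
    have e : ipot M hk a w hv ⟨j, i⟩ = Sum.inl ⟨j, t⟩ := by
      unfold ipot
      simp only []
      rw [ht] at h5 ⊢
      rcases t with p | s
      · exact ipt_in M w j h5
      · rfl
    rw [ht] at h6 h7
    have ek : kd M j t = Kd.near := by
      rcases t with p | s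
      · exact if_pos h6
      · exact if_neg fun h => h7 (by rw [h])
    rw [e] at hmem ⊢
    rw [ibl_inl] at hmem ⊢
    have eχ : iχ M k W (Sum.inl ⟨j, t⟩) = chi (M.Q j).ψ (M.Q j).a' (M.Q j).kc := by
      rcases t with p | s
      · refine if_neg ?_
        rw [ek]
        intro h
        cases h
      · rfl
    have ec : iSh M X (icl M W (Sum.inl ⟨j, t⟩)) = simL (NB n (X.B j)) 1 (X.R j) := by
      have : icl M W (Sum.inl ⟨j, t⟩) = (j, Kd.near) := by
        show (j, kd M j _) = _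
        rw [ek]
      rw [this]
      rfl
    rw [ec, eχ]
    exact good_at h4 one_pos (NB_rat _ one_pos)
      (fun y => chi_tr (M.Q j).ψ (M.Q j).a' (a + (w j : E)) _ y) hmem
  · -- at the wall
    have hn : inm M hk a w hv j i = Sum.inl (τ.1.1.1.k, τ.1.1.1.z) := by
      unfold inm
      rw [h1]
      rfl
    have h5 : (cube (M.Q j) τ.1.1.1.k τ.1.1.1.z ∩ frontier (M.Q j).N).Nonempty := by
      have h6 := (touch_iff M hk a w hv j i).1 h2
      rw [hn] at h6
      exact h6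
    have e : ipot M hk a w hv ⟨j, i⟩ = Sum.inr ⟨j, w j, τ.1.1.1.z⟩ := by
      unfold ipot
      simp only []
      rw [hn]
      exact ipt_wall M w j h5
    rw [e] at hmem ⊢
    exact good_at h4 (X.dpos j) (NR_rat (X.A j) (X.dpos j))
      (fun y => by
        have := chi_tr M.φ 0 a (k j) y
        rw [zero_add] at this
        exact this) hmem

end fields

end Crest.Agent.R096.Mfi_290
end

-- ▼ part R096/Mfi4_290

/-!
# Row 96, instance of `Pm_199.MF`: the bridge between 161's `PreMF` (edges from the cells) and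
880's `PT` (sums of potential tiles)

`RT J` = potential tiles with rigid frames, WITHOUT edges; `RT.toPT` adds 161's potential edges.
-/

set_option autoImplicit false
set_option linter.unusedSectionVars false

open MeasureTheory Set Filter Metric
open scoped Topology ENNReal

namespace Crest.Agent.R096.Mfi_290

open Crest.Agent.R096.Msh_715
open Crest.Agent.R096.SkC1_961 (E3 Cfg)
open Crest.Agent.R096.Ls_222 (Edg ea ev eIn mem_eIn sgm_edg ev_ne)
open Crest.Agent.R96.Sg1_199 (li sgm)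
open Crest.Agent.R96.Pm_199 (sh)
open Crest.Agent.R096.Mfa_880 (PT)

noncomputable section

/-- **potential tiles with rigid frames** (880's `PT` without the edges) -/
structure RT (J : Type) where
  κ : Type
  τ : Type
  cκ : Countable κ
  cτ : Countable τ
  cl : τ → κ
  bl : κ → Option J
  Til : τ → Set E3
  Ac : τ → Set E3
  Acm : ∀ t, MeasurableSet (Ac t)
  β : τ → ℝ
  Sh : κ → Set (Set (Set E3))
  shf : ∀ k, (Sh k).Finite
  frr : τ → E3 ≃ᵃ[ℝ] E3
  frn : ∀ t, ∀ y : E3, ‖(frr t).linear y‖ ≤ β t * ‖y‖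

variable {J : Type}

namespace RT

/-- the tile `i` of `T` is the potential tile `t` at the shifts `a, w` -/
structure Is (R : RT J) (a : E3) (w : J → E3) {Om : Set E3} {ι : Type} (T : Tiling Om ι) (i : ι)
    (t : R.τ) : Prop where
  act : sh (R.bl (R.cl t)) a w ∈ R.Ac t
  tile : P (T.H i) = (fun y => y + sh (R.bl (R.cl t)) a w) '' R.Til t
  shp : (fun K => ((shE (sh (R.bl (R.cl t)) a w)).trans (R.frr t)) '' K) '' Cfg T i ∈ R.Sh (R.cl t)

/-- the tile `i` of `T` is a potential tile at the shifts `a, w` -/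
def Cov (R : RT J) (a : E3) (w : J → E3) {Om : Set E3} {ι : Type} (T : Tiling Om ι) (i : ι) :
    Prop := ∃ t : R.τ, R.Is a w T i t

end RT

/-! ### potential segments -/

/-- the potential cells with all relative shifts -/
def KK (𝒦 : Set (Set E3)) (U : Set E3) : Set (Set E3) :=
  {Q | ∃ K ∈ 𝒦, ∃ u ∈ U, Q = Mfe_161.shf (-u) K}

theorem KK_countable {𝒦 : Set (Set E3)} {U : Set E3} (h𝒦 : 𝒦.Countable) (hU : U.Countable) :
    (KK 𝒦 U).Countable := by
  have h1 : KK 𝒦 U = ⋃ K ∈ 𝒦, ⋃ u ∈ U, {Mfe_161.shf (-u) K} := by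
    ext Q
    simp only [KK, mem_ofPred_eq, mem_iUnion, mem_singleton_iff, exists_prop]
  rw [h1]
  exact h𝒦.biUnion fun K _ => hU.biUnion fun u _ => countable_singleton _

/-- potential segments -/
def Sgt (𝒦 : Set (Set E3)) (U : Set E3) : Type :=
  {K : Set E3 // K ∈ KK 𝒦 U ∧ ∃ p : E3 × E3, p.2 ≠ 0 ∧ K = sgm p.1 p.2}

theorem Sgt_countable {𝒦 : Set (Set E3)} {U : Set E3} (h𝒦 : 𝒦.Countable) (hU : U.Countable) :
    Countable (Sgt 𝒦 U) := by
  have h1 : {K : Set E3 | K ∈ KK 𝒦 U ∧ ∃ p : E3 × E3, p.2 ≠ 0 ∧ K = sgm p.1 p.2}.Countable :=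
    (KK_countable h𝒦 hU).mono fun K hK => hK.1
  exact h1.to_subtype

/-- parametrisation of a potential segment -/
def Sgt.p {𝒦 : Set (Set E3)} {U : Set E3} (K : Sgt 𝒦 U) : E3 × E3 := K.2.2.choose

theorem Sgt.p_ne {𝒦 : Set (Set E3)} {U : Set E3} (K : Sgt 𝒦 U) : K.p.2 ≠ 0 :=
  K.2.2.choose_spec.1

theorem Sgt.p_eq {𝒦 : Set (Set E3)} {U : Set E3} (K : Sgt 𝒦 U) : K.1 = sgm K.p.1 K.p.2 :=
  K.2.2.choose_spec.2

namespace RT

variable (R : RT J) (𝒦 : Set (Set E3)) (U : Set E3)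

/-- the cells of the finite configurations of the list of a class -/
def shs (k : R.κ) : Set (Set E3) := ⋃₀ {c | c ∈ R.Sh k ∧ c.Finite}

theorem shs_finite (k : R.κ) : (R.shs k).Finite :=
  Set.Finite.sUnion ((R.shf k).subset fun _ hc => hc.1) fun _ hc => hc.2

/-- the potential edges of the potential tile `t` -/
def EdS (t : R.τ) : Set (Sgt 𝒦 U) := {K | K.1 ⊆ R.Til t ∧ R.frr t '' K.1 ∈ R.shs (R.cl t)}

theorem EdS_injOn (t : R.τ) : InjOn (fun K : Sgt 𝒦 U => R.frr t '' K.1) (R.EdS 𝒦 U t) := by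
  intro K _ K' _ e
  exact Subtype.ext ((R.frr t).injective.image_injective e)

theorem EdS_finite (t : R.τ) : (R.EdS 𝒦 U t).Finite := by
  refine Set.Finite.of_finite_image ?_ (R.EdS_injOn 𝒦 U t)
  refine (R.shs_finite (R.cl t)).subset ?_
  rintro _ ⟨j, hj, rfl⟩
  exact hj.2

/-- **880's `PT` with 161's potential edges** -/
def toPT (h𝒦 : 𝒦.Countable) (hU : U.Countable) : PT J where
  κ := R.κ
  τ := R.τ
  η := Sgt 𝒦 U
  cκ := R.cκ
  cτ := R.cτ
  cη := Sgt_countable h𝒦 hU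
  cl := R.cl
  bl := R.bl
  Til := R.Til
  Ac := R.Ac
  Acm := R.Acm
  x K := K.p.1
  v K := K.p.2
  Ed t := (R.EdS_finite 𝒦 U t).toFinset
  sub t K hK := by
    rw [Set.Finite.mem_toFinset] at hK
    refine ⟨K.p_ne, ?_⟩
    rw [← K.p_eq]
    exact hK.1
  β := R.β
  Sh := R.Sh
  shf := R.shf

variable {R 𝒦 U}

/-- a closed 1-cell of the mesh as a potential segment -/
theorem exists_seg {Om : Set E3} {ι : Type} {T : Tiling Om ι} {a s : E3}
    (hcell : ∀ z ∈ Om, ∃ K ∈ 𝒦, T.cc z = Mfe_161.shf a K) (hs : s - a ∈ U) (e : Edg T) :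
    ∃ K : Sgt 𝒦 U, K.1 = Mfe_161.shf (-s) e.1 ∧ e.1 = sgm (K.p.1 + s) K.p.2 := by
  have hK : Mfe_161.shf (-s) e.1 ∈ KK 𝒦 U := by
    obtain ⟨x, hx, -, he⟩ := e.2
    obtain ⟨K, hK, hc⟩ := hcell x hx
    refine ⟨K, hK, s - a, hs, ?_⟩
    rw [he, hc, Mfe_161.shf_shf, show -s + a = -(s - a) by abel]
  refine ⟨⟨Mfe_161.shf (-s) e.1, hK, (ea e + -s, ev e), ev_ne e, ?_⟩, rfl, ?_⟩
  · rw [← sgm_edg e, Mfe_161.shf_sgm]
  · set K : Sgt 𝒦 U := ⟨Mfe_161.shf (-s) e.1, hK, (ea e + -s, ev e), ev_ne e, by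
      rw [← sgm_edg e, Mfe_161.shf_sgm]⟩ with hKd
    rw [← Mfe_161.shf_sgm, ← K.p_eq]
    show e.1 = Mfe_161.shf s (Mfe_161.shf (-s) e.1)
    rw [Mfe_161.shf_neg']

/-- **the bridge** -/
theorem Is.toPT {a : E3} {w : J → E3} {Om : Set E3} {ι : Type} {T : Tiling Om ι} {i : ι} {t : R.τ}
    (h : R.Is a w T i t) (h𝒦 : 𝒦.Countable) (hU : U.Countable)
    (hcell : ∀ z ∈ Om, ∃ K ∈ 𝒦, T.cc z = Mfe_161.shf a K)
    (hs : sh (R.bl (R.cl t)) a w - a ∈ U) : (R.toPT 𝒦 U h𝒦 hU).Is a w T i t where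
  act := h.act
  tile := h.tile
  tedge e he := by
    have hsub := mem_eIn.1 he
    set s := sh (R.bl (R.cl t)) a w with hsd
    obtain ⟨K, hK1, hK2⟩ := exists_seg hcell hs e
    rw [hK2]
    refine subset_iUnion₂_of_subset K ?_ (subset_refl _)
    show K ∈ (R.EdS_finite 𝒦 U t).toFinset
    rw [Set.Finite.mem_toFinset]
    refine ⟨?_, ?_⟩
    · rw [hK1]
      have h1 := h.tile
      change _ = Mfe_161.shf s _ at h1
      rw [h1] at hsub
      have h2 := image_mono (f := fun y => y + -s) hsub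
      change Mfe_161.shf _ _ ⊆ Mfe_161.shf _ (Mfe_161.shf _ _) at h2
      rwa [Mfe_161.shf_neg] at h2
    · refine mem_sUnion.2 ⟨_, ⟨h.shp, ?_⟩, ?_⟩
      · refine Set.Finite.image _ ?_
        refine (T.finite_cells (T.cpt i) (T.sub i)).subset ?_
        rintro _ ⟨x, hx, rfl⟩
        exact ⟨⟨x, T.sub i hx, rfl⟩, x, T.self_mem_cc x, hx⟩
      · obtain ⟨x, hx, -, hex⟩ := e.2
        refine ⟨e.1, ⟨x, hsub ?_, hex⟩, ?_⟩
        · rw [hex]
          exact T.self_mem_cc x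
        · rw [hK1]
          show ((shE s).trans (R.frr t)) '' e.1 = R.frr t '' (Mfe_161.shf (-s) e.1)
          unfold Mfe_161.shf
          rw [image_image]
          refine image_congr fun y _ => ?_
          rw [AffineEquiv.trans_apply, shE_apply, sub_eq_add_neg]
  frm := by
    refine ⟨(shE (sh (R.bl (R.cl t)) a w)).trans (R.frr t), fun y => ?_, h.shp⟩
    rw [shE_trans_linear]
    exact R.frn t y

theorem Cov.toPT {a : E3} {w : J → E3} {Om : Set E3} {ι : Type} {T : Tiling Om ι} {i : ι}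
    (h : R.Cov a w T i) (h𝒦 : 𝒦.Countable) (hU : U.Countable)
    (hcell : ∀ z ∈ Om, ∃ K ∈ 𝒦, T.cc z = Mfe_161.shf a K)
    (h0 : (0 : E3) ∈ U) (hw : ∀ j, w j ∈ U) : (R.toPT 𝒦 U h𝒦 hU).Cov a w T i := by
  obtain ⟨t, ht⟩ := h
  refine ⟨t, ht.toPT h𝒦 hU hcell ?_⟩
  rcases R.bl (R.cl t) with _ | j
  · show a - a ∈ U
    rw [sub_self]
    exact h0
  · show a + w j - a ∈ U
    rw [add_sub_cancel_left]
    exact hw j

variable (R 𝒦 U)

/-- the number of potential edges of a potential tile -/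
theorem card_Ed_le (h𝒦 : 𝒦.Countable) (hU : U.Countable) (t : R.τ) :
    ((R.toPT 𝒦 U h𝒦 hU).Ed t).card ≤ (R.shs (R.cl t)).ncard := by
  rw [← Set.ncard_coe_finset]
  show ((R.EdS_finite 𝒦 U t).toFinset : Set (Sgt 𝒦 U)).ncard ≤ _
  rw [Set.Finite.coe_toFinset]
  exact Set.ncard_le_ncard_of_injOn (fun K : Sgt 𝒦 U => R.frr t '' K.1)
    (fun K hK => hK.2) (R.EdS_injOn 𝒦 U t) (R.shs_finite _)

/-- the potential edges of a potential tile are cells of the list of the class in the rigid frame -/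
theorem mem_Ed (h𝒦 : 𝒦.Countable) (hU : U.Countable) {t : R.τ} {K : Sgt 𝒦 U}
    (hK : K ∈ (R.toPT 𝒦 U h𝒦 hU).Ed t) :
    K.p.2 ≠ 0 ∧ sgm K.p.1 K.p.2 ⊆ R.Til t ∧ R.frr t '' sgm K.p.1 K.p.2 ∈ R.shs (R.cl t) := by
  have h1 : K ∈ R.EdS 𝒦 U t := (Set.Finite.mem_toFinset _).1 hK
  refine ⟨K.p_ne, ?_, ?_⟩
  · rw [← K.p_eq]
    exact h1.1
  · rw [← K.p_eq]
    exact h1.2

/-! ### sums -/

/-- sum of countably many structures -/
def sigma {B : Type} [Countable B] (Q : B → RT J) : RT J where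
  κ := Σ b, (Q b).κ
  τ := Σ b, (Q b).τ
  cκ := by have := fun b => (Q b).cκ; infer_instance
  cτ := by have := fun b => (Q b).cτ; infer_instance
  cl t := ⟨t.1, (Q t.1).cl t.2⟩
  bl k := (Q k.1).bl k.2
  Til t := (Q t.1).Til t.2
  Ac t := (Q t.1).Ac t.2
  Acm t := (Q t.1).Acm t.2
  β t := (Q t.1).β t.2
  Sh k := (Q k.1).Sh k.2
  shf k := (Q k.1).shf k.2
  frr t := (Q t.1).frr t.2
  frn t := (Q t.1).frn t.2

/-- sum of two structures -/
def sum (Q R : RT J) : RT J where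
  κ := Q.κ ⊕ R.κ
  τ := Q.τ ⊕ R.τ
  cκ := by have := Q.cκ; have := R.cκ; infer_instance
  cτ := by have := Q.cτ; have := R.cτ; infer_instance
  cl := Sum.map Q.cl R.cl
  bl := Sum.elim Q.bl R.bl
  Til := Sum.elim Q.Til R.Til
  Ac := Sum.elim Q.Ac R.Ac
  Acm t := by
    rcases t with t | t
    · exact Q.Acm t
    · exact R.Acm t
  β := Sum.elim Q.β R.β
  Sh := Sum.elim Q.Sh R.Sh
  shf k := by
    rcases k with k | k
    · exact Q.shf k
    · exact R.shf k
  frr := Sum.elim Q.frr R.frr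
  frn t := by
    rcases t with t | t
    · exact Q.frn t
    · exact R.frn t

variable {R}

theorem Is.sg {B : Type} [Countable B] {Q : B → RT J} {a : E3} {w : J → E3} {Om : Set E3}
    {ι : Type} {T : Tiling Om ι} {i : ι} {b : B} {t : (Q b).τ} (h : (Q b).Is a w T i t) :
    (sigma Q).Is a w T i ⟨b, t⟩ := ⟨h.act, h.tile, h.shp⟩

theorem Cov.sg {B : Type} [Countable B] {Q : B → RT J} {a : E3} {w : J → E3} {Om : Set E3}
    {ι : Type} {T : Tiling Om ι} {i : ι} {b : B} (h : (Q b).Cov a w T i) :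
    (sigma Q).Cov a w T i := by
  obtain ⟨t, ht⟩ := h
  exact ⟨_, ht.sg⟩

theorem Is.inl {Q R : RT J} {a : E3} {w : J → E3} {Om : Set E3} {ι : Type} {T : Tiling Om ι}
    {i : ι} {t : Q.τ} (h : Q.Is a w T i t) : (Q.sum R).Is a w T i (Sum.inl t) :=
  ⟨h.act, h.tile, h.shp⟩

theorem Is.inr {Q R : RT J} {a : E3} {w : J → E3} {Om : Set E3} {ι : Type} {T : Tiling Om ι}
    {i : ι} {t : R.τ} (h : R.Is a w T i t) : (Q.sum R).Is a w T i (Sum.inr t) :=
  ⟨h.act, h.tile, h.shp⟩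

theorem Cov.inl {Q R : RT J} {a : E3} {w : J → E3} {Om : Set E3} {ι : Type} {T : Tiling Om ι}
    {i : ι} (h : Q.Cov a w T i) : (Q.sum R).Cov a w T i := by
  obtain ⟨t, ht⟩ := h
  exact ⟨_, ht.inl⟩

theorem Cov.inr {Q R : RT J} {a : E3} {w : J → E3} {Om : Set E3} {ι : Type} {T : Tiling Om ι}
    {i : ι} (h : R.Cov a w T i) : (Q.sum R).Cov a w T i := by
  obtain ⟨t, ht⟩ := h
  exact ⟨_, ht.inr⟩

end RT

end

end Crest.Agent.R096.Mfi_290
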