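import Crest.Agent.R096.Bd19_416

/-!
# R096 (row 96), P4-MESH: edges with margin and the mixed mesh (helper662)

* `ratio_self`, `ratio_face`, `ratio_edge`: the exact factors of `Trk.new`;
* `exists_edM`, `exists_newCell_edgeM`: equidistant weighted positions with a margin `δ` at the ends;
* `mesh_mix`: `mesh_cone` with a set `N` of designated cells for which the rule is a hypothesis.
-/

set_option autoImplicit false

open Set Metric Filter Topology

namespace Crest.Agent.R096.Mmx_662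

open Crest.Agent.R096.Ce_537 Crest.Agent.R096.Bd_416

open scoped Classical

set_option linter.unusedSectionVars false

/-- a cell which has just been filled has the factor `1` -/
lemma ratio_self {b : ℕ → ℝ} (hb : ∀ n, 0 < b n) (m : ℕ) :
    bet b (m + 1) / bet b (m + 1) = 1 := div_self (bet_pos hb _).ne'



/-- positions in a given order, widths proportional to the weights, margin `δ` at the ends -/
theorem exists_edM {ι : Type*} [Fintype ι] (k : ι → ℕ) (hk : Function.Injective k) (w : ι → ℝ)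
    (hw : ∀ i, 0 < w i) {u : ℝ} (hu : 0 < u) (hs : u * ∑ i, w i ≤ 1/2) {ε : ℝ} (he : 0 < ε)
    (he1 : ε < 1) {δ : ℝ} (hδ : 0 ≤ δ) (hδ1 : δ < 1) :
    ∃ p : ι → ℝ, Ed (fun i => 4 * (1 - δ) * (1 - ε) * u * w i) p ∧
      (∀ i, |p i| + 4 * (1 - δ) * (1 - ε) * u * w i / 2 < 1 - δ) ∧
      ∀ i j, k j < k i → p j < p i := by
  obtain ⟨p, hE, hp⟩ := exists_ed k hk w hw hu hs he he1
  have hd : 0 < 1 - δ := by linarith
  have hwid : ∀ i, 4 * (1 - δ) * (1 - ε) * u * w i = (1 - δ) * (4 * (1 - ε) * u * w i) :=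
    fun i => by ring
  refine ⟨fun i => (1 - δ) * p i, ⟨fun i => ?_, fun i => ?_, fun i => ?_, fun i j hij => ?_⟩,
    fun i => ?_, fun i j h => ?_⟩
  · show 0 < 4 * (1 - δ) * (1 - ε) * u * w i
    rw [hwid]; exact mul_pos hd (hE.w0 i)
  · show -1 < (1 - δ) * p i - 4 * (1 - δ) * (1 - ε) * u * w i / 2
    rw [hwid]
    have := hE.lo i
    nlinarith
  · show (1 - δ) * p i + 4 * (1 - δ) * (1 - ε) * u * w i / 2 < 1
    rw [hwid]
    have := hE.hi i
    nlinarith
  · show (4 * (1 - δ) * (1 - ε) * u * w i + 4 * (1 - δ) * (1 - ε) * u * w j) / 2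
      < |(1 - δ) * p i - (1 - δ) * p j|
    rw [hwid, hwid, ← mul_sub, abs_mul, abs_of_pos hd]
    have := hE.sep i j hij
    nlinarith
  · show |(1 - δ) * p i| + 4 * (1 - δ) * (1 - ε) * u * w i / 2 < 1 - δ
    rw [hwid, abs_mul, abs_of_pos hd]
    have h1 := hE.lo i
    have h2 := hE.hi i
    have h3 : |p i| + 4 * (1 - ε) * u * w i / 2 < 1 := by
      rcases abs_cases (p i) with ⟨h, -⟩ | ⟨h, -⟩ <;> rw [h] <;> linarith
    nlinarith
  · exact mul_lt_mul_of_pos_left (hp i j h) hd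

variable {Q : Type} [PartialOrder Q] {dim : Q → ℕ} {J Fam : Type}
variable {E : Type*} [NormedAddCommGroup E] [NormedSpace ℝ E]
variable {C : Cmb Q dim J Fam} {K : Q → Set E} {D : Set Q} {g : Gd E J}
  {P : ∀ q, C.I q → Set E} {c : ∀ q, C.I q → E → ℝ} {b : ℝ} {Ω : Set E}

/-- **new edges with weights and margin** -/
theorem exists_newCell_edgeM (H : Inv C K D g P c) (X : Cplx Ω Q dim K) {τ : Q}
    (hτ : ∀ σ < τ, σ ∈ D) (hd : dim τ = 1) (h0 : 0 < b) (h2 : b < 1/2)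
    (e : PLEquiv (cube 1) (K τ)) (he : e.f '' sph 1 = bdS K τ)
    (hbase : e.f (fun _ => -1) ∈ K (C.o τ)) (k : C.I τ → ℕ) (hk : Function.Injective k)
    (ord : ∀ x x', x ≠ x' → C.fam (C.col τ x) = C.fam (C.col τ x') →
      (k x' < k x → C.side τ x x' = 1) ∧ (k x < k x' → C.side τ x x' = 0))
    (w : C.I τ → ℝ) (hw : ∀ i, 0 < w i) {u : ℝ} (hu : 0 < u) (hs : u * ∑ i, w i ≤ 1/2) {ε : ℝ}
    (he0 : 0 < ε) (he1 : ε < 1) {δ : ℝ} (hδ : 0 ≤ δ) (hδ1 : δ < 1) :
    ∃ (p : C.I τ → ℝ) (hE : Ed (fun i => 4 * (1 - δ) * (1 - ε) * u * w i) p),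
      (∀ i, |p i| + 4 * (1 - δ) * (1 - ε) * u * w i / 2 < 1 - δ) ∧
      (∀ i j, k j < k i → p j < p i) ∧
      NewCell C K g c b τ ((edgeLam hE).pull e.symm (X.isClosed τ)) := by
  obtain ⟨p, hE, hm, hp⟩ := exists_edM k hk w hw hu hs he0 he1 hδ hδ1
  refine ⟨p, hE, hm, hp, newCell_edge H X hτ hd h0 h2 e he hbase hE fun x x' hne hf => ?_⟩
  have hkk : ∀ x x', p x' < p x → k x' < k x := by
    intro x x' h
    rcases lt_trichotomy (k x') (k x) with h1 | h1 | h1
    · exact h1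
    · rw [hk h1] at h; exact absurd h (lt_irrefl _)
    · exact absurd (hp x' x h1) (not_lt.2 h.le)
  exact ⟨fun h => (ord x x' hne hf).1 (hkk x x' h), fun h => (ord x x' hne hf).2 (hkk x' x h)⟩

/-! ### the mixed mesh -/

section mix

variable {R : Set Q} {g0 : Gd E J} {P0 : ∀ q, C.I q → Set E} {c0 : ∀ q, C.I q → E → ℝ}
  {Y : Type*} [PseudoMetricSpace Y]


end mix

end Crest.Agent.R096.Mmx_662
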