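import Mathlib
import Crest.Agent.R096.Mxo1_487
import Crest.Agent.R096.Fk13_522
import Crest.Agent.R096.Fsw24_928
import Crest.Agent.R096.Mmx1_662
import Crest.Agent.R096.Fsw29_928
import Crest.Agent.R096.Mxs0_487
import Crest.Agent.R96.Nu6_199
import Crest.Agent.R096.Arc13_778
import Crest.Agent.R096.Mno2_534

-- ▼ part R096/Mxo4_487
section

/-!
# R096 (row 96), helper487.  `StO.meshX1` : the mixed mesh over the final state with ONE given base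
(446's `base_R`).
-/

set_option autoImplicit false
set_option linter.unusedSectionVars false
set_option linter.style.longLine false

open Set Metric Filter Topology Module

namespace Crest.Agent.R096.Mxo_487

open Crest.Agent.R096.St_147 Crest.Agent.R096.Seq_213 Crest.Agent.R096.Seq_213.GSt
  Crest.Agent.R096.Bd_416 Crest.Agent.R096.Mg_441 Crest.Agent.R096.Lm_117
  Crest.Agent.R096.Cp_298 Crest.Agent.R096.Gl_422
  Crest.Agent.R096.On_441 Crest.Agent.R096.SkB_662 Crest.Agent.R096.Ce_537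
  Crest.Agent.R096.Arc_778
open Crest.Agent.R096.Msh_715 Crest.Agent.R096.Ecm_446 Crest.Agent.R096.Csub_487
open Crest.Agent.R096.SkC1_961 (E3 FoamD)
open Crest.Agent.R096.Fl_835 (wk)
open Crest.Agent.R096.Mi_117
open Crest.Agent.R96.Nu1_199 Crest.Agent.R96.Nu2_199 Crest.Agent.R96.Nu3_199
  Crest.Agent.R96.Nu4_199 Crest.Agent.R96.Nu5_199 Crest.Agent.R96.Nu6_199
open Crest.Agent.R96.Nu7_199 (WE WE_nonneg finite_above)
open Crest.Agent.R096.Nk_955 Crest.Agent.R096.Be_416 Crest.Agent.R096.Mxs_487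

open scoped Classical

/-! ### the final state -/

section sto

variable {ι Φc Q J Kq C : Type} {W : Type} {M : MeshC ι Φc W} [PartialOrder Q] {dim : Q → ℕ}
  {L : LM M Q dim} {O : Ori M} {τ : Q → ZMod 2} {Rel : W → W → Prop} {Vc : Set W}
  {Qd : Quads ι C Kq} {κ : C → ℕ} {fam : J → C} {s₀ : GSt M fam} {far₀ : J → Set W}
  {Z : C → Set Q} {lam₀ : J → Q → ZMod 2} {v₀ v₁ : C → Q}
  {hfin : ∀ a, {j | fam j = a}.Finite} {kap : C → ℕ} {s : GSt M (fam' fam (Rk κ kap))}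
  {far : Nm' fam (Rk κ kap) → Set W} {β : W → W} {lam : Nm' fam (Rk κ kap) → Q → ZMod 2}
variable {E : Type*} [NormedAddCommGroup E] [NormedSpace ℝ E] [FiniteDimensional ℝ E]
variable {K : Q → Set E} {Ω : Set E} {ε Kb KN : ℝ} {b : ℕ → ℝ}

/-- **THE MIXED MESH OVER THE FINAL STATE** (534 #11119 (M1)); the tolerances come first, they are
monotone and below a given positive function -/
theorem StO.meshX1 (h : StO L O τ Rel Vc Qd κ s₀ far₀ Z lam₀ v₀ v₁ hfin kap s far β lam)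
    {Rb : Set Q} {g0 : Gd E (Nm' fam (Rk κ kap))}
    {P0 : ∀ q, h.cmb.I q → Set E} {c0 : ∀ q, h.cmb.I q → E → ℝ}
    (X : Cplx Ω Q dim K) (T : Top3 L) (hconv : ∀ τ, Convex ℝ (K τ))
    (hcpt : ∀ τ, IsCompact (K τ)) (hbd : ∀ τ, bdS K τ = K τ \ ri (K τ))
    (hb0 : ∀ n, 0 < b n) (hb2 : ∀ n, b n < 1/2) (hε0 : 0 < ε) (hε1 : ε < 1)
    {δm : ℝ} (hδm : 0 ≤ δm) (hδm1 : δm < 1) {ε' : ℝ} (hε'0 : 0 < ε') (hε'1 : ε' < 1)
    (hKb : 0 ≤ Kb) (hKN : 0 ≤ KN) (B : BaseC h.cmb K (wts κ kap fam) Kb Rb g0 P0 c0)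
    (d0 : Q → ℝ) (hd0 : ∀ q, 0 < d0 q) :
    ∃ δ : Q → ℝ, (∀ q, 0 < δ q) ∧ (∀ q, δ q ≤ d0 q) ∧ (∀ σ τ : Q, σ ≤ τ → δ σ ≤ δ τ) ∧
      (∀ q, 0 < WE X h.cmb (wts κ kap fam) q → ∀ σ ≤ q, δ σ ≤ WE X h.cmb (wts κ kap fam) q) ∧
      ∀ (N : Set Q) (_ : ∀ τ ∈ N, 2 ≤ dim τ)
      (th : Q → ℝ) (_ : ∀ τ, 0 < th τ) (_ : ∀ τ, th τ ≤ 1)
      (_ : ∀ τ ∉ Rb, τ ∉ N → 2 ≤ dim τ → th τ = 1)
      (_ : ∀ τ ∉ Rb, dim τ = 1 → 1 - ε' ≤ (1 - δm) * (1 - ε) * th τ)
      (SpecX : ∀ q, Bd_416.Lam (K q) (h.cmb.I q) → Prop)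
      (_ : ∀ τ ∉ Rb, dim τ = 0 → ∀ M, SpecX τ M)
      (_ : ∀ τ ∉ Rb, dim τ = 1 → ∀ (e : PLEquiv (cube 1) (K τ)), AffC e →
        e.f '' sph 1 = bdS K τ →
        e.f (fun _ => -1) ∈ K (h.cmb.o τ) → ∀ (p : h.cmb.I τ → ℝ)
        (hE : Ed (fun i => 4 * (1 - δm) * (1 - ε) * (th τ * uq h.cmb (wts κ kap fam) δ τ) *
          wts κ kap fam (h.cmb.col τ i)) p),
        (∀ i, |p i| + 4 * (1 - δm) * (1 - ε) * (th τ * uq h.cmb (wts κ kap fam) δ τ) *
          wts κ kap fam (h.cmb.col τ i) / 2 < 1 - δm) →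
        (∀ i j, ek h.lfs τ j < ek h.lfs τ i → p j < p i) →
        SpecX τ ((edgeLam hE).pull e.symm (X.isClosed τ)))
      (_ : ∀ D' g P c (H : Inv h.cmb K D' g P c), ∀ τ, 2 ≤ dim τ →
        (∀ q ∈ D', TrkX (h := h.lfs) (Lam := Lf lam) (hLam := xlf h.lab.lab) X Rb
          g0 P0 c0 SpecX (K0x Rb Kb KN) δ ε' b (wts κ kap fam)
          (dim τ) g P c q) →
        ∀ (_ : τ ∉ Rb) (_ : τ ∉ N) (hτ : ∀ σ < τ, σ ∈ D') (κ' : ℝ)
        (ρ : h.cmb.I τ → ℝ)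
        (Dp : Dep (bdLam H X τ hτ) κ' (b (dim τ)) (fun x =>
          (th τ * uq h.cmb (wts κ kap fam) δ τ) * wts κ kap fam (h.cmb.col τ x)) ρ),
        (∀ x x', RlG h.cmb K c τ x x' → ρ x' < ρ x) →
        ∀ (e : PLEquiv (cube (dim τ)) (K τ)) (he : e.f '' sph (dim τ) = bdS K τ),
        SpecX τ (Dp.fillBall e he))
      (_ : ∀ D' g P c (H : Inv h.cmb K D' g P c), ∀ τ ∈ N,
        (∀ q ∈ D', TrkX (h := h.lfs) (Lam := Lf lam) (hLam := xlf h.lab.lab) X Rb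
          g0 P0 c0 SpecX (K0x Rb Kb KN) δ ε' b (wts κ kap fam)
          (dim τ) g P c q) →
        τ ∉ Rb → ∀ hτ : ∀ σ < τ, σ ∈ D',
        ∃ (e' : PLEquiv (cube (dim τ)) (K τ)) (he' : e'.f '' sph (dim τ) = bdS K τ)
          (κ' : ℝ) (h' ρ : h.cmb.I τ → ℝ) (Dp : Dep (bdLam H X τ hτ) κ' (b (dim τ)) h' ρ),
          (∀ x x', RlG h.cmb K c τ x x' → ρ x' < ρ x) ∧ SpecX τ (Dp.fillBall e' he') ∧
          ∀ B : E ≃ᵃ[ℝ] E, ∀ x, ∀ z ∈ K τ,
            LB B (K0x Rb Kb KN τ * (AAc (dim τ) (B '' K τ) *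
              (Wd h.cmb (wts κ kap fam) τ + δ τ)) / wts κ kap fam (h.cmb.col τ x))
              ((Dp.fillBall e' he').c x) (K τ) z),
      ∃ g P c, Inv h.cmb K univ g P c ∧ MGeo h.lfs (Lf lam) (xlf h.lab.lab) K Rb c ∧
        (∀ q, TrkX (h := h.lfs) (Lam := Lf lam) (hLam := xlf h.lab.lab) X Rb g0
          P0 c0 SpecX (K0x Rb Kb KN) δ ε' b (wts κ kap fam) 4 g P c q) ∧
        ∀ q ∈ Rb, ∀ z ∈ K q, EqAt (sqs g0 b 4) g z := by
  obtain ⟨δ, h1, h2, h3, h4⟩ := exists_deltaM X h.cmb (wts κ kap fam) d0 hd0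
  refine ⟨δ, h1, h2, h3, h4, fun N hN2 th hth0 hth1 hth hε' SpecX hX0 hX1 hX2 ruleN => ?_⟩
  obtain ⟨g, P, c, H, G, hT⟩ := mesh_instT (h := h.lfs) (Lam := Lf lam) (hLam := xlf h.lab.lab) X T
    hconv hcpt hbd (fun j => by positivity) hb0 hb2 hε0 hε1 hδm hδm1 hε'0 hε'1 N hN2 hth0 hth1 hth
    hε' (K0x_nonneg hKN) (fun σ τ hστ => K0x_mono hKb hστ.le) h1 B (fun q hq => le_K0x_of_mem hq)
    SpecX hX0 hX1 hX2 ruleN
  exact ⟨g, P, c, H, G, hT, fun q hq z hz => (hT q).eqR hq z hz⟩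

end sto

end Crest.Agent.R096.Mxo_487
end

-- ▼ part R096/Fk14_522
section

/-!
# R096 (row 96), P4-FACE, combinatorics, part 14: the rule of the designated 2-cells in the mixed
mesh (helper522)
-/

set_option autoImplicit false
set_option linter.unusedSectionVars false

open Set Metric Filter Topology

namespace Crest.Agent.R096.Fk_522

open Crest.Agent.R096.Ce_537 Crest.Agent.R096.Bd_416 Crest.Agent.R096.Fsw_928
open Crest.Agent.R096.Pc_117 (LL)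

open scoped Classical

variable {Q : Type} [PartialOrder Q] {dim : Q → ℕ} {J Fam : Type}
variable {E : Type*} [NormedAddCommGroup E] [NormedSpace ℝ E]

/-- **edges**: affine coordinate `χ`, widths `wd * wt`, margin `δ` -/
def SpecE (C : Cmb Q dim J Fam) (K : Q → Set E) (wt : J → ℝ) (δ : ℝ) (wd : Q → ℝ)
    (χ : Q → E → ℝ) (q : Q) (M : Lam (K q) (C.I q)) : Prop :=
  dim q = 1 → ∃ (o : ℝ) (p : C.I q → ℝ), (o = 1 ∨ o = -1) ∧
    Ed (fun y => wd q * wt (C.col q y)) p ∧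
    (∀ y, |p y| + wd q * wt (C.col q y) / 2 < 1 - δ) ∧
    ∀ y, ∀ z ∈ K q, M.c y z = ramp (wd q * wt (C.col q y)) (p y) (o * χ q z)

/-- **a designated 2-cell**: chart, coordinates of the edges -/
structure Des (C : Cmb Q dim J Fam) (K : Q → Set E) (χ : Q → E → ℝ) (τ : Q) where
  S : SqC C τ
  d2 : dim τ = 2
  A : PLEquiv (cube 2) (K τ)
  sph : A.f '' sph 2 = bdS K τ
  side : ∀ s t, |t| ≤ 1 → A.f (sd s t) ∈ K (S.es s)
  base : A.f (sd 1 1) ∈ K (C.o τ)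
  θ : Fin 4 → ℝ
  θ1 : ∀ s, θ s = 1 ∨ θ s = -1
  χA : ∀ s t, |t| ≤ 1 → χ (S.es s) (A.f (sd s t)) = θ s * t

/-- the widths on the four sides -/
def Des.nu {C : Cmb Q dim J Fam} {K : Q → Set E} {χ : Q → E → ℝ} {τ : Q} (G : Des C K χ τ)
    (wd : Q → ℝ) (s : Fin 4) : ℝ := wd (G.S.es s)

/-- **the structure on a designated 2-cell** -/
def SpecF (C : Cmb Q dim J Fam) (K : Q → Set E) (wt : J → ℝ) (δ : ℝ) (wd : Q → ℝ)
    (χ : Q → E → ℝ) (P P' : Par) (b η : ℝ) {τ : Q} (G : Des C K χ τ)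
    (M : Lam (K τ) (C.I τ)) : Prop :=
  ∃ (L : Lam (sph 2) (C.I τ)) (B : BwF G.S wt (G.nu wd) δ L) (κ : ℝ)
    (Rl : C.I τ → C.I τ → Prop)
    (T : Bw.Dpt B.toBw P P' κ b (lg B.toBw (fun x => wt (C.col τ x)) (G.nu wd)) Rl
      (6 * η) (6 * η)),
    ∀ x, ∀ z ∈ cube 2, M.c x (G.A.f z) = ff T.D P P' x z

/-- numbers of a designated 2-cell -/
structure NumF {C : Cmb Q dim J Fam} {τ : Q} (S : SqC C τ) (wt : J → ℝ) (ν : Fin 4 → ℝ)
    (a : Fin 2 → ℝ) (m δ η : ℝ) : Prop where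
  ν0 : ∀ s, 0 < ν s
  m0 : 0 ≤ m
  η11 : ∀ s, 11 * (ν s * m) ≤ η ∨ ∑ y, S.wd wt ν s y ≤ η
  full : ∀ s, a (dr s) ≠ 0 → 2 * (1 - δ) - η ≤ ∑ y, S.wd wt ν s y
  νν : ∀ s s', dr s = dr s' → a (dr s) ≠ 0 → |ν s - ν s'| ≤ η * ν s

variable {C : Cmb Q dim J Fam} {K : Q → Set E} {D : Set Q} {g : Gd E J}
  {P : ∀ q, C.I q → Set E} {c : ∀ q, C.I q → E → ℝ} {Ω : Set E}

/-- the chart of a new edge -/
lemma specE_edge {wt : J → ℝ} {δ : ℝ} {wd : Q → ℝ} {χ : Q → E → ℝ} {τ : Q}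
    (hcl : IsClosed (K τ)) (e : PLEquiv (cube 1) (K τ))
    (hχ : (∀ z ∈ K τ, e.g z 0 = χ τ z) ∨ (∀ z ∈ K τ, e.g z 0 = - χ τ z))
    {p : C.I τ → ℝ} (hE : Ed (fun y => wd τ * wt (C.col τ y)) p)
    (hm : ∀ y, |p y| + wd τ * wt (C.col τ y) / 2 < 1 - δ) :
    SpecE C K wt δ wd χ τ ((edgeLam hE).pull e.symm hcl) := by
  intro _
  rcases hχ with h | h
  · refine ⟨1, p, Or.inl rfl, hE, hm, fun y z hz => ?_⟩
    show ramp (wd τ * wt (C.col τ y)) (p y) (e.g z 0) = _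
    rw [h z hz, one_mul]
  · refine ⟨-1, p, Or.inr rfl, hE, hm, fun y z hz => ?_⟩
    show ramp (wd τ * wt (C.col τ y)) (p y) (e.g z 0) = _
    rw [h z hz, neg_one_mul]

/-- inclusion on the boundary -/
lemma inc_of_rlG (H : Inv C K D g P c) (X : Cplx Ω Q dim K) {τ : Q} (hτ : ∀ σ < τ, σ ∈ D)
    (hd : 2 ≤ dim τ) {L : Lam (sph 2) (C.I τ)} {A : (Fin 2 → ℝ) → E}
    (hA : ∀ ω ∈ sph 2, A ω ∈ bdS K τ) (hL : ∀ x, ∀ ω ∈ sph 2, L.c x ω = cbd C K c τ x (A ω))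
    {x x' : C.I τ} (h : Arc_778.RlG C K c τ x x') : Bw.Inc L x x' := by
  intro ω hω h0
  rw [hL x ω hω] at h0
  rw [hL x' ω hω]
  rcases h with h | h
  · rw [h.geo H X hτ hd _ (hA ω hω) (by linarith)]; norm_num
  · exact h.2.2 _ (hA ω hω) h0

section mesh

variable {R : Set Q} {g0 : Gd E J} {P0 : ∀ q, C.I q → Set E} {c0 : ∀ q, C.I q → E → ℝ}
  {Y : Type*} [PseudoMetricSpace Y] {b : ℕ → ℝ} {wt : J → ℝ} {Λ : ℕ → Q → (E → Y) → ℝ}
  {Fr : Q → Set (E → Y)} {Spec : ∀ q, Lam (K q) (C.I q) → Prop}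
  {δ : ℝ} {wd : Q → ℝ} {χ : Q → E → ℝ}

/-- **the boundary word of a designated 2-cell at stage 2** -/
theorem bwF_of_trk (H : Inv C K D g P c) (X : Cplx Ω Q dim K) (hb0 : ∀ n, 0 < b n)
    (hSE : ∀ q M, Spec q M → SpecE C K wt δ wd χ q M) {τ : Q} (hτ : ∀ σ < τ, σ ∈ D)
    (hT : ∀ q ∈ D, Trk C K R g0 P0 c0 b Spec Fr wt Λ 2 q g (P q) (c q))
    (G : Des C K χ τ) (hR : ∀ s, G.S.es s ∉ R)
    {L : Lam (sph 2) (C.I τ)} (hL : ∀ x, ∀ ω ∈ sph 2, L.c x ω = cbd C K c τ x (G.A.f ω)) :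
    Nonempty (BwF G.S wt (G.nu wd) δ L) := by
  have hd := G.d2
  refine exists_bwF H X hτ (by omega) G.S G.side G.base (fun s => ?_) hL
  obtain ⟨β, M, hβ, hS, hM⟩ := (hT _ (hτ _ (G.S.lt s))).new (hR s)
  rw [G.S.d1 s, Mmx_662.ratio_self hb0] at hβ
  subst hβ
  obtain ⟨o, p, ho, hE, hm, hc⟩ := hSE _ _ hS (G.S.d1 s)
  have hθ := G.θ1 s
  refine ⟨o * G.θ s, p, ?_, hE, hm, fun y t ht => ?_⟩
  · rcases ho with h | h <;> rcases hθ with h' | h' <;> rw [h, h'] <;> norm_num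
  · have hz := G.side s t ht
    rw [hM.mc y _ hz, div_one, cl_of_mem (M.cm y _ hz), hc y _ hz, G.χA s t ht, mul_assoc]
    rfl

/-- **THE RULE OF THE DESIGNATED 2-CELLS** (the hypothesis `ruleN` of `mesh_mix`, for one cell) -/
theorem rule_faceL {P1 P2 : Par} {η Λ0 : ℝ} {Λ' : (E → Y) → ℝ}
    (hdep : ∀ {ι : Type} [Fintype ι] {L : Lam (sph 2) ι} {W : Bw L} {wt : ι → ℝ} {ν : Fin 4 → ℝ}
      {FA FB : Prop} {MA MB : Finset ι} (_ : Pure W wt ν FA FB δ η MA MB) {K b : ℝ} (_ : Cst K b)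
      (k0 : ι → ℕ) (_ : Function.Injective k0) (Rl : ι → ι → Prop)
      (_ : ∀ x x', Rl x x' → Bw.Inc L x x') (_ : ∀ x x', Rl x x' → k0 x' < k0 x),
      Nonempty (Bw.Dpt W P1 P2 K b (lg W wt ν) Rl (6 * η) (6 * η)))
    (hcr : ∀ {ι : Type} {L : Lam (sph 2) ι} {K b : ℝ} {h ρ : ι → ℝ}
      (D : Dep L K b h ρ) (i : ι) (M : ℝ), 0 ≤ M →
      (∀ ω ∈ sph 2, LL M (L.c i) (sph 2) ω) → 1 / h i ≤ M →
      ∀ z ∈ cube 2, LL (Λ0 * M / (2 * b)) (ff D P1 P2 i) (cube 2) z) (hΛ0 : 0 ≤ Λ0)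
    (hb0 : ∀ n, 0 < b n) (hb2 : ∀ n, b n < 1/2) (hw : ∀ j, 0 < wt j)
    (hSE : ∀ q M, Spec q M → SpecE C K wt δ wd χ q M)
    (H : Inv C K D g P c) (X : Cplx Ω Q dim K) {τ : Q} (hτ : ∀ σ < τ, σ ∈ D)
    (hT : ∀ q ∈ D, Trk C K R g0 P0 c0 b Spec Fr wt Λ (dim τ) q g (P q) (c q))
    (G : Des C K χ τ) (hR : ∀ s, G.S.es s ∉ R)
    (hends : ∀ x : C.I τ, ∃ a b, a ≠ b ∧ Arc_778.Blw C τ x = {a, b})
    {T : Fin 2 → Finset J} {cc : Fin 2 → Fam} {σ a : Fin 2 → ℝ} {m : ℝ}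
    (hD : DP G.S wt T cc σ a m) (hN : NumF G.S wt (G.nu wd) a m δ η)
    {Lg : (E → Y) → ℝ} (hLg : ∀ B ∈ Fr τ, ∀ z ∈ K τ, MB B id (Lg B) G.A.g (K τ) z)
    (hΛ : ∀ B ∈ Fr τ, Λ0 * (16 / αX (G.nu wd)) / (2 * b (dim τ)) * Lg B ≤ Λ' B)
    (hSF : ∀ {κ : ℝ} {h ρ : C.I τ → ℝ} (Dp : Dep (bdLam H X τ hτ) κ (b (dim τ)) h ρ)
      (_ : ∀ x x', Arc_778.RlG C K c τ x x' → ρ x' < ρ x)
      {n : ℕ} (_ : dim τ = n) (e : PLEquiv (cube n) (K τ)) (he : e.f '' sph n = bdS K τ),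
      SpecF C K wt δ wd χ P1 P2 (b 2) η G (Dp.fillBall e he) → Spec τ (Dp.fillBall e he)) :
    ∃ (e' : PLEquiv (cube (dim τ)) (K τ)) (he' : e'.f '' sph (dim τ) = bdS K τ)
      (κ : ℝ) (h ρ : C.I τ → ℝ) (Dp : Dep (bdLam H X τ hτ) κ (b (dim τ)) h ρ),
      (∀ x x', Arc_778.RlG C K c τ x x' → ρ x' < ρ x) ∧ Spec τ (Dp.fillBall e' he') ∧
      ∀ B ∈ Fr τ, ∀ x, ∀ z ∈ K τ,
        LB B (Λ' B / wt (C.col τ x)) ((Dp.fillBall e' he').c x) (K τ) z := by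
  have hd := G.d2
  rw [hd] at hT hΛ
  let L : Lam (sph 2) (C.I τ) := (bdLam H X τ hτ).pull (bdE G.A G.sph) isClosed_sphere
  have hL : ∀ x, ∀ ω ∈ sph 2, L.c x ω = cbd C K c τ x (G.A.f ω) := fun x ω _ => rfl
  obtain ⟨B⟩ := bwF_of_trk H X hb0 hSE hτ hT G hR hL
  have hP := B.pure (by omega) hw hN.ν0 hends hD hN.m0 hN.η11 hN.full hN.νν
  obtain ⟨kk, hk, hkk⟩ := Arc_778.rlG_rank X D g P c H τ hd.ge hτ
  have hA : ∀ ω ∈ sph 2, G.A.f ω ∈ bdS K τ := fun ω hω => by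
    rw [← G.sph]; exact ⟨ω, hω, rfl⟩
  have hC := Cst.mk' (hb0 2) (hb2 2)
  obtain ⟨Tt⟩ := hdep hP hC kk hk (Arc_778.RlG C K c τ)
    (fun x x' h => inc_of_rlG H X hτ hd.ge hA hL h) hkk
  have key : ∃ (e' : PLEquiv (cube 2) (K τ)) (he' : e'.f '' sph 2 = bdS K τ)
      (κ : ℝ) (h ρ : C.I τ → ℝ) (Dp : Dep (bdLam H X τ hτ) κ (b 2) h ρ),
      (∀ x x', Arc_778.RlG C K c τ x x' → ρ x' < ρ x) ∧ Spec τ (Dp.fillBall e' he') ∧
      ∀ B ∈ Fr τ, ∀ x, ∀ z ∈ K τ,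
        LB B (Λ' B / wt (C.col τ x)) ((Dp.fillBall e' he').c x) (K τ) z := by
    have hff : ∀ x, ∀ z ∈ cube 2, ((dep_unpull G.A G.sph Tt.D).fillBall (swCh P1 P2 G.A)
        (swCh_sph P1 P2 G.sph)).c x (G.A.f z) = ff Tt.D P1 P2 x z :=
      fun x z hz => fillBall_ff P1 P2 G.A G.sph (dep_unpull G.A G.sph Tt.D) Tt.D x hz
    refine ⟨swCh P1 P2 G.A, swCh_sph P1 P2 G.sph, _, Tt.h, Tt.ρ, dep_unpull G.A G.sph Tt.D,
      Tt.nest, ?_, fun F hF x z hz => ?_⟩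
    · have hSF' : ∀ {κ : ℝ} {h ρ : C.I τ → ℝ} (Dp : Dep (bdLam H X τ hτ) κ (b 2) h ρ)
          (_ : ∀ x x', Arc_778.RlG C K c τ x x' → ρ x' < ρ x)
          (e : PLEquiv (cube 2) (K τ)) (he : e.f '' sph 2 = bdS K τ),
          SpecF C K wt δ wd χ P1 P2 (b 2) η G (Dp.fillBall e he) →
            Spec τ (Dp.fillBall e he) := by
        have := @hSF
        rw [hd] at this
        intro κ h ρ Dp hh e he hS
        exact this Dp hh rfl e he hS
      refine hSF' _ Tt.nest _ _ ⟨L, B, _, _, Tt, hff⟩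
    · have hc := hP.crd Tt Finset.univ (w := fun x => wt (C.col τ x))
        (fun x _ => by rw [abs_of_pos (hw _)])
      have hx := Finset.mem_univ x
      have hα := hP.αX0
      have hwx := hw (C.col τ x)
      have hb := hb0 2
      have h1 := hcr Tt.D x _ (hc.M0 x hx) (hc.lip x hx) (hc.hM x hx) (G.A.g z) (G.A.mg hz)
      have hcon : ContinuousWithinAt G.A.g (K τ) z := G.A.pg.1 z hz
      have h2 : LB F (Λ0 * (16 / (αX (G.nu wd) * wt (C.col τ x))) / (2 * b 2) * Lg F)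
          (fun y => ff Tt.D P1 P2 x (G.A.g y)) (K τ) z :=
        LB.comp (B' := id) (by positivity) h1 (hLg F hF z hz) hcon (fun y hy => G.A.mg hy)
      refine (h2.congr (fun y hy => ?_) hz).mono ?_
      · show ff Tt.D P1 P2 x (G.A.g y) = _
        rw [← hff x _ (G.A.mg hy), G.A.ri y hy]
      · have h3 := hΛ F hF
        refine le_trans (le_of_eq ?_) (div_le_div_of_nonneg_right h3 hwx.le)
        field_simp
  obtain ⟨e', he', κ, h, ρ, Dp, h1, h2, h3⟩ := key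
  have hfin : ∀ n, n = 2 → ∃ (e' : PLEquiv (cube n) (K τ)) (he' : e'.f '' sph n = bdS K τ)
      (κ : ℝ) (h ρ : C.I τ → ℝ) (Dp : Dep (bdLam H X τ hτ) κ (b n) h ρ),
      (∀ x x', Arc_778.RlG C K c τ x x' → ρ x' < ρ x) ∧ Spec τ (Dp.fillBall e' he') ∧
      ∀ B ∈ Fr τ, ∀ x, ∀ z ∈ K τ,
        LB B (Λ' B / wt (C.col τ x)) ((Dp.fillBall e' he').c x) (K τ) z := by
    rintro n rfl
    exact ⟨e', he', κ, h, ρ, Dp, h1, h2, h3⟩
  exact hfin _ hd


end mesh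

end Crest.Agent.R096.Fk_522
end

-- ▼ part R096/Fk15_522
section

/-!
# R096 (row 96), P4-FACE, combinatorics, part 15: 662's mixed mesh with given edge coordinates, and
the mesh with designated nearly pure 2-cells (helper522)
-/

set_option autoImplicit false
set_option linter.unusedSectionVars false

open Set Metric Filter Topology

namespace Crest.Agent.R096.Fk_522

open Crest.Agent.R096.Ce_537 Crest.Agent.R096.Bd_416 Crest.Agent.R096.Fsw_928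
open Crest.Agent.R096.Pc_117 (LL)

open scoped Classical

variable {Q : Type} [PartialOrder Q] {dim : Q → ℕ} {J Fam : Type}
variable {E : Type*} [NormedAddCommGroup E] [NormedSpace ℝ E]
variable {C : Cmb Q dim J Fam} {K : Q → Set E} {D : Set Q} {g : Gd E J}
  {P : ∀ q, C.I q → Set E} {c : ∀ q, C.I q → E → ℝ} {b : ℝ} {Ω : Set E}


section mix

variable {R : Set Q} {g0 : Gd E J} {P0 : ∀ q, C.I q → Set E} {c0 : ∀ q, C.I q → E → ℝ}
  {Y : Type*} [PseudoMetricSpace Y]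


end mix

section face

variable {R : Set Q} {g0 : Gd E J} {P0 : ∀ q, C.I q → Set E} {c0 : ∀ q, C.I q → E → ℝ}
  {Y : Type*} [PseudoMetricSpace Y]


/-- the depths of nearly pure words (928's `pure_LP` / `face_rule`, first part) -/
def HasDep (P1 P2 : Par) (δ η : ℝ) : Prop :=
  ∀ {ι : Type} [Fintype ι] {L : Lam (sph 2) ι} {W : Bw L} {wt : ι → ℝ} {ν : Fin 4 → ℝ}
    {FA FB : Prop} {MA MB : Finset ι} (_ : Pure W wt ν FA FB δ η MA MB) {K b : ℝ} (_ : Cst K b)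
    (k0 : ι → ℕ) (_ : Function.Injective k0) (Rl : ι → ι → Prop)
    (_ : ∀ x x', Rl x x' → Bw.Inc L x x') (_ : ∀ x x', Rl x x' → k0 x' < k0 x),
    Nonempty (Bw.Dpt W P1 P2 K b (lg W wt ν) Rl (6 * η) (6 * η))

/-- the crude bound (928's `exists_crude`) -/
def Crude (P1 P2 : Par) (Λ0 : ℝ) : Prop :=
  ∀ {ι : Type} {L : Lam (sph 2) ι} {K b : ℝ} {h ρ : ι → ℝ}
    (D : Dep L K b h ρ) (i : ι) (M : ℝ), 0 ≤ M →
    (∀ ω ∈ sph 2, LL M (L.c i) (sph 2) ω) → 1 / h i ≤ M →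
    ∀ z ∈ cube 2, LL (Λ0 * M / (2 * b)) (ff D P1 P2 i) (cube 2) z


end face

end Crest.Agent.R096.Fk_522
end

-- ▼ part R096/Fsw30_928
section

/-!
# R096 (row 96), FACE-SWEEP, part 30: the clause `face` of `OutNO` from the final structure
(helper928)
-/

set_option autoImplicit false
set_option linter.unusedSectionVars false

open Set Metric Filter Topology MeasureTheory
open scoped ENNReal

namespace Crest.Agent.R096.Fsw_928

open Crest.Agent.R096.Ce_537 Crest.Agent.R096.Bd_416 Crest.Agent.R096.Fk_522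
open Crest.Agent.R096.SkN1_477 Crest.Agent.R096.Mg_441 Crest.Agent.R096.On_441
open Crest.Agent.R096.SkC1_961 (E3 FoamD)

open scoped Classical

/-- what 522's `BwF.pure` gives for the cell -/
def PureF {Q : Type} [PartialOrder Q] {dim : Q → ℕ} {J Fam : Type} {C : Cmb Q dim J Fam} {τ : Q}
    (S : SqC C τ) (wt : J → ℝ) (ν : Fin 4 → ℝ) (a : Fin 2 → ℝ) (m δ η : ℝ) : Prop :=
  ∀ (T : Fin 2 → Finset J) (cc : Fin 2 → Fam) (σ : Fin 2 → ℝ) (_ : DP S wt T cc σ a m)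
    (L : Lam (sph 2) (C.I τ)) (B : BwF S wt ν δ L),
    Pure B.toBw (fun x => wt (C.col τ x)) ν (a 1 ≠ 0) (a 0 ≠ 0) δ η (S.M cc σ a 1) (S.M cc σ a 0)

lemma mem_M {Q : Type} [PartialOrder Q] {dim : Q → ℕ} {J Fam : Type} {C : Cmb Q dim J Fam}
    {τ : Q} {S : SqC C τ} {cc : Fin 2 → Fam} {σ a : Fin 2 → ℝ} {i : Fin 2} {x : C.I τ}
    (hx : x ∈ S.M cc σ a i) : C.fam (C.col τ x) = cc i ∧ S.Mn i (σ i) (C.col τ x) := by
  obtain ⟨-, -, e1, e2⟩ := Finset.mem_filter.1 hx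
  exact ⟨e1, e2⟩

/-- **THE CLAUSE `face` OF THE MACHINE** for one designated 2-cell -/
theorem face_clause {p : ℝ} (hp : 1 ≤ p) {Λ : ℝ} (hΛ : 1 ≤ Λ) {e : ℝ} (he : 0 < e) :
    ∃ δ0 : ℝ, 0 < δ0 ∧ δ0 ≤ 1/4 ∧ ∀ δ, 0 < δ → δ ≤ δ0 → ∃ P1 P2 : Par, ∃ η0 : ℝ, 0 < η0 ∧
    η0 ≤ δ / 56 ∧ ∀ η, 0 ≤ η → η ≤ η0 → HasDep P1 P2 δ η ∧
    ∀ {δ' κ0 R c0 : ℝ} {La : Set E3} (Φ : FoamD δ' κ0 R c0 La) (κ : Φ.F → ℕ)
      (L : Φ.F → Finset ℝ) {Q : Type} [PartialOrder Q] {dim : Q → ℕ} {J : Type}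
      {C : Cmb Q dim J Φ.F} {K : Q → Set E3} {D : Set Q} {g : Gd E3 J}
      {Pc : ∀ q, C.I q → Set E3} {c : ∀ q, C.I q → E3 → ℝ} (_ : Bd_416.Inv C K D g Pc c) {τ : Q}
      (_ : τ ∈ D) {χ : Q → E3 → ℝ} (G : Des C K χ τ) (_ : ∀ s, G.S.es s ∈ D)
      (_ : ∀ k, G.S.v k ∈ D)
      (B : E3 ≃ᵃ[ℝ] E3) (ε : Fin 2 → ℝ) (_ : FG G.S K B ε)
      (_ : ∀ z ∈ cube 2, G.A.f z = B.symm (emb (tau ε z)))
      (hfin : ∀ a, {j | C.fam j = a}.Finite) (wt : J → ℝ) (_ : ∀ j, 0 < wt j) (rr : Φ.F → ℝ)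
      (_ : ∀ a, 1 ≤ rr a) (_ : ∀ a, (mm hfin a : ℝ) = rr a * (L a).card)
      (_ : ∀ j, rr (C.fam j) * wt j = (2:ℝ)⁻¹ ^ κ (C.fam j))
      (n : Set E3 → Φ.F → ℝ)
      (_ : ∀ s a, n (SkN1_477.side B (dr s) (hgt ε s)) a = nP C (G.S.es s) a / rr a)
      (wd : Q → ℝ) (b : ℝ) (M : Lam (K τ) (C.I τ))
      (_ : SpecF C K wt δ wd χ P1 P2 b η G M)
      (β : ℝ) (_ : Sqd C K τ β M g (Pc τ) (c τ)) (_ : 1 - η ≤ 2 * (b * β))
      (η1 μ : ℝ) (_ : 0 < μ) (a : Fin 2 → ℝ) (_ : PureF G.S wt (G.nu wd) a (η1 * μ) δ η)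
      (_ : 1 / αX (G.nu wd) ≤ Λ * μ)
      (_ : ∀ s, a (dr s) ≠ 0 → |a (dr s) - 2 / G.nu wd s| ≤ 6 * δ * μ)
      (c1 c2 : Φ.F) (σ1 σ2 : ℝ)
      (_ : FaceIn Φ κ L (fun x => uu hfin g x) n η1 μ a B c1 c2 σ1 σ2),
      FaceOut p Φ κ L (fun x => uu hfin g x) e μ a B c1 c2 σ1 σ2 := by
  obtain ⟨δ0, h1, h2, h3⟩ := face_out hp hΛ he
  refine ⟨δ0, h1, h2, fun δ hδ hδ0 => ?_⟩
  obtain ⟨P, P', η0, h4, h5, h6⟩ := h3 δ hδ hδ0
  refine ⟨P, P', η0, h4, h5, fun η hη hη0 => ?_⟩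
  obtain ⟨h60, h7⟩ := h6 η hη hη0
  refine ⟨@h60, ?_⟩
  intro δ' κ0 R c0 La Φ κ L Q _ dim J C K D g Pc c H τ hτ χ G heD hvD B ε FGe hGA hfin wt hw rr hr
    hm hwt n hn wd b M hS β hSq hbβ η1 μ hμ a hP hα hsl c1 c2 σ1 σ2 F
  have hε := FGe.e1
  have hDP := dp_of_faceIn H FGe hvD heD hfin hw hr hm hwt hn F
  obtain ⟨L', Bw', κ', Rl, T, hM⟩ := hS
  have hPu := hP _ _ _ hDP L' Bw'
  have h2w := hPu.two
  have hcub : ∀ z ∈ cube 2, B.symm (emb (tau ε z)) ∈ K τ := by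
    intro z hz
    rw [← hGA z hz]
    exact G.A.mf hz
  have hσ : ∀ {σ : ℝ}, (σ = 1 ∨ σ = -1) → ∀ i, |-(ε i * σ)| = 1 := by
    intro σ h i
    rcases h with rfl | rfl <;> rcases hε i with h' | h' <;> rw [h'] <;> norm_num
  have hsp : FSpec C K wt P P' δ η b τ (fun z => B.symm (emb (tau ε z))) c2 c1 (-(ε 1 * σ2))
      (-(ε 0 * σ1)) (G.nu wd) (a 1 ≠ 0) (a 0 ≠ 0) M := by
    refine ⟨L', Bw'.toBw, _, _, κ', Rl, hPu, T, fun x z hz => ?_, fun x hx => ?_, fun x hx => ?_⟩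
    · show M.c x (B.symm (emb (tau ε z))) = _
      rw [← hGA z hz]
      exact hM x z hz
    · obtain ⟨e1, e2⟩ := mem_M hx
      exact ⟨e1, fun x' hx' => Bw'.only h2w hx hx', e2.2⟩
    · obtain ⟨e1, e2⟩ := mem_M hx
      exact ⟨e1, fun x' hx' => Bw'.only h2w hx hx', e2.2⟩
  have habs : ∀ {σ : ℝ}, (σ = 1 ∨ σ = -1) → |σ| = 1 := by
    intro σ h
    rcases h with rfl | rfl <;> norm_num
  have hslope : ∀ {σ : ℝ}, (σ = 1 ∨ σ = -1) → ∀ (i : Fin 2) (s : Fin 4), dr s = i → a i ≠ 0 →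
      |σ * a i + ε i * -(ε i * σ) * (2 / G.nu wd s)| ≤ 6 * δ * μ := by
    intro σ hσ i s hs ha
    subst hs
    have e1 : σ * a (dr s) + ε (dr s) * -(ε (dr s) * σ) * (2 / G.nu wd s)
        = σ * (a (dr s) - 2 / G.nu wd s) := by
      have := eps_sq hε (dr s)
      have e2 : ε (dr s) * -(ε (dr s) * σ) = -(ε (dr s) * ε (dr s)) * σ := by ring
      rw [e2, this]; ring
    rw [e1, abs_mul, habs hσ, one_mul]
    exact hsl s ha
  have hzero : ∀ (σ : ℝ) (i : Fin 2), ¬ a i ≠ 0 → |σ * a i| ≤ 6 * δ * μ := by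
    intro σ i h
    rw [not_not] at h
    rw [h, mul_zero, abs_zero]
    positivity
  exact h7 Φ κ L H hτ hfin wt rr c1 c2 F.ne (fun a' _ => ⟨hm a', fun j hj => by
      rw [← hj]; exact hwt j⟩) B ε hε hcub (G.nu wd) (a 1 ≠ 0) (a 0 ≠ 0) b (-(ε 1 * σ2))
    (-(ε 0 * σ1)) M hsp β hSq hbβ μ hμ hα a σ1 σ2 (hσ F.sg2 1) (hσ F.sg1 0)
    (fun h => hslope F.sg2 1 2 rfl h) (fun h => hzero σ2 1 h)
    (fun h => hslope F.sg1 0 0 rfl h) (fun h => hzero σ1 0 h)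

end Crest.Agent.R096.Fsw_928
end

-- ▼ part R096/Fsw31_928
section

/-!
# R096 (row 96), FACE-SWEEP, part 31: the geometry `Des`, `FG` of a designated face of a cell complex
(helper928)
-/

set_option autoImplicit false
set_option linter.unusedSectionVars false

open Set Metric Filter Topology MeasureTheory

namespace Crest.Agent.R096.Fsw_928

open Crest.Agent.R096.Ce_537 Crest.Agent.R096.Bd_416 Crest.Agent.R096.Fk_522
open Crest.Agent.R096.SkN1_477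
open Crest.Agent.R096.SkC1_961 (E3)
open Crest.Agent.R096.Mxs_487 (AffC)
open Crest.Agent.R96.Nu3_199 (ri)

open scoped Classical

/-! ### relative interiors -/

section rin

variable {V E : Type*} [NormedAddCommGroup V] [NormedSpace ℝ V] [NormedAddCommGroup E]
  [NormedSpace ℝ E]

/-- the relative interior of an affine image -/
lemma ri_inj (a : V →ᵃ[ℝ] E) (ha : Function.Injective a) (T : Set V) :
    ri (a '' T) = a '' ri T := by
  have key : ∀ x y : V, ∀ t : ℝ, a x + t • (a x - a y) = a (x + t • (x - y)) := by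
    intro x y t
    have h1 : x + t • (x - y) = AffineMap.lineMap x y (-t) := by
      rw [AffineMap.lineMap_apply, vsub_eq_sub, vadd_eq_add, neg_smul, ← smul_neg, neg_sub,
        add_comm]
    rw [h1, a.apply_lineMap, AffineMap.lineMap_apply, vsub_eq_sub, vadd_eq_add, neg_smul,
      ← smul_neg, neg_sub, add_comm]
  ext z
  constructor
  · rintro ⟨⟨x, hx, rfl⟩, h⟩
    refine ⟨x, ⟨hx, fun y hy => ?_⟩, rfl⟩
    obtain ⟨t, ht, w, hw, hwe⟩ := h (a y) ⟨y, hy, rfl⟩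
    rw [key] at hwe
    exact ⟨t, ht, by rw [← ha hwe]; exact hw⟩
  · rintro ⟨x, ⟨hx, h⟩, rfl⟩
    refine ⟨⟨x, hx, rfl⟩, ?_⟩
    rintro _ ⟨y, hy, rfl⟩
    obtain ⟨t, ht, h2⟩ := h y hy
    exact ⟨t, ht, by rw [key]; exact ⟨_, h2, rfl⟩⟩

/-- the relative interior of the unit ball -/
lemma ri_ball : ri (closedBall (0 : V) 1) = ball 0 1 := by
  ext y
  rw [mem_ball_zero_iff]
  constructor
  · rintro ⟨hy, h⟩
    by_contra hcon
    push Not at hcon
    obtain ⟨t, ht, h2⟩ := h 0 (mem_closedBall_self zero_le_one)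
    rw [mem_closedBall_zero_iff, sub_zero] at h2
    have h3 : y + t • y = (1 + t) • y := by rw [add_smul, one_smul]
    rw [h3, norm_smul, Real.norm_eq_abs, abs_of_pos (by linarith)] at h2
    nlinarith
  · intro hy
    refine ⟨mem_closedBall_zero_iff.2 hy.le, fun z hz => ⟨(1 - ‖y‖) / 2, by linarith, ?_⟩⟩
    rw [mem_closedBall_zero_iff] at hz ⊢
    have h1 := norm_add_le y (((1 - ‖y‖) / 2) • (y - z))
    rw [norm_smul, Real.norm_eq_abs, abs_of_pos (by linarith)] at h1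
    have h2 := norm_sub_le y z
    have h3 := norm_nonneg y
    nlinarith

end rin

/-! ### affine coordinates of the edges -/

/-- an affine map of `[-1, 1]` onto itself -/
lemma pm_affine {α β : ℝ} (h1 : ∀ t : ℝ, |t| ≤ 1 → |α * t + β| ≤ 1) {t t' : ℝ} (ht : |t| ≤ 1)
    (ht' : |t'| ≤ 1) (h2 : α * t + β = 1) (h3 : α * t' + β = -1) : (α = 1 ∨ α = -1) ∧ β = 0 := by
  have a1 := abs_le.1 (h1 1 (by norm_num))
  have a2 := abs_le.1 (h1 (-1) (by norm_num))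
  have b1 := abs_le.1 ht
  have b2 := abs_le.1 ht'
  have h4 : α * (t - t') = 2 := by linarith
  rcases le_total 0 α with h | h
  · have h5 : α ≤ 1 := by linarith
    have h6 : 1 ≤ α := by nlinarith
    have h7 : α = 1 := le_antisymm h5 h6
    refine ⟨Or.inl h7, ?_⟩
    rw [h7] at a1 a2
    linarith
  · have h5 : -1 ≤ α := by linarith
    have h6 : α ≤ -1 := by nlinarith
    have h7 : α = -1 := le_antisymm h6 h5
    refine ⟨Or.inr h7, ?_⟩
    rw [h7] at a1 a2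
    linarith

section chi

variable {E : Type*} [NormedAddCommGroup E] [NormedSpace ℝ E]

/-- an affine chart of a segment has an affine coordinate -/
lemma affC_chi {S : Set E} {e : PLEquiv (cube 1) S} (h : AffC e) :
    ∃ χ : E →ᵃ[ℝ] ℝ, ∀ z ∈ S, e.g z 0 = χ z := by
  obtain ⟨a, ha⟩ := h
  let vm : Fin 1 → ℝ := fun _ => -1
  let vp : Fin 1 → ℝ := fun _ => 1
  have hvm : vm ∈ cube 1 := mem_cube1.2 (by show |(-1:ℝ)| ≤ 1; norm_num)
  have hvp : vp ∈ cube 1 := mem_cube1.2 (by show |(1:ℝ)| ≤ 1; norm_num)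
  have hpq : a vp - a vm ≠ 0 := by
    rw [sub_ne_zero, ← ha, ← ha]
    intro h
    have h5 := e.li vm hvm
    have h6 := e.li vp hvp
    rw [← h, h6] at h5
    have := congrFun h5 0
    have h7 : (1:ℝ) = -1 := this
    norm_num at h7
  obtain ⟨l, hl⟩ := SeparatingDual.exists_ne_zero (R := ℝ) hpq
  let χ : E →ᵃ[ℝ] ℝ := ((2 / l (a vp - a vm)) • (l : E →ₗ[ℝ] ℝ)).toAffineMap +
    AffineMap.const ℝ E (-1 - 2 / l (a vp - a vm) * l (a vm))
  have hχ : ∀ z, χ z = 2 / l (a vp - a vm) * l z + (-1 - 2 / l (a vp - a vm) * l (a vm)) :=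
    fun z => rfl
  refine ⟨χ, fun z hz => ?_⟩
  have h1 : z = AffineMap.lineMap (a vm) (a vp) ((1 + e.g z 0) / 2) := by
    rw [← a.apply_lineMap]
    have h2 : AffineMap.lineMap vm vp ((1 + e.g z 0) / 2) = e.g z := by
      funext i
      rw [Subsingleton.elim i 0, AffineMap.lineMap_apply, vsub_eq_sub, vadd_eq_add]
      show (1 + e.g z 0) / 2 * (1 - (-1)) + (-1) = e.g z 0
      ring
    rw [h2, ← ha, e.ri z hz]
  have h3 : χ (AffineMap.lineMap (a vm) (a vp) ((1 + e.g z 0) / 2)) = e.g z 0 := by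
    rw [hχ, AffineMap.lineMap_apply, vsub_eq_sub, vadd_eq_add, map_add, map_smul, smul_eq_mul]
    field_simp
    ring
  rw [← h1] at h3
  exact h3.symm

/-- affine coordinates of the edges -/
def EdC {Q : Type} [PartialOrder Q] (K : Q → Set E) (dim : Q → ℕ) (χ : Q → E → ℝ) : Prop :=
  ∀ q, dim q = 1 → ∃ (e : PLEquiv (cube 1) (K q)) (χ' : E →ᵃ[ℝ] ℝ), e.f '' sph 1 = bdS K q ∧
    ∀ z ∈ K q, χ q z = χ' z ∧ e.g z 0 = χ' z

/-- a segment with an affine parameter: the coordinate is `± t` and the boundary consists of the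
two ends -/
lemma coord_pm {S : Set E} (e : PLEquiv (cube 1) S) {χ' : E →ᵃ[ℝ] ℝ}
    (hχ : ∀ z ∈ S, e.g z 0 = χ' z) (m : ℝ →ᵃ[ℝ] E) (hm : ∀ t : ℝ, |t| ≤ 1 → m t ∈ S)
    (hms : ∀ z ∈ S, ∃ t : ℝ, |t| ≤ 1 ∧ m t = z) :
    ∃ θ : ℝ, (θ = 1 ∨ θ = -1) ∧ ∀ t : ℝ, |t| ≤ 1 → χ' (m t) = θ * t := by
  have haff : ∀ t : ℝ, χ' (m t) = (χ' (m 1) - χ' (m 0)) * t + χ' (m 0) := by
    intro t
    have h1 : (m t : E) = AffineMap.lineMap (m 0) (m 1) t := by
      rw [← m.apply_lineMap]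
      congr 1
      rw [AffineMap.lineMap_apply]
      simp
    rw [h1, χ'.apply_lineMap, AffineMap.lineMap_apply, vsub_eq_sub, vadd_eq_add, smul_eq_mul]
    ring
  have hb : ∀ t : ℝ, |t| ≤ 1 → |(χ' (m 1) - χ' (m 0)) * t + χ' (m 0)| ≤ 1 := by
    intro t ht
    rw [← haff, ← hχ _ (hm t ht)]
    exact mem_cube1.1 (e.mg (hm t ht))
  have hs : ∀ r : ℝ, |r| ≤ 1 → ∃ t : ℝ, |t| ≤ 1 ∧ (χ' (m 1) - χ' (m 0)) * t + χ' (m 0) = r := by
    intro r hr
    have hv : (fun _ => r : Fin 1 → ℝ) ∈ cube 1 := mem_cube1.2 hr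
    obtain ⟨t, ht, h⟩ := hms _ (e.mf hv)
    refine ⟨t, ht, ?_⟩
    rw [← haff, h, ← hχ _ (e.mf hv), e.li _ hv]
  obtain ⟨t, ht, h2⟩ := hs 1 (by norm_num)
  obtain ⟨t', ht', h3⟩ := hs (-1) (by norm_num)
  obtain ⟨h4, h5⟩ := pm_affine hb ht ht' h2 h3
  refine ⟨_, h4, fun t _ => ?_⟩
  rw [haff, h5, add_zero, sub_zero]

/-- the coordinate of another affine chart -/
lemma EdC.sign {Q : Type} [PartialOrder Q] {dim : Q → ℕ} {K : Q → Set E} {χ : Q → E → ℝ}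
    (h : EdC K dim χ) {q : Q} (hq : dim q = 1) {e : PLEquiv (cube 1) (K q)} (he : AffC e) :
    (∀ z ∈ K q, e.g z 0 = χ q z) ∨ (∀ z ∈ K q, e.g z 0 = - χ q z) := by
  obtain ⟨e', χ', -, h2⟩ := h q hq
  obtain ⟨a, ha⟩ := he
  let m : ℝ →ᵃ[ℝ] E := a.comp (LinearMap.pi fun _ => LinearMap.id : ℝ →ₗ[ℝ] (Fin 1 → ℝ)).toAffineMap
  have hm : ∀ t : ℝ, m t = e.f (fun _ => t) := fun t => (ha _).symm
  have hc : ∀ t : ℝ, |t| ≤ 1 → (fun _ => t : Fin 1 → ℝ) ∈ cube 1 := fun t ht => mem_cube1.2 ht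
  have hinv : ∀ z ∈ K q, m (e.g z 0) = z := fun z hz => by
    rw [hm]
    have : (fun _ => e.g z 0 : Fin 1 → ℝ) = e.g z := by
      funext i; rw [Subsingleton.elim i 0]
    rw [this, e.ri z hz]
  obtain ⟨θ, hθ, h3⟩ := coord_pm e' (fun z hz => (h2 z hz).2) m
    (fun t ht => by rw [hm]; exact e.mf (hc t ht))
    (fun z hz => ⟨e.g z 0, mem_cube1.1 (e.mg hz), hinv z hz⟩)
  rcases hθ with rfl | rfl
  · left
    intro z hz
    have h4 := h3 _ (mem_cube1.1 (e.mg hz))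
    rw [hinv z hz] at h4
    rw [(h2 z hz).1, h4, one_mul]
  · right
    intro z hz
    have h4 := h3 _ (mem_cube1.1 (e.mg hz))
    rw [hinv z hz] at h4
    rw [(h2 z hz).1, h4]
    ring

/-- affine coordinates exist (487's `exists_eA`) -/
theorem exists_edC {Q : Type} [PartialOrder Q] {dim : Q → ℕ} {K : Q → Set E}
    (e : ∀ τ, 1 ≤ dim τ → PLEquiv (cube (dim τ)) (K τ))
    (he : ∀ τ, ∀ hd : 1 ≤ dim τ, (e τ hd).f '' sph (dim τ) = bdS K τ)
    (hea : ∀ τ, ∀ hd : 1 ≤ dim τ, dim τ = 1 → AffC (e τ hd)) : ∃ χ : Q → E → ℝ, EdC K dim χ := by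
  have key : ∀ q, ∃ χ : E → ℝ, dim q = 1 → ∃ (e : PLEquiv (cube 1) (K q)) (χ' : E →ᵃ[ℝ] ℝ),
      e.f '' sph 1 = bdS K q ∧ ∀ z ∈ K q, χ z = χ' z ∧ e.g z 0 = χ' z := by
    intro q
    by_cases h : dim q = 1
    · have h1 := he q h.ge
      have h2 := hea q h.ge h
      generalize e q h.ge = e1 at h1 h2
      revert e1
      rw [h]
      intro e1 h1 h2
      obtain ⟨χ', hχ⟩ := affC_chi h2
      exact ⟨χ', fun _ => ⟨e1, χ', h1, fun z hz => ⟨rfl, hχ z hz⟩⟩⟩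
    · exact ⟨fun _ => 0, fun h' => absurd h' h⟩
  choose χ hχ using key
  exact ⟨χ, hχ⟩

end chi

end Crest.Agent.R096.Fsw_928
end

-- ▼ part R096/Fsw32_928
section

/-!
# R096 (row 96), FACE-SWEEP, part 32: the geometry `Des`, `FG` of a designated face of a cell complex
(helper928)
-/

set_option autoImplicit false
set_option linter.unusedSectionVars false

open Set Metric Filter Topology MeasureTheory

namespace Crest.Agent.R096.Fsw_928

open Crest.Agent.R096.Ce_537 Crest.Agent.R096.Bd_416 Crest.Agent.R096.Fk_522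
open Crest.Agent.R096.SkN1_477
open Crest.Agent.R096.SkC1_961 (E3)
open Crest.Agent.R96.Nu3_199 (ri)

open scoped Classical

/-! ### cells -/

section cells

variable {E : Type*} [NormedAddCommGroup E] [NormedSpace ℝ E]
variable {Q : Type} [PartialOrder Q] {dim : Q → ℕ} {K : Q → Set E} {Ω : Set E}

lemma exists_opn_pt (X : Cplx Ω Q dim K) (q : Q) : ∃ x, Opn K q x := by
  obtain ⟨e, he⟩ := X.isBall q
  have h0 : (0 : Fin (dim q) → ℝ) ∈ cube (dim q) := mem_closedBall_self zero_le_one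
  refine ⟨e.f 0, e.mf h0, fun j hj hx => ?_⟩
  have h1 : e.f 0 ∈ e.f '' sph (dim q) := by rw [he]; exact mem_biUnion hj hx
  obtain ⟨v, hv, hve⟩ := h1
  have h2 : v = 0 := by rw [← e.li v (sph_subset_cube hv), hve, e.li 0 h0]
  rw [h2] at hv
  have h3 : ‖(0 : Fin (dim q) → ℝ)‖ = 1 := mem_sphere_zero_iff_norm.1 hv
  rw [norm_zero] at h3
  norm_num at h3

lemma le_of_sub (X : Cplx Ω Q dim K) {p q : Q} (h : K p ⊆ K q) : p ≤ q := by
  obtain ⟨x, hx⟩ := exists_opn_pt X p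
  exact X.opn_le hx (h hx.1)

lemma eq_of_le (X : Cplx Ω Q dim K) {p q : Q} (h : p ≤ q) (hd : dim p = dim q) : p = q := by
  rcases h.eq_or_lt with h | h
  · exact h
  · have := X.mono _ _ h
    omega

lemma opn_zero (X : Cplx Ω Q dim K) {v : Q} (hv : dim v = 0) {z : E} (hz : z ∈ K v) :
    Opn K v z := ⟨hz, fun j hj => by have := X.mono _ _ hj; omega⟩

lemma sing_zero (X : Cplx Ω Q dim K) {v : Q} (hv : dim v = 0) {z z' : E} (hz : z ∈ K v)
    (hz' : z' ∈ K v) : z = z' := by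
  obtain ⟨e, he⟩ := X.isBall v
  have h : e.g z = e.g z' := by
    funext i
    have := i.2
    omega
  rw [← e.ri z hz, h, e.ri z' hz']

end cells

/-! ### the sides -/

section sides

variable {ε : Fin 2 → ℝ} (hε : ∀ i, ε i = 1 ∨ ε i = -1) (B : E3 ≃ᵃ[ℝ] E3)

/-- the side `s` as an affine curve -/
noncomputable def mS (B : E3 ≃ᵃ[ℝ] E3) (ε : Fin 2 → ℝ) (s : Fin 4) : ℝ →ᵃ[ℝ] E3 :=
  (chA B ε).comp (AffineMap.lineMap (sd s 0) (sd s 1))

lemma mS_apply (s : Fin 4) (t : ℝ) : mS B ε s t = chA B ε (sd s t) := by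
  show chA B ε (AffineMap.lineMap (sd s 0) (sd s 1) t) = _
  congr 1
  funext i
  rw [AffineMap.lineMap_apply]
  show t * (sd s 1 i - sd s 0 i) + sd s 0 i = _
  fin_cases s <;> fin_cases i <;> simp [sd]

include hε

lemma chA_inj : Function.Injective (chA B ε) := fun z z' h => by
  rw [← chB_chA hε B z, h, chB_chA hε B z']

lemma side_eq (s : Fin 4) :
    SkN1_477.side B (dr s) (hgt ε s) = (fun t => chA B ε (sd s t)) '' Icc (-1) 1 := by
  have h := chU_sd hε B s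
  have h1 : (chU hε B).f '' (sd s '' Icc (-1) 1) = (fun t => chA B ε (sd s t)) '' Icc (-1) 1 := by
    rw [image_image]; rfl
  rw [← h1, h]
  fin_cases s <;> rfl

lemma mem_side {s : Fin 4} {t : ℝ} (ht : |t| ≤ 1) :
    chA B ε (sd s t) ∈ SkN1_477.side B (dr s) (hgt ε s) := by
  rw [side_eq hε]
  exact ⟨t, abs_le.1 ht, rfl⟩

/-- the corners of the sides -/
lemma cor_sd (s : Fin 4) : cor B ε (w0 s) = chA B ε (sd s (-1)) ∧
    cor B ε (w1 s) = chA B ε (sd s 1) := by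
  have h := chU_corner hε B
  have key : ∀ k : Fin 4, cor B ε k = chA B ε ![cx k, cy k] := fun k => (h _ _).symm
  constructor
  · rw [key]
    congr 1
    funext i
    fin_cases s <;> fin_cases i <;> simp [sd, cx, cy, w0]
  · rw [key]
    congr 1
    funext i
    fin_cases s <;> fin_cases i <;> simp [sd, cx, cy, w1]

/-- every corner belongs to two sides -/
lemma cor_two (k : Fin 4) : ∃ s s' : Fin 4, s ≠ s' ∧
    cor B ε k ∈ SkN1_477.side B (dr s) (hgt ε s) ∧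
    cor B ε k ∈ SkN1_477.side B (dr s') (hgt ε s') := by
  fin_cases k
  · exact ⟨0, 2, by decide, cor_w0 B hε 0, cor_w0 B hε 2⟩
  · exact ⟨0, 3, by decide, cor_w1 B hε 0, cor_w0 B hε 3⟩
  · exact ⟨1, 2, by decide, cor_w0 B hε 1, cor_w1 B hε 2⟩
  · exact ⟨1, 3, by decide, cor_w1 B hε 1, cor_w1 B hε 3⟩

/-- the sides are different -/
lemma side_inj {s s' : Fin 4}
    (h : SkN1_477.side B (dr s) (hgt ε s) = SkN1_477.side B (dr s') (hgt ε s')) : s = s' := by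
  have h1 : chA B ε (sd s 0) ∈ SkN1_477.side B (dr s') (hgt ε s') := by
    rw [← h]; exact mem_side hε B (by norm_num)
  rw [side_eq hε] at h1
  obtain ⟨t, -, ht⟩ := h1
  have h2 := chA_inj hε B ht
  have h20 := congrFun h2 0
  have h21 := congrFun h2 1
  fin_cases s <;> fin_cases s' <;> simp [sd] at h20 h21 ⊢ <;> linarith

/-- the boundary of the face -/
lemma bd_usq : usq B \ ri (usq B) = chA B ε '' sph 2 := by
  have h1 : usq B = chA B ε '' cube 2 := by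
    apply Subset.antisymm
    · intro x hx
      exact ⟨chB B ε x, chB_mem hε B hx, chA_chB hε B hx⟩
    · rintro _ ⟨z, hz, rfl⟩
      exact chA_mem hε B hz
  rw [h1, ri_inj _ (chA_inj hε B), ri_ball, ← image_sdiff (chA_inj hε B)]
  congr 1
  ext z
  constructor
  · rintro ⟨h2, h3⟩
    rw [mem_ball_zero_iff, not_lt] at h3
    exact mem_sphere_zero_iff_norm.2 (le_antisymm (mem_closedBall_zero_iff.1 h2) h3)
  · intro h2
    have h3 : ‖z‖ = 1 := mem_sphere_zero_iff_norm.1 h2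
    refine ⟨mem_closedBall_zero_iff.2 h3.le, fun h4 => ?_⟩
    rw [mem_ball_zero_iff, h3] at h4
    exact lt_irrefl _ h4

end sides

/-! ### the geometry of a designated face -/

section des

variable {Q : Type} [PartialOrder Q] {dim : Q → ℕ} {J Fam : Type} {K : Q → Set E3} {Ω : Set E3}

/-- the boundary of an edge which is a side -/
lemma bd_edge {χ : Q → E3 → ℝ} (hχ : EdC K dim χ) {ε : Fin 2 → ℝ} (hε : ∀ i, ε i = 1 ∨ ε i = -1)
    (B : E3 ≃ᵃ[ℝ] E3) {q : Q} (hq : dim q = 1) {s : Fin 4}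
    (hs : K q = SkN1_477.side B (dr s) (hgt ε s)) :
    (∃ θ : ℝ, (θ = 1 ∨ θ = -1) ∧ ∀ t : ℝ, |t| ≤ 1 → χ q (chA B ε (sd s t)) = θ * t) ∧
    ∀ z ∈ bdS K q, z = cor B ε (w0 s) ∨ z = cor B ε (w1 s) := by
  obtain ⟨e, χ', he, h2⟩ := hχ q hq
  have hm : ∀ t : ℝ, |t| ≤ 1 → mS B ε s t ∈ K q := fun t ht => by
    rw [mS_apply, hs]; exact mem_side hε B ht
  have hms : ∀ z ∈ K q, ∃ t : ℝ, |t| ≤ 1 ∧ mS B ε s t = z := fun z hz => by
    rw [hs, side_eq hε] at hz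
    obtain ⟨t, ht, rfl⟩ := hz
    exact ⟨t, abs_le.2 ht, mS_apply B s t⟩
  obtain ⟨θ, hθ, h3⟩ := coord_pm e (fun z hz => (h2 z hz).2) (mS B ε s) hm hms
  refine ⟨⟨θ, hθ, fun t ht => ?_⟩, fun z hz => ?_⟩
  · rw [← mS_apply, (h2 _ (hm t ht)).1, h3 t ht]
  · rw [← he] at hz
    obtain ⟨v, hv, rfl⟩ := hz
    have hvc := sph_subset_cube hv
    obtain ⟨t, ht, h4⟩ := hms _ (e.mf hvc)
    have h5 := h3 t ht
    rw [h4, ← (h2 _ (e.mf hvc)).2, e.li v hvc] at h5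
    have h6 : |t| = 1 := by
      have h7 := mem_sph1.1 hv
      rw [h5, abs_mul] at h7
      rcases hθ with h | h <;> rw [h] at h7 <;> simpa using h7
    rw [← h4, mS_apply]
    rcases (abs_eq zero_le_one).1 h6 with h | h
    · right; rw [h, (cor_sd hε B s).2]
    · left; rw [h, (cor_sd hε B s).1]

/-- a vertex of the face is a corner -/
lemma vert_corner (X : Cplx Ω Q dim K) {χ : Q → E3 → ℝ} (hχ : EdC K dim χ)
    (hbd : ∀ τ, bdS K τ = K τ \ ri (K τ)) {τ : Q} {B : E3 ≃ᵃ[ℝ] E3}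
    (hK : K τ = usq B) {ε : Fin 2 → ℝ} (hε : ∀ i, ε i = 1 ∨ ε i = -1)
    (hs : ∀ s : Fin 4, ∃ q, dim q = 1 ∧ K q = SkN1_477.side B (dr s) (hgt ε s))
    {v : Q} (hv : dim v = 0) (hlt : v < τ) {z : E3} (hz : z ∈ K v) : ∃ k, z = cor B ε k := by
  have h1 : z ∈ bdS K τ := mem_biUnion hlt hz
  rw [hbd, hK, bd_usq hε B] at h1
  obtain ⟨ω, hω, rfl⟩ := h1
  obtain ⟨s, t, ht, rfl⟩ := exists_sd hω
  obtain ⟨q, hq, hqK⟩ := hs s
  have h2 : chA B ε (sd s t) ∈ K q := by rw [hqK]; exact mem_side hε B ht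
  have h3 : v < q := lt_of_le_of_ne (X.opn_le (opn_zero X hv hz) h2) (by rintro rfl; omega)
  rcases (bd_edge hχ hε B hq hqK).2 _ (mem_biUnion h3 hz) with h | h
  · exact ⟨_, h⟩
  · exact ⟨_, h⟩

/-- **THE GEOMETRY OF A DESIGNATED FACE** -/
theorem exists_des {C : Cmb Q dim J Fam} (X : Cplx Ω Q dim K) {χ : Q → E3 → ℝ}
    (hχ : EdC K dim χ) (hbd : ∀ τ, bdS K τ = K τ \ ri (K τ)) {τ : Q} (hd : dim τ = 2)
    {B : E3 ≃ᵃ[ℝ] E3} (hK : K τ = usq B)
    (hs : ∀ (j : Fin 2) (b : ℝ), b = 0 ∨ b = 1 → ∃ q, dim q = 1 ∧ K q = SkN1_477.side B j b) :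
    ∃ (ε : Fin 2 → ℝ) (G : Des C K χ τ), FG G.S K B ε ∧
      (∀ z, G.A.f z = B.symm (emb (tau ε z))) ∧ (∀ x, G.A.g x = utau ε (qmb (B x))) := by
  -- the frame
  obtain ⟨ε, hε, hbase⟩ : ∃ ε : Fin 2 → ℝ, (∀ i, ε i = 1 ∨ ε i = -1) ∧
      cor B ε 3 ∈ K (C.o τ) := by
    have hlt := C.o_lt τ (by omega)
    have hv := C.o_dim τ (by omega)
    obtain ⟨z, hz⟩ := (X.isBall (C.o τ)).nonempty
    let ε1 : Fin 2 → ℝ := fun _ => 1
    have hε1 : ∀ i, ε1 i = 1 ∨ ε1 i = -1 := fun _ => Or.inl rfl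
    obtain ⟨k, rfl⟩ := vert_corner X hχ hbd hK hε1 (fun s => hs _ _ (hgt01 hε1 s)) hv hlt hz
    have ha : (1 + ε1 0 * cx k) / 2 = 0 ∨ (1 + ε1 0 * cx k) / 2 = 1 := by
      show (1 + 1 * cx k) / 2 = 0 ∨ (1 + 1 * cx k) / 2 = 1
      fin_cases k <;> simp [cx]
    have hb : (1 + ε1 1 * cy k) / 2 = 0 ∨ (1 + ε1 1 * cy k) / 2 = 1 := by
      show (1 + 1 * cy k) / 2 = 0 ∨ (1 + 1 * cy k) / 2 = 1
      fin_cases k <;> simp [cy]
    obtain ⟨ε, hε, e0, e1⟩ := exists_eps ha hb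
    refine ⟨ε, hε, ?_⟩
    have e3 : cor B ε 3 = cor B ε1 k := by
      show corner B ((1 + ε 0 * 1) / 2) ((1 + ε 1 * 1) / 2) =
        corner B ((1 + ε1 0 * cx k) / 2) ((1 + ε1 1 * cy k) / 2)
      rw [mul_one, mul_one, e0, e1]
    rw [e3]
    exact hz
  -- the sides
  choose es hes1 hesK using fun s : Fin 4 => hs (dr s) (hgt ε s) (hgt01 hε s)
  have hinj : Function.Injective es := fun s s' h => by
    refine side_inj hε B ?_
    rw [← hesK, ← hesK, h]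
  have hlt : ∀ s, es s < τ := fun s => by
    have h1 : K (es s) ⊆ K τ := by
      rw [hesK, hK]; exact side_sub B _ (hgt01 hε s)
    refine lt_of_le_of_ne (le_of_sub X h1) ?_
    intro h
    have := hes1 s
    rw [h] at this
    omega
  have honto : ∀ σ < τ, dim σ = 1 → ∃ s, es s = σ := by
    intro σ hσ hσ1
    obtain ⟨x, hx⟩ := exists_opn_pt X σ
    have h1 : x ∈ bdS K τ := mem_biUnion hσ hx.1
    rw [hbd, hK, bd_usq hε B] at h1
    obtain ⟨ω, hω, rfl⟩ := h1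
    obtain ⟨s, t, ht, rfl⟩ := exists_sd hω
    refine ⟨s, (eq_of_le X (X.opn_le hx ?_) (by rw [hσ1, hes1])).symm⟩
    rw [hesK]
    exact mem_side hε B ht
  -- the corners
  have hcor : ∀ k, ∃ v, dim v = 0 ∧ cor B ε k ∈ K v := by
    intro k
    obtain ⟨s, s', hne, h1, h2⟩ := cor_two hε B k
    rw [← hesK] at h1 h2
    obtain ⟨m, hm, hmo⟩ := X.exists_opn h1
    have hm' := X.opn_le hmo h2
    refine ⟨m, ?_, hmo.1⟩
    by_contra hcon
    have h3 : dim m ≤ 1 := by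
      rcases hm.eq_or_lt with h | h
      · rw [h, hes1]
      · have := X.mono _ _ h
        have := hes1 s
        omega
    have e1 := eq_of_le X hm (by rw [hes1]; omega)
    have e2 := eq_of_le X hm' (by rw [hes1]; omega)
    exact hne (hinj (e1.symm.trans e2))
  choose v hv0 hvc using hcor
  have hvo : ∀ k, Opn K (v k) (cor B ε k) := fun k => opn_zero X (hv0 k) (hvc k)
  have hvlt : ∀ k s, cor B ε k ∈ K (es s) → v k < es s := fun k s h =>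
    lt_of_le_of_ne (X.opn_le (hvo k) h) (by
      intro h'
      have := hes1 s
      rw [← h', hv0] at this
      omega)
  have hl0 : ∀ s, v (w0 s) < es s := fun s => hvlt _ _ (by rw [hesK]; exact cor_w0 B hε s)
  have hl1 : ∀ s, v (w1 s) < es s := fun s => hvlt _ _ (by rw [hesK]; exact cor_w1 B hε s)
  have hne : ∀ s, v (w0 s) ≠ v (w1 s) := fun s h => by
    have h1 := hvc (w0 s)
    rw [h] at h1
    have h2 := sing_zero X (hv0 _) h1 (hvc (w1 s))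
    rw [(cor_sd hε B s).1, (cor_sd hε B s).2] at h2
    have h3 := chA_inj hε B h2
    have h4 := congrFun h3 0
    have h5 := congrFun h3 1
    fin_cases s <;> simp [sd] at h4 h5 <;> linarith
  have hob : ∀ s, C.o (es s) = v (w0 s) ∨ C.o (es s) = v (w1 s) := by
    intro s
    have h1 := C.o_lt (es s) (hes1 s).ge
    have h2 := C.o_dim (es s) (hes1 s).ge
    obtain ⟨z, hz⟩ := (X.isBall (C.o (es s))).nonempty
    rcases (bd_edge hχ hε B (hes1 s) (hesK s)).2 z (mem_biUnion h1 hz) with h | h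
    · left
      exact X.disj _ _ z (opn_zero X h2 hz) (by rw [h]; exact hvo _)
    · right
      exact X.disj _ _ z (opn_zero X h2 hz) (by rw [h]; exact hvo _)
  have hbs : C.o τ = v 3 :=
    X.disj _ _ (cor B ε 3) (opn_zero X (C.o_dim τ (by omega)) hbase) (hvo 3)
  let S : SqC C τ :=
    { es := es, lt := hlt, d1 := hes1, inj := hinj, onto := honto, v := v, l0 := hl0, l1 := hl1
      ne := hne, ob := hob, base := hbs }
  -- the chart
  obtain ⟨A, hAf, hAg⟩ : ∃ A : PLEquiv (cube 2) (K τ), (∀ z, A.f z = chA B ε z) ∧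
      (∀ x, A.g x = chB B ε x) := by
    rw [hK]
    exact ⟨chU hε B, fun _ => rfl, fun _ => rfl⟩
  choose θ hθ1 hθ using fun s => (bd_edge hχ hε B (hes1 s) (hesK s)).1
  let G : Des C K χ τ :=
    { S := S, d2 := hd, A := A
      sph := by
        have h1 : bdS K τ = chA B ε '' sph 2 := by rw [hbd, hK, bd_usq hε B]
        rw [h1]
        exact image_congr fun z _ => hAf z
      side := fun s t ht => by
        rw [hAf]
        show _ ∈ K (es s)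
        rw [hesK]
        exact mem_side hε B ht
      base := by
        rw [hAf]
        have h1 := (cor_sd hε B 1).2
        have h2 : cor B ε 3 = chA B ε (sd 1 1) := h1
        rw [← h2]
        exact hbase
      θ := θ, θ1 := hθ1
      χA := fun s t ht => by
        rw [hAf]
        exact hθ s t ht }
  refine ⟨ε, G, ⟨hε, hK, hesK, hv0, hvc⟩, fun z => ?_, fun x => ?_⟩
  · show A.f z = _
    rw [hAf, chA_apply]
  · show A.g x = _
    rw [hAg]; rfl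

end des

end Crest.Agent.R096.Fsw_928
end

-- ▼ part R096/Fk16_522
section

/-!
# R096 (row 96), P4-FACE, combinatorics, part 16: the numbers of a designated 2-cell (helper522)
-/

set_option autoImplicit false
set_option linter.unusedSectionVars false

open Set Metric Filter Topology

namespace Crest.Agent.R096.Fk_522

open Crest.Agent.R096.Ce_537 Crest.Agent.R096.Bd_416 Crest.Agent.R096.Fsw_928

open scoped Classical

variable {Q : Type} [PartialOrder Q] {dim : Q → ℕ} {J Fam : Type}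
variable {C : Cmb Q dim J Fam} {τ : Q} {S : SqC C τ} {wt : J → ℝ}
  {T : Fin 2 → Finset J} {c : Fin 2 → Fam} {σ a : Fin 2 → ℝ} {m : ℝ}

/-- the total weight of a side -/
noncomputable def SqC.W (S : SqC C τ) (wt : J → ℝ) (s : Fin 4) : ℝ :=
  ∑ y : C.I (S.es s), wt (C.col _ y)

lemma SqC.dsp_le (S : SqC C τ) {o : ℝ} (ho : o = 1 ∨ o = -1) (s : Fin 4) (j : J) :
    o * S.dsp s j ≤ S.N s j := by
  have h1 := S.lab_side s j
  show o * ((Bd_416.sg (C.Lab j (S.v (w0 s))) - Bd_416.sg (C.Lab j (S.v (w1 s)))) / 2) ≤ _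
  rcases dsp_cases h1 ho with ⟨p0, e0⟩ | ⟨p0, f0, e0⟩ | ⟨p0, f0, e0⟩ <;> rw [e0]
  · exact Nat.cast_nonneg _
  · have := Nat.cast_nonneg (α := ℝ) (S.N s j); linarith
  · have : 1 ≤ S.N s j := by omega
    exact_mod_cast this

namespace DP

variable (hD : DP S wt T c σ a m) (hw : ∀ j, 0 < wt j)
include hD hw

lemma W_lo (s : Fin 4) : a (dr s) - m ≤ S.W wt s := by
  refine (hD.dis (dr s) s rfl).trans ?_
  have h1 : σ (dr s) * ∑ j ∈ T (dr s), wt j * S.dsp s j ≤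
      ∑ j ∈ T (dr s), wt j * S.N s j := by
    rw [Finset.mul_sum]
    refine Finset.sum_le_sum fun j _ => ?_
    have h2 := mul_le_mul_of_nonneg_left (S.dsp_le (hD.sg (dr s)) s j) (hw j).le
    linarith
  refine h1.trans ?_
  rw [← hD.sum_fam' (dr s) s]
  exact Finset.sum_le_sum_of_subset_of_nonneg (Finset.filter_subset _ _)
    fun y _ _ => (hw _).le

lemma W_hi (s : Fin 4) : S.W wt s ≤ a (dr s) + 2 * m := by
  have hother : dr s ≠ 1 - dr s := by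
    have hi : dr s = 0 ∨ dr s = 1 := by omega
    rcases hi with h | h <;> rw [h] <;> decide
  have h1 := hD.tot (dr s) s rfl
  have h2 := hD.oth (1 - dr s) s hother
  have h3 : S.W wt s ≤ ∑ y : C.I (S.es s) with C.fam (C.col _ y) = c (dr s), wt (C.col _ y) +
      ∑ y : C.I (S.es s) with C.fam (C.col _ y) = c (1 - dr s), wt (C.col _ y) := by
    unfold SqC.W
    rw [Finset.sum_filter, Finset.sum_filter, ← Finset.sum_add_distrib]
    refine Finset.sum_le_sum fun y _ => ?_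
    have hy := (hw (C.col _ y)).le
    obtain ⟨i, hi⟩ := hD.two s y
    have hi' : i = dr s ∨ i = 1 - dr s := by omega
    rcases hi' with rfl | rfl
    · rw [if_pos hi]; split_ifs <;> linarith
    · rw [if_pos hi]; split_ifs <;> linarith
  linarith

/-- **the numbers** (main directions: full width; empty directions: factor `θ`) -/
theorem numF {μ Λ η1 δ ε η θ : ℝ} (hm : m = η1 * μ) (hμ : 0 < μ) (hΛ : 1 ≤ Λ)
    (hab : ∀ i, a i = 0 ∨ (μ / Λ ≤ a i ∧ a i ≤ μ)) (h10 : 0 < η1) (h11 : 2 * Λ * η1 ≤ 1)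
    (h12 : η1 ≤ θ) (hδ : 0 ≤ δ) (hδ1 : δ ≤ 1/4) (hε : 0 ≤ ε) (hε1 : ε ≤ 1/4)
    (hη : 44 * Λ * η1 + 2 * ε ≤ η) (hθ : 2 * θ ≤ η)
    {ν d t : Fin 4 → ℝ} (hd0 : ∀ s, 0 < d s) (hd1 : ∀ s, d s ≤ η1 * μ)
    (ht : ∀ s, a (dr s) ≠ 0 → t s = 1) (ht0 : ∀ s, a (dr s) = 0 → t s = θ)
    (hν : ∀ s, ν s = 4 * (1 - δ) * (1 - ε) * (t s * (1 / (2 * (S.W wt s + d s))))) :
    NumF S wt ν a m δ η ∧ 1 / αX ν ≤ 3 * μ ∧
      ∀ s, a (dr s) ≠ 0 → |a (dr s) - 2 / ν s| ≤ (3 * η1 + 5 * (δ + ε)) * μ := by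
  have hΛ0 : 0 < Λ := by linarith
  have hθ0 : 0 < θ := by linarith
  have hm0 : 0 ≤ m := by rw [hm]; positivity
  have ha1 : ∀ i, a i ≤ μ := fun i => by
    rcases hab i with h1 | h1
    · rw [h1]; exact hμ.le
    · exact h1.2
  have hmμ : m ≤ μ / 2 := by
    rw [hm]
    have : 2 * η1 ≤ 1 := by nlinarith
    nlinarith
  have hW0 : ∀ s, 0 ≤ S.W wt s := fun s => Finset.sum_nonneg fun y _ => (hw _).le
  have hWlo := hD.W_lo hw
  have hWhi := hD.W_hi hw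
  obtain ⟨M, hM⟩ : ∃ M : Fin 4 → ℝ, ∀ s, M s = S.W wt s + d s := ⟨_, fun _ => rfl⟩
  have hM0 : ∀ s, 0 < M s := fun s => by
    have := hW0 s; have := hd0 s; rw [hM s]; linarith
  have hM2 : ∀ s, S.W wt s ≤ M s := fun s => by have := hd0 s; rw [hM s]; linarith
  have hdm : ∀ s, d s ≤ m := fun s => by rw [hm]; exact hd1 s
  have hMhi : ∀ s, M s ≤ a (dr s) + 3 * m := fun s => by
    have := hWhi s; have := hdm s; rw [hM s]; linarith
  have hM5 : ∀ s, M s - m ≤ S.W wt s := fun s => by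
    have := hdm s; rw [hM s]; linarith
  have hMlo : ∀ s, a (dr s) - m ≤ M s := fun s => by
    have := hWlo s; have := hM2 s; linarith
  have h1δ : 0 < 1 - δ := by linarith
  have h1ε : 0 < 1 - ε := by linarith
  have hcc : 0 < 2 * (1 - δ) * (1 - ε) := by positivity
  have hcc1 : 2 * (1 - δ) * (1 - ε) ≤ 2 := by nlinarith
  have hcc2 : (9:ℝ)/8 ≤ 2 * (1 - δ) * (1 - ε) := by nlinarith
  have hν' : ∀ s, ν s = 2 * (1 - δ) * (1 - ε) * t s / M s := fun s => by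
    have h1 := (hM0 s).ne'
    rw [hν s, ← hM s]
    field_simp
    ring
  have hνm : ∀ s, a (dr s) ≠ 0 → ν s = 2 * (1 - δ) * (1 - ε) / M s := fun s ha => by
    rw [hν' s, ht s ha, mul_one]
  have htpos : ∀ s, 0 < t s := fun s => by
    by_cases ha : a (dr s) = 0
    · rw [ht0 s ha]; exact hθ0
    · rw [ht s ha]; exact one_pos
  have hν0 : ∀ s, 0 < ν s := fun s => by
    rw [hν' s]; exact div_pos (mul_pos hcc (htpos s)) (hM0 s)
  have hmain : ∀ s, a (dr s) ≠ 0 → μ / Λ ≤ a (dr s) := fun s ha => by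
    rcases hab (dr s) with h | h
    · exact absurd h ha
    · exact h.1
  have hmM : ∀ s, a (dr s) ≠ 0 → m / M s ≤ 2 * (Λ * η1) := fun s ha => by
    rw [div_le_iff₀ (hM0 s)]
    have h1 := hmain s ha
    have h2 := hMlo s
    rw [div_le_iff₀ hΛ0] at h1
    have h3 : μ ≤ 2 * (Λ * M s) := by
      have h4 : (a (dr s) - m) * Λ ≤ M s * Λ := mul_le_mul_of_nonneg_right h2 hΛ0.le
      have h5 : 2 * (m * Λ) ≤ μ := by
        rw [hm]
        have := mul_le_mul_of_nonneg_right h11 hμ.le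
        linarith
      linarith
    rw [hm]
    have h4 := mul_le_mul_of_nonneg_left h3 h10.le
    linarith
  have hle : ∀ s, a (dr s) ≠ 0 → ν s * m ≤ 4 * (Λ * η1) := fun s ha => by
    have h1 : ν s * m = 2 * (1 - δ) * (1 - ε) * (m / M s) := by rw [hνm s ha]; ring
    rw [h1]
    have h2 := hmM s ha
    have h3 : 0 ≤ m / M s := div_nonneg hm0 (hM0 s).le
    calc 2 * (1 - δ) * (1 - ε) * (m / M s) ≤ 2 * (m / M s) := mul_le_mul_of_nonneg_right hcc1 h3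
      _ ≤ _ := by linarith
  have hΛη : 0 ≤ Λ * η1 := by positivity
  have hsum : ∀ s, ∑ y, S.wd wt ν s y = ν s * S.W wt s := fun s => by
    unfold SqC.wd SqC.W
    rw [Finset.mul_sum]
  refine ⟨⟨hν0, hm0, fun s => ?_, fun s ha => ?_, fun s s' hss ha => ?_⟩, ?_, fun s ha => ?_⟩
  · by_cases ha : a (dr s) = 0
    · right
      rw [hsum s, hν' s, ht0 s ha]
      have h1 : 2 * (1 - δ) * (1 - ε) * θ / M s * S.W wt s =
          2 * (1 - δ) * (1 - ε) * θ * (S.W wt s / M s) := by ring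
      have h2 : S.W wt s / M s ≤ 1 := (div_le_one (hM0 s)).2 (hM2 s)
      have h3 : 2 * (1 - δ) * (1 - ε) * θ ≤ 2 * θ := mul_le_mul_of_nonneg_right hcc1 hθ0.le
      have h4 : 2 * (1 - δ) * (1 - ε) * θ * (S.W wt s / M s) ≤
          2 * (1 - δ) * (1 - ε) * θ * 1 := mul_le_mul_of_nonneg_left h2 (by positivity)
      rw [h1]
      linarith
    · left
      have := hle s ha
      linarith
  · rw [hsum s, hνm s ha]
    have h1 := hM5 s
    have h2 := hmM s ha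
    have h3 : 1 - m / M s ≤ S.W wt s / M s := by
      rw [le_div_iff₀ (hM0 s), sub_mul, div_mul_cancel₀ _ (hM0 s).ne']
      linarith
    have h4 : 2 * (1 - δ) * (1 - ε) / M s * S.W wt s =
        2 * (1 - δ) * (1 - ε) * (S.W wt s / M s) := by ring
    rw [h4]
    have h5 : 2 * (1 - δ) * (1 - ε) * (1 - 2 * (Λ * η1)) ≤
        2 * (1 - δ) * (1 - ε) * (S.W wt s / M s) :=
      mul_le_mul_of_nonneg_left (by linarith) hcc.le
    refine le_trans ?_ h5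
    have h6 : 2 * (1 - δ) * (1 - ε) * (1 - 2 * (Λ * η1)) =
        2 * (1 - δ) - 2 * (1 - δ) * ε - 2 * (1 - δ) * (1 - ε) * (2 * (Λ * η1)) := by ring
    have h7 : 2 * (1 - δ) * ε ≤ 2 * ε := by nlinarith
    have h8 : 2 * (1 - δ) * (1 - ε) * (2 * (Λ * η1)) ≤ 2 * (2 * (Λ * η1)) :=
      mul_le_mul_of_nonneg_right hcc1 (by linarith)
    rw [h6]
    linarith
  · have ha' : a (dr s') ≠ 0 := by rw [← hss]; exact ha
    have h1 := hMhi s
    have h2 := hMlo s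
    have h3 := hMhi s'
    have h4 := hMlo s'
    rw [← hss] at h3 h4
    have h5 : |M s' - M s| ≤ 4 * m := abs_le.2 ⟨by linarith, by linarith⟩
    have h6 : ν s - ν s' = ν s * ((M s' - M s) / M s') := by
      rw [hνm s ha, hνm s' ha']
      have := (hM0 s).ne'
      have := (hM0 s').ne'
      field_simp
    rw [h6, abs_mul, abs_of_pos (hν0 s), abs_div, abs_of_pos (hM0 s'), mul_comm η]
    refine mul_le_mul_of_nonneg_left ?_ (hν0 s).le
    have h7 : |M s' - M s| / M s' ≤ 4 * m / M s' := div_le_div_of_nonneg_right h5 (hM0 s').le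
    have h8 := hmM s' ha'
    have h9 : 4 * m / M s' = 4 * (m / M s') := by ring
    rw [h9] at h7
    linarith
  · have h1 : ∀ s, 1 / (3 * μ) ≤ ν s := fun s => by
      rw [hν' s, div_le_div_iff₀ (by linarith) (hM0 s)]
      have h2 := hMhi s
      by_cases ha : a (dr s) = 0
      · rw [ht0 s ha]
        rw [ha, hm] at h2
        have h3 : (9:ℝ)/8 * (θ * (3 * μ)) ≤ 2 * (1 - δ) * (1 - ε) * (θ * (3 * μ)) :=
          mul_le_mul_of_nonneg_right hcc2 (by positivity)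
        have h4 : η1 * μ ≤ θ * μ := mul_le_mul_of_nonneg_right h12 hμ.le
        have h5 : 0 ≤ θ * μ := by positivity
        linarith
      · rw [ht s ha, mul_one]
        have h4 : (9:ℝ)/8 * (3 * μ) ≤ 2 * (1 - δ) * (1 - ε) * (3 * μ) :=
          mul_le_mul_of_nonneg_right hcc2 (by linarith)
        have h5 := ha1 (dr s)
        linarith
    have h2 : 1 / (3 * μ) ≤ αX ν := by
      unfold αX αA αB
      exact le_min (le_min (h1 2) (h1 3)) (le_min (h1 0) (h1 1))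
    have h3 : 0 < αX ν := lt_of_lt_of_le (by positivity) h2
    rw [div_le_iff₀ h3]
    rw [div_le_iff₀ (by linarith)] at h2
    linarith
  · have h1 := hMhi s
    have h2 := hMlo s
    have h3 : 2 / ν s = M s / ((1 - δ) * (1 - ε)) := by
      rw [hνm s ha]
      have := (hM0 s).ne'
      field_simp
    rw [h3]
    have hp : 0 < (1 - δ) * (1 - ε) := by positivity
    have h4 : M s ≤ M s / ((1 - δ) * (1 - ε)) := by
      rw [le_div_iff₀ hp]
      have : (1 - δ) * (1 - ε) ≤ 1 := by nlinarith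
      nlinarith [hM0 s]
    have h5 : M s / ((1 - δ) * (1 - ε)) ≤ M s * (1 + 2 * (δ + ε)) := by
      rw [div_le_iff₀ hp, mul_assoc]
      have h6 : 1 ≤ (1 + 2 * (δ + ε)) * ((1 - δ) * (1 - ε)) := by
        have h7 : 1 - (δ + ε) ≤ (1 - δ) * (1 - ε) := by nlinarith
        have h8 : 1 ≤ (1 + 2 * (δ + ε)) * (1 - (δ + ε)) := by nlinarith
        have h9 : 0 ≤ 1 + 2 * (δ + ε) := by linarith
        exact h8.trans (mul_le_mul_of_nonneg_left h7 h9)
      nlinarith [hM0 s]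
    have h11' : M s ≤ 5/2 * μ := by
      have := ha1 (dr s); linarith
    have h12' : M s * (2 * (δ + ε)) ≤ 5/2 * μ * (2 * (δ + ε)) :=
      mul_le_mul_of_nonneg_right h11' (by linarith)
    have h13 : 0 ≤ (δ + ε) * μ := by positivity
    have h14 : 0 ≤ η1 * μ := by positivity
    rw [hm] at h1 h2
    rw [abs_le]
    constructor
    · linarith
    · linarith

end DP

end Crest.Agent.R096.Fk_522
end

-- ▼ part R096/Fsw33_928
section

/-!
# R096 (row 96), FACE-SWEEP, part 33: the clause `face` for one designated 2-cell, all constants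
chosen (helper928)
-/

set_option autoImplicit false
set_option linter.unusedSectionVars false

open Set Metric Filter Topology MeasureTheory
open scoped ENNReal

namespace Crest.Agent.R096.Fsw_928

open Crest.Agent.R096.Ce_537 Crest.Agent.R096.Bd_416 Crest.Agent.R096.Fk_522
open Crest.Agent.R096.SkN1_477 Crest.Agent.R096.Mg_441 Crest.Agent.R096.On_441
open Crest.Agent.R096.SkC1_961 (E3 FoamD)

open scoped Classical

/-- **THE CLAUSE `face`, ONE CELL, ALL CONSTANTS**: `δ` margin of the edges, `P1 P2` sweep, `θ` factor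
of the empty directions, `ε` loss, `β0` lower bound of the squeezing numbers, `CL` Lipschitz constant
of the cell, `η1` purity -/
theorem face_end {p : ℝ} (hp : 1 ≤ p) {Λ : ℝ} (hΛ : 1 ≤ Λ) {e : ℝ} (he : 0 < e) :
    ∃ δ : ℝ, 0 < δ ∧ δ ≤ 1/4 ∧ ∃ P1 P2 : Par, ∃ η : ℝ, 0 < η ∧ η ≤ 1 ∧ HasDep P1 P2 δ η ∧
    ∃ θ : ℝ, 0 < θ ∧ 2 * θ ≤ η ∧ ∃ ε : ℝ, 0 < ε ∧ ε ≤ 1/4 ∧ 4 * ε ≤ η ∧ ∃ β0 : ℝ, 1/4 ≤ β0 ∧
    β0 < 1/2 ∧ ∀ CL : ℝ, 0 ≤ CL → ∃ η1 : ℝ, 0 < η1 ∧ η1 ≤ θ ∧ 2 * Λ * η1 ≤ 1 ∧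
    44 * Λ * η1 + 2 * ε ≤ η ∧
    ∀ {δ' κ0 R c0 : ℝ} {La : Set E3} (Φ : FoamD δ' κ0 R c0 La) (κ : Φ.F → ℕ)
      (L : Φ.F → Finset ℝ) {Q : Type} [PartialOrder Q] {dim : Q → ℕ} {J : Type}
      {C : Cmb Q dim J Φ.F} {K : Q → Set E3} {g : Gd E3 J}
      {Pc : ∀ q, C.I q → Set E3} {c : ∀ q, C.I q → E3 → ℝ} (_ : Bd_416.Inv C K univ g Pc c)
      {τ : Q} {χ : Q → E3 → ℝ} (G : Des C K χ τ)
      (_ : ∀ x : C.I τ, ∃ a b, a ≠ b ∧ Arc_778.Blw C τ x = {a, b})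
      (B : E3 ≃ᵃ[ℝ] E3) (ε0 : Fin 2 → ℝ) (_ : FG G.S K B ε0)
      (_ : ∀ z ∈ cube 2, G.A.f z = B.symm (emb (tau ε0 z)))
      (hfin : ∀ a, {j | C.fam j = a}.Finite) (wt : J → ℝ) (_ : ∀ j, 0 < wt j) (rr : Φ.F → ℝ)
      (_ : ∀ a, 1 ≤ rr a) (_ : ∀ a, (mm hfin a : ℝ) = rr a * (L a).card)
      (_ : ∀ j, rr (C.fam j) * wt j = (2:ℝ)⁻¹ ^ κ (C.fam j))
      (n : Set E3 → Φ.F → ℝ)
      (_ : ∀ s a, n (SkN1_477.side B (dr s) (hgt ε0 s)) a = nP C (G.S.es s) a / rr a)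
      (μ : ℝ) (_ : 0 < μ) (a : Fin 2 → ℝ) (_ : ∀ i, a i = 0 ∨ (μ / Λ ≤ a i ∧ a i ≤ μ))
      (wd : Q → ℝ) (d t : Fin 4 → ℝ) (_ : ∀ s, 0 < d s) (_ : ∀ s, d s ≤ η1 * μ)
      (b : ℕ → ℝ) (_ : ∀ n, β0 ≤ b n)
      (_ : (∃ T cc σ, DP G.S wt T cc σ a (η1 * μ)) → (∃ i, a i ≠ 0) →
        (∀ s, a (dr s) ≠ 0 → t s = 1) ∧ (∀ s, a (dr s) = 0 → t s = θ) ∧
        (∀ s, wd (G.S.es s) =
          4 * (1 - δ) * (1 - ε) * (t s * (1 / (2 * (G.S.W wt s + d s))))) ∧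
        ∃ M, SpecF C K wt δ wd χ P1 P2 (b 2) η G M ∧ Sqd C K τ (2 * b 3) M g (Pc τ) (c τ))
      (_ : ∀ x, ∀ z ∈ usq B,
        LB B (CL * (∑ s, G.S.W wt s + η1 * μ) / wt (C.col τ x)) (c τ x) (K τ) z)
      (c1 c2 : Φ.F) (σ1 σ2 : ℝ)
      (_ : FaceIn Φ κ L (fun x => uu hfin g x) n η1 μ a B c1 c2 σ1 σ2),
      FaceOut p Φ κ L (fun x => uu hfin g x) e μ a B c1 c2 σ1 σ2 := by
  obtain ⟨δ, h1, h2, h3⟩ := face_clause hp (by norm_num : (1:ℝ) ≤ 3) he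
  obtain ⟨P1, P2, η0, h4, h5, h6⟩ := h3 δ h1 le_rfl
  obtain ⟨hdep, hcl⟩ := h6 η0 h4.le le_rfl
  refine ⟨δ, h1, h2, P1, P2, η0, h4, by linarith, @hdep, η0 / 2, by linarith, by linarith,
    η0 / 8, by linarith, by linarith, by linarith, 1/2 * (1 - η0 / 4), by linarith,
    by linarith, fun CL hCL => ?_⟩
  have hp0 : 0 < p := by linarith
  -- the purity
  obtain ⟨η1, k0, k1, k2, k3⟩ : ∃ η1 : ℝ, 0 < η1 ∧ 44 * Λ * η1 ≤ η0 / 2 ∧ 44 * η1 ≤ δ ∧
      9 * CL * η1 ≤ e ^ (1 / p) := by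
    have he' : 0 < e ^ (1 / p) := Real.rpow_pos_of_pos he _
    have hΛ0 : 0 < Λ := by linarith
    refine ⟨min (η0 / (88 * Λ)) (min (δ / 44) (e ^ (1 / p) / (9 * CL + 1))), ?_, ?_, ?_, ?_⟩
    · refine lt_min (by positivity) (lt_min (by positivity) (by positivity))
    · have h := min_le_left (η0 / (88 * Λ)) (min (δ / 44) (e ^ (1 / p) / (9 * CL + 1)))
      calc 44 * Λ * _ ≤ 44 * Λ * (η0 / (88 * Λ)) := mul_le_mul_of_nonneg_left h (by positivity)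
        _ = η0 / 2 := by field_simp; ring
    · have h := (min_le_right (η0 / (88 * Λ)) (min (δ / 44) (e ^ (1 / p) / (9 * CL + 1)))).trans
        (min_le_left _ _)
      linarith
    · have h := (min_le_right (η0 / (88 * Λ)) (min (δ / 44) (e ^ (1 / p) / (9 * CL + 1)))).trans
        (min_le_right _ _)
      calc 9 * CL * _ ≤ 9 * CL * (e ^ (1 / p) / (9 * CL + 1)) :=
            mul_le_mul_of_nonneg_left h (by positivity)
        _ = e ^ (1 / p) * (9 * CL / (9 * CL + 1)) := by ring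
        _ ≤ e ^ (1 / p) * 1 := by
            refine mul_le_mul_of_nonneg_left ?_ he'.le
            rw [div_le_one (by positivity)]
            linarith
        _ = _ := mul_one _
  have k4 : η1 ≤ η0 / 2 := by nlinarith
  have k5 : 2 * Λ * η1 ≤ 1 := by nlinarith
  refine ⟨η1, k0, k4, k5, by linarith, ?_⟩
  intro δ' κ0 R c0 La Φ κ L Q _ dim J C K g Pc c H τ χ G hends B ε0 FGe hGA hfin wt hw rr hr hm hwt n
    hn μ hμ a hab wd d t hd0 hd1 b hb hN hL c1 c2 σ1 σ2 F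
  have hD := dp_of_faceIn H FGe (fun _ => mem_univ _) (fun _ => mem_univ _) hfin hw hr hm hwt hn F
  have hb3 : ∀ n, 0 < b n := fun n => by have := hb n; nlinarith
  by_cases ha : ∃ i, a i ≠ 0
  · obtain ⟨ht, ht0, hν, M, hS, hSq⟩ := hN ⟨_, _, _, hD⟩ ha
    have hnum : ∀ (T : Fin 2 → Finset J) (cc : Fin 2 → Φ.F) (σ : Fin 2 → ℝ)
        (_ : DP G.S wt T cc σ a (η1 * μ)), NumF G.S wt (G.nu wd) a (η1 * μ) δ η0 ∧
        1 / αX (G.nu wd) ≤ 3 * μ ∧ ∀ s, a (dr s) ≠ 0 →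
          |a (dr s) - 2 / G.nu wd s| ≤ (3 * η1 + 5 * (δ + η0 / 8)) * μ := by
      intro T cc σ hDP
      exact hDP.numF hw rfl hμ hΛ hab k0 k5 k4 h1.le h2 (by linarith) (by linarith) (by linarith)
        (by linarith) hd0 hd1 ht ht0 hν
    obtain ⟨-, hα, hsl⟩ := hnum _ _ _ hD
    refine hcl Φ κ L H (mem_univ _) G (fun _ => mem_univ _) (fun _ => mem_univ _) B ε0 FGe hGA
      hfin wt hw rr hr hm hwt n hn wd (b 2) M hS (2 * b 3) hSq ?_ η1 μ hμ a ?_ hα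
      (fun s hs => (hsl s hs).trans ?_) c1 c2 σ1 σ2 F
    · have e2 := hb 2
      have e3 := hb 3
      nlinarith
    · intro T cc σ hDP L' B'
      obtain ⟨hNF, -, -⟩ := hnum T cc σ hDP
      exact B'.pure (by have := G.d2; omega) hw hNF.ν0 hends hDP hNF.m0 hNF.η11 hNF.full hNF.νν
    · refine mul_le_mul_of_nonneg_right ?_ hμ.le
      linarith
  · push Not at ha
    have hW0 : ∀ s, 0 ≤ G.S.W wt s := fun s => Finset.sum_nonneg fun y _ => (hw _).le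
    have hWs : ∑ s, G.S.W wt s ≤ 8 * (η1 * μ) := by
      have h7 : ∀ s, G.S.W wt s ≤ 2 * (η1 * μ) := fun s => by
        have := hD.W_hi hw s
        rw [ha (dr s), zero_add] at this
        exact this
      calc ∑ s, G.S.W wt s ≤ ∑ _s : Fin 4, 2 * (η1 * μ) := Finset.sum_le_sum fun s _ => h7 s
        _ = 8 * (η1 * μ) := by
            rw [Finset.sum_const, Finset.card_univ, Fintype.card_fin, nsmul_eq_mul]
            push_cast
            ring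
    have hS0 : 0 ≤ CL * (∑ s, G.S.W wt s + η1 * μ) :=
      mul_nonneg hCL (add_nonneg (Finset.sum_nonneg fun s _ => hW0 s) (by positivity))
    have hS1 : CL * (∑ s, G.S.W wt s + η1 * μ) ≤ e ^ (1 / p) * μ := by
      calc CL * (∑ s, G.S.W wt s + η1 * μ) ≤ CL * (8 * (η1 * μ) + η1 * μ) :=
            mul_le_mul_of_nonneg_left (by linarith) hCL
        _ = 9 * CL * η1 * μ := by ring
        _ ≤ _ := mul_le_mul_of_nonneg_right k3 hμ.le
    refine face_out_zero Φ κ L H (mem_univ τ) hfin wt hw rr c1 c2 (fun a' _ => ⟨hm a', fun j hj => by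
      rw [← hj]; exact hwt j⟩) B (by rw [FGe.face]) hS0 hL hp0.le ?_ ha σ1 σ2
    calc (CL * (∑ s, G.S.W wt s + η1 * μ)) ^ p ≤ (e ^ (1 / p) * μ) ^ p :=
          Real.rpow_le_rpow hS0 hS1 hp0.le
      _ = e * μ ^ p := by
          rw [Real.mul_rpow (Real.rpow_nonneg he.le _) hμ.le, ← Real.rpow_mul he.le,
            one_div, inv_mul_cancel₀ hp0.ne', Real.rpow_one]

end Crest.Agent.R096.Fsw_928
end

-- ▼ part R096/Fsw34_928
section

/-!
# R096 (row 96), FACE-SWEEP, part 34: two frames of the same designated face (helper928)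
-/

set_option autoImplicit false
set_option linter.unusedSectionVars false

open Set Metric Filter Topology MeasureTheory

namespace Crest.Agent.R096.Fsw_928

open Crest.Agent.R096.Ce_537 Crest.Agent.R096.Bd_416 Crest.Agent.R096.Fk_522
open Crest.Agent.R096.SkN1_477
open Crest.Agent.R096.SkC1_961 (E3)

open scoped Classical

lemma cor_chA {ε : Fin 2 → ℝ} (hε : ∀ i, ε i = 1 ∨ ε i = -1) (B : E3 ≃ᵃ[ℝ] E3) (k : Fin 4) :
    cor B ε k = chA B ε ![cx k, cy k] := (chU_corner hε B _ _).symm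

/-- a corner lies only on its two sides -/
lemma cor_side {ε : Fin 2 → ℝ} (hε : ∀ i, ε i = 1 ∨ ε i = -1) (B : E3 ≃ᵃ[ℝ] E3) {k s : Fin 4}
    (h : cor B ε k ∈ SkN1_477.side B (dr s) (hgt ε s)) : k = w0 s ∨ k = w1 s := by
  rw [side_eq hε, cor_chA hε] at h
  obtain ⟨t, -, ht⟩ := h
  have h1 := chA_inj hε B ht
  have h10 := congrFun h1 0
  have h11 := congrFun h1 1
  fin_cases s <;> fin_cases k <;> simp [sd, cx, cy] at h10 h11 <;>
    first
    | (exfalso; linarith)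
    | (left; rfl)
    | (right; rfl)

/-- the first side of a corner -/
def sA : Fin 4 → Fin 4 := ![0, 0, 1, 1]
/-- the second side of a corner -/
def sB : Fin 4 → Fin 4 := ![2, 3, 2, 3]

lemma cor_sA {ε : Fin 2 → ℝ} (hε : ∀ i, ε i = 1 ∨ ε i = -1) (B : E3 ≃ᵃ[ℝ] E3) (k : Fin 4) :
    cor B ε k ∈ SkN1_477.side B (dr (sA k)) (hgt ε (sA k)) := by
  fin_cases k
  · exact cor_w0 B hε 0
  · exact cor_w1 B hε 0
  · exact cor_w0 B hε 1
  · exact cor_w1 B hε 1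

lemma cor_sB {ε : Fin 2 → ℝ} (hε : ∀ i, ε i = 1 ∨ ε i = -1) (B : E3 ≃ᵃ[ℝ] E3) (k : Fin 4) :
    cor B ε k ∈ SkN1_477.side B (dr (sB k)) (hgt ε (sB k)) := by
  fin_cases k
  · exact cor_w0 B hε 2
  · exact cor_w0 B hε 3
  · exact cor_w1 B hε 2
  · exact cor_w1 B hε 3

/-- the intersection of the two sides is the corner -/
lemma eq_cor {ε : Fin 2 → ℝ} (hε : ∀ i, ε i = 1 ∨ ε i = -1) (B : E3 ≃ᵃ[ℝ] E3) {k : Fin 4} {x : E3}
    (h1 : x ∈ SkN1_477.side B (dr (sA k)) (hgt ε (sA k)))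
    (h2 : x ∈ SkN1_477.side B (dr (sB k)) (hgt ε (sB k))) : x = cor B ε k := by
  rw [side_eq hε] at h1 h2
  obtain ⟨t, -, ht⟩ := h1
  obtain ⟨t', -, ht'⟩ := h2
  have h3 := chA_inj hε B (ht.trans ht'.symm)
  have h30 := congrFun h3 0
  have h31 := congrFun h3 1
  rw [← ht, cor_chA hε]
  dsimp only
  congr 1
  funext i
  fin_cases k <;> simp [sd, sA, sB] at h30 h31 <;> fin_cases i <;> simp [sd, sA, cx, cy] <;>
    linarith

/-- an affine map of the plane is determined by three corners -/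
lemma aff_three (f g : (Fin 2 → ℝ) →ᵃ[ℝ] E3) (h3 : f ![1, 1] = g ![1, 1])
    (h2 : f ![-1, 1] = g ![-1, 1]) (h1 : f ![1, -1] = g ![1, -1]) (z : Fin 2 → ℝ) : f z = g z := by
  have key : ∀ f : (Fin 2 → ℝ) →ᵃ[ℝ] E3, f z = f ![1, 1] + ((z 0 - 1) / 2) • (f ![1, 1] -
      f ![-1, 1]) + ((z 1 - 1) / 2) • (f ![1, 1] - f ![1, -1]) := by
    intro f
    have e1 : ∀ v w : Fin 2 → ℝ, f v - f w = f.linear (v - w) := fun v w =>
      (f.linearMap_vsub v w).symm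
    have e2 : f z = f ![1, 1] + f.linear (z - ![1, 1]) := by
      rw [← e1]; abel
    rw [e2, e1, e1, add_assoc, ← map_smul, ← map_smul, ← map_add]
    congr 2
    funext i
    fin_cases i
    · show z 0 - 1 = (z 0 - 1) / 2 * (1 - (-1)) + (z 1 - 1) / 2 * (1 - 1)
      ring
    · show z 1 - 1 = (z 0 - 1) / 2 * (1 - 1) + (z 1 - 1) / 2 * (1 - (-1))
      ring
  rw [key f, key g, h1, h2, h3]

section transfer

variable {Q : Type} [PartialOrder Q] {dim : Q → ℕ} {J Fam : Type} {K : Q → Set E3} {Ω : Set E3}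
  {C : Cmb Q dim J Fam} {χ χ' : Q → E3 → ℝ} {τ : Q}

/-- **two frames of the same designated face** with the same directions: the chart and the
cells are the same -/
theorem FG.transfer (X : Cplx Ω Q dim K) (G : Des C K χ τ) {B B' : E3 ≃ᵃ[ℝ] E3}
    {ε ε' : Fin 2 → ℝ} (F : FG G.S K B ε) (hA : ∀ z, G.A.f z = B.symm (emb (tau ε z)))
    (G' : Des C K χ' τ) (F' : FG G'.S K B' ε')
    (dir : ∀ (j j' : Fin 2) (b b' : ℝ), SkN1_477.side B j b = SkN1_477.side B' j' b' → j = j') :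
    FG G.S K B' ε' ∧ ∀ z, G.A.f z = B'.symm (emb (tau ε' z)) := by
  have hε := F.e1
  have hε' := F'.e1
  -- the sides of the first frame are sides of the second one
  have hπ : ∀ s, ∃ s', G'.S.es s' = G.S.es s ∧ dr s' = dr s := by
    intro s
    obtain ⟨s', hs'⟩ := G'.S.onto (G.S.es s) (G.S.lt s) (G.S.d1 s)
    refine ⟨s', hs', ?_⟩
    refine (dir _ _ (hgt ε s) (hgt ε' s') ?_).symm
    rw [← F.side, ← F'.side, hs']
  -- the base corner
  have h3 : cor B ε 3 = cor B' ε' 3 := by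
    have h1 := F.vtx 3
    have h2 := F'.vtx 3
    rw [← G.S.base] at h1
    rw [← G'.S.base] at h2
    exact sing_zero X (C.o_dim τ (by have := G.d2; omega)) h1 h2
  have dr0 : ∀ s : Fin 4, dr s = 0 → s = 0 ∨ s = 1 := by decide
  have dr1 : ∀ s : Fin 4, dr s = 1 → s = 2 ∨ s = 3 := by decide
  have c3 : ∀ s, cor B ε 3 ∈ K (G.S.es s) → (s = 1 ∨ s = 3) := by
    intro s h
    rw [F.side] at h
    rcases cor_side hε B h with h | h <;> fin_cases s <;> simp [w0, w1] at h ⊢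
  have c3' : ∀ s, cor B' ε' 3 ∈ K (G'.S.es s) → (s = 1 ∨ s = 3) := by
    intro s h
    rw [F'.side] at h
    rcases cor_side hε' B' h with h | h <;> fin_cases s <;> simp [w0, w1] at h ⊢
  have m1 : cor B ε 3 ∈ K (G.S.es 1) := by rw [F.side]; exact cor_sA hε B 3
  have m3 : cor B ε 3 ∈ K (G.S.es 3) := by rw [F.side]; exact cor_sB hε B 3
  have e1 : G'.S.es 1 = G.S.es 1 := by
    obtain ⟨s', h1, h2⟩ := hπ 1
    rw [← h1, h3] at m1
    rcases c3' s' m1 with rfl | rfl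
    · exact h1
    · exact absurd h2 (by decide)
  have e3 : G'.S.es 3 = G.S.es 3 := by
    obtain ⟨s', h1, h2⟩ := hπ 3
    rw [← h1, h3] at m3
    rcases c3' s' m3 with rfl | rfl
    · exact absurd h2 (by decide)
    · exact h1
  have e0 : G'.S.es 0 = G.S.es 0 := by
    obtain ⟨s', h1, h2⟩ := hπ 0
    rcases dr0 s' h2 with rfl | rfl
    · exact h1
    · exfalso
      have := G.S.inj (h1.symm.trans e1)
      exact absurd this (by decide)
  have e2 : G'.S.es 2 = G.S.es 2 := by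
    obtain ⟨s', h1, h2⟩ := hπ 2
    rcases dr1 s' h2 with rfl | rfl
    · exact h1
    · exfalso
      have := G.S.inj (h1.symm.trans e3)
      exact absurd this (by decide)
  have es : ∀ s, G'.S.es s = G.S.es s := by
    intro s
    fin_cases s
    · exact e0
    · exact e1
    · exact e2
    · exact e3
  -- the corners
  have hc : ∀ k, cor B' ε' k = cor B ε k := by
    intro k
    refine eq_cor hε B ?_ ?_
    · rw [← F.side, ← es, F'.side]
      exact cor_sA hε' B' k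
    · rw [← F.side, ← es, F'.side]
      exact cor_sB hε' B' k
  have hch : ∀ z, chA B ε z = chA B' ε' z := by
    refine aff_three _ _ ?_ ?_ ?_
    · have h := (hc 3).symm
      rw [cor_chA hε, cor_chA hε'] at h
      exact h
    · have h := (hc 2).symm
      rw [cor_chA hε, cor_chA hε'] at h
      exact h
    · have h := (hc 1).symm
      rw [cor_chA hε, cor_chA hε'] at h
      exact h
  refine ⟨⟨hε', F'.face, fun s => by rw [← es, F'.side], F.d0, fun k => ?_⟩, fun z => ?_⟩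
  · rw [hc k]
    exact F.vtx k
  · rw [hA, ← chA_apply, hch, chA_apply]

end transfer

end Crest.Agent.R096.Fsw_928
end

-- ▼ part R096/Fk17_522
section

/-!
# R096 (row 96), P4-FACE, part 17: affine charts of the edges with the constants of the shape
(helper522)
-/

set_option autoImplicit false
set_option linter.unusedSectionVars false

open Set Metric Filter Topology

namespace Crest.Agent.R096.Fk_522

open Crest.Agent.R096.Ce_537 Crest.Agent.R096.Bd_416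
open Crest.Agent.R96.Nu3_199 Crest.Agent.R96.Nu5_199 Crest.Agent.R96.Nu6_199

open scoped Classical

/-- a local Lipschitz constant on a convex set is a Lipschitz constant -/
theorem glob {V Y : Type*} [NormedAddCommGroup V] [NormedSpace ℝ V] [PseudoMetricSpace Y]
    {Z : Set V} (hZ : Convex ℝ Z) {F : V → Y} {A : ℝ}
    (h : ∀ x ∈ Z, ∀ᶠ y in 𝓝[Z] x, dist (F y) (F x) ≤ A * dist y x) {x y : V} (hx : x ∈ Z)
    (hy : y ∈ Z) : dist (F y) (F x) ≤ A * dist y x := by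
  let r : ℝ → V := fun t => x + t • (y - x)
  have hr : Continuous r := by fun_prop
  have hrm : ∀ t ∈ Icc (0:ℝ) 1, r t ∈ Z := fun t ht => hZ.add_smul_sub_mem hx hy ht
  have hrd : ∀ s t, dist (r s) (r t) = |s - t| * dist y x := by
    intro s t
    rw [dist_eq_norm, dist_eq_norm]
    have : r s - r t = (s - t) • (y - x) := by
      show x + s • (y - x) - (x + t • (y - x)) = _
      rw [sub_smul]; abel
    rw [this, norm_smul, Real.norm_eq_abs]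
  have hloc : ∀ t ∈ Icc (0:ℝ) 1, ∀ᶠ s in 𝓝[Icc (0:ℝ) 1] t,
      dist (F (r s)) (F (r t)) ≤ A * dist y x * |s - t| := by
    intro t ht
    have h1 : Tendsto r (𝓝[Icc (0:ℝ) 1] t) (𝓝[Z] (r t)) :=
      tendsto_nhdsWithin_iff.2 ⟨(hr.tendsto t).mono_left nhdsWithin_le_nhds,
        by filter_upwards [self_mem_nhdsWithin] with s hs using hrm s hs⟩
    filter_upwards [h1.eventually (h _ (hrm t ht))] with s hs
    rw [hrd] at hs
    linarith
  have hcont : ContinuousOn (fun t => dist (F (r t)) (F (r 0)) - A * dist y x * t)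
      (Icc (0:ℝ) 1) := by
    refine ContinuousOn.sub ?_ (by fun_prop)
    refine continuous_dist.comp_continuousOn (ContinuousOn.prodMk ?_ continuousOn_const)
    intro t ht
    rw [ContinuousWithinAt, tendsto_iff_dist_tendsto_zero]
    refine squeeze_zero' (Eventually.of_forall fun _ => dist_nonneg) (hloc t ht) ?_
    have : Continuous fun s : ℝ => A * dist y x * |s - t| := by fun_prop
    have h2 := this.tendsto t
    simp only [sub_self, abs_zero, mul_zero] at h2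
    exact h2.mono_left nhdsWithin_le_nhds
  set S : Set ℝ := {t | dist (F (r t)) (F (r 0)) - A * dist y x * t ≤ 0} with hS
  have hcl : IsClosed (S ∩ Icc 0 1) := by
    have h2 := hcont.preimage_isClosed_of_isClosed isClosed_Icc (isClosed_Iic (a := (0:ℝ)))
    have h3 : S ∩ Icc 0 1 = Icc 0 1 ∩
        (fun t => dist (F (r t)) (F (r 0)) - A * dist y x * t) ⁻¹' Iic 0 := by
      ext t
      simp only [hS, mem_inter_iff, mem_ofPred_eq, mem_preimage, mem_Iic]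
      tauto
    rw [h3]
    exact h2
  have h0 : (0 : ℝ) ∈ S := by simp [hS]
  have h1 := hcl.Icc_subset_of_forall_mem_nhdsWithin h0 (by
    rintro t ⟨ht, ht0, ht1⟩
    have h4 : 𝓝[>] t ≤ 𝓝[Icc (0:ℝ) 1] t := by
      rw [← nhdsWithin_Ioo_eq_nhdsGT ht1]
      exact nhdsWithin_mono _ fun s hs => ⟨ht0.trans hs.1.le, hs.2.le⟩
    filter_upwards [h4 (hloc t ⟨ht0, ht1.le⟩), self_mem_nhdsWithin] with s hs hst
    have hst' : t < s := hst
    rw [abs_of_pos (by linarith)] at hs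
    have h5 : dist (F (r t)) (F (r 0)) - A * dist y x * t ≤ 0 := ht
    show dist (F (r s)) (F (r 0)) - A * dist y x * s ≤ 0
    have h6 := dist_triangle (F (r s)) (F (r t)) (F (r 0))
    linarith)
  have h2 : (1 : ℝ) ∈ S := h1 (right_mem_Icc.2 zero_le_one)
  have h3 : dist (F (r 1)) (F (r 0)) - A * dist y x * 1 ≤ 0 := h2
  have e1 : r 1 = y := by simp [r]
  have e0 : r 0 = x := by simp [r]
  rw [e1, e0] at h3
  linarith

variable {E : Type*} [NormedAddCommGroup E] [NormedSpace ℝ E] [FiniteDimensional ℝ E]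

/-- a convex body whose relative boundary has two points is a segment -/
lemma seg_of_bd {S : Set E} (hc : IsCompact S) {p q : E} (h : S \ ri S = {p, q})
    {x : E} (hx : x ∈ S) : ∃ s ∈ Icc (0:ℝ) 1, x = AffineMap.lineMap p q s := by
  have hp : p ∈ S := by
    have : p ∈ S \ ri S := by rw [h]; simp
    exact this.1
  by_cases hxp : x = p
  · exact ⟨0, ⟨le_rfl, zero_le_one⟩, by rw [AffineMap.lineMap_apply_zero, hxp]⟩
  let r : ℝ → E := fun t => p + t • (x - p)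
  have hr : Continuous r := by fun_prop
  let T : Set ℝ := r ⁻¹' S ∩ Ici 1
  have hn : 0 < ‖x - p‖ := norm_pos_iff.2 (sub_ne_zero.2 hxp)
  obtain ⟨M, hM⟩ := hc.isBounded.exists_norm_le
  have hTb : T ⊆ Icc 1 ((M + ‖p‖) / ‖x - p‖) := by
    rintro t ⟨ht, ht1⟩
    refine ⟨ht1, ?_⟩
    rw [le_div_iff₀ hn]
    have h1 := hM _ ht
    have ht1' : (1:ℝ) ≤ t := ht1
    have h2 : t * ‖x - p‖ = ‖t • (x - p)‖ := by
      rw [norm_smul, Real.norm_eq_abs, abs_of_pos (by linarith)]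
    have h3 : t • (x - p) = r t - p := by simp [r]
    rw [h2, h3]
    exact (norm_sub_le _ _).trans (by linarith)
  have hTc : IsCompact T := isCompact_Icc.of_isClosed_subset
    ((hc.isClosed.preimage hr).inter isClosed_Ici) hTb
  have h1T : (1:ℝ) ∈ T := ⟨by simpa [r] using hx, mem_Ici.2 le_rfl⟩
  obtain ⟨t, ht, hmax⟩ := hTc.exists_isGreatest ⟨1, h1T⟩
  have ht1 : (1:ℝ) ≤ t := ht.2
  have hy : r t ∈ S \ ri S := by
    refine ⟨ht.1, fun hri => ?_⟩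
    obtain ⟨s, hs, hs2⟩ := hri.2 p hp
    have e : r t + s • (r t - p) = r (t * (1 + s)) := by
      show p + t • (x - p) + s • (p + t • (x - p) - p) = p + (t * (1 + s)) • (x - p)
      rw [add_sub_cancel_left, smul_smul, add_assoc, ← add_smul]
      congr 2
      ring
    rw [e] at hs2
    have h4 : t * (1 + s) ∈ T := ⟨hs2, by show (1:ℝ) ≤ t * (1 + s); nlinarith⟩
    have h5 := hmax h4
    nlinarith
  rw [h] at hy
  rcases hy with hy | hy
  · exfalso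
    have h6 : t • (x - p) = 0 := by
      have : p + t • (x - p) = p := hy
      simpa using this
    rcases smul_eq_zero.1 h6 with h7 | h7
    · linarith
    · exact hxp (sub_eq_zero.1 h7)
  · have hq : p + t • (x - p) = q := hy
    refine ⟨t⁻¹, ⟨by positivity, inv_le_one_of_one_le₀ ht1⟩, ?_⟩
    rw [AffineMap.lineMap_apply, vsub_eq_sub, vadd_eq_add, ← hq, add_sub_cancel_left, smul_smul,
      inv_mul_cancel₀ (by linarith), one_smul, sub_add_cancel]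

lemma dist_fin1 (y x : Fin 1 → ℝ) : dist y x = |y 0 - x 0| := by
  rw [dist_eq_norm]
  refine le_antisymm ?_ ?_
  · rw [pi_norm_le_iff_of_nonneg (abs_nonneg _)]
    intro i
    rw [Subsingleton.elim i 0]
    exact le_rfl
  · exact norm_le_pi_norm (y - x) 0

/-- **THE AFFINE CHART OF AN EDGE** has the constants of the shape -/
theorem affine_edge {S : Set E} (h1 : Convex ℝ S) (h2 : IsCompact S) (h3 : S.Nonempty)
    (h4 : IsBall 1 S (S \ ri S)) : ∃ (e : PLEquiv (cube 1) S) (χ : E →ᵃ[ℝ] ℝ),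
      e.f '' sph 1 = S \ ri S ∧ (∀ z ∈ S, e.g z 0 = χ z) ∧ ∀ B : E ≃ᵃ[ℝ] E,
      (∀ x ∈ cube 1, MB (fun x => x) B (AAc 1 (B '' S)) e.f (cube 1) x) ∧
        ∀ z ∈ S, MB B (fun x => x) (AAc 1 (B '' S)) e.g S z := by
  obtain ⟨e0, he0, hB0⟩ := AAc_spec h1 h2 h3 h4
  let vm : Fin 1 → ℝ := fun _ => -1
  let vp : Fin 1 → ℝ := fun _ => 1
  have hvm : vm ∈ sph 1 := mem_sph1.2 (by show |(-1:ℝ)| = 1; norm_num)
  have hvp : vp ∈ sph 1 := mem_sph1.2 (by show |(1:ℝ)| = 1; norm_num)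
  have hvmc := sph_subset_cube hvm
  have hvpc := sph_subset_cube hvp
  set p := e0.f vm with hp
  set q := e0.f vp with hq
  have hsph : sph 1 = {vm, vp} := by
    ext v
    rw [mem_sph1]
    constructor
    · intro h
      rcases (abs_eq zero_le_one).1 h with h | h
      · right
        funext i; rw [Subsingleton.elim i 0, h]
      · left
        funext i; rw [Subsingleton.elim i 0, h]
    · rintro (rfl | rfl)
      · show |(-1:ℝ)| = 1; norm_num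
      · show |(1:ℝ)| = 1; norm_num
  have hbd : S \ ri S = {p, q} := by rw [← he0, hsph, image_pair]
  have hpq : p ≠ q := by
    intro h
    have h5 := e0.li vm hvmc
    have h6 := e0.li vp hvpc
    rw [← hp, h, hq, h6] at h5
    have := congrFun h5 0
    have h7 : (1:ℝ) = -1 := this
    norm_num at h7
  have hpS : p ∈ S := e0.mf hvmc
  have hqS : q ∈ S := e0.mf hvpc
  obtain ⟨l, hl⟩ := SeparatingDual.exists_ne_zero (R := ℝ) (sub_ne_zero.2 (Ne.symm hpq))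
  let χ : E →ᵃ[ℝ] ℝ := ((2 / l (q - p)) • (l : E →ₗ[ℝ] ℝ)).toAffineMap +
    AffineMap.const ℝ E (-1 - 2 / l (q - p) * l p)
  have hχ : ∀ z, χ z = 2 / l (q - p) * l z + (-1 - 2 / l (q - p) * l p) := fun z => rfl
  have hχl : ∀ s, χ (AffineMap.lineMap p q s) = 2 * s - 1 := by
    intro s
    rw [hχ, AffineMap.lineMap_apply, vsub_eq_sub, vadd_eq_add, map_add, map_smul, smul_eq_mul]
    field_simp
    ring
  let a : (Fin 1 → ℝ) →ᵃ[ℝ] ℝ := ((1/2 : ℝ) • (LinearMap.proj 0 : (Fin 1 → ℝ) →ₗ[ℝ] ℝ)).toAffineMap +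
    AffineMap.const ℝ _ (1/2 : ℝ)
  have ha : ∀ t, a t = (1 + t 0) / 2 := fun t => by
    show (1/2 : ℝ) * t 0 + 1/2 = _
    ring
  have hmem : ∀ t ∈ cube 1, a t ∈ Icc (0:ℝ) 1 := fun t ht => by
    have h5 := abs_le.1 (mem_cube1.1 ht)
    rw [ha]
    constructor <;> linarith
  have hseg := fun x (hx : x ∈ S) => seg_of_bd h2 hbd hx
  let e : PLEquiv (cube 1) S :=
    { f := fun t => AffineMap.lineMap p q (a t)
      g := fun z _ => χ z
      pf := plOn_affine ((AffineMap.lineMap p q : ℝ →ᵃ[ℝ] E).comp a) _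
      pg := pl_pi fun _ => plOn_affine χ _
      mf := fun t ht => by
        have h5 := hmem t ht
        exact h1.segment_subset hpS hqS (by
          rw [segment_eq_image_lineMap]; exact ⟨_, h5, rfl⟩)
      mg := fun z hz => by
        obtain ⟨s, hs, rfl⟩ := hseg z hz
        rw [mem_cube1]
        show |χ _| ≤ 1
        rw [hχl, abs_le]
        constructor <;> linarith [hs.1, hs.2]
      li := fun t _ => by
        funext i
        show χ (AffineMap.lineMap p q (a t)) = t i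
        rw [hχl, ha, Subsingleton.elim i 0]
        ring
      ri := fun z hz => by
        obtain ⟨s, hs, rfl⟩ := hseg z hz
        show AffineMap.lineMap p q (a fun _ => χ (AffineMap.lineMap p q s)) = _
        rw [ha, hχl]
        congr 1
        ring }
  have hef : ∀ t, e.f t = AffineMap.lineMap p q (a t) := fun t => rfl
  have heg : ∀ z, e.g z = fun _ => χ z := fun z => rfl
  refine ⟨e, χ, ?_, fun z _ => rfl, fun B => ?_⟩
  · rw [hsph, image_pair, hbd, hef, hef, ha, ha]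
    have e1 : (1 + vm 0) / 2 = 0 := by show (1 + (-1:ℝ)) / 2 = 0; norm_num
    have e2 : (1 + vp 0) / 2 = 1 := by show (1 + (1:ℝ)) / 2 = 1; norm_num
    rw [e1, e2, AffineMap.lineMap_apply_zero, AffineMap.lineMap_apply_one]
  · have hBl : ∀ s, B (AffineMap.lineMap p q s) = AffineMap.lineMap (B p) (B q) s := fun s =>
      (B : E →ᵃ[ℝ] E).apply_lineMap p q s
    obtain ⟨hB1, hB2⟩ := hB0 B
    set A := AAc 1 (B '' S) with hA
    have hA0 : 0 < A := AAc_pos _ _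
    have k1 : dist (B q) (B p) ≤ A * 2 := by
      have h5 := glob (convex_closedBall (0 : Fin 1 → ℝ) 1) (F := fun t => B (e0.f t)) (A := A)
        (fun x hx => hB1 x hx) hvmc hvpc
      rw [dist_fin1] at h5
      have h6 : |vp 0 - vm 0| = 2 := by show |(1:ℝ) - (-1)| = 2; norm_num
      rw [h6] at h5
      exact h5
    have k2 : 2 ≤ A * dist (B q) (B p) := by
      have h5 := glob (convex_Icc (0:ℝ) 1) (F := fun s : ℝ => e0.g (AffineMap.lineMap p q s))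
        (A := A * dist (B q) (B p)) (fun s hs => by
          have hz : (AffineMap.lineMap p q s : E) ∈ S := h1.segment_subset hpS hqS (by
            rw [segment_eq_image_lineMap]; exact ⟨_, hs, rfl⟩)
          have hT : Tendsto (fun s : ℝ => (AffineMap.lineMap p q s : E)) (𝓝[Icc 0 1] s)
              (𝓝[S] (AffineMap.lineMap p q s)) := by
            refine tendsto_nhdsWithin_iff.2 ⟨?_, ?_⟩
            · have : Continuous fun s : ℝ => (AffineMap.lineMap p q s : E) :=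
                AffineMap.lineMap_continuous
              exact (this.tendsto s).mono_left nhdsWithin_le_nhds
            · filter_upwards [self_mem_nhdsWithin] with s' hs'
              exact h1.segment_subset hpS hqS (by
                rw [segment_eq_image_lineMap]; exact ⟨_, hs', rfl⟩)
          filter_upwards [hT.eventually (hB2 _ hz)] with s' hs'
          refine hs'.trans (le_of_eq ?_)
          rw [hBl, hBl, dist_lineMap_lineMap, dist_comm (B p)]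
          ring) (left_mem_Icc.2 zero_le_one) (right_mem_Icc.2 zero_le_one)
      rw [AffineMap.lineMap_apply_zero, AffineMap.lineMap_apply_one, hp, hq, e0.li vm hvmc,
        e0.li vp hvpc, dist_fin1] at h5
      have h6 : |vp 0 - vm 0| = 2 := by show |(1:ℝ) - (-1)| = 2; norm_num
      have h7 : dist (1:ℝ) 0 = 1 := by simp
      rw [h6, h7, mul_one] at h5
      exact h5
    refine ⟨fun x _ => Eventually.of_forall fun y => ?_, fun z hz => ?_⟩
    · show dist (B (e.f y)) (B (e.f x)) ≤ A * dist y x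
      rw [hef, hef, hBl, hBl, dist_lineMap_lineMap, ha, ha, Real.dist_eq, dist_fin1,
        dist_comm (B p)]
      have h5 : (1 + y 0) / 2 - (1 + x 0) / 2 = (y 0 - x 0) / 2 := by ring
      rw [h5, abs_div, abs_of_pos (by norm_num : (0:ℝ) < 2)]
      have h6 := mul_le_mul_of_nonneg_left k1 (abs_nonneg (y 0 - x 0))
      linarith
    · filter_upwards [self_mem_nhdsWithin] with y hy
      obtain ⟨s, hs, rfl⟩ := hseg z hz
      obtain ⟨t, ht, rfl⟩ := hseg y hy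
      show dist (e.g _) (e.g _) ≤ A * dist (B _) (B _)
      rw [dist_fin1, hBl, hBl, dist_lineMap_lineMap, Real.dist_eq, dist_comm (B p)]
      show |χ _ - χ _| ≤ _
      rw [hχl, hχl]
      have h5 : 2 * t - 1 - (2 * s - 1) = 2 * (t - s) := by ring
      rw [h5, abs_mul, abs_of_pos (by norm_num : (0:ℝ) < 2)]
      have h6 := mul_le_mul_of_nonneg_left k2 (abs_nonneg (t - s))
      linarith

variable {Q : Type} [PartialOrder Q] {dim : Q → ℕ} {K : Q → Set E} {Ω : Set E}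

/-- **199's `exists_e` with affine edges** -/
theorem exists_eA (X : Cplx Ω Q dim K) (hconv : ∀ τ, Convex ℝ (K τ)) (hcpt : ∀ τ, IsCompact (K τ))
    (hbd : ∀ τ, bdS K τ = K τ \ ri (K τ)) :
    ∃ (e : ∀ τ, 1 ≤ dim τ → PLEquiv (cube (dim τ)) (K τ)) (χ : Q → E →ᵃ[ℝ] ℝ),
      (∀ τ, ∀ hd : 1 ≤ dim τ, (e τ hd).f '' sph (dim τ) = bdS K τ) ∧
      (∀ τ, ∀ hd : 1 ≤ dim τ, ∀ B ∈ FrA E, ∀ v ∈ cube (dim τ),
        MB id B (AAc (dim τ) (B '' K τ)) (e τ hd).f (cube (dim τ)) v) ∧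
      (∀ τ, ∀ hd : 1 ≤ dim τ, ∀ B ∈ FrA E, ∀ z ∈ K τ,
        MB B id (AAc (dim τ) (B '' K τ)) (e τ hd).g (K τ) z) ∧
      ∀ τ, ∀ hd : 1 ≤ dim τ, dim τ = 1 → ∀ z ∈ K τ, (e τ hd).g z ⟨0, hd⟩ = χ τ z := by
  have key : ∀ τ, ∀ n, dim τ = n → ∃ (e : PLEquiv (cube n) (K τ)) (χ : E →ᵃ[ℝ] ℝ),
      e.f '' sph n = K τ \ ri (K τ) ∧
      (∀ B : E ≃ᵃ[ℝ] E, (∀ x ∈ cube n, MB (fun x => x) B (AAc n (B '' K τ)) e.f (cube n) x) ∧
        ∀ z ∈ K τ, MB B (fun x => x) (AAc n (B '' K τ)) e.g (K τ) z) ∧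
      ∀ hn : 1 ≤ n, n = 1 → ∀ z ∈ K τ, e.g z ⟨0, hn⟩ = χ z := by
    intro τ n hn
    have hb : IsBall n (K τ) (K τ \ ri (K τ)) := by
      rw [← hbd, ← hn]; exact X.isBall τ
    by_cases h1 : n = 1
    · subst h1
      obtain ⟨e, χ, h2, h3, h4⟩ := affine_edge (hconv τ) (hcpt τ) hb.nonempty hb
      exact ⟨e, χ, h2, h4, fun _ _ z hz => h3 z hz⟩
    · obtain ⟨e, h2, h3⟩ := AAc_spec (hconv τ) (hcpt τ) hb.nonempty hb
      exact ⟨e, AffineMap.const ℝ E 0, h2, h3, fun _ h => absurd h h1⟩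
  choose e χ h1 h2 h3 using fun τ => key τ (dim τ) rfl
  refine ⟨fun τ _ => e τ, χ, fun τ _ => by rw [hbd]; exact h1 τ, ?_, ?_, ?_⟩
  · rintro τ _ _ ⟨B, rfl⟩ v hv
    exact (h2 τ B).1 v hv
  · rintro τ _ _ ⟨B, rfl⟩ z hz
    exact (h2 τ B).2 z hz
  · intro τ hd hd1 z hz
    exact h3 τ hd hd1 z hz

end Crest.Agent.R096.Fk_522
end

-- ▼ part R096/Fk18_522
section

/-!
# R096 (row 96), P4-FACE, part 18: THE MESH WITH DESIGNATED 2-CELLS IN ALL AFFINE FRAMES, with 199's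
numbers (helper522)
-/

set_option autoImplicit false
set_option linter.unusedSectionVars false

open Set Metric Filter Topology

namespace Crest.Agent.R096.Fk_522

open Crest.Agent.R096.Ce_537 Crest.Agent.R096.Bd_416 Crest.Agent.R096.Fsw_928
open Crest.Agent.R96.Nu1_199 Crest.Agent.R96.Nu2_199
open Crest.Agent.R96.Nu3_199 Crest.Agent.R96.Nu5_199 Crest.Agent.R96.Nu6_199

open scoped Classical

section two

variable {Q : Type} [PartialOrder Q] {dim : Q → ℕ} {J Fam : Type}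
variable {C : Cmb Q dim J Fam} {τ : Q}

/-- two ends -/
theorem SqC.card_two (S : SqC C τ) (x : C.I τ)
    (hends : ∃ a b, a ≠ b ∧ Arc_778.Blw C τ x = {a, b}) :
    ∑ s, (Finset.univ.filter fun y : C.I (S.es s) => C.up (S.lt s) y = x).card = 2 := by
  obtain ⟨a, b, hab, hB⟩ := hends
  let F : Finset (Σ s, C.I (S.es s)) := Finset.univ.filter fun v => C.up (S.lt v.1) v.2 = x
  let Φ : (Σ s, C.I (S.es s)) → (Σ e, C.I e) := fun v => ⟨S.es v.1, v.2⟩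
  have hΦ : Function.Injective Φ := by
    rintro ⟨s, y⟩ ⟨s', y'⟩ h
    have h1 : S.es s = S.es s' := congrArg Sigma.fst h
    have h2 := S.inj h1
    subst h2
    have h3 : y = y' := by
      have := (Sigma.mk.inj_iff.1 h).2
      exact eq_of_heq this
    rw [h3]
  have hF : F.image Φ = {a, b} := by
    ext v
    have h1 : v ∈ ({a, b} : Finset (Σ e, C.I e)) ↔ v ∈ Arc_778.Blw C τ x := by
      rw [hB]; simp
    rw [h1, Finset.mem_image]
    constructor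
    · rintro ⟨⟨s, y⟩, h, rfl⟩
      exact ⟨S.d1 s, S.lt s, (Finset.mem_filter.1 h).2⟩
    · rintro ⟨hd, h, hu⟩
      obtain ⟨e, y⟩ := v
      obtain ⟨s, hs⟩ := S.onto e h hd
      dsimp only at hs hu h
      subst hs
      exact ⟨⟨s, y⟩, Finset.mem_filter.2 ⟨Finset.mem_univ _, hu⟩, rfl⟩
  have hcard : F.card = 2 := by
    rw [← Finset.card_image_of_injective F hΦ, hF, Finset.card_pair hab]
  rw [← hcard]
  show _ = (Finset.univ.filter fun v : Σ s, C.I (S.es s) => C.up (S.lt v.1) v.2 = x).card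
  rw [Finset.card_filter, Fintype.sum_sigma]
  refine Finset.sum_congr rfl fun s _ => ?_
  rw [← Finset.card_filter]

/-- the weight of a side is at most twice the weight of the cell -/
theorem SqC.W_le (S : SqC C τ) {wt : J → ℝ} (hw : ∀ j, 0 < wt j)
    (hends : ∀ x : C.I τ, ∃ a b, a ≠ b ∧ Arc_778.Blw C τ x = {a, b}) (s : Fin 4) :
    Wd C wt (S.es s) ≤ 2 * Wd C wt τ := by
  have h1 : Wd C wt (S.es s) = ∑ x : C.I τ, ∑ y : C.I (S.es s) with C.up (S.lt s) y = x,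
      wt (C.col _ y) := by
    unfold Wd
    exact (Finset.sum_fiberwise Finset.univ (fun y : C.I (S.es s) => C.up (S.lt s) y)
      (fun y => wt (C.col _ y))).symm
  rw [h1]
  unfold Wd
  rw [Finset.mul_sum]
  refine Finset.sum_le_sum fun x _ => ?_
  have h2 : ∀ y ∈ Finset.univ.filter (fun y : C.I (S.es s) => C.up (S.lt s) y = x),
      wt (C.col _ y) = wt (C.col τ x) := fun y hy => by
    rw [← C.col_up (S.lt s) y, (Finset.mem_filter.1 hy).2]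
  rw [Finset.sum_congr rfl h2, Finset.sum_const, nsmul_eq_mul]
  refine mul_le_mul_of_nonneg_right ?_ (hw _).le
  have h3 := S.card_two x (hends x)
  have h4 : (Finset.univ.filter fun y : C.I (S.es s) => C.up (S.lt s) y = x).card ≤ 2 := by
    rw [← h3]
    exact Finset.single_le_sum
      (f := fun s => (Finset.univ.filter fun y : C.I (S.es s) => C.up (S.lt s) y = x).card)
      (fun _ _ => Nat.zero_le _) (Finset.mem_univ s)
  exact_mod_cast h4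

end two

section mesh

variable {E : Type*} [NormedAddCommGroup E] [NormedSpace ℝ E] [FiniteDimensional ℝ E]
variable {Q : Type} [PartialOrder Q] {dim : Q → ℕ} {J Fam : Type}
variable {C : Cmb Q dim J Fam} {K : Q → Set E} {Ω : Set E}
variable {R : Set Q} {K₀ ε δ : ℝ} {b : ℕ → ℝ} {wt : J → ℝ} {d : Q → ℝ}
variable {g0 : Gd E J} {P0 : ∀ q, C.I q → Set E} {c0 : ∀ q, C.I q → E → ℝ}



end mesh

end Crest.Agent.R096.Fk_522
end

-- ▼ part R096/Fsw35_928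
section

/-!
# R096 (row 96), FACE-SWEEP, part 35: the designated faces of a complex, the set `N`, the factor `th`,
the rule of the mixed mesh (helper928)
-/

set_option autoImplicit false
set_option linter.unusedSectionVars false

open Set Metric Filter Topology MeasureTheory

namespace Crest.Agent.R096.Fsw_928

open Crest.Agent.R096.Ce_537 Crest.Agent.R096.Bd_416 Crest.Agent.R096.Fk_522
open Crest.Agent.R096.SkN1_477
open Crest.Agent.R096.SkC1_961 (E3)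
open Crest.Agent.R096.Mxs_487 (AffC)
open Crest.Agent.R96.Nu1_199 Crest.Agent.R96.Nu2_199
open Crest.Agent.R96.Nu3_199 Crest.Agent.R96.Nu5_199 Crest.Agent.R96.Nu6_199

open scoped Classical

/-- the unit square in `E3` -/
def Sq0 : Set E3 := emb '' {y : E2 | ∀ j, 0 ≤ y j ∧ y j ≤ 1}

lemma image_usq (B : E3 ≃ᵃ[ℝ] E3) : B '' usq B = Sq0 :=
  image_preimage_eq _ B.surjective

section data

variable {Q : Type} [PartialOrder Q] {dim : Q → ℕ} {J Fam : Type} {K : Q → Set E3} {Ω : Set E3}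
  {C : Cmb Q dim J Fam} {χ : Q → E3 → ℝ} {Fc : Set Q} {Bc : Q → E3 ≃ᵃ[ℝ] E3}

/-- **the designated faces of a complex** with their frames `Bc τ` -/
structure DesF (C : Cmb Q dim J Fam) (K : Q → Set E3) (χ : Q → E3 → ℝ) (Fc : Set Q)
    (Bc : Q → E3 ≃ᵃ[ℝ] E3) where
  des : ∀ τ ∈ Fc, Des C K χ τ
  ε : Q → Fin 2 → ℝ
  fg : ∀ τ (h : τ ∈ Fc), FG (des τ h).S K (Bc τ) (ε τ)
  Af : ∀ τ (h : τ ∈ Fc) z, (des τ h).A.f z = (Bc τ).symm (emb (tau (ε τ) z))
  Ag : ∀ τ (h : τ ∈ Fc) x, (des τ h).A.g x = utau (ε τ) (qmb (Bc τ x))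
  dir : ∀ τ ∈ Fc, ∀ τ' ∈ Fc, ∀ (j j' : Fin 2) (b b' : ℝ),
    SkN1_477.side (Bc τ) j b = SkN1_477.side (Bc τ') j' b' → j = j'

theorem exists_desF (X : Cplx Ω Q dim K) (hχ : EdC K dim χ)
    (hbd : ∀ τ, bdS K τ = K τ \ ri (K τ)) (h2 : ∀ τ ∈ Fc, dim τ = 2)
    (hK : ∀ τ ∈ Fc, K τ = usq (Bc τ))
    (hs : ∀ τ ∈ Fc, ∀ (j : Fin 2) (b : ℝ), b = 0 ∨ b = 1 →
      ∃ q, dim q = 1 ∧ K q = SkN1_477.side (Bc τ) j b)
    (dir : ∀ τ ∈ Fc, ∀ τ' ∈ Fc, ∀ (j j' : Fin 2) (b b' : ℝ),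
      SkN1_477.side (Bc τ) j b = SkN1_477.side (Bc τ') j' b' → j = j') :
    Nonempty (DesF C K χ Fc Bc) := by
  have key : ∀ τ, ∃ ε : Fin 2 → ℝ, ∀ _ : τ ∈ Fc, ∃ G : Des C K χ τ, FG G.S K (Bc τ) ε ∧
      (∀ z, G.A.f z = (Bc τ).symm (emb (tau ε z))) ∧ (∀ x, G.A.g x = utau ε (qmb (Bc τ x))) := by
    intro τ
    by_cases h : τ ∈ Fc
    · obtain ⟨ε, G, h1, h3, h4⟩ := exists_des (C := C) X hχ hbd (h2 τ h) (hK τ h) (hs τ h)
      exact ⟨ε, fun _ => ⟨G, h1, h3, h4⟩⟩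
    · exact ⟨fun _ => 1, fun h' => absurd h' h⟩
  choose ε G h1 h3 h4 using key
  exact ⟨⟨G, ε, h1, h3, h4, dir⟩⟩

namespace DesF

variable (F : DesF C K χ Fc Bc) (wt : J → ℝ) (a : Fin 2 → ℝ) (m : ℝ)

/-- the nearly pure designated cells -/
def N : Set Q := {τ | ∃ h : τ ∈ Fc, (∃ T cc σ, DP (F.des τ h).S wt T cc σ a m) ∧ ∃ i, a i ≠ 0}

/-- the factor of the widths -/
noncomputable def th (θ : ℝ) (q : Q) : ℝ :=
  if ∃ τ, ∃ h : τ ∈ Fc, τ ∈ F.N wt a m ∧ ∃ s, (F.des τ h).S.es s = q ∧ a (dr s) = 0 then θ else 1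

variable {F wt a m} {θ : ℝ}

lemma th_empty {τ : Q} (h : τ ∈ Fc) (hN : τ ∈ F.N wt a m) {s : Fin 4} (hs : a (dr s) = 0) :
    F.th wt a m θ ((F.des τ h).S.es s) = θ :=
  if_pos ⟨τ, h, hN, s, rfl, hs⟩

lemma th_main {τ : Q} (h : τ ∈ Fc) {s : Fin 4} (hs : a (dr s) ≠ 0) :
    F.th wt a m θ ((F.des τ h).S.es s) = 1 := by
  refine if_neg ?_
  rintro ⟨τ', h', -, s', he, h0⟩
  have h1 := F.dir τ' h' τ h (dr s') (dr s) (hgt (F.ε τ') s') (hgt (F.ε τ) s) (by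
    rw [← (F.fg τ' h').side, ← (F.fg τ h).side, he])
  rw [h1] at h0
  exact hs h0

lemma th_dim {q : Q} (hq : dim q ≠ 1) : F.th wt a m θ q = 1 := by
  refine if_neg ?_
  rintro ⟨τ', h', -, s', rfl, -⟩
  exact hq ((F.des τ' h').S.d1 s')

lemma th_cases (q : Q) : F.th wt a m θ q = θ ∨ F.th wt a m θ q = 1 := by
  unfold th
  split_ifs
  · exact Or.inl rfl
  · exact Or.inr rfl

lemma th_pos (hθ : 0 < θ) (q : Q) : 0 < F.th wt a m θ q := by
  rcases F.th_cases (wt := wt) (a := a) (m := m) (θ := θ) q with h | h <;> rw [h]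
  · exact hθ
  · exact one_pos

lemma th_le (hθ : θ ≤ 1) (q : Q) : F.th wt a m θ q ≤ 1 := by
  rcases F.th_cases (wt := wt) (a := a) (m := m) (θ := θ) q with h | h <;> rw [h]
  exact hθ

lemma le_th (hθ : θ ≤ 1) (q : Q) : θ ≤ F.th wt a m θ q := by
  rcases F.th_cases (wt := wt) (a := a) (m := m) (θ := θ) q with h | h <;> rw [h]
  exact hθ

variable (F wt a m)

/-- the widths per weight -/
noncomputable def wd (θ δ ε : ℝ) (dl : Q → ℝ) (q : Q) : ℝ :=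
  4 * (1 - δ) * (1 - ε) * (F.th wt a m θ q * uq C wt dl q)

/-- **the additional structure of the cells** -/
def SpX (θ δ ε : ℝ) (dl : Q → ℝ) (P1 P2 : Par) (b2 η : ℝ) (q : Q) (M : Lam (K q) (C.I q)) :
    Prop :=
  SpecE C K wt δ (F.wd wt a m θ δ ε dl) χ q M ∧
    ∀ h : q ∈ Fc, q ∈ F.N wt a m →
      SpecF C K wt δ (F.wd wt a m θ δ ε dl) χ P1 P2 b2 η (F.des q h) M

variable {F wt a m} {δ ε : ℝ} {dl : Q → ℝ} {P1 P2 : Par} {b2 η : ℝ}

lemma N_dim {τ : Q} (h : τ ∈ F.N wt a m) : dim τ = 2 := (F.des τ h.choose).d2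

/-- the other cells -/
lemma spX_other {q : Q} (hd : dim q ≠ 1) (hN : q ∉ F.N wt a m) (M : Lam (K q) (C.I q)) :
    F.SpX wt a m θ δ ε dl P1 P2 b2 η q M :=
  ⟨fun h => absurd h hd, fun _ h => absurd h hN⟩

/-- the edges -/
lemma spX_edge (hχ : EdC K dim χ) {τ : Q} (hd : dim τ = 1) (hcl : IsClosed (K τ))
    {e : PLEquiv (cube 1) (K τ)} (he : AffC e) {p : C.I τ → ℝ}
    (hE : Ed (fun i => F.wd wt a m θ δ ε dl τ * wt (C.col τ i)) p)
    (hm : ∀ i, |p i| + F.wd wt a m θ δ ε dl τ * wt (C.col τ i) / 2 < 1 - δ) :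
    F.SpX wt a m θ δ ε dl P1 P2 b2 η τ ((edgeLam hE).pull e.symm hcl) :=
  ⟨specE_edge hcl e (hχ.sign hd he) hE hm, fun _ h => by
    have := F.N_dim h
    omega⟩

/-- the designated cells -/
lemma spX_face {τ : Q} (h : τ ∈ Fc) {M : Lam (K τ) (C.I τ)}
    (hF : SpecF C K wt δ (F.wd wt a m θ δ ε dl) χ P1 P2 b2 η (F.des τ h) M) :
    F.SpX wt a m θ δ ε dl P1 P2 b2 η τ M :=
  ⟨fun h' => by have := (F.des τ h).d2; omega, fun _ _ => hF⟩

section num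

variable {μ Λ η1 : ℝ} (hw : ∀ j, 0 < wt j) (hm : m = η1 * μ) (hμ : 0 < μ) (hΛ : 1 ≤ Λ)
    (hab : ∀ i, a i = 0 ∨ (μ / Λ ≤ a i ∧ a i ≤ μ)) (h10 : 0 < η1) (h11 : 2 * Λ * η1 ≤ 1)
    (h12 : η1 ≤ θ) (hδ : 0 ≤ δ) (hδ1 : δ ≤ 1/4) (hε : 0 ≤ ε) (hε1 : ε ≤ 1/4)
    (hη : 44 * Λ * η1 + 2 * ε ≤ η) (hθ : 2 * θ ≤ η) (hdl : ∀ q, 0 < dl q)
    (hdl1 : ∀ q, dl q ≤ η1 * μ)

include hw hm hμ hΛ hab h10 h11 h12 hδ hδ1 hε hε1 hη hθ hdl hdl1

/-- the numbers of a nearly pure cell -/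
lemma numF {τ : Q} (h : τ ∈ Fc) (hN : τ ∈ F.N wt a m) {T : Fin 2 → Finset J}
    {cc : Fin 2 → Fam} {σ : Fin 2 → ℝ} (hD : DP (F.des τ h).S wt T cc σ a m) :
    NumF (F.des τ h).S wt ((F.des τ h).nu (F.wd wt a m θ δ ε dl)) a m δ η :=
  (hD.numF hw hm hμ hΛ hab h10 h11 h12 hδ hδ1 hε hε1 hη hθ
    (d := fun s => dl ((F.des τ h).S.es s)) (t := fun s => F.th wt a m θ ((F.des τ h).S.es s))
    (fun _ => hdl _) (fun _ => hdl1 _) (fun _ hs => F.th_main h hs) (fun _ hs => F.th_empty h hN hs)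
    (fun _ => rfl)).1

/-- **THE RULE OF THE NEARLY PURE DESIGNATED CELLS** -/
theorem rule (hθ1 : θ ≤ 1) {Λ1 : ℝ} (hdep : HasDep P1 P2 δ η) (hcr : Crude P1 P2 Λ1) (hΛ1 : 0 ≤ Λ1)
    (X : Cplx Ω Q dim K) (hconv : ∀ τ, Convex ℝ (K τ)) (hcpt : ∀ τ, IsCompact (K τ))
    (hbd : ∀ τ, bdS K τ = K τ \ ri (K τ)) {b : ℕ → ℝ} (hb0 : ∀ n, 0 < b n)
    (hb2 : ∀ n, b n < 1/2) (hmono : ∀ σ τ : Q, σ ≤ τ → dl σ ≤ dl τ)
    {D R : Set Q} {g g0 : Gd E3 J} {P P0 : ∀ q, C.I q → Set E3} {c c0 : ∀ q, C.I q → E3 → ℝ}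
    {Λt : ℕ → Q → (E3 → E3) → ℝ} {Spec : ∀ q, Lam (K q) (C.I q) → Prop}
    (hSE : ∀ q M, Spec q M → SpecE C K wt δ (F.wd wt a m θ δ ε dl) χ q M)
    (H : Inv C K D g P c) {τ : Q} (h : τ ∈ Fc) (hN : τ ∈ F.N wt a m) (hτ : ∀ σ < τ, σ ∈ D)
    (hT : ∀ q ∈ D, Trk C K R g0 P0 c0 b Spec (fun _ => FrA E3) wt Λt (dim τ) q g (P q) (c q))
    (hR : ∀ s, (F.des τ h).S.es s ∉ R)
    (hends : ∀ x : C.I τ, ∃ a b, a ≠ b ∧ Arc_778.Blw C τ x = {a, b})
    {Kτ : ℝ} (hK : Λ1 * 16 * AAc 2 Sq0 / (b 2 * ((1 - δ) * (1 - ε) * θ)) ≤ Kτ)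
    (hSF : ∀ {κ : ℝ} {h' ρ : C.I τ → ℝ} (Dp : Dep (bdLam H X τ hτ) κ (b (dim τ)) h' ρ)
      (_ : ∀ x x', Arc_778.RlG C K c τ x x' → ρ x' < ρ x)
      {n : ℕ} (_ : dim τ = n) (e : PLEquiv (cube n) (K τ)) (he : e.f '' sph n = bdS K τ),
      SpecF C K wt δ (F.wd wt a m θ δ ε dl) χ P1 P2 (b 2) η (F.des τ h) (Dp.fillBall e he) →
      Spec τ (Dp.fillBall e he)) :
    ∃ (e' : PLEquiv (cube (dim τ)) (K τ)) (he' : e'.f '' sph (dim τ) = bdS K τ)
      (κ : ℝ) (h' ρ : C.I τ → ℝ) (Dp : Dep (bdLam H X τ hτ) κ (b (dim τ)) h' ρ),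
      (∀ x x', Arc_778.RlG C K c τ x x' → ρ x' < ρ x) ∧ Spec τ (Dp.fillBall e' he') ∧
      ∀ B : E3 ≃ᵃ[ℝ] E3, ∀ x, ∀ z ∈ K τ,
        LB B (Kτ * (AAc (dim τ) (B '' K τ) * (Wd C wt τ + dl τ)) / wt (C.col τ x))
          ((Dp.fillBall e' he').c x) (K τ) z := by
  have hN' := hN
  obtain ⟨hh, ⟨T, cc, σ, hD⟩, hi⟩ := hN'
  have hθ0 : 0 < θ := lt_of_lt_of_le h10 h12
  have h1δ : 0 < 1 - δ := by linarith
  have h1ε : 0 < 1 - ε := by linarith
  have hpp : 0 < (1 - δ) * (1 - ε) * θ := mul_pos (mul_pos h1δ h1ε) hθ0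
  have hd2 := (F.des τ h).d2
  have hb : IsBall 2 (K τ) (K τ \ ri (K τ)) := by
    rw [← hbd, ← hd2]; exact X.isBall τ
  have hFG := F.fg τ h
  have hbb := hb0 2
  have hNF := F.numF hw hm hμ hΛ hab h10 h11 h12 hδ hδ1 hε hε1 hη hθ hdl hdl1 h hN hD
  have hW0 : ∀ q, 0 < Wd C wt q + dl q := fun q => by
    have := Wd_nonneg (C := C) hw q
    have := hdl q
    linarith
  set G := F.des τ h with hG
  set wdd : Q → ℝ := F.wd wt a m θ δ ε dl with hwd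
  have hν : ∀ s, (1 - δ) * (1 - ε) * θ / (Wd C wt τ + dl τ) ≤ G.nu wdd s := fun s => by
    show _ ≤ 4 * (1 - δ) * (1 - ε) * (F.th wt a m θ (G.S.es s) * uq C wt dl (G.S.es s))
    have h1 := G.S.W_le hw hends s
    have h2 := hmono _ _ (G.S.lt s).le
    have h3 := hW0 (G.S.es s)
    have h4 := hW0 τ
    have h5 := F.le_th (wt := wt) (a := a) (m := m) hθ1 (G.S.es s)
    have h6 := hdl τ
    have h7 : 4 * (1 - δ) * (1 - ε) * (θ * uq C wt dl (G.S.es s)) ≤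
        4 * (1 - δ) * (1 - ε) * (F.th wt a m θ (G.S.es s) * uq C wt dl (G.S.es s)) := by
      have h8 : 0 ≤ uq C wt dl (G.S.es s) := by unfold uq; positivity
      have h9 : θ * uq C wt dl (G.S.es s) ≤ F.th wt a m θ (G.S.es s) * uq C wt dl (G.S.es s) :=
        mul_le_mul_of_nonneg_right h5 h8
      have h10 : 0 ≤ 4 * (1 - δ) * (1 - ε) := by positivity
      exact mul_le_mul_of_nonneg_left h9 h10
    refine le_trans ?_ h7
    unfold uq
    have h8 : 4 * (1 - δ) * (1 - ε) * (θ * (1 / (2 * (Wd C wt (G.S.es s) + dl (G.S.es s))))) =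
        4 * ((1 - δ) * (1 - ε) * θ) / (2 * (Wd C wt (G.S.es s) + dl (G.S.es s))) := by ring
    rw [h8, div_le_div_iff₀ h4 (by linarith)]
    have h9 : Wd C wt (G.S.es s) + dl (G.S.es s) ≤ 2 * (Wd C wt τ + dl τ) := by linarith
    have h10 := mul_le_mul_of_nonneg_left h9 hpp.le
    linarith
  have hα : (1 - δ) * (1 - ε) * θ / (Wd C wt τ + dl τ) ≤ αX (G.nu wdd) := by
    unfold αX αA αB
    exact le_min (le_min (hν 2) (hν 3)) (le_min (hν 0) (hν 1))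
  have hα0 : 0 < αX (G.nu wdd) := lt_of_lt_of_le (div_pos hpp (hW0 τ)) hα
  have hinv : 16 / αX (G.nu wdd) ≤ 16 * ((Wd C wt τ + dl τ) / ((1 - δ) * (1 - ε) * θ)) := by
    rw [div_le_iff₀ hα0]
    rw [div_le_iff₀ (hW0 τ)] at hα
    have e1 : 16 * ((Wd C wt τ + dl τ) / ((1 - δ) * (1 - ε) * θ)) * αX (G.nu wdd) =
        16 * ((αX (G.nu wdd) * (Wd C wt τ + dl τ)) / ((1 - δ) * (1 - ε) * θ)) := by ring
    rw [e1]
    have h6 : 1 ≤ αX (G.nu wdd) * (Wd C wt τ + dl τ) / ((1 - δ) * (1 - ε) * θ) := by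
      rw [le_div_iff₀ hpp]; linarith
    linarith
  have hg2 : ∀ B ∈ FrA E3, ∀ z ∈ K τ,
      MB B id ((fun B : E3 → E3 => 2 * (AAc 2 Sq0 * AAc 2 (B '' K τ))) B) G.A.g (K τ) z := by
    rintro _ ⟨B, rfl⟩ z hz
    have hm2 : MB (Bc τ) id 2 G.A.g (K τ) z := by
      have e1 : G.A.g = (chU hFG.e1 (Bc τ)).g := by
        funext x
        rw [F.Ag τ h x]; rfl
      rw [e1]
      exact chU_MB hFG.e1 (Bc τ) _ _
    have himg : Bc τ '' K τ = Sq0 := by rw [hFG.face, image_usq]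
    filter_upwards [hm2, MB_frame (hconv τ) (hcpt τ) hb.nonempty hb (Bc τ) B hz] with y hy hy'
    rw [himg] at hy'
    calc dist (id (G.A.g y)) (id (G.A.g z)) ≤ 2 * dist (Bc τ y) (Bc τ z) := hy
      _ ≤ 2 * (AAc 2 Sq0 * AAc 2 (B '' K τ) * dist (B y) (B z)) := by linarith
      _ = _ := by ring
  have hL2 : ∀ B ∈ FrA E3, Λ1 * (16 / αX (G.nu wdd)) / (2 * b (dim τ)) *
      (fun B : E3 → E3 => 2 * (AAc 2 Sq0 * AAc 2 (B '' K τ))) B ≤
      (fun B : E3 → E3 => Kτ * (AAc (dim τ) (B '' K τ) * (Wd C wt τ + dl τ))) B := by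
    rintro _ ⟨B, rfl⟩
    have hAc := AAc_pos (E := E3) 2 (B '' K τ)
    have hAs := AAc_pos (E := E3) 2 Sq0
    rw [hd2]
    have hWp : 0 ≤ AAc 2 (B '' K τ) * (Wd C wt τ + dl τ) := mul_nonneg hAc.le (hW0 τ).le
    have h3 : 0 ≤ Λ1 * AAc 2 Sq0 * AAc 2 (B '' K τ) / b 2 := by positivity
    calc Λ1 * (16 / αX (G.nu wdd)) / (2 * b 2) * (2 * (AAc 2 Sq0 * AAc 2 (B '' K τ)))
        = (Λ1 * AAc 2 Sq0 * AAc 2 (B '' K τ) / b 2) * (16 / αX (G.nu wdd)) := by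
          field_simp
      _ ≤ (Λ1 * AAc 2 Sq0 * AAc 2 (B '' K τ) / b 2) *
          (16 * ((Wd C wt τ + dl τ) / ((1 - δ) * (1 - ε) * θ))) :=
          mul_le_mul_of_nonneg_left hinv h3
      _ = (Λ1 * 16 * AAc 2 Sq0 / (b 2 * ((1 - δ) * (1 - ε) * θ))) *
          (AAc 2 (B '' K τ) * (Wd C wt τ + dl τ)) := by
          field_simp
      _ ≤ Kτ * (AAc 2 (B '' K τ) * (Wd C wt τ + dl τ)) := mul_le_mul_of_nonneg_right hK hWp
  obtain ⟨e', he', κ, h', ρ, Dp, k1, k2, k3⟩ := rule_faceL (Fr := fun _ => FrA E3)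
    (Λ' := fun B : E3 → E3 => Kτ * (AAc (dim τ) (B '' K τ) * (Wd C wt τ + dl τ)))
    (@hdep) (@hcr) hΛ1 hb0 hb2 hw hSE H X hτ hT G hR hends hD hNF hg2 hL2 hSF
  exact ⟨e', he', κ, h', ρ, Dp, k1, k2, fun B x z hz => k3 _ ⟨B, rfl⟩ x z hz⟩

end num

end DesF

end data

end Crest.Agent.R096.Fsw_928
end

-- ▼ part R096/Fsw36_928
section

/-!
# R096 (row 96), FACE-SWEEP, part 36: two ends of the pieces of a 2-cell, cells of a tiling, the
Lipschitz constant of a designated face (helper928)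
-/

set_option autoImplicit false
set_option linter.unusedSectionVars false
set_option linter.style.longLine false

open Set Metric Filter Topology MeasureTheory

namespace Crest.Agent.R096.Fsw_928

open Crest.Agent.R096.St_147 Crest.Agent.R096.Seq_213
  Crest.Agent.R096.Bd_416 Crest.Agent.R096.Mg_441 Crest.Agent.R096.Lm_117
  Crest.Agent.R096.Ce_537 Crest.Agent.R096.Arc_778
open Crest.Agent.R096.Msh_715 Crest.Agent.R096.Csub_487
open Crest.Agent.R096.SkC1_961 (E3 FoamD)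
open Crest.Agent.R096.SkN1_477
open Crest.Agent.R096.Fk_522
open Crest.Agent.R96.Nu1_199 Crest.Agent.R96.Nu2_199 Crest.Agent.R96.Nu3_199
  Crest.Agent.R96.Nu4_199 Crest.Agent.R96.Nu5_199 Crest.Agent.R96.Nu6_199
open Crest.Agent.R096.Mxs_487

open scoped Classical

/-! ### two ends -/

section ends

variable {ι Φ W Q J Fm : Type} {M : MeshC ι Φ W} [PartialOrder Q] {dim : Q → ℕ}
variable {L : LM M Q dim} {fam : J → Fm} {s : GSt M fam}
variable {h : LF L s} {Lam : J → Q → ZMod 2} {hLam : ∀ j c, L.toSk.XL (gP s j) (Lam j) c}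

/-- a piece of a 2-cell has two ends -/
theorem ends_cmb (T : Top3 L) {q : Q} (hq : dim q = 2) (x : (cmb h Lam hLam).I q) :
    ∃ a b, a ≠ b ∧ Blw (cmb h Lam hLam) q x = {a, b} := by
  obtain ⟨F, rfl⟩ := T.cf_sur q hq
  obtain ⟨⟨w, hw⟩, rfl⟩ := Quot.exists_rep (show Pc L s (L.cf F) from x)
  exact ⟨_, _, sg_ne hw, blw_w hw⟩

end ends

/-! ### cells of a tiling -/

section cellix

variable {Om : Set E3} {ι : Type} {T : Tiling Om ι} {Q : Type} [PartialOrder Q] {dim : Q → ℕ}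
  {K : Q → Set E3} {cell : Q → T.Cell}

lemma dim_of_cc (hI : CellIx T dim K cell) {q : Q} {y : E3} (hy : y ∈ Om) (h : K q = T.cc y) :
    dim q = T.dim y := by
  have h1 : cell q = T.cl hy := Tiling.Cell.ext (by rw [← hI.set_eq, h]; rfl)
  rw [hI.dim_eq, h1, Tiling.dim_cl]

lemma exists_cc (hI : CellIx T dim K cell) (q : Q) : ∃ y ∈ Om, K q = T.cc y ∧ y ∈ K q := by
  have h1 : K q = T.cc (cell q).pt := by rw [hI.set_eq, (cell q).set_eq]
  exact ⟨(cell q).pt, (cell q).pt_mem, h1, by rw [h1]; exact T.self_mem_cc _⟩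

end cellix

/-! ### the configuration of a designated face -/

/-- a side of the unit square in `E3` -/
def Sd0 (j : Fin 2) (b : ℝ) : Set E3 := emb '' {y : E2 | 0 ≤ y j ∧ y j ≤ 1 ∧ y (1 - j) = b}

lemma image_side (B : E3 ≃ᵃ[ℝ] E3) (j : Fin 2) (b : ℝ) :
    B '' SkN1_477.side B j b = Sd0 j b := image_preimage_eq _ B.surjective

/-- the faces of the unit square -/
def Ksq : Set (Set E3) :=
  {Sq0} ∪ ((fun p : Fin 2 × Fin 2 => Sd0 p.1 (p.2 : ℕ)) '' univ ∪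
    (fun p : Fin 2 × Fin 2 => {emb ![((p.1 : ℕ) : ℝ), ((p.2 : ℕ) : ℝ)]}) '' univ)

lemma finite_Ksq : Ksq.Finite :=
  (finite_singleton _).union ((finite_univ.image _).union (finite_univ.image _))

lemma mem_Ksq_side (j : Fin 2) {b : ℝ} (hb : b = 0 ∨ b = 1) : Sd0 j b ∈ Ksq := by
  right; left
  rcases hb with rfl | rfl
  · exact ⟨(j, 0), mem_univ _, by simp⟩
  · exact ⟨(j, 1), mem_univ _, by simp⟩

lemma mem_Ksq_cor {s t : ℝ} (hs : s = 0 ∨ s = 1) (ht : t = 0 ∨ t = 1) :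
    ({emb ![s, t]} : Set E3) ∈ Ksq := by
  right; right
  rcases hs with rfl | rfl <;> rcases ht with rfl | rfl
  · exact ⟨(0, 0), mem_univ _, by simp⟩
  · exact ⟨(0, 1), mem_univ _, by simp⟩
  · exact ⟨(1, 0), mem_univ _, by simp⟩
  · exact ⟨(1, 1), mem_univ _, by simp⟩

section face

variable {Q : Type} [PartialOrder Q] {dim : Q → ℕ} {J Fam : Type} {K : Q → Set E3} {Ω : Set E3}
  {C : Cmb Q dim J Fam} {χ : Q → E3 → ℝ} {τ : Q}

lemma cxy01 {ε : Fin 2 → ℝ} (hε : ∀ i, ε i = 1 ∨ ε i = -1) (k : Fin 4) :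
    ((1 + ε 0 * cx k) / 2 = 0 ∨ (1 + ε 0 * cx k) / 2 = 1) ∧
      ((1 + ε 1 * cy k) / 2 = 0 ∨ (1 + ε 1 * cy k) / 2 = 1) := by
  have h0 := hε 0
  have h1 := hε 1
  constructor
  · rcases h0 with h | h <;> rw [h] <;> fin_cases k <;> simp [cx]
  · rcases h1 with h | h <;> rw [h] <;> fin_cases k <;> simp [cy]

/-- the cells below a designated face, in its frame -/
theorem mem_Ksq (X : Cplx Ω Q dim K) (hbd : ∀ τ, bdS K τ = K τ \ ri (K τ)) (hχ : EdC K dim χ)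
    (G : Des C K χ τ) {B : E3 ≃ᵃ[ℝ] E3} {ε : Fin 2 → ℝ} (F : FG G.S K B ε) {σ : Q} (hσ : σ ≤ τ) :
    B '' K σ ∈ Ksq := by
  have hε := F.e1
  rcases hσ.eq_or_lt with rfl | hlt
  · rw [F.face, image_usq]
    exact Or.inl rfl
  · have h2 := G.d2
    have h3 := X.mono _ _ hlt
    have h4 : dim σ = 0 ∨ dim σ = 1 := by omega
    rcases h4 with h4 | h4
    · obtain ⟨z, hz⟩ := (X.isBall σ).nonempty
      obtain ⟨k, hk⟩ := vert_corner X hχ hbd F.face hε (fun s => ⟨_, G.S.d1 s, F.side s⟩) h4 hlt hz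
      have h5 : K σ = {z} := by
        ext y
        constructor
        · intro hy
          exact sing_zero X h4 hy hz
        · rintro rfl
          exact hz
      rw [h5, image_singleton, hk]
      have h6 : B (cor B ε k) = emb ![(1 + ε 0 * cx k) / 2, (1 + ε 1 * cy k) / 2] :=
        B.apply_symm_apply _
      rw [h6]
      exact mem_Ksq_cor (cxy01 hε k).1 (cxy01 hε k).2
    · obtain ⟨s, rfl⟩ := G.S.onto σ hlt h4
      rw [F.side, image_side]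
      exact mem_Ksq_side _ (hgt01 hε s)

/-- the edges of a designated face -/
lemma sum_edg (X : Cplx Ω Q dim K) (S : SqC C τ) (wt : J → ℝ) :
    ∑ e ∈ edg X τ, Wd C wt e = ∑ s, S.W wt s := by
  have h1 : edg X τ = Finset.univ.image S.es := by
    ext e
    rw [mem_edg, Finset.mem_image]
    constructor
    · rintro ⟨h1, h2⟩
      obtain ⟨s, hs⟩ := S.onto e h1 h2
      exact ⟨s, Finset.mem_univ _, hs⟩
    · rintro ⟨s, -, rfl⟩
      exact ⟨S.lt s, S.d1 s⟩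
  rw [h1, Finset.sum_image fun s _ s' _ h => S.inj h]
  rfl

/-- **THE LIPSCHITZ CONSTANT OF A DESIGNATED FACE in its frame** -/
theorem lamK_face (X : Cplx Ω Q dim K) (hbd : ∀ τ, bdS K τ = K τ \ ri (K τ))
    (hχ : EdC K dim χ) (G : Des C K χ τ) {B : E3 ≃ᵃ[ℝ] E3} {ε : Fin 2 → ℝ} (F : FG G.S K B ε)
    {wt : J → ℝ} (hw : ∀ j, 0 < wt j) {b : ℕ → ℝ} (hb0 : ∀ n, 1/4 ≤ b n) {K₀ : Q → ℝ}
    (hK : ∀ q, 0 ≤ K₀ q) {KN : ℝ} (hKN : K₀ τ ≤ KN) {dl : Q → ℝ} (hdl : ∀ q, 0 < dl q) {d : ℝ}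
    (hd : ∀ q, dl q ≤ d) {ε₁ : ℝ} (hε1 : ε₁ < 1)
    (hends : ∀ x : C.I τ, ∃ a b, a ≠ b ∧ Blw C τ x = {a, b}) :
    LamK X C K₀ ε₁ b wt dl 4 τ B ≤ CUe KN ε₁ 3 Ksq * (∑ s, G.S.W wt s + d) := by
  have hd2 := G.d2
  have hb0' : ∀ n, 0 < b n := fun n => by have := hb0 n; linarith
  have h1 := lam_tileK (C := C) (ε := ε₁) (b := b) (m := 3) X hw hb0' hK hdl (q := τ) (by omega)
    (by omega) (B := B) finite_Ksq (fun σ hσ => mem_Ksq X hbd hχ G F hσ)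
    (fun σ _ σ' _ e => le_antisymm (le_of_sub X e.subset) (le_of_sub X e.symm.subset))
    (fun σ _ => hd σ) (fun σ hσ h2 x => by
      rcases hσ.eq_or_lt with rfl | hlt
      · obtain ⟨v, v', -, hv⟩ := hends x
        have h3 : v ∈ Blw C σ x := by rw [hv]; simp
        obtain ⟨h4, h5, h6⟩ := h3
        exact ⟨v.1, h5, h4, v.2, h6⟩
      · have := X.mono _ _ hlt
        omega)
  rw [sum_edg X G.S wt] at h1
  refine h1.trans (mul_le_mul_of_nonneg_right ?_ ?_)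
  · exact C𝒦_le_CUe (hK _) hKN le_rfl hε1 hb0 3 Ksq
  · have h2 : 0 ≤ ∑ s, G.S.W wt s := Finset.sum_nonneg fun s _ => Finset.sum_nonneg fun y _ => (hw _).le
    have h3 := (hdl τ).le.trans (hd τ)
    linarith

end face

end Crest.Agent.R096.Fsw_928
end

-- ▼ part R096/Mno9_928

/-!
# R096 (row 96), MachNO, (M2) of 534 #11119: `mesh_no` = the mixed mesh over the final state with the
clause `face` (helper928)
-/

set_option autoImplicit false
set_option linter.unusedSectionVars false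
set_option linter.style.longLine false

open Set Metric Filter Topology MeasureTheory
open scoped ENNReal

namespace Crest.Agent.R096.Fsw_928

open Crest.Agent.R096.St_147 Crest.Agent.R096.Seq_213 Crest.Agent.R096.Seq_213.GSt
  Crest.Agent.R096.Bd_416 Crest.Agent.R096.Mg_441 Crest.Agent.R096.Lm_117
  Crest.Agent.R096.Cp_298 Crest.Agent.R096.Gl_422
  Crest.Agent.R096.On_441 Crest.Agent.R096.SkB_662 Crest.Agent.R096.Ce_537
  Crest.Agent.R096.Arc_778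
open Crest.Agent.R096.Msh_715 Crest.Agent.R096.Csub_487
open Crest.Agent.R096.SkC1_961 (E3 FoamD)
open Crest.Agent.R096.SkN1_477
open Crest.Agent.R096.Mi_117
open Crest.Agent.R096.Fk_522
open Crest.Agent.R96.Nu1_199 Crest.Agent.R96.Nu2_199 Crest.Agent.R96.Nu3_199
  Crest.Agent.R96.Nu4_199 Crest.Agent.R96.Nu5_199 Crest.Agent.R96.Nu6_199
open Crest.Agent.R96.Nu7_199 (WE)
open Crest.Agent.R096.Be_416 Crest.Agent.R096.Mxs_487 Crest.Agent.R096.Mxo_487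

open scoped Classical

lemma CellIx_sub {Om : Set E3} {ι : Type} {T : Tiling Om ι} {Q : Type} [PartialOrder Q]
    {dim : Q → ℕ} {K : Q → Set E3} {cell : Q → T.Cell} (hI : CellIx T dim K cell) {σ τ : Q}
    (h : σ ≤ τ) : K σ ⊆ K τ := by
  rw [hI.set_eq, hI.set_eq]
  exact Tiling.Cell.le_def.1 ((hI.le _ _).1 h)

/-- **THE MESH OF THE MACHINE WITH THE CLAUSE `face`** -/
theorem mesh_no {p : ℝ} (hp : 1 ≤ p) {Λ e : ℝ} (hΛ : 1 ≤ Λ) (he : 0 < e) :
    ∃ η β0 ε₁ KN : ℝ, 0 < η ∧ 1/4 ≤ β0 ∧ β0 < 1/2 ∧ 0 < ε₁ ∧ ε₁ < 1 ∧ 0 ≤ KN ∧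
    ∀ {δf κ0 Rf cf : ℝ} {La Om Om' Ω' : Set E3} {ιt ι3 : Type}
      {ι Φc Q J Kq : Type} {M : MeshC ι Φc E3} [PartialOrder Q] {dim : Q → ℕ}
      {Φ : FoamD δf κ0 Rf cf La} {Tl : Tiling Om ιt} {T3 : Tiling Om' ι3}
      {L : LM M Q dim} {O : Ori M} {τ : Q → ZMod 2} {Rel : E3 → E3 → Prop} {Vc : Set E3}
      {Qd : Quads ι Φ.F Kq} {κ : Φ.F → ℕ} {fam : J → Φ.F} {s₀ : GSt M fam} {far₀ : J → Set E3}
      {Z : Φ.F → Set Q} {lam₀ : J → Q → ZMod 2} {v₀ v₁ : Φ.F → Q}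
      {hfin : ∀ a, {j | fam j = a}.Finite} {kap : Φ.F → ℕ} {s : GSt M (fam' fam (Rk κ kap))}
      {far : Nm' fam (Rk κ kap) → Set E3} {β : E3 → E3} {lam : Nm' fam (Rk κ kap) → Q → ZMod 2}
      {K : Q → Set E3} {cell : Q → T3.Cell}
      (h : StO L O τ Rel Vc Qd κ s₀ far₀ Z lam₀ v₀ v₁ hfin kap s far β lam)
      {Rb : Set Q} {g0 : Gd E3 (Nm' fam (Rk κ kap))}
      {P0 : ∀ q, h.cmb.I q → Set E3} {c0 : ∀ q, h.cmb.I q → E3 → ℝ}
      (X : Cplx Ω' Q dim K) (_ : Top3 L) (_ : CellIx T3 dim K cell)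
      {b : ℕ → ℝ} (_ : ∀ n, β0 ≤ b n) (_ : ∀ n, b n < 1/2)
      {Kb : ℝ} (_ : 0 ≤ Kb) (_ : BaseC h.cmb K (wts κ kap fam) Kb Rb g0 P0 c0)
      {hf1 : ∀ a, {j | h.cmb.fam j = a}.Finite}
      {Lv : Φ.F → Finset ℝ} (_ : ∀ a, mm hfin a = (Lv a).card)
      {Ex : Set ιt} {Ds : Set E3} {Bf : E3 → E3 ≃ᵃ[ℝ] E3} {μ : ℝ} {a : Fin 2 → ℝ}
      (_ : FaceD Tl Ex Ds Bf Λ μ a)
      (_ : ∀ x ∈ Ds, ∀ y ∈ usq (Bf x), T3.cc y = Tl.cc y ∧ T3.dim y = Tl.dim y ∧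
        (∃ q, K q = Tl.cc y) ∧ ∀ q, K q = Tl.cc y → q ∉ Rb),
      ∃ δ : Q → ℝ, (∀ q, 0 < δ q) ∧
        (∀ q, 0 < WE X h.cmb (wts κ kap fam) q →
          ∀ σ ≤ q, δ σ ≤ WE X h.cmb (wts κ kap fam) q) ∧
        ∃ (SpecX : ∀ q, Bd_416.Lam (K q) (h.cmb.I q) → Prop) (g : Gd E3 (Nm' fam (Rk κ kap)))
          (P : ∀ q, h.cmb.I q → Set E3) (c : ∀ q, h.cmb.I q → E3 → ℝ),
          Inv h.cmb K univ g P c ∧ MGeo h.lfs (Lf lam) (xlf h.lab.lab) K Rb c ∧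
          (∀ q, TrkX (h := h.lfs) (Lam := Lf lam) (hLam := xlf h.lab.lab) X Rb g0 P0 c0 SpecX
            (K0x Rb Kb KN) δ ε₁ b (wts κ kap fam) 4 g P c q) ∧
          (∀ q ∈ Rb, ∀ z ∈ K q, EqAt (sqs g0 b 4) g z) ∧
          ∀ x ∈ Ds, ∀ (c1 c2 : Φ.F) (σ1 σ2 : ℝ),
            FaceIn Φ κ Lv (fun x => uu hf1 g x) (Mna_747.nn h.cmb K (Rk κ kap)) η μ a (Bf x)
              c1 c2 σ1 σ2 →
            FaceOut p Φ κ Lv (fun x => uu hf1 g x) e μ a (Bf x) c1 c2 σ1 σ2 := by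
  obtain ⟨δm, hδ0, hδ1, P1, P2, η, hη0, hη1, hdep, θ, hθ0, hθη, ε, hε0, hε1, hεη, β0, hβ1, hβ2,
    hend⟩ := face_end hp hΛ he
  obtain ⟨Λ1, hΛ1, hcr⟩ := exists_crude P1 P2
  have hcr' : Crude P1 P2 Λ1 := @hcr
  have hθ1 : θ ≤ 1 := by linarith
  have h1δ : 0 < 1 - δm := by linarith
  have h1ε : 0 < 1 - ε := by linarith
  obtain ⟨pp, hpp⟩ : ∃ pp, pp = (1 - δm) * (1 - ε) * θ := ⟨_, rfl⟩
  have hpp0 : 0 < pp := by rw [hpp]; positivity
  have hpp1 : pp < 1 := by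
    rw [hpp]
    have h1 : (1 - δm) * (1 - ε) ≤ 1 := by nlinarith
    nlinarith
  have hAs := AAc_pos (E := E3) 2 Sq0
  obtain ⟨KN, hKN⟩ : ∃ KN, KN = Λ1 * 16 * AAc 2 Sq0 / (1/4 * pp) := ⟨_, rfl⟩
  have hKN0 : 0 ≤ KN := by rw [hKN]; positivity
  obtain ⟨η1, k0, k1, k2, k3, hface⟩ := hend (CUe KN (1 - pp) 3 Ksq) (CUe_nonneg hKN0 _ _)
  refine ⟨η1, β0, 1 - pp, KN, k0, hβ1, hβ2, by linarith, by linarith, hKN0, ?_⟩
  intro δf κ0 Rf cf La Om Om' Ω' ιt ι3 ι Φc Q J Kq M _ dim Φ Tl T3 L O τ₀ Rel Vc Qd κ fam s₀ far₀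
    Z lam₀ v₀ v₁ hfin kap s far β lam K cell h Rb g0 P0 c0 X T hI b hb hb2 Kb hKb B hf1 Lv hcard
    Ex Ds Bf μ a FD hfc
  have hμ := FD.mu
  have hb4 : ∀ n, 1/4 ≤ b n := fun n => hβ1.trans (hb n)
  have hb0 : ∀ n, 0 < b n := fun n => by have := hb4 n; linarith
  have hw : ∀ j, 0 < wts κ kap fam j := fun j => by unfold wts; positivity
  obtain ⟨dl, hdl0, hdl1, hmono, hdl2, hmesh⟩ := Mxo_487.StO.meshX1 h (ε := ε) (δm := δm) (ε' := 1 - pp)
    (KN := KN) X T hI.conv hI.cpt hI.bd hb0 hb2 hε0 (by linarith) hδ0.le (by linarith)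
    (by linarith) (by linarith) hKb hKN0 B (fun _ => η1 * μ) (fun _ => mul_pos k0 hμ)
  refine ⟨dl, hdl0, hdl2, ?_⟩
  -- the coordinates
  obtain ⟨χ, hχ⟩ : ∃ χ : Q → E3 → ℝ, EdC K dim χ := by
    obtain ⟨e, he1, -, -, hea⟩ := Mxs_487.exists_eA X hI.conv hI.cpt hI.bd
    exact exists_edC e he1 hea
  -- the designated cells
  have hcell : ∀ x ∈ Ds, ∀ y ∈ usq (Bf x), ∀ q, K q = Tl.cc y → dim q = Tl.dim y ∧ q ∉ Rb := by
    intro x hx y hy q hq
    obtain ⟨e1, e2, ⟨q', hq'⟩, e4⟩ := hfc x hx y hy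
    obtain ⟨y', hy', hq'', hyq⟩ := exists_cc hI q
    have hyO : y ∈ Om' := by
      obtain ⟨i, hi⟩ := T3.cov y' hy'
      have h1 : K q ⊆ P (T3.H i) := by rw [hq'']; exact T3.cc_sub_tile hi
      refine T3.sub i (h1 ?_)
      rw [hq]
      exact Tl.self_mem_cc y
    refine ⟨?_, e4 q hq⟩
    rw [← e2]
    exact dim_of_cc hI hyO (by rw [hq, e1])
  have hxq : ∀ x ∈ Ds, x ∈ usq (Bf x) := fun x hx => by
    rw [← FD.sq x hx]; exact Tl.self_mem_cc x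
  let Fc : Set Q := {q | ∃ x ∈ Ds, K q = usq (Bf x)}
  let Bc : Q → E3 ≃ᵃ[ℝ] E3 := fun q => if h : q ∈ Fc then Bf h.choose else AffineEquiv.refl ℝ E3
  have hBc : ∀ q ∈ Fc, ∃ x ∈ Ds, Bc q = Bf x ∧ K q = usq (Bf x) := by
    intro q hq
    refine ⟨hq.choose, hq.choose_spec.1, dif_pos hq, hq.choose_spec.2⟩
  have hFc2 : ∀ q ∈ Fc, dim q = 2 := by
    rintro q ⟨x, hx, hq⟩
    rw [(hcell x hx x (hxq x hx) q (by rw [hq, FD.sq x hx])).1, FD.dim x hx]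
  have hFK : ∀ q ∈ Fc, K q = usq (Bc q) := by
    intro q hq
    obtain ⟨x, hx, e1, e2⟩ := hBc q hq
    rw [e1, e2]
  have hFR : ∀ q ∈ Fc, ∀ σ ≤ q, σ ∉ Rb := by
    rintro q ⟨x, hx, hq⟩ σ hσ
    obtain ⟨y, hy, e1, e2⟩ := exists_cc hI σ
    have hyq : y ∈ usq (Bf x) := by
      rw [← hq]
      exact (CellIx_sub hI hσ) e2
    exact (hcell x hx y hyq σ (by rw [e1, (hfc x hx y hyq).1])).2
  have hFs : ∀ x ∈ Ds, ∀ (j : Fin 2) (b : ℝ), b = 0 ∨ b = 1 →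
      ∃ q, dim q = 1 ∧ K q = SkN1_477.side (Bf x) j b := by
    intro x hx j b hb'
    obtain ⟨z, hz, hz1, hz2⟩ := FD.sides x hx j b hb'
    have hzu : z ∈ usq (Bf x) := side_sub (Bf x) j hb' (by rw [← hz2]; exact Tl.self_mem_cc z)
    obtain ⟨q, hq⟩ := (hfc x hx z hzu).2.2.1
    exact ⟨q, by rw [(hcell x hx z hzu q hq).1, hz1], by rw [hq, hz2]⟩
  obtain ⟨F⟩ : Nonempty (DesF h.cmb K χ Fc Bc) := by
    refine exists_desF X hχ hI.bd hFc2 hFK ?_ ?_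
    · intro q hq
      obtain ⟨x, hx, e1, -⟩ := hBc q hq
      rw [e1]
      exact hFs x hx
    · intro q hq q' hq'
      obtain ⟨x, hx, e1, -⟩ := hBc q hq
      obtain ⟨x', hx', e1', -⟩ := hBc q' hq'
      rw [e1, e1']
      exact FD.dir x hx x' hx'
  have hends : ∀ {q : Q}, dim q = 2 → ∀ x : h.cmb.I q, ∃ a b, a ≠ b ∧ Blw h.cmb q x = {a, b} :=
    fun hq x => ends_cmb (h := h.lfs) (Lam := Lf lam) (hLam := xlf h.lab.lab) T hq x
  have hε' : ∀ τ ∉ Rb, dim τ = 1 → 1 - (1 - pp) ≤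
      (1 - δm) * (1 - ε) * F.th (wts κ kap fam) a (η1 * μ) θ τ := by
    intro τ _ _
    have h1 := F.le_th (wt := wts κ kap fam) (a := a) (m := η1 * μ) hθ1 τ
    have h2 : 0 ≤ (1 - δm) * (1 - ε) := by positivity
    have h3 := mul_le_mul_of_nonneg_left h1 h2
    rw [← hpp] at h3
    linarith
  have hrule : ∀ D' g P c (H : Inv h.cmb K D' g P c),
      ∀ τ ∈ F.N (wts κ kap fam) a (η1 * μ),
      (∀ q ∈ D', TrkX (h := h.lfs) (Lam := Lf lam) (hLam := xlf h.lab.lab) X Rb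
        g0 P0 c0 (F.SpX (wts κ kap fam) a (η1 * μ) θ δm ε dl P1 P2 (b 2) η) (K0x Rb Kb KN) dl
        (1 - pp) b (wts κ kap fam) (dim τ) g P c q) →
      τ ∉ Rb → ∀ hτ : ∀ σ < τ, σ ∈ D',
      ∃ (e' : PLEquiv (cube (dim τ)) (K τ)) (he' : e'.f '' sph (dim τ) = bdS K τ)
        (κ' : ℝ) (h' ρ : h.cmb.I τ → ℝ) (Dp : Dep (bdLam H X τ hτ) κ' (b (dim τ)) h' ρ),
        (∀ x x', RlG h.cmb K c τ x x' → ρ x' < ρ x) ∧
        F.SpX (wts κ kap fam) a (η1 * μ) θ δm ε dl P1 P2 (b 2) η τ (Dp.fillBall e' he') ∧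
        ∀ B : E3 ≃ᵃ[ℝ] E3, ∀ x, ∀ z ∈ K τ,
          LB B (K0x Rb Kb KN τ * (AAc (dim τ) (B '' K τ) *
            (Wd h.cmb (wts κ kap fam) τ + dl τ)) / wts κ kap fam (h.cmb.col τ x))
            ((Dp.fillBall e' he').c x) (K τ) z := by
    intro D' g P c H τ hN hT hR hτ
    have hN' := hN
    obtain ⟨hF, hx1, hx2⟩ := hN'
    have hKt : Λ1 * 16 * AAc 2 Sq0 / (b 2 * ((1 - δm) * (1 - ε) * θ)) ≤ K0x Rb Kb KN τ := by
      refine le_trans ?_ (le_K0x τ)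
      rw [hKN, ← hpp]
      have h1 := hb4 2
      have h2 : 1/4 * pp ≤ b 2 * pp := mul_le_mul_of_nonneg_right h1 hpp0.le
      exact div_le_div_of_nonneg_left (by positivity) (by positivity) h2
    obtain ⟨e', he', κ', h', ρ, Dp, r1, r2, r3⟩ := F.rule (wt := wts κ kap fam) (a := a)
      (m := η1 * μ) hw rfl hμ hΛ FD.ab k0 k2 k1 hδ0.le hδ1 hε0.le hε1 k3 hθη hdl0 hdl1 hθ1
      hdep hcr' hΛ1 X hI.conv hI.cpt hI.bd hb0 hb2 hmono
      (Spec := SpecGX h.cmb K (ek h.lfs)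
        (F.SpX (wts κ kap fam) a (η1 * μ) θ δm ε dl P1 P2 (b 2) η))
      (fun q M hS => hS.2.1) H hF hN hτ hT (fun s => hFR τ hF _ ((F.des τ hF).S.lt s).le)
      (hends (hFc2 τ hF)) (Kτ := K0x Rb Kb KN τ) hKt
      (fun Dp nest _ _ e he hS => ⟨specG2 H X (hFc2 τ hF).ge hτ Dp nest e he, F.spX_face hF hS⟩)
    exact ⟨e', he', κ', h', ρ, Dp, r1, r2.2, r3⟩
  obtain ⟨g, P, c, H, hG, hT, hEq⟩ := hmesh (F.N (wts κ kap fam) a (η1 * μ))
    (fun τ hτ => (F.N_dim hτ).ge) (F.th (wts κ kap fam) a (η1 * μ) θ) (F.th_pos hθ0) (F.th_le hθ1)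
    (fun τ _ _ h2 => F.th_dim (by omega)) hε'
    (F.SpX (wts κ kap fam) a (η1 * μ) θ δm ε dl P1 P2 (b 2) η)
    (fun τ _ h0 M => F.spX_other (by omega) (fun hN => by have := F.N_dim hN; omega) M)
    (fun τ _ h1 e hea _ _ p hE hm _ => F.spX_edge hχ h1 (X.isClosed τ) hea hE hm)
    (fun D' g P c H τ h2 _ _ hN hτ κ' ρ Dp _ e he => F.spX_other (by omega) hN _)
    hrule
  refine ⟨_, g, P, c, H, hG, hT, hEq, ?_⟩
  -- the clause `face`
  intro x hx c1 c2 σ1 σ2 hFI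
  obtain ⟨τ, hτ⟩ := (hfc x hx x (hxq x hx)).2.2.1
  rw [FD.sq x hx] at hτ
  have hτF : τ ∈ Fc := ⟨x, hx, hτ⟩
  obtain ⟨x1, hx1, hB1, -⟩ := hBc τ hτF
  have hd2 := hFc2 τ hτF
  obtain ⟨ε', G', hFG', -, -⟩ := exists_des (C := h.cmb) X hχ hI.bd hd2 hτ (hFs x hx)
  obtain ⟨hFG, hA⟩ := FG.transfer X (F.des τ hτF) (F.fg τ hτF) (F.Af τ hτF) G' hFG' (by
    rw [hB1]
    exact FD.dir x1 hx1 x hx)
  have hτR : τ ∉ Rb := hFR τ hτF τ le_rfl
  refine hface Φ κ Lv H (F.des τ hτF) (hends hd2) (Bf x) ε' hFG (fun z _ => hA z) hf1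
    (wts κ kap fam) hw (fun a => (Rk κ kap a : ℝ)) ?_ ?_ ?_ (Mna_747.nn h.cmb K (Rk κ kap)) ?_ μ hμ
    a FD.ab (F.wd (wts κ kap fam) a (η1 * μ) θ δm ε dl) (fun s => dl ((F.des τ hτF).S.es s))
    (fun s => F.th (wts κ kap fam) a (η1 * μ) θ ((F.des τ hτF).S.es s)) (fun _ => hdl0 _)
    (fun _ => hdl1 _) b hb ?_ ?_ c1 c2 σ1 σ2 hFI
  · intro a'
    have h1 : 0 < Rk κ kap a' := Rk_pos κ kap a'
    exact_mod_cast h1
  · intro a'
    have h1 : mm hf1 a' = Rk κ kap a' * mm hfin a' := h.mm_eq a'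
    rw [h1, hcard]
    push_cast
    rfl
  · intro j
    have h1 := Mna_747.pow_div_Rk (h.le (h.cmb.fam j))
    have h2 : (0:ℝ) < (Rk κ kap (h.cmb.fam j) : ℕ) := by
      exact_mod_cast Rk_pos κ kap (h.cmb.fam j)
    rw [div_eq_iff h2.ne'] at h1
    rw [h1, mul_comm]
    rfl
  · intro s a'
    rw [← hFG.side s]
    exact Mna_747.nn_eq (fun q q' _ _ e => le_antisymm (le_of_sub X e.subset)
      (le_of_sub X e.symm.subset)) (Rk κ kap) ((F.des τ hτF).S.d1 s) a'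
  · intro hDP ha
    have hN : τ ∈ F.N (wts κ kap fam) a (η1 * μ) := ⟨hτF, hDP, ha⟩
    refine ⟨fun s hs => F.th_main hτF hs, fun s hs => F.th_empty hτF hN hs, fun s => rfl, ?_⟩
    obtain ⟨β', M', hβ', hS, hM⟩ := (hT τ).new hτR
    refine ⟨M', hS.2.2 hτF hN, ?_⟩
    have e1 : bet b 4 / bet b (dim τ + 1) = 2 * b 3 := by
      rw [hd2, bet_succ b 3]
      exact mul_div_cancel_right₀ _ (bet_pos hb0 3).ne'
    rw [← e1, ← hβ']
    exact hM
  · intro x' z hz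
    have h1 := (hT τ).ll (Bf x) ⟨Bf x, rfl⟩ x' z (by rw [hτ]; exact hz)
    refine h1.mono (div_le_div_of_nonneg_right ?_ (hw _).le)
    exact lamK_face X hI.bd hχ (F.des τ hτF) hFG hw hb4 (K0x_nonneg hKN0)
      (K0x_of_not hKN0 (hFR τ hτF)).le hdl0 hdl1 (by linarith) (hends hd2)

end Crest.Agent.R096.Fsw_928
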