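import Crest.Agent.R096.Mo4_119
import Crest.Agent.R096.P5Spec_205

-- ▼ part R096/Mo5_119
section

/-!
# P5-MOLL, part 5 (helper119, row 96): `L^p` convergence of the derivatives
-/

set_option autoImplicit false

open MeasureTheory Metric Set Filter Topology
open scoped ENNReal NNReal ContDiff

namespace Crest.Agent.R096.Mo_119

variable {E : Type*} [NormedAddCommGroup E] [NormedSpace ℝ E] [FiniteDimensional ℝ E]
  [MeasurableSpace E] [BorelSpace E]

omit [MeasurableSpace E] [BorelSpace E] in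
/-- uniform lower bound of the determinant near the identity -/
theorem exists_det_lower : ∃ d : ℝ≥0, 0 < d ∧ ∀ B : E →L[ℝ] E,
    ‖B - ContinuousLinearMap.id ℝ E‖ ≤ 1/4 → (d : ℝ) ≤ |B.det| := by
  have : ProperSpace (E →L[ℝ] E) := FiniteDimensional.proper_real _
  have hc : IsCompact (closedBall (ContinuousLinearMap.id ℝ E) (1/4)) := isCompact_closedBall _ _
  have hne : (closedBall (ContinuousLinearMap.id ℝ E) (1/4)).Nonempty :=
    ⟨_, mem_closedBall_self (by norm_num)⟩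
  have hcont : Continuous fun B : E →L[ℝ] E => |B.det| := continuous_det.abs
  obtain ⟨B₀, hB₀, hmin⟩ := hc.exists_isMinOn hne hcont.continuousOn
  have hpos : ∀ B : E →L[ℝ] E, ‖B - ContinuousLinearMap.id ℝ E‖ ≤ 1/4 → 0 < |B.det| := by
    intro B hB
    rw [abs_pos]
    intro h0
    have h1 := LinearMap.bot_lt_ker_of_det_eq_zero (f := (B : E →ₗ[ℝ] E)) h0
    obtain ⟨v, hv, hv0⟩ := (Submodule.ne_bot_iff _).1 h1.ne'
    have hBv : B v = 0 := hv
    have h2 : ‖(B - ContinuousLinearMap.id ℝ E) v‖ ≤ 1/4 * ‖v‖ :=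
      (ContinuousLinearMap.le_opNorm _ _).trans (by gcongr)
    have h3 : (B - ContinuousLinearMap.id ℝ E) v = - v := by simp [hBv]
    rw [h3, norm_neg] at h2
    have h4 : 0 < ‖v‖ := norm_pos_iff.2 hv0
    linarith
  have hB₀' : ‖B₀ - ContinuousLinearMap.id ℝ E‖ ≤ 1/4 := by
    rwa [mem_closedBall, dist_eq_norm] at hB₀
  refine ⟨⟨|B₀.det|, abs_nonneg _⟩, hpos B₀ hB₀', fun B hB => ?_⟩
  exact hmin (by rw [mem_closedBall, dist_eq_norm]; exact hB)

section
variable {μ ν : Measure E}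

omit [FiniteDimensional ℝ E] in
/-- change of variables bound for `x ↦ x - η x • y` -/
theorem lintegral_comp_le [FiniteDimensional ℝ E] [μ.IsAddHaarMeasure] {d : ℝ≥0} (hd : 0 < d)
    (hdet : ∀ B : E →L[ℝ] E, ‖B - ContinuousLinearMap.id ℝ E‖ ≤ 1/4 → (d : ℝ) ≤ |B.det|)
    {η : E → ℝ} (hη : ContDiff ℝ ∞ η) (hη4 : ∀ x, ‖fderiv ℝ η x‖ ≤ 1/4) {y : E} (hy : ‖y‖ ≤ 1)
    {A : Set E} (hA : MeasurableSet A) (G : E → ℝ≥0∞) :
    ∫⁻ x in A, G (x - η x • y) ∂μ ≤ (d : ℝ≥0∞)⁻¹ * ∫⁻ x, G x ∂μ := by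
  set Φ : E → E := fun x => x - η x • y with hΦ
  have hder : ∀ x, HasFDerivAt Φ (ContinuousLinearMap.id ℝ E - (fderiv ℝ η x).smulRight y) x :=
    fun x => (hasFDerivAt_id x).sub
      (((hη.differentiable (by simp)) x).hasFDerivAt.smul_const y)
  have hLip : LipschitzWith (1/4 : ℝ≥0) η := by
    refine lipschitzWith_of_nnnorm_fderiv_le (𝕜 := ℝ) (hη.differentiable (by simp)) fun x => ?_
    rw [← NNReal.coe_le_coe, coe_nnnorm]
    refine (hη4 x).trans ?_
    norm_num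
  have hinj : InjOn Φ A := by
    intro a _ b _ hab
    simp only [hΦ] at hab
    have h1 : a - b = (η a - η b) • y := by
      rw [sub_smul]
      rw [sub_eq_sub_iff_add_eq_add] at hab ⊢
      rw [add_comm (η a • y) b, ← hab]
    have h2 : ‖a - b‖ ≤ 1/4 * ‖a - b‖ := by
      calc ‖a - b‖ = ‖η a - η b‖ * ‖y‖ := by rw [← norm_smul, ← h1]
        _ ≤ ((1/4 : ℝ≥0) * ‖a - b‖) * 1 := by
            gcongr
            exact hLip.norm_sub_le a b
        _ = 1/4 * ‖a - b‖ := by push_cast; ring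
    have h3 : ‖a - b‖ ≤ 0 := by linarith
    exact sub_eq_zero.1 (norm_le_zero_iff.1 h3)
  have key := lintegral_image_eq_lintegral_abs_det_fderiv_mul μ hA
    (fun x _ => (hder x).hasFDerivWithinAt) hinj G
  have hdet' : ∀ x, (d : ℝ≥0∞) ≤
      ENNReal.ofReal |(ContinuousLinearMap.id ℝ E - (fderiv ℝ η x).smulRight y).det| := by
    intro x
    have h1 := hdet (ContinuousLinearMap.id ℝ E - (fderiv ℝ η x).smulRight y) (by
      rw [sub_sub_cancel_left, norm_neg, ContinuousLinearMap.norm_smulRight_apply]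
      calc ‖fderiv ℝ η x‖ * ‖y‖ ≤ 1/4 * 1 := by gcongr; exact hη4 x
        _ = 1/4 := by norm_num)
    rw [← ENNReal.ofReal_coe_nnreal]
    exact ENNReal.ofReal_le_ofReal h1
  have h1 : (d : ℝ≥0∞) * ∫⁻ x in A, G (Φ x) ∂μ ≤ ∫⁻ x, G x ∂μ := by
    rw [← lintegral_const_mul' _ _ ENNReal.coe_ne_top]
    calc ∫⁻ x in A, (d : ℝ≥0∞) * G (Φ x) ∂μ
        ≤ ∫⁻ x in A, ENNReal.ofReal
          |(ContinuousLinearMap.id ℝ E - (fderiv ℝ η x).smulRight y).det| * G (Φ x) ∂μ := by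
          refine lintegral_mono fun x => ?_
          gcongr
          exact hdet' x
      _ = ∫⁻ x in Φ '' A, G x ∂μ := key.symm
      _ ≤ ∫⁻ x, G x ∂μ := setLIntegral_le_lintegral _ _
  have hd0 : (d : ℝ≥0∞) ≠ 0 := by exact_mod_cast hd.ne'
  calc ∫⁻ x in A, G (Φ x) ∂μ = (d : ℝ≥0∞)⁻¹ * ((d : ℝ≥0∞) * ∫⁻ x in A, G (Φ x) ∂μ) := by
        rw [← mul_assoc, ENNReal.inv_mul_cancel hd0 ENNReal.coe_ne_top, one_mul]
    _ ≤ _ := by gcongr

omit [FiniteDimensional ℝ E] in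
/-- elementary: `D ≤ C` implies `D ^ p ≤ C ^ (p - 1) * D` -/
theorem enn_rpow_le {D C : ℝ≥0∞} (h : D ≤ C) {p : ℝ} (hp : 1 ≤ p) :
    D ^ p ≤ C ^ (p - 1) * D := by
  have : D ^ p = D ^ (p - 1) * D ^ (1:ℝ) := by
    rw [← ENNReal.rpow_add_of_nonneg _ _ (by linarith) zero_le_one]
    congr 1; ring
  rw [this, ENNReal.rpow_one]
  gcongr

/-- **Uniform `L^p` estimate on subsets of a compact set.** -/
theorem exists_T [μ.IsAddHaarMeasure] (hk : Ker μ ν) {h : E → E} {K : Set E} (hK : IsCompact K)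
    {r : ℝ} (hr : 0 < r) {L : ℝ≥0} (hloc : ∀ x ∈ K, LipschitzOnWith L h (ball x r)) {p : ℝ}
    (hp : 1 ≤ p) {ε : ℝ≥0∞} (hε : ε ≠ 0) :
    ∃ T > 0, ∀ η : E → ℝ, ContDiff ℝ ∞ η → (∀ x, ‖fderiv ℝ η x‖ ≤ 1/4) →
      ∀ A : Set E, MeasurableSet A → A ⊆ K →
      (∀ x ∈ A, 0 < η x ∧ η x ≤ T ∧ ‖fderiv ℝ η x‖ ≤ T) →
      ∫⁻ x in A, ‖fderiv ℝ (avg ν h η) x - fderiv ℝ h x‖ₑ ^ p ∂μ ≤ ε := by
  have hprob := hk.prob
  have hprop : ProperSpace E := FiniteDimensional.proper_real E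
  obtain ⟨d, hd, hdet⟩ := exists_det_lower (E := E)
  -- the truncated derivative
  set U : Set E := thickening r K with hU
  have hUo : IsOpen U := isOpen_thickening
  have hUmem : ∀ z, z ∈ U ↔ ∃ x ∈ K, z ∈ ball x r := fun z => by
    simp only [hU, mem_thickening_iff, mem_ball]
  set F : E → (E →L[ℝ] E) := U.indicator (fderiv ℝ h) with hF
  have hFm : Measurable F := (measurable_fderiv ℝ h).indicator hUo.measurableSet
  have hDh : ∀ z ∈ U, ‖fderiv ℝ h z‖ ≤ L := fun z hz => by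
    obtain ⟨x, hx, hzx⟩ := (hUmem z).1 hz
    exact norm_fderiv_le_of_lipschitzOn ℝ (isOpen_ball.mem_nhds hzx) (hloc x hx)
  have hFL : ∀ z, ‖F z‖ ≤ L := fun z => by
    by_cases hz : z ∈ U
    · rw [hF, indicator_of_mem hz]; exact hDh z hz
    · rw [hF, indicator_of_notMem hz]; simp
  have hUfin : μ U < (⊤ : ℝ≥0∞) := hK.isBounded.thickening.measure_lt_top
  have hFi : Integrable F μ := by
    have h1 : IntegrableOn (fderiv ℝ h) U μ := by
      refine IntegrableOn.of_bound hUfin (measurable_fderiv ℝ h).aestronglyMeasurable L ?_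
      filter_upwards [ae_restrict_mem hUo.measurableSet] with z hz using hDh z hz
    exact h1.integrable_indicator hUo.measurableSet
  -- constants
  set κL : ℝ≥0 := κE E * L with hκL
  set C0 : ℝ≥0∞ := ((κL + 2 * L : ℝ≥0) : ℝ≥0∞) with hC0
  set MK : ℝ≥0∞ := μ K with hMK
  have hMKf : MK ≠ (⊤ : ℝ≥0∞) := hK.measure_lt_top.ne
  set W : ℝ≥0∞ := C0 ^ (p - 1) * (κL * MK + ((d : ℝ≥0∞)⁻¹ + MK + 1)) with hW
  have hWf : W ≠ (⊤ : ℝ≥0∞) := by
    refine ENNReal.mul_ne_top (ENNReal.rpow_ne_top_of_nonneg (by linarith) ENNReal.coe_ne_top) ?_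
    have hd0 : (d : ℝ≥0∞) ≠ 0 := by exact_mod_cast hd.ne'
    refine ENNReal.add_ne_top.2 ⟨ENNReal.mul_ne_top ENNReal.coe_ne_top hMKf,
      ENNReal.add_ne_top.2 ⟨ENNReal.add_ne_top.2 ⟨ENNReal.inv_ne_top.2 hd0, hMKf⟩,
        ENNReal.one_ne_top⟩⟩
  obtain ⟨t, ht, htW⟩ := ENNReal.exists_nnreal_pos_mul_lt hWf hε
  have ht0 : (t : ℝ≥0∞) ≠ 0 := by exact_mod_cast ht.ne'
  obtain ⟨c, hccs, hcF, hcc, -⟩ := hFi.exists_hasCompactSupport_lintegral_sub_le ht0
  have huc : UniformContinuous c := hccs.uniformContinuous_of_continuous hcc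
  obtain ⟨T1, hT1, hT1c⟩ := Metric.uniformContinuous_iff.1 huc t (by exact_mod_cast ht)
  set T : ℝ := min (min (r / 2) 1) (min (T1 / 2) t) with hT
  have hT0 : 0 < T := by
    refine lt_min (lt_min (by positivity) one_pos) (lt_min (by positivity) (by exact_mod_cast ht))
  refine ⟨T, hT0, fun η hη hη4 A hA hAK hηA => ?_⟩
  have hTr : T < r := lt_of_le_of_lt ((min_le_left _ _).trans (min_le_left _ _)) (by linarith)
  have hT1' : T ≤ 1 := (min_le_left _ _).trans (min_le_right _ _)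
  have hTT1 : T < T1 := lt_of_le_of_lt ((min_le_right _ _).trans (min_le_left _ _)) (by linarith)
  have hTt : T ≤ t := (min_le_right _ _).trans (min_le_right _ _)
  -- pointwise estimate
  have hpt : ∀ x ∈ A, ‖fderiv ℝ (avg ν h η) x - fderiv ℝ h x‖ₑ ≤
      κL * t + ∫⁻ y, ‖F (x - η x • y) - F x‖ₑ ∂ν := by
    intro x hx
    obtain ⟨h1, h2, h3⟩ := hηA x hx
    have hin : ‖x - x‖ + η x < r := by simp only [sub_self, norm_zero]; linarith
    have h4 := hk.fderiv_avg_loc (hloc x (hAK hx)) hη h1 hin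
    have hsub : closedBall x (η x) ⊆ U := fun z hz => (hUmem z).2 ⟨x, hAK hx, by
      rw [mem_closedBall] at hz; rw [mem_ball]; linarith⟩
    have h5 : avgD ν h (η x) x = ∫ y, F (x - η x • y) ∂ν := by
      refine integral_congr_ae ?_
      filter_upwards [hk.supp] with y hy
      rw [hF, indicator_of_mem]
      refine hsub ?_
      rw [mem_closedBall, dist_eq_norm, sub_sub_cancel_left, norm_neg, norm_smul,
        Real.norm_eq_abs, abs_of_pos h1]
      exact mul_le_of_le_one_right h1.le hy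
    have hFm2 : Measurable fun y : E => F (x - η x • y) := hFm.comp (by fun_prop)
    have hFi2 : Integrable (fun y : E => F (x - η x • y)) ν :=
      Integrable.of_bound hFm2.aestronglyMeasurable L (Eventually.of_forall fun y => hFL _)
    have hxU : x ∈ U := hsub (mem_closedBall_self h1.le)
    have h6 : fderiv ℝ h x = F x := by rw [hF, indicator_of_mem hxU]
    have h7 : avgD ν h (η x) x - fderiv ℝ h x = ∫ y, (F (x - η x • y) - F x) ∂ν := by
      rw [h5, h6, integral_sub hFi2 (integrable_const _)]; simp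
    have h8 : ‖avgD ν h (η x) x - fderiv ℝ h x‖ₑ ≤ ∫⁻ y, ‖F (x - η x • y) - F x‖ₑ ∂ν := by
      rw [h7]; exact enorm_integral_le_lintegral_enorm _
    have h9 : ‖fderiv ℝ (avg ν h η) x - avgD ν h (η x) x‖ₑ ≤ κL * t := by
      rw [← ofReal_norm]
      have : (κE E : ℝ) * L * ‖fderiv ℝ η x‖ ≤ ((κL * t : ℝ≥0) : ℝ) := by
        push_cast [hκL]
        have := h3.trans hTt
        gcongr
      calc ENNReal.ofReal _ ≤ ENNReal.ofReal ((κL * t : ℝ≥0) : ℝ) :=
            ENNReal.ofReal_le_ofReal (h4.trans this)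
        _ = κL * t := by rw [ENNReal.ofReal_coe_nnreal]; push_cast; rfl
    calc ‖fderiv ℝ (avg ν h η) x - fderiv ℝ h x‖ₑ
        = ‖(fderiv ℝ (avg ν h η) x - avgD ν h (η x) x) +
            (avgD ν h (η x) x - fderiv ℝ h x)‖ₑ := by congr 1; abel
      _ ≤ _ := (enorm_add_le _ _).trans (add_le_add h9 h8)
  -- crude bound
  have hcr : ∀ x ∈ A, ‖fderiv ℝ (avg ν h η) x - fderiv ℝ h x‖ₑ ≤ C0 := by
    intro x hx
    obtain ⟨h1, h2, h3⟩ := hηA x hx
    have hin : ‖x - x‖ + η x < r := by simp only [sub_self, norm_zero]; linarith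
    have h4 := hk.fderiv_avg_loc (hloc x (hAK hx)) hη h1 hin
    have hsub : closedBall x (η x) ⊆ U := fun z hz => (hUmem z).2 ⟨x, hAK hx, by
      rw [mem_closedBall] at hz; rw [mem_ball]; linarith⟩
    have h5 : ‖avgD ν h (η x) x‖ ≤ L := by
      have : ∀ᵐ y ∂ν, ‖fderiv ℝ h (x - η x • y)‖ ≤ L := by
        filter_upwards [hk.supp] with y hy
        refine hDh _ (hsub ?_)
        rw [mem_closedBall, dist_eq_norm, sub_sub_cancel_left, norm_neg, norm_smul,
          Real.norm_eq_abs, abs_of_pos h1]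
        exact mul_le_of_le_one_right h1.le hy
      have := norm_integral_le_of_norm_le_const this
      simpa [avgD] using this
    have h6 := hDh x (hsub (mem_closedBall_self h1.le))
    have h7 : ‖fderiv ℝ (avg ν h η) x - fderiv ℝ h x‖ ≤ ((κL + 2 * L : ℝ≥0) : ℝ) := by
      calc ‖fderiv ℝ (avg ν h η) x - fderiv ℝ h x‖
          = ‖(fderiv ℝ (avg ν h η) x - avgD ν h (η x) x) +
            avgD ν h (η x) x - fderiv ℝ h x‖ := by congr 1; abel
        _ ≤ ‖fderiv ℝ (avg ν h η) x - avgD ν h (η x) x‖ + ‖avgD ν h (η x) x‖ +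
            ‖fderiv ℝ h x‖ := (norm_sub_le _ _).trans (by gcongr; exact norm_add_le _ _)
        _ ≤ κE E * L * 1 + L + L := by
            gcongr
            refine h4.trans ?_
            have := h3.trans hT1'
            gcongr
        _ = ((κL + 2 * L : ℝ≥0) : ℝ) := by push_cast [hκL]; ring
    rw [← ofReal_norm, hC0, ← ENNReal.ofReal_coe_nnreal]
    exact ENNReal.ofReal_le_ofReal h7
  -- the double integral
  have hη' : Continuous η := hη.continuous
  have hmeas2 : Measurable fun q : E × E => ‖F (q.1 - η q.1 • q.2) - F q.1‖ₑ := by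
    have h1 : Measurable fun q : E × E => q.1 - η q.1 • q.2 := by fun_prop
    exact ((hFm.comp h1).sub (hFm.comp measurable_fst)).enorm
  have hFc : ∫⁻ x, ‖F x - c x‖ₑ ∂μ ≤ t := hcF
  have hy : ∀ᵐ y ∂ν, ∫⁻ x in A, ‖F (x - η x • y) - F x‖ₑ ∂μ ≤
      t * ((d : ℝ≥0∞)⁻¹ + MK + 1) := by
    filter_upwards [hk.supp] with y hy
    have hcm : Measurable c := hcc.measurable
    have e1 : ∀ x ∈ A, ‖F (x - η x • y) - F x‖ₑ ≤
        ‖F (x - η x • y) - c (x - η x • y)‖ₑ + (t + ‖F x - c x‖ₑ) := by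
      intro x hx
      obtain ⟨h1, h2, h3⟩ := hηA x hx
      have e2 : ‖c (x - η x • y) - c x‖ₑ ≤ t := by
        have h4 : dist (x - η x • y) x < T1 := by
          rw [dist_eq_norm, sub_sub_cancel_left, norm_neg, norm_smul,
            Real.norm_eq_abs, abs_of_pos h1]
          calc η x * ‖y‖ ≤ η x * 1 := by gcongr
            _ < T1 := by linarith
        have h5 := (hT1c h4).le
        rw [dist_eq_norm] at h5
        rw [← ofReal_norm, ← ENNReal.ofReal_coe_nnreal]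
        exact ENNReal.ofReal_le_ofReal h5
      calc ‖F (x - η x • y) - F x‖ₑ
          = ‖(F (x - η x • y) - c (x - η x • y)) + ((c (x - η x • y) - c x) - (F x - c x))‖ₑ := by
            congr 1; abel
        _ ≤ ‖F (x - η x • y) - c (x - η x • y)‖ₑ + ‖(c (x - η x • y) - c x) - (F x - c x)‖ₑ := by
            exact enorm_add_le (F (x - η x • y) - c (x - η x • y))
              ((c (x - η x • y) - c x) - (F x - c x))
        _ ≤ ‖F (x - η x • y) - c (x - η x • y)‖ₑ + (‖c (x - η x • y) - c x‖ₑ + ‖F x - c x‖ₑ) := by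
            gcongr; exact enorm_sub_le
        _ ≤ _ := by gcongr
    have hG : Measurable fun x => ‖F x - c x‖ₑ := (hFm.sub hcm).enorm
    calc ∫⁻ x in A, ‖F (x - η x • y) - F x‖ₑ ∂μ
        ≤ ∫⁻ x in A, (‖F (x - η x • y) - c (x - η x • y)‖ₑ + (t + ‖F x - c x‖ₑ)) ∂μ :=
          setLIntegral_mono' hA e1
      _ = ∫⁻ x in A, ‖F (x - η x • y) - c (x - η x • y)‖ₑ ∂μ +
            (∫⁻ x in A, (t : ℝ≥0∞) ∂μ + ∫⁻ x in A, ‖F x - c x‖ₑ ∂μ) := by
          have hG2 : Measurable fun x => (t : ℝ≥0∞) + ‖F x - c x‖ₑ := measurable_const.add hG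
          rw [lintegral_add_right _ hG2, lintegral_add_left measurable_const]
      _ ≤ (d : ℝ≥0∞)⁻¹ * t + (t * MK + t) := by
          refine add_le_add ?_ (add_le_add ?_ ?_)
          · exact (lintegral_comp_le hd hdet hη hη4 hy hA (fun x => ‖F x - c x‖ₑ)).trans (by gcongr)
          · rw [setLIntegral_const]; gcongr; exact measure_mono hAK
          · exact (setLIntegral_le_lintegral _ _).trans hFc
      _ = t * ((d : ℝ≥0∞)⁻¹ + MK + 1) := by ring
  have hdouble : ∫⁻ x in A, ∫⁻ y, ‖F (x - η x • y) - F x‖ₑ ∂ν ∂μ ≤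
      t * ((d : ℝ≥0∞)⁻¹ + MK + 1) := by
    rw [lintegral_lintegral_swap hmeas2.aemeasurable]
    calc _ ≤ ∫⁻ _y, t * ((d : ℝ≥0∞)⁻¹ + MK + 1) ∂ν := lintegral_mono_ae hy
      _ = t * ((d : ℝ≥0∞)⁻¹ + MK + 1) := by simp
  have hmeas3 : Measurable fun x => ∫⁻ y, ‖F (x - η x • y) - F x‖ₑ ∂ν :=
    hmeas2.lintegral_prod_right'
  calc ∫⁻ x in A, ‖fderiv ℝ (avg ν h η) x - fderiv ℝ h x‖ₑ ^ p ∂μ
      ≤ ∫⁻ x in A, C0 ^ (p - 1) * (κL * t + ∫⁻ y, ‖F (x - η x • y) - F x‖ₑ ∂ν) ∂μ := by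
        refine setLIntegral_mono' hA fun x hx => ?_
        refine (enn_rpow_le (hcr x hx) hp).trans ?_
        gcongr
        exact hpt x hx
    _ = C0 ^ (p - 1) * (∫⁻ x in A, (κL * t : ℝ≥0∞) ∂μ +
          ∫⁻ x in A, ∫⁻ y, ‖F (x - η x • y) - F x‖ₑ ∂ν ∂μ) := by
        have h9 : Measurable fun x => (κL * t : ℝ≥0∞) + ∫⁻ y, ‖F (x - η x • y) - F x‖ₑ ∂ν :=
          measurable_const.add hmeas3
        rw [lintegral_const_mul _ h9, lintegral_add_left measurable_const]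
    _ ≤ C0 ^ (p - 1) * (κL * t * MK + t * ((d : ℝ≥0∞)⁻¹ + MK + 1)) := by
        gcongr
        rw [setLIntegral_const]; gcongr; exact measure_mono hAK
    _ = t * W := by rw [hW]; ring
    _ ≤ ε := htW.le

end

end Crest.Agent.R096.Mo_119
end

-- ▼ part R096/Mo6_119
section

/-!
# P5-MOLL, part 6 (helper119, row 96): the mollification theorem
-/

set_option autoImplicit false

open MeasureTheory Metric Set Filter Topology
open scoped ENNReal NNReal ContDiff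

namespace Crest.Agent.R096.Mo_119

variable {E : Type*} [NormedAddCommGroup E] [NormedSpace ℝ E] [FiniteDimensional ℝ E]
  [MeasurableSpace E] [BorelSpace E]

omit [NormedSpace ℝ E] [FiniteDimensional ℝ E] [MeasurableSpace E] [BorelSpace E] in
/-- locally Lipschitz maps are uniformly Lipschitz on balls centered in a compact set -/
theorem uniform_lip {h : E → E} {Ω K : Set E}
    (hloc : ∀ x ∈ Ω, ∃ r > 0, ∃ L : ℝ≥0, LipschitzOnWith L h (ball x r)) (hK : IsCompact K)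
    (hKΩ : K ⊆ Ω) : ∃ r > 0, ∃ L : ℝ≥0, ∀ x ∈ K, LipschitzOnWith L h (ball x r) := by
  classical
  have h1 : ∀ x ∈ K, ∃ r > 0, ∃ L : ℝ≥0, LipschitzOnWith L h (ball x r) :=
    fun x hx => hloc x (hKΩ hx)
  choose! r hr L hL using h1
  obtain ⟨t, htK, ht⟩ := hK.elim_nhds_subcover (fun x => ball x (r x / 2))
    (fun x hx => ball_mem_nhds x (by have := hr x hx; positivity))
  by_cases hne : t.Nonempty
  · refine ⟨t.inf' hne (fun x => r x / 2), ?_, t.sup L, fun x hx => ?_⟩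
    · rw [gt_iff_lt, Finset.lt_inf'_iff]; exact fun x hx => by have := hr x (htK x hx); positivity
    · obtain ⟨y, hy, hxy⟩ := mem_iUnion₂.1 (ht hx)
      have h2 : LipschitzOnWith (t.sup L) h (ball y (r y)) := (hL y (htK y hy)).weaken
        (Finset.le_sup (f := L) hy)
      refine h2.mono fun z hz => ?_
      rw [mem_ball] at hz hxy ⊢
      have h3 : t.inf' hne (fun x => r x / 2) ≤ r y / 2 := Finset.inf'_le _ hy
      calc dist z y ≤ dist z x + dist x y := dist_triangle _ _ _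
        _ < r y := by linarith
  · refine ⟨1, one_pos, 0, fun x hx => ?_⟩
    obtain ⟨y, hy, -⟩ := mem_iUnion₂.1 (ht hx)
    exact absurd ⟨y, hy⟩ hne

omit [NormedSpace ℝ E] [FiniteDimensional ℝ E] [MeasurableSpace E] [BorelSpace E] in
/-- an exhaustion by compact sets -/
theorem exists_exhaustion [ProperSpace E] {Ω : Set E} (hΩ : IsOpen Ω) :
    ∃ K : ℕ → Set E, (∀ n, IsCompact (K n)) ∧ (∀ n, K n ⊆ Ω) ∧
      ∃ m : E → ℕ, (∀ x ∈ Ω, x ∈ K (m x)) ∧ LBB Ω (fun x => 1 / ((m x : ℝ) + 1)) := by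
  set K : ℕ → Set E := fun n => {x | ball x (1 / ((n : ℝ) + 1)) ⊆ Ω} ∩ closedBall 0 n with hK
  refine ⟨K, fun n => (isCompact_closedBall _ _).inter_left (isClosed_ball_subset _ _),
    fun n x hx => hx.1 (mem_ball_self (by positivity)), ?_⟩
  have key : ∀ x ∈ Ω, ∃ m : ℕ, ∀ᶠ y in 𝓝 x, y ∈ K m := by
    intro x hx
    obtain ⟨r, hr, hrΩ⟩ := Metric.isOpen_iff.1 hΩ x hx
    obtain ⟨n1, hn1⟩ := exists_nat_gt (1 / (r / 2))
    obtain ⟨n2, hn2⟩ := exists_nat_gt (‖x‖ + 1)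
    refine ⟨max n1 n2, ?_⟩
    filter_upwards [ball_mem_nhds x (show (0:ℝ) < min (r / 2) 1 by positivity)] with y hy
    rw [mem_ball, lt_min_iff] at hy
    constructor
    · intro z hz
      apply hrΩ
      rw [mem_ball] at hz ⊢
      have h1 : 1 / (((max n1 n2 : ℕ) : ℝ) + 1) ≤ r / 2 := by
        rw [div_le_iff₀ (by positivity)]
        have h2 : (1 : ℝ) / (r / 2) < ((max n1 n2 : ℕ) : ℝ) + 1 := by
          have : ((n1 : ℕ) : ℝ) ≤ ((max n1 n2 : ℕ) : ℝ) := by exact_mod_cast le_max_left _ _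
          linarith
        rw [div_lt_iff₀ (by positivity)] at h2
        linarith
      calc dist z x ≤ dist z y + dist y x := dist_triangle _ _ _
        _ < r := by linarith [hy.1]
    · rw [mem_closedBall, dist_zero_right]
      have : ((n2 : ℕ) : ℝ) ≤ ((max n1 n2 : ℕ) : ℝ) := by exact_mod_cast le_max_right _ _
      have h3 : ‖y‖ ≤ ‖y - x‖ + ‖x‖ := by
        calc ‖y‖ = ‖(y - x) + x‖ := by rw [sub_add_cancel]
          _ ≤ _ := norm_add_le _ _
      rw [← dist_eq_norm] at h3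
      linarith [hy.2]
  exact LBB.of_nat (P := fun x n => x ∈ K n) (fun x hx => by
    obtain ⟨m, hm⟩ := key x hx
    exact ⟨m, hm.self_of_nhds⟩) (fun x hx _ _ => by
    obtain ⟨m, hm⟩ := key x hx
    exact ⟨m, hm.mono fun y hy _ => hy⟩)

variable {μ ν : Measure E}

/-- **`L^p` bound for all small radii functions.** -/
theorem exists_Lp_bound [μ.IsAddHaarMeasure] (hk : Ker μ ν) {h : E → E} {Ω : Set E}
    (hΩ : IsOpen Ω) (hloc : ∀ x ∈ Ω, ∃ r > 0, ∃ L : ℝ≥0, LipschitzOnWith L h (ball x r))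
    {p : ℝ} (hp : 1 ≤ p) {ε : ℝ≥0∞} (hε : ε ≠ 0) :
    ∃ b : E → ℝ, LBB Ω b ∧ ∀ η : E → ℝ, ContDiff ℝ ∞ η → (∀ x, ‖fderiv ℝ η x‖ ≤ 1/4) →
      (∀ x ∈ Ω, 0 < η x) → (∀ x ∈ Ω, η x ≤ b x) → (∀ x ∈ Ω, ‖fderiv ℝ η x‖ ≤ b x) →
      ∫⁻ x in Ω, ‖fderiv ℝ (avg ν h η) x - fderiv ℝ h x‖ₑ ^ p ∂μ ≤ ε := by
  have hprop : ProperSpace E := FiniteDimensional.proper_real E
  obtain ⟨K, hKc, hKΩ, m, hmK, hmb⟩ := exists_exhaustion hΩ
  obtain ⟨ε', hε', hsum⟩ := ENNReal.exists_pos_sum_of_countable' hε ℕ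
  have h1 : ∀ n, ∃ T > 0, ∀ η : E → ℝ, ContDiff ℝ ∞ η → (∀ x, ‖fderiv ℝ η x‖ ≤ 1/4) →
      ∀ A : Set E, MeasurableSet A → A ⊆ K n →
      (∀ x ∈ A, 0 < η x ∧ η x ≤ T ∧ ‖fderiv ℝ η x‖ ≤ T) →
      ∫⁻ x in A, ‖fderiv ℝ (avg ν h η) x - fderiv ℝ h x‖ₑ ^ p ∂μ ≤ ε' n := fun n => by
    obtain ⟨r, hr, L, hL⟩ := uniform_lip hloc (hKc n) (hKΩ n)
    exact exists_T hk (hKc n) hr hL hp (hε' n).ne'
  choose T hT0 hT using h1
  -- antitone version of `T`
  have hne : ∀ n : ℕ, (Finset.range (n + 1)).Nonempty := fun n => ⟨0, by simp⟩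
  set T' : ℕ → ℝ := fun n => (Finset.range (n + 1)).inf' (hne n) T with hT'
  have hT'0 : ∀ n, 0 < T' n := fun n =>
    (Finset.lt_inf'_iff (hne n)).2 fun k _ => hT0 k
  have hT'le : ∀ n k, n ≤ k → T' k ≤ T n := fun n k hnk =>
    Finset.inf'_le _ (by simp; omega)
  have hT'anti : ∀ n k, n ≤ k → T' k ≤ T' n := fun n k hnk => by
    refine Finset.inf'_mono _ (fun j hj => ?_) _
    simp only [Finset.mem_range] at hj ⊢; omega
  refine ⟨fun x => T' (m x), ?_, fun η hη hη4 hηpos hηb hDη => ?_⟩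
  · intro x hx
    obtain ⟨c, hc, hcy⟩ := hmb x hx
    obtain ⟨M, hM⟩ := exists_nat_gt (1 / c)
    refine ⟨T' M, hT'0 M, hcy.mono fun y hy hyΩ => hT'anti _ _ ?_⟩
    have h2 := hy hyΩ
    rw [le_div_iff₀ (by positivity)] at h2
    rw [div_lt_iff₀ hc] at hM
    have h3 : ((m y : ℕ) : ℝ) + 1 < (M : ℝ) + 1 := by
      by_contra hcon
      push Not at hcon
      nlinarith
    have h4 : ((m y : ℕ) : ℝ) ≤ (M : ℝ) := by linarith
    exact_mod_cast h4
  · set A : ℕ → Set E := fun n => K n \ ⋃ k < n, K k with hA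
    have hAm : ∀ n, MeasurableSet (A n) := fun n =>
      (hKc n).measurableSet.diff (MeasurableSet.biUnion (to_countable _)
        fun k _ => (hKc k).measurableSet)
    have hAK : ∀ n, A n ⊆ K n := fun n => sdiff_subset
    have hAm' : ∀ n, ∀ x ∈ A n, n ≤ m x := fun n x hx => by
      by_contra hcon
      push Not at hcon
      exact hx.2 (mem_biUnion hcon (hmK x (hKΩ n hx.1)))
    have hcov : Ω ⊆ ⋃ n, A n := by
      intro x hx
      classical
      have hex : ∃ n, x ∈ K n := ⟨m x, hmK x hx⟩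
      refine mem_iUnion.2 ⟨Nat.find hex, Nat.find_spec hex, ?_⟩
      simp only [mem_iUnion, not_exists]
      exact fun k hk => Nat.find_min hex hk
    calc ∫⁻ x in Ω, ‖fderiv ℝ (avg ν h η) x - fderiv ℝ h x‖ₑ ^ p ∂μ
        ≤ ∫⁻ x in ⋃ n, A n, ‖fderiv ℝ (avg ν h η) x - fderiv ℝ h x‖ₑ ^ p ∂μ :=
          lintegral_mono_set hcov
      _ ≤ ∑' n, ∫⁻ x in A n, ‖fderiv ℝ (avg ν h η) x - fderiv ℝ h x‖ₑ ^ p ∂μ :=
          lintegral_iUnion_le _ _
      _ ≤ ∑' n, ε' n := by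
          refine ENNReal.tsum_le_tsum fun n => hT n η hη hη4 (A n) (hAm n) (hAK n) fun x hx => ?_
          have hxΩ := hKΩ n (hAK n hx)
          have h5 := hT'le n (m x) (hAm' n x hx)
          exact ⟨hηpos x hxΩ, (hηb x hxΩ).trans h5, (hDη x hxΩ).trans h5⟩
      _ ≤ ε := hsum.le

/-- **The mollification theorem** (P5-MOLL).  A homeomorphism `h : Ω → Λ` which locally is Lipschitz
with derivative in a compact convex set of positive-determinant matrices is `W^{1,p} ∩ C⁰`-close to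
a smooth diffeomorphism `g : Ω → Λ`. -/
theorem moll [μ.IsAddHaarMeasure] {h : E → E} {Ω Λ : Set E}
    (hΩ : IsOpen Ω) (hΛ : IsOpen Λ) (hΛc : IsPreconnected Λ) (himg : h '' Ω = Λ)
    (hm : Moll μ h Ω)
    (hsep : ∀ x ∈ Ω, ∀ ρ > 0, ∃ s > 0, ∀ y ∈ Ω, dist (h y) (h x) < s → dist y x < ρ)
    {δ : E → ℝ} (hδ : LBB Ω δ) {p : ℝ} (hp : 1 ≤ p) {ε : ℝ≥0∞} (hε : ε ≠ 0) :
    ∃ g : E → E, ContDiffOn ℝ ∞ g Ω ∧ (∀ x ∈ Ω, 0 < (fderiv ℝ g x).det) ∧ InjOn g Ω ∧
      g '' Ω = Λ ∧ (∀ x ∈ Ω, ‖g x - h x‖ ≤ δ x) ∧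
      ∫⁻ x in Ω, ‖fderiv ℝ g x - fderiv ℝ h x‖ₑ ^ p ∂μ ≤ ε := by
  obtain ⟨ρ, hρ⟩ := exists_dens (μ := μ)
  obtain ⟨b₁, hb₁, H₁⟩ := exists_bound hρ hΩ hΛ hΛc himg hm hsep hδ
  obtain ⟨b₂, hb₂, H₂⟩ := exists_Lp_bound hρ.ker hΩ (fun x hx => by
    obtain ⟨r, hr, K, -, -, -, ⟨L, hL⟩, -⟩ := hm x hx
    exact ⟨r, hr, L, hL⟩) hp hε
  obtain ⟨η, hη, hη0, hηpos, hηb, hDηb, hη4⟩ := exists_radius hΩ (hb₁.inf_min hb₂)
  obtain ⟨g1, g2, g3, g4, g5⟩ := H₁ η hη hηpos (fun x hx => (hηb x hx).trans (min_le_left _ _))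
    (fun x hx => (hDηb x hx).trans (min_le_left _ _))
  exact ⟨avg (kerM μ ρ) h η, g1, g2, g3, g4, g5, H₂ η hη hη4 hηpos
    (fun x hx => (hηb x hx).trans (min_le_right _ _))
    (fun x hx => (hDηb x hx).trans (min_le_right _ _))⟩

end Crest.Agent.R096.Mo_119
end

-- ▼ part R096/Mo7_119

/-!
# P5-MOLL, part 7 (helper119, row 96): adapters
-/

set_option autoImplicit false
set_option linter.unusedSectionVars false

open MeasureTheory Metric Set Filter Topology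
open scoped ENNReal NNReal ContDiff

namespace Crest.Agent.R096.Mo_119

open Crest.Agent.R096.P5Spec_205 (HomeoOn)

section sep
variable {E : Type*} [NormedAddCommGroup E]

/-- continuity of the inverse in the form used by `moll` -/
theorem _root_.Crest.Agent.R096.P5Spec_205.HomeoOn.sep {E : Type*} [NormedAddCommGroup E]
    [InnerProductSpace ℝ E] {h : E → E} {Om La : Set E} (hh : HomeoOn h Om La) :
    ∀ x ∈ Om, ∀ ρ > 0, ∃ s > 0, ∀ y ∈ Om, dist (h y) (h x) < s → dist y x < ρ := by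
  obtain ⟨k, hk, hkh⟩ := hh.inv
  intro x hx ρ hρ
  obtain ⟨s, hs, H⟩ := Metric.continuousOn_iff.1 hk (h x) (hh.bij.mapsTo hx) ρ hρ
  refine ⟨s, hs, fun y hy hyx => ?_⟩
  have := H (h y) (hh.bij.mapsTo hy) hyx
  rwa [hkh x hx, hkh y hy] at this

end sep

section
variable {E : Type*} [NormedAddCommGroup E] [InnerProductSpace ℝ E] [FiniteDimensional ℝ E]
  [MeasureSpace E] [BorelSpace E] [(volume : Measure E).IsAddHaarMeasure]

omit [FiniteDimensional ℝ E] [BorelSpace E] [(volume : Measure E).IsAddHaarMeasure] in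
theorem mollAt_iff {h : E → E} {x : E} :
    MollAt volume h x ↔ P5Spec_205.MollAt h x := Iff.rfl

/-- **P5-MOLL in the language of `P5Spec_205`.** -/
theorem moll_homeoOn {h : E → E} {Om La : Set E} (hOm : IsOpen Om) (hLa : IsOpen La)
    (hLc : IsPreconnected La) (hh : HomeoOn h Om La) (hm : ∀ x ∈ Om, P5Spec_205.MollAt h x)
    {δ : E → ℝ} (hδc : ContinuousOn δ Om) (hδ : ∀ x ∈ Om, 0 < δ x) {p : ℝ} (hp : 1 ≤ p)
    {ε : ℝ≥0∞} (hε : ε ≠ 0) :
    ∃ g : E → E, ContDiffOn ℝ ∞ g Om ∧ (∀ x ∈ Om, 0 < (fderiv ℝ g x).det) ∧ BijOn g Om La ∧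
      (∀ x ∈ Om, ‖g x - h x‖ ≤ δ x) ∧
      ∫⁻ x in Om, ‖fderiv ℝ g x - fderiv ℝ h x‖ₑ ^ p ≤ ε := by
  obtain ⟨g, g1, g2, g3, g4, g5, g6⟩ := moll (μ := volume) hOm hLa hLc hh.bij.image_eq
    (fun x hx => mollAt_iff.2 (hm x hx)) hh.sep (LBB.of_continuousOn hOm hδc hδ) hp hε
  exact ⟨g, g1, g2, ⟨fun x hx => g4 ▸ mem_image_of_mem g hx, g3, g4.ge⟩, g5, g6⟩

omit [MeasureSpace E] [BorelSpace E] [(volume : Measure E).IsAddHaarMeasure] in
/-- the inverse of a smooth bijection between open sets with invertible derivative is smooth -/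
theorem contDiffOn_inv {g k : E → E} {Om La : Set E} (hOm : IsOpen Om)
    (hg : ContDiffOn ℝ ∞ g Om) (hdet : ∀ x ∈ Om, (fderiv ℝ g x).det ≠ 0)
    (hmk : MapsTo k La Om) (hinj : InjOn g Om) (hkg : ∀ y ∈ La, g (k y) = y) (hLa : IsOpen La) :
    ContDiffOn ℝ ∞ k La := by
  have : CompleteSpace E := FiniteDimensional.complete ℝ E
  intro y hy
  have hx : k y ∈ Om := hmk hy
  set x := k y with hxdef
  have hgx : ContDiffAt ℝ ∞ g x := hg.contDiffAt (hOm.mem_nhds hx)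
  set A : E ≃L[ℝ] E := (fderiv ℝ g x).toContinuousLinearEquivOfDetNeZero (hdet x hx) with hA
  have hA' : HasFDerivAt g (A : E →L[ℝ] E) x := by
    have h1 := (hgx.differentiableAt (by simp)).hasFDerivAt
    have h2 : (A : E →L[ℝ] E) = fderiv ℝ g x := by
      ext v
      rfl
    rw [h2]; exact h1
  -- the local inverse
  have hn : (∞ : WithTop ℕ∞) ≠ 0 := by simp
  set e := hgx.toOpenPartialHomeomorph g hA' hn with he
  have hloc : ContDiffAt ℝ ∞ (hgx.localInverse hA' hn) (g x) := hgx.to_localInverse hA' hn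
  have hgxy : g x = y := hkg y hy
  -- near `y`, `k` agrees with the local inverse
  have hli : ∀ᶠ z in 𝓝 (g x), g (hgx.localInverse hA' hn z) = z := by
    have := (hgx.hasStrictFDerivAt' hA' hn).eventually_right_inverse
    exact this
  have hcont : Tendsto (hgx.localInverse hA' hn) (𝓝 (g x)) (𝓝 x) := by
    have h1 : hgx.localInverse hA' hn (g x) = x :=
      (hgx.hasStrictFDerivAt' hA' hn).localInverse_apply_image
    have h2 := hloc.continuousAt
    rw [ContinuousAt, h1] at h2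
    exact h2
  have hin : ∀ᶠ z in 𝓝 (g x), hgx.localInverse hA' hn z ∈ Om := hcont (hOm.mem_nhds hx)
  have hLa' : ∀ᶠ z in 𝓝 (g x), z ∈ La := by rw [hgxy]; exact hLa.mem_nhds hy
  have heq : k =ᶠ[𝓝 (g x)] hgx.localInverse hA' hn := by
    filter_upwards [hli, hin, hLa'] with z h1 h2 h3
    exact hinj (hmk h3) h2 (by rw [hkg z h3, h1])
  have hk : ContDiffAt ℝ ∞ k (g x) := hloc.congr_of_eventuallyEq heq
  rw [hgxy] at hk
  exact hk.contDiffWithinAt

end

/-! ### points of the class `MollAt` -/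

section cls
variable {E : Type*} [NormedAddCommGroup E] [NormedSpace ℝ E] [FiniteDimensional ℝ E]
  [MeasurableSpace E] [BorelSpace E] {μ : Measure E}

omit [FiniteDimensional ℝ E] in
/-- the class is open -/
theorem MollAt.eventually {h : E → E} {x : E} (hx : MollAt μ h x) : ∀ᶠ y in 𝓝 x, MollAt μ h y := by
  obtain ⟨r, hr, K, hKc, hK, hdet, ⟨L, hL⟩, hae⟩ := hx
  filter_upwards [ball_mem_nhds x (half_pos hr)] with y hy
  have hsub : ball y (r / 2) ⊆ ball x r := by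
    refine ball_subset_ball' ?_
    rw [mem_ball] at hy
    linarith
  exact ⟨r / 2, half_pos hr, K, hKc, hK, hdet, ⟨L, hL.mono hsub⟩, hae.mono fun z hz hzy =>
    hz (hsub hzy)⟩

omit [FiniteDimensional ℝ E] in
/-- the class only depends on the germ -/
theorem MollAt.congr {h h' : E → E} {x : E} (hx : MollAt μ h x) (he : h' =ᶠ[𝓝 x] h) :
    MollAt μ h' x := by
  obtain ⟨r, hr, K, hKc, hK, hdet, ⟨L, hL⟩, hae⟩ := hx
  obtain ⟨s, hs, hse⟩ := Metric.eventually_nhds_iff_ball.1 he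
  have hsub : ball x (min r s) ⊆ ball x r := ball_subset_ball (min_le_left _ _)
  refine ⟨min r s, lt_min hr hs, K, hKc, hK, hdet, ⟨L, ?_⟩, ?_⟩
  · intro y hy z hz
    rw [hse y (ball_subset_ball (min_le_right _ _) hy), hse z (ball_subset_ball (min_le_right _ _) hz)]
    exact hL (hsub hy) (hsub hz)
  · filter_upwards [hae] with z hz hzx
    have : fderiv ℝ h' z = fderiv ℝ h z := by
      apply Filter.EventuallyEq.fderiv_eq
      filter_upwards [isOpen_ball.mem_nhds hzx] with w hw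
      exact hse w (ball_subset_ball (min_le_right _ _) hw)
    rw [this]
    exact hz (hsub hzx)

/-- a Moll map is differentiable a.e. -/
theorem MollAt.ae_differentiable [μ.IsAddHaarMeasure] {h : E → E} {x : E} (hx : MollAt μ h x) :
    ∃ r > 0, ∀ᵐ y ∂μ, y ∈ ball x r → DifferentiableAt ℝ h y := by
  obtain ⟨r, hr, K, hKc, hK, hdet, ⟨L, hL⟩, hae⟩ := hx
  refine ⟨r, hr, ?_⟩
  filter_upwards [hL.ae_differentiableWithinAt_of_mem (μ := μ)] with y hy hyx
  exact (hy hyx).differentiableAt (isOpen_ball.mem_nhds hyx)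

omit [BorelSpace E] in
/-- `C¹` points with positive determinant -/
theorem mollAt_of_contDiffAt {h : E → E} {x : E} (hx : ContDiffAt ℝ 1 h x)
    (hdet : 0 < (fderiv ℝ h x).det) : MollAt μ h x := by
  have : ProperSpace (E →L[ℝ] E) := FiniteDimensional.proper_real _
  obtain ⟨L, s, hs, hLs⟩ := hx.exists_lipschitzOnWith
  have hU : IsOpen {B : E →L[ℝ] E | 0 < B.det} :=
    isOpen_lt continuous_const ContinuousLinearMap.continuous_det
  obtain ⟨d, hd, hdU⟩ := Metric.isOpen_iff.1 hU _ (show fderiv ℝ h x ∈ {B : E →L[ℝ] E | 0 < B.det}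
    from hdet)
  have hcont : ContinuousAt (fderiv ℝ h) x := hx.continuousAt_fderiv (by simp)
  have h1 : ∀ᶠ y in 𝓝 x, fderiv ℝ h y ∈ ball (fderiv ℝ h x) (d / 2) :=
    hcont (ball_mem_nhds _ (half_pos hd))
  obtain ⟨r, hr, hball⟩ := Metric.eventually_nhds_iff_ball.1 (h1.and hs)
  refine ⟨r, hr, closedBall (fderiv ℝ h x) (d / 2), convex_closedBall _ _,
    isCompact_closedBall _ _, fun A hA => hdU (closedBall_subset_ball (half_lt_self hd) hA),
    ⟨L, hLs.mono fun y hy => (hball y hy).2⟩, Eventually.of_forall fun y hy =>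
    ball_subset_closedBall (hball y hy).1⟩

end cls

end Crest.Agent.R096.Mo_119
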