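import Crest.Agent.R096.Msh2_810

-- ▼ part R096/Msh3_810
section

/-!
# The Whitney mesh: local finiteness, top cells, size functions
-/

set_option autoImplicit false
open MeasureTheory Set
open scoped ENNReal

namespace Crest.Agent.R096.Msh_810

variable {n : ℕ}

lemma Idx.finite_bounded (k0 m : ℕ) :
    {σ : Idx n | σ.k ≤ k0 ∧ ∀ i, |σ.z i| ≤ (m : ℤ)}.Finite := by
  let f : Idx n → ℕ × (Fin n → ℤ) × Finset (Fin n) := fun σ => (σ.k, σ.z, σ.J)
  have hf : Function.Injective f := by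
    intro σ τ h
    simp only [f, Prod.mk.injEq] at h
    exact Idx.ext h.1 h.2.1 h.2.2
  have hS : ((Set.Iic k0) ×ˢ ((Set.Icc (fun _ => -(m : ℤ)) (fun _ => (m : ℤ)) :
      Set (Fin n → ℤ)) ×ˢ (Set.univ : Set (Finset (Fin n))))).Finite :=
    (Set.finite_Iic k0).prod ((Set.finite_Icc _ _).prod Set.finite_univ)
  refine (hS.preimage hf.injOn).subset ?_
  rintro σ ⟨h1, h2⟩
  simp only [f, mem_preimage, mem_prod, mem_Iic, mem_Icc, mem_univ, and_true]
  refine ⟨h1, fun i => ?_, fun i => ?_⟩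
  · exact (abs_le.1 (h2 i)).1
  · exact (abs_le.1 (h2 i)).2

/-- finitely many dyadic cells of bounded scale meet a bounded set. -/
lemma finite_meet (a x : Fin n → ℝ) (r : ℝ) (k0 : ℕ) :
    {σ : Idx n | σ.k ≤ k0 ∧ (Dc a σ ∩ Metric.ball x r).Nonempty}.Finite := by
  obtain ⟨m, hm⟩ := exists_nat_ge ((2 : ℝ) ^ k0 * (dist x a + r) + 1)
  refine (Idx.finite_bounded k0 m).subset ?_
  rintro σ ⟨h1, y, hy, hy'⟩
  refine ⟨h1, fun i => ?_⟩
  have hr : dist y x < r := hy'
  have h2 : |y i - a i| ≤ dist x a + r := by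
    calc |y i - a i| = dist (y i) (a i) := (Real.dist_eq _ _).symm
      _ ≤ dist y a := dist_le_pi_dist y a i
      _ ≤ dist y x + dist x a := dist_triangle _ _ _
      _ ≤ dist x a + r := by linarith
  have h3 : |ps a σ.k y i| ≤ 2 ^ k0 * (dist x a + r) := by
    unfold ps
    rw [abs_mul, abs_of_pos (by positivity : (0 : ℝ) < 2 ^ σ.k)]
    have h4 : (2 : ℝ) ^ σ.k ≤ 2 ^ k0 := pow_le_pow_right₀ one_le_two h1
    exact mul_le_mul h4 h2 (abs_nonneg _) (by positivity)
  have h5 : |(σ.z i : ℝ) - ps a σ.k y i| ≤ 1 := by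
    by_cases hi : i ∈ σ.J
    · obtain ⟨u, v⟩ := (hy i).1 hi
      rw [abs_le]
      constructor <;> linarith
    · rw [(hy i).2 hi, sub_self, abs_zero]
      exact zero_le_one
  have h6 : |(σ.z i : ℝ)| ≤ m := by
    have : |(σ.z i : ℝ)| ≤ |(σ.z i : ℝ) - ps a σ.k y i| + |ps a σ.k y i| := by
      have := abs_add_le ((σ.z i : ℝ) - ps a σ.k y i) (ps a σ.k y i)
      rwa [sub_add_cancel] at this
    linarith
  exact_mod_cast h6

variable {D : Dat n}

lemma Cel.k_lt_of {σ : Cel D} {y : Fin n → ℝ} (hy : y ∈ σ.c) {c : ℝ} (hc : 0 < c)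
    (hcy : c ≤ D.ρ y) {k0 : ℕ} (hk : (2 * D.C + 2) / c ≤ 2 ^ k0) : σ.1.k < k0 := by
  have h1 := (σ.size hy).2
  by_contra h
  push Not at h
  have h2 : (2 : ℝ) ^ k0 ≤ 2 ^ σ.1.k := pow_le_pow_right₀ one_le_two h
  rw [div_le_iff₀ hc] at hk
  have h3 : (2 : ℝ) ^ k0 * c ≤ 2 ^ σ.1.k * D.ρ y :=
    mul_le_mul h2 hcy hc.le (by positivity)
  linarith

/-- (M4) the mesh is locally finite in `Om`. -/
theorem Cel.locallyFinite (x : Fin n → ℝ) (hx : x ∈ D.Om) :
    ∃ r > 0, {σ : Cel D | (σ.c ∩ Metric.ball x r).Nonempty}.Finite := by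
  have hx0 : 0 < D.ρ x := hx
  refine ⟨D.ρ x / 2, by positivity, ?_⟩
  obtain ⟨k0, hk0⟩ := pow_unbounded_of_one_lt ((2 * D.C + 2) / (D.ρ x / 2))
    (one_lt_two : (1 : ℝ) < 2)
  have hfin := finite_meet D.a x (D.ρ x / 2) k0
  refine ((hfin.preimage (f := Subtype.val) Subtype.val_injective.injOn)).subset ?_
  rintro σ ⟨y, hy, hy'⟩
  refine ⟨(Cel.k_lt_of hy (c := D.ρ x / 2) (by positivity) ?_ hk0.le).le, y, hy, hy'⟩
  have h1 := D.lip x y
  have h2 : dist x y < D.ρ x / 2 := by rw [dist_comm]; exact hy'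
  linarith

/-- only finitely many cells meet a compact subset of `Om`. -/
theorem Cel.finite_of_compact {S : Set (Fin n → ℝ)} (hS : IsCompact S) (hSO : S ⊆ D.Om) :
    {σ : Cel D | (σ.c ∩ S).Nonempty}.Finite := by
  choose! r hr hfin using fun x (hx : x ∈ D.Om) => Cel.locallyFinite (D := D) x hx
  obtain ⟨t, ht, hcov⟩ := hS.elim_nhds_subcover (fun x => Metric.ball x (r x))
    (fun x hx => Metric.ball_mem_nhds x (hr x (hSO hx)))
  refine (t.finite_toSet.biUnion (t := fun x => {σ : Cel D | (σ.c ∩ Metric.ball x (r x)).Nonempty})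
    fun x hx => hfin x (hSO (ht x hx))).subset ?_
  rintro σ ⟨y, hy, hyS⟩
  obtain ⟨x, hx, hy'⟩ := mem_iUnion₂.1 (hcov hyS)
  exact mem_iUnion₂.2 ⟨x, hx, y, hy, hy'⟩

lemma isClosed_Dc (a : Fin n → ℝ) (σ : Idx n) : IsClosed (Dc a σ) := by
  have hc : ∀ i, Continuous fun x => ps a σ.k x i := fun i => by unfold ps; fun_prop
  have : Dc a σ = ⋂ i, {x | (i ∈ σ.J → (σ.z i : ℝ) ≤ ps a σ.k x i ∧ ps a σ.k x i ≤ σ.z i + 1) ∧
      (i ∉ σ.J → ps a σ.k x i = σ.z i)} := by
    ext x; simp [Dc]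
  rw [this]
  refine isClosed_iInter fun i => ?_
  by_cases hi : i ∈ σ.J
  · simp only [hi, forall_true_left, not_true_eq_false, IsEmpty.forall_iff, and_true]
    exact (isClosed_le continuous_const (hc i)).inter (isClosed_le (hc i) continuous_const)
  · simp only [hi, IsEmpty.forall_iff, not_false_eq_true, forall_true_left, true_and]
    exact isClosed_eq (hc i) continuous_const

lemma isCompact_Dc (a : Fin n → ℝ) (σ : Idx n) : IsCompact (Dc a σ) := by
  refine Metric.isCompact_of_isClosed_isBounded (isClosed_Dc a σ) ?_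
  obtain ⟨x0, hx0⟩ := Dc_nonempty a σ
  rw [Metric.isBounded_iff]
  refine ⟨1, fun x hx y hy => ?_⟩
  have hsub : Dc a σ ⊆ Cu a σ.k σ.z := by
    intro x hx
    rw [mem_Cu]
    intro i
    by_cases hi : i ∈ σ.J
    · exact (hx i).1 hi
    · rw [(hx i).2 hi]; constructor <;> linarith
  have h1 := dist_le_of_mem_Cu (hsub hx) (hsub hy)
  have h2 : (1 : ℝ) ≤ 2 ^ σ.k := one_le_pow₀ one_le_two
  nlinarith [dist_nonneg (x := x) (y := y)]


lemma Cel.isCompact_c (σ : Cel D) : IsCompact σ.c := isCompact_Dc _ _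

theorem Cel.finite_below (τ : Cel D) : {σ : Cel D | σ ≤ τ}.Finite := by
  refine (Cel.finite_of_compact (D := D) τ.isCompact_c τ.c_subset_Om).subset ?_
  intro σ (h : σ ≤ τ)
  obtain ⟨x, hx⟩ := σ.o_nonempty
  exact ⟨x, σ.o_subset_c hx, h (σ.o_subset_c hx)⟩

/-- the closed cells that touch a given closed cell. -/
theorem Cel.finite_touch (τ : Cel D) : {σ : Cel D | (σ.c ∩ τ.c).Nonempty}.Finite :=
  Cel.finite_of_compact (D := D) τ.isCompact_c τ.c_subset_Om

lemma Dc_subset_Cu (a : Fin n → ℝ) (σ : Idx n) : Dc a σ ⊆ Cu a σ.k σ.z := by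
  intro x hx
  rw [mem_Cu]
  intro i
  by_cases hi : i ∈ σ.J
  · exact (hx i).1 hi
  · rw [(hx i).2 hi]; constructor <;> linarith

/-- the diameter of a cell is at most `2^-k ≤ ρ / C`. -/
lemma Cel.dist_le (σ : Cel D) {x y : Fin n → ℝ} (hx : x ∈ σ.c) (hy : y ∈ σ.c) :
    2 ^ σ.1.k * dist x y ≤ 1 :=
  dist_le_of_mem_Cu (Dc_subset_Cu _ _ hx) (Dc_subset_Cu _ _ hy)

lemma Cel.dist_le' (σ : Cel D) {x y : Fin n → ℝ} (hx : x ∈ σ.c) (hy : y ∈ σ.c) :
    D.C * dist x y ≤ D.ρ x := by
  have h1 := σ.dist_le hx hy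
  have h2 := (σ.size hx).1
  have h3 : (0 : ℝ) < 2 ^ σ.1.k := by positivity
  have h4 : D.C * dist x y ≤ (2 ^ σ.1.k * D.ρ x) * dist x y :=
    mul_le_mul_of_nonneg_right h2 dist_nonneg
  have h5 : (2 ^ σ.1.k * D.ρ x) * dist x y = D.ρ x * (2 ^ σ.1.k * dist x y) := by ring
  rw [h5] at h4
  exact h4.trans (mul_le_of_le_one_right (D.nonneg x) h1)

/-- every mesh cell is a face of a mesh cube (dimension `n`) of the same scale. -/
theorem Cel.exists_top (σ : Cel D) :
    ∃ τ : Cel D, τ.1.J = Finset.univ ∧ τ.1.k = σ.1.k ∧ σ ≤ τ := by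
  obtain ⟨x, hx⟩ := σ.o_nonempty
  have hx0 : 0 < D.ρ x := σ.c_subset_Om (σ.o_subset_c hx)
  have hK : K D x = σ.1.k := σ.2.K_eq hx
  obtain ⟨m, hm⟩ : ∃ m, K D x = m + 1 := ⟨K D x - 1, by have := K_pos hx0; omega⟩
  have h1 : m ∉ gd D x := pred_notMem hx0 (by omega)
  have h2 : ∃ z, x ∈ Cu D.a m z ∧ ¬ Adm D m z := by
    by_contra hcon
    push Not at hcon
    exact h1 hcon
  obtain ⟨z, hz, hAdm⟩ := h2
  obtain ⟨z', hz', hzz⟩ := exists_child hz
  obtain ⟨y, hy⟩ := Dc_nonempty D.a ⟨m + 1, z', Finset.univ⟩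
  have hAdm' : Adm D (m + 1) z' := by
    have := K_mem hx0
    rw [hm] at this
    exact this z' hz'
  have hy' : y ∈ Cu D.a (m + 1) z' := Do_subset_Dc _ _ hy
  have hy0 : 0 < D.ρ y := by
    have h3 := hAdm' y hy'
    have h4 := D.C_pos
    by_contra h5
    rw [le_antisymm (not_lt.1 h5) (D.nonneg y), mul_zero] at h3
    linarith
  have hKy : K D y = m + 1 := by
    refine le_antisymm ?_ ?_
    · rw [K_le_iff hy0]
      intro w hw
      have hyo := mem_Do_iff.1 hy
      have : w = z' := by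
        funext i
        have e1 := (mem_Cu.1 hw) i
        have e2 := (hy i).1 (Finset.mem_univ i)
        simp only at e2
        have e3 : (w i : ℝ) < z' i + 1 := lt_of_le_of_lt e1.1 e2.2
        have e4 : (z' i : ℝ) < w i + 1 := lt_of_lt_of_le e2.1 e1.2
        have e5 : w i < z' i + 1 := by exact_mod_cast e3
        have e6 : z' i < w i + 1 := by exact_mod_cast e4
        omega
      rw [this]
      exact hAdm'
    · by_contra hlt
      have h3 : m ∈ gd D y := gd_mono (K_mem hy0) (by omega)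
      apply hAdm
      apply h3
      have := Cu_parent D.a m z' hy'
      rwa [hzz] at this
  refine ⟨⟨⟨m + 1, z', Finset.univ⟩, y, hy, hy0, hKy⟩, rfl, ?_, ?_⟩
  · change m + 1 = σ.1.k
    omega
  · exact Cel.le_of_mem hx hz'

/-- **size functions**: below every positive continuous function there is a 1-Lipschitz one
with positivity set exactly `Ω`. -/
theorem exists_size {Ω : Set (Fin n → ℝ)} (hΩ : IsOpen Ω) (δ : (Fin n → ℝ) → ℝ)
    (hδ : ∀ x ∈ Ω, 0 < δ x) (hc : ContinuousOn δ Ω) :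
    ∃ ρ : (Fin n → ℝ) → ℝ, (∀ x y, ρ x ≤ ρ y + dist x y) ∧ (∀ x, 0 ≤ ρ x) ∧ (∀ x, ρ x ≤ 1) ∧
      (∀ x, 0 < ρ x ↔ x ∈ Ω) ∧ (∀ x ∈ Ω, ρ x ≤ δ x) ∧ (∀ x, ∀ y ∉ Ω, ρ x ≤ dist x y) := by
  classical
  set m : (Fin n → ℝ) → ℝ := fun y => if y ∈ Ω then min 1 (δ y) else 0 with hm
  have hm0 : ∀ y, 0 ≤ m y := by
    intro y
    by_cases hy : y ∈ Ω
    · simp only [hm, hy, if_true]
      exact le_min zero_le_one (hδ y hy).le
    · simp [hm, hy]
  have hm1 : ∀ y, m y ≤ 1 := by
    intro y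
    by_cases hy : y ∈ Ω
    · simp only [hm, hy, if_true]
      exact min_le_left _ _
    · simp [hm, hy]
  set ρ : (Fin n → ℝ) → ℝ := fun x => ⨅ y, (m y + dist x y) with hρ
  have hbdd : ∀ x, BddBelow (Set.range fun y => m y + dist x y) := by
    intro x
    refine ⟨0, ?_⟩
    rintro _ ⟨y, rfl⟩
    exact add_nonneg (hm0 y) dist_nonneg
  have hle : ∀ x y, ρ x ≤ m y + dist x y := fun x y => ciInf_le (hbdd x) y
  have hlem : ∀ x, ρ x ≤ m x := fun x => by simpa using hle x x
  have hpos : ∀ x ∈ Ω, 0 < ρ x := by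
    intro x hx
    have hcx : ContinuousAt δ x := (hc x hx).continuousAt (hΩ.mem_nhds hx)
    have h1 : ∀ᶠ y in nhds x, δ x / 2 < δ y :=
      hcx.eventually (lt_mem_nhds (by linarith [hδ x hx]))
    have h2 := h1.and (hΩ.mem_nhds hx)
    obtain ⟨r, hr, hball⟩ := Metric.eventually_nhds_iff.1 h2
    have hmin : 0 < min (min 1 (δ x / 2)) r := by
      have := hδ x hx
      positivity
    refine lt_of_lt_of_le hmin (le_ciInf fun y => ?_)
    by_cases hy : dist y x < r
    · obtain ⟨h3, h4⟩ := hball hy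
      have h4' : y ∈ Ω := h4
      have : m y = min 1 (δ y) := by simp [hm, h4']
      rw [this]
      have h5 : min 1 (δ x / 2) ≤ min 1 (δ y) := min_le_min le_rfl h3.le
      have := dist_nonneg (x := x) (y := y)
      have h6 : min (min 1 (δ x / 2)) r ≤ min 1 (δ x / 2) := min_le_left _ _
      linarith
    · push Not at hy
      have h6 : min (min 1 (δ x / 2)) r ≤ r := min_le_right _ _
      have := hm0 y
      rw [dist_comm] at hy
      linarith
  refine ⟨ρ, ?_, ?_, ?_, ?_, ?_, ?_⟩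
  · intro x y
    have : ∀ w, ρ x - dist x y ≤ m w + dist y w := by
      intro w
      have h1 := hle x w
      have h2 := dist_triangle x y w
      linarith
    have := le_ciInf this
    have h3 : ρ y = ⨅ w, (m w + dist y w) := rfl
    linarith
  · exact fun x => le_ciInf fun y => add_nonneg (hm0 y) dist_nonneg
  · exact fun x => (hlem x).trans (hm1 x)
  · intro x
    refine ⟨fun h => ?_, hpos x⟩
    by_contra hx
    have : m x = 0 := by simp [hm, hx]
    have := hlem x
    linarith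
  · intro x hx
    refine (hlem x).trans ?_
    simp only [hm, hx, if_true]
    exact min_le_right _ _
  · intro x y hy
    have h1 := hle x y
    have : m y = 0 := by simp [hm, hy]
    linarith

end Crest.Agent.R096.Msh_810
end

-- ▼ part R096/Msh4_810

/-!
# The Whitney mesh with a random shift: skeleton energies of every dimension
-/

set_option autoImplicit false
open MeasureTheory Set
open scoped ENNReal

namespace Crest.Agent.R096.Msh_810

variable {n : ℕ}

/-- the vertex `a + 2^-k z`. -/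
noncomputable def vx (a : Fin n → ℝ) (k : ℕ) (z : Fin n → ℤ) : Fin n → ℝ :=
  fun i => a i + z i / 2 ^ k

lemma vx_eq (a : Fin n → ℝ) (k : ℕ) (z : Fin n → ℤ) : vx a k z = a + vx 0 k z := by
  funext i; simp [vx]

lemma ps_vx (a : Fin n → ℝ) (k : ℕ) (z : Fin n → ℤ) (t : Fin n → ℝ) (i : Fin n) :
    ps a k (vx a k z + t) i = z i + 2 ^ k * t i := by
  have h2 : (2 : ℝ) ^ k ≠ 0 := by positivity
  unfold ps vx
  simp only [Pi.add_apply]
  field_simp
  ring

/-- one-dimensional factors of the cell measure. -/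
noncomputable def sm1 (k : ℕ) (J : Finset (Fin n)) (i : Fin n) : Measure ℝ :=
  if i ∈ J then volume.restrict (Icc (0 : ℝ) (1 / 2 ^ k)) else Measure.dirac 0

instance (k : ℕ) (J : Finset (Fin n)) (i : Fin n) : IsFiniteMeasure (sm1 k J i) := by
  unfold sm1
  split_ifs
  · infer_instance
  · infer_instance

/-- `|J|`-dimensional Lebesgue measure on the cell `[0,2^-k]^J × {0}`. -/
noncomputable def sm (k : ℕ) (J : Finset (Fin n)) : Measure (Fin n → ℝ) :=
  Measure.pi (sm1 k J)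

instance (k : ℕ) (J : Finset (Fin n)) : IsFiniteMeasure (sm k J) := by
  unfold sm; infer_instance

lemma sm1_univ (k : ℕ) (J : Finset (Fin n)) (i : Fin n) :
    sm1 k J i univ = if i ∈ J then ((2 : ℝ≥0∞) ^ k)⁻¹ else 1 := by
  unfold sm1
  split_ifs
  · have h2 : (0 : ℝ) < 2 ^ k := by positivity
    rw [Measure.restrict_apply_univ, Real.volume_Icc, sub_zero, one_div,
      ENNReal.ofReal_inv_of_pos h2, ENNReal.ofReal_pow (by norm_num)]
    norm_num
  · simp

lemma sm_univ (k : ℕ) (J : Finset (Fin n)) :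
    sm k J univ = (((2 : ℝ≥0∞) ^ k)⁻¹) ^ J.card := by
  unfold sm
  rw [Measure.pi_univ]
  simp only [sm1_univ]
  rw [Finset.prod_ite]
  simp

lemma ae_sm (k : ℕ) (J : Finset (Fin n)) :
    ∀ᵐ t ∂sm k J, ∀ i, (i ∈ J → 0 ≤ t i ∧ t i ≤ 1 / 2 ^ k) ∧ (i ∉ J → t i = 0) := by
  rw [ae_all_iff]
  intro i
  have h : ∀ᵐ s ∂sm1 k J i, (i ∈ J → 0 ≤ s ∧ s ≤ 1 / 2 ^ k) ∧ (i ∉ J → s = 0) := by
    unfold sm1
    split_ifs with hi
    · filter_upwards [ae_restrict_mem measurableSet_Icc] with s hs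
      exact ⟨fun _ => hs, fun h => absurd hi h⟩
    · rw [ae_dirac_eq]
      simp [hi]
  exact (Measure.tendsto_eval_ae_ae (μ := sm1 k J) (i := i)).eventually h

lemma ae_mem_Dc (a : Fin n → ℝ) (σ : Idx n) : ∀ᵐ t ∂sm σ.k σ.J, vx a σ.k σ.z + t ∈ Dc a σ := by
  filter_upwards [ae_sm σ.k σ.J] with t ht i
  rw [ps_vx]
  obtain ⟨h1, h2⟩ := ht i
  have hp : (0 : ℝ) < 2 ^ σ.k := by positivity
  refine ⟨fun hi => ?_, fun hi => ?_⟩
  · obtain ⟨h3, h4⟩ := h1 hi
    have h5 : (2 : ℝ) ^ σ.k * t i ≤ 1 := by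
      rw [le_div_iff₀' hp] at h4; exact h4
    have h6 : 0 ≤ (2 : ℝ) ^ σ.k * t i := mul_nonneg hp.le h3
    constructor <;> linarith
  · rw [h2 hi]; simp

/-- integral of `F` over the cell with index `σ` and shift `a`. -/
noncomputable def ic (F : (Fin n → ℝ) → ℝ≥0∞) (a : Fin n → ℝ) (σ : Idx n) : ℝ≥0∞ :=
  ∫⁻ t, F (vx a σ.k σ.z + t) ∂sm σ.k σ.J

/-- the box of shifts. -/
def box (n : ℕ) : Set (Fin n → ℝ) := Set.pi univ fun _ => Ico (0 : ℝ) 1

lemma measurableSet_box : MeasurableSet (box n) := MeasurableSet.univ_pi fun _ => measurableSet_Ico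

lemma volume_box : volume (box n) = 1 := by
  unfold box
  rw [volume_pi_pi]
  simp

/-- the number of translates of the box by `2^-k ℤ^n` that contain a point. -/
lemma count (k : ℕ) (x : Fin n → ℝ) :
    ∑' z : Fin n → ℤ, (box n).indicator (fun _ => (1 : ℝ≥0∞)) (x - vx 0 k z) =
      ((2 : ℝ≥0∞) ^ k) ^ n := by
  classical
  set S : Finset (Fin n → ℤ) :=
    Fintype.piFinset fun i => Finset.Ioc (⌊2 ^ k * x i⌋ - 2 ^ k) ⌊2 ^ k * x i⌋ with hS
  have hp : (0 : ℝ) < 2 ^ k := by positivity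
  have hmem : ∀ z : Fin n → ℤ, x - vx 0 k z ∈ box n ↔ z ∈ S := by
    intro z
    simp only [box, mem_univ_pi, hS, Fintype.mem_piFinset, Finset.mem_Ioc, mem_Ico, Pi.sub_apply,
      vx, Pi.zero_apply, zero_add]
    refine forall_congr' fun i => ?_
    have e1 : (0 ≤ x i - z i / 2 ^ k) ↔ (z i ≤ ⌊2 ^ k * x i⌋) := by
      rw [Int.le_floor, sub_nonneg, div_le_iff₀' hp]
    have e2 : (x i - z i / 2 ^ k < 1) ↔ (⌊2 ^ k * x i⌋ - 2 ^ k < z i) := by
      rw [sub_lt_iff_lt_add, sub_lt_iff_lt_add, Int.floor_lt]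
      push_cast
      rw [← sub_lt_iff_lt_add', lt_div_iff₀ hp, sub_mul]
      constructor <;> intro h <;> linarith
    rw [e1, e2, and_comm]
  have h1 : ∀ z : Fin n → ℤ, (box n).indicator (fun _ => (1 : ℝ≥0∞)) (x - vx 0 k z) =
      if z ∈ S then 1 else 0 := by
    intro z
    rw [indicator_apply]
    simp only [hmem z]
  simp only [h1]
  rw [tsum_eq_sum (s := S)]
  · rw [Finset.sum_ite_mem, Finset.inter_self, Finset.sum_const, nsmul_eq_mul, mul_one, hS,
      Fintype.card_piFinset]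
    simp only [Int.card_Ioc, sub_sub_cancel]
    have e3 : ((2 : ℤ) ^ k).toNat = 2 ^ k := by
      have : ((2 : ℤ) ^ k) = ((2 ^ k : ℕ) : ℤ) := by push_cast; rfl
      rw [this, Int.toNat_natCast]
    rw [e3]
    simp
  · intro z hz
    simp [hz]

/-- **shift formula**. -/
theorem shift_formula {f : (Fin n → ℝ) → ℝ≥0∞} (hf : Measurable f) (k : ℕ) :
    ∫⁻ a in box n, ∑' z : Fin n → ℤ, f (vx a k z) = ((2 : ℝ≥0∞) ^ k) ^ n * ∫⁻ x, f x := by
  have hm : ∀ z : Fin n → ℤ, Measurable fun a : Fin n → ℝ => f (vx a k z) := by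
    intro z
    have : (fun a : Fin n → ℝ => f (vx a k z)) = fun a => f (a + vx 0 k z) := by
      funext a; rw [← vx_eq]
    rw [this]
    exact hf.comp (measurable_id.add_const _)
  rw [lintegral_tsum fun z => (hm z).aemeasurable]
  have h1 : ∀ z : Fin n → ℤ, ∫⁻ a in box n, f (vx a k z) =
      ∫⁻ x, (box n).indicator (fun _ => (1 : ℝ≥0∞)) (x - vx 0 k z) * f x := by
    intro z
    rw [← lintegral_indicator measurableSet_box]
    have h2 := lintegral_add_right_eq_self (μ := (volume : Measure (Fin n → ℝ)))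
      (fun x => (box n).indicator (fun _ => (1 : ℝ≥0∞)) (x - vx 0 k z) * f x) (vx 0 k z)
    rw [← h2]
    refine lintegral_congr fun a => ?_
    rw [add_sub_cancel_right, ← vx_eq]
    by_cases ha : a ∈ box n
    · rw [indicator_of_mem ha, indicator_of_mem ha, one_mul]
    · rw [indicator_of_notMem ha, indicator_of_notMem ha, zero_mul]
  simp only [h1]
  rw [← lintegral_tsum]
  · simp only [ENNReal.tsum_mul_right, count]
    rw [lintegral_const_mul _ hf]
  · intro z
    refine Measurable.aemeasurable (Measurable.mul ?_ hf)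
    exact (measurable_const.indicator measurableSet_box).comp (measurable_id.sub_const _)

/-- a.e. conditions hold at all vertices of all dyadic grids for a.e. shift. -/
theorem ae_vertices {P : (Fin n → ℝ) → Prop} (hP : ∀ᵐ x, P x) :
    ∀ᵐ a : Fin n → ℝ, ∀ (k : ℕ) (z : Fin n → ℤ), P (vx a k z) := by
  rw [ae_all_iff]
  intro k
  rw [ae_all_iff]
  intro z
  have h : (fun a : Fin n → ℝ => vx a k z) = fun a => a + vx 0 k z := by
    funext a; exact vx_eq a k z
  have hq : Measure.QuasiMeasurePreserving (fun a : Fin n → ℝ => a + vx 0 k z) volume volume :=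
    (measurePreserving_add_right volume (vx 0 k z)).quasiMeasurePreserving
  have := hq.ae hP
  filter_upwards [this] with a ha
  rw [vx_eq]
  exact ha

/-- the data with another shift. -/
def Dat.sh (D : Dat n) (a : Fin n → ℝ) : Dat n := { D with a := a }

@[simp] lemma Dat.sh_ρ (D : Dat n) (a : Fin n → ℝ) : (D.sh a).ρ = D.ρ := rfl
@[simp] lemma Dat.sh_C (D : Dat n) (a : Fin n → ℝ) : (D.sh a).C = D.C := rfl
@[simp] lemma Dat.sh_a (D : Dat n) (a : Fin n → ℝ) : (D.sh a).a = a := rfl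
@[simp] lemma Dat.sh_Om (D : Dat n) (a : Fin n → ℝ) : (D.sh a).Om = D.Om := rfl

variable (D : Dat n)

lemma Dat.continuous_ρ : Continuous D.ρ := by
  have : LipschitzWith 1 D.ρ := by
    refine LipschitzWith.of_dist_le_mul fun x y => ?_
    rw [NNReal.coe_one, one_mul, Real.dist_eq, abs_le]
    have h1 := D.lip x y
    have h2 := D.lip y x
    rw [dist_comm y x] at h2
    constructor <;> linarith
  exact this.continuous

/-- the region of scale `k`. -/
def Dat.reg (k : ℕ) : Set (Fin n → ℝ) :=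
  {x | D.C ≤ 2 ^ k * D.ρ x ∧ 2 ^ k * D.ρ x < 2 * D.C + 2}

lemma Dat.measurableSet_reg (k : ℕ) : MeasurableSet (D.reg k) := by
  have hc : Measurable fun x => (2 : ℝ) ^ k * D.ρ x := D.continuous_ρ.measurable.const_mul _
  exact (measurableSet_le measurable_const hc).inter (measurableSet_lt hc measurable_const)

/-- energy functional of a shift (an upper bound for the energy of the mesh cells of
direction `J`). -/
noncomputable def En (F : (Fin n → ℝ) → ℝ≥0∞) (J : Finset (Fin n)) (w : ℕ → ℝ≥0∞)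
    (a : Fin n → ℝ) : ℝ≥0∞ :=
  ∑' k, w k * ∑' z : Fin n → ℤ, ∫⁻ t, (D.reg k).indicator F (vx a k z + t) ∂sm k J

/-- the average energy. -/
noncomputable def Av (F : (Fin n → ℝ) → ℝ≥0∞) (J : Finset (Fin n)) (w : ℕ → ℝ≥0∞) : ℝ≥0∞ :=
  ∑' k, w k * (((2 : ℝ≥0∞) ^ k) ^ n * (((2 : ℝ≥0∞) ^ k)⁻¹) ^ J.card) * ∫⁻ x in D.reg k, F x

variable {D}

lemma measurable_inner {f : (Fin n → ℝ) → ℝ≥0∞} (hf : Measurable f) (k : ℕ)
    (J : Finset (Fin n)) : Measurable fun x : Fin n → ℝ => ∫⁻ t, f (x + t) ∂sm k J := by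
  refine Measurable.lintegral_prod_right' (ν := sm k J)
    (f := fun p : (Fin n → ℝ) × (Fin n → ℝ) => f (p.1 + p.2)) ?_
  exact hf.comp (measurable_fst.add measurable_snd)

lemma measurable_vx (k : ℕ) (z : Fin n → ℤ) : Measurable fun a : Fin n → ℝ => vx a k z := by
  have h : (fun a : Fin n → ℝ => vx a k z) = fun a => a + vx 0 k z := by
    funext a; exact vx_eq a k z
  rw [h]
  exact measurable_id.add_const _

lemma measurable_En {F : (Fin n → ℝ) → ℝ≥0∞} (hF : Measurable F) (J : Finset (Fin n))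
    (w : ℕ → ℝ≥0∞) : Measurable (En D F J w) := by
  unfold En
  refine Measurable.tsum fun k => Measurable.const_mul (Measurable.tsum fun z => ?_) _
  exact (measurable_inner (hF.indicator (D.measurableSet_reg k)) k J).comp (measurable_vx k z)

/-- **(M7)** the average over the shifts. -/
theorem lintegral_En {F : (Fin n → ℝ) → ℝ≥0∞} (hF : Measurable F) (J : Finset (Fin n))
    (w : ℕ → ℝ≥0∞) : ∫⁻ a in box n, En D F J w a = Av D F J w := by
  have hm : ∀ k, Measurable ((D.reg k).indicator F) := fun k =>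
    hF.indicator (D.measurableSet_reg k)
  unfold En Av
  rw [lintegral_tsum fun k => ?_]
  · refine tsum_congr fun k => ?_
    rw [lintegral_const_mul, shift_formula (f := fun x => ∫⁻ t, (D.reg k).indicator F (x + t) ∂sm k J)
      (measurable_inner (hm k) k J) k]
    · rw [lintegral_lintegral_swap]
      · have h1 : ∀ t : Fin n → ℝ, ∫⁻ x, (D.reg k).indicator F (x + t) =
            ∫⁻ x in D.reg k, F x := by
          intro t
          rw [lintegral_add_right_eq_self (μ := (volume : Measure (Fin n → ℝ)))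
            (fun x => (D.reg k).indicator F x) t, lintegral_indicator (D.measurableSet_reg k)]
        simp only [h1]
        rw [lintegral_const, sm_univ]
        ring
      · exact ((hm k).comp (measurable_fst.add measurable_snd)).aemeasurable
    · exact Measurable.tsum fun z => (measurable_inner (hm k) k J).comp (measurable_vx k z)
  · exact (Measurable.const_mul (Measurable.tsum fun z =>
      (measurable_inner (hm k) k J).comp (measurable_vx k z)) _).aemeasurable

/-- the energy of the mesh cells of direction `J` is bounded by `En`. -/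
theorem tsum_cells_le (F : (Fin n → ℝ) → ℝ≥0∞) (J : Finset (Fin n)) (w : ℕ → ℝ≥0∞)
    (a : Fin n → ℝ) :
    ∑' σ : {σ : Cel (D.sh a) // σ.1.J = J}, w σ.1.1.k * ic F a σ.1.1 ≤ En D F J w a := by
  have hinj : Function.Injective
      (fun σ : {σ : Cel (D.sh a) // σ.1.J = J} => ((σ.1.1.k, σ.1.1.z) : ℕ × (Fin n → ℤ))) := by
    intro σ τ h
    simp only [Prod.mk.injEq] at h
    exact Subtype.ext (Subtype.ext (Idx.ext h.1 h.2 (σ.2.trans τ.2.symm)))
  have h1 : En D F J w a = ∑' p : ℕ × (Fin n → ℤ),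
      w p.1 * ∫⁻ t, (D.reg p.1).indicator F (vx a p.1 p.2 + t) ∂sm p.1 J := by
    unfold En
    rw [ENNReal.tsum_prod']
    refine tsum_congr fun k => ?_
    exact ENNReal.tsum_mul_left.symm
  rw [h1]
  refine le_trans ?_ (ENNReal.tsum_comp_le_tsum_of_injective hinj _)
  refine ENNReal.tsum_le_tsum fun σ => ?_
  obtain ⟨σ, hσ⟩ := σ
  refine mul_le_mul_right ?_ _
  unfold ic
  change ∫⁻ t, F (vx a σ.1.k σ.1.z + t) ∂sm σ.1.k σ.1.J ≤
    ∫⁻ t, (D.reg σ.1.k).indicator F (vx a σ.1.k σ.1.z + t) ∂sm σ.1.k J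
  rw [hσ]
  refine lintegral_mono_ae ?_
  have h2 := ae_mem_Dc a σ.1
  rw [hσ] at h2
  filter_upwards [h2] with t ht
  have h3 : vx a σ.1.k σ.1.z + t ∈ D.reg σ.1.k := σ.size (y := vx a σ.1.k σ.1.z + t) ht
  rw [indicator_of_mem h3]

/-- **Chebyshev** for countably many energies. -/
theorem volume_bad_le {ι : Type*} [Countable ι] (F : ι → (Fin n → ℝ) → ℝ≥0∞)
    (hF : ∀ i, Measurable (F i)) (J : ι → Finset (Fin n)) (w : ι → ℕ → ℝ≥0∞) (c : ι → ℝ≥0∞)
    (hc : ∀ i, c i ≠ 0) :
    volume {a ∈ box n | ∃ i, c i * Av D (F i) (J i) (w i) < En D (F i) (J i) (w i) a} ≤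
      ∑' i, (c i)⁻¹ := by
  have hsub : {a ∈ box n | ∃ i, c i * Av D (F i) (J i) (w i) < En D (F i) (J i) (w i) a} ⊆
      ⋃ i, {a ∈ box n | c i * Av D (F i) (J i) (w i) < En D (F i) (J i) (w i) a} := by
    rintro a ⟨ha, i, hi⟩
    exact mem_iUnion.2 ⟨i, ha, hi⟩
  refine (measure_mono hsub).trans ((measure_iUnion_le _).trans (ENNReal.tsum_le_tsum fun i => ?_))
  have hE := measurable_En (D := D) (hF i) (J i) (w i)
  have hI := lintegral_En (D := D) (hF i) (J i) (w i)
  set T := Av D (F i) (J i) (w i) with hT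
  have hset : {a ∈ box n | c i * T < En D (F i) (J i) (w i) a} =
      {a | c i * T < En D (F i) (J i) (w i) a} ∩ box n := by
    ext a; simp only [mem_ofPred_eq, mem_inter_iff, and_comm]
  rw [hset, ← Measure.restrict_apply (measurableSet_lt measurable_const hE)]
  rcases eq_or_ne T 0 with h0 | h0
  · rw [h0] at hI
    rw [lintegral_eq_zero_iff hE] at hI
    have : (volume.restrict (box n)) {a | c i * T < En D (F i) (J i) (w i) a} = 0 := by
      rw [h0, mul_zero]
      have h3 : ∀ᵐ a ∂volume.restrict (box n), ¬ (0 < En D (F i) (J i) (w i) a) := by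
        filter_upwards [hI] with a ha
        rw [ha]
        simp
      have h4 := ae_iff.1 h3
      simp only [not_not] at h4
      exact h4
    rw [this]
    exact zero_le
  rcases eq_or_ne T ∞ with h1 | h1
  · rw [h1, ENNReal.mul_top (hc i)]
    simp
  · rcases eq_or_ne (c i) ∞ with h2 | h2
    · rw [h2, ENNReal.top_mul h0]
      simp
    · have h3 := mul_meas_ge_le_lintegral (μ := volume.restrict (box n)) hE (c i * T)
      rw [hI] at h3
      have h4 : (volume.restrict (box n)) {a | c i * T < En D (F i) (J i) (w i) a} ≤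
          (volume.restrict (box n)) {a | c i * T ≤ En D (F i) (J i) (w i) a} :=
        measure_mono fun a ha => by
          simp only [mem_ofPred_eq] at ha ⊢
          exact ha.le
      refine h4.trans ?_
      rw [mul_assoc, mul_comm, mul_assoc] at h3
      have h5 : (volume.restrict (box n)) {a | c i * T ≤ En D (F i) (J i) (w i) a} * c i ≤ 1 := by
        have h6 : T * ((volume.restrict (box n)) {a | c i * T ≤ En D (F i) (J i) (w i) a} * c i)
            ≤ T * 1 := by rw [mul_one]; exact h3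
        exact (ENNReal.mul_le_mul_iff_right h0 h1).1 h6
      rw [← one_div]
      exact ENNReal.le_div_iff_mul_le (Or.inl (hc i)) (Or.inl h2) |>.2 h5

end Crest.Agent.R096.Msh_810
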