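import Mathlib
import Crest.Agent.R096.Only1_847
import Crest.Agent.R096.Bar2_106
import Crest.Agent.R096.Bar4_106
import Crest.Agent.R096.Civ1_662
import Crest.Agent.R096.Dfo1_539
import Crest.Agent.R096.Lam1_847
import Crest.Agent.R096.Bse2_344
import Crest.Agent.R096.Bgf11_4
import Crest.Agent.R096.Bmf1_416
import Crest.Agent.R096.Nmd2_698
import Crest.Agent.R096.Lbc2_334_Mg
import Crest.Agent.R096.Sde4_422
import Crest.Agent.R096.Hop1_895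
import Crest.Agent.R096.Asq7_895
import Crest.Agent.R096.Lab5_184
import Crest.Agent.R096.Ent1_527
import Crest.Agent.R096.Cns1_778
import Crest.Agent.R096.Lab6_184
import Crest.Agent.R096.Sgo2_298
import Crest.Agent.R096.Cns2_778
import Crest.Agent.R096.Lv4_471
import Crest.Agent.R096.Bar4_543_Mg
import Crest.Agent.R096.Bgf10_4
import Crest.Agent.R096.Dfn1_416
import Crest.Agent.R096.Hdr1_334
import Crest.Agent.R096.Cns4_778
import Crest.Agent.R096.Ebr8_95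
import Crest.Agent.R096.Wy1_664

-- ▼ part R096/Dch1_847
section

/-! Row 96 (helper847), DOORS (C2 of board 2): the geometric heart of the clause `dich` of 106's
`DoorInv`: at the boundary of the active tiles of a quad the other family of the quad is near 0 or 1,
so the point is near the axis of a moat. -/

set_option autoImplicit false
set_option linter.unusedSectionVars false
set_option linter.unusedVariables false
set_option linter.style.longLine false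

open Set Relation Module

namespace Crest.Agent.R096.Only_847

open Crest.Agent.R096.Brk1_582 Crest.Agent.R096.Brk2_582 Crest.Agent.R096.Brk3_582
open Crest.Agent.R096.Brk5_582 Crest.Agent.R096.Bsp_628
open Crest.Agent.R096.St_147 Crest.Agent.R096.Seq_213 Crest.Agent.R096.Seq_213.GSt
open Crest.Agent.R096.Lm_117 Crest.Agent.R096.Ac_117 Crest.Agent.R096.Msh_715
open Crest.Agent.R096.Agl5_543 Crest.Agent.R096.Ori_543 Crest.Agent.R096.Coh_184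
open Crest.Agent.R096.Init_543 Crest.Agent.R096.Qdl_662
open Crest.Agent.R096.SkC1_961 (E3 Hom3 FoamD Cfg th)
open Crest.Agent.R096.Mbf_337 (KJ sb)
open Crest.Agent.R096.Leaf_965 Crest.Agent.R096.Bar_106

variable {δ κ0 R c0 : ℝ} {La Om : Set E3} {ι : Type}
variable {Φ : FoamD δ κ0 R c0 La} {T : Tiling Om ι} {J0 : Φ.F → Set ι}
  {f g : E3 → E3} {ct' : Φ.F → ι} {r₀ : Φ.F → ℝ} {ε s₁ s' : ℝ}

/-- **all levels on an active tile** -/
theorem act_all (hLa : IsOpen La) (hR : InitR Φ T f g J0 ct' r₀)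
    (hM : Mesh0 T (Pc Φ.F) (bc (F := Φ.F)) (RF Φ r₀) f (KorJ Φ J0) ε) (hε : ε < s₁) (hε1 : ε < 1)
    {k : QK (Pc Φ.F)} {i : ι}
    (hi : i ∈ Act0 T (Pc Φ.F) (bc (F := Φ.F)) (RF Φ r₀) f (KorJ Φ J0) s₁ k) {x : E3}
    (hx : x ∈ P (T.H i)) :
    (∀ a ∈ k.B, Φ.lev a (f x) ∈ Ioo (0:ℝ) 1) ∧ (∀ e ∈ k.Z, Φ.lev e (f x) = 0) ∧
      ∀ e, e ∉ k.B → e ∉ k.Z → Φ.lev e (f x) = 1 := by
  have F := Ecm_446.foamΦ hLa Φ
  have hK : i ∉ KorJ Φ J0 := hi.1
  have hva : ∀ a, va (Pc Φ.F) (bc (F := Φ.F)) (RF Φ r₀) f a x = Φ.lev a (f x) :=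
    At_241.va_lev hLa hR hK hx
  obtain ⟨q1, q2⟩ := At_241.act_vals hR.hm (foam4 Φ hLa) (retF Φ hLa hR.pos hR.le_one) hM hε hε1
    hi hx
  refine ⟨fun a ha => by rw [← hva]; exact q1 a ha, fun e he => by rw [← hva]; exact q2 e he, ?_⟩
  intro b hb hbZ
  obtain ⟨a, ha⟩ : k.B.Nonempty := by
    rw [← ncard_pos (Set.finite_of_ncard_ne_zero (by rw [k.cB]; norm_num)), k.cB]; norm_num
  obtain ⟨a', haa, ha', hB⟩ := k.exists_other ha
  have haZ : a ∉ k.Z := fun h => disjoint_left.1 k.dis ha h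
  have haZ' : a' ∉ k.Z := fun h => disjoint_left.1 k.dis ha' h
  obtain ⟨e, e', hee, he, he'⟩ := hM.wall _ hK x hx
  obtain ⟨-, -, r3⟩ := quad_at F haa k.cZ haZ haZ' he ⟨e', hee.symm, he'⟩
    (show va (Pc Φ.F) (bc (F := Φ.F)) (RF Φ r₀) f a x ∈ Ioo (0 : ℝ) 1 from q1 a ha)
    (show va (Pc Φ.F) (bc (F := Φ.F)) (RF Φ r₀) f a' x ∈ Ioo (0 : ℝ) 1 from q1 a' ha')
    (fun e he => by
      show va (Pc Φ.F) (bc (F := Φ.F)) (RF Φ r₀) f e x < 1
      rw [q2 e he]; exact one_pos)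
  rw [← hva]
  exact r3 b (fun h => hb (h ▸ ha)) (fun h => hb (h ▸ ha')) hbZ

/-- a family at level 0 somewhere on an active tile is one of the two cores of the quad -/
theorem act_Z (hLa : IsOpen La) (hR : InitR Φ T f g J0 ct' r₀)
    (hM : Mesh0 T (Pc Φ.F) (bc (F := Φ.F)) (RF Φ r₀) f (KorJ Φ J0) ε) (hε : ε < s₁) (hε1 : ε < 1)
    {k : QK (Pc Φ.F)} {i : ι}
    (hi : i ∈ Act0 T (Pc Φ.F) (bc (F := Φ.F)) (RF Φ r₀) f (KorJ Φ J0) s₁ k) {x : E3}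
    (hx : x ∈ P (T.H i)) {c : Φ.F} (hc : Φ.lev c (f x) = 0) : c ∈ k.Z := by
  obtain ⟨h1, -, h3⟩ := act_all hLa hR hM hε hε1 hi hx
  by_contra hcZ
  by_cases hcB : c ∈ k.B
  · have := (h1 c hcB).1
    rw [hc] at this
    exact lt_irrefl _ this
  · have := h3 c hcB hcZ
    rw [hc] at this
    exact zero_ne_one this

/-- **THE HEART OF `dich`**: `q` on an active and on a non-active tile; a point of the family `a` of
the quad has its level in the middle somewhere on one of the two tiles. Then the other family is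
near 0 or 1 and `q` is near the axis of a moat `(a, Z)`. -/
theorem dich_moat (hLa : IsOpen La) (hR : InitR Φ T f g J0 ct' r₀)
    (hM : Mesh0 T (Pc Φ.F) (bc (F := Φ.F)) (RF Φ r₀) f (KorJ Φ J0) ε) (hε : ε < s₁) (hε1 : ε < 1)
    (hs1 : 0 ≤ s₁) {k : QK (Pc Φ.F)} {i i' : ι} {q : E3}
    (hi : i ∈ Act0 T (Pc Φ.F) (bc (F := Φ.F)) (RF Φ r₀) f (KorJ Φ J0) s₁ k)
    (hi' : i' ∉ Act0 T (Pc Φ.F) (bc (F := Φ.F)) (RF Φ r₀) f (KorJ Φ J0) s₁ k)
    (hK' : i' ∉ KorJ Φ J0) (hq : q ∈ P (T.H i)) (hq' : q ∈ P (T.H i')) {a : Φ.F} (ha : a ∈ k.B)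
    (hx : ∃ x, (x ∈ P (T.H i) ∨ x ∈ P (T.H i')) ∧ Φ.lev a (f x) ∈ Icc s' (1 - s'))
    (hs' : s₁ + ε ≤ s') :
    Φ.lev a (f q) ∈ Icc (s' - ε) (1 - s' + ε) ∧ ∃ Z : Set Φ.F, a ∉ Z ∧ k.Z ⊆ Z ∧
      (Z.ncard = 2 ∨ Z.ncard = 3) ∧ (fc (Pc Φ.F) (insert a Z)).Nonempty ∧
      ∀ e, dv a Z (fun e => Φ.lev e (f q)) e ≤ s₁ := by
  have hiK : i ∉ KorJ Φ J0 := hi.1
  obtain ⟨h1, h2, h3⟩ := act_all hLa hR hM hε hε1 hi hq
  have hva : ∀ a, va (Pc Φ.F) (bc (F := Φ.F)) (RF Φ r₀) f a q = Φ.lev a (f q) :=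
    At_241.va_lev hLa hR hiK hq
  have hqa : Φ.lev a (f q) ∈ Icc (s' - ε) (1 - s' + ε) := by
    obtain ⟨x, hx | hx, hxa⟩ := hx
    · have h4 := abs_le.1 (hM.osc i hiK q hq x hx a)
      rw [At_241.va_lev hLa hR hiK hx, hva] at h4
      exact ⟨by linarith [h4.1, h4.2, hxa.1, hxa.2], by linarith [h4.1, h4.2, hxa.1, hxa.2]⟩
    · have h4 := abs_le.1 (hM.osc i' hK' q hq' x hx a)
      rw [At_241.va_lev hLa hR hK' hx, hva] at h4
      exact ⟨by linarith [h4.1, h4.2, hxa.1, hxa.2], by linarith [h4.1, h4.2, hxa.1, hxa.2]⟩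
  refine ⟨hqa, ?_⟩
  obtain ⟨b, hab, hb, hB⟩ := k.exists_other ha
  have haZ : a ∉ k.Z := fun h => disjoint_left.1 k.dis ha h
  have hbZ : b ∉ k.Z := fun h => disjoint_left.1 k.dis hb h
  have hne : (fc (Pc Φ.F) (insert a (insert b k.Z))).Nonempty := by
    have := k.ne
    rw [hB, insert_union, singleton_union] at this
    exact this
  have hbq : Φ.lev b (f q) ∉ Icc s₁ (1 - s₁) := by
    intro hbI
    refine hi' ⟨hK', q, hq', fun e he => ?_, fun e he => by rw [hva]; exact h2 e he⟩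
    rw [hva]
    rw [hB] at he
    rcases he with rfl | he
    · exact ⟨by linarith [hqa.1], by linarith [hqa.2]⟩
    · rw [mem_singleton_iff.1 he]; exact hbI
  have hoth : ∀ e, e ≠ a → e ≠ b → e ∉ k.Z → Φ.lev e (f q) = 1 := fun e he he' heZ => by
    refine h3 e (fun h => ?_) heZ
    rw [hB] at h
    rcases h with h | h
    · exact he h
    · exact he' (mem_singleton_iff.1 h)
  by_cases hlo : Φ.lev b (f q) < s₁
  · refine ⟨insert b k.Z, ?_, subset_insert _ _, Or.inr ?_, hne, fun e => ?_⟩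
    · rintro (h | h)
      · exact hab h
      · exact haZ h
    · rw [ncard_insert_of_notMem hbZ (Set.finite_of_ncard_ne_zero (by rw [k.cZ]; norm_num)), k.cZ]
    · by_cases hea : e = a
      · rw [hea, dv_self]; exact hs1
      by_cases heZ : e ∈ insert b k.Z
      · rw [dv_in hea heZ]
        rcases heZ with rfl | heZ
        · exact hlo.le
        · show Φ.lev e (f q) ≤ s₁
          rw [h2 e heZ]; exact hs1
      · rw [dv_out hea heZ]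
        show 1 - Φ.lev e (f q) ≤ s₁
        rw [hoth e hea (fun h => heZ (Or.inl h)) (fun h => heZ (Or.inr h)), sub_self]
        exact hs1
  · have hhi : 1 - s₁ < Φ.lev b (f q) := by
      by_contra hno
      exact hbq ⟨not_lt.1 hlo, not_lt.1 hno⟩
    refine ⟨k.Z, haZ, subset_rfl, Or.inl k.cZ, ?_, fun e => ?_⟩
    · obtain ⟨y, hy⟩ := hne
      refine ⟨y, ?_⟩
      rw [mem_fc] at hy ⊢
      intro e he
      refine hy e ?_
      rcases he with rfl | he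
      · exact Or.inl rfl
      · exact Or.inr (Or.inr he)
    · by_cases hea : e = a
      · rw [hea, dv_self]; exact hs1
      by_cases heZ : e ∈ k.Z
      · rw [dv_in hea heZ]
        show Φ.lev e (f q) ≤ s₁
        rw [h2 e heZ]; exact hs1
      · rw [dv_out hea heZ]
        show 1 - Φ.lev e (f q) ≤ s₁
        by_cases heb : e = b
        · rw [heb]; linarith
        · rw [hoth e hea heb heZ, sub_self]
          exact hs1

/-! ### on the mesh with layers -/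

section mesh

open Crest.Agent.R096.Cp_298 Crest.Agent.R096.Gm_298 Crest.Agent.R096.Gl_422
open Crest.Agent.R096.SkB_662 Crest.Agent.R096.Cpo_642 Crest.Agent.R096.Frn_337

variable {X : Set Φ.F} {ι3 : Type} {T3 : Tiling Om ι3} {KK : Ti X → Set E3} {til : ι3 → ι}
  {hsub : ∀ p, P (T3.H p) ⊆ P (T.H (til p))} {hLa : IsOpen La}
  {hR : InitR Φ T f g J0 ct' r₀}
  {hM : Mesh0 T (Pc Φ.F) (bc (F := Φ.F)) (RF Φ r₀) f (KorJ Φ J0) ε} {hε : ε < s₁} {hε1 : ε < 1}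
  [Nonempty T3.Cell] {hH : ∀ k, CoreH T3 (KK k)}
  {hdis : ∀ k k', k ≠ k' → Disjoint (KK k) (KK k')}
  {L : Φ.F → Finset ℝ} {s₀ : GSt (mK fr3 hH hdis) (fun j : JJ Φ L => j.1)}

/-- a point not on a giant: inside `Act k`, or no face inner, or an active and a non-active cell -/
theorem dich_cells {k : QK (Pc Φ.F)} {w : E3} (hon : ∃ F, w ∈ (mK fr3 hH hdis).On F)
    (hin : ∀ F, w ∈ (mK fr3 hH hdis).On F → ∀ q ∈ (mK fr3 hH hdis).side F,
      ∃ p, q = Sum.inl p ∧ til p ∉ KorJ Φ J0) :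
    Int (mK fr3 hH hdis) ((qdT til hsub KK hLa hR hM hε hε1).Act k) w ∨
    (∀ F, w ∈ (mK fr3 hH hdis).On F →
      ¬ Inner (mK fr3 hH hdis) ((qdT til hsub KK hLa hR hM hε hε1).Act k) F) ∨
    ∃ p p', w ∈ P (T3.H p) ∧ w ∈ P (T3.H p') ∧ (∀ k', ¬ P (T3.H p) ⊆ KK k') ∧
      (∀ k', ¬ P (T3.H p') ⊆ KK k') ∧
      til p ∈ Act0 T (Pc Φ.F) (bc (F := Φ.F)) (RF Φ r₀) f (KorJ Φ J0) s₁ k ∧
      til p' ∉ Act0 T (Pc Φ.F) (bc (F := Φ.F)) (RF Φ r₀) f (KorJ Φ J0) s₁ k ∧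
      til p' ∉ KorJ Φ J0 := by
  by_cases hI : Int (mK fr3 hH hdis) ((qdT til hsub KK hLa hR hM hε hε1).Act k) w
  · exact Or.inl hI
  by_cases hN : ∀ F, w ∈ (mK fr3 hH hdis).On F →
      ¬ Inner (mK fr3 hH hdis) ((qdT til hsub KK hLa hR hM hε hε1).Act k) F
  · exact Or.inr (Or.inl hN)
  refine Or.inr (Or.inr ?_)
  push Not at hN
  obtain ⟨F, hF, hFi⟩ := hN
  have hI' : ∃ F', w ∈ (mK fr3 hH hdis).On F' ∧
      ¬ Inner (mK fr3 hH hdis) ((qdT til hsub KK hLa hR hM hε hε1).Act k) F' := by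
    by_contra hno
    push Not at hno
    exact hI ⟨hon, hno⟩
  obtain ⟨F', hF', hFi'⟩ := hI'
  unfold Seq_213.Inner at hFi'
  push Not at hFi'
  obtain ⟨q', hq', hqA'⟩ := hFi'
  obtain ⟨q, hq⟩ : ∃ q, q ∈ (mK fr3 hH hdis).side F := by
    induction (mK fr3 hH hdis).side F using Sym2.ind with
    | _ x y => exact ⟨x, Sym2.mem_mk_left _ _⟩
  obtain ⟨p, hp, rfl⟩ := hFi q hq
  obtain ⟨p', rfl, hK'⟩ := hin F' hF' q' hq'
  have hout' : ∀ k', ¬ P (T3.H p') ⊆ KK k' := by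
    have h1 : Sum.inl p' ∈ ((meshC T3 fr3).side F'.1).map (piK T3 KK) := hq'
    rw [mem_map_iff] at h1
    obtain ⟨p'', -, h2⟩ := h1
    obtain ⟨rfl, h4⟩ := piK_inl.1 h2
    exact h4
  have hw : w ∈ P (T3.H p) :=
    (E1r_914.mem_side_K hp.2 F).1 hq (F.1.bd_sub (F.1.on_sub_bd hF))
  have hw' : w ∈ P (T3.H p') :=
    (E1r_914.mem_side_K hout' F').1 hq' (F'.1.bd_sub (F'.1.on_sub_bd hF'))
  exact ⟨p, p', hw, hw', hp.2, hout', hp.1, fun h => hqA' (inl_act.2 ⟨h, hout'⟩), hK'⟩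


end mesh

end Crest.Agent.R096.Only_847
end

-- ▼ part R096/Dch2_847
section

/-! Row 96 (helper847), DOORS: 662's `Dich` for the state after CUT.

* `dich_of`  : from the window `[α, 1 - α]` of the levels near the tiny cores and the sides of the
  barriers at the points near the axes;
* `dich_cut` : the same over the state `s₂` before CUT: a new point is next to an enclosed barrier
  point, which is not in the end walls (`ne`) and not near the axis (`far`), so only the old points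
  have to be on the inner side of the barrier (`side`). -/

set_option autoImplicit false
set_option linter.unusedSectionVars false
set_option linter.unusedVariables false
set_option linter.style.longLine false

open Set Relation Module

namespace Crest.Agent.R096.Dch_847

open Crest.Agent.R096.Brk1_582 Crest.Agent.R096.Brk2_582 Crest.Agent.R096.Brk3_582
open Crest.Agent.R096.Brk5_582 Crest.Agent.R096.Bsp_628
open Crest.Agent.R096.St_147 Crest.Agent.R096.Seq_213 Crest.Agent.R096.Seq_213.GSt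
open Crest.Agent.R096.Lm_117 Crest.Agent.R096.Ac_117 Crest.Agent.R096.Msh_715
open Crest.Agent.R096.Agl5_543 Crest.Agent.R096.Ori_543 Crest.Agent.R096.Coh_184
open Crest.Agent.R096.Init_543 Crest.Agent.R096.Qdl_662
open Crest.Agent.R096.SkC1_961 (E3 Hom3 FoamD Cfg th)
open Crest.Agent.R096.Mbf_337 (KJ sb)
open Crest.Agent.R096.Leaf_965 Crest.Agent.R096.Bar_106
open Crest.Agent.R096.Cp_298 Crest.Agent.R096.Gm_298 Crest.Agent.R096.Gl_422
open Crest.Agent.R096.SkB_662 Crest.Agent.R096.Cpo_642 Crest.Agent.R096.Frn_337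
open Crest.Agent.R096.Only_847 Crest.Agent.R096.Civ_662
open Crest.Agent.R096.Hdr_334 (side_tile side_core brick_disj)

variable {δ κ0 R c0 : ℝ} {La Om : Set E3} {ι ι3 : Type} {Φ : FoamD δ κ0 R c0 La}
  {T : Tiling Om ι} {T3 : Tiling Om ι3} {f g : E3 → E3} {X : Set Φ.F} {J0 : Φ.F → Set ι}
  {ct' : Φ.F → ι} {r₀ : Φ.F → ℝ} {KK : Ti X → Set E3} {til : ι3 → ι}
  {ε s₁ : ℝ} [Nonempty T3.Cell]
  {hH : ∀ k, CoreH T3 (KK k)} {hdis : ∀ k k', k ≠ k' → Disjoint (KK k) (KK k')}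
  {hsub : ∀ p, P (T3.H p) ⊆ P (T.H (til p))} {hLa : IsOpen La}
  {hR : InitR Φ T f g J0 ct' r₀}
  {hM : Mesh0 T (Pc Φ.F) (bc (F := Φ.F)) (RF Φ r₀) f (KorJ Φ J0) ε} {hε : ε < s₁} {hε1 : ε < 1}
  {L : Φ.F → Finset ℝ} {s₃ : GSt (mK fr3 hH hdis) (fun j : JJ Φ L => j.1)}

/-- a cell outside the remaining cores -/
abbrev Oc (T3 : Tiling Om ι3) (KK : Ti X → Set E3) (p : ι3) : Prop :=
  ∀ k, ¬ P (T3.H p) ⊆ KK k

/-- the moat with the axis `Z` at a tiny core -/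
theorem exists_moZ (hLa : IsOpen La) {c : Ti X} {a : Φ.F} {Z : Set Φ.F} (hc : c.1 ∈ Z)
    (ha : a ∉ Z) (hZ : Z.ncard = 2 ∨ Z.ncard = 3) (hne : (fc (Pc Φ.F) (insert a Z)).Nonempty) :
    ∃ m : BM Φ X, m.co = c.1 ∧ m.am = a ∧ m.Zm = Z :=
  ⟨⟨⟨c, a, Z⟩, exists_mo Φ.bf hLa (by simp) hc ha hZ hne⟩, rfl, rfl, rfl⟩


section cut

variable {s₂ : GSt (mK fr3 hH hdis) (Sum.map (fun j : JJ Φ L => j.1) (id : BM Φ X → BM Φ X))}
  {Act : Φ.F → Set (ι3 ⊕ Ti X)}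


end cut

end Crest.Agent.R096.Dch_847
end

-- ▼ part R096/Dchn1_316
section

/-! Row 96 (helper316), DOORS, piece 3 of board #12234: 662's `Dich` over the state before CUT with
688's `sd'` (#12211 (S)).

* `dich_of'`  : 847's `dich_of`, window and sides asked only for the points which are in no moat;
* `sdN`       : `sd` or (new and on a tile of the end zone);
* `dich_cutN` : 847's `dich_cut` without `ne`, for `sdN`. -/

set_option autoImplicit false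
set_option linter.unusedSectionVars false
set_option linter.unusedVariables false
set_option linter.style.longLine false

open Set Relation Module

namespace Crest.Agent.R096.Dchn_316

open Crest.Agent.R096.Brk1_582 Crest.Agent.R096.Brk2_582 Crest.Agent.R096.Brk3_582
open Crest.Agent.R096.Brk5_582 Crest.Agent.R096.Bsp_628
open Crest.Agent.R096.St_147 Crest.Agent.R096.Seq_213 Crest.Agent.R096.Seq_213.GSt
open Crest.Agent.R096.Lm_117 Crest.Agent.R096.Ac_117 Crest.Agent.R096.Msh_715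
open Crest.Agent.R096.Agl5_543 Crest.Agent.R096.Ori_543 Crest.Agent.R096.Coh_184
open Crest.Agent.R096.Init_543 Crest.Agent.R096.Qdl_662
open Crest.Agent.R096.SkC1_961 (E3 Hom3 FoamD Cfg th)
open Crest.Agent.R096.Mbf_337 (KJ sb)
open Crest.Agent.R096.Leaf_965 Crest.Agent.R096.Bar_106
open Crest.Agent.R096.Cp_298 Crest.Agent.R096.Gm_298 Crest.Agent.R096.Gl_422
open Crest.Agent.R096.SkB_662 Crest.Agent.R096.Cpo_642 Crest.Agent.R096.Frn_337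
open Crest.Agent.R096.Only_847 Crest.Agent.R096.Civ_662 Crest.Agent.R096.Dch_847
open Crest.Agent.R096.Hdr_334 (side_tile side_core brick_disj)

variable {δ κ0 R c0 : ℝ} {La Om : Set E3} {ι ι3 : Type} {Φ : FoamD δ κ0 R c0 La}
  {T : Tiling Om ι} {T3 : Tiling Om ι3} {f g : E3 → E3} {X : Set Φ.F} {J0 : Φ.F → Set ι}
  {ct' : Φ.F → ι} {r₀ : Φ.F → ℝ} {KK : Ti X → Set E3} {til : ι3 → ι}
  {ε s₁ : ℝ} [Nonempty T3.Cell]
  {hH : ∀ k, CoreH T3 (KK k)} {hdis : ∀ k k', k ≠ k' → Disjoint (KK k) (KK k')}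
  {hsub : ∀ p, P (T3.H p) ⊆ P (T.H (til p))} {hLa : IsOpen La}
  {hR : InitR Φ T f g J0 ct' r₀}
  {hM : Mesh0 T (Pc Φ.F) (bc (F := Φ.F)) (RF Φ r₀) f (KorJ Φ J0) ε} {hε : ε < s₁} {hε1 : ε < 1}
  {L : Φ.F → Finset ℝ} {s₃ : GSt (mK fr3 hH hdis) (fun j : JJ Φ L => j.1)}


section cut

/-- `w` is on a cell outside the remaining cores whose tile meets the end zone of the family `a` -/
def OnZ (Φ : FoamD δ κ0 R c0 La) (T : Tiling Om ι) (T3 : Tiling Om ι3) (f : E3 → E3)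
    (KK : Ti X → Set E3) (til : ι3 → ι) (α : ℝ) (a : Φ.F) (w : E3) : Prop :=
  ∃ p, Oc T3 KK p ∧ w ∈ P (T3.H p) ∧
    ∃ x ∈ P (T.H (til p)), Φ.lev a (f x) ≤ α ∨ 1 - α ≤ Φ.lev a (f x)

variable {s₂ : GSt (mK fr3 hH hdis) (Sum.map (fun j : JJ Φ L => j.1) (id : BM Φ X → BM Φ X))}
  {Act : Φ.F → Set (ι3 ⊕ Ti X)}

variable (Φ T f til) in
/-- **688's `sd'`** : inside the barrier, or new over the end zone -/
def sdN (α : ℝ)
    (s₂ : GSt (mK fr3 hH hdis) (Sum.map (fun j : JJ Φ L => j.1) (id : BM Φ X → BM Φ X)))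
    (sd : BM Φ X → E3 → Prop) (m : BM Φ X) (w : E3) : Prop :=
  sd m w ∨ (w ∉ s₂.P ∧ OnZ Φ T T3 f KK til α m.am w)


end cut

end Crest.Agent.R096.Dchn_316
end

-- ▼ part R096/Dchn2_316
section

/-! Row 96 (helper316), DOORS, piece 3 of board #12234, part 2: `dich_cutN` with the predicate
`Nr c w` (`w` is near the core `c`): the sides are asked only for the barriers of the near core. -/

set_option autoImplicit false
set_option linter.unusedSectionVars false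
set_option linter.unusedVariables false
set_option linter.style.longLine false

open Set Relation Module

namespace Crest.Agent.R096.Dchn_316

open Crest.Agent.R096.Brk1_582 Crest.Agent.R096.Brk2_582 Crest.Agent.R096.Brk3_582
open Crest.Agent.R096.Brk5_582 Crest.Agent.R096.Bsp_628
open Crest.Agent.R096.St_147 Crest.Agent.R096.Seq_213 Crest.Agent.R096.Seq_213.GSt
open Crest.Agent.R096.Lm_117 Crest.Agent.R096.Ac_117 Crest.Agent.R096.Msh_715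
open Crest.Agent.R096.Agl5_543 Crest.Agent.R096.Ori_543 Crest.Agent.R096.Coh_184
open Crest.Agent.R096.Init_543 Crest.Agent.R096.Qdl_662
open Crest.Agent.R096.SkC1_961 (E3 Hom3 FoamD Cfg th)
open Crest.Agent.R096.Mbf_337 (KJ sb)
open Crest.Agent.R096.Leaf_965 Crest.Agent.R096.Bar_106
open Crest.Agent.R096.Cp_298 Crest.Agent.R096.Gm_298 Crest.Agent.R096.Gl_422
open Crest.Agent.R096.SkB_662 Crest.Agent.R096.Cpo_642 Crest.Agent.R096.Frn_337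
open Crest.Agent.R096.Only_847 Crest.Agent.R096.Civ_662 Crest.Agent.R096.Dch_847
open Crest.Agent.R096.Hdr_334 (side_tile side_core brick_disj)

variable {δ κ0 R c0 : ℝ} {La Om : Set E3} {ι ι3 : Type} {Φ : FoamD δ κ0 R c0 La}
  {T : Tiling Om ι} {T3 : Tiling Om ι3} {f g : E3 → E3} {X : Set Φ.F} {J0 : Φ.F → Set ι}
  {ct' : Φ.F → ι} {r₀ : Φ.F → ℝ} {KK : Ti X → Set E3} {til : ι3 → ι}
  {ε s₁ : ℝ} [Nonempty T3.Cell]
  {hH : ∀ k, CoreH T3 (KK k)} {hdis : ∀ k k', k ≠ k' → Disjoint (KK k) (KK k')}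
  {hsub : ∀ p, P (T3.H p) ⊆ P (T.H (til p))} {hLa : IsOpen La}
  {hR : InitR Φ T f g J0 ct' r₀}
  {hM : Mesh0 T (Pc Φ.F) (bc (F := Φ.F)) (RF Φ r₀) f (KorJ Φ J0) ε} {hε : ε < s₁} {hε1 : ε < 1}
  {L : Φ.F → Finset ℝ} {s₃ : GSt (mK fr3 hH hdis) (fun j : JJ Φ L => j.1)}

/-- **662's `Dich` FROM THE WINDOW AND THE SIDES**, asked only for the points which are in no moat -/
theorem dich_ofR (hs1 : 0 ≤ s₁) {α : ℝ} (hα : s₁ + ε ≤ α) {UT : Set E3} {Nr : Φ.F → E3 → Prop}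
    (hU0 : ∀ w ∈ UT, w ∈ s₃.P → ¬ OnG hH hdis w → ∀ p, Oc T3 KK p → w ∈ P (T3.H p) →
      til p ∉ KorJ Φ J0 ∧ ∃ c : Ti X, Nr c.1 w ∧ Φ.lev c.1 (f w) = 0)
    {sd : BM Φ X → E3 → Prop}
    (posW : ∀ w ∈ UT, w ∈ s₃.P → ¬ OnG hH hdis w →
      (∀ m : BM Φ X, m.am = (s₃.lab w).1 → ¬ sd m w) → ∀ p, Oc T3 KK p → w ∈ P (T3.H p) →
      ∃ x ∈ P (T.H (til p)), Φ.lev (s₃.lab w).1 (f x) ∈ Icc α (1 - α))
    (hsd : ∀ w ∈ UT, w ∈ s₃.P → ¬ OnG hH hdis w →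
      (∀ m : BM Φ X, m.am = (s₃.lab w).1 → ¬ sd m w) → ∀ p, Oc T3 KK p → w ∈ P (T3.H p) →
      ∀ m : BM Φ X, m.am = (s₃.lab w).1 → Nr m.co w →
      Φ.lev m.co (f w) = 0 → Φ.lev m.am (f w) ∈ Icc (α - ε) (1 - α + ε) →
      (∀ e, dv m.am m.Zm (fun e => Φ.lev e (f w)) e ≤ s₁) → sd m w) :
    Dich (qdT til hsub KK hLa hR hM hε hε1) s₃ UT BM.am sd := by
  intro j k hk w hw hl hU hG hV
  have hV' : ∀ m : BM Φ X, m.am = (s₃.lab w).1 → ¬ sd m w := fun m hm => hV m (by rw [hm, hl])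
  have hin : ∀ F, w ∈ (mK fr3 hH hdis).On F → ∀ q ∈ (mK fr3 hH hdis).side F,
      ∃ p, q = Sum.inl p ∧ Oc T3 KK p ∧ w ∈ P (T3.H p) ∧ til p ∉ KorJ Φ J0 := by
    intro F hF q hq
    rcases q with p | c
    · obtain ⟨h1, h2⟩ := side_tile hF hq
      exact ⟨p, rfl, h2, h1, (hU0 w hU hw hG p h2 h1).1⟩
    · exact absurd ⟨c, F, hq, hF⟩ hG
  by_cases hon : ∃ F, w ∈ (mK fr3 hH hdis).On F
  swap
  · exact Or.inr fun F hF => absurd ⟨F, hF⟩ hon
  rcases dich_cells (hsub := hsub) (hLa := hLa) (hR := hR) (hM := hM) (hε := hε) (hε1 := hε1)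
    (k := k) hon (fun F hF q hq => by
      obtain ⟨p, h1, -, -, h4⟩ := hin F hF q hq
      exact ⟨p, h1, h4⟩) with h | h | ⟨p, p', h1, h2, h3, h4, h5, h6, h7⟩
  · exact Or.inl h
  · exact Or.inr h
  exfalso
  have ha : (s₃.lab w).1 ∈ k.B := by
    rw [hl]
    exact (qin k _).1 hk
  obtain ⟨x, hx, hxa⟩ := posW w hU hw hG hV' p h3 h1
  obtain ⟨-, c, hcN, hc⟩ := hU0 w hU hw hG p h3 h1
  obtain ⟨r1, Z, z1, z2, z3, z4, z5⟩ := dich_moat hLa hR hM hε hε1 hs1 h5 h6 h7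
    (hsub p h1) (hsub p' h2) ha ⟨x, Or.inl hx, hxa⟩ hα
  have hcZ : c.1 ∈ k.Z := act_Z hLa hR hM hε hε1 h5 (hsub p h1) hc
  obtain ⟨m, m1, m2, m3⟩ := exists_moZ (X := X) hLa (z2 hcZ) z1 z3 z4
  refine hV m (by rw [m2, hl]) (hsd w hU hw hG hV' p h3 h1 m m2 (by rw [m1]; exact hcN)
    (by rw [m1]; exact hc) ?_ ?_)
  · rw [m2]; exact r1
  · rw [m2, m3]; exact z5

section cut

variable {s₂ : GSt (mK fr3 hH hdis) (Sum.map (fun j : JJ Φ L => j.1) (id : BM Φ X → BM Φ X))}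
  {Act : Φ.F → Set (ι3 ⊕ Ti X)}

/-- **662's `Dich` over the state before CUT, for `sdN`** (847's `dich_cut` without `ne`) -/
theorem dich_cutR (hs1 : 0 ≤ s₁) {α l l1 : ℝ} (hα : s₁ + ε ≤ α) (hl : s₁ + ε + l < 1)
    (hl1 : s₁ + ε < l1) {UT : Set E3} {Nr : Φ.F → E3 → Prop}
    (hU0 : ∀ w ∈ UT, w ∈ s₃.P → ¬ OnG hH hdis w → ∀ p, Oc T3 KK p → w ∈ P (T3.H p) →
      til p ∉ KorJ Φ J0 ∧ ∃ c : Ti X, Nr c.1 w ∧ Φ.lev c.1 (f w) = 0)
    (cs : ∀ w ∈ s₃.P, ∀ p, Oc T3 KK p → w ∈ P (T3.H p) →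
      (w ∈ s₂.P ∧ s₂.lab w = Sum.inl (s₃.lab w)) ∨
      (w ∉ s₂.P ∧ ∃ b ∈ s₂.P, ∃ m, s₂.lab b = Sum.inr m ∧ BM.am m = (s₃.lab w).1 ∧
        b ∈ P (T3.H p)))
    (old : ∀ w ∈ s₂.P, ∀ j, s₂.lab w = Sum.inl j → ∀ p, Oc T3 KK p → w ∈ P (T3.H p) →
      til p ∉ KorJ Φ J0 → ∃ x ∈ P (T.H (til p)), Φ.lev j.1 (f x) ∈ Icc α (1 - α))
    (far : ∀ b ∈ s₂.P, ∀ m, s₂.lab b = Sum.inr m → ∀ p, Oc T3 KK p → b ∈ P (T3.H p) →
      til p ∉ KorJ Φ J0 → (P (T3.H p) ∩ UT).Nonempty →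
      (∀ x ∈ P (T.H (til p)), Φ.lev (BM.am m) (f x) ∈ Ioo α (1 - α)) →
      (∃ x ∈ P (T.H (til p)), ∀ e, dv (BM.am m) (BM.Zm m) (fun e => Φ.lev e (f x)) e ≤ l) ∧
      ∃ x ∈ P (T.H (til p)), ∃ e, l1 ≤ dv (BM.am m) (BM.Zm m) (fun e => Φ.lev e (f x)) e)
    {sd : BM Φ X → E3 → Prop}
    (side : ∀ w ∈ UT, w ∈ s₂.P → ∀ j, s₂.lab w = Sum.inl j → ¬ OnG hH hdis w →
      ∀ m : BM Φ X, m.am = j.1 → Nr m.co w → Φ.lev m.co (f w) = 0 →
      Φ.lev m.am (f w) ∈ Icc (α - ε) (1 - α + ε) →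
      (∀ e, dv m.am m.Zm (fun e => Φ.lev e (f w)) e ≤ s₁) → sd m w) :
    Dich (qdT til hsub KK hLa hR hM hε hε1) s₃ UT BM.am (sdN Φ T f til α s₂ sd) := by
  -- the whole tile of a new point which is in no moat is in the window
  have new : ∀ w, w ∉ s₂.P → (∀ m : BM Φ X, m.am = (s₃.lab w).1 → ¬ sdN Φ T f til α s₂ sd m w) →
      ∀ p, Oc T3 KK p → w ∈ P (T3.H p) → ∀ m : BM Φ X, m.am = (s₃.lab w).1 →
      ∀ x ∈ P (T.H (til p)), Φ.lev (BM.am m) (f x) ∈ Ioo α (1 - α) := by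
    intro w hw2 hV p hp hwp m hm x hx
    by_contra hcon
    refine hV m hm (Or.inr ⟨hw2, p, hp, hwp, x, hx, ?_⟩)
    by_cases h : Φ.lev (BM.am m) (f x) ≤ α
    · exact Or.inl h
    · right
      by_contra h'
      exact hcon ⟨not_le.1 h, not_le.1 h'⟩
  refine dich_ofR hs1 hα hU0 ?_ ?_
  · intro w hU hw hG hV p hp hwp
    rcases cs w hw p hp hwp with ⟨h1, h2⟩ | ⟨h0, b, h1, m, h2, h4, h5⟩
    · exact old w h1 _ h2 p hp hwp (hU0 w hU hw hG p hp hwp).1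
    · refine ⟨w, hsub p hwp, ?_⟩
      have h7 := new w h0 hV p hp hwp m h4 w (hsub p hwp)
      rw [h4] at h7
      exact ⟨h7.1.le, h7.2.le⟩
  · intro w hU hw hG hV p hp hwp m m2 mN m1 m4 m5
    rcases cs w hw p hp hwp with ⟨h1, h2⟩ | ⟨h0, b, h1, m', h2, h4, h5⟩
    · exact Or.inl (side w hU h1 _ h2 hG m m2 mN m1 m4 m5)
    exfalso
    have hK := (hU0 w hU hw hG p hp hwp).1
    have hosc : ∀ x ∈ P (T.H (til p)), ∀ e, |Φ.lev e (f x) - Φ.lev e (f w)| ≤ ε := by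
      intro x hx e
      have h7 := hM.osc _ hK _ hx _ (hsub p hwp) e
      rwa [At_241.va_lev hLa hR hK hx, At_241.va_lev hLa hR hK (hsub p hwp)] at h7
    have hdv : ∀ x ∈ P (T.H (til p)), ∀ e,
        dv m.am m.Zm (fun e => Φ.lev e (f x)) e ≤ s₁ + ε := by
      intro x hx e
      have h7 := abs_le.1 (hosc x hx e)
      have h8 := m5 e
      have h9 : 0 ≤ ε := (abs_nonneg _).trans (hosc x hx e)
      by_cases hea : e = m.am
      · rw [hea, dv_self]; linarith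
      by_cases heZ : e ∈ m.Zm
      · rw [dv_in hea heZ] at h8 ⊢
        linarith [h7.1, h7.2]
      · rw [dv_out hea heZ] at h8 ⊢
        linarith [h7.1, h7.2]
    obtain ⟨⟨x1, hx1, k1⟩, x2, hx2, e2, k2⟩ := far b h1 m' h2 p hp h5 hK ⟨w, hwp, hU⟩
      (new w h0 hV p hp hwp m' h4)
    have ham : m'.am = m.am := h4.trans m2.symm
    have hZ : m'.Zm = m.Zm := by
      by_contra hne
      obtain ⟨e, he⟩ : ∃ e, ¬ (e ∈ m'.Zm ↔ e ∈ m.Zm) := by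
        by_contra hcon
        push Not at hcon
        exact hne (Set.ext hcon)
      obtain ⟨p1, p2, hmo⟩ := m.mo
      obtain ⟨p3, p4, hmo'⟩ := m'.mo
      have haZ : m.am ∉ m.Zm := hmo.aZ
      have haZ' : m.am ∉ m'.Zm := by
        rw [← ham]; exact hmo'.aZ
      have hea : e ≠ m.am := by
        rintro rfl
        exact he ⟨fun h => absurd h haZ', fun h => absurd h haZ⟩
      have g1 := k1 e
      rw [ham] at g1
      have g2 := hdv x1 hx1 e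
      by_cases hZe : e ∈ m'.Zm
      · have hZ' : e ∉ m.Zm := fun h3 => he ⟨fun _ => h3, fun _ => hZe⟩
        rw [dv_in hea hZe] at g1
        rw [dv_out hea hZ'] at g2
        linarith
      · have hZ' : e ∈ m.Zm := by
          by_contra h3
          exact he ⟨fun h => absurd h hZe, fun h => absurd h h3⟩
        rw [dv_out hea hZe] at g1
        rw [dv_in hea hZ'] at g2
        linarith
    rw [ham, hZ] at k2
    linarith [hdv x2 hx2 e2]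

end cut

end Crest.Agent.R096.Dchn_316
end

-- ▼ part R096/Dch3_847
section

/-! Row 96 (helper847), DOORS: the machine inputs of `dich_cut`, part 1.

* `loc2o` : 344's `loc2` with the predicate only at the outer points of the outer state;
* `FarP`  : a point of a tile is not deep inside the box of a moat (lower bound of the deviations);
* `far_tr` : the truthful barrier points outside the open cores (from 4's `exists_bars`);
* `far_s2` : all barrier points of `s2`. -/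

set_option autoImplicit false
set_option linter.unusedSectionVars false
set_option linter.unusedVariables false
set_option linter.style.longLine false

open Set Topology Filter Metric Module
open scoped Classical

namespace Crest.Agent.R096.Dch_847

open Crest.Agent.R096.Msh_715 Crest.Agent.R096.Agl5_543 Crest.Agent.R096.St_147
  Crest.Agent.R096.Seq_213 Crest.Agent.R096.Door_501 Crest.Agent.R096.Sla_184
  Crest.Agent.R096.Twr_438 Crest.Agent.R096.Exa_560 Crest.Agent.R096.Ess3_95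
  Crest.Agent.R096.Ess4_95 Crest.Agent.R096.Dfi_539 Crest.Agent.R096.Dfi_471

section loc

variable {E : Type} [NormedAddCommGroup E] [NormedSpace ℝ E] [FiniteDimensional ℝ E]
variable {Om : Set E} {ι : Type} {T : Tiling Om ι} {κ : Type} {S : Sla T κ}
  {h3 : finrank ℝ E = 3} {J C : Type} {fam : J → C} [Nonempty J]
  {s : GSt (meshC T h3) fam} {r : J → E} {Sf : J → Set E} {nb : κ → C → Prop}
  {v0 v1 : ∀ c, C → VxK T S.K c} {u : κ → C → E → ℝ} {A B : κ → C → ℝ}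
  {L : ∀ c, C → Lev T (frontier (S.K c)) J}
  {Tw : Twrs (S.sh h3) S.n (outK S.hH S.dis s r)} {l0 : E → J} {w : E}

/-- 344's `loc2`, the predicate only at the outer points of `s` which are in no open core -/
theorem loc2o (D : DIn S.hH s r Sf nb v0 v1 u A B) (lo : LevOut s nb u A B L)
    (tt : TwOut S h3 s r v0 v1 L Tw) {n : J} (Bx : E → Prop)
    (htr : ∀ w ∈ s.P, s.lab w = n → (∀ c, ¬ S.In c w) → Bx w)
    (hex : ∀ c, nb c (fam n) → ∀ x ∈ frontier (S.K c), A c (fam n) < u c (fam n) x →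
      u c (fam n) x < B c (fam n) → Bx x)
    (hR : ∀ c, nb c (fam n) → ∀ v : S.Vx c,
      Rgn (S.sh h3 c) (v0 c (fam n)) (v1 c (fam n)) (trc S.hH S.dis s r c (fam n))
        (exa h3 S.hH S.dis (L c (fam n))) n v → Bx v.1)
    (hw : w ∈ (s2 S h3 Tw l0).P) (hl : (s2 S h3 Tw l0).lab w = n)
    {p : T.RIdx S.HH} (hp : w ∈ P (S.T3.H p)) : ∃ x ∈ P (T.H p.tile), Bx x := by
  have hpw : w ∈ P (T.H p.tile) := Sla.P3_sub p hp
  have hO : w ∈ Om := (s2_dim hw).1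
  rcases Sla.out_or (S := S) hO with ho | ⟨c, hc⟩
  · obtain ⟨h1, h2, -⟩ := out2 hw ho
    exact ⟨w, hpw, htr w h1 (h2.symm.trans hl) ho.2⟩
  · have hn := (in2 D lo tt hw hc).1
    obtain ⟨q, h1, -, h2, h4⟩ := base2 D lo tt hw hc
    have hq : q ∈ P (T.H p.tile) := by
      have h5 : p.tile ∈ T.at_ w := hpw
      rw [h2] at h5
      exact h5.1
    refine ⟨q, hq, ?_⟩
    rw [hl] at hn
    rcases h4 with ⟨h5, h6⟩ | ⟨i, h5, -, h7⟩ | ⟨v, h5, h6⟩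
    · refine htr q h5 (h6.trans hl) fun c' hc' => ?_
      by_cases hcc : c' = c
      · subst hcc
        exact hc'.2 h1
      · have h8 : q ∈ S.K c := (S.hH c).cpt.isClosed.frontier_subset h1
        exact Set.disjoint_left.1 (S.dis c' c hcc) hc'.1 h8
    · have h8 := lo.win c _ i h5
      rw [hl] at h7 h8
      exact hex c hn q h1 (by rw [h7]; exact h8.1) (by rw [h7]; exact h8.2)
    · rw [hl] at h6
      rw [← h5]
      exact hR c hn v h6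

end loc

open Crest.Agent.R096.Brk1_582 Crest.Agent.R096.Brk2_582 Crest.Agent.R096.Brk3_582
  Crest.Agent.R096.Brk5_582 Crest.Agent.R096.Bsp_628 Crest.Agent.R096.Init_543
  Crest.Agent.R096.Bar_106 Crest.Agent.R096.Dib_438 Crest.Agent.R096.Rgl_527
  Crest.Agent.R096.Ebr4_95 Crest.Agent.R096.Ebr3_95 Crest.Agent.R096.Lam_847
open Crest.Agent.R096.Mbf_337 (sb KJ Tiny gau Cores Fine)
open Crest.Agent.R096.SkC1_961 (E3 FoamD Hom3)
open Crest.Agent.R096.Frn_337 (Ti)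
open Crest.Agent.R096.Frs_662 (slC)

variable {δ κ0 R c0 : ℝ} {La Om : Set E3} {ι : Type} {Φ : FoamD δ κ0 R c0 La} {T : Tiling Om ι}
  {f g : E3 → E3} {κ1 κ2 μ : ℝ} {X : Set Φ.F} {J0 Jt V : Φ.F → Set ι}
  {ct ct' : Φ.F → ι} {A : Φ.F → E3 ≃ᵃ[ℝ] E3} {lam : Φ.F → ℝ} {z : Φ.F → E3}
  {θ : Φ.F → E3 → E3} {φ : Φ.F → E3 → ℝ} {r₀ : Φ.F → ℝ}

/-- `x` is not deep inside the box of the moat `(c, a, Z)` -/
def FarP (Φ : FoamD δ κ0 R c0 La) (f : E3 → E3) (c a : Φ.F) (Z : Set Φ.F) (α l1 rF : ℝ)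
    (x : E3) : Prop :=
  (∃ e, l1 ≤ dv a Z (fun e => Φ.lev e (f x)) e) ∨ Φ.lev a (f x) ≤ α ∨ 1 - α ≤ Φ.lev a (f x) ∨
    rF ≤ gau c.1 (Φ.B c).lo (f x)

/-- from a lower bound of `Gm` -/
theorem farP_of_gm {c a : Φ.F} {Z : Set Φ.F} {α l1 rF l0 mm ra t : ℝ} {x : E3} (hl0 : 0 < l0)
    (hra : 0 < ra) (h1 : l1 < l0 * t) (h2 : mm - ra * t ≤ α) (h3 : 1 - α ≤ mm + ra * t)
    (h : t ≤ Gm l0 mm ra a Z (fun e => Φ.lev e (f x))) : FarP Φ f c a Z α l1 rF x := by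
  rcases le_max_iff.1 h with h | h
  · left
    by_contra hcon
    push Not at hcon
    have h4 : Fm a Z (fun e => Φ.lev e (f x)) ≤ l1 := Fm_le fun e => (hcon e).le
    rw [le_div_iff₀ hl0] at h
    linarith
  · right
    have h' : t ≤ |Φ.lev a (f x) - mm| / ra := h
    rw [le_div_iff₀ hra] at h'
    rcases le_abs.1 h' with h4 | h4
    · exact Or.inr (Or.inl (by linarith))
    · exact Or.inl (by linarith)

/-- from a lower bound of `Gm` at `θ x` -/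
theorem farP_of_gmf (hLa : IsOpen La) (hδ : 0 < δ) (hR : 0 < R) (hκ : Cn δ R * κ1 < 1)
    {c a : Φ.F} {Z : Set Φ.F} {J0 J V : Set ι} {θ : E3 → E3} {φ : E3 → ℝ}
    (H : Tiny Φ T f κ1 c J0 J V θ φ) {α l1 rF l0 mm ra t : ℝ} {x : E3}
    (hx : x ∈ frontier (KJ T J)) (hl0 : 0 < l0)
    (hra : 0 < ra) (h1 : l1 + Cn δ R * κ1 < l0 * t) (h2 : mm - ra * t + Cn δ R * κ1 ≤ α)
    (h3 : 1 - α ≤ mm + ra * t - Cn δ R * κ1)
    (h : t ≤ gmf Φ l0 mm ra a Z (θ x)) : FarP Φ f c a Z α l1 rF x := by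
  have hn := fun e => abs_le.1 (tiny_near hLa hδ hR hκ H hx e)
  rcases le_max_iff.1 h with h | h
  · left
    by_contra hcon
    push Not at hcon
    have h4 : Fm a Z (sb Φ (θ x)) ≤ l1 + Cn δ R * κ1 := by
      refine Fm_le fun e => ?_
      have h5 := (abs_le.1 (abs_dv_sub (a := a) (Z := Z) (u := sb Φ (θ x))
        (v := fun e => Φ.lev e (f x)) e)).2
      have h6 : |sb Φ (θ x) e - (fun e => Φ.lev e (f x)) e| ≤ Cn δ R * κ1 :=
        tiny_near hLa hδ hR hκ H hx e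
      have h7 := (hcon e).le
      linarith
    rw [le_div_iff₀ hl0] at h
    linarith
  · right
    have h' : t ≤ |sb Φ (θ x) a - mm| / ra := h
    rw [le_div_iff₀ hra] at h'
    have h8 := hn a
    rcases le_abs.1 h' with h4 | h4
    · exact Or.inr (Or.inl (by linarith [h8.1, h8.2]))
    · exact Or.inl (by linarith [h8.1, h8.2])

/-- from a lower bound of `Fs` at `θ x` -/
theorem farP_of_fs (hLa : IsOpen La) (hδ : 0 < δ) (hR : 0 < R) (hκ : Cn δ R * κ1 < 1)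
    {c a p m : Φ.F} {Z : Set Φ.F} {N : Finset Φ.F} {J0 J V : Set ι} {θ : E3 → E3} {φ : E3 → ℝ}
    (H : Tiny Φ T f κ1 c J0 J V θ φ) (M : Mo (Pc Φ.F) c a Z p m) (hp : p ∈ N) (hm : m ∈ N)
    {α l1 rF W : ℝ} {x : E3} (hx : x ∈ frontier (KJ T J)) (hα : Cn δ R * κ1 ≤ α)
    (h1 : l1 + Cn δ R * κ1 ≤ W) (h2 : W < 1)
    (h : W < Fs N a Z (sb Φ (θ x))) : FarP Φ f c a Z α l1 rF x := by
  have hn := abs_le.1 (tiny_near hLa hδ hR hκ H hx a)
  by_contra hcon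
  unfold FarP at hcon
  push Not at hcon
  obtain ⟨g1, g2, g3, -⟩ := hcon
  have h4 : Fm a Z (sb Φ (θ x)) ≤ l1 + Cn δ R * κ1 := by
    refine Fm_le fun e => ?_
    have h5 := (abs_le.1 (abs_dv_sub (a := a) (Z := Z) (u := sb Φ (θ x))
      (v := fun e => Φ.lev e (f x)) e)).2
    have h6 : |sb Φ (θ x) e - (fun e => Φ.lev e (f x)) e| ≤ Cn δ R * κ1 :=
      tiny_near hLa hδ hR hκ H hx e
    have h7 := (g1 e).le
    linarith
  rw [fs_eq_fm hLa M hp hm (th_mem H hx) (by linarith [hn.1, hn.2]) (by linarith [hn.1, hn.2])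
    (by linarith)] at h
  linarith

end Crest.Agent.R096.Dch_847
end

-- ▼ part R096/Dch4_847
section

/-! Row 96 (helper847), DOORS: the machine inputs of `dich_cut`, part 2.

* `trF_bars` : the truthful record from 4's `exists_bars`;
* `far_s2` : no barrier point of `s2` has a tile deep inside its box;
* `core_pt` : the points near a tiny core outside the remaining cores have coordinate `0`. -/

set_option autoImplicit false
set_option linter.unusedSectionVars false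
set_option linter.unusedVariables false
set_option linter.style.longLine false

open Set Topology Filter Metric Module
open scoped Classical

namespace Crest.Agent.R096.Dch_847

open Crest.Agent.R096.Msh_715 Crest.Agent.R096.Agl5_543 Crest.Agent.R096.St_147
  Crest.Agent.R096.Seq_213 Crest.Agent.R096.Door_501 Crest.Agent.R096.Sla_184
  Crest.Agent.R096.Twr_438 Crest.Agent.R096.Exa_560 Crest.Agent.R096.Ess3_95
  Crest.Agent.R096.Ess4_95 Crest.Agent.R096.Dfi_539 Crest.Agent.R096.Dfi_471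
open Crest.Agent.R096.Brk1_582 Crest.Agent.R096.Brk2_582 Crest.Agent.R096.Brk3_582
  Crest.Agent.R096.Brk5_582 Crest.Agent.R096.Bsp_628 Crest.Agent.R096.Init_543
  Crest.Agent.R096.Bar_106 Crest.Agent.R096.Dib_438 Crest.Agent.R096.Rgl_527
  Crest.Agent.R096.Ebr4_95 Crest.Agent.R096.Ebr3_95 Crest.Agent.R096.Lam_847
  Crest.Agent.R096.Ess5_95 Crest.Agent.R096.Ess6_95 Crest.Agent.R096.Ess8_95 Crest.Agent.R096.Bgf_4
open Crest.Agent.R096.Mbf_337 (sb KJ Tiny gau Cores Fine)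
open Crest.Agent.R096.SkC1_961 (E3 FoamD Hom3)
open Crest.Agent.R096.Frn_337 (Ti)
open Crest.Agent.R096.Frs_662 (slC)


variable {δ κ0 R c0 : ℝ} {La Om : Set E3} {ι : Type} {Φ : FoamD δ κ0 R c0 La} {T : Tiling Om ι}
  {f g : E3 → E3} {κ1 κ2 μ : ℝ} {X : Set Φ.F} {J0 Jt V : Φ.F → Set ι}
  {ct ct' : Φ.F → ι} {A : Φ.F → E3 ≃ᵃ[ℝ] E3} {lam : Φ.F → ℝ} {z : Φ.F → E3}
  {θ : Φ.F → E3 → E3} {φ : Φ.F → E3 → ℝ} {r₀ : Φ.F → ℝ} {ρ1 ρ2 ρ3 ρ4 d : Φ.F → ℝ}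

/-- **the points near a tiny core**, on a tile which is not near the hole, have coordinate `0` -/
theorem lev_zero (hLa : IsOpen La) (H : Hm f g Om La) {c : Φ.F} {J0 J V : Set ι} {θ : E3 → E3}
    {φ : E3 → ℝ} {ρ1 ρ2 ρ3 ρ4 d : ℝ} (hT : Tiny Φ T f κ1 c J0 J V θ φ)
    (hR : Rm Φ T f c J0 J V θ ρ1 ρ2 ρ3 ρ4 d) {q : ι} (hqV : q ∈ V) (hqJ : q ∉ J0) {y : E3}
    (hy : y ∈ P (T.H q)) : Φ.lev c (f y) = 0 := by
  have h := (psi_tile hLa H hT hR hqV hqJ hy).2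
  have FF := foam Φ.bf hLa
  rw [frontier_c Φ hLa c] at h
  have h1 : Φ.Psi (f y) ∈ Pc Φ.F c := h.1
  exact (FF.sc_eq_zero (FF.sub c h1)).2 h1

section tr

variable {Mo' : Type} {JN C : Type} {fam : JN → C}

/-- the truthful barrier points of `m`: in a cap or on the wall -/
def TrF (Φ : FoamD δ κ0 R c0 La) (f : E3 → E3) (ρ1 ρ3 d : Φ.F → ℝ) (l0 mm ra : ℝ) (c a : Φ.F)
    (Z : Set Φ.F) (w : E3) : Prop :=
  (∀ e, 0 ≤ Φ.lev e (f w) ∧ Φ.lev e (f w) ≤ 1) ∧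
    (ga Φ c (f w) ≤ ρ1 c + 4 * d c ∨ ρ3 c + 12 * d c ≤ ga Φ c (f w) ∨
      1 ≤ Gm l0 mm ra a Z (fun e => Φ.lev e (f w)))

/-- from the clause of `exists_bars` -/
theorem trF_of {sg l0 mm ra ε : ℝ} {X : Set Φ.F} {Jt V : Φ.F → Set ι}
    (rd : Nmd2_698.RadD Φ T f κ1 X J0 Jt V θ ρ1 ρ2 ρ3 ρ4 d) {c a : Φ.F} {Z : Set Φ.F} (hc : c ∉ X)
    (hε : 1 ≤ ε) {w : E3} (hlev : ∀ e, 0 ≤ Φ.lev e (f w) ∧ Φ.lev e (f w) ≤ 1)
    (h : ga Φ c (f w) = rB ρ1 ρ3 d c - hB ρ1 ρ3 d c * ε ∨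
      ga Φ c (f w) = rB ρ1 ρ3 d c + hB ρ1 ρ3 d c * ε ∨ gmf Φ l0 mm ra a Z (Φ.Psi (f w)) = ε) :
    TrF Φ f ρ1 ρ3 d l0 mm ra c a Z w := by
  refine ⟨hlev, ?_⟩
  rcases h with h | h | h
  · left
    rw [h]
    exact rd.bot' hc hε
  · right; left
    rw [h]
    exact rd.top' hc hε
  · right; right
    have h' : Gm l0 mm ra a Z (fun e => Φ.lev e (f w)) = ε := h
    rw [h']
    exact hε

end tr

section s2

variable {Mo' : Type} {n : Ti X → ℕ} {hn : ∀ c, 0 < n c} {hLa : IsOpen La}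
  {hC : Cores Φ T f κ1 κ2 X J0 Jt V ct A lam z θ φ}
  {JN C : Type} {fam : JN → C} [Nonempty (JN ⊕ Mo')]
  {s : GSt (meshC T fr3) (Sum.map fam (id : Mo' → Mo'))} {r : JN ⊕ Mo' → E3}
  {Sf : JN ⊕ Mo' → Set E3} {nb : Ti X → C ⊕ Mo' → Prop}
  {v0 v1 : ∀ c, C ⊕ Mo' → VxK T (slC hLa hC n hn).K c} {u : Ti X → C ⊕ Mo' → E3 → ℝ}
  {Aw Bw : Ti X → C ⊕ Mo' → ℝ}
  {Lv : ∀ c, C ⊕ Mo' → Lev T (frontier ((slC hLa hC n hn).K c)) (JN ⊕ Mo')}
  {Tw : Twrs ((slC hLa hC n hn).sh fr3) (slC hLa hC n hn).n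
    (outK (slC hLa hC n hn).hH (slC hLa hC n hn).dis s r)} {ln : E3 → JN ⊕ Mo'}
  {co am : Mo' → Φ.F} {Zm : Mo' → Set Φ.F}

/-- a truthful point of low gauge is in the open core -/
theorem low_in (hLa : IsOpen La) (hC : Cores Φ T f κ1 κ2 X J0 Jt V ct A lam z θ φ)
    (n : Ti X → ℕ) (hn : ∀ c, 0 < n c) (H : Hm f g Om La)
    (rd : ∀ c ∉ X, Rm Φ T f c (J0 c) (Jt c) (V c) (θ c) (ρ1 c) (ρ2 c) (ρ3 c) (ρ4 c) (d c))
    {c : Φ.F} (hc : c ∉ X) {w : E3} (hw : w ∈ Om) (h : ga Φ c (f w) < ρ2 c) :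
    (slC hLa hC n hn).In ⟨c, hc⟩ w := by
  have hT := hC.tiny c hc
  have hr := rd c hc
  have hG := Ess8_95.ga_of_ray hLa hT.pt (by linarith [hr.r1, hr.r12, hr.r23, hr.r34, hr.d0]) hr.r4 hr.ray
  have hcl : IsClosed (KJ T (Jt c)) :=
    (hT.finV.subset hT.sub).isClosed_biUnion fun i _ => isClosed_P _
  have h1 : w ∈ interior (KJ T (Jt c)) :=
    K_int H (Φ.bf.sub c.1 c.2) hG hr hT.sub0 hcl hT.mem hw h
  refine ⟨interior_subset h1, fun h2 => ?_⟩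
  have h3 : w ∈ frontier (KJ T (Jt c)) := h2
  rw [hcl.frontier_eq] at h3
  exact h3.2 h1

/-- **no barrier point of `s2` has a tile deep inside its box** -/
theorem far_s2 (hδ : 0 < δ) (hR : 0 < R) (hκ1 : 0 < κ1) (hκ : Cn δ R * κ1 < 1)
    (H : Hm f g Om La)
    (rd : ∀ c ∉ X, Rm Φ T f c (J0 c) (Jt c) (V c) (θ c) (ρ1 c) (ρ2 c) (ρ3 c) (ρ4 c) (d c))
    (D : DIn (slC hLa hC n hn).hH s r Sf nb v0 v1 u Aw Bw)
    (lo : LevOut (Kc := (slC hLa hC n hn).K) s nb u Aw Bw Lv)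
    (tt : TwOut (slC hLa hC n hn) fr3 s r v0 v1 Lv Tw)
    (m : Mo') (hcX : co m ∉ X) {p' q' : Φ.F}
    (hM : Bar_106.Mo (Pc Φ.F) (co m) (am m) (Zm m) p' q')
    (hco : ∀ c : Ti X, nb c (Sum.inr m) → c.1 = co m)
    {N : Finset Φ.F} (hN : ∀ e, (Pc Φ.F (co m) ∩ Pc Φ.F e).Nonempty → e ∈ N)
    (hu : ∀ c : Ti X, nb c (Sum.inr m) → ∀ x,
      u c (Sum.inr m) x = Fs N (am m) (Zm m) (sb Φ (θ c.1 x)))
    {l0 mm ra hi z0 W α l1 rF : ℝ} (hNm : Nm l0 mm ra hi) (hz : z0 ≤ hi)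
    (hA : ∀ c : Ti X, nb c (Sum.inr m) → W ≤ Aw c (Sum.inr m)) (hzA : l0 * z0 ≤ W) (hW : W < 1)
    (hzb : z0 + max ((3 * Cn δ R + 1) * κ1 / l0) ((3 * Cn δ R + 1) * κ1 / ra) < 1)
    (hv0 : ∀ c : Ti X, nb c (Sum.inr m) →
      gmf Φ l0 mm ra (am m) (Zm m) (θ c.1 (v0 c (Sum.inr m)).1) ≤ z0)
    (htr : ∀ w ∈ s.P, s.lab w = Sum.inr m → TrF Φ f ρ1 ρ3 d l0 mm ra (co m) (am m) (Zm m) w)
    (hl1 : l1 + Cn δ R * κ1 < l0 * z0) (hα1 : mm - ra * z0 + Cn δ R * κ1 ≤ α)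
    (hα2 : 1 - α ≤ mm + ra * z0 - Cn δ R * κ1) (hα3 : Cn δ R * κ1 ≤ α)
    (hrF : rF ≤ ρ3 (co m) + 12 * d (co m))
    {w : E3} (hw : w ∈ (s2 (slC hLa hC n hn) fr3 Tw ln).P)
    (hwl : (s2 (slC hLa hC n hn) fr3 Tw ln).lab w = Sum.inr m)
    {p : T.RIdx (slC hLa hC n hn).HH} (hp : w ∈ P ((slC hLa hC n hn).T3.H p)) :
    ∃ x ∈ P (T.H p.tile), FarP Φ f (co m) (am m) (Zm m) α l1 rF x := by
  have hCn := Cn_nonneg hδ hR
  have hCκ : 0 ≤ Cn δ R * κ1 := mul_nonneg hCn hκ1.le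
  have hz1 : z0 ≤ 1 := by
    have h1 : 0 ≤ max ((3 * Cn δ R + 1) * κ1 / l0) ((3 * Cn δ R + 1) * κ1 / ra) :=
      le_max_of_le_left (div_nonneg (by positivity) hNm.hl.le)
    linarith
  have hl0 := hNm.hl
  have hra := hNm.hra
  have hr := rd (co m) hcX
  refine loc2o D lo tt (n := Sum.inr m) (FarP Φ f (co m) (am m) (Zm m) α l1 rF) ?_ ?_ ?_ hw hwl hp
  · intro w hw hl hin
    obtain ⟨-, h | h | h⟩ := htr w hw hl
    · refine absurd (low_in hLa hC n hn H rd hcX (D.dim1 w hw).1 ?_) (hin ⟨co m, hcX⟩)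
      linarith [hr.r12, hr.d0]
    · exact Or.inr (Or.inr (Or.inr (hrF.trans h)))
    · refine farP_of_gm (t := 1) hl0 hra (by nlinarith) (by nlinarith) (by nlinarith) h
  · intro c hc x hx h1 _
    have hcc := hco c hc
    have hT : Tiny Φ T f κ1 (co m) (J0 (co m)) (Jt (co m)) (V (co m)) (θ (co m)) (φ (co m)) :=
      hC.tiny _ hcX
    have hx' : x ∈ frontier (KJ T (Jt (co m))) := by rw [← hcc]; exact hx
    have h1' : W < Fs N (am m) (Zm m) (sb Φ (θ (co m) x)) := by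
      have h2 := h1
      have h3 : Sum.map fam (id : Mo' → Mo') (Sum.inr m : JN ⊕ Mo') = Sum.inr m := rfl
      rw [h3, hu c hc x, hcc] at h2
      exact (hA c hc).trans_lt h2
    exact farP_of_fs hLa hδ hR hκ hT hM
      (hN _ (by
        obtain ⟨y, hy⟩ := hM.fcp
        exact ⟨y, mem_fc.1 hy _ (Or.inl hM.cZ), mem_fc.1 hy _ (Or.inr (Or.inr rfl))⟩))
      (hN _ (by
        obtain ⟨y, hy⟩ := hM.fcm
        exact ⟨y, mem_fc.1 hy _ (Or.inl hM.cZ), mem_fc.1 hy _ (Or.inr (Or.inr rfl))⟩))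
      hx' hα3 (by linarith) hW h1'
  · intro c hc v hv
    have hcc := hco c hc
    have hM' : Bar_106.Mo (Pc Φ.F) c.1 (am m) (Zm m) p' q' := by rw [hcc]; exact hM
    have hgt : z0 < gmf Φ l0 mm ra (am m) (Zm m) (θ c.1 v.1) := by
      by_contra hno
      refine not_rgn_axis (κ := Ti X) (cf := fun k => k.1) (J0 := fun k => J0 k.1)
        (J := fun k => Jt k.1) (V := fun k => V k.1) (θ := fun k => θ k.1) (φ := fun k => φ k.1)
        (h3 := fr3) (hH := (slC hLa hC n hn).hH) (hdis := (slC hLa hC n hn).dis) (k := c)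
        (b' := Sum.inr m) (N := N) (a := am m) (Z := Zm m) (p := p') (m := q')
        hLa hδ hR hκ1 hκ (fun k => hC.tiny k.1 k.2) lo (v0 := v0) (v1 := v1) (hu c hc) hM'
        (hN _ (by
          obtain ⟨y, hy⟩ := hM.fcp
          exact ⟨y, mem_fc.1 hy _ (Or.inl hM.cZ), mem_fc.1 hy _ (Or.inr (Or.inr rfl))⟩))
        (hN _ (by
          obtain ⟨y, hy⟩ := hM.fcm
          exact ⟨y, mem_fc.1 hy _ (Or.inl hM.cZ), mem_fc.1 hy _ (Or.inr (Or.inr rfl))⟩))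
        hNm hz (hzA.trans (hA c hc)) hzb (hv0 c hc) ?_ (v := v) (not_lt.1 hno) _ hv
      intro w hw hl hwf
      have hl' : s.lab w = Sum.inr m := by
        rcases hj : s.lab w with j | m'
        · rw [hj] at hl; cases hl
        · rw [hj] at hl
          exact congrArg Sum.inr (Sum.inr_injective hl)
      obtain ⟨h1, h2⟩ := htr w hw hl'
      refine ⟨h1, ?_⟩
      have hfr := hr.fr w (by rw [← hcc]; exact hwf)
      rcases h2 with h2 | h2 | h2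
      · linarith [hr.r12, hr.d0, hfr.1]
      · linarith [hr.d0, hfr.2]
      · exact h2
    have hT : Tiny Φ T f κ1 c.1 (J0 c.1) (Jt c.1) (V c.1) (θ c.1) (φ c.1) := hC.tiny _ c.2
    have h5 : FarP Φ f c.1 (am m) (Zm m) α l1 rF v.1 :=
      farP_of_gmf hLa hδ hR hκ hT v.2.2 hl0 hra hl1 hα1 hα2 hgt.le
    rw [hcc] at h5
    exact h5

end s2

end Crest.Agent.R096.Dch_847
end

-- ▼ part R096/Dcs1_522
section

/-! Row 96 (helper522), DOORS: 662's `Dich` in the machine with 316's sides `sdN` (piece 3 of #12234). -/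

set_option autoImplicit false
set_option linter.unusedSectionVars false
set_option linter.unusedVariables false
set_option linter.style.longLine false

open Set Topology Filter Metric Module Relation MeasureTheory
open scoped Classical

namespace Crest.Agent.R096.Dcs_522

open Crest.Agent.R096.Msh_715 Crest.Agent.R096.Coh_184 Crest.Agent.R096.Lab_184
  Crest.Agent.R096.Main_4 Crest.Agent.R096.Agl5_543
  Crest.Agent.R096.Seq_213 Crest.Agent.R096.St_147 Crest.Agent.R096.Door_501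
  Crest.Agent.R096.Twr_438 Crest.Agent.R096.Exa_560
  Crest.Agent.R096.Ess3_95 Crest.Agent.R096.Ess4_95 Crest.Agent.R096.Ac_117 Crest.Agent.R096.Lm_117
  Crest.Agent.R096.Dfi_539 Crest.Agent.R096.Dfi_471 Crest.Agent.R096.Dfo_539
  Crest.Agent.R096.Sla_184 Crest.Agent.R096.Gm_298
  Crest.Agent.R096.Brk1_582 Crest.Agent.R096.Brk2_582 Crest.Agent.R096.Brk3_582
  Crest.Agent.R096.Brk5_582 Crest.Agent.R096.Bsp_628 Crest.Agent.R096.Init_543
  Crest.Agent.R096.Lv3_471 Crest.Agent.R096.Lv4_471 Crest.Agent.R096.Slt_471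
  Crest.Agent.R096.Dib_438 Crest.Agent.R096.Rop_441 Crest.Agent.R096.Frk_441
  Crest.Agent.R096.Dff_539 Crest.Agent.R096.Frs_662 Crest.Agent.R096.Qdl_662
  Crest.Agent.R096.Cg_501 Crest.Agent.R096.SecW_892 Crest.Agent.R096.Sgd_298
  Crest.Agent.R096.Dfg_539 Crest.Agent.R096.Nmd1_698 Crest.Agent.R096.Civ_662
  Crest.Agent.R096.Lbc_334 Crest.Agent.R096.Bar_106 Crest.Agent.R096.Bgf_4
  Crest.Agent.R096.Dch_847
open Crest.Agent.R096.Sgo_298 (RmA rout ActR)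
open Crest.Agent.R096.Mbf_337 (KJ Tiny Cores Fine sb gau Star Levels Words)
open Crest.Agent.R096.SkC1_961 (E3 FoamD Hom3)
open Crest.Agent.R096.Frn_337 (Ti)
open Crest.Agent.R096.Ess7_95 (KT Sh)
open Crest.Agent.R096.Dia_316 (nbT)
open Crest.Agent.R096.Dfn_416 (BarS)
open Crest.Agent.R096.Bmf_416 (coT coT_fin)
open Crest.Agent.R096.Vin_527 (sdm)
open Crest.Agent.R096.Sde_422 (gR)
open Crest.Agent.R096.Gl_422 (GLab)
open Crest.Agent.R096.Gm_298 (ZK)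
open Crest.Agent.R096.Dchn_316 (sdN OnZ dich_cutR)

variable {δ κ0 R c0 : ℝ} {La Om : Set E3} {ι : Type} {Φ : FoamD δ κ0 R c0 La} {T : Tiling Om ι}
  {f g : E3 → E3} {κ1 κ2 μ : ℝ} {X : Set Φ.F} {J0 J V : Φ.F → Set ι}
  {ct ct' : Φ.F → ι} {A : Φ.F → E3 ≃ᵃ[ℝ] E3} {lam : Φ.F → ℝ} {z : Φ.F → E3}
  {θ : Φ.F → E3 → E3} {φ : Φ.F → E3 → ℝ} {r₀ : Φ.F → ℝ}
  {L : Φ.F → Finset ℝ} [Nonempty (JJ Φ L)] {hG : GF Φ r₀ T f L} {bp : JJ Φ L → E3}
  {N' : BM Φ X → Set ℝ} {ρ1 ρ2 ρ3 ρ4 d : Φ.F → ℝ} {q₀ : BM Φ X → E3} {ε : BM Φ X → ℝ}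
  {bm : BM Φ X → E3} {hGB : GFB Φ r₀ T f L (lRc Φ X μ ρ1 ρ3 d) ε}
  {v0F v1F : ∀ c, Φ.F → VxK T (KT T J X) c} {v0B v1B : ∀ c, BM Φ X → VxK T (KT T J X) c}
  {hLa : IsOpen La} {hC : Cores Φ T f κ1 κ2 X J0 J V ct A lam z θ φ}
  {n : Ti X → ℕ} {hn : ∀ c, 0 < n c} {r : JJ Φ L ⊕ BM Φ X → E3}
  {Sf : JJ Φ L ⊕ BM Φ X → Set E3}
  {Lv : ∀ c, Φ.F ⊕ BM Φ X → Lev T (frontier ((slC hLa hC n hn).K c)) (JJ Φ L ⊕ BM Φ X)}
  {Tw : Twrs ((slC hLa hC n hn).sh fr3) (slC hLa hC n hn).n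
    (outK (slC hLa hC n hn).hH (slC hLa hC n hn).dis (stB hGB bp bm) r)}
  {l0' : E3 → JJ Φ L ⊕ BM Φ X}

/-- the points near the tiny cores outside the remaining cores -/
theorem hU0_m (H : Hm f g Om La) (hRm : RmA Φ T f X J0 J V θ ρ1 ρ2 ρ3 ρ4 d)
    {w : E3} (hw : w ∈ UTm Om Φ f X ρ3 d) {p : T.RIdx (slC hLa hC n hn).HH}
    (hp : ∀ k, ¬ P ((slC hLa hC n hn).T3.H p) ⊆ (slC hLa hC n hn).KK k)
    (hwp : w ∈ P ((slC hLa hC n hn).T3.H p)) :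
    p.tile ∉ KorJ Φ J0 ∧ ∃ c : Ti X, Φ.lev c.1 (f w) = 0 ∧ Ess5_95.ga Φ c.1 (f w) ≤ ρ3 c.1 + 8 * d c.1 := by
  obtain ⟨hwO, c, hc⟩ := hw
  have hr := hRm c.1 c.2
  have hwt : w ∈ P (T.H p.tile) := Sla.P3_sub p hwp
  have hV : p.tile ∈ V c.1 := hr.v p.tile ⟨w, hwt, by linarith [hr.r34, hr.d0]⟩
  have hk := Bse_344.kor_s2 hLa hC n hn p hp ⟨c.1, c.2, hV⟩
  exact ⟨fun ⟨e, he⟩ => hk e he, c, lev_zero hLa H (hC.tiny c.1 c.2) hr hV (hk c.1) hwt, hc⟩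

/-- the patch function near the axis -/
theorem gR_le (N : NumD δ κ0 R c0 κ2 μ κ1) (h1 : κ1 < μ / 32) (m : BM Φ X) {w : E3}
    (ha : Φ.lev m.am (f w) ∈ Icc (3 * μ / 8 - κ1) (1 - 3 * μ / 8 + κ1))
    (hd : ∀ e, dv m.am m.Zm (fun e => Φ.lev e (f w)) e ≤ μ / 32) :
    gR Φ X μ m (Φ.Psi (f w)) ≤ 1 - μ / 16 := by
  have hμ := N.hμ
  have hμb := N.hμb
  have hra : (0 : ℝ) < 1 / 2 - 5 * μ / 16 := by linarith
  show max (Fm m.am m.Zm (fun e => Φ.lev e (f w)) / (μ / 8))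
    (|Φ.lev m.am (f w) - 1 / 2| / (1 / 2 - 5 * μ / 16)) ≤ 1 - μ / 16
  refine max_le ?_ ?_
  · rw [div_le_iff₀ N.l0]
    have h3 : Fm m.am m.Zm (fun e => Φ.lev e (f w)) ≤ μ / 32 := Fm_le hd
    nlinarith
  · rw [div_le_iff₀ hra, abs_le]
    constructor <;> nlinarith [ha.1, ha.2]

section s2

variable (N : NumD δ κ0 R c0 κ2 μ κ1) (H : Hm f g Om La)
  (bar : BarOut Φ T f κ1 μ X J0 J V θ hG bp N' ρ1 ρ2 ρ3 ρ4 d q₀ ε bm hGB v0B v1B)
  (D : DIn (slC hLa hC n hn).hH (stB hGB bp bm) r Sf (nbA Φ X) (vS v0F v0B) (vS v1F v1B)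
    (uA Φ hLa X θ) (AA Φ X μ κ1) (BA Φ X μ))
  (lo : LevOut (Kc := (slC hLa hC n hn).K) (stB hGB bp bm) (nbA Φ X) (uA Φ hLa X θ)
    (AA Φ X μ κ1) (BA Φ X μ) Lv)
  (tt : TwOut (slC hLa hC n hn) fr3 (stB hGB bp bm) r (vS v0F v0B) (vS v1F v1B) Lv Tw)
  (rec : BR hLa (stB hGB bp bm) f X J θ coT BM.am BM.Zm (nbA Φ X) (vS v0F v0B) (vS v1F v1B)
    (uA Φ hLa X θ) (AA Φ X μ κ1) (BA Φ X μ) μ κ1)
include N H bar D lo tt rec

/-- the barrier points of `s2` : upper and lower bound of the deviations -/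
theorem far_m {b : E3} (hb : b ∈ (s2 (slC hLa hC n hn) fr3 Tw l0').P) {m : BM Φ X}
    (hbl : (s2 (slC hLa hC n hn) fr3 Tw l0').lab b = Sum.inr m)
    {p : T.RIdx (slC hLa hC n hn).HH}
    (hp : ∀ k, ¬ P ((slC hLa hC n hn).T3.H p) ⊆ (slC hLa hC n hn).KK k)
    (hbp : b ∈ P ((slC hLa hC n hn).T3.H p))
    (hU : (P ((slC hLa hC n hn).T3.H p) ∩ UTm Om Φ f X ρ3 d).Nonempty)
    (ha : ∀ x ∈ P (T.H p.tile), Φ.lev m.am (f x) ∈ Ioo (3 * μ / 8) (1 - 3 * μ / 8)) :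
    (∃ x ∈ P (T.H p.tile), ∀ e, dv m.am m.Zm (fun e => Φ.lev e (f x)) e ≤
      3 * μ / 16 + Cn δ R * κ1) ∧
    ∃ x ∈ P (T.H p.tile), ∃ e, μ / 16 + κ1 ≤ dv m.am m.Zm (fun e => Φ.lev e (f x)) e := by
  have hμ := N.hμ
  have hμb := N.hμb
  have hκ := N.hκ
  have hRm : RmA Φ T f X J0 J V θ ρ1 ρ2 ρ3 ρ4 d := fun c hc => (bar.rm c hc).2
  obtain ⟨n1, n2, n3, n4, n5, n6⟩ := N.base
  have hga : ∀ w ∈ (stB hGB bp bm).P, ∀ m, (stB hGB bp bm).lab w = Sum.inr m →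
      Ess5_95.ga Φ (coT m).1 (f w) ≤ ρ3 (coT m).1 + 15 * d (coT m).1 := fun w hw m hl => by
    have h3 := (bar.gau m w hw hl).2
    have h4 := (hRm m.co m.co_notMem).d0
    show Ess5_95.ga Φ m.co (f w) ≤ ρ3 m.co + 15 * d m.co
    linarith
  constructor
  · obtain ⟨x, hx, h3⟩ := box_m N hRm D lo tt rec hga m hb hbl hbp
    exact ⟨x, hx, h3.2⟩
  · obtain ⟨w, hwp, hwU⟩ := hU
    have hwt : w ∈ P (T.H p.tile) := Sla.P3_sub p hwp
    obtain ⟨p', q', hmo⟩ := m.mo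
    have hfar := far_s2 (co := fun m : BM Φ X => m.co) (am := BM.am) (Zm := BM.Zm)
      (N := Nb Φ hLa m.co) (l0 := μ / 8) (mm := 1 / 2) (ra := 1 / 2 - 5 * μ / 16) (hi := 1 + μ / 2)
      (z0 := 1 - μ / 64) (W := 5 * μ / 32) (α := 3 * μ / 8) (l1 := μ / 16 + κ1)
      (rF := ρ3 m.co + 12 * d m.co) N.hδ N.hR N.hκ N.cn1 H hRm D lo tt m m.co_notMem hmo
      (fun c hc => by
        have h : coT m = c := hc
        rw [← h]; rfl) (fun e he => mem_Nb.2 he)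
      (fun c hc x => by
        have h : coT m = c := hc
        subst h; exact rec.um (coT m) m x)
      (nm_rec hμ hμb (by linarith) le_rfl) (by linarith)
      (fun c hc => by rw [rec.Am c m]) (by nlinarith) (by linarith) ?_ ?_ ?_ ?_ ?_ ?_ ?_ le_rfl
      hb hbl hbp
    · obtain ⟨x, hx, h3 | h3 | h3 | h3⟩ := hfar
      · exact ⟨x, hx, h3⟩
      · exact absurd h3 (not_le.2 (ha x hx).1)
      · exact absurd h3 (not_le.2 (ha x hx).2)
      · exfalso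
        obtain ⟨-, c, hc⟩ := hwU
        have hr := hRm c.1 c.2
        have hV : p.tile ∈ V c.1 := hr.v p.tile ⟨w, hwt, by linarith [hr.r34, hr.d0]⟩
        have hk := Bse_344.kor_s2 hLa hC n hn p hp ⟨c.1, c.2, hV⟩ c.1
        obtain ⟨x', hx', h5, -⟩ := box_m N hRm D lo tt rec hga m hb hbl hbp
        have hrm := hRm m.co m.co_notMem
        have hV' : p.tile ∈ V m.co := hrm.v p.tile ⟨x', hx', by
          have h6 : Ess5_95.ga Φ m.co (f x') ≤ ρ3 m.co + 16 * d m.co := h5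
          linarith [hrm.r34]⟩
        have hcc : c.1 = m.co := by
          by_contra hne
          exact Set.disjoint_left.1 (hC.disj c.1 m.co hne) hV hV'
        have h7 := (abs_le.1 (hr.osc p.tile hV hk x hx w hwt).1).2
        have h8 : ρ3 m.co + 12 * d m.co ≤ Ess5_95.ga Φ m.co (f x) := h3
        rw [← hcc] at h8
        linarith [hr.d0]
    · have h3 := N.om2 (r := (3 * Cn δ R + 1) * κ1) (by nlinarith [N.cn0, N.hκ])
      linarith
    · intro c hc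
      have h : coT m = c := hc
      subst h
      exact (Sde_422.g_v0 N hLa hC bar m).trans (by linarith)
    · intro w hw hl
      have rd : Nmd2_698.RadD Φ T f κ1 X J0 J V θ ρ1 ρ2 ρ3 ρ4 d := ⟨hRm, fun c hc => (bar.rm c hc).1⟩
      obtain ⟨-, -, -, -, -, -, -, e4⟩ := bar.pos m w hw hl
      exact trF_of (sg := μ / 16) rd m.co_notMem (bar.lv m).1.le (bar.lev m w hw hl).1 e4
    · nlinarith
    · nlinarith
    · nlinarith
    · linarith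

/-- **662's `Dich` IN THE MACHINE** with the sides `sdN` of 422's labels -/
theorem dich_mS [Nonempty (slC hLa hC n hn).T3.Cell]
    (hnC : ∃ c, OutK (slC hLa hC n hn).T3 (slC hLa hC n hn).KK c)
    {hR : InitR Φ T f g J0 ct' r₀}
    {hM : Mesh0 T (Pc Φ.F) (bc (F := Φ.F)) (RF Φ r₀) f (KorJ Φ J0) κ1}
    {h1 : κ1 < μ / 32} {h2 : κ1 < 1}
    {lm : BM Φ X → Lm_117.QK (belK (slC hLa hC n hn).T3 (slC hLa hC n hn).KK) → ZMod 2}
    (l3 : ∀ m, ∀ w ∈ (lmK fr3 (Lay_316.lay_sla hLa hC n hn).core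
          (Sla.dis_KK (S := slC hLa hC n hn)) hnC).W1,
        ∀ p, (∀ c, ¬ P ((slC hLa hC n hn).T3.H p) ⊆ (slC hLa hC n hn).KK c) →
        w ∈ P ((slC hLa hC n hn).T3.H p) → Ess5_95.ga Φ m.co (f w) ≤ ρ3 m.co + 8 * d m.co →
        gR Φ X μ m (Φ.Psi (f w)) ≤ 1 - μ / 16 →
        sdm (lmK fr3 (Lay_316.lay_sla hLa hC n hn).core (Sla.dis_KK (S := slC hLa hC n hn)) hnC)
          (s2 (slC hLa hC n hn) fr3 Tw l0') lm m w)
    {Act : Φ.F → Set (T.RIdx (slC hLa hC n hn).HH ⊕ Ti X)}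
    {s₃ : GSt ((slC hLa hC n hn).mn fr3) (fun j : JJ Φ L => j.1)}
    (D3 : Dfo_539.CutOut (s2 (slC hLa hC n hn) fr3 Tw l0') BM.am Act s₃) :
    Dich (hH := (Lay_316.lay_sla hLa hC n hn).core) (hdis := Sla.dis_KK)
      (qdT (fun p : T.RIdx (slC hLa hC n hn).HH => p.tile) (sla_sub (slC hLa hC n hn))
        (slC hLa hC n hn).KK hLa hR hM h1 h2) s₃ (UTm Om Φ f X ρ3 d) BM.am
      (sdN (hH := (Lay_316.lay_sla hLa hC n hn).core) (hdis := Sla.dis_KK) Φ T f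
        (fun p : T.RIdx (slC hLa hC n hn).HH => p.tile) (3 * μ / 8)
        (s2 (slC hLa hC n hn) fr3 Tw l0')
        (sdm (lmK fr3 (Lay_316.lay_sla hLa hC n hn).core (Sla.dis_KK (S := slC hLa hC n hn)) hnC)
          (s2 (slC hLa hC n hn) fr3 Tw l0') lm)) := by
  have hμ := N.hμ
  have hμb := N.hμb
  have hRm : RmA Φ T f X J0 J V θ ρ1 ρ2 ρ3 ρ4 d := fun c hc => (bar.rm c hc).2
  obtain ⟨n1, n2, n3, n4, n5, n6⟩ := N.base
  have hon : ∀ w ∈ (s2 (slC hLa hC n hn) fr3 Tw l0').P,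
      w ∈ (lmK fr3 (Lay_316.lay_sla hLa hC n hn).core (Sla.dis_KK (S := slC hLa hC n hn)) hnC).W1 :=
    fun w hw => mem_W1K.2 ⟨(s2_dim hw).1, (s2_dim hw).2, fun c => s2_not_int hw c⟩
  refine dich_cutR (s₂ := s2 (slC hLa hC n hn) fr3 Tw l0') (α := 3 * μ / 8)
    (l := 3 * μ / 16 + Cn δ R * κ1) (l1 := μ / 16 + κ1)
    (Nr := fun c w => Ess5_95.ga Φ c (f w) ≤ ρ3 c + 8 * d c)
    (by linarith) (by linarith) (by linarith) (by linarith) ?_ ?_ ?_ ?_ ?_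
  · intro w hw _ _ p hp hwp
    obtain ⟨g1, c, g2, g3⟩ := hU0_m (hLa := hLa) (hC := hC) (n := n) (hn := hn) H hRm hw hp hwp
    exact ⟨g1, c, g3, g2⟩
  · intro w hw p hp hwp
    rcases cases3 (hKK := (Lay_316.lay_sla hLa hC n hn).core) D3 hw hwp hp with
      ⟨g1, g2⟩ | ⟨g1, b, g2, m, g3, g4, g5, -⟩
    · exact Or.inl ⟨g1, g2⟩
    · exact Or.inr ⟨g1, b, g2, m, g3, g4, g5⟩
  · intro w hw j hl p hp hwp hK
    obtain ⟨x, hx, h3⟩ := pos_m N D lo tt rec j w hw hl p hp hwp hK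
    exact ⟨x, hx, by linarith [h3.1], by linarith [h3.2]⟩
  · intro b hb m hm p hp hbp _ hU ha
    exact far_m N H bar D lo tt rec hb hm hp hbp hU ha
  · intro w _ hw j _ _ m hm hG _ ha hd
    obtain ⟨p, hwp, hp⟩ := s2_tile hw
    refine l3 m w (hon w hw) p hp hwp hG (gR_le N h1 m ?_ hd)
    exact ⟨by linarith [ha.1], by linarith [ha.2]⟩

end s2

end Crest.Agent.R096.Dcs_522
end

-- ▼ part R096/Dcs2_522
section

/-! Row 96 (helper522), DOORS: **895's `DICHM`**. -/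

set_option autoImplicit false
set_option linter.unusedSectionVars false
set_option linter.unusedVariables false
set_option linter.style.longLine false

namespace Crest.Agent.R096.Dcs_522

/-- **`DICHM` IS PROVED** -/
theorem dichm : Hop_895.DICHM := by
  intro δ κ0 R c0 κ2 κ3 κp μ κ1 Om La f g hLa Φ ι T X J0 J V ct A lam z θ φ M hC ct' r₀ hR hM h1 h2
    L _ hG D bp lam₀ v₀ v₁ r v0 v1 ρ1 ρ2 ρ3 ρ4 d q₀ ε bm hGB v0B v1B n hn Lv Tw MM _ hnC l0' hmf j0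
    hj0 lm _ _ l3 hs far t Ph s₃ _ _ _ DR _
  exact dich_mS MM.N hR.hm MM.bar MM.din MM.lo MM.tt MM.brec hnC l3 (Dff_539.cutOut_of DR)

end Crest.Agent.R096.Dcs_522
end

-- ▼ part R096/Asq8_895
section

/-!
# Row 96, S0127 from `NE1M` (778) and `NEWINM` (688) (helper895, assembly)
-/

set_option autoImplicit false
set_option linter.style.longLine false

namespace Crest.Agent.R096.Asq_895

open MeasureTheory Metric Set Filter Topology
open scoped ENNReal Gradient NNReal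
open Crest.AnalysisR.VecCalc3 Crest.AnalysisR.Sobolev

/-- **S0127 from the two last leaves of DOORS** (`DICHM` = 522's `dichm`) -/
theorem s0127_NE_NEWIN (h1 : Hop_895.NE1M) (h2 : Hop_895.NEWINM)
    (Ω Λ : Set R3) (hΩo : IsOpen Ω) (hΩb : Bornology.IsBounded Ω) (hΩc : IsConnected Ω)
    (hΛo : IsOpen Λ) (hΛb : Bornology.IsBounded Λ) (hΛc : IsConnected Λ)
    (p : ℝ) (hp : 1 ≤ p) (f : R3 → R3) (hf : IsHomeomorphOn f Ω Λ)
    (hfp : MemLp f (ENNReal.ofReal p) (volume.restrict Ω))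
    (G : Fin 3 → R3 → R3) (hG : ∀ j : Fin 3, HasWeakGradOn Ω (fun x => f x j) (G j))
    (hGp : ∀ j : Fin 3, MemLp (G j) (ENNReal.ofReal p) (volume.restrict Ω))
    (ε : ℝ≥0∞) (hε : 0 < ε) :
    ∃ g : R3 → R3, IsSmoothDiffeoOn g Ω Λ ∧ MemLp g (ENNReal.ofReal p) (volume.restrict Ω) ∧
      (∀ j : Fin 3, MemLp (fun x => ∇ (fun y => g y j) x) (ENNReal.ofReal p) (volume.restrict Ω)) ∧
      ∫⁻ x in Ω, (‖g x - f x‖ₑ ^ p + ∑ j : Fin 3, ‖∇ (fun y => g y j) x - G j x‖ₑ ^ p) < ε :=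
  s0127_NE_DICH h1 h2 Dcs_522.dichm Ω Λ hΩo hΩb hΩc hΛo hΛb hΛc p hp f hf hfp G hG hGp ε hε

end Crest.Agent.R096.Asq_895
end

-- ▼ part R096/Nef1_778
section

/-!
# R096 (row 96), DOORS, NE1 (helper778), part 1: potentials over a strip

`strip` : `D` compact with trivial torsors, local potentials of `κ` on the tiles which meet `D`; then
there is one function `u` on `D` such that for every connected `K ⊆ D` and every potential `lm` of `κ`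
on the tiles which meet `K`, `u - lm` is constant on `K`.
`strip_loop` : two potentials `0` along `K`, `lm` along `K'`, `K ∩ K' ∋ x, y` : `lm` has the same value
at the vertices near `x` and near `y`.
-/

set_option autoImplicit false
set_option linter.unusedSectionVars false

open Set Topology Filter Metric Module

namespace Crest.Agent.R096.Nef_778

open Crest.Agent.R096.Msh_715 Crest.Agent.R096.Coh_184 Crest.Agent.R096.Lab_184

variable {E : Type*} [NormedAddCommGroup E] [NormedSpace ℝ E] [FiniteDimensional ℝ E]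
variable {Om : Set E} {ι : Type*} {T : Tiling Om ι} {A : Type*} [AddCommGroup A]

/-- two potentials on a tile differ by a constant -/
theorem pot_const {κ : E → E → E → A} {ψ ψ' : E → A} {q : ι} (h : T.Exact κ ψ (P (T.H q)))
    (h' : T.Exact κ ψ' (P (T.H q))) {v w : E} (hv : v ∈ P (T.H q)) (hw : w ∈ P (T.H q))
    (hv0 : T.dim v = 0) (hw0 : T.dim w = 0) : ψ v - ψ' v = ψ w - ψ' w :=
  T.const_of_preconnected (φ := fun z => ψ z - ψ' z) (convex_P (T.H q)).isPreconnected (T.sub q)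
    (fun _ hx => T.cc_sub_tile hx) (Tiling.Exact.edgeConst T h h') v hv w hw hv0 hw0

/-- **potentials over a compact set with trivial torsors** -/
theorem strip {D : Set E} (hD : IsCompact D) (hDO : D ⊆ Om) (ht : TrivF A D)
    {κ : E → E → E → A}
    (hψ : ∀ q, (P (T.H q) ∩ D).Nonempty → ∃ ψ : E → A, T.Exact κ ψ (P (T.H q))) :
    ∃ (g : E → E) (u : E → A), (∀ x ∈ Om, g x ∈ T.cc x ∧ T.dim (g x) = 0) ∧
      ∀ K ⊆ D, IsPreconnected K → ∀ lm : E → A,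
        (∀ q, (P (T.H q) ∩ K).Nonempty → T.Exact κ lm (P (T.H q))) →
        ∀ x ∈ K, ∀ y ∈ K, u x - lm (g x) = u y - lm (g y) := by
  classical
  have hvert : ∀ x ∈ Om, ∃ v ∈ T.cc x, T.dim v = 0 := fun x hx => T.exists_vertex hx
  choose! g hg hg0 using hvert
  have hfin := T.finite_tiles hD hDO
  have : Finite {q // (P (T.H q) ∩ D).Nonempty} := hfin
  choose ψ hψe using fun q : {q // (P (T.H q) ∩ D).Nonempty} => hψ q.1 q.2
  have hcoc : Coc (fun q : {q // (P (T.H q) ∩ D).Nonempty} => P (T.H q.1))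
      (fun i j x => ψ i (g x) - ψ j (g x)) D := by
    refine ⟨fun q => isClosed_P _, ?_, fun i j => ?_, fun i j k x _ _ _ _ => by abel⟩
    · intro x hx
      obtain ⟨q, hq⟩ := T.cov x (hDO hx)
      exact mem_iUnion.2 ⟨⟨q, x, hq, hx⟩, hq⟩
    · rintro x ⟨⟨hxi, hxj⟩, hxS⟩
      have hxO := T.sub i.1 hxi
      have h1 : ∀ᶠ y in 𝓝[P (T.H i.1) ∩ P (T.H j.1) ∩ D] x, y ∈ Om ∧ x ∈ T.cc y :=
        (T.eventually_mem_cc hxO).filter_mono nhdsWithin_le_nhds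
      filter_upwards [h1, self_mem_nhdsWithin] with y hy hyC
      have h2 : T.EdgeConst (fun v => ψ i v - ψ j v) (T.cc y) :=
        Tiling.Exact.edgeConst T ((hψe i).mono T (T.cc_sub_tile hyC.1.1))
          ((hψe j).mono T (T.cc_sub_tile hyC.1.2))
      exact T.const_cell hy.1 h2 (g y) (hg y hy.1) (g x) (T.cc_sub_of_mem hy.2 (hg x hxO))
        (hg0 y hy.1) (hg0 x hxO)
  obtain ⟨χ, hχ, hχd⟩ := (ht.all {q // (P (T.H q) ∩ D).Nonempty}) _ _ hcoc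
  let u : E → A := fun x => if h : ∃ q : {q // (P (T.H q) ∩ D).Nonempty}, x ∈ P (T.H q.1) then
    ψ h.choose (g x) - χ h.choose x else 0
  have hu : ∀ (q : {q // (P (T.H q) ∩ D).Nonempty}) x, x ∈ P (T.H q.1) → x ∈ D →
      u x = ψ q (g x) - χ q x := by
    intro q x hq hx
    have h : ∃ q : {q // (P (T.H q) ∩ D).Nonempty}, x ∈ P (T.H q.1) := ⟨q, hq⟩
    have e1 : u x = ψ h.choose (g x) - χ h.choose x := dif_pos h
    have h1 : χ h.choose x - χ q x = ψ h.choose (g x) - ψ q (g x) :=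
      hχd h.choose q x h.choose_spec hq hx
    rw [e1]
    rw [sub_eq_sub_iff_add_eq_add] at h1 ⊢
    exact h1.symm.trans (add_comm _ _)
  refine ⟨g, u, fun x hx => ⟨hg x hx, hg0 x hx⟩, fun K hKD hK lm hlm x hx y hy => ?_⟩
  have hLC : LC (fun x => u x - lm (g x)) K := by
    have hEq : K = ⋃ q : {q // (P (T.H q) ∩ D).Nonempty}, (P (T.H q.1) ∩ K) := by
      rw [← iUnion_inter]
      apply (inter_eq_self_of_subset_right _).symm
      intro x hx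
      obtain ⟨q, hq⟩ := T.cov x (hDO (hKD hx))
      exact mem_iUnion.2 ⟨⟨q, x, hq, hKD hx⟩, hq⟩
    -- locally constant on every tile
    have key : ∀ q : {q // (P (T.H q) ∩ D).Nonempty},
        LC (fun x => u x - lm (g x)) (P (T.H q.1) ∩ K) := by
      rintro q z ⟨hzq, hzK⟩
      have h1 := hχ q z ⟨hzq, hKD hzK⟩
      have h2 : ∀ᶠ y in 𝓝[P (T.H q.1) ∩ K] z, χ q y = χ q z :=
        h1.filter_mono (nhdsWithin_mono z (inter_subset_inter_right _ hKD))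
      filter_upwards [h2, self_mem_nhdsWithin] with y hy hyC
      have h3 := pot_const (hψe q) (hlm q.1 ⟨z, hzq, hzK⟩)
        (T.cc_sub_tile hyC.1 (hg y (T.sub _ hyC.1))) (T.cc_sub_tile hzq (hg z (T.sub _ hzq)))
        (hg0 y (T.sub _ hyC.1)) (hg0 z (T.sub _ hzq))
      show u y - lm (g y) = u z - lm (g z)
      rw [hu q y hyC.1 (hKD hyC.2), hu q z hzq (hKD hzK), hy]
      rw [sub_right_comm, h3, sub_right_comm]
    -- near a point of `K` only finitely many tiles, all of them contain the point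
    intro z hzK
    have hall : ∀ q : {q // (P (T.H q) ∩ D).Nonempty}, ∀ᶠ y in 𝓝[K] z, y ∈ P (T.H q.1) →
        u y - lm (g y) = u z - lm (g z) := by
      intro q
      by_cases hzq : z ∈ P (T.H q.1)
      · have h1 := key q z ⟨hzq, hzK⟩
        rw [eventually_nhdsWithin_iff] at h1 ⊢
        filter_upwards [h1] with y hy h2 h3
        exact hy ⟨h3, h2⟩
      · have h1 : ∀ᶠ y in 𝓝 z, y ∉ P (T.H q.1) := (isClosed_P _).isOpen_compl.mem_nhds hzq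
        filter_upwards [nhdsWithin_le_nhds h1] with y hy h3
        exact (hy h3).elim
    have h4 : ∀ᶠ y in 𝓝[K] z, ∀ q : {q // (P (T.H q) ∩ D).Nonempty}, y ∈ P (T.H q.1) →
        u y - lm (g y) = u z - lm (g z) := eventually_all.2 hall
    filter_upwards [h4, self_mem_nhdsWithin] with y hy hyK
    obtain ⟨q, hq⟩ := T.cov y (hDO (hKD hyK))
    exact hy ⟨q, y, hq, hKD hyK⟩ hq
  exact hLC.eq_of_preconnected hK hx hy

/-- **the loop** -/
theorem strip_loop {D : Set E} (hD : IsCompact D) (hDO : D ⊆ Om) (ht : TrivF A D)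
    {κ : E → E → E → A}
    (hψ : ∀ q, (P (T.H q) ∩ D).Nonempty → ∃ ψ : E → A, T.Exact κ ψ (P (T.H q)))
    {K K' : Set E} (hKD : K ⊆ D) (hK : IsPreconnected K) (hKD' : K' ⊆ D) (hK' : IsPreconnected K')
    (h0 : ∀ q, (P (T.H q) ∩ K).Nonempty → T.Exact κ (fun _ => 0) (P (T.H q)))
    {lm : E → A} (hlm : ∀ q, (P (T.H q) ∩ K').Nonempty → T.Exact κ lm (P (T.H q)))
    {x y : E} (hx : x ∈ K) (hx' : x ∈ K') (hy : y ∈ K) (hy' : y ∈ K') {v w : E}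
    (hv : ∃ q, v ∈ P (T.H q) ∧ x ∈ P (T.H q)) (hw : ∃ q, w ∈ P (T.H q) ∧ y ∈ P (T.H q))
    (hv0 : T.dim v = 0) (hw0 : T.dim w = 0) : lm v = lm w := by
  obtain ⟨g, u, hg, hu⟩ := strip hD hDO ht hψ
  have h1 := hu K hKD hK _ h0 x hx y hy
  have h2 := hu K' hKD' hK' _ hlm x hx' y hy'
  have h3 : ∀ z ∈ K', z ∈ K → ∀ v q, v ∈ P (T.H q) → z ∈ P (T.H q) → T.dim v = 0 →
      lm v = lm (g z) := by
    intro z hz hzK v q hv hzq hv0
    obtain ⟨g1, g2⟩ := hg z (T.sub q hzq)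
    have e := pot_const (hlm q ⟨z, hzq, hz⟩) (h0 q ⟨z, hzq, hzK⟩) hv (T.cc_sub_tile hzq g1) hv0 g2
    simpa using e
  obtain ⟨q, hvq, hxq⟩ := hv
  obtain ⟨q', hwq, hyq⟩ := hw
  rw [h3 x hx' hx v q hvq hxq hv0, h3 y hy' hy w q' hwq hyq hw0]
  simp only [sub_zero] at h1
  rw [h1] at h2
  exact sub_right_injective h2

end Crest.Agent.R096.Nef_778
end

-- ▼ part R096/Nef2_778
section

/-!
# R096 (row 96), DOORS, NE1 (helper778), part 2: the core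

`core` : `X` = a set of points of the name `i` of `s2`, closed under the chords on the outer faces and
on the vertical faces over `D` (2-dimensional, `TrivF`), without points at the bottom.  Column `K`
without moved vertices and without points of `X`; `K'` outside the cores, `lm` = label of `X` along
`K'`.  Then `lm` has the same value at the two ends.
-/

set_option autoImplicit false
set_option linter.unusedSectionVars false
set_option linter.unusedVariables false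
set_option linter.style.longLine false

open Set Module
open scoped Classical

namespace Crest.Agent.R096.Nef_778

open Crest.Agent.R096.Msh_715 Crest.Agent.R096.Agl5_543 Crest.Agent.R096.St_147
  Crest.Agent.R096.Seq_213 Crest.Agent.R096.Door_501 Crest.Agent.R096.Sla_184
  Crest.Agent.R096.Twr_438 Crest.Agent.R096.Exa_560 Crest.Agent.R096.Ess3_95
  Crest.Agent.R096.Ess4_95 Crest.Agent.R096.Dfi_539 Crest.Agent.R096.Dfi_471
  Crest.Agent.R096.Yl_471 Crest.Agent.R096.Ent_527 Crest.Agent.R096.Coh_184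
  Crest.Agent.R096.Lab_184
open Crest.Agent.R096.Sla_184.Sla (hf vf old tg F0 Fn Out OnS InL In)
open Crest.Agent.R096.Cns_778 (nd_of)

variable {E : Type} [NormedAddCommGroup E] [NormedSpace ℝ E] [FiniteDimensional ℝ E]
variable {Om : Set E} {ι : Type} {T : Tiling Om ι} {κ : Type} {S : Sla T κ}
  {h3 : finrank ℝ E = 3} {J C : Type} {fam : J → C}

variable {s : GSt (S.m0 h3) fam} {Tw : Twrs (S.sh h3) S.n s} {l0 : E → J}
  {a : C} {i : J} {X D : Set E}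

/-- parity of the vertical points over `v` -/
noncomputable def LamE (Tw : Twrs (S.sh h3) S.n s) (l0 : E → J) (a : C) (i : J) (X : Set E)
    (v : E) : ZMod 2 :=
  if h : ∃ c, T.dim v = 0 ∧ v ∈ frontier (S.K c) then Lam Tw l0 h.choose a i X ⟨v, h.choose_spec⟩
  else 0

theorem lamE_eq {c : κ} (v : S.Vx c) : LamE Tw l0 a i X v.1 = Lam Tw l0 c a i X v := by
  have h : ∃ c, T.dim v.1 = 0 ∧ v.1 ∈ frontier (S.K c) := ⟨c, v.2⟩
  have e : LamE Tw l0 a i X v.1 = Lam Tw l0 h.choose a i X ⟨v.1, h.choose_spec⟩ := dif_pos h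
  rw [e]
  have h1 : h.choose = c := S.core_unique (S.fr_sub _ h.choose_spec.2) (S.fr_sub c v.2.2)
  have key : ∀ c' (h' : T.dim v.1 = 0 ∧ v.1 ∈ frontier (S.K c')), c' = c →
      Lam Tw l0 c' a i X ⟨v.1, h'⟩ = Lam Tw l0 c a i X v := by
    intro c' h' e'
    subst e'
    rfl
  exact key _ _ h1

theorem lamE_zero {v : E} (h : ∀ c, v ∉ frontier (S.K c)) : LamE Tw l0 a i X v = 0 :=
  dif_neg fun ⟨c, hc⟩ => h c hc.2

theorem QX_fin (s : GSt (S.m0 h3) fam) (i : J) (X : Set E) :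
    {w | w ∈ s.P ∧ s.lab w = i ∧ w ∈ X}.Finite :=
  (s.fin (fam i)).subset fun w hw => ⟨hw.1, by rw [hw.2.1]⟩

/-- the points of `X` in the outer state -/
noncomputable def QX (s : GSt (S.m0 h3) fam) (i : J) (X : Set E) : Finset E :=
  (QX_fin s i X).toFinset

theorem mem_QX {w : E} : w ∈ QX s i X ↔ w ∈ s.P ∧ s.lab w = i ∧ w ∈ X := by
  unfold QX; rw [Set.Finite.mem_toFinset]; rfl

theorem QX_dim (Tw : Twrs (S.sh h3) S.n s) {w : E} (hw : w ∈ QX s i X) : T.dim w = 1 :=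
  (s_out (mem_QX.1 hw).1 Tw).2

/-- closed under the chords on the outer faces of the tiles which meet `D` -/
def Ocl (S : Sla T κ) (h3 : finrank ℝ E = 3) {s : GSt (S.m0 h3) fam} (Tw : Twrs (S.sh h3) S.n s)
    (l0 : E → J) (D : Set E) (i : J) (X : Set E) : Prop :=
  ∀ q, (P (T.H q) ∩ D).Nonempty → (∀ c, ¬ P (T.H q) ⊆ S.K c) → ∀ F0 : S.F0 h3,
    q ∈ F0.1.side h3 → ∀ x ∈ X, x ∈ (s2 S h3 Tw l0).P → (s2 S h3 Tw l0).lab x = i →
      x ∈ (S.mn h3).On (old F0) → (s2 S h3 Tw l0).mu (old F0) x ∈ X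

/-- the edges of the core `c` which are on tiles which meet `D` -/
def BD (S : Sla T κ) (D : Set E) (c : κ) : Set (S.Ed c) :=
  {e | ∃ q, e.1.set ⊆ P (T.H q) ∧ (P (T.H q) ∩ D).Nonempty}

/-- **the outer tiles** -/
theorem even_out (hO : Ocl S h3 Tw l0 D i X) {q : ι} (hqD : (P (T.H q) ∩ D).Nonempty)
    (hqK : ∀ c, ¬ P (T.H q) ⊆ S.K c) {x : E} (hx : x ∈ P (T.H q)) (hd : T.dim x = 2) :
    _root_.Even ((QX s i X : Set E) ∩ T.cc x).ncard := by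
  have hxO := T.sub q hx
  have hside : q ∈ (mk2 T hxO hd).side h3 := by
    refine C2.mem_side.2 ?_
    have h1 : (mk2 T hxO hd).pt ∈ P (T.H q) :=
      T.cc_sub_tile hx (T.oc_sub_cc _ (Slc_184.mk2_pt hxO hd))
    exact h1
  set F0 : S.F0 h3 := ⟨mk2 T hxO hd, nd_of hside hqK⟩ with hF0
  have hon : ∀ w ∈ (QX s i X).filter (fun w => w ∈ T.cc x), (w ∈ s.P ∧ s.lab w = i ∧ w ∈ X) ∧
      w ∈ (S.m0 h3).On F0 ∧ w ∈ (S.mn h3).On (old F0) := by
    intro w hw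
    obtain ⟨h1, h2⟩ := Finset.mem_filter.1 hw
    have h4 : w ∈ (S.m0 h3).On F0 := ⟨h2, QX_dim Tw h1⟩
    exact ⟨mem_QX.1 h1, h4, by rw [Sla.on_old F0]; exact h4⟩
  have h1 : ∑ _p ∈ (QX s i X).filter (fun w => w ∈ T.cc x), (1 : ZMod 2) = 0 := by
    refine Finset.sum_involution (fun p _ => s.mu F0 p) (fun p hp => by decide)
      (fun p hp _ => ?_) (fun p hp => ?_) (fun p hp => ?_)
    · exact s.mu_ne (hon p hp).1.1 (hon p hp).2.1
    · obtain ⟨⟨g1, g2, g3⟩, g4, g5⟩ := hon p hp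
      obtain ⟨k1, k2⟩ := s.mu_mem g1 g4
      have k3 := hO q hqD hqK F0 hside p g3 (mem_old g1) ((lab_old g1).trans g2) g5
      rw [mu_old g1 g4] at k3
      have k4 : s.mu F0 p ∈ T.cc x := k2.1
      exact Finset.mem_filter.2 ⟨mem_QX.2 ⟨k1, (s.mu_lab g1 g4).trans g2, k3⟩, k4⟩
    · exact s.mu_mu (hon p hp).1.1 (hon p hp).2.1
  rw [Finset.sum_const, nsmul_eq_mul, mul_one] at h1
  have h2 := (ZMod.natCast_eq_zero_iff_even).1 h1
  convert h2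
  rw [← Set.ncard_coe_finset]
  congr 1
  ext w
  simp

/-- **the edges of the sphere** : the sum of the parities at the two ends is the parity of the number
of points of `X` -/
theorem lam_edge {c : κ} (hV : Vcl Tw l0 c (BD S D c) i X) (hi : fam i = a)
    (hbot : ∀ e ∈ BD S D c, ∀ w ∈ ((Tw.tw c a).pat (S.n c)).P, w ∈ e.1.opn → S.hp c (S.n c) w ∉ X)
    {e : S.Ed c} (he : e ∈ BD S D c) :
    LamE Tw l0 a i X ((S.sh h3 c).en e false).1 + LamE Tw l0 a i X ((S.sh h3 c).en e true).1 =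
      (((QX s i X : Set E) ∩ e.1.set).ncard : ZMod 2) := by
  have h1 := par_edge (a := a) hV he (S.n c) le_rfl
  have h2 : nA Tw l0 c a i X (S.n c) e = 0 := by
    unfold nA
    refine Finset.sum_eq_zero fun w hw => if_neg ?_
    rintro ⟨g1, g2, -⟩
    exact hbot e he w hw g1 g2
  have h4 : nA Tw l0 c a i X 0 e = (((QX s i X : Set E) ∩ e.1.set).ncard : ZMod 2) := by
    unfold nA
    rw [← Finset.sum_filter, Finset.sum_const, nsmul_eq_mul, mul_one]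
    congr 1
    rw [← Set.ncard_coe_finset]
    congr 1
    ext w
    rw [Finset.mem_coe, Finset.mem_filter, mem_inter_iff, Finset.mem_coe, mem_QX, Sla.hp_zero]
    constructor
    · rintro ⟨g1, g2, g3, g4⟩
      obtain ⟨k1, k2, k3⟩ := (Tw.P0 c a w).1 g1
      exact ⟨⟨k1, by rw [← lab_old (Tw := Tw) (l0 := l0) k1]; exact g4, g3⟩, e.1.opn_sub g2⟩
    · rintro ⟨⟨k1, k2, k3⟩, g2⟩
      have hdim : T.dim w = 1 := (s_out k1 Tw).2
      have hopn : w ∈ e.1.opn := by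
        by_contra hno
        have hw' : w ∈ T.cc e.1.pt := by rw [← e.1.set_eq]; exact g2
        have h5 := T.dim_lt hw' hno
        have h6 : T.dim e.1.pt = 1 := e.2.1
        omega
      refine ⟨(Tw.P0 c a w).2 ⟨k1, by rw [k2]; exact hi, e, hopn⟩, hopn, k3, ?_⟩
      rw [lab_old k1]; exact k2
  rw [lamE_eq, lamE_eq, ← h4]
  rw [h2, add_zero] at h1
  unfold Lam
  have e1 : ∀ x y z : ZMod 2, x + y + z = 0 → y + z = x := by decide
  exact e1 _ _ _ h1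

/-- the cochain -/
noncomputable def kapX (Tw : Twrs (S.sh h3) S.n s) (l0 : E → J) (a : C) (i : J) (X : Set E) :
    E → E → E → ZMod 2 := fun e u v =>
  if ∃ c, e ∈ S.K c then LamE Tw l0 a i X u - LamE Tw l0 a i X v else kap T (QX s i X) e u v

/-- tiles inside the cores -/
theorem exact_in {q : ι} {c : κ} (hq : P (T.H q) ⊆ S.K c) :
    T.Exact (kapX Tw l0 a i X) (LamE Tw l0 a i X) (P (T.H q)) := by
  intro e he h1 u v huv
  unfold kapX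
  rw [if_pos ⟨c, hq he⟩]

/-- outside the cores the two cochains are equal -/
theorem kapX_out (hV : ∀ c, Vcl Tw l0 c (BD S D c) i X) (hi : fam i = a)
    (hbot : ∀ c, ∀ e ∈ BD S D c, ∀ w ∈ ((Tw.tw c a).pat (S.n c)).P, w ∈ e.1.opn →
      S.hp c (S.n c) w ∉ X)
    {q : ι} (hqD : (P (T.H q) ∩ D).Nonempty) (hqK : ∀ c, ¬ P (T.H q) ⊆ S.K c)
    {e : E} (he : e ∈ P (T.H q)) (h1 : T.dim e = 1) {u v : E} (huv : T.cc e = segment ℝ u v) :
    kapX Tw l0 a i X e u v = kap T (QX s i X) e u v := by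
  have heO := T.sub q he
  unfold kapX
  split_ifs with h
  · obtain ⟨c, hc⟩ := h
    have hfr : e ∈ frontier (S.K c) := by
      by_contra hno
      exact (Sla.out_of_tile hqK he).2 c ⟨hc, hno⟩
    have hccf : T.cc e ⊆ frontier (S.K c) := (S.hH c).cc e hfr
    have hset : (T.cl heO).set = T.cc e := T.cl_set heO
    let e' : S.Ed c := ⟨T.cl heO, (T.dim_cl _).trans h1, by rw [hset]; exact hccf⟩
    have he' : e' ∈ BD S D c := ⟨q, by show (T.cl heO).set ⊆ _; rw [hset]; exact T.cc_sub_tile he, hqD⟩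
    have h2 := lam_edge (hV c) hi (hbot c) he'
    have h4 : (((QX s i X : Set E) ∩ e'.1.set).ncard : ZMod 2) = kap T (QX s i X) e u v := by
      show (((QX s i X : Set E) ∩ (T.cl heO).set).ncard : ZMod 2) = _
      rw [hset]; rfl
    rw [h4] at h2
    rw [← h2, CharTwo.sub_eq_add]
    obtain ⟨d1, d2, d3, d4, d5⟩ := T.dim_ends heO h1 huv
    obtain ⟨b, hb⟩ := (endK_iff e' ⟨u, d1, hccf d3⟩).2 (by
      show u ∈ (T.cl heO).set
      rw [hset]; exact d3)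
    obtain ⟨b', hb'⟩ := (endK_iff e' ⟨v, d2, hccf d4⟩).2 (by
      show v ∈ (T.cl heO).set
      rw [hset]; exact d4)
    have hbu : ((S.sh h3 c).en e' b).1 = u := congrArg Subtype.val hb
    have hbv : ((S.sh h3 c).en e' b').1 = v := congrArg Subtype.val hb'
    have hne : b ≠ b' := by
      rintro rfl
      exact d5 (hbu.symm.trans hbv)
    rw [← hbu, ← hbv]
    cases b <;> cases b'
    · exact absurd rfl hne
    · rfl
    · exact add_comm _ _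
    · exact absurd rfl hne
  · rfl

/-- **THE CORE** -/
theorem core (hD : IsCompact D) (hDO : D ⊆ Om) (ht : TrivF (ZMod 2) D)
    (hO : Ocl S h3 Tw l0 D i X) (hV : ∀ c, Vcl Tw l0 c (BD S D c) i X) (hi : fam i = a)
    (hbot : ∀ c, ∀ e ∈ BD S D c, ∀ w ∈ ((Tw.tw c a).pat (S.n c)).P, w ∈ e.1.opn →
      S.hp c (S.n c) w ∉ X)
    {K K' : Set E} (hKD : K ⊆ D) (hK : IsPreconnected K) (hKD' : K' ⊆ D) (hK' : IsPreconnected K')
    (h0 : ∀ q, (P (T.H q) ∩ K).Nonempty → (∀ c, ¬ P (T.H q) ⊆ S.K c) → ∀ w ∈ X, w ∈ s.P →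
      s.lab w = i → w ∉ P (T.H q))
    (h0' : ∀ q, (P (T.H q) ∩ K).Nonempty → ∀ c, P (T.H q) ⊆ S.K c → ∀ v : S.Vx c,
      v.1 ∈ P (T.H q) → ∀ j < S.n c, v ∉ ((Tw.tw c a).mv j).Qv)
    {lm : E → ZMod 2} (hout : ∀ q, (P (T.H q) ∩ K').Nonempty → ∀ c, ¬ P (T.H q) ⊆ S.K c)
    (hlm : ∀ q, (P (T.H q) ∩ K').Nonempty → T.Exact (kap T (QX s i X)) lm (P (T.H q)))
    {x y : E} (hx : x ∈ K) (hx' : x ∈ K') (hy : y ∈ K) (hy' : y ∈ K') {v w : E}
    (hv : ∃ q, v ∈ P (T.H q) ∧ x ∈ P (T.H q)) (hw : ∃ q, w ∈ P (T.H q) ∧ y ∈ P (T.H q))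
    (hv0 : T.dim v = 0) (hw0 : T.dim w = 0) : lm v = lm w := by
  have hex : ∀ q, (P (T.H q) ∩ D).Nonempty → (∀ c, ¬ P (T.H q) ⊆ S.K c) → ∀ ψ : E → ZMod 2,
      T.Exact (kap T (QX s i X)) ψ (P (T.H q)) → T.Exact (kapX Tw l0 a i X) ψ (P (T.H q)) := by
    intro q hqD hqK ψ hψ e he h1 u v huv
    rw [kapX_out hV hi hbot hqD hqK he h1 huv]
    exact hψ e he h1 u v huv
  refine strip_loop (κ := kapX Tw l0 a i X) hD hDO ht ?_ hKD hK hKD' hK' ?_ ?_ hx hx' hy hy' hv hw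
    hv0 hw0
  · intro q hqD
    rcases Sla.tile_or S q with hqK | ⟨c, hc⟩
    · obtain ⟨ψ, hψ⟩ := exact_tile2 (T := T) h3 (Q := QX s i X) (fun w hw => QX_dim Tw hw) q
        (fun x hx hd => even_out hO hqD hqK hx hd)
      exact ⟨ψ, hex q hqD hqK ψ hψ⟩
    · exact ⟨_, exact_in hc⟩
  · intro q hqK'
    have hqD : (P (T.H q) ∩ D).Nonempty := hqK'.mono (inter_subset_inter_right _ hKD)
    rcases Sla.tile_or S q with hqK | ⟨c, hc⟩
    · refine hex q hqD hqK _ ?_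
      refine exact_kap_iff.2 fun e he _ u v _ => ?_
      have : (QX s i X : Set E) ∩ T.cc e = ∅ := by
        rw [Set.eq_empty_iff_forall_notMem]
        rintro w ⟨hw1, hw2⟩
        obtain ⟨g1, g2, g3⟩ := mem_QX.1 (Finset.mem_coe.1 hw1)
        exact h0 q hqK' hqK w g3 g1 g2 (T.cc_sub_tile he hw2)
      rw [this]; simp
    · intro e he h1 u v huv
      have h2 := exact_in (Tw := Tw) (l0 := l0) (a := a) (i := i) (X := X) hc e he h1 u v huv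
      obtain ⟨d1, d2, d3, d4, d5⟩ := T.dim_ends (T.sub q he) h1 huv
      have hz : ∀ v, T.dim v = 0 → v ∈ P (T.H q) → LamE Tw l0 a i X v = 0 := by
        intro v hv0 hvq
        by_cases hfr : v ∈ frontier (S.K c)
        · have e1 := lamE_eq (Tw := Tw) (l0 := l0) (a := a) (i := i) (X := X) (c := c)
            ⟨v, hv0, hfr⟩
          rw [show LamE Tw l0 a i X v = _ from e1]
          unfold Lam
          refine Finset.sum_eq_zero fun j hj => ?_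
          unfold nV
          exact if_neg fun h' => h0' q hqK' c hc ⟨v, hv0, hfr⟩ hvq j (Finset.mem_range.1 hj) h'.1
        · refine lamE_zero fun c' hc' => ?_
          have := S.core_unique (S.fr_sub c' hc') (hc hvq)
          subst this
          exact hfr hc'
      rw [hz u d1 (T.cc_sub_tile he d3), hz v d2 (T.cc_sub_tile he d4)] at h2
      exact h2
  · intro q hqK'
    exact hex q (hqK'.mono (inter_subset_inter_right _ hKD')) (hout q hqK') _ (hlm q hqK')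

end Crest.Agent.R096.Nef_778
end

-- ▼ part R096/Nef3_778
section

/-!
# R096 (row 96), DOORS, NE1 (helper778), part 3: enclosed sets

`nox_old`, `nox_vf` : no crossing on faces without points of the family;
`bot_frozen`        : the bottom points are on a frozen face;
`encl_core`         : the core for an enclosed set.
-/

set_option autoImplicit false
set_option linter.unusedSectionVars false
set_option linter.unusedVariables false
set_option linter.style.longLine false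

open Set Module
open scoped Classical

namespace Crest.Agent.R096.Nef_778

open Crest.Agent.R096.Msh_715 Crest.Agent.R096.Agl5_543 Crest.Agent.R096.St_147
  Crest.Agent.R096.Seq_213 Crest.Agent.R096.Door_501 Crest.Agent.R096.Sla_184
  Crest.Agent.R096.Twr_438 Crest.Agent.R096.Exa_560 Crest.Agent.R096.Ess3_95
  Crest.Agent.R096.Ess4_95 Crest.Agent.R096.Dfi_539 Crest.Agent.R096.Dfi_471
  Crest.Agent.R096.Yl_471 Crest.Agent.R096.Ent_527 Crest.Agent.R096.Coh_184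
  Crest.Agent.R096.Lab_184
open Crest.Agent.R096.Sla_184.Sla (hf vf old tg F0 Fn Out OnS InL In)
open Crest.Agent.R096.Cns_778 (nd_of mkF0)
open Crest.Agent.R096.Sgo_298 (ActR inr_ActR endsIn)

variable {E : Type} [NormedAddCommGroup E] [NormedSpace ℝ E] [FiniteDimensional ℝ E]
variable {Om : Set E} {ι : Type} {T : Tiling Om ι} {κ : Type} {S : Sla T κ}
  {h3 : finrank ℝ E = 3} {J C Mo : Type} {fam : J → C} {am : Mo → C} [Nonempty (J ⊕ Mo)]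
  {s : GSt (meshC T h3) (Sum.map fam (id : Mo → Mo))} {r : J ⊕ Mo → E}
  {Tw : Twrs (S.sh h3) S.n (outK S.hH S.dis s r)} {l0 : E → J ⊕ Mo}

/-- **no crossing on an outer face without points of the family** -/
theorem nox_old {a : C} {F0 : S.F0 h3}
    (h : ∀ y ∈ s.P, y ∈ F0.1.On → ∀ i, s.lab y = Sum.inl i → fam i ≠ a) (x : E) :
    Dfo_539.NoX (s2 S h3 Tw l0) a (old F0) x := by
  rintro y hy ⟨i, h1, h2⟩
  obtain ⟨g1, g2, g3, -, -⟩ := mu_out hy.1 hy.2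
  exact absurd h2 (h y g1 g2 i (g3.symm.trans h1))

/-- **no crossing on a vertical face without points of the family** -/
theorem nox_vf {a : C} {c : κ} {e : S.Ed c} {j : ℕ} (hj : j < S.n c)
    (h1 : ∀ j' ≤ S.n c, ∀ w ∈ ((Tw.tw c (Sum.inl a)).pat j').P, w ∉ e.1.opn)
    (h2 : ∀ b, (S.sh h3 c).en e b ∉ ((Tw.tw c (Sum.inl a)).mv j).Qv) (x : E) :
    Dfo_539.NoX (s2 S h3 Tw l0) a (vf h3 e j) x := by
  rintro y hy ⟨i, h4, h5⟩
  exfalso
  obtain ⟨a', x0, g1, g2, g3, -⟩ := on_vf hj hy.1 hy.2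
  have key : Sum.map fam (id : Mo → Mo) ((s2 S h3 Tw l0).lab y) = Sum.inl a := by
    rw [h4, ← h5]; rfl
  rcases x0 with u | u | v
  · have k1 : u ∈ ((Tw.tw c a').pat j).P := ((Tw.tw c a').mv j).top_mem_P'.1 g1
    have k2 : u ∈ e.1.opn := (S.sh h3 c).top_mem_vert.1 g2
    have k3 : (s2 S h3 Tw l0).lab y = ((Tw.tw c a').pat j).lab u := by
      rw [g3]; exact lab_hp hj.le k1
    rw [k3, Tw.labj k1] at key
    subst key
    exact h1 j hj.le u k1 k2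
  · have k1 : u ∈ ((Tw.tw c a').pat (j + 1)).P := Twrs.mem_B.1 (((Tw.tw c a').mv j).bot_mem_P'.1 g1)
    have k2 : u ∈ e.1.opn := (S.sh h3 c).bot_mem_vert.1 g2
    have k3 : (s2 S h3 Tw l0).lab y = ((Tw.tw c a').pat (j + 1)).lab u := by
      rw [g3]; exact lab_hp (show j + 1 ≤ S.n c by omega) k1
    rw [k3, Tw.labj k1] at key
    subst key
    exact h1 (j + 1) (by omega) u k1 k2
  · have k1 : v ∈ ((Tw.tw c a').mv j).Qv := ((Tw.tw c a').mv j).vert_mem_P'.1 g1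
    obtain ⟨b, hb⟩ := (S.sh h3 c).vert_mem_vert.1 g2
    have k3 : (s2 S h3 Tw l0).lab y = ((Tw.tw c a').mv j).i0 := by
      rw [g3]; exact lab_vp hj k1
    rw [k3, Tw.labv k1] at key
    subst key
    exact h2 b (by rw [hb]; exact k1)

variable {nb : κ → C ⊕ Mo → Prop}
  {v0 v1 : ∀ c, C ⊕ Mo → VxK T S.K c} {u : κ → C ⊕ Mo → E → ℝ} {A B : κ → C ⊕ Mo → ℝ}
  {L : ∀ c, C ⊕ Mo → Lev T (frontier (S.K c)) (J ⊕ Mo)}

/-- **the bottom points are on a frozen face** -/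
theorem bot_frozen (tt : TwOut S h3 s r v0 v1 L Tw) {c : κ} {a : C ⊕ Mo} {w : E} {R : Set ι}
    (hw : w ∈ ((Tw.tw c a).pat (S.n c)).P) :
    ∃ F, (s2 S h3 Tw l0).At F (S.hp c (S.n c) w) ∧ St.Frozen (S.mn h3) (ActR S R) F := by
  obtain ⟨e, he⟩ := pat_onE hw
  have hfr : w ∈ frontier (S.K c) := e.2.2 (e.1.opn_sub he)
  obtain ⟨F, hF, hwF⟩ := Msh_715.exists_face h3 S.hH hfr
  have h2 := (face_iff h3 (fun c => (S.hH c).core) (fun c => (S.hH c).sub)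
    (fun c => (S.hH c).cc) S.dis F c).1 hF
  let G : (S.sh h3 c).Fk := ⟨⟨F, h2.1⟩, h2.2⟩
  have hd : T.dim w = 1 := (T.dim_eq_of_mem_oc e.1.pt_mem he).trans e.2.1
  have hG : w ∈ (S.m0 h3).On G.1 := ⟨hwF, hd⟩
  refine ⟨hf G (S.n c), ⟨mem_hp le_rfl hw, (Sla.on_hf le_rfl).2 ⟨w, hG, rfl⟩⟩, Sum.inr c, ?_,
    inr_ActR⟩
  exact (kk_iff (Z := S.cols h3)).2 ⟨G, rfl⟩

/-- tiles without points of the family of the barrier -/
def FreeT (s : GSt (meshC T h3) (Sum.map fam (id : Mo → Mo))) (a : C) (q : ι) : Prop :=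
  ∀ F : C2 T, q ∈ F.side h3 → ∀ y ∈ s.P, y ∈ F.On → ∀ i, s.lab y = Sum.inl i → fam i ≠ a

/-- the layers over the tile carry no point of the family -/
def FreeL (Tw : Twrs (S.sh h3) S.n (outK S.hH S.dis s r)) (a : C) (q : ι) : Prop :=
  ∀ (k : κ) (e : S.Ed k), e.1.set ⊆ P (T.H q) → ∀ j, j < S.n k →
    (∀ j' ≤ S.n k, ∀ w ∈ ((Tw.tw k (Sum.inl a)).pat j').P, w ∉ e.1.opn) ∧
    ∀ b, (S.sh h3 k).en e b ∉ ((Tw.tw k (Sum.inl a)).mv j).Qv

/-- **the core for an enclosed set** `Y` of the barrier `m` -/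
theorem encl_core (tt : TwOut S h3 s r v0 v1 L Tw) {R : Set ι} {m : Mo} {Y : Set E}
    (hY1 : ∀ x ∈ Y, x ∈ (s2 S h3 Tw l0).P ∧ (s2 S h3 Tw l0).lab x = Sum.inr m)
    (hY2 : ∀ F x, x ∈ Y → (s2 S h3 Tw l0).At F x → Dfo_539.NoX (s2 S h3 Tw l0) (am m) F x →
      (s2 S h3 Tw l0).mu F x ∈ Y)
    (hY3 : ∀ F x, x ∈ Y → (s2 S h3 Tw l0).At F x → ¬ St.Frozen (S.mn h3) (ActR S R) F)
    {D : Set E} (hD : IsCompact D) (hDO : D ⊆ Om) (ht : TrivF (ZMod 2) D)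
    (hfT : ∀ q, (P (T.H q) ∩ D).Nonempty → FreeT s (am m) q)
    (hfL : ∀ q, (P (T.H q) ∩ D).Nonempty → FreeL Tw (am m) q)
    {K K' : Set E} (hKD : K ⊆ D) (hK : IsPreconnected K) (hKD' : K' ⊆ D) (hK' : IsPreconnected K')
    (h0 : ∀ q, (P (T.H q) ∩ K).Nonempty → (∀ c, ¬ P (T.H q) ⊆ S.K c) → ∀ w ∈ s.P,
      s.lab w = Sum.inr m → w ∉ P (T.H q))
    (h0' : ∀ q, (P (T.H q) ∩ K).Nonempty → ∀ c, P (T.H q) ⊆ S.K c → ∀ v : S.Vx c,
      v.1 ∈ P (T.H q) → ∀ j < S.n c, v ∉ ((Tw.tw c (Sum.inr m)).mv j).Qv)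
    (hout : ∀ q, (P (T.H q) ∩ K').Nonempty → ∀ c, ¬ P (T.H q) ⊆ S.K c)
    (hall : ∀ q, (P (T.H q) ∩ K').Nonempty → ∀ w ∈ s.P, s.lab w = Sum.inr m → w ∈ P (T.H q) →
      w ∈ (outK S.hH S.dis s r).P ∧ w ∈ Y)
    {lm : E → ZMod 2} (hlm : Main_4.IsLab T (gPts s (Sum.inr m)) lm)
    {x y : E} (hx : x ∈ K) (hx' : x ∈ K') (hy : y ∈ K) (hy' : y ∈ K') {v w : E}
    (hv : ∃ q, v ∈ P (T.H q) ∧ x ∈ P (T.H q)) (hw : ∃ q, w ∈ P (T.H q) ∧ y ∈ P (T.H q))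
    (hv0 : T.dim v = 0) (hw0 : T.dim w = 0) : lm v = lm w := by
  have hlab : ∀ w, w ∈ (outK S.hH S.dis s r).P → (outK S.hH S.dis s r).lab w = s.lab w :=
    fun w _ => rfl
  refine core (S := S) (h3 := h3) (s := outK S.hH S.dis s r) (Tw := Tw) (l0 := l0)
    (i := Sum.inr m) (a := Sum.inr m) (X := Y) hD hDO ht ?_ ?_ rfl ?_ hKD hK hKD' hK' ?_ h0' hout
    ?_ hx hx' hy hy' hv hw hv0 hw0
  · intro q hqD hqK F0 hq x hxY hxP hxl hxF
    refine hY2 (old F0) x hxY ⟨hxP, hxF⟩ (nox_old ?_ x)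
    exact hfT q hqD F0.1 hq
  · rintro c e ⟨q, heq, hqD⟩ j hj x hxY hxP hxl hxF
    obtain ⟨g1, g2⟩ := hfL q hqD c e heq j hj
    exact hY2 (vf h3 e j) x hxY ⟨hxP, hxF⟩ (nox_vf hj g1 g2 x)
  · intro c e _ w hw _ hwY
    obtain ⟨F, hF1, hF2⟩ := bot_frozen (l0 := l0) (R := R) tt hw
    exact hY3 F _ hwY hF1 hF2
  · intro q hqK hqo w _ hwP hwl hwq
    exact h0 q hqK hqo w hwP.1 hwl hwq
  · intro q hqK'
    refine exact_kap_iff.2 fun e he h1 a b hab => ?_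
    rw [isLab_iff.1 hlm e (T.sub q he) h1 a b hab]
    congr 2
    ext w
    constructor
    · rintro ⟨g1, g2⟩
      obtain ⟨k1, k2⟩ := mem_gPts.1 (Finset.mem_coe.1 g1)
      obtain ⟨k3, k4⟩ := hall q hqK' w k1 k2 (T.cc_sub_tile he g2)
      exact ⟨Finset.mem_coe.2 (mem_QX.2 ⟨k3, k2, k4⟩), g2⟩
    · rintro ⟨g1, g2⟩
      obtain ⟨k1, k2, k3⟩ := mem_QX.1 (Finset.mem_coe.1 g1)
      exact ⟨Finset.mem_coe.2 (mem_gPts.2 ⟨k1.1, k2⟩), g2⟩

end Crest.Agent.R096.Nef_778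
end

-- ▼ part R096/Nvm1_985
section

/-!
# R096 (row 96), DOORS, NE1 (helper985): G2 of 778 #12223: **VERTICES WHICH ARE NEVER MOVED**.

`never_m` : the tower of the barrier `m` does not move the vertices `v` on the tiles which have a point
`x` with `gR (Psi (f x)) ≤ 1 - μ / 8` or `2 ≤ gR (Psi (f x))`.
-/

set_option autoImplicit false
set_option linter.unusedSectionVars false
set_option linter.unusedVariables false
set_option linter.style.longLine false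

open Set Topology Filter Metric Module Relation
open scoped Classical

namespace Crest.Agent.R096.Nvm1_985

open Crest.Agent.R096.Msh_715 Crest.Agent.R096.Agl5_543 Crest.Agent.R096.St_147
  Crest.Agent.R096.Seq_213 Crest.Agent.R096.Door_501 Crest.Agent.R096.Sla_184
  Crest.Agent.R096.Twr_438 Crest.Agent.R096.Exa_560 Crest.Agent.R096.Ess3_95
  Crest.Agent.R096.Ess4_95 Crest.Agent.R096.Dfi_539 Crest.Agent.R096.Dfi_471
  Crest.Agent.R096.Ac_117 Crest.Agent.R096.Lm_117 Crest.Agent.R096.Cp_298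
  Crest.Agent.R096.Coh_184 Crest.Agent.R096.Gm_298 Crest.Agent.R096.Cpo_642
  Crest.Agent.R096.Gl_422 Crest.Agent.R096.Flb_422 Crest.Agent.R096.Sid_422
  Crest.Agent.R096.Vrt_422 Crest.Agent.R096.Dfo_539
open Crest.Agent.R096.Brk1_582 Crest.Agent.R096.Brk2_582 Crest.Agent.R096.Brk3_582
  Crest.Agent.R096.Brk5_582 Crest.Agent.R096.Bsp_628 Crest.Agent.R096.Init_543
  Crest.Agent.R096.Bar_106 Crest.Agent.R096.Dib_438 Crest.Agent.R096.Lam_847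
  Crest.Agent.R096.Ess5_95 Crest.Agent.R096.Bgf_4 Crest.Agent.R096.Ebr1_95
  Crest.Agent.R096.Ebr4_95 Crest.Agent.R096.Rop_441 Crest.Agent.R096.Nmd1_698
  Crest.Agent.R096.Sde_422 Crest.Agent.R096.Rgl_527
open Crest.Agent.R096.Mbf_337 (sb KJ Tiny gau Cores Fine)
open Crest.Agent.R096.SkC1_961 (E3 FoamD Hom3)
open Crest.Agent.R096.Frn_337 (Ti)
open Crest.Agent.R096.Frs_662 (slC)
open Crest.Agent.R096.Ess7_95 (KT Sh)
open Crest.Agent.R096.Dff_539 (vS)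
open Crest.Agent.R096.Bmf_416 (coT)
open Crest.Agent.R096.Vin_527 (sdm)

variable {δ κ0 R c0 : ℝ} {La Om : Set E3} {ι : Type} {Φ : FoamD δ κ0 R c0 La} {T : Tiling Om ι}
  {f g : E3 → E3} {κ1 κ2 μ : ℝ} {X : Set Φ.F} {J0 J V : Φ.F → Set ι}
  {ct ct' : Φ.F → ι} {A : Φ.F → E3 ≃ᵃ[ℝ] E3} {lam : Φ.F → ℝ} {z : Φ.F → E3}
  {θ : Φ.F → E3 → E3} {φ : Φ.F → E3 → ℝ} {r₀ : Φ.F → ℝ}
  {L : Φ.F → Finset ℝ} [Nonempty (JJ Φ L)] {hG : GF Φ r₀ T f L} {bp : JJ Φ L → E3}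
  {N' : BM Φ X → Set ℝ} {ρ1 ρ2 ρ3 ρ4 d : Φ.F → ℝ} {q₀ : BM Φ X → E3} {ε : BM Φ X → ℝ}
  {bm : BM Φ X → E3} {hGB : GFB Φ r₀ T f L (lRc Φ X μ ρ1 ρ3 d) ε}
  {v0F v1F : ∀ c, Φ.F → VxK T (KT T J X) c} {v0B v1B : ∀ c, BM Φ X → VxK T (KT T J X) c}
  {hLa : IsOpen La} {hC : Cores Φ T f κ1 κ2 X J0 J V ct A lam z θ φ}
  {n : Ti X → ℕ} {hn : ∀ c, 0 < n c} {r : JJ Φ L ⊕ BM Φ X → E3}
  {Sf : JJ Φ L ⊕ BM Φ X → Set E3}
  {Lv : ∀ c, Φ.F ⊕ BM Φ X → Lev T (frontier ((slC hLa hC n hn).K c)) (JJ Φ L ⊕ BM Φ X)}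
  {Tw : Twrs ((slC hLa hC n hn).sh fr3) (slC hLa hC n hn).n
    (outK (slC hLa hC n hn).hH (slC hLa hC n hn).dis (stB hGB bp bm) r)}

/-- the part `{b ≤ G ∘ θ}` of the frontier of a tiny core is compact and connected -/
theorem ge_set (hLa : IsOpen La) {c : Φ.F} {J0 J V : Set ι} {θ : E3 → E3} {φ : E3 → ℝ}
    (H : Tiny Φ T f κ1 c J0 J V θ φ) {G : E3 → ℝ} {lo hi ρ : ℝ} {p : ℝ × E3 → E3}
    (hG : GM Φ c G lo hi) (hP : Pol Φ c ρ p) {t : ℝ} (ht : t ∈ Ioo lo hi) :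
    IsCompact {x | x ∈ frontier (KJ T J) ∧ t ≤ G (θ x)} ∧
      IsPreconnected {x | x ∈ frontier (KJ T J) ∧ t ≤ G (θ x)} := by
  obtain ⟨e, he, heq⟩ := pre_eq H
  have hN : {q | q ∈ frontier c.1.set ∧ t ≤ G q} ⊆ frontier c.1.set := fun q hq => hq.1
  have hset : {x | x ∈ frontier (KJ T J) ∧ t ≤ G (θ x)} =
      e.g '' {q | q ∈ frontier c.1.set ∧ t ≤ G q} := by
    rw [← heq _ hN]
    ext x
    constructor
    · rintro ⟨hx, h⟩
      exact ⟨hx, th_mem H hx, h⟩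
    · rintro ⟨hx, h⟩
      exact ⟨hx, h.2⟩
  have hcpt : IsCompact {q | q ∈ frontier c.1.set ∧ t ≤ G q} :=
    hP.frc.of_isClosed_subset
      (hG.cont.preimage_isClosed_of_isClosed hP.frc.isClosed isClosed_Ici) fun _ hq => hq.1
  rw [hset]
  have hc : ContinuousOn e.g {q | q ∈ frontier c.1.set ∧ t ≤ G q} := e.pg.1.mono hN
  exact ⟨hcpt.image_of_continuousOn hc, (hG.ge_conn hP ht).image _ hc⟩

section s2

variable (N : NumD δ κ0 R c0 κ2 μ κ1) (H : Hm f g Om La)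
  (bar : BarOut Φ T f κ1 μ X J0 J V θ hG bp N' ρ1 ρ2 ρ3 ρ4 d q₀ ε bm hGB v0B v1B)
  (D : DIn (slC hLa hC n hn).hH (stB hGB bp bm) r Sf (nbA Φ X) (vS v0F v0B) (vS v1F v1B)
    (uA Φ hLa X θ) (AA Φ X μ κ1) (BA Φ X μ))
  (lo : LevOut (Kc := (slC hLa hC n hn).K) (stB hGB bp bm) (nbA Φ X) (uA Φ hLa X θ)
    (AA Φ X μ κ1) (BA Φ X μ) Lv)
  (tt : TwOut (slC hLa hC n hn) fr3 (stB hGB bp bm) r (vS v0F v0B) (vS v1F v1B) Lv Tw)
include N H bar D lo tt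

/-- **the moves do not touch the vertices far outside the box** -/
theorem not_rgn_far (m : BM Φ X) {v : (slC hLa hC n hn).Vx (coT m)}
    (hv : 2 - μ / 4 ≤ gR Φ X μ m (θ m.co v.1)) (i : JJ Φ L ⊕ BM Φ X) :
    ¬ Rgn ((slC hLa hC n hn).sh fr3 (coT m)) (vS v0F v0B (coT m) (Sum.inr m))
      (vS v1F v1B (coT m) (Sum.inr m))
      (trc (slC hLa hC n hn).hH (slC hLa hC n hn).dis (stB hGB bp bm) r (coT m) (Sum.inr m))
      (exa fr3 (slC hLa hC n hn).hH (slC hLa hC n hn).dis (Lv (coT m) (Sum.inr m))) i v := by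
  have hμ := N.hμ
  have hμb := N.hμb
  have hT := hC.tiny m.co m.co_notMem
  have hZ := bz_rec N H hLa hC bar m
  obtain ⟨p, hP⟩ := bz_pol hLa H hC m.co_notMem hZ
  have hset := ge_set hLa hT hZ.gm hP (t := 1 + μ / 4) ⟨by linarith, by linarith⟩
  have := Rgl_527.finite_EdK (slC hLa hC n hn).hH (coT m)
  have := Fintype.ofFinite (EdK T (slC hLa hC n hn).K (coT m))
  have hosc : ∀ q : T.Cell, q.set ⊆ frontier (KJ T (J m.co)) → ∀ x ∈ q.set, ∀ y ∈ q.set, ∀ e,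
      |sb Φ (θ m.co x) e - sb Φ (θ m.co y) e| ≤ (2 * Cn δ R + 1) * κ1 := by
    intro q hq x hx y hy e
    have hpq : q.pt ∈ q.set := q.opn_sub (T.self_mem_oc _)
    obtain ⟨F, hF, hpF⟩ := exists_face fr3 (slC hLa hC n hn).hH (c := coT m) (hq hpq)
    have hsub : q.set ⊆ F.set := by
      rw [q.set_eq, F.set_eq]
      rw [F.set_eq] at hpF
      exact T.cc_sub_of_mem hpF
    exact tiny_osc hLa N.hδ N.hR N.cn1 hT hF (hsub hx) (hsub hy) e
  refine not_rgn_hi (h3 := fr3) (hH := (slC hLa hC n hn).hH) (hdis := (slC hLa hC n hn).dis)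
    (c := coT m) (fun w hw => (mem_trc.1 hw).2.2) hset.1 hset.2 (fun x hx => hx.1) ?_ (v := v)
    ⟨v1B (coT m) m |>.2.2, ?_⟩ ⟨v.2.2, ?_⟩ ?_ i
  · rintro w hw q hq hwq ⟨x, hxq, hxf, hx⟩
    obtain ⟨k1, k2, k4⟩ := trc_P hw
    have hl' : (stB hGB bp bm).lab w = Sum.inr m := by
      rcases hj : (stB hGB bp bm).lab w with j | m'
      · rw [hj] at k4; cases k4
      · rw [hj] at k4
        exact congrArg Sum.inr (Sum.inr_injective k4)
    obtain ⟨hlev, hGm⟩ := bar.lev m w k1 hl'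
    have hθx := th_mem hT hxf
    have hd : ∀ e, |Φ.lev e (f w) - sb Φ (θ m.co x) e| ≤ (3 * Cn δ R + 1) * κ1 := by
      intro e
      have g1 := abs_le.1 (tiny_near hLa N.hδ N.hR N.cn1 hT k2 e)
      have g2 := abs_le.1 (hosc q hq w hwq x hxq e)
      rw [abs_le]
      constructor <;> nlinarith [g1.1, g1.2, g2.1, g2.2]
    have g3 := (abs_le.1 (Gm_sub_le (a := m.am) (Z := m.Zm) (m := 1 / 2) N.l0 N.ra0 hlev
      (sb_mem hLa hθx) hd)).1
    have g4 : 1 + μ / 4 ≤ Gm (μ / 8) (1 / 2) (1 / 2 - 5 * μ / 16) m.am m.Zm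
      (sb Φ (θ m.co x)) := hx
    have g5 := N.om2 (r := (3 * Cn δ R + 1) * κ1) (by nlinarith [N.cn0, N.hκ])
    linarith
  · have h1 := g_v1 N hLa hC bar m
    show 1 + μ / 4 ≤ gR Φ X μ m (θ m.co (v1B (coT m) m).1)
    linarith
  · show 1 + μ / 4 ≤ gR Φ X μ m (θ m.co v.1)
    linarith
  · intro w hw
    obtain ⟨g1, g2⟩ := exa_lab (h3 := fr3) (hH := (slC hLa hC n hn).hH)
      (hdis := (slC hLa hC n hn).dis) (c := coT m) (Lv (coT m) (Sum.inr m)) hw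
    have g4 := lo.win (coT m) (Sum.inr m) _ g1
    have hnb : nbA Φ X (coT m) (Sum.inr m) := rfl
    have hfr : v.1 ∈ frontier (KJ T (J m.co)) := v.2.2
    have hθ := th_mem hT hfr
    have e1 : (Lv (coT m) (Sum.inr m)).u v.1 =
        Fs (Nb Φ hLa m.co) m.am m.Zm (sb Φ (θ m.co v.1)) := by rw [lo.u]; rfl
    have e0 : (Lv (coT m) (Sum.inr m)).u (v0B (coT m) m).1 ≤ AA Φ X μ κ1 (coT m) (Sum.inr m) := by
      rw [lo.u]
      exact D.v0_lt (coT m) _ hnb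
    have hF : 3 * μ / 16 < Fs (Nb Φ hLa m.co) m.am m.Zm (sb Φ (θ m.co v.1)) := by
      have h4 := Fm_le_Fs (a := m.am) (Z := m.Zm) (N := Nb Φ hLa m.co) (u := sb Φ (θ m.co v.1))
        (fun e he => dv_off hLa (mo_pq m) hθ fun h => he (mem_Nb.2 h)) (sb_mem hLa hθ)
      have h5 : 2 - μ / 4 ≤ max (Fm m.am m.Zm (sb Φ (θ m.co v.1)) / (μ / 8))
        (|sb Φ (θ m.co v.1) m.am - 1 / 2| / (1 / 2 - 5 * μ / 16)) := hv
      rcases le_max_iff.1 h5 with h5 | h5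
      · rw [le_div_iff₀ N.l0] at h5
        nlinarith
      · exfalso
        rw [le_div_iff₀ N.ra0] at h5
        have h6 := sb_mem hLa hθ m.am
        have h7 : |sb Φ (θ m.co v.1) m.am - 1 / 2| ≤ 1 / 2 := by
          rw [abs_le]; constructor <;> linarith [h6.1, h6.2]
        nlinarith
    have hB : (Lv (coT m) (Sum.inr m)).lv ((exa fr3 (slC hLa hC n hn).hH
        (slC hLa hC n hn).dis (Lv (coT m) (Sum.inr m))).lab w) < 3 * μ / 16 := g4.2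
    have h8 := exa_lbl (h3 := fr3) (hH := (slC hLa hC n hn).hH)
      (hdis := (slC hLa hC n hn).dis) (c := coT m)
      (Lv (coT m) (Sum.inr m)) g1 (lo.conn (coT m) _ _ g1).1 hw rfl (v0B (coT m) m) v
      (not_lt.2 (e0.trans g4.1.le))
    rw [if_pos (by rw [e1]; linarith)] at h8
    exact h8

/-- **G2 of 778 #12223: vertices which are never moved** -/
theorem never_m (m : BM Φ X) {q : ι} {x : E3} (hx : x ∈ P (T.H q))
    (h1 : ρ1 m.co ≤ ga Φ m.co (f x)) (h2 : ga Φ m.co (f x) ≤ ρ4 m.co)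
    (hg : gR Φ X μ m (Φ.Psi (f x)) ≤ 1 - μ / 8 ∨ 2 ≤ gR Φ X μ m (Φ.Psi (f x)))
    (k : Ti X) (v : (slC hLa hC n hn).Vx k) (hv : v.1 ∈ P (T.H q)) (j : ℕ) :
    v ∉ ((Tw.tw k (Sum.inr m)).mv j).Qv := by
  intro hQ
  have hμ := N.hμ
  have hμb := N.hμb
  have hk0 : nbA Φ X k (Sum.inr m) := qv_nb D tt hQ
  have hk : coT m = k := hk0
  subst hk
  have hrg := tt.rgn (coT m) (Sum.inr m) j v hQ
  have hZ := bz_rec N H hLa hC bar m
  have hfr : v.1 ∈ frontier (KJ T (J m.co)) := v.2.2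
  have o1 := abs_le.1 (hZ.osc q x hx h1 h2 v.1 hv)
  have o2 := abs_le.1 (hZ.near v.1 hfr)
  rcases hg with hg | hg
  · have hi : ((Tw.tw (coT m) (Sum.inr m)).mv j).i0 = Sum.inr m := by
      have key : ∀ w ∈ (trc (slC hLa hC n hn).hH (slC hLa hC n hn).dis (stB hGB bp bm) r (coT m)
          (Sum.inr m)).P, (trc (slC hLa hC n hn).hH (slC hLa hC n hn).dis (stB hGB bp bm) r (coT m)
          (Sum.inr m)).lab w = ((Tw.tw (coT m) (Sum.inr m)).mv j).i0 →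
          ((Tw.tw (coT m) (Sum.inr m)).mv j).i0 = Sum.inr m := by
        intro w hw hl
        obtain ⟨k1, k2, k4⟩ := trc_P hw
        rw [← hl]
        show (stB hGB bp bm).lab w = Sum.inr m
        rcases hj : (stB hGB bp bm).lab w with j | m'
        · rw [hj] at k4; cases k4
        · rw [hj] at k4
          exact congrArg Sum.inr (Sum.inr_injective k4)
      rcases hrg with ⟨w, hw, hl, -⟩ | ⟨w, hw, w', -, hl, -⟩
      · exact key w hw hl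
      · exact key w hw hl
    rw [hi] at hrg
    have h3 := g_rgn N H bar D lo tt m v hrg
    linarith [o1.1, o1.2, o2.1, o2.2]
  · exact not_rgn_far N H bar D lo tt m (v := v) (by linarith [o1.1, o1.2, o2.1, o2.2]) _ hrg

end s2

end Crest.Agent.R096.Nvm1_985
end

-- ▼ part R096/Afr1_543
section

/-!
# R096 (row 96), DOORS, NE1 (helper543): **G3 of helper778's #12223**, tiles near a tiny core on which
the family of the barrier has low level carry no point of this family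

* `pat_lev`, `qv_lev` : the levels of the pattern points and of the moved vertices of a family;
* `afree_out` : no point of the family `m.am` on the faces of the tile `q`;
* `afree_in`  : no pattern point and no moved vertex of the tower of `m.am` on an edge of the sphere of a
  core which lies in the tile `q`.
-/

set_option autoImplicit false
set_option linter.unusedSectionVars false
set_option linter.unusedVariables false
set_option linter.style.longLine false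

open Set Topology Filter Metric Module Relation
open scoped Classical

namespace Crest.Agent.R096.Afr_543

open Crest.Agent.R096.Msh_715 Crest.Agent.R096.Agl5_543 Crest.Agent.R096.St_147
  Crest.Agent.R096.Seq_213 Crest.Agent.R096.Door_501 Crest.Agent.R096.Sla_184
  Crest.Agent.R096.Twr_438 Crest.Agent.R096.Exa_560 Crest.Agent.R096.Ess3_95
  Crest.Agent.R096.Ess4_95 Crest.Agent.R096.Dfi_539 Crest.Agent.R096.Dfi_471
  Crest.Agent.R096.Lv4_471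
open Crest.Agent.R096.Brk1_582 Crest.Agent.R096.Brk2_582 Crest.Agent.R096.Brk3_582
  Crest.Agent.R096.Brk5_582 Crest.Agent.R096.Bsp_628 Crest.Agent.R096.Init_543
  Crest.Agent.R096.Bar_106 Crest.Agent.R096.Dib_438
  Crest.Agent.R096.Ess5_95 Crest.Agent.R096.Bgf_4 Crest.Agent.R096.Ebr1_95
  Crest.Agent.R096.Ebr4_95 Crest.Agent.R096.Rop_441 Crest.Agent.R096.Nmd1_698
open Crest.Agent.R096.Mbf_337 (sb KJ Tiny gau Cores Fine)
open Crest.Agent.R096.SkC1_961 (E3 FoamD Hom3)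
open Crest.Agent.R096.Frn_337 (Ti)
open Crest.Agent.R096.Frs_662 (slC)
open Crest.Agent.R096.Ess7_95 (KT Sh)
open Crest.Agent.R096.Dff_539 (vS)
open Crest.Agent.R096.Bmf_416 (coT)
open Crest.Agent.R096.Dfn_416 (BarS)
open Crest.Agent.R096.Dia_316 (nbT)

variable {δ κ0 R c0 : ℝ} {La Om : Set E3} {ι : Type} {Φ : FoamD δ κ0 R c0 La} {T : Tiling Om ι}
  {f g : E3 → E3} {κ1 κ2 μ : ℝ} {X : Set Φ.F} {J0 J V : Φ.F → Set ι}
  {ct ct' : Φ.F → ι} {A : Φ.F → E3 ≃ᵃ[ℝ] E3} {lam : Φ.F → ℝ} {z : Φ.F → E3}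
  {θ : Φ.F → E3 → E3} {φ : Φ.F → E3 → ℝ} {r₀ : Φ.F → ℝ}
  {L : Φ.F → Finset ℝ} [Nonempty (JJ Φ L)] {hG : GF Φ r₀ T f L} {bp : JJ Φ L → E3}
  {N' : BM Φ X → Set ℝ} {ρ1 ρ2 ρ3 ρ4 d : Φ.F → ℝ} {q₀ : BM Φ X → E3} {ε : BM Φ X → ℝ}
  {bm : BM Φ X → E3} {hGB : GFB Φ r₀ T f L (lRc Φ X μ ρ1 ρ3 d) ε}
  {v0F v1F : ∀ c, Φ.F → VxK T (KT T J X) c} {v0B v1B : ∀ c, BM Φ X → VxK T (KT T J X) c}
  {hLa : IsOpen La} {hC : Cores Φ T f κ1 κ2 X J0 J V ct A lam z θ φ}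
  {n : Ti X → ℕ} {hn : ∀ c, 0 < n c} {r : JJ Φ L ⊕ BM Φ X → E3}
  {Sf : JJ Φ L ⊕ BM Φ X → Set E3}
  {Lv : ∀ c, Φ.F ⊕ BM Φ X → Lev T (frontier ((slC hLa hC n hn).K c)) (JJ Φ L ⊕ BM Φ X)}
  {Tw : Twrs ((slC hLa hC n hn).sh fr3) (slC hLa hC n hn).n
    (outK (slC hLa hC n hn).hH (slC hLa hC n hn).dis (stB hGB bp bm) r)}

/-- the levels of the points of the families in the state with barriers -/
theorem stB_lev (hI : InitR Φ T f g J0 ct' r₀) (hLa : IsOpen La)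
    (barS : BarS hG bp V coT (stB hGB bp bm)) (hm : ∀ c, ∀ t ∈ L c, μ ≤ t ∧ t ≤ 1 - μ)
    {w : E3} (hw : w ∈ (stB hGB bp bm).P) {j : JJ Φ L} (hl : (stB hGB bp bm).lab w = Sum.inl j) :
    μ ≤ Φ.lev j.1 (f w) ∧ Φ.lev j.1 (f w) ≤ 1 - μ := by
  obtain ⟨-, -, h⟩ := barS.mem hLa hI hw hl
  rw [h]
  exact hm j.1 j.2.1 j.2.2

/-- the same for the families of the names -/
theorem stB_lev' (hI : InitR Φ T f g J0 ct' r₀) (hLa : IsOpen La)
    (barS : BarS hG bp V coT (stB hGB bp bm)) (hm : ∀ c, ∀ t ∈ L c, μ ≤ t ∧ t ≤ 1 - μ)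
    {w : E3} (hw : w ∈ (stB hGB bp bm).P) {a : Φ.F}
    (ha : Sum.map (fun j : JJ Φ L => j.1) (id : BM Φ X → BM Φ X) ((stB hGB bp bm).lab w) =
      Sum.inl a) :
    μ ≤ Φ.lev a (f w) ∧ Φ.lev a (f w) ≤ 1 - μ := by
  rcases hl : (stB hGB bp bm).lab w with j | m
  · rw [hl] at ha
    have h0 : j.1 = a := Sum.inl.inj ha
    rw [← h0]
    exact stB_lev hI hLa barS hm hw hl
  · rw [hl] at ha
    cases ha

section s2

variable (N : NumD δ κ0 R c0 κ2 μ κ1)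
  (bar : BarOut Φ T f κ1 μ X J0 J V θ hG bp N' ρ1 ρ2 ρ3 ρ4 d q₀ ε bm hGB v0B v1B)
  (D : DIn (slC hLa hC n hn).hH (stB hGB bp bm) r Sf (nbA Φ X) (vS v0F v0B) (vS v1F v1B)
    (uA Φ hLa X θ) (AA Φ X μ κ1) (BA Φ X μ))
  (lo : LevOut (Kc := (slC hLa hC n hn).K) (stB hGB bp bm) (nbA Φ X) (uA Φ hLa X θ)
    (AA Φ X μ κ1) (BA Φ X μ) Lv)
  (tt : TwOut (slC hLa hC n hn) fr3 (stB hGB bp bm) r (vS v0F v0B) (vS v1F v1B) Lv Tw)
  (hI : InitR Φ T f g J0 ct' r₀) (barS : BarS hG bp V coT (stB hGB bp bm))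
  (hm : ∀ c, ∀ t ∈ L c, μ ≤ t ∧ t ≤ 1 - μ)
include N D lo tt hI barS hm

/-- **the levels of the pattern points of a family** -/
theorem pat_lev {k : Ti X} {a : Φ.F} {j : ℕ} {w : E3}
    (hw : w ∈ ((Tw.tw k (Sum.inl a)).pat j).P) :
    μ ≤ Φ.lev a (f w) ∧ Φ.lev a (f w) ≤ 1 - μ / 2 + Cn δ R * κ1 ∧
      w ∈ frontier (KJ T (J k.1)) := by
  have hκ : Cn δ R * κ1 < 1 := N.cn1
  obtain ⟨p1, p2, p3, p4, p5, p6⟩ := N.base
  rcases tt.fits k _ j w hw with ⟨g1, -, -⟩ | ⟨g1, -, -⟩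
  · obtain ⟨k1, k2, k3⟩ := trc_P g1
    obtain ⟨h1, h2⟩ := stB_lev' hI hLa barS hm k1 k3
    exact ⟨h1, by linarith, k2⟩
  · obtain ⟨k1, k2⟩ := exa_lab (Lv k _) g1
    have k4 := lo.win k _ _ k1
    have k5 : w ∈ frontier (KJ T (J k.1)) := ((mem_P (Lv k _)).1 g1).1
    have k6 := abs_le.1 (tiny_near hLa N.hδ N.hR hκ (hC.tiny k.1 k.2) k5 a)
    rw [← k2, lo.u k] at k4
    have k7 : 1 - μ + Cn δ R * κ1 < sb Φ (θ k.1 w) a := k4.1
    have k8 : sb Φ (θ k.1 w) a < 1 - μ / 2 := k4.2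
    exact ⟨by linarith [k6.2], by linarith [k6.1], k5⟩

/-- **the levels of the moved vertices of a family** -/
theorem qv_lev (hv0 : ∀ (c : Ti X) a, nbT Φ X c a →
      sb Φ (θ c.1 (v0F c a).1) a ≤ (2 * Cn δ R + 1) * κ1)
    (hv1 : ∀ (c : Ti X) a, nbT Φ X c a →
      1 - (2 * Cn δ R + 1) * κ1 ≤ sb Φ (θ c.1 (v1F c a).1) a)
    {k : Ti X} {a : Φ.F} {j : ℕ} {v : (slC hLa hC n hn).Vx k}
    (hv : v ∈ ((Tw.tw k (Sum.inl a)).mv j).Qv) :
    μ / 2 - Cn δ R * κ1 < Φ.lev a (f v.1) ∧ Φ.lev a (f v.1) < 1 - μ / 2 + Cn δ R * κ1 := by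
  have b1 := N.base
  have hnb : nbT Φ X k a := qv_nb (c := k) (a := Sum.inl a) (j := j) D tt hv
  have e1 : (3 * Cn δ R + 1) * κ1 = 3 * (Cn δ R * κ1) + κ1 := by ring
  have e2 : (2 * Cn δ R + 1) * κ1 = 2 * (Cn δ R * κ1) + κ1 := by ring
  have h0 := hv0 k a hnb
  have h1 := hv1 k a hnb
  rw [e2] at h0 h1
  obtain ⟨p1, p2, p3, p4, p5, p6⟩ := b1
  have h := tiny_rgnI (κ := Ti X) (cf := Subtype.val) (J := fun c => J c.1)
    (J0 := fun c => J0 c.1) (V := fun c => V c.1) (θ := fun c => θ c.1)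
    (φ := fun c => φ c.1) (k := k) (a := a) (a' := Sum.inl a) hLa N.hδ N.hR N.hκ N.hμ
    (by linarith) (by rw [e1]; linarith) (fun c => hC.tiny c.1 c.2) lo (fun _ => rfl) hnb.1
    (show μ / 2 ≤ 1 - μ + Cn δ R * κ1 by linarith) (show 1 - μ / 2 ≤ 1 - μ / 2 from le_rfl)
    (show sb Φ (θ k.1 (v0F k a).1) a ≤ μ / 2 by linarith)
    (show 1 - μ / 2 ≤ sb Φ (θ k.1 (v1F k a).1) a by linarith)
    (fun w hw hl => stB_lev' hI hLa barS hm hw hl) (tt.rgn k _ j v hv)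
  exact ⟨h.2.2.1, h.2.2.2⟩

end s2

/-- the levels on a tile near the core of a barrier -/
theorem tile_lev (bar : BarOut Φ T f κ1 μ X J0 J V θ hG bp N' ρ1 ρ2 ρ3 ρ4 d q₀ ε bm hGB v0B v1B)
    (m : BM Φ X) {q : ι} {x y : E3} (hx : x ∈ P (T.H q)) (h1 : ρ1 m.co ≤ ga Φ m.co (f x))
    (h2 : ga Φ m.co (f x) ≤ ρ4 m.co) (hy : y ∈ P (T.H q)) (a : Φ.F) :
    |Φ.lev a (f x) - Φ.lev a (f y)| ≤ κ1 := by
  obtain ⟨g1, g2⟩ := bar.rm m.co m.co_notMem
  exact ((g2.tile_osc hx h1 h2 hy).2.2 a).trans g1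

/-- **G3 (i)**: no point of the family of the barrier on the faces of a tile near the core on which
this family has a level near `0` or `1` -/
theorem afree_out' (N : NumD δ κ0 R c0 κ2 μ κ1)
    (bar : BarOut Φ T f κ1 μ X J0 J V θ hG bp N' ρ1 ρ2 ρ3 ρ4 d q₀ ε bm hGB v0B v1B)
    (hI : InitR Φ T f g J0 ct' r₀) (hLa : IsOpen La)
    (barS : BarS hG bp V coT (stB hGB bp bm)) (hm : ∀ c, ∀ t ∈ L c, μ ≤ t ∧ t ≤ 1 - μ)
    {m : BM Φ X} {q : ι} {x : E3} (hx : x ∈ P (T.H q)) (h1 : ρ1 m.co ≤ ga Φ m.co (f x))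
    (h2 : ga Φ m.co (f x) ≤ ρ4 m.co) {α : ℝ} (hα : α ≤ 15 * μ / 32)
    (ha : Φ.lev m.am (f x) ≤ α ∨ 1 - α ≤ Φ.lev m.am (f x)) (F : C2 T)
    (hF : q ∈ F.side fr3) {y : E3} (hy : y ∈ (stB hGB bp bm).P) (hyF : y ∈ F.On) {i : JJ Φ L}
    (hl : (stB hGB bp bm).lab y = Sum.inl i) : i.1 ≠ m.am := by
  intro he
  have hyq : y ∈ P (T.H q) := by
    have h3 : F.pt ∈ P (T.H q) := C2.mem_side.1 hF
    have h4 := hyF.1
    rw [F.set_eq] at h4
    exact T.cc_sub_tile h3 h4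
  have h3 := abs_le.1 (tile_lev bar m hx h1 h2 hyq m.am)
  have h4 := stB_lev hI hLa barS hm hy hl
  rw [he] at h4
  obtain ⟨p1, p2, p3, p4, p5, p6⟩ := N.base
  rcases ha with ha | ha
  · linarith [h3.1, h4.1]
  · linarith [h3.2, h4.2]

/-- **G3 (i)**, low end -/
theorem afree_out (N : NumD δ κ0 R c0 κ2 μ κ1)
    (bar : BarOut Φ T f κ1 μ X J0 J V θ hG bp N' ρ1 ρ2 ρ3 ρ4 d q₀ ε bm hGB v0B v1B)
    (hI : InitR Φ T f g J0 ct' r₀) (hLa : IsOpen La)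
    (barS : BarS hG bp V coT (stB hGB bp bm)) (hm : ∀ c, ∀ t ∈ L c, μ ≤ t ∧ t ≤ 1 - μ)
    {m : BM Φ X} {q : ι} {x : E3} (hx : x ∈ P (T.H q)) (h1 : ρ1 m.co ≤ ga Φ m.co (f x))
    (h2 : ga Φ m.co (f x) ≤ ρ4 m.co) (ha : Φ.lev m.am (f x) ≤ 3 * μ / 8) (F : C2 T)
    (hF : q ∈ F.side fr3) (y : E3) (hy : y ∈ (stB hGB bp bm).P) (hyF : y ∈ F.On) (i : JJ Φ L)
    (hl : (stB hGB bp bm).lab y = Sum.inl i) : i.1 ≠ m.am :=
  afree_out' N bar hI hLa barS hm hx h1 h2 (α := 3 * μ / 8) (by linarith [N.hμ]) (Or.inl ha) F hF hy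
    hyF hl

/-- **G3 (ii)**: no pattern point and no moved vertex of the family of the barrier on an edge of the
sphere of a core in a tile near the core of the barrier on which this family has a level near `0` or
`1` -/
theorem afree_in' (N : NumD δ κ0 R c0 κ2 μ κ1)
    (bar : BarOut Φ T f κ1 μ X J0 J V θ hG bp N' ρ1 ρ2 ρ3 ρ4 d q₀ ε bm hGB v0B v1B)
    (D : DIn (slC hLa hC n hn).hH (stB hGB bp bm) r Sf (nbA Φ X) (vS v0F v0B) (vS v1F v1B)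
      (uA Φ hLa X θ) (AA Φ X μ κ1) (BA Φ X μ))
    (lo : LevOut (Kc := (slC hLa hC n hn).K) (stB hGB bp bm) (nbA Φ X) (uA Φ hLa X θ)
      (AA Φ X μ κ1) (BA Φ X μ) Lv)
    (tt : TwOut (slC hLa hC n hn) fr3 (stB hGB bp bm) r (vS v0F v0B) (vS v1F v1B) Lv Tw)
    (hI : InitR Φ T f g J0 ct' r₀) (barS : BarS hG bp V coT (stB hGB bp bm))
    (hm : ∀ c, ∀ t ∈ L c, μ ≤ t ∧ t ≤ 1 - μ)
    (hv0 : ∀ (c : Ti X) a, nbT Φ X c a →
      sb Φ (θ c.1 (v0F c a).1) a ≤ (2 * Cn δ R + 1) * κ1)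
    (hv1 : ∀ (c : Ti X) a, nbT Φ X c a →
      1 - (2 * Cn δ R + 1) * κ1 ≤ sb Φ (θ c.1 (v1F c a).1) a)
    {m : BM Φ X} {q : ι} {x : E3} (hx : x ∈ P (T.H q)) (h1 : ρ1 m.co ≤ ga Φ m.co (f x))
    (h2 : ga Φ m.co (f x) ≤ ρ4 m.co) {α : ℝ} (hα : α ≤ 15 * μ / 32)
    (ha : Φ.lev m.am (f x) ≤ α ∨ 1 - α ≤ Φ.lev m.am (f x)) (k : Ti X)
    (e : (slC hLa hC n hn).Ed k) (he : e.1.set ⊆ P (T.H q)) (j : ℕ) :
    (∀ j', ∀ w ∈ ((Tw.tw k (Sum.inl m.am)).pat j').P, w ∉ e.1.opn) ∧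
      ∀ b, ((slC hLa hC n hn).sh fr3 k).en e b ∉ ((Tw.tw k (Sum.inl m.am)).mv j).Qv := by
  obtain ⟨p1, p2, p3, p4, p5, p6⟩ := N.base
  constructor
  · intro j' w hw hwe
    have h3 := abs_le.1 (tile_lev bar m hx h1 h2 (he (e.1.opn_sub hwe)) m.am)
    obtain ⟨h4, h5, -⟩ := pat_lev N D lo tt hI barS hm hw
    rcases ha with ha | ha
    · linarith [h3.1]
    · linarith [h3.2]
  · intro b hb
    have h5 : (((slC hLa hC n hn).sh fr3 k).en e b).1 ∈ e.1.set := (endK_iff e _).1 ⟨b, rfl⟩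
    have h3 := abs_le.1 (tile_lev bar m hx h1 h2 (he h5) m.am)
    have h4 := qv_lev N D lo tt hI barS hm hv0 hv1 hb
    rcases ha with ha | ha
    · linarith [h3.1, h4.1]
    · linarith [h3.2, h4.2]

/-- **G3 (ii)**, low end -/
theorem afree_in (N : NumD δ κ0 R c0 κ2 μ κ1)
    (bar : BarOut Φ T f κ1 μ X J0 J V θ hG bp N' ρ1 ρ2 ρ3 ρ4 d q₀ ε bm hGB v0B v1B)
    (D : DIn (slC hLa hC n hn).hH (stB hGB bp bm) r Sf (nbA Φ X) (vS v0F v0B) (vS v1F v1B)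
      (uA Φ hLa X θ) (AA Φ X μ κ1) (BA Φ X μ))
    (lo : LevOut (Kc := (slC hLa hC n hn).K) (stB hGB bp bm) (nbA Φ X) (uA Φ hLa X θ)
      (AA Φ X μ κ1) (BA Φ X μ) Lv)
    (tt : TwOut (slC hLa hC n hn) fr3 (stB hGB bp bm) r (vS v0F v0B) (vS v1F v1B) Lv Tw)
    (hI : InitR Φ T f g J0 ct' r₀) (barS : BarS hG bp V coT (stB hGB bp bm))
    (hm : ∀ c, ∀ t ∈ L c, μ ≤ t ∧ t ≤ 1 - μ)
    (hv0 : ∀ (c : Ti X) a, nbT Φ X c a →
      sb Φ (θ c.1 (v0F c a).1) a ≤ (2 * Cn δ R + 1) * κ1)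
    (hv1 : ∀ (c : Ti X) a, nbT Φ X c a →
      1 - (2 * Cn δ R + 1) * κ1 ≤ sb Φ (θ c.1 (v1F c a).1) a)
    {m : BM Φ X} {q : ι} {x : E3} (hx : x ∈ P (T.H q)) (h1 : ρ1 m.co ≤ ga Φ m.co (f x))
    (h2 : ga Φ m.co (f x) ≤ ρ4 m.co) (ha : Φ.lev m.am (f x) ≤ 3 * μ / 8) (k : Ti X)
    (e : (slC hLa hC n hn).Ed k) (he : e.1.set ⊆ P (T.H q)) (j : ℕ) (hj : j < n k) :
    (∀ j' ≤ n k, ∀ w ∈ ((Tw.tw k (Sum.inl m.am)).pat j').P, w ∉ e.1.opn) ∧
      ∀ b, ((slC hLa hC n hn).sh fr3 k).en e b ∉ ((Tw.tw k (Sum.inl m.am)).mv j).Qv := by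
  have h := afree_in' N bar D lo tt hI barS hm hv0 hv1 hx h1 h2 (α := 3 * μ / 8)
    (by linarith [N.hμ]) (Or.inl ha) k e he j
  exact ⟨fun j' _ => h.1 j', h.2⟩

end Crest.Agent.R096.Afr_543
end

-- ▼ part R096/Gt1_664
section

/-!
# Row 96, DOORS, NE1 (helper664): the top part of the end wall of a barrier (leaf G4 of 778)

* `gma_conn_on` : the part of the sheet of a barrier above the gauge `rr m`, with level `≤ t0` of the
  moat, is connected;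
* `exists_Gn`   : the parts `Gn m` for all moats, with the literal of 778 (NE1).
-/

set_option autoImplicit false
set_option linter.unusedSectionVars false
set_option linter.unusedVariables false
set_option linter.style.longLine false

open Set Filter Topology Metric MeasureTheory Module
open scoped Classical

namespace Crest.Agent.R096.Gt_664

open Crest.Agent.R096.Msh_715 Crest.Agent.R096.Coh_184 Crest.Agent.R096.Bsp_628
  Crest.Agent.R096.Brk1_582 Crest.Agent.R096.Brk2_582 Crest.Agent.R096.Brk3_582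
  Crest.Agent.R096.Brk5_582 Crest.Agent.R096.Init_543 Crest.Agent.R096.Mbf_337
  Crest.Agent.R096.Main_4 Crest.Agent.R096.Lab_184
  Crest.Agent.R096.Seq_213 Crest.Agent.R096.Seq_213.GSt Crest.Agent.R096.Ginv_543
  Crest.Agent.R096.Agl5_543
  Crest.Agent.R96.Push_899 Crest.Agent.R096.Ess5_95 Crest.Agent.R096.Ess8_95
  Crest.Agent.R096.Ebr1_95 Crest.Agent.R096.Ebr3_95 Crest.Agent.R096.Ebr4_95
  Crest.Agent.R096.Ebr8_95 Crest.Agent.R096.Bar_106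
  Crest.Agent.R096.Exa_560 Crest.Agent.R096.Sphg_316 Crest.Agent.R096.Dib_438
  Crest.Agent.R096.Bgf_4 Crest.Agent.R096.Ess3_95 Crest.Agent.R096.Cns_778
open Crest.Agent.R096.Frn_337 (Ti)
open Crest.Agent.R096.Ess7_95 (KT)

open Crest.Agent.R096.SkC1_961 (E3 Hom3 IsPush FoamD)

section gen

variable {δ κ0 R c0 : ℝ} {La Om : Set E3} {ι : Type} {Φ : FoamD δ κ0 R c0 La}
  {T : Tiling Om ι} {f g : E3 → E3}
  {J0 J V : Φ.F → Set ι} {θ : Φ.F → E3 → E3} {Mo' : Type} {co : Mo' → Φ.F}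
  {ρ1 ρ2 ρ3 ρ4 d : Mo' → ℝ} {G : Mo' → E3 → ℝ} {rm h lo hi ω : Mo' → ℝ} {q₀ : Mo' → E3}
  {g0 ε rr : Mo' → ℝ}

/-- **the part of the sheet of the barrier `m` above the gauge `rr m`, over the part `D` of the
frontier of the brick**, is connected -/
theorem gma_conn_on (hB : BarF Φ T f J0 J V θ co ρ1 ρ2 ρ3 ρ4 d G rm h lo hi ω q₀ g0)
    (hLa : IsOpen La) (H : Hm f g Om La) (hε : ∀ m, ε m ∈ Ioo (lo m) (hi m)) {m : Mo'}
    (h0 : 0 < rr m) (h1 : rm m - h m * ε m < rr m) (h2 : rr m ≤ rm m + h m * ε m)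
    {D : Set E3}
    (hE : IsPreconnected {q | q ∈ frontier (co m).1.set ∧ G m q = ε m ∧ q ∈ D})
    (hL : IsPreconnected {q | q ∈ frontier (co m).1.set ∧ G m q ≤ ε m ∧ q ∈ D})
    (hne : {q | q ∈ frontier (co m).1.set ∧ G m q = ε m ∧ q ∈ D}.Nonempty) :
    IsPreconnected {x | x ∈ Gma Om Φ f co (lM Φ co rm h hi G) ε rr m ∧ Φ.Psi (f x) ∈ D} := by
  obtain ⟨p, hP⟩ := hB.pol hLa m
  have hr := hB.room m
  have hG := hB.gm m
  have hh := hB.h0 m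
  have hεm := hε m
  have hεhi : h m * ε m < h m * hi m := mul_lt_mul_of_pos_left hεm.2 hh
  have hd := hr.d0
  have ha1 : rm m + h m * ε m ≤ ρ4 m := by linarith [hB.a1' m]
  have hε0 : 0 < ε m := lt_of_le_of_lt hG.lo0 hεm.1
  have hhε : 0 < h m * ε m := mul_pos hh hε0
  set a1 : ℝ := rm m + h m * ε m with ha1d
  set A : Set E3 := {q | q ∈ frontier (co m).1.set ∧ G m q = ε m ∧ q ∈ D} with hA
  set B : Set E3 := {q | q ∈ frontier (co m).1.set ∧ G m q ≤ ε m ∧ q ∈ D} with hBd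
  have c1 := hP.prod_conn (A := A) (fun q hq => hq.1) hE h0 ha1
  have c2 := hP.prod_conn (A := B) (fun q hq => hq.1) hL (h0.trans_le h2) ha1
  obtain ⟨q, hq, hqe, hqD⟩ := hne
  have hmem : a1 ∈ Ioc 0 (ρ4 m) := ⟨h0.trans_le h2, ha1⟩
  have e1 := hP.gau a1 hmem q hq
  have e2 := hP.psi a1 hmem q hq
  have m1 : p (a1, q) ∈ {y | (rr m ≤ ga Φ (co m) y ∧ ga Φ (co m) y ≤ a1) ∧ Φ.Psi y ∈ A} :=
    ⟨⟨by rw [e1]; exact h2, e1.le⟩, by rw [e2]; exact ⟨hq, hqe, hqD⟩⟩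
  have m2 : p (a1, q) ∈ {y | (a1 ≤ ga Φ (co m) y ∧ ga Φ (co m) y ≤ a1) ∧ Φ.Psi y ∈ B} :=
    ⟨⟨e1.ge, e1.le⟩, by rw [e2]; exact ⟨hq, hqe.le, hqD⟩⟩
  have c3 := c1.union (p (a1, q)) m1 m2 c2
  have hb : Bod (Φ.B (co m)).lo (Pc Φ.F (co m)) := Pse_316.bod_brick Φ (co m) (hB.pt m)
  have hgf : ga Φ (co m) = Ng (Φ.B (co m)).lo (Pc Φ.F (co m)) :=
    funext (Etg_163.gg_eq Φ (co m))
  have hDL : {y | ga Φ (co m) y ≤ ρ4 m} ⊆ La := by
    rw [hgf]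
    exact (hb.le_sub hr.r4.le).trans (Φ.bf.sub (co m).1 (co m).2)
  have c4 := H.preconn_pre (D := _) (fun y hy => hDL (show ga Φ (co m) y ≤ ρ4 m by
    rcases hy with hy | hy
    · exact hy.1.2.trans ha1
    · exact hy.1.2.trans ha1)) c3
  have e : {x | x ∈ Gma Om Φ f co (lM Φ co rm h hi G) ε rr m ∧ Φ.Psi (f x) ∈ D} = Om ∩ f ⁻¹'
      ({y | (rr m ≤ ga Φ (co m) y ∧ ga Φ (co m) y ≤ a1) ∧ Φ.Psi y ∈ A} ∪
        {y | (a1 ≤ ga Φ (co m) y ∧ ga Φ (co m) y ≤ a1) ∧ Φ.Psi y ∈ B}) := by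
    ext x
    constructor
    · rintro ⟨⟨k1, k2, k3⟩, kD⟩
      obtain ⟨n1, n2, n3, n4⟩ := hB.pos hεm.2 k2
      have hfr := (hP.inv (f x) (h0.trans_le k3) (n2.trans ha1)).1
      refine ⟨k1, ?_⟩
      rcases n4 with n | n | n
      · linarith
      · exact Or.inr ⟨⟨n.ge, n.le⟩, hfr, n3, kD⟩
      · exact Or.inl ⟨⟨k3, n2⟩, hfr, n, kD⟩
    · rintro ⟨k1, k2⟩
      have key : rr m ≤ ga Φ (co m) (f x) ∧ ga Φ (co m) (f x) ≤ a1 ∧ G m (Φ.Psi (f x)) ≤ ε m ∧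
          (ga Φ (co m) (f x) = a1 ∨ G m (Φ.Psi (f x)) = ε m) ∧ Φ.Psi (f x) ∈ D := by
        rcases k2 with ⟨⟨n1, n2⟩, n3⟩ | ⟨⟨n1, n2⟩, n3⟩
        · exact ⟨n1, n2, n3.2.1.le, Or.inr n3.2.1, n3.2.2⟩
        · exact ⟨h2.trans n1, n2, n3.2.1, Or.inl (le_antisymm n2 n1), n3.2.2⟩
      obtain ⟨n1, n2, n3, n4, n5⟩ := key
      refine ⟨⟨k1, (bl_eq_iff hεm.2).2 ?_, n1⟩, n5⟩
      have u1 : |ga Φ (co m) (f x) - rm m| / h m ≤ ε m := by
        rw [div_le_iff₀ hh, abs_le]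
        constructor <;> linarith
      rcases n4 with n | n
      · rw [n]
        have u2 : |a1 - rm m| / h m = ε m := by
          rw [ha1d, add_sub_cancel_left, abs_of_pos hhε, mul_div_cancel_left₀ _ hh.ne']
        rw [u2]
        exact max_eq_left n3
      · rw [n]
        exact max_eq_right u1
  rw [e]
  exact c4

end gen

section mach

variable {δ κ0 R c0 : ℝ} {La Om : Set E3} {ι : Type} {Φ : FoamD δ κ0 R c0 La} {T : Tiling Om ι}
  {f g : E3 → E3} {κ1 κ2 μ : ℝ} {X : Set Φ.F} {J0 J V : Φ.F → Set ι}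
  {θ : Φ.F → E3 → E3} {r₀ : Φ.F → ℝ} {ρ1 ρ2 ρ3 ρ4 d : Φ.F → ℝ}
  {L : Φ.F → Finset ℝ} [Nonempty (JJ Φ L)] {hG : GF Φ r₀ T f L} {bp : JJ Φ L → E3}
  {Nn : BM Φ X → Set ℝ} {q₀ : BM Φ X → E3} {ε : BM Φ X → ℝ} {bm : BM Φ X → E3}
  {hGB : GFB Φ r₀ T f L (lRc Φ X μ ρ1 ρ3 d) ε}
  {v0B v1B : ∀ c, BM Φ X → VxK T (KT T J X) c}

/-- **the parts `lev am ≤ 3 μ / 8 + 2 d` of the sheets above `ρ3 + 7 d`** -/
theorem exists_Gn (hμ : 0 < μ) (hμ1 : μ ≤ 1 / 64) (hκ1 : κ1 ≤ 1 / 16) (hLa : IsOpen La)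
    (H : Hm f g Om La)
    (B : BarOut Φ T f κ1 μ X J0 J V θ hG bp Nn ρ1 ρ2 ρ3 ρ4 d q₀ ε bm hGB v0B v1B) :
    ∃ Gn : BM Φ X → Set E3, (∀ m, IsPreconnected (Gn m)) ∧
      (∀ m, Gn m ⊆ GmT Om Φ f X μ ρ1 ρ3 d ε m) ∧
      (∀ m, ∀ x ∈ Gn m, Φ.lev m.am (f x) ≤ 3 * μ / 8 + 2 * d m.co) ∧
      ∀ m, ∀ w ∈ (stB hGB bp bm).P, (stB hGB bp bm).lab w = Sum.inr m →
        (∃ q, w ∈ P (T.H q) ∧ ∃ x ∈ P (T.H q), ga Φ m.co (f x) = ρ3 m.co + 9 * d m.co ∧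
          Φ.lev m.am (f x) ≤ 3 * μ / 8) → w ∈ Gn m := by
  refine ⟨fun m => {x | x ∈ GmT Om Φ f X μ ρ1 ρ3 d ε m ∧
    Φ.Psi (f x) ∈ {q | sb Φ q m.am ≤ 3 * μ / 8 + 2 * d m.co}}, fun m => ?_, fun m x hx => hx.1,
    fun m x hx => hx.2, ?_⟩
  · obtain ⟨c1, c2, c3, c4, c5, c6, c7⟩ := caps B.barF B.lv m
    obtain ⟨p, q, hM⟩ := m.mo
    have hd := (B.rm m.co m.co_notMem).1
    have hhi := hiB_le (ρ1 := ρ1) (ρ3 := ρ3) (d := d) (c := m.co) (μ / 16)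
    have hεm := B.lv m
    have hε1 : 1 < ε m := hεm.1
    have hε2 : ε m ≤ 1 + μ / 16 := hεm.2.le.trans hhi
    have hra : 0 < 1 / 2 - 5 * μ / 16 := by linarith
    have hra1 : (1 / 2 - 5 * μ / 16) * 1 ≤ (1 / 2 - 5 * μ / 16) * ε m :=
      mul_le_mul_of_nonneg_left hε1.le hra.le
    have hw := moat_le (τ := ε m) (t0 := 3 * μ / 8 + 2 * d m.co) hLa hM
      (Ebr6_95.nm_rec hμ (by linarith)) (by linarith) (by linarith)
      (by nlinarith) (by nlinarith)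
    exact gma_conn_on (m := m) B.barF hLa H B.lv (rr := fun m => ρ3 m.co + 7 * d m.co)
      (by show 0 < ρ3 m.co + 7 * d m.co; linarith)
      (by show _ < ρ3 m.co + 7 * d m.co; linarith)
      (by show ρ3 m.co + 7 * d m.co ≤ _; linarith) hw.1 hw.2.1 hw.2.2
  · rintro m w hw hl ⟨q, hwq, x, hxq, hxg, hxl⟩
    obtain ⟨c1, c2, c3, c4, c5, c6, c7⟩ := caps B.barF B.lv m
    obtain ⟨h1, h2, h3, -⟩ := B.pos m w hw hl
    have hr := (B.rm m.co m.co_notMem).2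
    have hosc := (B.barF.room m).tile_osc hxq (by
      show ρ1 m.co ≤ ga Φ m.co (f x)
      rw [hxg]; linarith) (by
      show ga Φ m.co (f x) ≤ ρ4 m.co
      rw [hxg]; linarith) hwq
    have o1 : |ga Φ m.co (f x) - ga Φ m.co (f w)| ≤ d m.co := hosc.1
    have o3 : |Φ.lev m.am (f x) - Φ.lev m.am (f w)| ≤ d m.co := hosc.2.2 m.am
    have o1' := abs_le.1 o1
    have o3' := abs_le.1 o3
    rw [hxg] at o1'
    refine ⟨⟨h1, h3, ?_⟩, ?_⟩
    · show ρ3 m.co + 7 * d m.co ≤ ga Φ m.co (f w)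
      linarith [o1'.2]
    · show Φ.lev m.am (f w) ≤ 3 * μ / 8 + 2 * d m.co
      linarith [o3'.1]

end mach

end Crest.Agent.R096.Gt_664
end

-- ▼ part R096/Chz1_493
section

/-!
# Row 96, DOORS (helper493): the transversal chart of the end wall (leaf G1 of 778)

`exists_chart` : the piece `gauge ∈ [s0, s1]`, `Psi ∈ gam (t0, [0, w1])` of the moat is an embedded
rectangle in `Om`.
-/

set_option autoImplicit false
set_option linter.unusedSectionVars false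

open Set Topology Filter Metric Module
open scoped Classical

namespace Crest.Agent.R096.Chz_493

open Crest.Agent.R096.Msh_715 Crest.Agent.R096.Coh_184 Crest.Agent.R096.Bsp_628
  Crest.Agent.R096.Brk1_582 Crest.Agent.R096.Brk2_582 Crest.Agent.R096.Brk3_582
  Crest.Agent.R096.Brk5_582 Crest.Agent.R096.Init_543 Crest.Agent.R096.Mbf_337
  Crest.Agent.R96.Push_899 Crest.Agent.R096.Ess1_95 Crest.Agent.R096.Ess4_95
  Crest.Agent.R096.Ess5_95 Crest.Agent.R096.Ess6_95 Crest.Agent.R096.Ess7_95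
  Crest.Agent.R096.Lab_184 Crest.Agent.R096.Seq_213 Crest.Agent.R096.Seq_213.GSt
  Crest.Agent.R096.Main_4 Crest.Agent.R096.Exa_560 Crest.Agent.R096.Agl4_543
  Crest.Agent.R096.Agl5_543 Crest.Agent.R096.Agl6_543 Crest.Agent.R096.Agl8_543
  Crest.Agent.R096.Ebr1_95 Crest.Agent.R096.Ebr2_95
  Crest.Agent.R096.Ebr3_95 Crest.Agent.R096.Ebr4_95 Crest.Agent.R096.Ebr5_95
  Crest.Agent.R096.Ebr6_95 Crest.Agent.R096.Bar_106
  Crest.Agent.R096.Bgf_4 Crest.Agent.R096.Dib_438 Crest.Agent.R096.Sphg_316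

open Crest.Agent.R096.SkC1_961 (E3 Hom3 IsPush FoamD)

variable {δ κ0 R c0 : ℝ} {La Om : Set E3} {Φ : FoamD δ κ0 R c0 La} {f g : E3 → E3}

/-- **G1** -/
theorem exists_chart_pol (hLa : IsOpen La) (H : Hm f g Om La) {c : Φ.F} {ρ : ℝ}
    {pl : ℝ × E3 → E3} (hPol : Pol Φ c ρ pl) (hcL : ∀ y, ga Φ c y ≤ ρ → y ∈ La)
    {a p q : Φ.F} {Z : Set Φ.F} (hM : Mo (Pc Φ.F) c a Z p q)
    {s0 s1 t0 w1 : ℝ} (hs0 : 0 < s0) (hs1 : s1 ≤ ρ) (ht0 : t0 ∈ Icc (0 : ℝ) 1) (hw1 : w1 ≤ 1) :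
    ∃ Wz : ℝ × ℝ → E3, ContinuousOn Wz (Icc s0 s1 ×ˢ Icc 0 w1) ∧
      InjOn Wz (Icc s0 s1 ×ˢ Icc 0 w1) ∧
      (∀ z ∈ Icc s0 s1 ×ˢ Icc 0 w1, Wz z ∈ Om ∧ ga Φ c (f (Wz z)) = z.1 ∧
        Φ.Psi (f (Wz z)) = gam (bc (F := Φ.F)) a Z p q (t0, z.2) ∧ Φ.lev a (f (Wz z)) = t0 ∧
        (∀ e, dv a Z (fun e => Φ.lev e (f (Wz z))) e =
          dv a Z (uu a Z p q t0 z.2) e) ∧
        ∀ l0 mm ra : ℝ, 0 < l0 → gmf Φ l0 mm ra a Z (Φ.Psi (f (Wz z))) =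
          max (z.2 / l0) (|t0 - mm| / ra)) ∧
      IsCompact (Wz '' (Icc s0 s1 ×ˢ Icc 0 w1)) ∧
      TrivF (ZMod 2) (Wz '' (Icc s0 s1 ×ˢ Icc 0 w1)) := by
  have FF := foam Φ.bf hLa
  have hRct : ∀ w ∈ Icc (0 : ℝ) w1, ((t0, w) : ℝ × ℝ) ∈ Rct := fun w hw =>
    ⟨ht0, ⟨by linarith [hw.1], by linarith [hw.2]⟩⟩
  have hfr : ∀ w ∈ Icc (0 : ℝ) w1, gam (bc (F := Φ.F)) a Z p q (t0, w) ∈ frontier c.1.set :=
    fun w hw => gam_fr hLa hM (hRct w hw)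
  set D : Set (ℝ × ℝ) := Icc s0 s1 ×ˢ Icc 0 w1 with hD
  set Y : ℝ × ℝ → E3 := fun z => pl (z.1, gam (bc (F := Φ.F)) a Z p q (t0, z.2)) with hY
  have hIoc : ∀ z ∈ D, z.1 ∈ Ioc 0 ρ := fun z hz =>
    ⟨lt_of_lt_of_le hs0 hz.1.1, hz.1.2.trans hs1⟩
  have hga : ∀ z ∈ D, ga Φ c (Y z) = z.1 := fun z hz =>
    hPol.gau z.1 (hIoc z hz) _ (hfr z.2 hz.2)
  have hpsi : ∀ z ∈ D, Φ.Psi (Y z) = gam (bc (F := Φ.F)) a Z p q (t0, z.2) := fun z hz =>
    hPol.psi z.1 (hIoc z hz) _ (hfr z.2 hz.2)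
  have hYL : ∀ z ∈ D, Y z ∈ La := fun z hz => hcL _ (by rw [hga z hz]; exact (hIoc z hz).2)
  have hYc : ContinuousOn Y D := by
    have h1 : ContinuousOn (fun z : ℝ × ℝ => gam (bc (F := Φ.F)) a Z p q (t0, z.2)) D := by
      refine (hM.continuousOn_gam FF).comp (Continuous.continuousOn (by fun_prop)) ?_
      intro z hz
      exact hRct z.2 hz.2
    refine hPol.cont.comp (continuous_fst.continuousOn.prodMk h1) ?_
    intro z hz
    exact ⟨mem_univ _, hfr z.2 hz.2⟩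
  have hfW : ∀ z ∈ D, f (g (Y z)) = Y z := fun z hz => H.fg _ (hYL z hz)
  have hWc : ContinuousOn (fun z => g (Y z)) D := H.gc.comp hYc hYL
  have hinj : InjOn (fun z => g (Y z)) D := by
    intro x hx y hy hxy
    have h1 : Y x = Y y := by
      have h2 : f (g (Y x)) = f (g (Y y)) := congrArg f hxy
      rwa [hfW x hx, hfW y hy] at h2
    have h3 : x.1 = y.1 := by rw [← hga x hx, ← hga y hy, h1]
    have h4 : gam (bc (F := Φ.F)) a Z p q (t0, x.2) = gam (bc (F := Φ.F)) a Z p q (t0, y.2) := by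
      rw [← hpsi x hx, ← hpsi y hy, h1]
    have h5 := hM.gam_injOn FF (hRct x.2 hx.2) (hRct y.2 hy.2) h4
    exact Prod.ext h3 (Prod.mk.inj h5).2
  have hDc : IsCompact D := isCompact_Icc.prod isCompact_Icc
  refine ⟨fun z => g (Y z), hWc, hinj, fun z hz => ?_, hDc.image_of_continuousOn hWc,
    trivF_convex hDc ((convex_Icc _ _).prod (convex_Icc _ _)) hWc hinj⟩
  have hlev : ∀ e, Φ.lev e (f (g (Y z))) = uu a Z p q t0 z.2 e := by
    intro e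
    show sc (Pc Φ.F) (bc (F := Φ.F)) (Φ.Psi (f (g (Y z)))) e = _
    rw [hfW z hz, hpsi z hz, hM.sc_gam FF (hRct z.2 hz.2)]
  refine ⟨H.gm (hYL z hz), ?_, ?_, ?_, fun e => ?_, fun l0 mm ra hl0 => ?_⟩
  · show ga Φ c (f (g (Y z))) = z.1
    rw [hfW z hz, hga z hz]
  · show Φ.Psi (f (g (Y z))) = _
    rw [hfW z hz, hpsi z hz]
  · show Φ.lev a (f (g (Y z))) = t0
    rw [hlev a, uu_a]
  · show dv a Z (fun e => Φ.lev e (f (g (Y z)))) e = _
    rw [show (fun e => Φ.lev e (f (g (Y z)))) = uu a Z p q t0 z.2 from funext hlev]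
  · show gmf Φ l0 mm ra a Z (Φ.Psi (f (g (Y z)))) = _
    rw [hfW z hz, hpsi z hz, gmf_gam hLa hM (hRct z.2 hz.2)]
    show max (|z.2| / l0) (|t0 - mm| / ra) = _
    rw [abs_of_nonneg hz.2.1]

variable {ι : Type} {T : Tiling Om ι} {J0 J V : Φ.F → Set ι} {θ : Φ.F → E3 → E3}
variable {Mo' : Type} {co : Mo' → Φ.F} {ρ1 ρ2 ρ3 ρ4 d : Mo' → ℝ} {G : Mo' → E3 → ℝ}
  {rm h lo hi ω : Mo' → ℝ} {q₀ : Mo' → E3} {g0 : Mo' → ℝ}

/-- **G1 of 778 #12223** : the transversal chart over 4's `BarF` -/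
theorem exists_chart (hLa : IsOpen La) (H : Hm f g Om La)
    (hB : BarF Φ T f J0 J V θ co ρ1 ρ2 ρ3 ρ4 d G rm h lo hi ω q₀ g0) (m : Mo')
    {a p q : Φ.F} {Z : Set Φ.F} (hM : Mo (Pc Φ.F) (co m) a Z p q)
    {s0 s1 t0 w1 : ℝ} (hs0 : 0 < s0) (hs1 : s1 ≤ ρ4 m) (ht0 : t0 ∈ Icc (0 : ℝ) 1)
    (hw1 : w1 ≤ 1) :
    ∃ Wz : ℝ × ℝ → E3, ContinuousOn Wz (Icc s0 s1 ×ˢ Icc 0 w1) ∧
      InjOn Wz (Icc s0 s1 ×ˢ Icc 0 w1) ∧
      (∀ z ∈ Icc s0 s1 ×ˢ Icc 0 w1, Wz z ∈ Om ∧ ga Φ (co m) (f (Wz z)) = z.1 ∧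
        Φ.Psi (f (Wz z)) = gam (bc (F := Φ.F)) a Z p q (t0, z.2) ∧ Φ.lev a (f (Wz z)) = t0 ∧
        (∀ e, dv a Z (fun e => Φ.lev e (f (Wz z))) e =
          dv a Z (uu a Z p q t0 z.2) e) ∧
        ∀ l0 mm ra : ℝ, 0 < l0 → gmf Φ l0 mm ra a Z (Φ.Psi (f (Wz z))) =
          max (z.2 / l0) (|t0 - mm| / ra)) ∧
      IsCompact (Wz '' (Icc s0 s1 ×ˢ Icc 0 w1)) ∧
      TrivF (ZMod 2) (Wz '' (Icc s0 s1 ×ˢ Icc 0 w1)) := by
  have hr := hB.room m
  obtain ⟨pl, hPol⟩ := hB.pol hLa m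
  have hcL : (co m).1.set ⊆ La := Φ.bf.sub (co m).1 (co m).2
  have hgc : ∀ y, ga Φ (co m) y ≤ ρ4 m → y ∈ La := by
    intro y hy
    have hb : Bod (Φ.B (co m)).lo (Pc Φ.F (co m)) := Pse_316.bod_brick Φ (co m) (hB.pt m)
    have hgf : ga Φ (co m) = Ng (Φ.B (co m)).lo (Pc Φ.F (co m)) :=
      funext (Etg_163.gg_eq Φ (co m))
    exact hcL (hb.le_sub hr.r4.le (show y ∈ {y | Ng _ _ y ≤ ρ4 m} by rw [← hgf]; exact hy))
  exact exists_chart_pol hLa H hPol hgc hM hs0 hs1 ht0 hw1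

end Crest.Agent.R096.Chz_493
end

-- ▼ part R096/Nem1_493

/-!
# Row 96, DOORS, NE1 (helper493): **`NE1M`** from 778's `encl_core`

The point of the end wall at the gauge `ρ3 + 9 d` (664's `exists_wall`) is not enclosed.
-/

set_option autoImplicit false
set_option linter.unusedSectionVars false
set_option linter.unusedVariables false
set_option linter.style.longLine false

open Set Topology Filter Metric Module Relation MeasureTheory
open scoped Classical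

namespace Crest.Agent.R096.Nem_493

open Crest.Agent.R096.Msh_715 Crest.Agent.R096.Coh_184 Crest.Agent.R096.Lab_184
  Crest.Agent.R096.Main_4 Crest.Agent.R096.Agl5_543
  Crest.Agent.R096.Seq_213 Crest.Agent.R096.St_147 Crest.Agent.R096.Door_501
  Crest.Agent.R096.Twr_438 Crest.Agent.R096.Exa_560
  Crest.Agent.R096.Ess3_95 Crest.Agent.R096.Ess4_95 Crest.Agent.R096.Ac_117 Crest.Agent.R096.Lm_117
  Crest.Agent.R096.Dfi_539 Crest.Agent.R096.Dfi_471 Crest.Agent.R096.Dfo_539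
  Crest.Agent.R096.Sla_184 Crest.Agent.R096.Gm_298
  Crest.Agent.R096.Brk1_582 Crest.Agent.R096.Brk2_582 Crest.Agent.R096.Brk3_582
  Crest.Agent.R096.Brk5_582 Crest.Agent.R096.Bsp_628 Crest.Agent.R096.Init_543
  Crest.Agent.R096.Lv3_471 Crest.Agent.R096.Lv4_471 Crest.Agent.R096.Slt_471
  Crest.Agent.R096.Dib_438 Crest.Agent.R096.Rop_441 Crest.Agent.R096.Frk_441
  Crest.Agent.R096.Dff_539 Crest.Agent.R096.Frs_662 Crest.Agent.R096.Qdl_662
  Crest.Agent.R096.Cg_501 Crest.Agent.R096.SecW_892 Crest.Agent.R096.Sgd_298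
  Crest.Agent.R096.Dfg_539 Crest.Agent.R096.Nmd1_698 Crest.Agent.R096.Civ_662
  Crest.Agent.R096.Lbc_334 Crest.Agent.R096.Bar_106 Crest.Agent.R096.Bgf_4
  Crest.Agent.R096.Ebr4_95 Crest.Agent.R096.Ess5_95 Crest.Agent.R096.Cns_778
  Crest.Agent.R096.Nef_778
open Crest.Agent.R096.Sgo_298 (RmA rout ActR)
open Crest.Agent.R096.Mbf_337 (KJ Tiny Cores Fine sb gau Star Levels Words)
open Crest.Agent.R096.SkC1_961 (E3 FoamD Hom3)
open Crest.Agent.R096.Frn_337 (Ti)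
open Crest.Agent.R096.Ess7_95 (KT Sh)
open Crest.Agent.R096.Dia_316 (nbT)
open Crest.Agent.R096.Dfn_416 (BarS)
open Crest.Agent.R096.Bmf_416 (coT coT_fin)
open Crest.Agent.R096.Sde_422 (gR bz_rec ga_ge)

/-- a `U`-shaped path in the plane is connected -/
theorem preconn_U {s0 s1 w1 : ℝ} (hs : s0 ≤ s1) (hw : 0 ≤ w1) :
    IsPreconnected ((Icc s0 s1 ×ˢ {(0 : ℝ)}) ∪ (({s0} : Set ℝ) ×ˢ Icc 0 w1) ∪
      (Icc s0 s1 ×ˢ {w1})) := by
  have a1 : IsPreconnected (Icc s0 s1 ×ˢ {(0 : ℝ)}) :=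
    isPreconnected_Icc.prod isPreconnected_singleton
  have a2 : IsPreconnected (({s0} : Set ℝ) ×ˢ Icc 0 w1) :=
    isPreconnected_singleton.prod isPreconnected_Icc
  have a3 : IsPreconnected (Icc s0 s1 ×ˢ {w1}) :=
    isPreconnected_Icc.prod isPreconnected_singleton
  refine IsPreconnected.union (s0, w1) ?_ ?_ (IsPreconnected.union (s0, 0) ?_ ?_ a1 a2) a3
  · exact Or.inr ⟨rfl, ⟨hw, le_rfl⟩⟩
  · exact ⟨⟨le_rfl, hs⟩, rfl⟩
  · exact ⟨⟨le_rfl, hs⟩, rfl⟩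
  · exact ⟨rfl, ⟨le_rfl, hw⟩⟩

theorem ne1M : Hop_895.NE1M := by
  intro δ κ0 R c0 κ2 κ3 κp μ κ1 Om La f g hLa Φ ι T X J0 J V ct A lam z θ φ M hC ct' r₀ hR hM h1 h2
    L _ hG D bp lam₀ v₀ v₁ r v0 v1 ρ1 ρ2 ρ3 ρ4 d q₀ ε bm hGB v0B v1B n hn Lv Tw MM _ hnC l0' m
  have N := MM.N
  have bar := MM.bar
  have H := hR.hm
  have hμ := N.hμ
  have hμb := N.hμb
  have hRm : RmA Φ T f X J0 J V θ ρ1 ρ2 ρ3 ρ4 d := rmA_of bar
  have hr := hRm m.co m.co_notMem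
  have hT := hC.tiny m.co m.co_notMem
  have hd0 := hr.d0
  obtain ⟨n1, n2, n3, n4, n5, n6⟩ := N.base
  have hdκ : d m.co ≤ κ1 := (bar.rm m.co m.co_notMem).1
  obtain ⟨lm, hlm, LOW, HIGH⟩ := bar.lab m
  have hdm : d m.co ≤ μ ^ 2 / 512 := by nlinarith
  obtain ⟨w0, w1, w2, w3, w4, w5, w6, w7, qw, hqV, hwq, xw, hxw, hxg, hxl, -⟩ :=
    Wy_664.exists_wall hLa N.hδ N.hR H hμ (by linarith) le_rfl bar.barF hGB bar.lv m hdm hlm
      LOW HIGH
  by_contra hno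
  push Not at hno
  obtain ⟨Y, hY0, hY1, hY2, hY3⟩ := hno w0 w1 w2 (by linarith)
  -- numbers
  have hZ := bz_rec N H hLa hC bar m
  have hε := bar.lv m
  have hε1 : 1 < ε m := hε.1
  have hε2 : ε m ≤ 1 + μ / 16 := hε.2.le.trans (hiB_le _ _)
  have hh := bar.barF.h0 m
  have hhε : Bgf_4.hB ρ1 ρ3 d m.co * 1 ≤ Bgf_4.hB ρ1 ρ3 d m.co * ε m :=
    mul_le_mul_of_nonneg_left hε1.le hh.le
  have e1 := rB_sub (ρ1 := ρ1) (ρ3 := ρ3) (d := d) m.co
  have e2 := rB_add (ρ1 := ρ1) (ρ3 := ρ3) (d := d) m.co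
  have hω := N.om hdκ
  have hra : 0 < 1 / 2 - 5 * μ / 16 := N.ra0
  obtain ⟨p, q, hMo⟩ := m.mo
  -- the chart
  have hw1 : μ / 4 ≤ 1 := by linarith
  obtain ⟨Wz, c1, c2, c3, c4, c5⟩ := Chz_493.exists_chart hLa H bar.barF m hMo (s0 := ρ1 m.co)
    (s1 := ρ3 m.co + 9 * d m.co) (t0 := 3 * μ / 8) (w1 := μ / 4) hr.r1
    (by show ρ3 m.co + 9 * d m.co ≤ ρ4 m.co; linarith [hr.r34])
    ⟨by linarith, by linarith⟩ hw1
  set Rc : Set (ℝ × ℝ) := Icc (ρ1 m.co) (ρ3 m.co + 9 * d m.co) ×ˢ Icc (0 : ℝ) (μ / 4) with hRc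
  have hs01 : ρ1 m.co ≤ ρ3 m.co + 9 * d m.co := by linarith [hr.r12, hr.r23]
  have hga1 : ∀ z ∈ Rc, ρ1 m.co ≤ ga Φ m.co (f (Wz z)) ∧
      ga Φ m.co (f (Wz z)) ≤ ρ3 m.co + 9 * d m.co ∧ ga Φ m.co (f (Wz z)) ≤ ρ4 m.co := by
    intro z hz
    have h3 : ga Φ m.co (f (Wz z)) = z.1 := (c3 z hz).2.1
    rw [h3]
    exact ⟨hz.1.1, hz.1.2, by linarith [hz.1.2, hr.r34]⟩
  have hlev : ∀ z ∈ Rc, Φ.lev m.am (f (Wz z)) = 3 * μ / 8 := fun z hz => (c3 z hz).2.2.2.1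
  have hgR : ∀ z ∈ Rc, gR Φ X μ m (Φ.Psi (f (Wz z))) =
      max (z.2 / (μ / 8)) (|3 * μ / 8 - 1 / 2| / (1 / 2 - 5 * μ / 16)) := fun z hz =>
    (c3 z hz).2.2.2.2.2 _ _ _ N.l0
  have hA1 : |3 * μ / 8 - 1 / 2| / (1 / 2 - 5 * μ / 16) ≤ 1 - μ / 8 := by
    rw [abs_of_nonpos (by linarith), div_le_iff₀ hra]
    nlinarith
  have hA0 : 0 ≤ |3 * μ / 8 - 1 / 2| / (1 / 2 - 5 * μ / 16) := div_nonneg (abs_nonneg _) hra.le
  -- low and high
  have hlow : ∀ z ∈ Rc, z.2 = 0 → gR Φ X μ m (Φ.Psi (f (Wz z))) ≤ 1 - μ / 8 := by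
    intro z hz h0
    rw [hgR z hz, h0, zero_div]
    exact max_le (hA0.trans hA1) hA1
  have hhigh : ∀ z ∈ Rc, z.2 = μ / 4 → gR Φ X μ m (Φ.Psi (f (Wz z))) = 2 := by
    intro z hz h0
    rw [hgR z hz, h0]
    have h3 : μ / 4 / (μ / 8) = 2 := by
      rw [div_eq_iff (by linarith)]; ring
    rw [h3]
    exact max_eq_left (by linarith)
  -- tiles which meet the core of the barrier
  have hcore : ∀ q' x, x ∈ P (T.H q') → ga Φ m.co (f x) ≤ ρ4 m.co → ∀ c : Ti X,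
      P (T.H q') ⊆ (slC hLa hC n hn).K c → c.1 = m.co := by
    intro q' x hx hg c hc
    have hV : q' ∈ V m.co := hr.v q' ⟨x, hx, hg⟩
    have hJ' : q' ∈ J c.1 := Slt_471.sub_KJ_iff.1 hc
    by_contra hne
    exact Set.disjoint_left.1 (hC.disj c.1 m.co hne) ((hC.tiny c.1 c.2).sub hJ') hV
  have hDO : Wz '' Rc ⊆ Om := by
    rintro _ ⟨z, hz, rfl⟩
    exact (c3 z hz).1
  -- the three parts
  set Kp : Set (ℝ × ℝ) := (Icc (ρ1 m.co) (ρ3 m.co + 9 * d m.co) ×ˢ {(0 : ℝ)}) ∪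
    (({ρ1 m.co} : Set ℝ) ×ˢ Icc 0 (μ / 4)) ∪
      (Icc (ρ1 m.co) (ρ3 m.co + 9 * d m.co) ×ˢ {μ / 4}) with hKp
  have hKR : Kp ⊆ Rc := by
    rintro z ((⟨a1, a2⟩ | ⟨a1, a2⟩) | ⟨a1, a2⟩)
    · have a2' : z.2 = 0 := a2
      exact ⟨a1, by rw [a2']; exact ⟨le_rfl, by linarith⟩⟩
    · have a1' : z.1 = ρ1 m.co := a1
      exact ⟨by rw [a1']; exact ⟨le_rfl, hs01⟩, a2⟩
    · have a2' : z.2 = μ / 4 := a2
      exact ⟨a1, by rw [a2']; exact ⟨by linarith, le_rfl⟩⟩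
  set Tp : Set (ℝ × ℝ) := ({ρ3 m.co + 9 * d m.co} : Set ℝ) ×ˢ Icc (0 : ℝ) (μ / 4) with hTp
  have hTR : Tp ⊆ Rc := by
    rintro z ⟨a1, a2⟩
    have a1' : z.1 = ρ3 m.co + 9 * d m.co := a1
    exact ⟨by rw [a1']; exact ⟨hs01, le_rfl⟩, a2⟩
  have hcases : ∀ z ∈ Kp, z.2 = 0 ∨ z.1 = ρ1 m.co ∨ z.2 = μ / 4 := by
    rintro z ((⟨a1, a2⟩ | ⟨a1, a2⟩) | ⟨a1, a2⟩)
    · exact Or.inl a2
    · exact Or.inr (Or.inl a1)
    · exact Or.inr (Or.inr a2)
  -- the barrier points on the tiles of the column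
  have h0 : ∀ q', (P (T.H q') ∩ Wz '' Kp).Nonempty →
      (∀ c, ¬ P (T.H q') ⊆ (slC hLa hC n hn).K c) → ∀ w ∈ (stB hGB bp bm).P,
      (stB hGB bp bm).lab w = Sum.inr m → w ∉ P (T.H q') := by
    rintro q' ⟨x, hxq, z, hzK, rfl⟩ hqo w hw hl hwq
    have hz := hKR hzK
    obtain ⟨g1, g2, g3⟩ := hga1 z hz
    obtain ⟨-, -, -, -, b1, b2, b3, b4⟩ := bar.pos m w hw hl
    have o1 := abs_le.1 (hr.tile_osc hxq g1 g3 hwq).1
    have o2 := abs_le.1 (bar.barF.osc m q' _ hxq g1 g3 w hwq)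
    have o2a : gR Φ X μ m (Φ.Psi (f (Wz z))) - gR Φ X μ m (Φ.Psi (f w)) ≤ μ / 4096 :=
      o2.2.trans hω
    have o2b : -(μ / 4096) ≤ gR Φ X μ m (Φ.Psi (f (Wz z))) - gR Φ X μ m (Φ.Psi (f w)) :=
      le_trans (by linarith [hω]) o2.1
    have b3' : gR Φ X μ m (Φ.Psi (f w)) ≤ ε m := b3
    have hge : ∀ y ∈ P (T.H q'), ρ2 m.co ≤ ga Φ m.co (f y) := fun y hy =>
      ga_ge hLa H hC m.co_notMem hZ (T.sub _ hy)
        (notInt_tile (S := slC hLa hC n hn) hLa H hC m.co_notMem hZ ⟨coT m, rfl⟩ hqo hy)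
    have g4 := hge w hwq
    have g5 := hge _ hxq
    rcases hcases z hzK with h3 | h3 | h3
    · have h4 := hlow z hz h3
      rcases b4 with b4 | b4 | b4
      · linarith [hr.r12]
      · linarith
      · have b4' : gR Φ X μ m (Φ.Psi (f w)) = ε m := b4
        linarith
    · have h5 : ga Φ m.co (f (Wz z)) = z.1 := (c3 z hz).2.1
      rw [h5, h3] at g5
      linarith [hr.r12]
    · have h4 := hhigh z hz h3
      linarith
  -- the moved vertices on the tiles of the column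
  have h0' : ∀ q', (P (T.H q') ∩ Wz '' Kp).Nonempty → ∀ c, P (T.H q') ⊆ (slC hLa hC n hn).K c →
      ∀ v : (slC hLa hC n hn).Vx c, v.1 ∈ P (T.H q') → ∀ j < (slC hLa hC n hn).n c,
        v ∉ ((Tw.tw c (Sum.inr m)).mv j).Qv := by
    rintro q' ⟨x, hxq, z, hzK, rfl⟩ c hc v hv j hj
    have hz := hKR hzK
    obtain ⟨g1, g2, g3⟩ := hga1 z hz
    rcases hcases z hzK with h3 | h3 | h3
    · exact Nvm1_985.never_m N H bar MM.din MM.lo MM.tt m hxq g1 g3 (Or.inl (hlow z hz h3)) c v hv j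
    · intro hQ
      have hcm : c.1 = m.co := hcore q' _ hxq g3 c hc
      have hfr : v.1 ∈ frontier (KJ T (J m.co)) := by
        rw [← hcm]; exact v.2.2
      have g6 := hr.fr v.1 hfr
      have o1 := abs_le.1 (hr.tile_osc hxq g1 g3 hv).1
      have h5 : ga Φ m.co (f (Wz z)) = z.1 := (c3 z hz).2.1
      rw [h5, h3] at o1
      linarith [hr.r12, g6.1, o1.1]
    · exact Nvm1_985.never_m N H bar MM.din MM.lo MM.tt m hxq g1 g3
        (Or.inr (hhigh z hz h3).ge) c v hv j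
  -- the tiles of the top path are outside the cores
  have hout : ∀ q', (P (T.H q') ∩ Wz '' Tp).Nonempty →
      ∀ c, ¬ P (T.H q') ⊆ (slC hLa hC n hn).K c := by
    rintro q' ⟨x, hxq, z, hzT, rfl⟩ c hc
    have hz := hTR hzT
    obtain ⟨g1, g2, g3⟩ := hga1 z hz
    have hcm : c.1 = m.co := hcore q' _ hxq g3 c hc
    have h3 : Wz z ∈ KJ T (J m.co) := by
      rw [← hcm]; exact hc hxq
    have h4 := Sgo_298.ga_core hLa H hC hRm m.co_notMem h3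
    have h5 : ga Φ m.co (f (Wz z)) = z.1 := (c3 z hz).2.1
    have h6 : z.1 = ρ3 m.co + 9 * d m.co := hzT.1
    have h7 : ga Φ m.co (f (Wz z)) ≤ ρ3 m.co := h4
    rw [h5, h6] at h7
    linarith
  -- the family of the barrier is not there
  have hfT : ∀ q', (P (T.H q') ∩ Wz '' Rc).Nonempty → FreeT (stB hGB bp bm)
      (fam := fun j : JJ Φ L => j.1) (BM.am m) q' := by
    rintro q' ⟨x, hxq, z, hz, rfl⟩ F hF y hy hyF i hl
    obtain ⟨g1, g2, g3⟩ := hga1 z hz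
    exact Afr_543.afree_out N bar hR hLa MM.barS MM.lev hxq g1 g3 (hlev z hz).le F hF y hy hyF i hl
  have hfL : ∀ q', (P (T.H q') ∩ Wz '' Rc).Nonempty → FreeL Tw (BM.am m) q' := by
    rintro q' ⟨x, hxq, z, hz, rfl⟩ k e he j hj
    obtain ⟨g1, g2, g3⟩ := hga1 z hz
    exact Afr_543.afree_in N bar MM.din MM.lo MM.tt hR MM.barS MM.lev MM.v0l MM.v1l hxq g1 g3
      (hlev z hz).le k e he j hj
  -- the top part
  obtain ⟨Gn, t1, t2, t3, t4⟩ := Gt_664.exists_Gn hμ hμb (by linarith) hLa H bar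
  have U := upp_m (hLa := hLa) (hC := hC) (n := n) (hn := hn) (r := r) hR hμ MM.lev bar
  have hw0G : w0 ∈ Gn m := t4 m w0 w1 w2 ⟨qw, hwq, xw, hxw, hxg, hxl⟩
  have hsub := conn_sub (S := slC hLa hC n hn) (Tw := Tw) (l0 := l0') (am := BM.am) (a := BM.am m)
    U t1 (fun m => (t2 m).trans (gmT_sub hRm m)) (m := m) rfl (hY1 w0 hY0).1 (hY1 w0 hY0).2 hw0G hY0
    (by
      rintro F ⟨m', hm', F0, rfl, q', hq', x, hxq, hxG⟩ y hyY hA hly
      refine hY2 (Sla.old F0) y hyY hA (nox_old ?_ y)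
      intro u hu huF i hl
      rw [← hm']
      have hd' : d m'.co ≤ κ1 := (bar.rm m'.co m'.co_notMem).1
      have hr' := hRm m'.co m'.co_notMem
      obtain ⟨k1, k2, k3⟩ := t2 m' hxG
      obtain ⟨c1', c2', c3', c4', c5', c6', c7'⟩ := caps bar.barF bar.lv m'
      have k3' : ρ3 m'.co + 7 * d m'.co ≤ ga Φ m'.co (f x) := k3
      have k4 : ga Φ m'.co (f x) ≤ rB ρ1 ρ3 d m'.co + Bgf_4.hB ρ1 ρ3 d m'.co * ε m' :=
        (bar.barF.pos (bar.lv m').2 k2).2.1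
      exact Afr_543.afree_out' N bar hR hLa MM.barS MM.lev hxq (by linarith)
        (by linarith) (α := 3 * μ / 8 + 2 * d m'.co) (by linarith)
        (Or.inl (t3 m' x hxG)) F0.1 hq' hu huF hl)
  have hall : ∀ q', (P (T.H q') ∩ Wz '' Tp).Nonempty → ∀ w ∈ (stB hGB bp bm).P,
      (stB hGB bp bm).lab w = Sum.inr m → w ∈ P (T.H q') →
      w ∈ (outK (slC hLa hC n hn).hH (slC hLa hC n hn).dis (stB hGB bp bm) (Sum.elim r bm)).P ∧
        w ∈ Y := by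
    rintro q' ⟨x, hxq, z, hzT, rfl⟩ w hw hl hwq'
    have hz := hTR hzT
    have h5 : ga Φ m.co (f (Wz z)) = z.1 := (c3 z hz).2.1
    have h6 : z.1 = ρ3 m.co + 9 * d m.co := hzT.1
    have hwG : w ∈ Gn m := t4 m w hw hl ⟨q', hwq', _, hxq, h5.trans h6, (hlev z hz).le⟩
    have hcl := cl_of hw hl hwG
    exact ⟨(U.mem_out (cl_mono ((t2 m).trans (gmT_sub hRm m)) hcl)).1, hsub hcl⟩
  -- the two ends
  have hx0 : ((ρ3 m.co + 9 * d m.co, 0) : ℝ × ℝ) ∈ Kp := Or.inl (Or.inl ⟨⟨hs01, le_rfl⟩, rfl⟩)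
  have hy0 : ((ρ3 m.co + 9 * d m.co, μ / 4) : ℝ × ℝ) ∈ Kp := Or.inr ⟨⟨hs01, le_rfl⟩, rfl⟩
  have hx1 : ((ρ3 m.co + 9 * d m.co, 0) : ℝ × ℝ) ∈ Tp := ⟨rfl, ⟨le_rfl, by linarith⟩⟩
  have hy1 : ((ρ3 m.co + 9 * d m.co, μ / 4) : ℝ × ℝ) ∈ Tp := ⟨rfl, ⟨by linarith, le_rfl⟩⟩
  obtain ⟨qx, hqx⟩ := T.cov _ (hDO ⟨_, hTR hx1, rfl⟩)
  obtain ⟨qy, hqy⟩ := T.cov _ (hDO ⟨_, hTR hy1, rfl⟩)
  obtain ⟨v, hv, hv0⟩ := exists_vertex_tile hqx
  obtain ⟨w, hw, hw0⟩ := exists_vertex_tile hqy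
  have key := encl_core (S := slC hLa hC n hn) (s := stB hGB bp bm) (r := Sum.elim r bm) (Tw := Tw)
    (l0 := l0') (am := BM.am) (fam := fun j : JJ Φ L => j.1) (R := Rdc T f Xᶜ (rout ρ3 d)) (m := m)
    (Y := Y) (D := Wz '' Rc) (K := Wz '' Kp) (K' := Wz '' Tp) MM.tt hY1 hY2 hY3 c4 hDO c5 hfT hfL
    (image_mono hKR) ((preconn_U hs01 (by linarith)).image _ (c1.mono hKR)) (image_mono hTR)
    ((isPreconnected_singleton.prod isPreconnected_Icc).image _ (c1.mono hTR)) h0 h0' hout hall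
    hlm.lab ⟨_, hx0, rfl⟩ ⟨_, hx1, rfl⟩ ⟨_, hy0, rfl⟩ ⟨_, hy1, rfl⟩ ⟨qx, hv, hqx⟩ ⟨qy, hw, hqy⟩
    hv0 hw0
  -- the labels
  have hGM : GM Φ m.co (gR Φ X μ m) 0 (1 + μ / 2) :=
    gm_moat hLa N.hδ N.hR hMo (Ebr6_95.nm_rec hμ (by linarith))
  obtain ⟨pl, hPol⟩ := bar.barF.pol hLa m
  have hlv : lm v = 1 := by
    have hz := hTR hx1
    obtain ⟨g1, g2, g3⟩ := hga1 _ hz
    have h5 : ga Φ m.co (f (Wz (ρ3 m.co + 9 * d m.co, 0))) = ρ3 m.co + 9 * d m.co := (c3 _ hz).2.1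
    have o1 := abs_le.1 (hr.tile_osc hqx g1 g3 hv).1
    have o2 := abs_le.1 (bar.barF.osc m qx _ hqx g1 g3 v hv)
    have o2b : -(μ / 4096) ≤ gR Φ X μ m (Φ.Psi (f (Wz (ρ3 m.co + 9 * d m.co, 0)))) -
        gR Φ X μ m (Φ.Psi (f v)) := le_trans (by linarith [hω]) o2.1
    have h4 := hlow _ hz rfl
    rw [h5] at o1
    refine LOW (1 - μ / 16) (by linarith [hω]) (hGM.le_conn hPol ⟨by linarith, by linarith⟩)
      (by linarith) v (T.sub qx hv) hv0 (by linarith [o1.1, o1.2, hr.r12, hr.r23])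
      (by linarith [o1.1, o1.2]) ?_
    show gR Φ X μ m (Φ.Psi (f v)) ≤ 1 - μ / 16
    linarith
  have hlw : lm w = 0 := by
    have hz := hTR hy1
    obtain ⟨g1, g2, g3⟩ := hga1 _ hz
    have o2 := abs_le.1 (bar.barF.osc m qy _ hqy g1 g3 w hw)
    have o2a : gR Φ X μ m (Φ.Psi (f (Wz (ρ3 m.co + 9 * d m.co, μ / 4)))) -
        gR Φ X μ m (Φ.Psi (f w)) ≤ μ / 4096 := o2.2.trans hω
    have h4 := hhigh _ hz rfl
    refine HIGH (1 + μ / 4) (by linarith [hω]) (hGM.ge_conn hPol ⟨by linarith, by linarith⟩) ?_ w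
      (T.sub qy hw) hw0 (Or.inr (Or.inr ?_))
    · obtain ⟨q1, h5, h6⟩ := hGM.high
      exact ⟨q1, h5, le_trans (by linarith) h6⟩
    · show 1 + μ / 4 ≤ gR Φ X μ m (Φ.Psi (f w))
      linarith
  rw [hlv, hlw] at key
  exact one_ne_zero key

end Crest.Agent.R096.Nem_493
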