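import Crest.Agent.R096.No2_276
import Crest.Agent.R096.No5_477

-- ▼ part R096/Nly1_780
section

/-!
Row 96 (S0127), helper780.  NO0-ASM leaf (L3) of 477 #10235: the bound on ANY square of a slice, and the
sum over all squares and slices = the layer clause of `NOS`.
-/

set_option autoImplicit false
set_option linter.style.longLine false
set_option linter.unusedSectionVars false

open MeasureTheory Set Filter Topology Metric
open scoped ENNReal

namespace Crest.Agent.R096.Nly_780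

open Crest.Agent.R096.Sq_477 (Dp sl measurable_Dp)
open Crest.Agent.R096.SkC1_961 (E3 Hom3)
open Crest.Agent.R096.SkN1_477 (usq)
open Crest.Agent.R096.No0_477 Crest.Agent.R096.No3_477 Crest.Agent.R096.No5_477
open Crest.Agent.R096.No_276 (sq osq fl face_bad layer_of_faces sq_ae mem_sq_fl isOpen_osq
  measurableSet_osq)

noncomputable section

/-! ### one square -/

/-- partial derivatives of a Lipschitz map (junk value `0` included) -/
theorem Dp_le {h : (Fin 2 → ℝ) → E3} {U : Set (Fin 2 → ℝ)} (hU : IsOpen U) {K : ℝ} (hK : 0 ≤ K)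
    (hL : ∀ y ∈ U, ∀ y' ∈ U, ‖h y - h y'‖ ≤ K * ‖y - y'‖) {y : Fin 2 → ℝ} (hy : y ∈ U) (i : Fin 2) :
    ‖Dp h i y‖ ≤ K := by
  have h1 : ‖fderiv ℝ h y‖ ≤ K := by
    apply norm_fderiv_le_of_lip' ℝ hK
    filter_upwards [hU.mem_nhds hy] with z hz using hL z hz y hy
  unfold Dp
  refine (ContinuousLinearMap.le_opNorm _ _).trans ?_
  rw [Pi.norm_single, norm_one, mul_one]
  exact h1

/-- corner in the plane -/
def pl (a : E3) : Fin 2 → ℝ := fun j => a j.castSucc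

/-- integer corner -/
def qv (o : Fin 2 → ℤ) (v : Fin 2 → ℕ) : Fin 2 → ℤ := fun j => o j + v j

theorem qv_injective (o : Fin 2 → ℤ) : Function.Injective (qv o) := by
  intro v v' h
  funext k
  have := congrFun h k
  simpa [qv] using this

theorem vx_cast (a : E3) (r : ℝ) (o : Fin 2 → ℤ) (m : ℤ) (v : Fin 2 → ℕ) (j : Fin 2) :
    vx a r o m v j.castSucc = pl a j + r * (qv o v j : ℤ) := by
  fin_cases j <;> simp [vx, pl, qv]

theorem vx_two (a : E3) (r : ℝ) (o : Fin 2 → ℤ) (m : ℤ) (v : Fin 2 → ℕ) :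
    vx a r o m v 2 = a 2 + r * m := by simp [vx]

/-- the open square of the plane -/
theorem osq_vx (a : E3) (r : ℝ) (o : Fin 2 → ℤ) (m : ℤ) (v : Fin 2 → ℕ) :
    osq (pl a) r (qv o v) = {y : Fin 2 → ℝ | ∀ j : Fin 2, vx a r o m v j.castSucc < y j ∧
      y j < vx a r o m v j.castSucc + r} := by
  ext y
  simp only [osq, Set.mem_ofPred_eq]
  refine forall_congr' fun j => ?_
  rw [vx_cast]
  have : pl a j + r * ((qv o v j : ℤ) : ℝ) + r = pl a j + r * ((qv o v j : ℤ) + 1) := by ring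
  rw [this]

theorem ins_cast (c : ℝ) (y : Fin 2 → ℝ) (j : Fin 2) :
    (2 : Fin 3).insertNth (α := fun _ => ℝ) c y j.castSucc = y j := by
  have : j.castSucc = (2 : Fin 3).succAbove j := by fin_cases j <;> rfl
  rw [this, Fin.insertNth_apply_succAbove]

theorem ins_two (c : ℝ) (y : Fin 2 → ℝ) :
    (2 : Fin 3).insertNth (α := fun _ => ℝ) c y 2 = c := Fin.insertNth_apply_same _ _ _

theorem norm_ins_sub (c : ℝ) (y y' : Fin 2 → ℝ) :
    ‖((2 : Fin 3).insertNth (α := fun _ => ℝ) c y : E3) -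
      (2 : Fin 3).insertNth (α := fun _ => ℝ) c y'‖ ≤ ‖y - y'‖ := by
  rw [pi_norm_le_iff_of_nonneg (norm_nonneg _)]
  intro k
  rw [Pi.sub_apply]
  rcases Fin.eq_castSucc_or_eq_last k with ⟨j, rfl⟩ | rfl
  · rw [ins_cast, ins_cast]
    exact norm_le_pi_norm (y - y') j
  · have : (Fin.last 2 : Fin 3) = 2 := rfl
    rw [this, ins_two, ins_two, sub_self, norm_zero]
    exact norm_nonneg _

theorem ins_mem {a : E3} {r : ℝ} (hr : 0 < r) {o : Fin 2 → ℤ} {m : ℤ} {v : Fin 2 → ℕ}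
    {y : Fin 2 → ℝ} (hy : y ∈ osq (pl a) r (qv o v)) :
    (2 : Fin 3).insertNth (α := fun _ => ℝ) (a 2 + r * m) y ∈
      usq (fr (vx a r o m v) r hr.ne') := by
  rw [mem_usq_fr hr, ins_two, vx_two]
  refine ⟨rfl, fun j => ?_⟩
  rw [osq_vx a r o m v] at hy
  rw [ins_cast]
  exact ⟨(hy j).1.le, (hy j).2.le⟩

/-- the slice of a Lipschitz map on an open square -/
theorem Dp_sl_le {a : E3} {r : ℝ} (hr : 0 < r) {o : Fin 2 → ℤ} {m : ℤ} {v : Fin 2 → ℕ}
    {g : E3 → E3} {K : ℝ} (hK : 0 ≤ K)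
    (hL : ∀ y ∈ usq (fr (vx a r o m v) r hr.ne'), ∀ y' ∈ usq (fr (vx a r o m v) r hr.ne'),
      ‖g y - g y'‖ ≤ K * ‖y - y'‖) {y : Fin 2 → ℝ} (hy : y ∈ osq (pl a) r (qv o v)) (i : Fin 2) :
    ‖Dp (sl g (a 2 + r * m) 2) i y‖ ≤ K := by
  refine Dp_le (isOpen_osq _ _ _) hK (fun z hz z' hz' => ?_) hy i
  exact (hL _ (ins_mem hr hz) _ (ins_mem hr hz')).trans
    (mul_le_mul_of_nonneg_left (norm_ins_sub _ _ _) hK)

/-- the differential which is expected -/
def tg (s : Fin 3 → ℝ) (i : Fin 2) : E3 :=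
  Pi.single ((2 : Fin 3).succAbove i) (s ((2 : Fin 3).succAbove i))

theorem norm_tg (s : Fin 3 → ℝ) (i : Fin 2) : ‖tg s i‖ ≤ ‖s‖ := by
  unfold tg
  rw [Pi.norm_single]
  exact norm_le_pi_norm s _

/-- **(L3), any square** -/
theorem any_square {p : ℝ} (hp : 0 < p) (s : Fin 3 → ℝ) {a : E3} {r : ℝ} (hr : 0 < r)
    {o : Fin 2 → ℤ} {m : ℤ} {v : Fin 2 → ℕ} {g : E3 → E3} {K : ℝ} (hK : 0 ≤ K)
    (hL : ∀ y ∈ usq (fr (vx a r o m v) r hr.ne'), ∀ y' ∈ usq (fr (vx a r o m v) r hr.ne'),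
      ‖g y - g y'‖ ≤ K * ‖y - y'‖) (i : Fin 2) :
    ∫⁻ y in sq (pl a) r (qv o v), ‖Dp (sl g (a 2 + r * m) 2) i y - tg s i‖ₑ ^ p ≤
      ENNReal.ofReal ((K + ‖s‖) ^ p * r ^ 2) := by
  refine (face_bad hr.le hp hK (fun y hy => Dp_sl_le hr hK hL hy i)).trans ?_
  apply ENNReal.ofReal_le_ofReal
  apply mul_le_mul_of_nonneg_right _ (by positivity)
  exact Real.rpow_le_rpow (by positivity) (by linarith [norm_tg s i]) hp.le

/-- the sum over the two directions on the closed square = the integral of the sum on the open one -/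
theorem sum_sq_eq (p : ℝ) (s : Fin 3 → ℝ) {a : E3} {r : ℝ} (hr : 0 < r) (o : Fin 2 → ℤ) (m : ℤ)
    (v : Fin 2 → ℕ) (g : E3 → E3) :
    ∑ i : Fin 2, ∫⁻ y in sq (pl a) r (qv o v), ‖Dp (sl g (a 2 + r * m) 2) i y - tg s i‖ₑ ^ p =
      ∫⁻ y in {y : Fin 2 → ℝ | ∀ j : Fin 2, vx a r o m v j.castSucc < y j ∧
        y j < vx a r o m v j.castSucc + r}, ∑ i : Fin 2,
          ‖Dp (sl g (vx a r o m v 2) 2) i y - tg s i‖ₑ ^ p := by
  rw [← osq_vx a r o m v, lintegral_finsetSum _ (fun i _ => measurable_Dp _ _ _ _)]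
  refine Finset.sum_congr rfl fun i _ => ?_
  rw [vx_two]
  exact (setLIntegral_congr (sq_ae (pl a) hr.le (qv o v))).symm

theorem any_square_sum {p : ℝ} (hp : 0 < p) (s : Fin 3 → ℝ) {a : E3} {r : ℝ} (hr : 0 < r)
    {o : Fin 2 → ℤ} {m : ℤ} {v : Fin 2 → ℕ} {g : E3 → E3} {K : ℝ} (hK : 0 ≤ K)
    (hL : ∀ y ∈ usq (fr (vx a r o m v) r hr.ne'), ∀ y' ∈ usq (fr (vx a r o m v) r hr.ne'),
      ‖g y - g y'‖ ≤ K * ‖y - y'‖) :
    ∫⁻ y in {y : Fin 2 → ℝ | ∀ j : Fin 2, vx a r o m v j.castSucc < y j ∧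
        y j < vx a r o m v j.castSucc + r}, ∑ i : Fin 2,
          ‖Dp (sl g (vx a r o m v 2) 2) i y - tg s i‖ₑ ^ p ≤
      ENNReal.ofReal (2 * (K + ‖s‖) ^ p * r ^ 2) := by
  rw [← sum_sq_eq p s hr o m v g]
  refine (Finset.sum_le_sum fun i _ => any_square hp s hr hK hL i).trans ?_
  rw [Finset.sum_const, Finset.card_univ, Fintype.card_fin, nsmul_eq_mul]
  have : ((2 : ℕ) : ℝ≥0∞) = ENNReal.ofReal 2 := by simp
  rw [this, ← ENNReal.ofReal_mul (by norm_num)]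
  apply ENNReal.ofReal_le_ofReal
  rw [mul_assoc]

/-! ### the sum -/

theorem add_rpow_le {x y p : ℝ} (hx : 0 ≤ x) (hy : 0 ≤ y) (hp : 0 < p) :
    (x + y) ^ p ≤ 2 ^ p * (x ^ p + y ^ p) := by
  have h1 : (x + y) ^ p ≤ (2 * max x y) ^ p := by
    apply Real.rpow_le_rpow (by positivity) _ hp.le
    linarith [le_max_left x y, le_max_right x y]
  refine h1.trans ?_
  rw [Real.mul_rpow (by norm_num) (le_max_of_le_left hx)]
  apply mul_le_mul_of_nonneg_left _ (by positivity)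
  rcases max_choice x y with h | h <;> rw [h]
  · have := Real.rpow_nonneg hy p; linarith
  · have := Real.rpow_nonneg hx p; linarith

/-- the ball is covered by the squares -/
theorem fl_mem {η r : ℝ} (hr : 0 < r) {a : E3} {o : Fin 2 → ℤ} {M : ℕ}
    (lo : ∀ j : Fin 2, a j.castSucc + r * o j ≤ -(1 - η))
    (hi : ∀ j : Fin 2, 1 - η ≤ a j.castSucc + r * (o j + M)) {y : Fin 2 → ℝ}
    (hy : y ∈ ball (0 : Fin 2 → ℝ) (1 - η)) :
    fl (pl a) r y ∈ (Fintype.piFinset fun _ : Fin 2 => Finset.range M).image (qv o) := by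
  have hn : ∀ j, |y j| < 1 - η := fun j =>
    lt_of_le_of_lt (norm_le_pi_norm y j) (mem_ball_zero_iff.1 hy)
  have h0 : ∀ j, o j ≤ fl (pl a) r y j := by
    intro j
    unfold fl
    rw [Int.le_floor, le_div_iff₀ hr]
    have := (abs_lt.1 (hn j)).1
    have := lo j
    unfold pl
    nlinarith
  have h1 : ∀ j, fl (pl a) r y j < o j + M := by
    intro j
    unfold fl
    rw [Int.floor_lt, div_lt_iff₀ hr]
    have := (abs_lt.1 (hn j)).2
    have := hi j
    unfold pl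
    push_cast
    nlinarith
  refine Finset.mem_image.2 ⟨fun j => (fl (pl a) r y j - o j).toNat, ?_, ?_⟩
  · rw [Fintype.mem_piFinset]
    intro j
    rw [Finset.mem_range]
    have := h0 j
    have := h1 j
    omega
  · funext j
    have := h0 j
    simp only [qv]
    omega

theorem rM_le {r : ℝ} {a : E3} {o : Fin 2 → ℤ} {M : ℕ}
    (lo : ∀ j : Fin 2, -1 < a j.castSucc + r * o j)
    (hi : ∀ j : Fin 2, a j.castSucc + r * (o j + M) < 1) : r * M < 2 := by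
  have h0 := lo 0
  have h1 := hi 0
  have : r * ((o 0 : ℝ) + M) = r * o 0 + r * M := by ring
  linarith

open Classical in
/-- **(L3), the sum over all squares and slices** -/
theorem layers_le {p : ℝ} (hp : 0 < p) {s : Fin 3 → ℝ} {η r : ℝ} (hr : 0 < r) {a : E3}
    {o : Fin 2 → ℤ} {M : ℕ}
    (lo : ∀ j : Fin 2, a j.castSucc + r * o j ≤ -(1 - η) ∧ -1 < a j.castSucc + r * o j)
    (hi : ∀ j : Fin 2, 1 - η ≤ a j.castSucc + r * (o j + M) ∧ a j.castSucc + r * (o j + M) < 1)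
    {Zs : Finset ℤ} {g : E3 → E3} {K1 E1 ω ε : ℝ} (hK : 0 ≤ K1) (hE : 0 ≤ E1) (hω : 0 ≤ ω)
    (hε : 0 ≤ ε) {X : ℤ → (Fin 2 → ℕ) → ℝ} (hX : ∀ m v, 0 ≤ X m v)
    (hlip : ∀ m ∈ Zs, ∀ v, (∀ j, v j < M) → ∀ y ∈ usq (fr (vx a r o m v) r hr.ne'),
      ∀ y' ∈ usq (fr (vx a r o m v) r hr.ne'), ‖g y - g y'‖ ≤ (K1 + X m v) * ‖y - y'‖)
    (hXs : ∑ q ∈ Fc M Zs, X q.1 q.2 ^ p ≤ ε * ((Zs.card : ℝ) * M ^ 2))
    (Pu : ℤ × (Fin 2 → ℕ) → Prop)
    (hcard : (((Fc M Zs).filter fun q => ¬ Pu q).card : ℝ) ≤ ω * ((Zs.card : ℝ) * M ^ 2))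
    (hpure : ∀ q ∈ Fc M Zs, Pu q →
      ∫⁻ y in {y : Fin 2 → ℝ | ∀ j : Fin 2, vx a r o q.1 q.2 j.castSucc < y j ∧
        y j < vx a r o q.1 q.2 j.castSucc + r}, ∑ i : Fin 2,
          ‖Dp (sl g (vx a r o q.1 q.2 2) 2) i y - Pi.single ((2 : Fin 3).succAbove i)
            (s ((2 : Fin 3).succAbove i))‖ₑ ^ p ≤ ENNReal.ofReal (E1 * r ^ 2)) :
    ∑ m ∈ Zs, ∑ i : Fin 2, (∫⁻ y in ball (0 : Fin 2 → ℝ) (1 - η),
        ‖Dp (sl g (a 2 + r * m) 2) i y - Pi.single ((2 : Fin 3).succAbove i)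
          (s ((2 : Fin 3).succAbove i))‖ₑ ^ p) ≤
      Zs.card * ENNReal.ofReal (4 * (E1 + 2 ^ (p + 1) * ((K1 + ‖s‖) ^ p * ω + ε))) := by
  set W : ℤ × (Fin 2 → ℕ) → ℝ≥0∞ := fun q =>
    ∫⁻ y in {y : Fin 2 → ℝ | ∀ j : Fin 2, vx a r o q.1 q.2 j.castSucc < y j ∧
        y j < vx a r o q.1 q.2 j.castSucc + r}, ∑ i : Fin 2,
          ‖Dp (sl g (vx a r o q.1 q.2 2) 2) i y - tg s i‖ₑ ^ p with hW
  set Sq := Fintype.piFinset (fun _ : Fin 2 => Finset.range M) with hSq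
  have hKs : 0 ≤ K1 + ‖s‖ := by positivity
  -- one layer
  have step : ∀ m ∈ Zs, ∑ i : Fin 2, (∫⁻ y in ball (0 : Fin 2 → ℝ) (1 - η),
      ‖Dp (sl g (a 2 + r * m) 2) i y - tg s i‖ₑ ^ p) ≤ ∑ v ∈ Sq, W (m, v) := by
    intro m _
    have h1 : ∀ i : Fin 2, (∫⁻ y in ball (0 : Fin 2 → ℝ) (1 - η),
        ‖Dp (sl g (a 2 + r * m) 2) i y - tg s i‖ₑ ^ p) ≤
        ∑ v ∈ Sq, ∫⁻ y in sq (pl a) r (qv o v), ‖Dp (sl g (a 2 + r * m) 2) i y - tg s i‖ₑ ^ p := by
      intro i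
      have h := layer_of_faces (H := Dp (sl g (a 2 + r * m) 2) i) (A := tg s i) (a := pl a)
        (p := p) (η := η) hr (Sq.image (qv o))
        (fun y hy => fl_mem hr (fun j => (lo j).1) (fun j => (hi j).1) hy)
        (fun q => ∫⁻ y in sq (pl a) r q, ‖Dp (sl g (a 2 + r * m) 2) i y - tg s i‖ₑ ^ p)
        (fun q _ => le_rfl)
      rwa [Finset.sum_image (fun v _ v' _ h => qv_injective o h)] at h
    refine (Finset.sum_le_sum fun i _ => h1 i).trans ?_
    rw [Finset.sum_comm]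
    refine Finset.sum_le_sum fun v _ => ?_
    rw [sum_sq_eq p s hr o m v g]
  -- one square
  set C2 : ℝ := 2 ^ (p + 1) with hC2
  have hC20 : 0 < C2 := by positivity
  set ind : ℤ × (Fin 2 → ℕ) → ℝ := fun q => if Pu q then 0 else 1 with hind
  have hind0 : ∀ q, 0 ≤ ind q := fun q => by simp only [hind]; split_ifs <;> norm_num
  have one : ∀ q ∈ Fc M Zs, W q ≤ ENNReal.ofReal
      (r ^ 2 * (E1 + (C2 * (K1 + ‖s‖) ^ p) * ind q + C2 * X q.1 q.2 ^ p)) := by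
    intro q hq
    have hXq := hX q.1 q.2
    have hXp := Real.rpow_nonneg hXq p
    have hKp := Real.rpow_nonneg hKs p
    by_cases hPq : Pu q
    · refine (hpure q hq hPq).trans (ENNReal.ofReal_le_ofReal ?_)
      have h1 : ind q = 0 := by simp [hind, hPq]
      rw [h1, mul_zero, add_zero, mul_comm E1]
      apply mul_le_mul_of_nonneg_left _ (by positivity)
      have : 0 ≤ C2 * X q.1 q.2 ^ p := by positivity
      linarith
    · have hm : q.1 ∈ Zs := (Finset.mem_product.1 hq).1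
      have hv : ∀ j, q.2 j < M := mem_pi.1 (Finset.mem_product.1 hq).2
      refine (any_square_sum hp s hr (add_nonneg hK hXq) (hlip q.1 hm q.2 hv)).trans
        (ENNReal.ofReal_le_ofReal ?_)
      have h1 : ind q = 1 := by simp [hind, hPq]
      rw [h1, mul_one]
      have h2 : (K1 + X q.1 q.2 + ‖s‖) ^ p ≤ 2 ^ p * ((K1 + ‖s‖) ^ p + X q.1 q.2 ^ p) := by
        have := add_rpow_le hKs hXq hp
        have h3 : K1 + X q.1 q.2 + ‖s‖ = K1 + ‖s‖ + X q.1 q.2 := by ring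
        rw [h3]; exact this
      have h4 : C2 = 2 * 2 ^ p := by
        rw [hC2, Real.rpow_add_one (by norm_num)]; ring
      have h5 : 2 * (K1 + X q.1 q.2 + ‖s‖) ^ p ≤ C2 * (K1 + ‖s‖) ^ p + C2 * X q.1 q.2 ^ p := by
        rw [h4]; linarith
      rw [mul_comm (2 * (K1 + X q.1 q.2 + ‖s‖) ^ p)]
      apply mul_le_mul_of_nonneg_left _ (by positivity)
      linarith
  have hsum : ∑ q ∈ Fc M Zs, (r ^ 2 * (E1 + (C2 * (K1 + ‖s‖) ^ p) * ind q + C2 * X q.1 q.2 ^ p)) ≤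
      Zs.card * (4 * (E1 + C2 * ((K1 + ‖s‖) ^ p * ω + ε))) := by
    have hKp := Real.rpow_nonneg hKs p
    have h1 : ∑ q ∈ Fc M Zs, ind q = (((Fc M Zs).filter fun q => ¬ Pu q).card : ℝ) := by
      rw [Finset.card_filter]
      push_cast
      refine Finset.sum_congr rfl fun q _ => ?_
      simp only [hind]
      by_cases h : Pu q <;> simp [h]
    set N0 : ℝ := (Zs.card : ℝ) * M ^ 2 with hN0
    have hN00 : 0 ≤ N0 := by positivity
    rw [← Finset.mul_sum, Finset.sum_add_distrib, Finset.sum_add_distrib, Finset.sum_const,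
      nsmul_eq_mul, card_Fc, ← Finset.mul_sum, ← Finset.mul_sum, h1]
    have h2 : N0 * E1 + C2 * (K1 + ‖s‖) ^ p * (((Fc M Zs).filter fun q => ¬ Pu q).card : ℝ) +
        C2 * ∑ q ∈ Fc M Zs, X q.1 q.2 ^ p ≤ N0 * (E1 + C2 * ((K1 + ‖s‖) ^ p * ω + ε)) := by
      have h3 := mul_le_mul_of_nonneg_left hcard (show 0 ≤ C2 * (K1 + ‖s‖) ^ p by positivity)
      have h4 := mul_le_mul_of_nonneg_left hXs hC20.le
      calc _ ≤ N0 * E1 + C2 * (K1 + ‖s‖) ^ p * (ω * N0) + C2 * (ε * N0) := by linarith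
        _ = _ := by ring
    have h5 : r * M < 2 := rM_le (fun j => (lo j).2) (fun j => (hi j).2)
    have h6 : r ^ 2 * (M : ℝ) ^ 2 ≤ 4 := by
      have : 0 ≤ r * M := by positivity
      nlinarith
    have hB : 0 ≤ E1 + C2 * ((K1 + ‖s‖) ^ p * ω + ε) := by positivity
    calc _ ≤ r ^ 2 * (N0 * (E1 + C2 * ((K1 + ‖s‖) ^ p * ω + ε))) :=
          mul_le_mul_of_nonneg_left h2 (by positivity)
      _ = (Zs.card : ℝ) * ((r ^ 2 * (M : ℝ) ^ 2) * (E1 + C2 * ((K1 + ‖s‖) ^ p * ω + ε))) := by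
          rw [hN0]; ring
      _ ≤ _ := mul_le_mul_of_nonneg_left (mul_le_mul_of_nonneg_right h6 hB) (by positivity)
  calc _ ≤ ∑ m ∈ Zs, ∑ v ∈ Sq, W (m, v) := Finset.sum_le_sum step
    _ = ∑ q ∈ Fc M Zs, W q := by
        unfold Fc
        rw [Finset.sum_product]
    _ ≤ ∑ q ∈ Fc M Zs, ENNReal.ofReal
        (r ^ 2 * (E1 + (C2 * (K1 + ‖s‖) ^ p) * ind q + C2 * X q.1 q.2 ^ p)) :=
        Finset.sum_le_sum one
    _ = ENNReal.ofReal (∑ q ∈ Fc M Zs,
        (r ^ 2 * (E1 + (C2 * (K1 + ‖s‖) ^ p) * ind q + C2 * X q.1 q.2 ^ p))) := by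
        rw [ENNReal.ofReal_sum_of_nonneg]
        intro q _
        have := hind0 q
        have := Real.rpow_nonneg (hX q.1 q.2) p
        have := Real.rpow_nonneg hKs p
        positivity
    _ ≤ ENNReal.ofReal (Zs.card * (4 * (E1 + C2 * ((K1 + ‖s‖) ^ p * ω + ε)))) :=
        ENNReal.ofReal_le_ofReal hsum
    _ = _ := by
        rw [ENNReal.ofReal_mul (by positivity), ENNReal.ofReal_natCast]


section main

open Crest.Agent.R096.Bsp_628 Crest.Agent.R096.Brk1_582 Crest.Agent.R096.Brk3_582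
open Crest.Agent.R096.Brk5_582
open Crest.Agent.R096.Msh_715
open Crest.Agent.R096.SkC1_961

variable {δ κ0 R c0 : ℝ} {La Om : Set E3} {ι : Type}


end main

/-! ### change of the map away from the layers -/


end

end Crest.Agent.R096.Nly_780
end

-- ▼ part R096/No6_477
section

/-!
Row 96 (S0127), helper477.  NO0-ASM leaf (L1) COUNT, part 3: the displacement bound.
-/

set_option autoImplicit false
set_option linter.style.longLine false
set_option linter.unusedSectionVars false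
set_option linter.unusedVariables false

open MeasureTheory Set Filter Topology Metric
open scoped ENNReal

namespace Crest.Agent.R096.No6_477

open Crest.Agent.R096.Bsp_628 Crest.Agent.R096.Brk1_582 Crest.Agent.R096.Brk3_582
open Crest.Agent.R096.Brk5_582
open Crest.Agent.R096.Msh_715
open Crest.Agent.R096.SkC1_961 Crest.Agent.R096.SkN1_477 Crest.Agent.R096.No0_477
open Crest.Agent.R096.No3_477 Crest.Agent.R096.No5_477

noncomputable section

variable {δ κ0 R c0 : ℝ} {La Om : Set E3} {ι : Type}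

/-- points of a side of the square -/
theorem mem_side_fr {w : E3} {r : ℝ} (hr : 0 < r) {x : E3} {j : Fin 2} {b : ℝ} :
    x ∈ side (fr w r hr.ne') j b ↔ x 2 = w 2 ∧ w j.castSucc ≤ x j.castSucc ∧
      x j.castSucc ≤ w j.castSucc + r ∧
      x (1 - j).castSucc = w (1 - j).castSucc + r * b := by
  unfold side
  rw [mem_preimage, fr_apply]
  have hinv : 0 < r⁻¹ := inv_pos.2 hr
  have hrr : r⁻¹ * r = 1 := inv_mul_cancel₀ hr.ne'
  have hc : ∀ (y : E2) (k : Fin 2), emb y k.castSucc = y k := by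
    intro y k; fin_cases k <;> simp [emb]
  have hc2 : ∀ y : E2, emb y 2 = 0 := fun y => by simp [emb]
  constructor
  · rintro ⟨y, ⟨h1, h2, h3⟩, hyx⟩
    have e : ∀ k, emb y k = r⁻¹ * (x k - w k) := fun k => congrFun hyx k
    have e2 := e 2
    rw [hc2] at e2
    have ej := e j.castSucc
    rw [hc] at ej
    have ek := e (1 - j).castSucc
    rw [hc, h3] at ek
    have inv : ∀ A B c : ℝ, c = r⁻¹ * (A - B) → A = B + r * c := by
      intro A B c h
      rw [h, ← mul_assoc, mul_inv_cancel₀ hr.ne', one_mul]; ring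
    have f2 := inv _ _ _ e2
    have fj := inv _ _ _ ej
    have fk := inv _ _ _ ek
    refine ⟨by rw [f2]; ring, ?_, ?_, fk⟩
    · rw [fj]; nlinarith
    · rw [fj]; nlinarith
  · rintro ⟨h1, h2, h3, h4⟩
    refine ⟨fun k => r⁻¹ * (x k.castSucc - w k.castSucc), ⟨?_, ?_, ?_⟩, ?_⟩
    · exact mul_nonneg hinv.le (by linarith)
    · rw [← hrr]
      exact mul_le_mul_of_nonneg_left (by linarith) hinv.le
    · show r⁻¹ * (x (1 - j).castSucc - w (1 - j).castSucc) = b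
      rw [h4, add_sub_cancel_left, ← mul_assoc, hrr, one_mul]
    · funext k
      fin_cases k
      · simp [emb]
      · simp [emb]
      · simp [emb, h1]

/-- the two ends of a side -/
theorem ends_mem_side {a : E3} {r : ℝ} (hr : 0 < r) {o : Fin 2 → ℤ} {m : ℤ} {v : Fin 2 → ℕ}
    (j : Fin 2) (b : ℕ) :
    vx a r o m (st j b v) ∈ side (fr (vx a r o m v) r hr.ne') j b ∧
      vx a r o m (nx (st j b v) j) ∈ side (fr (vx a r o m v) r hr.ne') j b := by
  rw [mem_side_fr hr, mem_side_fr hr, vx_nx, vx_st]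
  fin_cases j <;> simp [hr.le]

theorem usq_sub_cub {w : E3} {r : ℝ} (hr : 0 < r) : usq (fr w r hr.ne') ⊆ cub w r := by
  intro x hx
  rw [mem_usq_fr hr] at hx
  intro k
  fin_cases k
  · exact hx.2 0
  · exact hx.2 1
  · have := hx.1
    constructor
    · exact this.ge
    · show x 2 ≤ w 2 + r
      rw [this]; linarith

/-- one family alone counts at most the weight of all initial points -/
theorem weight_le {Φ : FoamD δ κ0 R c0 La} {f : E3 → E3} {κ : Φ.F → ℕ} {L : Φ.F → Finset ℝ}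
    {A : Set E3} {V : ℝ} (hV : 0 ≤ V) (h : Vw Φ f κ L A ≤ ENNReal.ofReal V) {c : Φ.F} {n : Φ.F → ℝ}
    (hn : ∀ S : Finset Φ.F, ENNReal.ofReal (∑ c ∈ S, n c * (2 : ℝ)⁻¹ ^ κ c) ≤ Vw Φ f κ L A) :
    n c * (2 : ℝ)⁻¹ ^ κ c ≤ V := by
  have h1 := (hn {c}).trans h
  rw [Finset.sum_singleton] at h1
  exact (ENNReal.ofReal_le_ofReal_iff hV).1 h1

/-- **displacement bound** (hypothesis `hD` of `pure_most`) -/
theorem hD_of {p : ℝ} {Cu : Set (Set E3) → ℝ} {e η : ℝ} {Φ : FoamD δ κ0 R c0 La} {T : Tiling Om ι}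
    {f : E3 → E3} {Ex : Set ι} {κ : Φ.F → ℕ} {L : Φ.F → Finset ℝ} {tol : ι → ℝ} {Ds : Set E3}
    {B : E3 → E3 ≃ᵃ[ℝ] E3} {μ : ℝ} {al : Fin 2 → ℝ} {g : E3 → E3} {u : E3 → Φ.F → ℝ}
    {n : Set E3 → Φ.F → ℝ} (out : OutNO p Cu e η Φ T f Ex κ L tol Ds B μ al g u n)
    {𝒬 : Set (Set E3)} {Ln : ℕ} {η' r : ℝ} (hr : 0 < r) {a : E3} {o : Fin 2 → ℤ} {M : ℕ}
    {Zs : Finset ℤ} {U : ℤ → (Fin 2 → ℕ) → Prop}
    (geo : NOGeo T Ex 𝒬 Ln η' r hr.ne' a o M Zs U) {θ : ℝ} (htol : ∀ i, tol i ≤ θ)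
    {q : ℤ × (Fin 2 → ℕ)} (hq : q ∈ Fc M Zs) (hU : U q.1 q.2)
    {c1 c2 : Φ.F} {σ1 σ2 w : ℝ} {b0 : E3}
    (Q : QF Φ κ L u (cub (vx a r o q.1 q.2) r) c1 c2 σ1 σ2 w b0) (j : Fin 2) {b : ℕ}
    (hb : b = 0 ∨ b = 1) :
    ∃ c, (c = c1 ∨ c = c2) ∧ (j = 0 → c = c1) ∧ (j = 1 → c = c2) ∧
      |dsp g a r o j b q| ≤ n (side (fr (vx a r o q.1 q.2) r hr.ne') j b) c * (2 : ℝ)⁻¹ ^ κ c
        + θ * r ∧
      |dsp g a r o j b q - (if j = 0 then σ1 else σ2) * w *
        (u (vx a r o q.1 (nx (st j b q.2) j)) c - u (vx a r o q.1 (st j b q.2)) c)| ≤ θ * r := by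
  have hqq := Finset.mem_product.1 hq
  have hv : ∀ j, q.2 j < M := mem_pi.1 hqq.2
  obtain ⟨i, hP, -, -⟩ := geo.tile q.1 hqq.1 q.2 hv hU
  obtain ⟨z, hz, hzd, hzc⟩ := geo.edge q.1 hqq.1 q.2 hv hU j b hb
  have hm := st_mem (a := a) (o := o) (m := q.1) (v := q.2) hr j hb
  have hx := usq_sub_cub hr hm.2
  have hy := usq_sub_cub hr hm.1
  set x := vx a r o q.1 (nx (st j b q.2) j) with hxdef
  set y := vx a r o q.1 (st j b q.2) with hydef
  have hiEx : i ∉ Ex := geo.off q.1 hqq.1 q.2 hv hU x hx i (by rw [hP]; exact hx)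
  have hclo := (out.clo i hiEx (fun z' hz' => Q.par z' (by rw [hP] at hz'; exact hz')) x
    (by rw [hP]; exact hx) y (by rw [hP]; exact hy)).2
  have hxy : ‖x - y‖ = r := norm_side hr _ j
  rw [hxy] at hclo
  have hθ : tol i * r ≤ θ * r := mul_le_mul_of_nonneg_right (htol i) hr.le
  -- the coordinate `j`
  set c : Φ.F := if j = 0 then c1 else c2 with hc
  set σ : ℝ := if j = 0 then σ1 else σ2 with hσ
  have hform : (Brk1_582.T (bc (F := Φ.F)) (u x) - Brk1_582.T (bc (F := Φ.F)) (u y)) j.castSucc =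
      σ * w * (u x c - u y c) := by
    rw [Q.form x hx, Q.form y hy]
    fin_cases j
    · simp [hc, hσ]; ring
    · simp [hc, hσ]; ring
  have hcoord : |dsp g a r o j b q - σ * w * (u x c - u y c)| ≤ θ * r := by
    rw [← hform]
    have h1 := norm_le_pi_norm ((g x - Brk1_582.T (bc (F := Φ.F)) (u x)) -
      (g y - Brk1_582.T (bc (F := Φ.F)) (u y))) j.castSucc
    rw [Real.norm_eq_abs] at h1
    refine le_trans (le_of_eq ?_) ((h1.trans hclo).trans hθ)
    congr 1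
    simp only [dsp, Pi.sub_apply]
    ring
  -- number of points
  have hS : x ∈ side (fr (vx a r o q.1 q.2) r hr.ne') j b ∧
      y ∈ side (fr (vx a r o q.1 q.2) r hr.ne') j b :=
    ⟨(ends_mem_side hr j b).2, (ends_mem_side hr j b).1⟩
  have hzx : z ∈ cub (vx a r o q.1 q.2) r := by
    have h1 : z ∈ T.cc z := T.self_mem_cc z
    rw [hzc, mem_side_fr hr] at h1
    apply usq_sub_cub hr
    rw [mem_usq_fr hr]
    refine ⟨h1.1, fun k => ?_⟩
    rcases eq_or_ne k j with rfl | hk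
    · exact ⟨h1.2.1, h1.2.2.1⟩
    · have hk' : k = 1 - j := by fin_cases j <;> fin_cases k <;> simp at hk ⊢
      subst hk'
      rw [h1.2.2.2]
      rcases hb with rfl | rfl <;> constructor <;> simp [hr.le]
  have hosc := out.osc z hz hzd (fun i' hi' => geo.off q.1 hqq.1 q.2 hv hU z hzx i' hi') c
    x (by rw [hzc]; exact hS.1) y (by rw [hzc]; exact hS.2)
  rw [hzc] at hosc
  have hwc : (L c).card * (2 : ℝ)⁻¹ ^ κ c = w := by
    fin_cases j
    · simpa [hc] using Q.w1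
    · simpa [hc] using Q.w2
  have hσ1 : |σ| = 1 := by
    have : σ = 1 ∨ σ = -1 := by
      fin_cases j
      · simpa [hσ] using Q.sg1
      · simpa [hσ] using Q.sg2
    rcases this with h | h <;> rw [h] <;> simp
  have hmain : |σ * w * (u x c - u y c)| ≤
      n (side (fr (vx a r o q.1 q.2) r hr.ne') j b) c * (2 : ℝ)⁻¹ ^ κ c := by
    rw [abs_mul, abs_mul, hσ1, one_mul, abs_of_pos Q.w0, ← hwc]
    calc (L c).card * (2 : ℝ)⁻¹ ^ κ c * |u x c - u y c| =
        (|u x c - u y c| * (L c).card) * (2 : ℝ)⁻¹ ^ κ c := by ring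
      _ ≤ _ := mul_le_mul_of_nonneg_right hosc (by positivity)
  refine ⟨c, ?_, ?_, ?_, ?_, hcoord⟩
  · simp only [hc]; split_ifs <;> simp
  · intro h; simp [hc, h]
  · intro h; simp [hc, h]
  · calc |dsp g a r o j b q| = |(dsp g a r o j b q - σ * w * (u x c - u y c)) +
          σ * w * (u x c - u y c)| := by ring_nf
      _ ≤ |dsp g a r o j b q - σ * w * (u x c - u y c)| + |σ * w * (u x c - u y c)| :=
          abs_add_le _ _
      _ ≤ θ * r + _ := add_le_add hcoord hmain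
      _ = _ := add_comm _ _

/-- the form used by `pure_most` -/
theorem hD_pure {p : ℝ} {Cu : Set (Set E3) → ℝ} {e η : ℝ} {Φ : FoamD δ κ0 R c0 La}
    {T : Tiling Om ι} {f : E3 → E3} {Ex : Set ι} {κ : Φ.F → ℕ} {L : Φ.F → Finset ℝ} {tol : ι → ℝ}
    {Ds : Set E3} {B : E3 → E3 ≃ᵃ[ℝ] E3} {μ : ℝ} {al : Fin 2 → ℝ} {g : E3 → E3}
    {u : E3 → Φ.F → ℝ} {n : Set E3 → Φ.F → ℝ}
    (out : OutNO p Cu e η Φ T f Ex κ L tol Ds B μ al g u n)
    {𝒬 : Set (Set E3)} {Ln : ℕ} {η' r : ℝ} (hr : 0 < r) {a : E3} {o : Fin 2 → ℤ} {M : ℕ}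
    {Zs : Finset ℤ} {U : ℤ → (Fin 2 → ℕ) → Prop}
    (geo : NOGeo T Ex 𝒬 Ln η' r hr.ne' a o M Zs U) {θ : ℝ} (hθ : 0 ≤ θ) (htol : ∀ i, tol i ≤ θ) :
    ∀ q ∈ Fc M Zs, U q.1 q.2 → (∃ c1 c2 σ1 σ2 w b,
      QF Φ κ L u (cub (vx a r o q.1 q.2) r) c1 c2 σ1 σ2 w b) →
      ∀ (j : Fin 2) (b : ℕ), b = 0 ∨ b = 1 → ∀ V : ℝ, 0 ≤ V →
      Vw Φ f κ L (side (fr (vx a r o q.1 q.2) r hr.ne') j b) ≤ ENNReal.ofReal V →
      dsp g a r o j b q ≤ (1 + θ) * V + θ * r := by
  rintro q hq hU ⟨c1, c2, σ1, σ2, w, b0, Q⟩ j b hb V hV hVw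
  obtain ⟨c, -, -, -, h1, -⟩ := hD_of out hr geo htol hq hU Q j hb
  have hqq := Finset.mem_product.1 hq
  have hv : ∀ j, q.2 j < M := mem_pi.1 hqq.2
  obtain ⟨z, hz, hzd, hzc⟩ := geo.edge q.1 hqq.1 q.2 hv hU j b hb
  have hzx : z ∈ cub (vx a r o q.1 q.2) r := by
    have h1 : z ∈ T.cc z := T.self_mem_cc z
    rw [hzc, mem_side_fr hr] at h1
    apply usq_sub_cub hr
    rw [mem_usq_fr hr]
    refine ⟨h1.1, fun k => ?_⟩
    rcases eq_or_ne k j with rfl | hk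
    · exact ⟨h1.2.1, h1.2.2.1⟩
    · have hk' : k = 1 - j := by fin_cases j <;> fin_cases k <;> simp at hk ⊢
      subst hk'
      rw [h1.2.2.2]
      rcases hb with rfl | rfl <;> constructor <;> simp [hr.le]
  have h2 := weight_le hV hVw (c := c) (n := n (side (fr (vx a r o q.1 q.2) r hr.ne') j b))
    (by
      have h3 := out.cnt z hz hzd (fun i' hi' => geo.off q.1 hqq.1 q.2 hv hU z hzx i' hi')
      rwa [hzc] at h3)
  have h3 := le_abs_self (dsp g a r o j b q)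
  have h4 : 0 ≤ θ * V := mul_nonneg hθ hV
  linarith

end

end Crest.Agent.R096.No6_477
end

-- ▼ part R096/No7_477

/-!
Row 96 (S0127), helper477.  Node **NO0-ASM**: the designated faces of the slices are admissible
(`FaceD`) for the machine.
-/

set_option autoImplicit false
set_option linter.style.longLine false
set_option linter.unusedSectionVars false

open MeasureTheory Set Filter Topology Metric
open scoped ENNReal

namespace Crest.Agent.R096.No7_477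

open Crest.Agent.R096.Bsp_628 Crest.Agent.R096.Brk1_582 Crest.Agent.R096.Brk3_582
open Crest.Agent.R096.Brk5_582
open Crest.Agent.R096.Msh_715
open Crest.Agent.R096.SkC1_961 Crest.Agent.R096.SkN1_477 Crest.Agent.R096.No0_477
open Crest.Agent.R096.No5_477 Crest.Agent.R096.No6_477

noncomputable section

theorem frN_mf (a : E3) (r : ℝ) (hr : r ≠ 0) (o : Fin 2 → ℤ) (m : ℤ) (v : Fin 2 → ℕ) :
    frN r hr (mf (vx a r o m v) r) = fr (vx a r o m v) r hr := by
  unfold frN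
  congr 1
  ext i
  fin_cases i <;> simp [mf, vx]

/-- the side of a square with a given direction -/
theorem side_dir {w w' : E3} {r : ℝ} (hr : 0 < r) {j j' : Fin 2} {b b' : ℝ}
    (h : side (fr w r hr.ne') j b = side (fr w' r hr.ne') j' b') : j = j' := by
  by_contra hne
  have hj' : j = 1 - j' := by
    revert hne; revert j j'; intro j j' _
    fin_cases j <;> fin_cases j' <;> simp
  have hj1 : (1 - j : Fin 2) ≠ j := by fin_cases j <;> simp
  -- two points of the first side which differ in coordinate `j`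
  have hx : ∀ t : ℝ, 0 ≤ t → t ≤ 1 → ∃ x ∈ side (fr w r hr.ne') j b,
      x j.castSucc = w j.castSucc + r * t := by
    intro t h0 h1
    refine ⟨(fun k => if k = 2 then w 2 else if k = j.castSucc then w k + r * t else w k + r * b),
      ?_, ?_⟩
    · rw [mem_side_fr hr]
      have e1 : j.castSucc ≠ (2 : Fin 3) := by fin_cases j <;> decide
      have e2 : (1 - j).castSucc ≠ (2 : Fin 3) := by fin_cases j <;> decide
      have e3 : (1 - j).castSucc ≠ j.castSucc := by fin_cases j <;> decide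
      simp only [if_neg e1, if_neg e2, if_neg e3, if_true, true_and, and_true]
      constructor <;> nlinarith
    · have e1 : j.castSucc ≠ (2 : Fin 3) := by fin_cases j <;> decide
      simp only [if_neg e1, if_true]
  obtain ⟨x0, hx0, e0⟩ := hx 0 le_rfl zero_le_one
  obtain ⟨x1, hx1, e1⟩ := hx 1 zero_le_one le_rfl
  rw [h, mem_side_fr hr, ← hj'] at hx0 hx1
  have c0 := hx0.2.2.2
  have c1 := hx1.2.2.2
  rw [e0] at c0
  rw [e1] at c1
  nlinarith

variable {δ κ0 R c0 : ℝ} {La Om : Set E3} {ι : Type}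

/-- **the designated faces of the slices are admissible** -/
theorem faceD_of {T : Tiling Om ι} {Ex : Set ι} {𝒬 : Set (Set E3)} {L : ℕ} {η r : ℝ}
    {hr : r ≠ 0} {a : E3} {o : Fin 2 → ℤ} {M : ℕ} {Zs : Finset ℤ} {U : ℤ → (Fin 2 → ℕ) → Prop}
    (G : NOGeo T Ex 𝒬 L η r hr a o M Zs U) {Λ ν : ℝ} {b : Fin 2 → ℝ} (hν : 0 < ν)
    (hb : ∀ j, b j = 0 ∨ (ν / Λ ≤ b j ∧ b j ≤ ν)) :
    FaceD T Ex (DsN a r o M Zs U) (frN r hr) Λ ν b := by
  have h0 : 0 < r := G.r0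
  refine ⟨?_, ?_, ?_, ?_, ?_, ?_, hν, hb⟩
  · rintro x ⟨m, hm, v, hv, hU, rfl⟩
    by_contra hx
    have := (G.face m hm v hv hU).1
    obtain ⟨i, hi, -, -⟩ := G.tile m hm v hv hU
    apply hx
    refine T.sub i ?_
    rw [hi]
    intro k
    fin_cases k
    · exact ⟨by simp [mf]; linarith, by simp [mf]; linarith⟩
    · exact ⟨by simp [mf]; linarith, by simp [mf]; linarith⟩
    · exact ⟨by simp [mf], by simp [mf]; linarith⟩
  · rintro x ⟨m, hm, v, hv, hU, rfl⟩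
    exact (G.face m hm v hv hU).1
  · rintro x ⟨m, hm, v, hv, hU, rfl⟩
    rw [frN_mf]
    exact (G.face m hm v hv hU).2
  · rintro x ⟨m, hm, v, hv, hU, rfl⟩ j b hb
    rw [frN_mf]
    rcases hb with rfl | rfl
    · simpa using G.edge m hm v hv hU j 0 (Or.inl rfl)
    · simpa using G.edge m hm v hv hU j 1 (Or.inr rfl)
  · rintro x ⟨m, hm, v, hv, hU, rfl⟩ x' ⟨m', hm', v', hv', hU', rfl⟩ j j' b b' h
    rw [frN_mf, frN_mf] at h
    exact side_dir h0 h
  · rintro x ⟨m, hm, v, hv, hU, rfl⟩ y hy i hi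
    rw [(G.face m hm v hv hU).2] at hy
    exact G.off m hm v hv hU y (usq_sub_cub h0 hy) i hi

end

end Crest.Agent.R096.No7_477
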