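import Crest.Agent.R096.Top_961
import Crest.Agent.R096.Br2_695
import Crest.Agent.R096.Ea0_961
import Crest.Agent.R096.SkN2_477
import Crest.Agent.R096.No6_276
import Crest.Agent.R096.Fs1_168
import Crest.Agent.R096.No0_477
import Crest.Agent.R096.No5_477
import Crest.Agent.R096.No7_477_Mg
import Crest.Agent.R096.Ea1_713
import Crest.Agent.R096.No7_276
import Crest.Agent.R096.Gno2_324
import Crest.Agent.R096.Ls5_222
import Crest.Agent.R096.Dic5_582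
import Crest.Agent.R096.Nl2_234

-- ▼ part R096/Top2_961
section

/-!
Row 96 (S0127), helper961.  **The top of the row with the literal Props of record** (Mbf_337.MachBF,
SkN2_477.MachNO, EaX_766.EA, Ea0_961.EA0, Br_695.BFk, No_276.NOPre, No_276.NOS).
`s0127_final` is instantiated in `Crest/Agent/S0127.lean`.
-/

set_option autoImplicit false
set_option linter.style.longLine false

namespace Crest.Agent.R096.Top_961

open MeasureTheory Metric Set Filter Topology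
open scoped ENNReal Gradient NNReal
open Crest.AnalysisR.VecCalc3 Crest.AnalysisR.Sobolev
open Crest.Agent.R096.Sk_962 Crest.Agent.R096.Sk4_663

/-- `BFs p` for all `p ≥ 1`. -/
theorem bfs_all (hM : Mbf_337.MachBF)
    (ea : Mbf_337.MachBF → ∀ p : ℝ, 2 < p → EaX_766.EA p)
    (ea0 : Mbf_337.MachBF → ∀ p : ℝ, 1 ≤ p → p ≤ 2 → Ea0_961.EA0 p)
    (r12 : ∀ p : ℝ, 1 ≤ p → p ≤ 2 → Ea0_961.EA0 p → Br_695.BFk p)
    (r23 : ∀ p : ℝ, 2 < p → p < 3 → EaX_766.EA p → Br_695.BFk p)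
    (r3 : ∀ p : ℝ, 3 ≤ p → EaX_766.EA p → Br_695.BFk p)
    (p : ℝ) (hp : 1 ≤ p) : BFs p := by
  refine Br_695.bfs_of_bfk hp ?_
  rcases le_or_gt p 2 with h | h
  · exact r12 p hp h (ea0 hM p hp h)
  · rcases lt_or_ge p 3 with h' | h'
    · exact r23 p h h' (ea hM p h)
    · exact r3 p h' (ea hM p h)

/-- `NO0 p` for all `p ≥ 1`. -/
theorem no0_all (hMN : ∀ p : ℝ, 1 ≤ p → SkN2_477.MachNO p)
    (pre : ∀ p : ℝ, 1 ≤ p → No_276.NOPre p)
    (asm : ∀ p : ℝ, 1 ≤ p → SkN2_477.MachNO p → No_276.NOPre p → No_276.NOS p)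
    (p : ℝ) (hp : 1 ≤ p) : NO0 p :=
  no0_of_nos hp (asm p hp (hMN p hp) (pre p hp))

/-- **S0127 from the nodes of record.** -/
theorem s0127_final (hM : Mbf_337.MachBF) (hMN : ∀ p : ℝ, 1 ≤ p → SkN2_477.MachNO p)
    (ea : Mbf_337.MachBF → ∀ p : ℝ, 2 < p → EaX_766.EA p)
    (ea0 : Mbf_337.MachBF → ∀ p : ℝ, 1 ≤ p → p ≤ 2 → Ea0_961.EA0 p)
    (r12 : ∀ p : ℝ, 1 ≤ p → p ≤ 2 → Ea0_961.EA0 p → Br_695.BFk p)
    (r23 : ∀ p : ℝ, 2 < p → p < 3 → EaX_766.EA p → Br_695.BFk p)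
    (r3 : ∀ p : ℝ, 3 ≤ p → EaX_766.EA p → Br_695.BFk p)
    (pre : ∀ p : ℝ, 1 ≤ p → No_276.NOPre p)
    (asm : ∀ p : ℝ, 1 ≤ p → SkN2_477.MachNO p → No_276.NOPre p → No_276.NOS p)
    (Ω Λ : Set R3) (hΩo : IsOpen Ω) (hΩb : Bornology.IsBounded Ω) (hΩc : IsConnected Ω)
    (hΛo : IsOpen Λ) (hΛb : Bornology.IsBounded Λ) (hΛc : IsConnected Λ)
    (p : ℝ) (hp : 1 ≤ p) (f : R3 → R3) (hf : IsHomeomorphOn f Ω Λ)
    (hfp : MemLp f (ENNReal.ofReal p) (volume.restrict Ω))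
    (G : Fin 3 → R3 → R3) (hG : ∀ j : Fin 3, HasWeakGradOn Ω (fun x => f x j) (G j))
    (hGp : ∀ j : Fin 3, MemLp (G j) (ENNReal.ofReal p) (volume.restrict Ω))
    (ε : ℝ≥0∞) (hε : 0 < ε) :
    ∃ g : R3 → R3, IsSmoothDiffeoOn g Ω Λ ∧ MemLp g (ENNReal.ofReal p) (volume.restrict Ω) ∧
      (∀ j : Fin 3, MemLp (fun x => ∇ (fun y => g y j) x) (ENNReal.ofReal p) (volume.restrict Ω)) ∧
      ∫⁻ x in Ω, (‖g x - f x‖ₑ ^ p + ∑ j : Fin 3, ‖∇ (fun y => g y j) x - G j x‖ₑ ^ p) < ε :=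
  s0127_of (bfs_all hM ea ea0 r12 r23 r3) (no0_all hMN pre asm)
    Ω Λ hΩo hΩb hΩc hΛo hΛb hΛc p hp f hf hfp G hG hGp ε hε

end Crest.Agent.R096.Top_961
end

-- ▼ part R096/Fs2_168
section

/-!
# Row 96, NO0-L2 (helper168): FACE -> SLICE on one pure square (477 #10235 (L2))

`faceIn_of_pure` : PURE(τ) + QF + cnt + osc + clo ⟹ `FaceIn`.
`slice_of_face` : `FaceOut` + QF + clo ⟹ the `L^p` estimate of the slice.
`L2` : both together, from the individual clauses; `L2_out` : from `OutNO` and `NOGeo`.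
-/

set_option autoImplicit false
set_option linter.unusedSectionVars false
set_option linter.style.longLine false

open Set Function MeasureTheory Filter Topology Metric
open scoped ENNReal NNReal

namespace Crest.Agent.R096.Fs_168

open Crest.Agent.R096.Bsp_628 Crest.Agent.R096.Brk1_582 Crest.Agent.R096.Brk3_582
open Crest.Agent.R096.Brk5_582
open Crest.Agent.R096.Msh_715
open Crest.Agent.R096.SkN1_477 (emb usq side corner FaceIn FaceOut wlab OutNO FaceD Par)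
open Crest.Agent.R096.No0_477 (vx fr fr_apply fr_symm_apply cub mf frN DsN QF Vw NOGeo)
open Crest.Agent.R096.Sq_477 (sl Dp measurable_Dp)
open Crest.Agent.R096.No_276 (sq osq isOpen_osq measurableSet_osq sq_ae volume_osq)
open Crest.Agent.R096.Sk_962 (LL)
open Crest.Agent.R096.SkC1_961 (E3 FoamD)

noncomputable section

variable {δ κ0 R c0 : ℝ} {La Om : Set E3} {ι : Type}

/-! ### points of the square -/

theorem emb0 (y : E2) : emb y 0 = y 0 := rfl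
theorem emb1 (y : E2) : emb y 1 = y 1 := rfl
theorem emb2 (y : E2) : emb y 2 = 0 := rfl

theorem symm_emb (w : E3) {r : ℝ} (hr : r ≠ 0) (y : E2) :
    (fr w r hr).symm (emb y) = w + r • emb y := fr_symm_apply w hr _

theorem sq_mem_cub {w : E3} {r : ℝ} (hr : 0 < r) {y : E2} (hy : ∀ j, 0 ≤ y j ∧ y j ≤ 1) :
    w + r • emb y ∈ cub w r := by
  intro k
  have hk : k = 0 ∨ k = 1 ∨ k = 2 := by revert k; decide
  rcases hk with rfl | rfl | rfl
  · show w 0 ≤ w 0 + r * emb y 0 ∧ w 0 + r * emb y 0 ≤ w 0 + r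
    rw [emb0]
    have := hy 0
    constructor <;> nlinarith
  · show w 1 ≤ w 1 + r * emb y 1 ∧ w 1 + r * emb y 1 ≤ w 1 + r
    rw [emb1]
    have := hy 1
    constructor <;> nlinarith
  · show w 2 ≤ w 2 + r * emb y 2 ∧ w 2 + r * emb y 2 ≤ w 2 + r
    rw [emb2]
    constructor <;> nlinarith

theorem usq_sub {w : E3} {r : ℝ} (hr : 0 < r) : usq (fr w r hr.ne') ⊆ cub w r := by
  rintro x ⟨y, hy, hx⟩
  have h1 : x = w + r • emb y := by
    rw [← symm_emb w hr.ne', hx, AffineEquiv.symm_apply_apply]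
  rw [h1]
  exact sq_mem_cub hr hy

theorem side_sub {w : E3} {r : ℝ} (hr : 0 < r) {j : Fin 2} {b : ℝ} (hb : b = 0 ∨ b = 1) :
    side (fr w r hr.ne') j b ⊆ cub w r := by
  rintro x ⟨y, ⟨h0, h1, h2⟩, hx⟩
  have h3 : x = w + r • emb y := by
    rw [← symm_emb w hr.ne', hx, AffineEquiv.symm_apply_apply]
  rw [h3]
  refine sq_mem_cub hr fun k => ?_
  have hall : ∀ k j : Fin 2, k = j ∨ k = 1 - j := by decide
  rcases hall k j with rfl | rfl
  · exact ⟨h0, h1⟩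
  · rw [h2]; rcases hb with rfl | rfl <;> norm_num

/-- the end point `t` of the side `j` at height `b` -/
def ep (j : Fin 2) (b t : ℝ) : E2 := fun i => if i = j then t else b

theorem ep_mem_side {w : E3} {r : ℝ} (hr : 0 < r) {j : Fin 2} {b t : ℝ} (ht : t = 0 ∨ t = 1) :
    w + r • emb (ep j b t) ∈ side (fr w r hr.ne') j b := by
  refine ⟨ep j b t, ⟨?_, ?_, ?_⟩, ?_⟩
  · simp only [ep, if_true]; rcases ht with rfl | rfl <;> norm_num
  · simp only [ep, if_true]; rcases ht with rfl | rfl <;> norm_num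
  · have : (1 - j) ≠ j := by revert j; decide
    simp [ep, this]
  · rw [← symm_emb w hr.ne', AffineEquiv.apply_symm_apply]

theorem corner_eq {w : E3} {r : ℝ} (hr : 0 < r) (α β : ℝ) :
    corner (fr w r hr.ne') α β = w + r • emb ![α, β] := symm_emb w hr.ne' _

theorem ep0 (b t : ℝ) : ep 0 b t = ![t, b] := by
  funext i
  have hi : i = 0 ∨ i = 1 := by revert i; decide
  rcases hi with rfl | rfl <;> simp [ep]

theorem ep1 (b t : ℝ) : ep 1 b t = ![b, t] := by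
  funext i
  have hi : i = 0 ∨ i = 1 := by revert i; decide
  rcases hi with rfl | rfl <;> simp [ep]

theorem dist_ep {w : E3} {r : ℝ} (hr : 0 < r) (j : Fin 2) (b : ℝ) :
    ‖(w + r • emb (ep j b 1)) - (w + r • emb (ep j b 0))‖ ≤ r := by
  rw [add_sub_add_left_eq_sub, ← smul_sub, norm_smul, Real.norm_eq_abs, abs_of_pos hr]
  have h1 : ‖emb (ep j b 1) - emb (ep j b 0)‖ ≤ 1 := by
    refine norm_le3 ?_ ?_ ?_
    · rw [Pi.sub_apply, emb0, emb0]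
      unfold ep
      split_ifs <;> simp
    · rw [Pi.sub_apply, emb1, emb1]
      unfold ep
      split_ifs <;> simp
    · rw [Pi.sub_apply, emb2, emb2]; simp
  nlinarith

/-! ### counts on one side -/

/-- two families in the initial weight -/
theorem two_le_Vw (Φ : FoamD δ κ0 R c0 La) (f : E3 → E3) (κ : Φ.F → ℕ) (L : Φ.F → Finset ℝ)
    {A : Set E3} {n : Φ.F → ℝ} (hn0 : ∀ c, 0 ≤ n c)
    (hcnt : ∀ S : Finset Φ.F, ENNReal.ofReal (∑ c ∈ S, n c * (2 : ℝ)⁻¹ ^ κ c) ≤ Vw Φ f κ L A)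
    {c1 c2 : Φ.F} (hne : c1 ≠ c2) {V : ℝ} (hV0 : 0 ≤ V) (hV : Vw Φ f κ L A ≤ ENNReal.ofReal V) :
    n c1 * (2 : ℝ)⁻¹ ^ κ c1 + n c2 * (2 : ℝ)⁻¹ ^ κ c2 ≤ V := by
  classical
  have h3 := (hcnt {c1, c2}).trans hV
  rw [Finset.sum_pair hne] at h3
  exact (ENNReal.ofReal_le_ofReal_iff hV0).1 h3

/-- the estimates on one side: `ca` = the family of the direction, `cb` = the other one -/
theorem side_est {r s τ tol e' η S1 W1 W2 D : ℝ} (hr : 0 < r) (hτ : 0 ≤ τ) (he' : 0 ≤ e')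
    (htol : 0 ≤ tol) (hs : 0 ≤ s) (hη : 2 * τ + tol + e' * (s + τ) ≤ η * S1)
    (hW2 : 0 ≤ W2) (hV : W1 + W2 ≤ r * (s + τ)) (hD1 : D ≤ (1 + e') * W1)
    (hD : r * (s - τ) - tol * r ≤ D) :
    W1 ≤ s * r + η * (S1 * r) ∧ s * r - η * (S1 * r) ≤ D ∧ W2 ≤ η * (S1 * r) := by
  have h0 : (2 * τ + tol + e' * (s + τ)) * r ≤ η * S1 * r := mul_le_mul_of_nonneg_right hη hr.le
  have h1 : W1 ≤ r * (s + τ) := by linarith
  have h2 : e' * W1 ≤ e' * (r * (s + τ)) := mul_le_mul_of_nonneg_left h1 he'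
  have h3 : 0 ≤ e' * (s + τ) * r := by positivity
  have h4 : 0 ≤ tol * r := by positivity
  have h5 : 0 ≤ τ * r := by positivity
  refine ⟨?_, ?_, ?_⟩
  · nlinarith
  · nlinarith
  · nlinarith

/-- **PURE ⟹ FaceIn** -/
theorem faceIn_of_pure {Φ : FoamD δ κ0 R c0 La} {κ : Φ.F → ℕ} {L : Φ.F → Finset ℝ} {f g : E3 → E3}
    {u : E3 → Φ.F → ℝ} {n : Set E3 → Φ.F → ℝ} {w : E3} {r : ℝ} (hr : 0 < r)
    {c1 c2 : Φ.F} {σ1 σ2 ww : ℝ} {b : E3} (hQ : QF Φ κ L u (cub w r) c1 c2 σ1 σ2 ww b)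
    {s : Fin 3 → ℝ} (hs : ∀ i, 0 ≤ s i) {τ tol e' η S1 ε : ℝ} (hτ : 0 ≤ τ) (htol : 0 ≤ tol)
    (he' : 0 ≤ e') (hη : ∀ j : Fin 2, 2 * τ + tol + e' * (s j.castSucc + τ) ≤ η * S1)
    (hε : ε ≤ η * S1) (hk1 : (2 : ℝ)⁻¹ ^ κ c1 ≤ ε * r) (hk2 : (2 : ℝ)⁻¹ ^ κ c2 ≤ ε * r)
    (hclo : ∀ x ∈ cub w r, ∀ y ∈ cub w r,
      ‖(g x - Brk1_582.T (bc (F := Φ.F)) (u x)) - (g y - Brk1_582.T (bc (F := Φ.F)) (u y))‖
        ≤ tol * ‖x - y‖)
    (hn0 : ∀ A c, 0 ≤ n A c)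
    (hcnt : ∀ (j : Fin 2) (b : ℝ), b = 0 ∨ b = 1 → ∀ S : Finset Φ.F,
      ENNReal.ofReal (∑ c ∈ S, n (side (fr w r hr.ne') j b) c * (2 : ℝ)⁻¹ ^ κ c) ≤
        Vw Φ f κ L (side (fr w r hr.ne') j b))
    (hosc : ∀ (j : Fin 2) (b : ℝ), b = 0 ∨ b = 1 → ∀ c,
      ∀ y ∈ side (fr w r hr.ne') j b, ∀ y' ∈ side (fr w r hr.ne') j b,
        |u y c - u y' c| * (L c).card ≤ (1 + e') * n (side (fr w r hr.ne') j b) c)
    (hV : ∀ (j : Fin 2) (b : ℝ), b = 0 ∨ b = 1 →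
      Vw Φ f κ L (side (fr w r hr.ne') j b) ≤ ENNReal.ofReal (r * (s j.castSucc + τ)))
    (hD : ∀ (j : Fin 2) (b : ℝ), b = 0 ∨ b = 1 → r * (s j.castSucc - τ) ≤
      (g (w + r • emb (ep j b 1)) - g (w + r • emb (ep j b 0))) j.castSucc) :
    FaceIn Φ κ L u n η (S1 * r) (fun j => s j.castSucc * r) (fr w r hr.ne') c1 c2 σ1 σ2 := by
  have hkk : ∀ c, 0 < (2 : ℝ)⁻¹ ^ κ c := fun c => by positivity
  -- the displacement of the label
  have hlab : ∀ (j : Fin 2) (b' : ℝ), b' = 0 ∨ b' = 1 →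
      r * (s j.castSucc - τ) - tol * r ≤
        (Brk1_582.T (bc (F := Φ.F)) (u (w + r • emb (ep j b' 1))) -
          Brk1_582.T (bc (F := Φ.F)) (u (w + r • emb (ep j b' 0)))) j.castSucc := by
    intro j b' hb'
    have m1 := side_sub hr hb' (ep_mem_side (w := w) (j := j) (b := b') hr (t := 1) (Or.inr rfl))
    have m0 := side_sub hr hb' (ep_mem_side (w := w) (j := j) (b := b') hr (t := 0) (Or.inl rfl))
    have h1 := hclo _ m1 _ m0
    have h2 := (norm_le_pi_norm ((g (w + r • emb (ep j b' 1)) -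
      Brk1_582.T (bc (F := Φ.F)) (u (w + r • emb (ep j b' 1)))) -
      (g (w + r • emb (ep j b' 0)) -
      Brk1_582.T (bc (F := Φ.F)) (u (w + r • emb (ep j b' 0))))) j.castSucc).trans h1
    have h3 : tol * ‖(w + r • emb (ep j b' 1)) - (w + r • emb (ep j b' 0))‖ ≤ tol * r :=
      mul_le_mul_of_nonneg_left (dist_ep hr j b') htol
    have h4 := h2.trans h3
    rw [Real.norm_eq_abs, abs_le] at h4
    have h5 := hD j b' hb'
    simp only [Pi.sub_apply] at h4 h5 ⊢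
    linarith [h4.2]
  have e0 : (0 : Fin 2).castSucc = (0 : Fin 3) := rfl
  have e1 : (1 : Fin 2).castSucc = (1 : Fin 3) := rfl
  have hform0 : ∀ y ∈ cub w r, Brk1_582.T (bc (F := Φ.F)) (u y) 0 = b 0 + σ1 * ww * u y c1 := by
    intro y hy
    rw [hQ.form y hy]
    simp
  have hform1 : ∀ y ∈ cub w r, Brk1_582.T (bc (F := Φ.F)) (u y) 1 = b 1 + σ2 * ww * u y c2 := by
    intro y hy
    rw [hQ.form y hy]
    simp
  have ha1 : |σ1| = 1 := by rcases hQ.sg1 with h | h <;> rw [h] <;> norm_num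
  have ha2 : |σ2| = 1 := by rcases hQ.sg2 with h | h <;> rw [h] <;> norm_num
  -- one side
  have key : ∀ (j : Fin 2) (b' : ℝ), b' = 0 ∨ b' = 1 → ∀ (ca cb : Φ.F) (σ : ℝ), ca ≠ cb →
      |σ| = 1 → ((L ca).card * (2 : ℝ)⁻¹ ^ κ ca = ww) →
      (Brk1_582.T (bc (F := Φ.F)) (u (w + r • emb (ep j b' 1))) -
          Brk1_582.T (bc (F := Φ.F)) (u (w + r • emb (ep j b' 0)))) j.castSucc =
        σ * (u (w + r • emb (ep j b' 1)) ca - u (w + r • emb (ep j b' 0)) ca) * ww →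
      n (side (fr w r hr.ne') j b') ca * (2 : ℝ)⁻¹ ^ κ ca ≤ s j.castSucc * r + η * (S1 * r) ∧
      s j.castSucc * r - η * (S1 * r) ≤
        σ * (u (w + r • emb (ep j b' 1)) ca - u (w + r • emb (ep j b' 0)) ca) * ww ∧
      n (side (fr w r hr.ne') j b') cb * (2 : ℝ)⁻¹ ^ κ cb ≤ η * (S1 * r) := by
    intro j b' hb' ca cb σ hcc hσ hww hT
    have h1 := two_le_Vw Φ f κ L (hn0 _) (hcnt j b' hb') hcc
      (mul_nonneg hr.le (add_nonneg (hs _) hτ)) (hV j b' hb')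
    have h2 := hlab j b' hb'
    rw [hT] at h2
    have h3 := hosc j b' hb' ca _ (ep_mem_side (w := w) (j := j) (b := b') hr (t := 1) (Or.inr rfl))
      _ (ep_mem_side (w := w) (j := j) (b := b') hr (t := 0) (Or.inl rfl))
    have h4 : σ * (u (w + r • emb (ep j b' 1)) ca - u (w + r • emb (ep j b' 0)) ca) * ww ≤
        (1 + e') * (n (side (fr w r hr.ne') j b') ca * (2 : ℝ)⁻¹ ^ κ ca) := by
      have h5 : σ * (u (w + r • emb (ep j b' 1)) ca - u (w + r • emb (ep j b' 0)) ca) ≤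
          |u (w + r • emb (ep j b' 1)) ca - u (w + r • emb (ep j b' 0)) ca| := by
        refine (le_abs_self _).trans (le_of_eq ?_)
        rw [abs_mul, hσ, one_mul]
      calc σ * (u (w + r • emb (ep j b' 1)) ca - u (w + r • emb (ep j b' 0)) ca) * ww
          ≤ |u (w + r • emb (ep j b' 1)) ca - u (w + r • emb (ep j b' 0)) ca| * ww :=
            mul_le_mul_of_nonneg_right h5 hQ.w0.le
        _ = (|u (w + r • emb (ep j b' 1)) ca - u (w + r • emb (ep j b' 0)) ca| * (L ca).card) *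
            (2 : ℝ)⁻¹ ^ κ ca := by rw [← hww]; ring
        _ ≤ ((1 + e') * n (side (fr w r hr.ne') j b') ca) * (2 : ℝ)⁻¹ ^ κ ca :=
            mul_le_mul_of_nonneg_right h3 (hkk _).le
        _ = _ := by ring
    exact side_est hr hτ he' htol (hs _) (hη j) (mul_nonneg (hn0 _ _) (hkk _).le) h1 h4 h2
  have hx : ∀ (j : Fin 2) (b' t : ℝ), b' = 0 ∨ b' = 1 → t = 0 ∨ t = 1 →
      w + r • emb (ep j b' t) ∈ cub w r := fun j b' t hb' ht =>
    side_sub hr hb' (ep_mem_side hr ht)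
  have k0 : ∀ b' : ℝ, b' = 0 ∨ b' = 1 → _ := fun b' hb' =>
    key 0 b' hb' c1 c2 σ1 hQ.ne ha1 hQ.w1 (by
      rw [Pi.sub_apply, e0, hform0 _ (hx 0 b' 1 hb' (Or.inr rfl)),
        hform0 _ (hx 0 b' 0 hb' (Or.inl rfl))]
      ring)
  have k1 : ∀ b' : ℝ, b' = 0 ∨ b' = 1 → _ := fun b' hb' =>
    key 1 b' hb' c2 c1 σ2 hQ.ne.symm ha2 hQ.w2 (by
      rw [Pi.sub_apply, e1, hform1 _ (hx 1 b' 1 hb' (Or.inr rfl)),
        hform1 _ (hx 1 b' 0 hb' (Or.inl rfl))]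
      ring)
  refine ⟨hQ.ne, ?_, ?_, ?_, hQ.sg1, hQ.sg2, ?_, ?_, ?_, ?_⟩
  · intro c h1 h2 y hy y' hy'
    exact hQ.oth c h1 h2 y (usq_sub hr hy) y' (usq_sub hr hy')
  · calc (2 : ℝ)⁻¹ ^ κ c1 ≤ ε * r := hk1
      _ ≤ η * S1 * r := mul_le_mul_of_nonneg_right hε hr.le
      _ = η * (S1 * r) := by ring
  · calc (2 : ℝ)⁻¹ ^ κ c2 ≤ ε * r := hk2
      _ ≤ η * S1 * r := mul_le_mul_of_nonneg_right hε hr.le
      _ = η * (S1 * r) := by ring
  · intro b' hb'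
    have h := k0 b' hb'
    refine ⟨h.1, ?_⟩
    rw [corner_eq hr, corner_eq hr, ← ep0, ← ep0, hQ.w1]
    exact h.2.1
  · intro b' hb'
    have h := k1 b' hb'
    refine ⟨h.1, ?_⟩
    rw [corner_eq hr, corner_eq hr, ← ep1, ← ep1, hQ.w2]
    exact h.2.1
  · intro b' hb'
    exact (k1 b' hb').2.2
  · intro b' hb'
    exact (k0 b' hb').2.2

/-! ### the slice -/

/-- the lower corner of the square in the plane -/
def lc (w : E3) : E2 := fun j => w j.castSucc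

theorem insert_eq_pt (w : E3) {r : ℝ} (hr : 0 < r) (y : E2) :
    (2 : Fin 3).insertNth (α := fun _ => ℝ) (w 2) y = w + r • emb (unt (lc w) r 0 y) := by
  have h : ∀ j : Fin 2, r * unt (lc w) r 0 y j = y j - w j.castSucc := by
    intro j
    simp only [unt, cor, lc, Pi.smul_apply, Pi.sub_apply, smul_eq_mul, Pi.zero_apply, Int.cast_zero,
      mul_zero, add_zero]
    rw [← mul_assoc, mul_inv_cancel₀ hr.ne', one_mul]
  funext k
  have hk : k = 0 ∨ k = 1 ∨ k = 2 := by revert k; decide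
  rcases hk with rfl | rfl | rfl
  · have e1 : (2 : Fin 3).insertNth (α := fun _ => ℝ) (w 2) y 0 = y 0 := by
      have : (0 : Fin 3) = (2 : Fin 3).succAbove 0 := by decide
      rw [this, Fin.insertNth_apply_succAbove]
    rw [e1, Pi.add_apply, Pi.smul_apply, smul_eq_mul, emb0, h 0]
    show y 0 = w 0 + (y 0 - w 0); ring
  · have e1 : (2 : Fin 3).insertNth (α := fun _ => ℝ) (w 2) y 1 = y 1 := by
      have : (1 : Fin 3) = (2 : Fin 3).succAbove 1 := by decide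
      rw [this, Fin.insertNth_apply_succAbove]
    rw [e1, Pi.add_apply, Pi.smul_apply, smul_eq_mul, emb1, h 1]
    show y 1 = w 1 + (y 1 - w 1); ring
  · rw [Fin.insertNth_apply_same, Pi.add_apply, Pi.smul_apply, emb2]; simp

theorem norm_insert_sub (c : ℝ) (y y' : E2) :
    ‖(2 : Fin 3).insertNth (α := fun _ => ℝ) c y - (2 : Fin 3).insertNth (α := fun _ => ℝ) c y'‖ =
      ‖y - y'‖ := by
  have h0 : ∀ z : E2, (2 : Fin 3).insertNth (α := fun _ => ℝ) c z 0 = z 0 := by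
    intro z
    have : (0 : Fin 3) = (2 : Fin 3).succAbove 0 := by decide
    rw [this, Fin.insertNth_apply_succAbove]
  have h1 : ∀ z : E2, (2 : Fin 3).insertNth (α := fun _ => ℝ) c z 1 = z 1 := by
    intro z
    have : (1 : Fin 3) = (2 : Fin 3).succAbove 1 := by decide
    rw [this, Fin.insertNth_apply_succAbove]
  apply le_antisymm
  · refine norm_le3 ?_ ?_ ?_
    · rw [Pi.sub_apply, h0, h0]; exact norm_le_pi_norm (y - y') 0
    · rw [Pi.sub_apply, h1, h1]; exact norm_le_pi_norm (y - y') 1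
    · rw [Pi.sub_apply, Fin.insertNth_apply_same, Fin.insertNth_apply_same, sub_self, abs_zero]
      exact norm_nonneg _
  · rw [pi_norm_le_iff_of_nonneg (norm_nonneg _)]
    intro i
    have hi : i = 0 ∨ i = 1 := by revert i; decide
    rcases hi with rfl | rfl
    · have := norm_le_pi_norm ((2 : Fin 3).insertNth (α := fun _ => ℝ) c y -
        (2 : Fin 3).insertNth (α := fun _ => ℝ) c y') 0
      rwa [Pi.sub_apply, h0, h0] at this
    · have := norm_le_pi_norm ((2 : Fin 3).insertNth (α := fun _ => ℝ) c y -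
        (2 : Fin 3).insertNth (α := fun _ => ℝ) c y') 1
      rwa [Pi.sub_apply, h1, h1] at this

theorem insert_mem_cub {w : E3} {r : ℝ} (hr : 0 < r) {y : E2} (hy : y ∈ osq (lc w) r 0) :
    (2 : Fin 3).insertNth (α := fun _ => ℝ) (w 2) y ∈ cub w r := by
  rw [insert_eq_pt w hr]
  refine sq_mem_cub hr fun j => ?_
  have h1 : unt (lc w) r 0 y ∈ usqo := by
    have : y ∈ unt (lc w) r 0 ⁻¹' usqo := by rw [unt_preimage (lc w) hr 0]; exact hy
    exact this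
  exact ⟨(h1 j).1.le, (h1 j).2.le⟩


theorem succAbove_castSucc (i : Fin 2) : (2 : Fin 3).succAbove i = i.castSucc := by
  revert i; decide

/-- **FaceOut ⟹ slice estimate** -/
theorem slice_of_face {Φ : FoamD δ κ0 R c0 La} {κ : Φ.F → ℕ} {L : Φ.F → Finset ℝ} {g : E3 → E3}
    {u : E3 → Φ.F → ℝ} {w : E3} {r p : ℝ} (hp : 1 ≤ p) (hr : 0 < r)
    {c1 c2 : Φ.F} {σ1 σ2 ww : ℝ} {b : E3} (hQ : QF Φ κ L u (cub w r) c1 c2 σ1 σ2 ww b)
    {s : Fin 3 → ℝ} {tol e S1 : ℝ} (htol : 0 ≤ tol) (he : 0 ≤ e) (hS1 : 0 ≤ S1)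
    (hclo : ∀ x ∈ cub w r, ∀ y ∈ cub w r,
      ‖(g x - Brk1_582.T (bc (F := Φ.F)) (u x)) - (g y - Brk1_582.T (bc (F := Φ.F)) (u y))‖
        ≤ tol * ‖x - y‖)
    (hLL : LL (sl g (w 2) 2) (osq (lc w) r 0))
    (hout : FaceOut p Φ κ L u e (S1 * r) (fun j => s j.castSucc * r) (fr w r hr.ne')
      c1 c2 σ1 σ2) (i : Fin 2) :
    ∫⁻ y in sq (lc w) r 0, ‖Dp (sl g (w 2) 2) i y -
        Pi.single ((2 : Fin 3).succAbove i) (s ((2 : Fin 3).succAbove i))‖ₑ ^ p ≤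
      ENNReal.ofReal (3 ^ p * (2 * (e * S1 ^ p) + tol ^ p) * r ^ 2) := by
  have hmdl : ∀ y ∈ osq (lc w) r 0,
      mdl b σ1 σ2 (fun z => wlab Φ κ L u (fr w r hr.ne') c1 (unt (lc w) r 0 z))
        (fun z => wlab Φ κ L u (fr w r hr.ne') c2 (unt (lc w) r 0 z)) y =
      Brk1_582.T (bc (F := Φ.F)) (u ((2 : Fin 3).insertNth (α := fun _ => ℝ) (w 2) y)) := by
    intro y hy
    have hm := insert_mem_cub hr hy
    rw [hQ.form _ hm]
    have h1 : (fr w r hr.ne').symm (emb (unt (lc w) r 0 y)) =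
        (2 : Fin 3).insertNth (α := fun _ => ℝ) (w 2) y := by
      rw [symm_emb, insert_eq_pt w hr]
    funext k
    have hk : k = 0 ∨ k = 1 ∨ k = 2 := by revert k; decide
    rcases hk with rfl | rfl | rfl
    · show b 0 + σ1 * wlab Φ κ L u (fr w r hr.ne') c1 (unt (lc w) r 0 y) = _
      unfold wlab
      rw [h1, hQ.w1]
      simp; ring
    · show b 1 + σ2 * wlab Φ κ L u (fr w r hr.ne') c2 (unt (lc w) r 0 y) = _
      unfold wlab
      rw [h1, hQ.w2]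
      simp; ring
    · show b 2 = _
      simp
  have hmain := face_slice (a := lc w) (q := 0) (h := sl g (w 2) 2)
    (v1 := wlab Φ κ L u (fr w r hr.ne') c1) (v2 := wlab Φ κ L u (fr w r hr.ne') c2)
    (b := b) (a' := fun j => s j.castSucc * r) (μ := S1 * r) hp hr hQ.sg1 hQ.sg2 htol he
    (mul_nonneg hS1 hr.le) hLL (by
      intro y hy y' hy'
      rw [hmdl y hy, hmdl y' hy', ← norm_insert_sub (w 2) y y']
      exact hclo _ (insert_mem_cub hr hy) _ (insert_mem_cub hr hy')) hout.1 hout.2 i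
  have e1 : (fun j : Fin 2 => s j.castSucc * r) i / r = s ((2 : Fin 3).succAbove i) := by
    rw [succAbove_castSucc]
    simp only
    rw [mul_div_assoc, div_self hr.ne', mul_one]
  have e2 : S1 * r / r = S1 := by rw [mul_div_assoc, div_self hr.ne', mul_one]
  rw [e1, e2] at hmain
  exact hmain

/-- both derivatives, on the open square in 477's form -/
theorem slice_sum {Φ : FoamD δ κ0 R c0 La} {κ : Φ.F → ℕ} {L : Φ.F → Finset ℝ} {g : E3 → E3}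
    {u : E3 → Φ.F → ℝ} {w : E3} {r p : ℝ} (hp : 1 ≤ p) (hr : 0 < r)
    {c1 c2 : Φ.F} {σ1 σ2 ww : ℝ} {b : E3} (hQ : QF Φ κ L u (cub w r) c1 c2 σ1 σ2 ww b)
    {s : Fin 3 → ℝ} {tol e S1 : ℝ} (htol : 0 ≤ tol) (he : 0 ≤ e) (hS1 : 0 ≤ S1)
    (hclo : ∀ x ∈ cub w r, ∀ y ∈ cub w r,
      ‖(g x - Brk1_582.T (bc (F := Φ.F)) (u x)) - (g y - Brk1_582.T (bc (F := Φ.F)) (u y))‖
        ≤ tol * ‖x - y‖)
    (hLL : LL (sl g (w 2) 2) (osq (lc w) r 0))
    (hout : FaceOut p Φ κ L u e (S1 * r) (fun j => s j.castSucc * r) (fr w r hr.ne')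
      c1 c2 σ1 σ2) :
    ∫⁻ y in {y : Fin 2 → ℝ | ∀ j : Fin 2, w j.castSucc < y j ∧ y j < w j.castSucc + r},
      ∑ i : Fin 2, ‖Dp (sl g (w 2) 2) i y -
        Pi.single ((2 : Fin 3).succAbove i) (s ((2 : Fin 3).succAbove i))‖ₑ ^ p ≤
      ENNReal.ofReal (4 * 3 ^ p * (e * S1 ^ p + tol ^ p) * r ^ 2) := by
  have hset : {y : Fin 2 → ℝ | ∀ j : Fin 2, w j.castSucc < y j ∧ y j < w j.castSucc + r} =
      osq (lc w) r 0 := by
    ext y
    simp only [mem_ofPred_eq, osq, lc, Pi.zero_apply, Int.cast_zero, mul_zero, add_zero, zero_add,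
      mul_one]
  rw [hset, setLIntegral_congr (sq_ae (lc w) hr.le 0), lintegral_finsetSum _ fun i _ =>
    measurable_Dp (sl g (w 2) 2) i _ p]
  have h1 := fun i => slice_of_face hp hr hQ (s := s) htol he hS1 hclo hLL hout i
  have hep : 0 ≤ e * S1 ^ p := mul_nonneg he (Real.rpow_nonneg hS1 p)
  have htp : 0 ≤ tol ^ p := Real.rpow_nonneg htol p
  calc _ ≤ ∑ _i : Fin 2, ENNReal.ofReal (3 ^ p * (2 * (e * S1 ^ p) + tol ^ p) * r ^ 2) :=
        Finset.sum_le_sum fun i _ => h1 i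
    _ = ENNReal.ofReal (2 * (3 ^ p * (2 * (e * S1 ^ p) + tol ^ p) * r ^ 2)) := by
        rw [Finset.sum_const, Finset.card_univ, Fintype.card_fin, nsmul_eq_mul,
          ENNReal.ofReal_mul (p := 2) (by norm_num)]
        norm_num
    _ ≤ _ := by
        apply ENNReal.ofReal_le_ofReal
        have h3p : (0 : ℝ) < 3 ^ p := by positivity
        have : 0 ≤ 3 ^ p * tol ^ p * r ^ 2 := by positivity
        nlinarith

/-- **(L2), from the individual clauses.** -/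
theorem L2 {Φ : FoamD δ κ0 R c0 La} {κ : Φ.F → ℕ} {L : Φ.F → Finset ℝ} {f g : E3 → E3}
    {u : E3 → Φ.F → ℝ} {n : Set E3 → Φ.F → ℝ} {w : E3} {r p : ℝ} (hp : 1 ≤ p) (hr : 0 < r)
    {c1 c2 : Φ.F} {σ1 σ2 ww : ℝ} {b : E3} (hQ : QF Φ κ L u (cub w r) c1 c2 σ1 σ2 ww b)
    {s : Fin 3 → ℝ} (hs : ∀ i, 0 ≤ s i) {τ tol e e' η S1 ε : ℝ} (hτ : 0 ≤ τ) (htol : 0 ≤ tol)
    (he : 0 ≤ e) (hS1 : 0 ≤ S1)
    (he' : 0 ≤ e') (hη : ∀ j : Fin 2, 2 * τ + tol + e' * (s j.castSucc + τ) ≤ η * S1)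
    (hε : ε ≤ η * S1) (hk1 : (2 : ℝ)⁻¹ ^ κ c1 ≤ ε * r) (hk2 : (2 : ℝ)⁻¹ ^ κ c2 ≤ ε * r)
    (hclo : ∀ x ∈ cub w r, ∀ y ∈ cub w r,
      ‖(g x - Brk1_582.T (bc (F := Φ.F)) (u x)) - (g y - Brk1_582.T (bc (F := Φ.F)) (u y))‖
        ≤ tol * ‖x - y‖)
    (hLL : LL (sl g (w 2) 2) (osq (lc w) r 0))
    (hn0 : ∀ A c, 0 ≤ n A c)
    (hcnt : ∀ (j : Fin 2) (b : ℝ), b = 0 ∨ b = 1 → ∀ S : Finset Φ.F,
      ENNReal.ofReal (∑ c ∈ S, n (side (fr w r hr.ne') j b) c * (2 : ℝ)⁻¹ ^ κ c) ≤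
        Vw Φ f κ L (side (fr w r hr.ne') j b))
    (hosc : ∀ (j : Fin 2) (b : ℝ), b = 0 ∨ b = 1 → ∀ c,
      ∀ y ∈ side (fr w r hr.ne') j b, ∀ y' ∈ side (fr w r hr.ne') j b,
        |u y c - u y' c| * (L c).card ≤ (1 + e') * n (side (fr w r hr.ne') j b) c)
    (hface : ∀ (c1 c2 : Φ.F) (σ1 σ2 : ℝ),
      FaceIn Φ κ L u n η (S1 * r) (fun j => s j.castSucc * r) (fr w r hr.ne') c1 c2 σ1 σ2 →
      FaceOut p Φ κ L u e (S1 * r) (fun j => s j.castSucc * r) (fr w r hr.ne') c1 c2 σ1 σ2)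
    (hV : ∀ (j : Fin 2) (b : ℝ), b = 0 ∨ b = 1 →
      Vw Φ f κ L (side (fr w r hr.ne') j b) ≤ ENNReal.ofReal (r * (s j.castSucc + τ)))
    (hD : ∀ (j : Fin 2) (b : ℝ), b = 0 ∨ b = 1 → r * (s j.castSucc - τ) ≤
      (g (w + r • emb (ep j b 1)) - g (w + r • emb (ep j b 0))) j.castSucc) :
    ∫⁻ y in {y : Fin 2 → ℝ | ∀ j : Fin 2, w j.castSucc < y j ∧ y j < w j.castSucc + r},
      ∑ i : Fin 2, ‖Dp (sl g (w 2) 2) i y -
        Pi.single ((2 : Fin 3).succAbove i) (s ((2 : Fin 3).succAbove i))‖ₑ ^ p ≤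
      ENNReal.ofReal (4 * 3 ^ p * (e * S1 ^ p + tol ^ p) * r ^ 2) :=
  slice_sum hp hr hQ htol he hS1 hclo hLL (hface c1 c2 σ1 σ2
    (faceIn_of_pure hr hQ hs hτ htol he' hη hε hk1 hk2 hclo hn0 hcnt hosc hV hD))

/-- the slice of a locally Lipschitz map -/
theorem LL_slice {g : E3 → E3} {O : Set E3} (hg : LL g O) {c : ℝ} {U : Set E2}
    (hU : ∀ y ∈ U, (2 : Fin 3).insertNth (α := fun _ => ℝ) c y ∈ O) : LL (sl g c 2) U := by
  intro y hy
  obtain ⟨ρ, hρ, C, hC⟩ := hg _ (hU y hy)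
  refine ⟨ρ, hρ, C, LipschitzOnWith.of_dist_le_mul fun z hz z' hz' => ?_⟩
  have hball : ∀ z ∈ ball y ρ, (2 : Fin 3).insertNth (α := fun _ => ℝ) c z ∈
      ball ((2 : Fin 3).insertNth (α := fun _ => ℝ) c y) ρ := by
    intro z hz
    rw [mem_ball, dist_eq_norm] at hz ⊢
    rwa [norm_insert_sub]
  have := hC.dist_le_mul _ (hball z hz) _ (hball z' hz')
  rw [dist_eq_norm ((2 : Fin 3).insertNth (α := fun _ => ℝ) c z), norm_insert_sub,
    ← dist_eq_norm] at this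
  exact this

end

end Crest.Agent.R096.Fs_168
end

-- ▼ part R096/Fs3_168
section

/-!
# Row 96, NO0-L2 (helper168): the slice estimate on a pure square, from `OutNO` and `NOGeo`

`L2_out` : `PureS` (No5_477) + `NOGeo` + `OutNO` (SkN1_477 v4) + locally PL ⟹ the `L^p` estimate of
the two derivatives of the slice on the open square `(m, v)`.
-/

set_option autoImplicit false
set_option linter.unusedSectionVars false
set_option linter.style.longLine false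

open Set Function MeasureTheory Filter Topology Metric
open scoped ENNReal NNReal

namespace Crest.Agent.R096.Fs_168

open Crest.Agent.R096.Bsp_628 Crest.Agent.R096.Brk1_582 Crest.Agent.R096.Brk3_582
open Crest.Agent.R096.Brk5_582
open Crest.Agent.R096.Msh_715
open Crest.Agent.R096.SkN1_477 (emb usq side corner FaceIn FaceOut wlab OutNO FaceD Par)
open Crest.Agent.R096.No0_477 (vx nx fr fr_apply fr_symm_apply cub mf frN DsN QF Vw NOGeo)
open Crest.Agent.R096.No5_477 (st dsp vx_nx vx_st PureS)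
open Crest.Agent.R096.Sq_477 (sl Dp measurable_Dp)
open Crest.Agent.R096.No_276 (sq osq isOpen_osq measurableSet_osq sq_ae volume_osq)
open Crest.Agent.R096.Sk_962 (LL)
open Crest.Agent.R096.SkC1_961 (E3 FoamD)

noncomputable section

theorem emb_ep (j : Fin 2) (b t : ℝ) :
    emb (ep j b t) = t • (Pi.single j.castSucc 1 : E3) + b • (Pi.single (1 - j).castSucc 1 : E3) := by
  funext k
  fin_cases j <;> fin_cases k <;> simp [emb, ep]

theorem frN_mf (w : E3) {r : ℝ} (hr : r ≠ 0) : frN r hr (mf w r) = fr w r hr := by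
  unfold frN mf
  congr 1
  funext k
  fin_cases k <;> simp

/-- the ends of the side `(j, b)` of the square `(m, v)` -/
theorem vx_st_ep (a : E3) (r : ℝ) (o : Fin 2 → ℤ) (m : ℤ) (v : Fin 2 → ℕ) (j : Fin 2) (b : ℕ) :
    vx a r o m (st j b v) = vx a r o m v + r • emb (ep j b 0) := by
  rw [vx_st, emb_ep, zero_smul, zero_add, smul_smul]

theorem vx_nx_ep (a : E3) (r : ℝ) (o : Fin 2 → ℤ) (m : ℤ) (v : Fin 2 → ℕ) (j : Fin 2) (b : ℕ) :
    vx a r o m (nx (st j b v) j) = vx a r o m v + r • emb (ep j b 1) := by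
  rw [vx_nx, vx_st, emb_ep, one_smul, smul_add, smul_smul, add_assoc, add_comm (r • _) _]

section

variable {δ κ0 R c0 : ℝ} {La Om : Set E3} {ι : Type}

/-- **(L2)** the slice over a pure square -/
theorem L2_out {p : ℝ} (hp : 1 ≤ p) {Cu : Set (Set E3) → ℝ} {e η : ℝ} (he : 0 ≤ e)
    {Φ : FoamD δ κ0 R c0 La} {T : Tiling Om ι} {f : E3 → E3} {Ex : Set ι} {κ : Φ.F → ℕ}
    {L : Φ.F → Finset ℝ} {tol : ι → ℝ} {r : ℝ} (hr : 0 < r) {a : E3} {o : Fin 2 → ℤ} {M : ℕ}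
    {Zs : Finset ℤ} {U : ℤ → (Fin 2 → ℕ) → Prop} {𝒬 : Set (Set E3)} {Lq : ℕ} {ηg : ℝ}
    (G : NOGeo T Ex 𝒬 Lq ηg r hr.ne' a o M Zs U) {s : Fin 3 → ℝ} (hs : ∀ i, 0 ≤ s i) {S1 : ℝ}
    (hS1 : 0 ≤ S1) {g : E3 → E3} {u : E3 → Φ.F → ℝ} {n : Set E3 → Φ.F → ℝ}
    (hO : OutNO p Cu e η Φ T f Ex κ L tol (DsN a r o M Zs U) (frN r hr.ne') (S1 * r)
      (fun j => s j.castSucc * r) g u n)
    (hpl : Str_696.LocPL g Om) {ε τ t0 : ℝ} (hτ : 0 ≤ τ) (ht0 : 0 ≤ t0) (htol : ∀ i, tol i ≤ t0)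
    (hη : 2 * τ + t0 ≤ η * S1) (hε : ε ≤ η * S1) {m : ℤ} (hm : m ∈ Zs) {v : Fin 2 → ℕ}
    (hv : ∀ j, v j < M) (hP : PureS Φ f κ L s ε τ r hr.ne' a o U g u (m, v)) :
    ∫⁻ y in {y : Fin 2 → ℝ | ∀ j : Fin 2, vx a r o m v j.castSucc < y j ∧
        y j < vx a r o m v j.castSucc + r},
      ∑ i : Fin 2, ‖Dp (sl g (a 2 + r * m) 2) i y -
        Pi.single ((2 : Fin 3).succAbove i) (s ((2 : Fin 3).succAbove i))‖ₑ ^ p ≤
      ENNReal.ofReal (4 * 3 ^ p * (e * S1 ^ p + t0 ^ p) * r ^ 2) := by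
  obtain ⟨hU, ⟨c1, c2, σ1, σ2, ww, b, hQ, hk1, hk2⟩, hside⟩ := hP
  simp only at hU hQ hside
  obtain ⟨i, hi, -, -⟩ := G.tile m hm v hv hU
  have hw2 : vx a r o m v 2 = a 2 + r * m := rfl
  have hcorner : vx a r o m v ∈ cub (vx a r o m v) r := fun k =>
    ⟨le_rfl, le_add_of_nonneg_right hr.le⟩
  have hiEx : i ∉ Ex := G.off m hm v hv hU _ hcorner i (hi ▸ hcorner)
  have hclo : ∀ x ∈ cub (vx a r o m v) r, ∀ y ∈ cub (vx a r o m v) r,
      ‖(g x - Brk1_582.T (bc (F := Φ.F)) (u x)) - (g y - Brk1_582.T (bc (F := Φ.F)) (u y))‖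
        ≤ t0 * ‖x - y‖ := by
    intro x hx y hy
    rw [← hi] at hx hy
    refine (hO.clo i hiEx (fun z hz => hQ.par z (hi ▸ hz)) x hx y hy).2.trans ?_
    exact mul_le_mul_of_nonneg_right (htol i) (norm_nonneg _)
  have hface : ∀ (c1 c2 : Φ.F) (σ1 σ2 : ℝ),
      FaceIn Φ κ L u n η (S1 * r) (fun j => s j.castSucc * r) (fr (vx a r o m v) r hr.ne')
        c1 c2 σ1 σ2 →
      FaceOut p Φ κ L u e (S1 * r) (fun j => s j.castSucc * r) (fr (vx a r o m v) r hr.ne')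
        c1 c2 σ1 σ2 := by
    intro c1 c2 σ1 σ2 h
    have hmem : mf (vx a r o m v) r ∈ DsN a r o M Zs U := ⟨m, hm, v, hv, hU, rfl⟩
    have := hO.face _ hmem c1 c2 σ1 σ2
    rw [frN_mf] at this
    exact this h
  have hcell : ∀ (j : Fin 2) (b' : ℝ), b' = 0 ∨ b' = 1 → ∃ z ∈ Om, T.dim z = 1 ∧
      T.cc z = side (fr (vx a r o m v) r hr.ne') j b' ∧ ∀ i, z ∈ P (T.H i) → i ∉ Ex := by
    intro j b' hb'
    have hb'' : ∃ bn : ℕ, (bn = 0 ∨ bn = 1) ∧ (bn : ℝ) = b' := by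
      rcases hb' with rfl | rfl
      · exact ⟨0, Or.inl rfl, by simp⟩
      · exact ⟨1, Or.inr rfl, by simp⟩
    obtain ⟨bn, hbn, rfl⟩ := hb''
    obtain ⟨z, hz, hd, hcc⟩ := G.edge m hm v hv hU j bn hbn
    refine ⟨z, hz, hd, hcc, fun i' hi' => ?_⟩
    have h1 : z ∈ side (fr (vx a r o m v) r hr.ne') j bn := hcc ▸ T.self_mem_cc z
    exact G.off m hm v hv hU z (side_sub hr hb' h1) i' hi'
  have hV : ∀ (j : Fin 2) (b' : ℝ), b' = 0 ∨ b' = 1 →
      Vw Φ f κ L (side (fr (vx a r o m v) r hr.ne') j b') ≤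
        ENNReal.ofReal (r * (s j.castSucc + τ)) := by
    intro j b' hb'
    rcases hb' with rfl | rfl
    · have := (hside j 0 (Or.inl rfl)).1
      rwa [Nat.cast_zero] at this
    · have := (hside j 1 (Or.inr rfl)).1
      rwa [Nat.cast_one] at this
  have hD : ∀ (j : Fin 2) (b' : ℝ), b' = 0 ∨ b' = 1 → r * (s j.castSucc - τ) ≤
      (g (vx a r o m v + r • emb (ep j b' 1)) - g (vx a r o m v + r • emb (ep j b' 0)))
        j.castSucc := by
    intro j b' hb'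
    rcases hb' with rfl | rfl
    · have := (hside j 0 (Or.inl rfl)).2
      unfold dsp at this
      simp only at this
      rw [vx_nx_ep, vx_st_ep, Nat.cast_zero] at this
      exact this
    · have := (hside j 1 (Or.inr rfl)).2
      unfold dsp at this
      simp only at this
      rw [vx_nx_ep, vx_st_ep, Nat.cast_one] at this
      exact this
  have hLL : LL (sl g (vx a r o m v 2) 2) (osq (lc (vx a r o m v)) r 0) := by
    refine LL_slice (O := Om) (fun x hx => Sk_962.LocPL.lip hpl hx) fun y hy => ?_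
    have h1 := insert_mem_cub hr hy
    rw [← hi] at h1
    exact T.sub i h1
  have h := L2 (τ := τ) (tol := t0) (e := e) (e' := 0) (η := η) (ε := ε) (n := n) (f := f) hp hr hQ
    hs hτ ht0 he hS1 le_rfl (fun j => by linarith) hε hk1 hk2 hclo hLL (fun A c => hO.n0 A c)
    (fun j b' hb' => by
      obtain ⟨z, hz, hd, hcc, hex⟩ := hcell j b' hb'
      have := hO.cnt z hz hd hex
      rwa [hcc] at this)
    (fun j b' hb' c y hy y' hy' => by
      obtain ⟨z, hz, hd, hcc, hex⟩ := hcell j b' hb'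
      have := hO.osc z hz hd hex c y (hcc ▸ hy) y' (hcc ▸ hy')
      rw [hcc] at this
      rwa [add_zero, one_mul])
    hface hV hD
  rw [hw2] at h
  exact h

end

end

end Crest.Agent.R096.Fs_168
end

-- ▼ part R096/Nly2_780
section

/-!
Row 96 (S0127), helper780.  NO0-ASM, composition of the leaves (L1) (477: `pure_most`, `hD_pure`),
(L2) (168: `L2_out`), (L3) (`nos_layers`) and the choice of the constants.
-/

set_option autoImplicit false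
set_option linter.style.longLine false
set_option linter.unusedSectionVars false

open MeasureTheory Set Filter Topology Metric
open scoped ENNReal

namespace Crest.Agent.R096.Nly_780

open Crest.Agent.R096.Sq_477 (Dp sl)
open Crest.Agent.R096.Bsp_628 Crest.Agent.R096.Brk1_582 Crest.Agent.R096.Brk3_582
open Crest.Agent.R096.Brk5_582
open Crest.Agent.R096.Msh_715
open Crest.Agent.R096.SkC1_961 Crest.Agent.R096.SkN1_477 Crest.Agent.R096.No0_477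
open Crest.Agent.R096.No3_477 Crest.Agent.R096.No5_477 Crest.Agent.R096.No6_477

noncomputable section

/-- scale of the two weights -/
theorem exists_scale (s : Fin 3 → ℝ) (hs : ∀ i, 0 ≤ s i) : ∃ S1 Λ : ℝ, 0 < S1 ∧ 1 ≤ Λ ∧
    ∀ j : Fin 2, s j.castSucc = 0 ∨ (S1 / Λ ≤ s j.castSucc ∧ s j.castSucc ≤ S1) := by
  set A := s (0 : Fin 2).castSucc with hA
  set B := s (1 : Fin 2).castSucc with hB
  have hA0 : 0 ≤ A := hs _
  have hB0 : 0 ≤ B := hs _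
  rcases hA0.eq_or_lt with hA1 | hA1
  · rcases hB0.eq_or_lt with hB1 | hB1
    · refine ⟨1, 1, one_pos, le_rfl, fun j => Or.inl ?_⟩
      fin_cases j
      · exact hA1.symm
      · exact hB1.symm
    · refine ⟨B, 1, hB1, le_rfl, fun j => ?_⟩
      fin_cases j
      · exact Or.inl hA1.symm
      · exact Or.inr ⟨(div_one _).le, le_rfl⟩
  · rcases hB0.eq_or_lt with hB1 | hB1
    · refine ⟨A, 1, hA1, le_rfl, fun j => ?_⟩
      fin_cases j
      · exact Or.inr ⟨(div_one _).le, le_rfl⟩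
      · exact Or.inl hB1.symm
    · have hM : 0 < max A B := lt_max_of_lt_left hA1
      have hm : 0 < min A B := lt_min hA1 hB1
      have hmm : min A B ≤ max A B := (min_le_left _ _).trans (le_max_left _ _)
      have e1 : max A B / (max A B / min A B) = min A B := by field_simp
      refine ⟨max A B, max A B / min A B, hM, (one_le_div hm).2 hmm, fun j => Or.inr ?_⟩
      rw [e1]
      fin_cases j
      · exact ⟨min_le_left _ _, le_max_left _ _⟩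
      · exact ⟨min_le_right _ _, le_max_right _ _⟩

/-- **choice of the constants** -/
theorem exists_consts {p : ℝ} (hp : 1 ≤ p) (s : Fin 3 → ℝ) (hs : ∀ i, 0 ≤ s i) {S1 : ℝ}
    (hS1 : 0 < S1) {e : ℝ} (he : 0 < e) : ∃ ef : ℝ, 0 < ef ∧ ∀ η K1 : ℝ, 0 < η → 0 ≤ K1 →
    ∃ τ ε : ℝ, 0 < τ ∧ 0 < ε ∧ ε ≤ 1 ∧ 2 * τ + ε ≤ η * S1 ∧ ε ≤ η * S1 ∧
      4 * (4 * 3 ^ p * (ef * S1 ^ p + ε ^ p) + 2 ^ (p + 1) * ((K1 + ‖s‖) ^ p *
        (ε + 4 * ((ε * (s 0 + s 1 + 1) + (6 + K1) * ε) / τ)) + ε)) ≤ e := by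
  have hSp : 0 < S1 ^ p := Real.rpow_pos_of_pos hS1 p
  have h3p : (0 : ℝ) < 3 ^ p := by positivity
  have h2p : (0 : ℝ) < 2 ^ (p + 1) := by positivity
  refine ⟨e / (32 * 3 ^ p * S1 ^ p), by positivity, fun η K1 hη hK => ?_⟩
  set τ : ℝ := η * S1 / 4 with hτ
  have hτ0 : 0 < τ := by positivity
  have hsum : 0 ≤ s 0 + s 1 + 1 := by have := hs 0; have := hs 1; positivity
  have hKs : 0 ≤ (K1 + ‖s‖) ^ p := Real.rpow_nonneg (by positivity) p
  set D : ℝ := 16 * 3 ^ p + 4 * 2 ^ (p + 1) * ((K1 + ‖s‖) ^ p *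
    (1 + 4 * ((s 0 + s 1 + 1 + (6 + K1)) / τ)) + 1) with hD
  have hD0 : 0 < D := by positivity
  set ε : ℝ := min (min 1 (η * S1 / 4)) (e / (2 * D)) with hε
  have hε0 : 0 < ε := lt_min (lt_min one_pos (by positivity)) (by positivity)
  have hε1 : ε ≤ 1 := (min_le_left _ _).trans (min_le_left _ _)
  have hε2 : ε ≤ η * S1 / 4 := (min_le_left _ _).trans (min_le_right _ _)
  have hε3 : ε ≤ e / (2 * D) := min_le_right _ _
  have hηS : 0 < η * S1 := by positivity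
  refine ⟨τ, ε, hτ0, hε0, hε1, ?_, ?_, ?_⟩
  · rw [hτ]; linarith
  · linarith
  · have hεp : ε ^ p ≤ ε := by
      calc ε ^ p ≤ ε ^ (1 : ℝ) := Real.rpow_le_rpow_of_exponent_ge hε0 hε1 hp
        _ = ε := Real.rpow_one ε
    have e1 : 4 * (4 * 3 ^ p * (e / (32 * 3 ^ p * S1 ^ p) * S1 ^ p)) = e / 2 := by
      field_simp
      ring
    have e2 : (ε * (s 0 + s 1 + 1) + (6 + K1) * ε) / τ =
        ε * ((s 0 + s 1 + 1 + (6 + K1)) / τ) := by ring
    have e3 : ε * D ≤ e / 2 := by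
      calc ε * D ≤ e / (2 * D) * D := mul_le_mul_of_nonneg_right hε3 hD0.le
        _ = e / 2 := by field_simp
    rw [e2]
    calc 4 * (4 * 3 ^ p * (e / (32 * 3 ^ p * S1 ^ p) * S1 ^ p + ε ^ p) +
          2 ^ (p + 1) * ((K1 + ‖s‖) ^ p *
          (ε + 4 * (ε * ((s 0 + s 1 + 1 + (6 + K1)) / τ))) + ε))
        = 4 * (4 * 3 ^ p * (e / (32 * 3 ^ p * S1 ^ p) * S1 ^ p)) + 16 * 3 ^ p * ε ^ p +
          ε * (4 * 2 ^ (p + 1) * ((K1 + ‖s‖) ^ p *
            (1 + 4 * ((s 0 + s 1 + 1 + (6 + K1)) / τ)) + 1)) := by ring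
      _ ≤ e / 2 + 16 * 3 ^ p * ε + ε * (4 * 2 ^ (p + 1) * ((K1 + ‖s‖) ^ p *
            (1 + 4 * ((s 0 + s 1 + 1 + (6 + K1)) / τ)) + 1)) := by
          rw [e1]
          have := mul_le_mul_of_nonneg_left hεp (show (0 : ℝ) ≤ 16 * 3 ^ p by positivity)
          linarith
      _ = e / 2 + ε * D := by rw [hD]; ring
      _ ≤ e := by linarith


end

end Crest.Agent.R096.Nly_780
end

-- ▼ part R096/Np1_962
section

/-!
Row 96 (S0127), helper962.  **PRE3 (NO0, `p ≥ 3`), part 1: the junk squares.**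

* `lip_convex` : Lipschitz constant on a convex set from the constants of the tiles which meet it;
* `finite_meet` : a compact set meets finitely many tiles;
* `junk` : the numbers `X q` of the junk squares and the sum `∑ X q ^ p`;
* `card_near` : number of the disjoint cubes near a compact set.
-/

set_option autoImplicit false
set_option linter.style.longLine false
set_option linter.unusedSectionVars false

open MeasureTheory Set Filter Topology Metric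
open scoped ENNReal

namespace Crest.Agent.R096.Np_962

open Crest.Agent.R096.Msh_715 Crest.Agent.R096.Ea_713
open Crest.Agent.R96.Hole_348 (LLV)

noncomputable section

section Junk

variable {E : Type*} [NormedAddCommGroup E] [NormedSpace ℝ E]
variable {F : Type*} [NormedAddCommGroup F] [NormedSpace ℝ F]
variable {Om : Set E} {ι : Type*}


/-- a compact set meets finitely many tiles -/
theorem finite_meet (T : Tiling Om ι) {K : Set E} (hK : IsCompact K) (hKO : K ⊆ Om) :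
    {i | (P (T.H i) ∩ K).Nonempty}.Finite := by
  choose! r hr hf using T.lf
  obtain ⟨t, htK, ht⟩ := hK.elim_nhds_subcover (fun x => ball x (r x))
    (fun x hx => ball_mem_nhds x (hr x (hKO hx)))
  refine (t.finite_toSet.biUnion fun x hx => hf x (hKO (htK x hx))).subset ?_
  rintro i ⟨z, hzi, hzK⟩
  obtain ⟨x, hx, hzx⟩ := mem_iUnion₂.1 (ht hzK)
  exact mem_iUnion₂.2 ⟨x, hx, z, hzi, hzx⟩


end Junk

/-! ### number of cubes near a compact set -/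

section Near

variable {E : Type*} [NormedAddCommGroup E] [NormedSpace ℝ E] [MeasurableSpace E] [BorelSpace E]



end Near

end

end Crest.Agent.R096.Np_962
end

-- ▼ part R096/No8_276
section

/-!
# Row 96, NO0 (helper276), part 8: junk squares and layers (variants used by the composition)
-/

set_option autoImplicit false
set_option linter.unusedSectionVars false

open Set Function MeasureTheory Filter Topology Metric
open scoped ENNReal
open Crest.AnalysisR.VecCalc3 Crest.AnalysisR.Sobolev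

namespace Crest.Agent.R096.No_276

open Crest.Agent.R096.Bsp_628 Crest.Agent.R096.Brk1_582 Crest.Agent.R096.Brk3_582
open Crest.Agent.R096.Brk5_582
open Crest.Agent.R096.Msh_715 Crest.Agent.R096.Ea_713 Crest.Agent.R96.Hole_348
open Crest.Agent.R096.Sq_477
open Crest.Agent.R096.SkC1_961 (E3 Hom3 FoamD Cfg NN)
open Crest.Agent.R096.SkN1_477 Crest.Agent.R096.No0_477
open Crest.Agent.R096.No3_477 Crest.Agent.R096.No5_477 Crest.Agent.R096.No6_477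
open Crest.Agent.R096.Nly_780

noncomputable section

section Junk

variable {E : Type*} [NormedAddCommGroup E] [NormedSpace ℝ E]
variable {F : Type*} [NormedAddCommGroup F] [NormedSpace ℝ F]
variable {Om : Set E} {ι : Type*}

/-- Lipschitz constant on a convex set from the constants of the tiles which meet it -/
theorem lip_convex' (T : Tiling Om ι) {c : ι → ℝ} {g : E → F} {S : Set E}
    (h : ∀ i, (P (T.H i) ∩ S).Nonempty →
      ∀ x ∈ P (T.H i), ∀ y ∈ P (T.H i), ‖g y - g x‖ ≤ c i * ‖y - x‖)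
    (hS : Convex ℝ S) (hSO : S ⊆ Om) {M : ℝ}
    (hM : ∀ i, (P (T.H i) ∩ S).Nonempty → c i ≤ M) {x y : E} (hx : x ∈ S) (hy : y ∈ S) :
    ‖g y - g x‖ ≤ M * ‖y - x‖ := by
  refine lip_of_LLV hS (fun z hz => ?_) hx hy
  obtain ⟨r, hr, hrO, hra⟩ := T.exists_ball (hSO hz)
  filter_upwards [ball_mem_nhds z hr] with y hy
  obtain ⟨i, hi⟩ := T.cov y (hrO hy)
  have hiz : i ∈ T.at_ z := hra y hy hi
  have hne : (P (T.H i) ∩ S).Nonempty := ⟨z, hiz, hz⟩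
  exact (h i hne z hiz y hi).trans (mul_le_mul_of_nonneg_right (hM i hne) (norm_nonneg _))

/-- **junk squares** (962's `junk`, Lipschitz bounds only on the tiles which meet a square) -/
theorem junk' {p : ℝ} (hp : 0 < p) (T : Tiling Om ι) {ℓ : ι → ℝ} (hℓ : ∀ i, 0 ≤ ℓ i) {g : E → F}
    {β : Type*} (Q : Finset β) (S : β → Set E)
    (h : ∀ i, (∃ q ∈ Q, (P (T.H i) ∩ S q).Nonempty) →
      ∀ x ∈ P (T.H i), ∀ y ∈ P (T.H i), ‖g y - g x‖ ≤ ℓ i * ‖y - x‖)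
    (hSc : ∀ q ∈ Q, Convex ℝ (S q))
    (hSk : ∀ q ∈ Q, IsCompact (S q)) (hSO : ∀ q ∈ Q, S q ⊆ Om) {v : ℝ≥0∞} {cnt : ι → ℝ≥0∞}
    (hcnt : ∀ i, ({q | q ∈ Q ∧ (P (T.H i) ∩ S q).Nonempty}.ncard : ℝ≥0∞) * v ≤ cnt i) :
    ∃ X : β → ℝ, (∀ q, 0 ≤ X q) ∧
      (∀ q ∈ Q, ∀ x ∈ S q, ∀ y ∈ S q, ‖g y - g x‖ ≤ X q * ‖y - x‖) ∧
      (∑ q ∈ Q, ENNReal.ofReal (X q ^ p)) * v ≤
        ∑' i : {i // ∃ q ∈ Q, (P (T.H i) ∩ S q).Nonempty}, ENNReal.ofReal (ℓ i ^ p) * cnt i := by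
  classical
  set K : Set E := ⋃ q ∈ Q, S q with hK
  have hKc : IsCompact K := Q.isCompact_biUnion fun q hq => hSk q hq
  have hKO : K ⊆ Om := by
    intro x hx
    obtain ⟨q, hq, hxq⟩ := mem_iUnion₂.1 hx
    exact hSO q hq hxq
  have hfin := Np_962.finite_meet T hKc hKO
  set J : Finset ι := hfin.toFinset with hJ
  have hmem : ∀ i q, q ∈ Q → (P (T.H i) ∩ S q).Nonempty → i ∈ J := by
    rintro i q hq ⟨z, hz, hzq⟩
    rw [hJ, Set.Finite.mem_toFinset]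
    exact ⟨z, hz, mem_iUnion₂.2 ⟨q, hq, hzq⟩⟩
  set W : β → ℝ := fun q => ∑ i ∈ J, if (P (T.H i) ∩ S q).Nonempty then ℓ i ^ p else 0 with hW
  have hW0 : ∀ q, 0 ≤ W q := fun q => Finset.sum_nonneg fun i _ => by
    split_ifs
    · exact Real.rpow_nonneg (hℓ i) p
    · exact le_rfl
  have hXp : ∀ q, (W q ^ p⁻¹) ^ p = W q := fun q => Real.rpow_inv_rpow (hW0 q) hp.ne'
  refine ⟨fun q => W q ^ p⁻¹, fun q => Real.rpow_nonneg (hW0 q) _, fun q hq x hx y hy => ?_, ?_⟩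
  · refine lip_convex' T (fun i hi => h i ⟨q, hq, hi⟩) (hSc q hq) (hSO q hq) (fun i hi => ?_) hx hy
    have h1 : ℓ i ^ p ≤ W q := by
      have := Finset.single_le_sum (f := fun i => if (P (T.H i) ∩ S q).Nonempty then ℓ i ^ p else 0)
        (fun i _ => by
          split_ifs
          · exact Real.rpow_nonneg (hℓ i) p
          · exact le_rfl) (hmem i q hq hi)
      simpa only [if_pos hi] using this
    calc ℓ i = (ℓ i ^ p) ^ p⁻¹ := (Real.rpow_rpow_inv (hℓ i) hp.ne').symm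
      _ ≤ W q ^ p⁻¹ := Real.rpow_le_rpow (Real.rpow_nonneg (hℓ i) p) h1 (inv_nonneg.2 hp.le)
  · simp only [hXp]
    have e1 : ∀ q, ENNReal.ofReal (W q) =
        ∑ i ∈ J, if (P (T.H i) ∩ S q).Nonempty then ENNReal.ofReal (ℓ i ^ p) else 0 := by
      intro q
      rw [hW]
      simp only
      rw [ENNReal.ofReal_sum_of_nonneg fun i _ => by
          split_ifs
          · exact Real.rpow_nonneg (hℓ i) p
          · exact le_rfl]
      refine Finset.sum_congr rfl fun i _ => ?_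
      split_ifs
      · rfl
      · exact ENNReal.ofReal_zero
    simp only [e1]
    rw [Finset.sum_comm]
    have e2 : ∀ i ∈ J, ∑ q ∈ Q, (if (P (T.H i) ∩ S q).Nonempty then ENNReal.ofReal (ℓ i ^ p) else 0) =
        ENNReal.ofReal (ℓ i ^ p) * ({q | q ∈ Q ∧ (P (T.H i) ∩ S q).Nonempty}.ncard : ℝ≥0∞) := by
      intro i _
      have e3 : {q | q ∈ Q ∧ (P (T.H i) ∩ S q).Nonempty} =
          ((Q.filter fun q => (P (T.H i) ∩ S q).Nonempty : Finset β) : Set β) := by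
        ext q; simp
      rw [e3, Set.ncard_coe_finset, Finset.sum_ite, Finset.sum_const_zero, add_zero,
        Finset.sum_const, nsmul_eq_mul, mul_comm]
    rw [Finset.sum_congr rfl e2, Finset.sum_mul]
    have e4 : ∀ i ∈ J, ENNReal.ofReal (ℓ i ^ p) *
        ({q | q ∈ Q ∧ (P (T.H i) ∩ S q).Nonempty}.ncard : ℝ≥0∞) * v ≤
        ENNReal.ofReal (ℓ i ^ p) * cnt i := fun i _ => by
      rw [mul_assoc]
      exact mul_le_mul' le_rfl (hcnt i)
    refine (Finset.sum_le_sum e4).trans ?_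
    have e5 : ∀ i ∈ J, ∃ q ∈ Q, (P (T.H i) ∩ S q).Nonempty := by
      intro i hi
      rw [hJ, Set.Finite.mem_toFinset] at hi
      obtain ⟨z, hz, hzK⟩ := hi
      obtain ⟨q, hq, hzq⟩ := mem_iUnion₂.1 hzK
      exact ⟨q, hq, z, hz, hzq⟩
    rw [← Finset.sum_attach]
    let e : {x // x ∈ J} → {i // ∃ q ∈ Q, (P (T.H i) ∩ S q).Nonempty} := fun i => ⟨i.1, e5 i.1 i.2⟩
    have he : Function.Injective e := fun i j hij => Subtype.ext (by
      have := congrArg Subtype.val hij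
      exact this)
    calc ∑ i ∈ J.attach, ENNReal.ofReal (ℓ i.1 ^ p) * cnt i.1
        = ∑' i : {x // x ∈ J}, ENNReal.ofReal (ℓ i.1 ^ p) * cnt i.1 := by
          rw [tsum_fintype]; rfl
      _ = ∑' i : {x // x ∈ J}, (fun i : {i // ∃ q ∈ Q, (P (T.H i) ∩ S q).Nonempty} =>
            ENNReal.ofReal (ℓ i ^ p) * cnt i) (e i) := rfl
      _ ≤ _ := ENNReal.tsum_comp_le_tsum_of_injective he _

end Junk

section Lay

variable {δ κ0 R c0 : ℝ} {La Om : Set E3} {ι : Type}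

open Classical in
/-- 780's `nos_layers`, with the heights of the layers -/
theorem nos_layers' {p : ℝ} (hp : 0 < p) {Φ : FoamD δ κ0 R c0 La} {f : E3 → E3} {κ : Φ.F → ℕ}
    {Lv : Φ.F → Finset ℝ} {s : Fin 3 → ℝ} {ε K1 E1 ω η r e : ℝ} {hr : r ≠ 0} {a : E3}
    {o : Fin 2 → ℤ} {M : ℕ} {Zs : Finset ℤ} {U : ℤ → (Fin 2 → ℕ) → Prop} {g : E3 → E3}
    {u : E3 → Φ.F → ℝ} {T : Tiling Om ι} {Ex : Set ι} {𝒬 : Set (Set E3)} {L : ℕ}
    (G : NOGeo T Ex 𝒬 L η r hr a o M Zs U) (H : NONum p Φ f κ Lv s ε K1 r hr a o M Zs U g u)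
    (hK : 0 ≤ K1) (hE : 0 ≤ E1) (hω : 0 ≤ ω) (hε : 0 ≤ ε) (Pu : ℤ × (Fin 2 → ℕ) → Prop)
    (hcard : (((Fc M Zs).filter fun q => ¬ Pu q).card : ℝ) ≤ ω * ((Zs.card : ℝ) * M ^ 2))
    (hpure : ∀ q ∈ Fc M Zs, Pu q →
      ∫⁻ y in {y : Fin 2 → ℝ | ∀ j : Fin 2, vx a r o q.1 q.2 j.castSucc < y j ∧
        y j < vx a r o q.1 q.2 j.castSucc + r}, ∑ i : Fin 2,
          ‖Dp (sl g (vx a r o q.1 q.2 2) 2) i y - Pi.single ((2 : Fin 3).succAbove i)
            (s ((2 : Fin 3).succAbove i))‖ₑ ^ p ≤ ENNReal.ofReal (E1 * r ^ 2))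
    (he : 4 * (E1 + 2 ^ (p + 1) * ((K1 + ‖s‖) ^ p * ω + ε)) ≤ e) :
    ∃ (N : ℕ) (z : Fin N → ℝ), 0 < N ∧ (∀ k, |L * z k| ≤ 1 / 2) ∧
      (∀ k, ∃ m ∈ Zs, z k = a 2 + r * m) ∧
      ∑ k, ∑ i : Fin 2, (∫⁻ y in ball (0 : Fin 2 → ℝ) (1 - η),
        ‖Dp (sl g (z k) 2) i y - Pi.single ((2 : Fin 3).succAbove i)
          (s ((2 : Fin 3).succAbove i))‖ₑ ^ p) ≤ N * ENNReal.ofReal e := by
  obtain ⟨X, hX0, hXlip, hXs⟩ := H.lip
  have h1 := layers_le hp G.r0 G.lo G.hi hK hE hω hε hX0 hXlip hXs Pu hcard hpure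
  have h2 := h1.trans (mul_le_mul_right (ENNReal.ofReal_le_ofReal he) _)
  set F : ℝ → ℝ≥0∞ := fun c => ∑ i : Fin 2, (∫⁻ y in ball (0 : Fin 2 → ℝ) (1 - η),
        ‖Dp (sl g c 2) i y - Pi.single ((2 : Fin 3).succAbove i)
          (s ((2 : Fin 3).succAbove i))‖ₑ ^ p) with hF
  have h3 : ∑ m ∈ Zs, F ((fun m : ℤ => a 2 + r * m) m) ≤ Zs.card * ENNReal.ofReal e := h2
  clear h1 h2 hpure
  refine ⟨Zs.card, fun k => a 2 + r * ((Zs.equivFin.symm k : ℤ) : ℝ), Finset.card_pos.2 G.zne,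
    fun k => G.zs _ (Zs.equivFin.symm k).2, fun k => ⟨_, (Zs.equivFin.symm k).2, rfl⟩, ?_⟩
  refine le_trans (le_of_eq ?_) h3
  rw [← Finset.sum_coe_sort Zs]
  exact Equiv.sum_comp Zs.equivFin.symm (fun m : Zs => F (a 2 + r * ((m : ℤ) : ℝ)))

open Classical in
/-- 780's `layers_out`, with the heights of the layers -/
theorem layers_out' {p : ℝ} (hp : 1 ≤ p) (s : Fin 3 → ℝ) (hs : ∀ i, 0 ≤ s i) {e : ℝ} (he : 0 < e) :
    ∃ S1 Λ ef : ℝ, 0 < S1 ∧ 1 ≤ Λ ∧ 0 < ef ∧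
      (∀ j : Fin 2, s j.castSucc = 0 ∨ (S1 / Λ ≤ s j.castSucc ∧ s j.castSucc ≤ S1)) ∧
      ∀ η K1 : ℝ, 0 < η → 0 ≤ K1 → ∃ ε : ℝ, 0 < ε ∧ ε ≤ 1 ∧
      ∀ {δ κ0 R c0 : ℝ} {La Om : Set E3} {ι : Type} {Cu : Set (Set E3) → ℝ}
        {Φ : FoamD δ κ0 R c0 La} {T : Tiling Om ι} {f : E3 → E3} {Ex : Set ι} {κ : Φ.F → ℕ}
        {Lv : Φ.F → Finset ℝ} {tol : ι → ℝ} {r : ℝ} (hr : r ≠ 0) {a : E3} {o : Fin 2 → ℤ} {M : ℕ}
        {Zs : Finset ℤ} {U : ℤ → (Fin 2 → ℕ) → Prop} {𝒬 : Set (Set E3)} {L : ℕ} {ηg : ℝ}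
        {g : E3 → E3} {u : E3 → Φ.F → ℝ} {n : Set E3 → Φ.F → ℝ}, ηg ≤ 1 / 2 →
        NOGeo T Ex 𝒬 L ηg r hr a o M Zs U →
        NONum p Φ f κ Lv s ε K1 r hr a o M Zs U g u →
        OutNO p Cu ef η Φ T f Ex κ Lv tol (DsN a r o M Zs U) (frN r hr) (S1 * r)
          (fun j => s j.castSucc * r) g u n →
        Str_696.LocPL g Om → (∀ i, tol i ≤ ε) →
        ∃ (N : ℕ) (z : Fin N → ℝ), 0 < N ∧ (∀ k, |L * z k| ≤ 1 / 2) ∧
          (∀ k, ∃ m ∈ Zs, z k = a 2 + r * m) ∧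
          ∑ k, ∑ i : Fin 2, (∫⁻ y in ball (0 : Fin 2 → ℝ) (1 - ηg),
            ‖Dp (sl g (z k) 2) i y - Pi.single ((2 : Fin 3).succAbove i)
              (s ((2 : Fin 3).succAbove i))‖ₑ ^ p) ≤ N * ENNReal.ofReal e := by
  obtain ⟨S1, Λ, hS1, hΛ, hsc⟩ := exists_scale s hs
  obtain ⟨ef, hef, hc⟩ := exists_consts hp s hs hS1 he
  refine ⟨S1, Λ, ef, hS1, hΛ, hef, hsc, fun η K1 hη hK => ?_⟩
  obtain ⟨τ, ε, hτ, hε, hε1, h1, h2, h3⟩ := hc η K1 hη hK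
  refine ⟨ε, hε, hε1, ?_⟩
  intro δ κ0 R c0 La Om ι Cu Φ T f Ex κ Lv tol r hr a o M Zs U 𝒬 L ηg g u n hηg G H hO hpl htol
  have hr0 : 0 < r := G.r0
  have hM : 1 ≤ M * r := by
    have l0 := (G.lo 0).1
    have l1 := (G.hi 0).1
    have : r * ((o 0 : ℝ) + M) = r * o 0 + M * r := by ring
    linarith
  have hcard := pure_most (θ := ε) hp hs hr0 hε.le hε.le hε1 hτ hK hM H
    (hD_pure hO hr0 G hε.le htol)
  have hp0 : 0 < p := lt_of_lt_of_le one_pos hp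
  refine nos_layers' (E1 := 4 * 3 ^ p * (ef * S1 ^ p + ε ^ p)) hp0 G H hK ?_ ?_ hε.le _ hcard ?_ h3
  · have := Real.rpow_nonneg hS1.le p
    have := Real.rpow_nonneg hε.le p
    positivity
  · have h0 := hs 0
    have h1 := hs 1
    positivity
  · rintro ⟨m, v⟩ hq hP
    have hqq := Finset.mem_product.1 hq
    exact Fs_168.L2_out hp hef.le hr0 G hs hS1.le hO hpl hτ.le hε.le htol h1 h2 hqq.1
      (mem_pi.1 hqq.2) hP

end Lay

end

end Crest.Agent.R096.No_276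
end

-- ▼ part R096/No9_276
section

/-!
# Row 96, NO0 (helper276), part 9: junk squares from the tile constants
-/

set_option autoImplicit false
set_option linter.unusedSectionVars false

open Set Function MeasureTheory Filter Topology Metric
open scoped ENNReal
open Crest.AnalysisR.VecCalc3 Crest.AnalysisR.Sobolev

namespace Crest.Agent.R096.No_276

open Crest.Agent.R096.Msh_715 Crest.Agent.R096.Ea_713 Crest.Agent.R96.Hole_348
open Crest.Agent.R096.SkC1_961 (E3 Hom3 FoamD Cfg NN)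
open Crest.Agent.R096.SkN1_477 Crest.Agent.R096.No0_477
open Crest.Agent.R096.No5_477

noncomputable section

/-- the square is an order interval -/
theorem usq_eq_Icc {w : E3} {r : ℝ} (hr : 0 < r) :
    usq (fr w r hr.ne') = Icc w ![w 0 + r, w 1 + r, w 2] := by
  ext x
  rw [mem_usq_fr hr, mem_Icc, Pi.le_def, Pi.le_def]
  constructor
  · rintro ⟨h1, h2⟩
    have h3 := h2 0
    have h4 := h2 1
    refine ⟨fun i => ?_, fun i => ?_⟩
    · fin_cases i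
      · exact h3.1
      · exact h4.1
      · exact h1.ge
    · fin_cases i
      · exact h3.2
      · exact h4.2
      · exact h1.le
  · rintro ⟨h1, h2⟩
    refine ⟨le_antisymm (h2 2) (h1 2), fun j => ?_⟩
    fin_cases j
    · exact ⟨h1 0, h2 0⟩
    · exact ⟨h1 1, h2 1⟩

variable {ι : Type}

/-- the squares of the block lie in the domain -/
theorem usq_sub_QL {L : ℕ} {η r : ℝ} {hr : r ≠ 0} {a : E3} {o : Fin 2 → ℤ} {M : ℕ}
    {Zs : Finset ℤ} (r0 : 0 < r)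
    (lo : ∀ j : Fin 2, a j.castSucc + r * o j ≤ -(1 - η) ∧ -1 < a j.castSucc + r * o j)
    (hi : ∀ j : Fin 2, 1 - η ≤ a j.castSucc + r * (o j + M) ∧ a j.castSucc + r * (o j + M) < 1)
    (zs : ∀ m ∈ Zs, |(L : ℝ) * (a 2 + r * m)| ≤ 1 / 2) {k : ℤ × (Fin 2 → ℕ)} (hk : k ∈ Fc M Zs) :
    usq (fr (vx a r o k.1 k.2) r hr) ⊆ QL L := by
  intro x hx
  obtain ⟨hk1, hk2⟩ := Finset.mem_product.1 hk
  have hv := mem_pi.1 hk2
  have h1 : x ∈ usq (fr (vx a r o k.1 k.2) r r0.ne') := hx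
  rw [mem_usq_fr r0] at h1
  obtain ⟨h2, h3⟩ := h1
  have key : ∀ j : Fin 2, |x j.castSucc| < 1 := by
    intro j
    have e1 := h3 j
    have e2 : vx a r o k.1 k.2 j.castSucc = a j.castSucc + r * (o j + k.2 j) := by
      fin_cases j <;> rfl
    rw [e2] at e1
    have e3 : (0 : ℝ) ≤ k.2 j := Nat.cast_nonneg _
    have e4 : (k.2 j : ℝ) + 1 ≤ M := by exact_mod_cast hv j
    have e5 := (lo j).2
    have e6 := (hi j).2
    rw [abs_lt]
    constructor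
    · have : 0 ≤ r * (k.2 j : ℝ) := by positivity
      nlinarith [e1.1]
    · have : r * ((k.2 j : ℝ) + 1) ≤ r * M := mul_le_mul_of_nonneg_left e4 r0.le
      nlinarith [e1.2]
  have h4 : vx a r o k.1 k.2 2 = a 2 + r * k.1 := rfl
  refine ⟨key 0, key 1, ?_⟩
  rw [h2, h4]
  have := zs k.1 hk1
  linarith

open Classical in
/-- **the junk squares after the machine** -/
theorem junk_of {p : ℝ} (hp : 0 < p) {L : ℕ} {η r : ℝ} {hr : r ≠ 0} {a : E3} {o : Fin 2 → ℤ}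
    {M : ℕ} {Zs : Finset ℤ} {U : ℤ → (Fin 2 → ℕ) → Prop} (r0 : 0 < r)
    (lo : ∀ j : Fin 2, a j.castSucc + r * o j ≤ -(1 - η) ∧ -1 < a j.castSucc + r * o j)
    (hi : ∀ j : Fin 2, 1 - η ≤ a j.castSucc + r * (o j + M) ∧ a j.castSucc + r * (o j + M) < 1)
    (zs : ∀ m ∈ Zs, |(L : ℝ) * (a 2 + r * m)| ≤ 1 / 2) {T : Tiling (QL L) ι} {Vt : Set ι}
    (hV : ∀ i ∈ Vt, ¬ MJ T r hr a o M Zs U i) {cnt : ι → ℝ}
    (cn : ∀ i, (({k : ℤ × (Fin 2 → ℕ) | k ∈ Fc M Zs ∧ ¬ U k.1 k.2 ∧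
      (P (T.H i) ∩ usq (fr (vx a r o k.1 k.2) r hr)).Nonempty}).ncard : ℝ) * r ^ 3 ≤ cnt i)
    {g : E3 → E3} (hg : ContinuousOn g (QL L)) {Kt : ι → ℝ} (hK0 : ∀ i, 0 ≤ Kt i)
    (hKt : ∀ i, i ∉ Vt → ∀ x ∈ I (T.H i), LLV (Kt i) g x) {B : ℝ} (hB : 0 ≤ B)
    (hsum : ∑' i : {i // i ∉ Vt ∧ MJ T r hr a o M Zs U i},
      ENNReal.ofReal (Kt i ^ p) * ENNReal.ofReal (cnt i) ≤ ENNReal.ofReal B) :
    ∃ Kj : ℤ → (Fin 2 → ℕ) → ℝ, (∀ m v, 0 ≤ Kj m v) ∧
      (∀ m ∈ Zs, ∀ v, (∀ j, v j < M) → ¬ U m v → ∀ y ∈ usq (fr (vx a r o m v) r hr),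
        ∀ y' ∈ usq (fr (vx a r o m v) r hr), ‖g y - g y'‖ ≤ Kj m v * ‖y - y'‖) ∧
      ∀ D : Finset (ℤ × (Fin 2 → ℕ)), D ⊆ Fc M Zs → (∀ k ∈ D, ¬ U k.1 k.2) →
        ∑ k ∈ D, Kj k.1 k.2 ^ p ≤ B / r ^ 3 := by
  set Q : Finset (ℤ × (Fin 2 → ℕ)) := (Fc M Zs).filter fun k => ¬ U k.1 k.2 with hQ
  set S : ℤ × (Fin 2 → ℕ) → Set E3 := fun k => usq (fr (vx a r o k.1 k.2) r hr) with hS
  have hmem : ∀ {k}, k ∈ Q ↔ k ∈ Fc M Zs ∧ ¬ U k.1 k.2 := by
    intro k; rw [hQ, Finset.mem_filter]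
  have hMJ : ∀ i, (∃ k ∈ Q, (P (T.H i) ∩ S k).Nonempty) ↔ MJ T r hr a o M Zs U i := by
    intro i
    constructor
    · rintro ⟨k, hk, h⟩
      exact ⟨k, (hmem.1 hk).1, (hmem.1 hk).2, h⟩
    · rintro ⟨k, hk, h1, h2⟩
      exact ⟨k, hmem.2 ⟨hk, h1⟩, h2⟩
  have hSi : ∀ k, S k = Icc (vx a r o k.1 k.2) ![vx a r o k.1 k.2 0 + r, vx a r o k.1 k.2 1 + r,
      vx a r o k.1 k.2 2] := fun k => usq_eq_Icc r0
  have hr3 : 0 < r ^ 3 := by positivity
  obtain ⟨X, hX0, hXl, hXs⟩ := junk' hp T (ℓ := Kt) hK0 (g := g) Q S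
    (fun i hi x hx y hy => lip_tile (T.ne i)
      (hKt i fun h => hV i h ((hMJ i).1 hi)) (hg.mono (T.sub i)) hx hy)
    (fun k _ => by rw [hSi k]; exact convex_Icc _ _)
    (fun k _ => by rw [hSi k]; exact isCompact_Icc)
    (fun k hk => usq_sub_QL r0 lo hi zs (hmem.1 hk).1) (v := ENNReal.ofReal (r ^ 3))
    (cnt := fun i => ENNReal.ofReal (cnt i)) (fun i => by
      have h1 := cn i
      have h2 : {k | k ∈ Q ∧ (P (T.H i) ∩ S k).Nonempty} = {k : ℤ × (Fin 2 → ℕ) | k ∈ Fc M Zs ∧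
          ¬ U k.1 k.2 ∧ (P (T.H i) ∩ usq (fr (vx a r o k.1 k.2) r hr)).Nonempty} := by
        ext k
        constructor
        · rintro ⟨hk, h⟩
          exact ⟨(hmem.1 hk).1, (hmem.1 hk).2, h⟩
        · rintro ⟨hk, h, h'⟩
          exact ⟨hmem.2 ⟨hk, h⟩, h'⟩
      rw [h2]
      calc _ = ENNReal.ofReal ((({k : ℤ × (Fin 2 → ℕ) | k ∈ Fc M Zs ∧ ¬ U k.1 k.2 ∧
          (P (T.H i) ∩ usq (fr (vx a r o k.1 k.2) r hr)).Nonempty}).ncard : ℝ) * r ^ 3) := by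
            rw [ENNReal.ofReal_mul (Nat.cast_nonneg _), ENNReal.ofReal_natCast]
        _ ≤ _ := ENNReal.ofReal_le_ofReal h1)
  refine ⟨fun m v => X (m, v), fun m v => hX0 _, ?_, ?_⟩
  · intro m hm v hv hU y hy y' hy'
    have hk : (m, v) ∈ Q := hmem.2 ⟨Finset.mem_product.2 ⟨hm, mem_pi.2 hv⟩, hU⟩
    exact hXl (m, v) hk y' hy' y hy
  · intro D hD hDU
    have h1 : ∑ k ∈ D, X (k.1, k.2) ^ p ≤ ∑ k ∈ Q, X k ^ p :=
      Finset.sum_le_sum_of_subset_of_nonneg (fun k hk => hmem.2 ⟨hD hk, hDU k hk⟩)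
        fun k _ _ => Real.rpow_nonneg (hX0 k) p
    refine h1.trans ?_
    rw [le_div_iff₀ hr3]
    have h2 : (∑ k ∈ Q, ENNReal.ofReal (X k ^ p)) * ENNReal.ofReal (r ^ 3) ≤ ENNReal.ofReal B := by
      refine hXs.trans (le_trans ?_ hsum)
      let e : {i // ∃ k ∈ Q, (P (T.H i) ∩ S k).Nonempty} → {i // i ∉ Vt ∧ MJ T r hr a o M Zs U i} :=
        fun i => ⟨i.1, fun h => hV i.1 h ((hMJ i.1).1 i.2), (hMJ i.1).1 i.2⟩
      have he : Function.Injective e := fun i j hij => Subtype.ext (by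
        have := congrArg Subtype.val hij
        exact this)
      exact ENNReal.tsum_comp_le_tsum_of_injective he
        (fun i : {i // i ∉ Vt ∧ MJ T r hr a o M Zs U i} =>
          ENNReal.ofReal (Kt i ^ p) * ENNReal.ofReal (cnt i))
    rw [← ENNReal.ofReal_sum_of_nonneg fun k _ => Real.rpow_nonneg (hX0 k) p,
      ← ENNReal.ofReal_mul (Finset.sum_nonneg fun k _ => Real.rpow_nonneg (hX0 k) p)] at h2
    exact (ENNReal.ofReal_le_ofReal_iff hB).1 h2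

end

end Crest.Agent.R096.No_276
end

-- ▼ part R096/Nkt1_780
section

/-!
# Row 96, NO0-ASM (helper780): tile constants and energies after the machine (the energy half of
`NOS ⇐ MachNO + NOPre`, 276 #10871)
-/

set_option autoImplicit false
set_option linter.unusedSectionVars false
set_option linter.style.longLine false

open Set Function MeasureTheory Filter Topology Metric
open scoped ENNReal

namespace Crest.Agent.R096.Nkt_780

open Crest.Agent.R096.Bsp_628 Crest.Agent.R096.Brk1_582 Crest.Agent.R096.Brk3_582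
open Crest.Agent.R096.Brk5_582 Crest.Agent.R096.Log2_582 Crest.Agent.R096.Dic1_582
open Crest.Agent.R096.Msh_715 Crest.Agent.R096.Ea_713
open Crest.Agent.R96.Hole_348 (LLV LLV.mono)
open Crest.Agent.R096.SkC1_961 (E3 Hom3 FoamD Cfg NN)
open Crest.Agent.R096.SkN1_477 Crest.Agent.R096.No0_477 Crest.Agent.R096.Nl_234
open Crest.Agent.R096.Mbf_337 Crest.Agent.R096.No_276
open Crest.Agent.R096.SkN2_477 (OutF)

noncomputable section

/-! ### splitting of the sums -/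

theorem tsum_sub' {ι : Type*} (q : ι → Prop) (F : ι → ℝ≥0∞) :
    ∑' i : {i // q i}, F i = ∑' i, ({i | q i} : Set ι).indicator F i :=
  tsum_subtype {i | q i} F

theorem tsum_sub_le {ι : Type*} {q q' : ι → Prop} (h : ∀ i, q i → q' i) (F : ι → ℝ≥0∞) :
    ∑' i : {i // q i}, F i ≤ ∑' i : {i // q' i}, F i := by
  rw [tsum_sub', tsum_sub']
  exact ENNReal.tsum_le_tsum fun i => indicator_le_indicator_of_subset (fun j hj => h j hj)
    (fun _ => zero_le) i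


theorem add_rpow_le {x y p : ℝ} (hx : 0 ≤ x) (hy : 0 ≤ y) (hp : 0 < p) :
    (x + y) ^ p ≤ 2 ^ p * (x ^ p + y ^ p) := by
  have h1 : (x + y) ^ p ≤ (2 * max x y) ^ p := by
    apply Real.rpow_le_rpow (by positivity) _ hp.le
    linarith [le_max_left x y, le_max_right x y]
  refine h1.trans ?_
  rw [Real.mul_rpow (by norm_num) (le_max_of_le_left hx)]
  apply mul_le_mul_of_nonneg_left _ (by positivity)
  rcases max_choice x y with h | h <;> rw [h]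
  · have := Real.rpow_nonneg hy p; linarith
  · have := Real.rpow_nonneg hx p; linarith

/-- **splitting**: `H` = tiles with constant `c2 * n i + tol i`, `O` = tiles with `m i + tol i`, `V` =
tiles with `C0 * kc i` -/
theorem tsum_split {ι : Type*} {p : ℝ} (hp : 0 < p) (wt : ι → ℝ≥0∞) {c2 C0 : ℝ} (h2 : 0 ≤ c2)
    (hC0 : 0 ≤ C0) {n m tol kc Kt : ι → ℝ} (hn : ∀ i, 0 ≤ n i) (hm : ∀ i, 0 ≤ m i)
    (htol : ∀ i, 0 ≤ tol i) (hkc : ∀ i, 0 ≤ kc i) (hK0 : ∀ i, 0 ≤ Kt i) {S H O V : ι → Prop}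
    (hS : ∀ i, S i → H i ∨ O i ∨ V i) (hH : ∀ i, H i → Kt i ≤ c2 * n i + tol i)
    (hO : ∀ i, O i → Kt i ≤ m i + tol i) (hV : ∀ i, V i → Kt i ≤ C0 * kc i) :
    ∑' i : {i // S i}, ENNReal.ofReal (Kt i ^ p) * wt i ≤
      ENNReal.ofReal (2 ^ p) * (ENNReal.ofReal (c2 ^ p) *
        (∑' i : {i // H i ∧ S i}, ENNReal.ofReal (n i ^ p) * wt i) +
        (∑' i : {i // O i ∧ S i}, ENNReal.ofReal (m i ^ p) * wt i) +
        ∑' i, ENNReal.ofReal (tol i ^ p) * wt i) +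
      ENNReal.ofReal (C0 ^ p) * ∑' i : {i // V i ∧ S i}, ENNReal.ofReal (kc i ^ p) * wt i := by
  rw [tsum_sub' S (fun i => ENNReal.ofReal (Kt i ^ p) * wt i),
    tsum_sub' (fun i => H i ∧ S i) (fun i => ENNReal.ofReal (n i ^ p) * wt i),
    tsum_sub' (fun i => O i ∧ S i) (fun i => ENNReal.ofReal (m i ^ p) * wt i),
    tsum_sub' (fun i => V i ∧ S i) (fun i => ENNReal.ofReal (kc i ^ p) * wt i),
    ← ENNReal.tsum_mul_left, ← ENNReal.tsum_add, ← ENNReal.tsum_add, ← ENNReal.tsum_mul_left,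
    ← ENNReal.tsum_mul_left, ← ENNReal.tsum_add]
  refine ENNReal.tsum_le_tsum fun i => ?_
  by_cases hi : S i
  swap
  · rw [indicator_of_notMem (by exact hi)]; exact zero_le
  rw [indicator_of_mem (by exact hi)]
  have hp2 : (0 : ℝ) ≤ 2 ^ p := by positivity
  rcases hS i hi with h | h | h
  · have e1 : ({i | H i ∧ S i} : Set ι).indicator (fun i => ENNReal.ofReal (n i ^ p) * wt i) i =
        ENNReal.ofReal (n i ^ p) * wt i := indicator_of_mem (show i ∈ {i | H i ∧ S i} from ⟨h, hi⟩) _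
    rw [e1]
    have h3 : Kt i ^ p ≤ 2 ^ p * (c2 ^ p * n i ^ p + tol i ^ p) := by
      refine (Real.rpow_le_rpow (hK0 i) (hH i h) hp.le).trans ?_
      have := add_rpow_le (mul_nonneg h2 (hn i)) (htol i) hp
      rwa [Real.mul_rpow h2 (hn i)] at this
    have hnp := Real.rpow_nonneg (hn i) p
    have htp := Real.rpow_nonneg (htol i) p
    have hcp := Real.rpow_nonneg h2 p
    calc ENNReal.ofReal (Kt i ^ p) * wt i
        ≤ ENNReal.ofReal (2 ^ p * (c2 ^ p * n i ^ p + tol i ^ p)) * wt i := by gcongr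
      _ = ENNReal.ofReal (2 ^ p) * (ENNReal.ofReal (c2 ^ p) * (ENNReal.ofReal (n i ^ p) * wt i) +
          ENNReal.ofReal (tol i ^ p) * wt i) := by
          rw [ENNReal.ofReal_mul hp2, ENNReal.ofReal_add (by positivity) htp,
            ENNReal.ofReal_mul hcp]
          ring
      _ ≤ _ := by
          refine le_trans ?_ le_self_add
          gcongr
          exact le_self_add
  · have e1 : ({i | O i ∧ S i} : Set ι).indicator (fun i => ENNReal.ofReal (m i ^ p) * wt i) i =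
        ENNReal.ofReal (m i ^ p) * wt i := indicator_of_mem (show i ∈ {i | O i ∧ S i} from ⟨h, hi⟩) _
    rw [e1]
    have h3 : Kt i ^ p ≤ 2 ^ p * (m i ^ p + tol i ^ p) :=
      (Real.rpow_le_rpow (hK0 i) (hO i h) hp.le).trans (add_rpow_le (hm i) (htol i) hp)
    have hmp := Real.rpow_nonneg (hm i) p
    have htp := Real.rpow_nonneg (htol i) p
    calc ENNReal.ofReal (Kt i ^ p) * wt i
        ≤ ENNReal.ofReal (2 ^ p * (m i ^ p + tol i ^ p)) * wt i := by gcongr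
      _ = ENNReal.ofReal (2 ^ p) * (ENNReal.ofReal (m i ^ p) * wt i +
          ENNReal.ofReal (tol i ^ p) * wt i) := by
          rw [ENNReal.ofReal_mul hp2, ENNReal.ofReal_add hmp htp]
          ring
      _ ≤ _ := by
          refine le_trans ?_ le_self_add
          gcongr
          exact le_add_self
  · have e1 : ({i | V i ∧ S i} : Set ι).indicator (fun i => ENNReal.ofReal (kc i ^ p) * wt i) i =
        ENNReal.ofReal (kc i ^ p) * wt i := indicator_of_mem (show i ∈ {i | V i ∧ S i} from ⟨h, hi⟩) _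
    rw [e1]
    have h3 : Kt i ^ p ≤ C0 ^ p * kc i ^ p := by
      refine (Real.rpow_le_rpow (hK0 i) (hV i h) hp.le).trans (le_of_eq ?_)
      rw [Real.mul_rpow hC0 (hkc i)]
    have hcp := Real.rpow_nonneg hC0 p
    calc ENNReal.ofReal (Kt i ^ p) * wt i ≤ ENNReal.ofReal (C0 ^ p * kc i ^ p) * wt i := by gcongr
      _ = ENNReal.ofReal (C0 ^ p) * (ENNReal.ofReal (kc i ^ p) * wt i) := by
          rw [ENNReal.ofReal_mul hcp, mul_assoc]
      _ ≤ _ := le_add_self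

/-! ### the tile constants -/

section Tile

variable {δ κ0 R c0 : ℝ} {La Om : Set E3} {ι : Type} {Φ : FoamD δ κ0 R c0 La}

/-- Lipschitz on the closed tile ⟹ local constants in the open tile -/
theorem LLV_of_lip {H : Finset ((E3 →L[ℝ] ℝ) × ℝ)} {g : E3 → E3} {K : ℝ}
    (h : ∀ x ∈ P H, ∀ y ∈ P H, ‖g x - g y‖ ≤ K * ‖x - y‖) {x : E3} (hx : x ∈ I H) :
    LLV K g x := by
  filter_upwards [(isOpen_I H).mem_nhds hx] with y hy
  exact h y (I_sub_P H hy) x (I_sub_P H hx)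

open Classical in
/-- the constant of the tile `i` -/
def Kt (V : Φ.F → Set ι) (X : Set Φ.F) (HT : Set ι) (CuM C0 : ℝ) (n m tol Kc : ι → ℝ) (i : ι) : ℝ :=
  if i ∈ HT then 2 * CuM * n i + tol i
  else if ∀ c, i ∉ V c then m i + tol i
  else if i ∈ Vti X V then 0 else C0 * Kc i

variable {V : Φ.F → Set ι} {X : Set Φ.F} {HT : Set ι} {CuM C0 : ℝ} {n m tol Kc : ι → ℝ}

theorem Kt_nonneg (h1 : 0 ≤ CuM) (h2 : 0 ≤ C0) (hn : ∀ i, 0 ≤ n i) (hm : ∀ i, 0 ≤ m i)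
    (ht : ∀ i, 0 ≤ tol i) (hk : ∀ i, 0 ≤ Kc i) (i : ι) :
    0 ≤ Kt V X HT CuM C0 n m tol Kc i := by
  have := hn i; have := hm i; have := ht i; have := hk i
  unfold Kt
  split_ifs <;> positivity

theorem Kt_HT {i : ι} (hi : i ∈ HT) : Kt V X HT CuM C0 n m tol Kc i = 2 * CuM * n i + tol i := by
  unfold Kt; rw [if_pos hi]

theorem Kt_ord {i : ι} (hi : i ∉ HT) (ho : ∀ c, i ∉ V c) :
    Kt V X HT CuM C0 n m tol Kc i = m i + tol i := by
  unfold Kt; rw [if_neg hi, if_pos ho]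

theorem Kt_core {i : ι} (hi : i ∉ HT) (ho : ∃ c, i ∈ V c) (hv : i ∉ Vti X V) :
    Kt V X HT CuM C0 n m tol Kc i = C0 * Kc i := by
  unfold Kt; rw [if_neg hi, if_neg (by push Not; exact ho), if_neg hv]

end Tile

section main

variable {δ κ0 R c0 : ℝ} {La : Set E3} {ι : Type}

/-- a tile which touches a designated face meets a uniform square -/
theorem mu_of_touch {Om : Set E3} {T : Tiling Om ι} {Ex : Set ι} {𝒬 : Set (Set E3)} {L : ℕ}
    {η r : ℝ} {hr : r ≠ 0} {a : E3} {o : Fin 2 → ℤ} {M : ℕ} {Zs : Finset ℤ}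
    {U : ℤ → (Fin 2 → ℕ) → Prop} (G : NOGeo T Ex 𝒬 L η r hr a o M Zs U) {i : ι}
    (h : TouchD T (DsN a r o M Zs U) i) : MU T r hr a o M Zs U i := by
  obtain ⟨x, ⟨m, hm, v, hv, hU, rfl⟩, y, hy1, hy2⟩ := h
  rw [(G.face m hm v hv hU).2] at hy1
  refine ⟨(m, v), ?_, hU, y, hy2, hy1⟩
  unfold Fc
  rw [Finset.mem_product]
  exact ⟨hm, by rw [Fintype.mem_piFinset]; exact fun j => Finset.mem_range.2 (hv j)⟩

/-- **tile constants and energies after the machine** (276 #10871) -/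
theorem kt_of {p : ℝ} (hp : 1 ≤ p) (hLa : IsOpen La)
    {s : Fin 3 → ℝ} {L : ℕ} {η ε ε' e₂ S1 S KS κp μ κ3 C0 κ1 κ2 : ℝ} {C : Set (Set E3) → ℝ}
    {𝒮 : Set (Set (Set E3))} {t : ℝ} {Cf : ℝ≥0∞} {f0 f1 : E3 → E3} {q : ℕ} {al : Fin 3 → ℝ} {h : ℝ}
    {Φ : FoamD δ κ0 R c0 La} {T : Tiling (QL L) ι} {X : Set Φ.F} {J0 J V : Φ.F → Set ι}
    {ct : Φ.F → ι} {A : Φ.F → E3 ≃ᵃ[ℝ] E3} {lam : Φ.F → ℝ} {z : Φ.F → E3} {θ : Φ.F → E3 → E3}
    {φ : Φ.F → E3 → ℝ} {Mg : Φ.F → ℕ} {𝒬 : Set (Set E3)} {r : ℝ} {hr : r ≠ 0} {a : E3}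
    {o : Fin 2 → ℤ} {M : ℕ} {Zs : Finset ℤ} {U : ℤ → (Fin 2 → ℕ) → Prop} {β : Type} {b : β → E3}
    {R0 R1 : β → ℝ} {Sc : β → Finset ι} {d Kc cnt : ι → ℝ} {Z : Φ.F → Set ℝ} {m0 : Φ.F → ℕ}
    {κ : Φ.F → ℕ} {Lv : Φ.F → Finset ℝ} {em em' ηm : ℝ} {tol : ι → ℝ} {g : E3 → E3}
    {Cu : Set (Set E3) → ℝ} {B' : E3 → E3 ≃ᵃ[ℝ] E3} {a' : Fin 2 → ℝ}
    {u : E3 → Φ.F → ℝ} {n : Set E3 → Φ.F → ℝ}
    (hout : OutF C0 C em Φ T f1 X V ct A lam κ Lv tol (DsN a r o M Zs U) (S1 * r) g)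
    (hNO : OutNO p Cu em' ηm Φ T f1 (⋃ c, V c) κ Lv tol (DsN a r o M Zs U) B' (S1 * r) a' g u n)
    (hCu : ∀ 𝒦, 0 < Cu 𝒦) (hC0 : 0 < C0) (hC : ∀ 𝒦, 0 < C 𝒦)
    (G : PreG p s L η ε ε' C0 κ1 κ2 𝒮 t Cf f0 f1 q al h Φ T X J0 J V ct A lam z θ φ 𝒬 r hr a o
      M Zs U b R0 R1 Sc d Kc cnt)
    (N : PreN p s L η ε ε' e₂ S1 S KS κp μ κ3 C 𝒮 f1 q al h Φ T X V ct A lam z Mg r hr a o M Zs U b R1
      Sc cnt Z m0 κ Lv)
    {CuM : ℝ} (hCM0 : 0 ≤ CuM) (hCM : ∀ 𝒦 ∈ 𝒮, Cu 𝒦 ≤ CuM) (htol0 : ∀ i, 0 < tol i)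
    {εt : ℝ} (hεt : 0 ≤ εt) (htol : ∑' i, ENNReal.ofReal (tol i ^ p) *
      (volume (P (T.H i)) + ENNReal.ofReal (cnt i)) ≤ ENNReal.ofReal εt)
    (hε : 0 ≤ ε) (hε' : 0 ≤ ε') (hη : 0 ≤ η) (he₂ : 0 ≤ e₂) (hKS : 0 ≤ KS) (hr0 : 0 ≤ r) :
    ∃ Kt : ι → ℝ, (∀ i, 0 ≤ Kt i) ∧ (∀ i, i ∉ Vti X V → ∀ x ∈ I (T.H i), LLV (Kt i) g x) ∧
      ∑' i : {i // i ∉ Vti X V}, ENNReal.ofReal (Kt i ^ p) * volume (P (T.H i)) ≤
        ENNReal.ofReal (2 ^ p * ((2 * CuM) ^ p * (KS / L) + ε' + εt) + C0 ^ p * ε') ∧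
      ∑' i : {i // i ∈ IZ T (ShL L η) b R1 Sc ∧ i ∉ Vti X V},
        ENNReal.ofReal (Kt i ^ p) * volume (P (T.H i)) ≤
        ENNReal.ofReal (2 ^ p * ((2 * CuM) ^ p * ((KS * η + e₂) / L) + ε' + εt) + C0 ^ p * ε') ∧
      ∑' i : {i // i ∉ Vti X V ∧ MJ T r hr a o M Zs U i},
        ENNReal.ofReal (Kt i ^ p) * ENNReal.ofReal (cnt i) ≤
        ENNReal.ofReal (2 ^ p * ((2 * CuM) ^ p * (ε * ((Zs.card : ℝ) * M ^ 2) * r ^ 3) +
          ε' * ((Zs.card : ℝ) * M ^ 2) * r ^ 3 + εt) +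
          C0 ^ p * (ε' * ((Zs.card : ℝ) * M ^ 2) * r ^ 3)) := by
  have hp0 : 0 < p := by linarith
  obtain ⟨B, Nt, HT, hN0, hNN, hMU, hHT, e1, e2, e3, e4, e5⟩ := N.tl
  set nn : ι → ℝ := fun i => Nt i * ‖lin (B i)‖ with hnn
  set mm : ι → ℝ := fun i => C ((fun K => B i '' K) '' Cfg T i) * Nt i * ‖lin (B i)‖ with hmm
  have hnn0 : ∀ i, 0 ≤ nn i := fun i => mul_nonneg (hN0 i) (norm_nonneg _)
  have hmm0 : ∀ i, 0 ≤ mm i := fun i =>
    mul_nonneg (mul_nonneg (hC _).le (hN0 i)) (norm_nonneg _)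
  have hgc : ∀ i, ContinuousOn g (P (T.H i)) := by
    intro i
    obtain ⟨_, -, -, -, -, h5, -⟩ := hout.homeo
    exact h5.mono (T.sub i)
  have hnot : ∀ i, i ∈ HT → ∀ c, i ∉ V c := fun i hi => (hHT i hi).1
  refine ⟨Kt V X HT CuM C0 nn mm tol Kc,
    Kt_nonneg hCM0 hC0.le hnn0 hmm0 (fun i => (htol0 i).le) G.kc0, ?_, ?_, ?_, ?_⟩
  · intro i hi x hx
    by_cases h1 : i ∈ HT
    · rw [Kt_HT h1]
      obtain ⟨g1, g2, ⟨Cc, O, hHor, x0, hx0, hx1⟩, g4⟩ := hHT i h1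
      have hEx : i ∉ ⋃ c, V c := by
        rw [mem_iUnion]; rintro ⟨c, hc⟩; exact g1 c hc
      have hdis : ∀ j ∈ ⋃ c, V c, Disjoint (P (T.H i)) (P (T.H j)) := by
        intro j hj
        rw [mem_iUnion] at hj
        obtain ⟨c, hc⟩ := hj
        exact g2 c j hc
      have hw : ∀ c : Φ.F, IsLog q al h c.1 → h ≤ 2 * wf Φ κ Lv c := by
        intro c hc
        have := N.wlog c hc
        unfold wf
        linarith
      have hlip := lip_hor hLa hNO hCu hEx hdis G.h0 hHor hx0 hx1 hw (B i) (hN0 i)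
        (hNN i g1) (fun ht => hMU i g1 (mu_of_touch G.geo ht)) (hgc i)
      refine (LLV_of_lip hlip hx).mono ?_
      have h3 := hCM _ g4
      have h4 : Cu ((fun K => B i '' K) '' Cfg T i) * (Nt i * ‖lin (B i)‖) ≤
          CuM * (Nt i * ‖lin (B i)‖) := mul_le_mul_of_nonneg_right h3 (hnn0 i)
      simp only [hnn]
      nlinarith
    · by_cases h2 : ∀ c, i ∉ V c
      · rw [Kt_ord h1 h2]
        exact LLV_of_affine (mul_nonneg (hC _).le (hN0 i))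
          (hout.lip i h2 (B i) (Nt i) (hN0 i) (hNN i h2)
            (fun ht => hMU i h2 (mu_of_touch G.geo ht)) x hx)
      · push Not at h2
        rw [Kt_core h1 h2 hi]
        obtain ⟨c, hc⟩ := h2
        have hcX : c ∈ X := by
          by_contra hcX
          exact hi ⟨c, hcX, hc⟩
        have hic : i = ct c := by
          have := (G.cores.one c hcX).2.2
          rw [this] at hc
          exact hc
        subst hic
        have hlam := (G.cores.exact_ c hcX).lam0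
        have h3 := (hout.core c hcX).1 x hx
        have h4 : LLV (C0 * (1 / lam c) * ‖lin (A c)‖ + 0) g x := by
          apply LLV_of_affine (by positivity)
          filter_upwards [h3] with y hy
          rw [zero_mul, add_zero, mul_assoc]
          exact hy
        refine h4.mono ?_
        have h5 := G.kc c hcX
        rw [add_zero, mul_assoc]
        exact mul_le_mul_of_nonneg_left h5 hC0.le
  all_goals
    have hcore : ∀ i, ((∃ c, i ∈ V c) ∧ i ∉ Vti X V) →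
        Kt V X HT CuM C0 nn mm tol Kc i ≤ C0 * Kc i := fun i hi =>
      (Kt_core (fun h => by obtain ⟨c, hc⟩ := hi.1; exact hnot i h c hc) hi.1 hi.2).le
    have htolv : ∑' i, ENNReal.ofReal (tol i ^ p) * volume (P (T.H i)) ≤ ENNReal.ofReal εt :=
      (ENNReal.tsum_le_tsum fun i => by gcongr; exact le_self_add).trans htol
    have htolc : ∑' i, ENNReal.ofReal (tol i ^ p) * ENNReal.ofReal (cnt i) ≤ ENNReal.ofReal εt :=
      (ENNReal.tsum_le_tsum fun i => by gcongr; exact le_add_self).trans htol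
    have hcov : ∀ i, i ∉ Vti X V → i ∈ HT ∨ ((∀ c, i ∉ V c) ∧ i ∉ HT) ∨
        ((∃ c, i ∈ V c) ∧ i ∉ Vti X V) := by
      intro i hi
      by_cases h1 : i ∈ HT
      · exact Or.inl h1
      · by_cases h2 : ∀ c, i ∉ V c
        · exact Or.inr (Or.inl ⟨h2, h1⟩)
        · push Not at h2
          exact Or.inr (Or.inr ⟨h2, hi⟩)
    have h2C : 0 ≤ 2 * CuM := by positivity
    have hKp : 0 ≤ (2 * CuM) ^ p := Real.rpow_nonneg h2C p
    have hC0p : 0 ≤ C0 ^ p := Real.rpow_nonneg hC0.le p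
    have h2p : (0 : ℝ) ≤ 2 ^ p := by positivity
    have hN00 : 0 ≤ (Zs.card : ℝ) * M ^ 2 := by positivity
    have hfin : ∀ {x1 x2 x3 x4 : ℝ≥0∞} {y1 y2 y3 y4 : ℝ}, 0 ≤ y1 → 0 ≤ y2 → 0 ≤ y3 → 0 ≤ y4 →
        x1 ≤ ENNReal.ofReal y1 → x2 ≤ ENNReal.ofReal y2 → x3 ≤ ENNReal.ofReal y3 →
        x4 ≤ ENNReal.ofReal y4 →
        ENNReal.ofReal (2 ^ p) * (ENNReal.ofReal ((2 * CuM) ^ p) * x1 + x2 + x3) +
          ENNReal.ofReal (C0 ^ p) * x4 ≤
        ENNReal.ofReal (2 ^ p * ((2 * CuM) ^ p * y1 + y2 + y3) + C0 ^ p * y4) := by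
      intro x1 x2 x3 x4 y1 y2 y3 y4 k1 k2 k3 k4 l1 l2 l3 l4
      rw [ENNReal.ofReal_add (by positivity) (by positivity), ENNReal.ofReal_mul h2p,
        ENNReal.ofReal_add (by positivity) k3, ENNReal.ofReal_add (by positivity) k2,
        ENNReal.ofReal_mul hKp, ENNReal.ofReal_mul hC0p]
      gcongr
  · refine (tsum_split hp0 (fun i => volume (P (T.H i))) h2C hC0.le hnn0 hmm0
      (fun i => (htol0 i).le) G.kc0
      (Kt_nonneg hCM0 hC0.le hnn0 hmm0 (fun i => (htol0 i).le) G.kc0)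
      (S := fun i => i ∉ Vti X V) (H := fun i => i ∈ HT) (O := fun i => (∀ c, i ∉ V c) ∧ i ∉ HT)
      (V := fun i => (∃ c, i ∈ V c) ∧ i ∉ Vti X V) hcov
      (fun i hi => (Kt_HT hi).le) (fun i hi => (Kt_ord hi.2 hi.1).le) hcore).trans
      (hfin (by positivity) hε' hεt hε' ?_ ?_ htolv ?_)
    · exact le_trans (tsum_sub_le (fun i hi => hi.1)
        (fun i => ENNReal.ofReal (nn i ^ p) * volume (P (T.H i)))) e1
    · exact le_trans (tsum_sub_le (fun i hi => hi.1)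
        (fun i => ENNReal.ofReal (mm i ^ p) * volume (P (T.H i)))) e3
    · exact le_trans (tsum_sub_le (fun i hi => hi.1)
        (fun i => ENNReal.ofReal (Kc i ^ p) * volume (P (T.H i)))) G.kcs
  · refine (tsum_split hp0 (fun i => volume (P (T.H i))) h2C hC0.le hnn0 hmm0
      (fun i => (htol0 i).le) G.kc0
      (Kt_nonneg hCM0 hC0.le hnn0 hmm0 (fun i => (htol0 i).le) G.kc0)
      (S := fun i => i ∈ IZ T (ShL L η) b R1 Sc ∧ i ∉ Vti X V) (H := fun i => i ∈ HT)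
      (O := fun i => (∀ c, i ∉ V c) ∧ i ∉ HT)
      (V := fun i => (∃ c, i ∈ V c) ∧ i ∉ Vti X V) (fun i hi => hcov i hi.2)
      (fun i hi => (Kt_HT hi).le) (fun i hi => (Kt_ord hi.2 hi.1).le) hcore).trans
      (hfin (by positivity) hε' hεt hε' ?_ ?_ htolv ?_)
    · exact le_trans (tsum_sub_le (fun i hi => ⟨hi.1, hi.2.1⟩)
        (fun i => ENNReal.ofReal (nn i ^ p) * volume (P (T.H i)))) e2
    · exact le_trans (tsum_sub_le (fun i hi => hi.1)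
        (fun i => ENNReal.ofReal (mm i ^ p) * volume (P (T.H i)))) e3
    · exact le_trans (tsum_sub_le (fun i hi => hi.1)
        (fun i => ENNReal.ofReal (Kc i ^ p) * volume (P (T.H i)))) G.kcs
  · refine (tsum_split hp0 (fun i => ENNReal.ofReal (cnt i)) h2C hC0.le hnn0 hmm0
      (fun i => (htol0 i).le) G.kc0
      (Kt_nonneg hCM0 hC0.le hnn0 hmm0 (fun i => (htol0 i).le) G.kc0)
      (S := fun i => i ∉ Vti X V ∧ MJ T r hr a o M Zs U i) (H := fun i => i ∈ HT)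
      (O := fun i => (∀ c, i ∉ V c) ∧ i ∉ HT)
      (V := fun i => (∃ c, i ∈ V c) ∧ i ∉ Vti X V) (fun i hi => hcov i hi.1)
      (fun i hi => (Kt_HT hi).le) (fun i hi => (Kt_ord hi.2 hi.1).le) hcore).trans
      (hfin (by positivity) (by positivity) hεt (by positivity) ?_ ?_ htolc ?_)
    · exact le_trans (tsum_sub_le (fun i hi => ⟨hi.1, hi.2.2⟩)
        (fun i => ENNReal.ofReal (nn i ^ p) * ENNReal.ofReal (cnt i))) e4
    · exact le_trans (tsum_sub_le (fun i hi => ⟨hi.1, hi.2.2⟩)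
        (fun i => ENNReal.ofReal (mm i ^ p) * ENNReal.ofReal (cnt i))) e5
    · exact le_trans (tsum_sub_le (fun i hi => ⟨hi.1, hi.2.2⟩)
        (fun i => ENNReal.ofReal (Kc i ^ p) * ENNReal.ofReal (cnt i))) G.jc

end main

end

end Crest.Agent.R096.Nkt_780
end

-- ▼ part R096/Qd1_205
section

/-!
# Row 96, NO0, QUAD (helper205), part 1: labels over good squares

A tile (any set `W`) on which the labels `u` are exact (`zero` / `one` of `OutNO`): if the pushed map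
`Psi ∘ f` maps one point of `W` into a good square of the log foam, then `T ∘ u` maps all of `W` into
this square, only the four neighbours of the square move, and the displacement of `T ∘ u` along a
1-cell is at most the weight of the final points on it.
-/

set_option autoImplicit false
set_option linter.style.longLine false
set_option linter.unusedSectionVars false

open MeasureTheory Set Filter Topology Metric
open scoped ENNReal

namespace Crest.Agent.R096.Qd_205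

open Crest.Agent.R096.Bsp_628 Crest.Agent.R096.Brk1_582 Crest.Agent.R096.Brk3_582
open Crest.Agent.R096.Brk5_582
open Crest.Agent.R096.Log1_582 Crest.Agent.R096.Log2_582 Crest.Agent.R096.Dic1_582
open Crest.Agent.R096.Dic5_582
open Crest.Agent.R096.Msh_715
open Crest.Agent.R096.SkC1_961 Crest.Agent.R096.SkN1_477 Crest.Agent.R096.No0_477

noncomputable section

variable {δ κ0 R c0 : ℝ} {La Om : Set E3} {ι : Type} {Φ : FoamD δ κ0 R c0 La}

/-- the labels are exact on the set `W` (one ordinary tile) -/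
structure Lab (Φ : FoamD δ κ0 R c0 La) (W : Set E3) (f : E3 → E3) (u : E3 → Φ.F → ℝ) : Prop where
  memK : ∀ x ∈ W, u x ∈ K (Pc Φ.F)
  zero : ∀ x ∈ W, ∀ y ∈ W, ∀ c, Φ.lev c (f x) = 0 → u y c = 0
  one : ∀ x ∈ W, ∀ y ∈ W, ∀ c, Φ.lev c (f x) = 1 → u y c = 1

theorem Lab.mono {W W' : Set E3} {f : E3 → E3} {u : E3 → Φ.F → ℝ} (h : Lab Φ W f u)
    (hW : W' ⊆ W) : Lab Φ W' f u :=
  ⟨fun x hx => h.memK x (hW hx), fun x hx y hy => h.zero x (hW hx) y (hW hy),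
    fun x hx y hy => h.one x (hW hx) y (hW hy)⟩

variable {q : ℕ} {a : Fin 3 → ℝ} {h : ℝ} {e o i j : ℤ} {W : Set E3} {f : E3 → E3}
  {u : E3 → Φ.F → ℝ}

section square

variable (H : Lab Φ W f u) (G : GSq Φ.F q a h e o i j) (hLa : IsOpen La) (hq : 1 ≤ q) (hh : 0 < h)
  {x : E3} (hx : x ∈ W) (hfx : Φ.Psi (f x) ∈ sqr a h e o i j)

include hLa hq hh hfx in
theorem lev_cx : Φ.lev (cx G) (f x) = 0 := by
  classical
  have := G.sc_eq Φ.bf hLa hq hh hfx (cx G)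
  have h0 : (cx G).1 = Lx q a h e i j ∨ (cx G).1 = Ly q a h o i j := Or.inl rfl
  rw [if_pos h0] at this
  exact this

include hLa hq hh hfx in
theorem lev_cy : Φ.lev (cy G) (f x) = 0 := by
  classical
  have := G.sc_eq Φ.bf hLa hq hh hfx (cy G)
  have h0 : (cy G).1 = Lx q a h e i j ∨ (cy G).1 = Ly q a h o i j := Or.inr rfl
  rw [if_pos h0] at this
  exact this

include H hLa hq hh hx hfx

/-- all labels but four are the same on the whole tile -/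
theorem Lab.other {c : Φ.F} (h1 : c ≠ G.xp) (h2 : c ≠ G.xm) (h3 : c ≠ G.yp) (h4 : c ≠ G.ym)
    {y y' : E3} (hy : y ∈ W) (hy' : y' ∈ W) : u y c = u y' c := by
  rcases G.sc_other Φ.bf hLa hq hh hfx h1 h2 h3 h4 with h5 | h5
  · rw [H.zero x hx y hy c h5, H.zero x hx y' hy' c h5]
  · rw [H.one x hx y hy c h5, H.one x hx y' hy' c h5]

/-- `T ∘ u` maps the whole tile into the same square, exact formulas -/
theorem Lab.coord {y : E3} (hy : y ∈ W) :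
    T (bc (F := Φ.F)) (u y) ∈ sqr a h e o i j ∧
      T (bc (F := Φ.F)) (u y) 0 = a 0 + h * (i + 1 / 2 + (u y G.xm - u y G.xp) / 2) ∧
      T (bc (F := Φ.F)) (u y) 1 = a 1 + h * (j + 1 / 2 + (u y G.ym - u y G.yp) / 2) ∧
      T (bc (F := Φ.F)) (u y) 2 = a 2 + h * ((max e o : ℤ) : ℝ) :=
  GSq.coord_T G Φ.bf hLa hq hh (H.memK y hy)
    (H.zero x hx y hy _ (lev_cx G hLa hq hh hfx)) (H.zero x hx y hy _ (lev_cy G hLa hq hh hfx))


end square

/-! ### weights -/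

/-- final counts and labels on the 1-cell `S` -/
structure Cnt (Φ : FoamD δ κ0 R c0 La) (f : E3 → E3) (κ : Φ.F → ℕ) (L : Φ.F → Finset ℝ) (ε : ℝ)
    (u : E3 → Φ.F → ℝ) (n : Set E3 → Φ.F → ℝ) (S : Set E3) : Prop where
  e0 : 0 ≤ ε
  n0 : ∀ c, 0 ≤ n S c
  cnt : ∀ s : Finset Φ.F, ENNReal.ofReal (∑ c ∈ s, n S c * (2 : ℝ)⁻¹ ^ κ c) ≤ Vw Φ f κ L S
  osc : ∀ c, ∀ y ∈ S, ∀ y' ∈ S, |u y c - u y' c| * (L c).card ≤ (1 + ε) * n S c

variable {κ : Φ.F → ℕ} {L : Φ.F → Finset ℝ} {n : Set E3 → Φ.F → ℝ} {S : Set E3} {ε : ℝ}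





end

end Crest.Agent.R096.Qd_205
namespace Crest.Agent.R096.Qd_205.Cnt
end Crest.Agent.R096.Qd_205.Cnt
end

-- ▼ part R096/Qd2_205
section

/-!
# Row 96, NO0, QUAD (helper205), part 2 = (L4) of 477 #10235

* `Lab.qf` : a tile with exact labels one point of which is mapped by `Psi ∘ f` into a closed good
  square of the log foam satisfies `QF` (477), with width `h / 2`.
* `par_of_square` : over a good square every quad is a parallelogram (364 #10232: hypothesis of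
  `clo`).
-/

set_option autoImplicit false
set_option linter.style.longLine false
set_option linter.unusedSectionVars false

open MeasureTheory Set Filter Topology Metric
open scoped ENNReal

namespace Crest.Agent.R096.Qd_205

open Crest.Agent.R096.Bsp_628 Crest.Agent.R096.Brk1_582 Crest.Agent.R096.Brk3_582
open Crest.Agent.R096.Brk5_582
open Crest.Agent.R096.Log1_582 Crest.Agent.R096.Log2_582 Crest.Agent.R096.Dic1_582
open Crest.Agent.R096.Dic5_582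
open Crest.Agent.R096.Msh_715
open Crest.Agent.R096.SkC1_961 Crest.Agent.R096.SkN1_477 Crest.Agent.R096.No0_477

noncomputable section

variable {δ κ0 R c0 : ℝ} {La Om : Set E3} {ι : Type} {Φ : FoamD δ κ0 R c0 La}
variable {q : ℕ} {a : Fin 3 → ℝ} {h : ℝ} {e o i j : ℤ} {W : Set E3} {f : E3 → E3}
  {u : E3 → Φ.F → ℝ} {κ : Φ.F → ℕ} {L : Φ.F → Finset ℝ}

/-! ### parallelograms -/

section par

variable {F : Set (Bx (Fin 3))} {La' : Set (Fin 3 → ℝ)} {δ' κ0' : ℝ}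

/-- the label which is `0` on `S` and `1` off `S` -/
def ind (S : Set F) : F → ℝ := by
  classical
  exact fun c => if c ∈ S then 0 else 1

theorem ind_zero (S : Set F) : {c | ind S c = 0} = S := by
  classical
  ext c
  simp only [ind, mem_ofPred_eq]
  by_cases h : c ∈ S
  · simp [h]
  · simp [h]

theorem T_ind (b : Set F → (Fin 3 → ℝ)) (S : Set F) : T b (ind S) = b S := by
  classical
  rw [T_const, ind_zero]
  intro c
  unfold ind
  by_cases h : c ∈ S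
  · left; simp [h]
  · right; simp [h]

theorem ind_mem_K {S : Set F} (hne : S.Nonempty) (hS : (fc (Pc F) S).Nonempty) :
    ind S ∈ K (Pc F) := by
  classical
  refine ⟨fun c => ?_, ?_, ?_⟩
  · unfold ind
    split_ifs <;> norm_num
  · obtain ⟨c, hc⟩ := hne
    exact ⟨c, by simp [ind, hc]⟩
  · have : {c | ind S c < 1} = S := by
      ext c
      simp only [ind, mem_ofPred_eq]
      by_cases h : c ∈ S
      · simp [h]
      · simp [h]
    rw [this]; exact hS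

/-- **over a good square every quad is a parallelogram** -/
theorem par_of_square (G : GSq F q a h e o i j) (BF : BoxFoam La' F δ' κ0') (hLa : IsOpen La')
    (hq : 1 ≤ q) (hh : 0 < h) {v : F → ℝ} (hv : v ∈ K (Pc F)) (h0 : v (cx G) = 0)
    (h1 : v (cy G) = 0) {c1 c2 : F} (hne : c1 ≠ c2) (hav : {c | 0 < v c ∧ v c < 1} = {c1, c2}) :
    bc (F := F) {c | v c < 1} + bc (F := F) {c | v c = 0} =
      bc (F := F) (insert c1 {c | v c = 0}) + bc (F := F) (insert c2 {c | v c = 0}) := by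
  classical
  set A : Set F := {c | v c = 0} with hA
  have m1 : 0 < v c1 ∧ v c1 < 1 := by
    have : c1 ∈ {c | 0 < v c ∧ v c < 1} := by rw [hav]; exact mem_insert _ _
    exact this
  have m2 : 0 < v c2 ∧ v c2 < 1 := by
    have : c2 ∈ {c | 0 < v c ∧ v c < 1} := by rw [hav]; exact mem_insert_of_mem _ rfl
    exact this
  have hlt : {c | v c < 1} = insert c1 (insert c2 A) := by
    ext c
    constructor
    · intro hc
      have hc' : v c < 1 := hc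
      rcases (hv.1 c).1.eq_or_lt with h2 | h2
      · exact mem_insert_of_mem _ (mem_insert_of_mem _ h2.symm)
      · have : c ∈ ({c1, c2} : Set F) := by rw [← hav]; exact ⟨h2, hc'⟩
        rcases this with rfl | h3
        · exact mem_insert _ _
        · rw [mem_singleton_iff] at h3
          rw [h3]
          exact mem_insert_of_mem _ (mem_insert _ _)
    · rintro (rfl | rfl | h2)
      · exact m1.2
      · exact m2.2
      · change v c < 1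
        have : v c = 0 := h2
        rw [this]; norm_num
  have hfc : (fc (Pc F) (insert c1 (insert c2 A))).Nonempty := by
    rw [← hlt]; exact hv.2.2
  have n1 : c1 ∉ A := fun h2 => by
    have : v c1 = 0 := h2
    linarith [m1.1]
  have n2 : c2 ∉ A := fun h2 => by
    have : v c2 = 0 := h2
    linarith [m2.1]
  have hx : cx G ∈ A := h0
  have hy : cy G ∈ A := h1
  have key : ∀ S : Set F, A ⊆ S → S ⊆ insert c1 (insert c2 A) →
      bc (F := F) S 0 = a 0 + h * (i + 1 / 2 + (ind S G.xm - ind S G.xp) / 2) ∧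
      bc (F := F) S 1 = a 1 + h * (j + 1 / 2 + (ind S G.ym - ind S G.yp) / 2) ∧
      bc (F := F) S 2 = a 2 + h * ((max e o : ℤ) : ℝ) := by
    intro S hS hS'
    have hK : ind S ∈ K (Pc F) := ind_mem_K ⟨_, hS hx⟩ (hfc.mono (fc_anti hS'))
    have e0 : ind S (cx G) = 0 := by simp [ind, hS hx]
    have e1 : ind S (cy G) = 0 := by simp [ind, hS hy]
    have := (GSq.coord_T G BF hLa hq hh hK e0 e1).2
    rwa [T_ind] at this
  have s1 : insert c1 A ⊆ insert c1 (insert c2 A) := insert_subset_insert (subset_insert _ _)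
  have s2 : insert c2 A ⊆ insert c1 (insert c2 A) := subset_insert _ _
  have s3 : A ⊆ insert c1 (insert c2 A) := (subset_insert _ _).trans s2
  obtain ⟨a0, a1, a2⟩ := key A Subset.rfl s3
  obtain ⟨b0, b1, b2⟩ := key (insert c1 A) (subset_insert _ _) s1
  obtain ⟨d0, d1, d2⟩ := key (insert c2 A) (subset_insert _ _) s2
  obtain ⟨f0, f1, f2⟩ := key (insert c1 (insert c2 A)) s3 Subset.rfl
  have hind : ∀ c, ind (insert c1 (insert c2 A)) c + ind A c =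
      ind (insert c1 A) c + ind (insert c2 A) c := by
    intro c
    unfold ind
    by_cases g1 : c = c1
    · subst g1
      simp [n1, hne]
    · by_cases g2 : c = c2
      · subst g2
        simp [n2, g1]
      · simp [g1, g2]
  rw [hlt]
  funext k
  fin_cases k
  · change bc (F := F) (insert c1 (insert c2 A)) 0 + bc (F := F) A 0 =
      bc (F := F) (insert c1 A) 0 + bc (F := F) (insert c2 A) 0
    rw [a0, b0, d0, f0]
    have e1 := hind G.xm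
    have e2 := hind G.xp
    linear_combination (h / 2) * e1 - (h / 2) * e2
  · change bc (F := F) (insert c1 (insert c2 A)) 1 + bc (F := F) A 1 =
      bc (F := F) (insert c1 A) 1 + bc (F := F) (insert c2 A) 1
    rw [a1, b1, d1, f1]
    have e1 := hind G.ym
    have e2 := hind G.yp
    linear_combination (h / 2) * e1 - (h / 2) * e2
  · change bc (F := F) (insert c1 (insert c2 A)) 2 + bc (F := F) A 2 =
      bc (F := F) (insert c1 A) 2 + bc (F := F) (insert c2 A) 2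
    rw [a2, b2, d2, f2]

end par

/-- one of the two x-labels is constant `1` on the whole tile -/
theorem Lab.x_const (H : Lab Φ W f u) (G : GSq Φ.F q a h e o i j) (hLa : IsOpen La) (hq : 1 ≤ q)
    (hh : 0 < h) {x : E3} (hx : x ∈ W) (hfx : Φ.Psi (f x) ∈ sqr a h e o i j) :
    (∀ y ∈ W, u y G.xm = 1) ∨ (∀ y ∈ W, u y G.xp = 1) := by
  rcases le_total 0 ((Φ.Psi (f x) 0 - a 0) / h - (i + 1 / 2)) with h1 | h1
  · left
    intro y hy
    apply H.one x hx y hy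
    change sc (Pc Φ.F) (bc (F := Φ.F)) (Φ.Psi (f x)) G.xm = 1
    rw [G.sc_xm Φ.bf hLa hq hh hfx, max_eq_right (by linarith)]
    ring
  · right
    intro y hy
    apply H.one x hx y hy
    change sc (Pc Φ.F) (bc (F := Φ.F)) (Φ.Psi (f x)) G.xp = 1
    rw [G.sc_xp Φ.bf hLa hq hh hfx, max_eq_right (by linarith)]
    ring

/-- one of the two y-labels is constant `1` on the whole tile -/
theorem Lab.y_const (H : Lab Φ W f u) (G : GSq Φ.F q a h e o i j) (hLa : IsOpen La) (hq : 1 ≤ q)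
    (hh : 0 < h) {x : E3} (hx : x ∈ W) (hfx : Φ.Psi (f x) ∈ sqr a h e o i j) :
    (∀ y ∈ W, u y G.ym = 1) ∨ (∀ y ∈ W, u y G.yp = 1) := by
  rcases le_total 0 ((Φ.Psi (f x) 1 - a 1) / h - (j + 1 / 2)) with h1 | h1
  · left
    intro y hy
    apply H.one x hx y hy
    change sc (Pc Φ.F) (bc (F := Φ.F)) (Φ.Psi (f x)) G.ym = 1
    rw [G.sc_ym Φ.bf hLa hq hh hfx, max_eq_right (by linarith)]
    ring
  · right
    intro y hy
    apply H.one x hx y hy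
    change sc (Pc Φ.F) (bc (F := Φ.F)) (Φ.Psi (f x)) G.yp = 1
    rw [G.sc_yp Φ.bf hLa hq hh hfx, max_eq_right (by linarith)]
    ring

/-- all quads over the tile are parallelograms -/
theorem Lab.par (H : Lab Φ W f u) (G : GSq Φ.F q a h e o i j) (hLa : IsOpen La) (hq : 1 ≤ q)
    (hh : 0 < h) {x : E3} (hx : x ∈ W) (hfx : Φ.Psi (f x) ∈ sqr a h e o i j) {y : E3}
    (hy : y ∈ W) : Par (u y) := fun _ _ hne hav =>
  par_of_square G Φ.bf hLa hq hh (H.memK y hy)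
    (H.zero x hx y hy _ (lev_cx G hLa hq hh hfx)) (H.zero x hx y hy _ (lev_cy G hLa hq hh hfx))
    hne hav

/-- **(L4)** -/
theorem Lab.qf (H : Lab Φ W f u) (G : GSq Φ.F q a h e o i j) (hLa : IsOpen La) (hq : 1 ≤ q)
    (hh : 0 < h) (hw : ∀ c : Φ.F, IsLog q a h c.1 → (L c).card * (2 : ℝ)⁻¹ ^ κ c = h / 2)
    {x : E3} (hx : x ∈ W) (hfx : Φ.Psi (f x) ∈ sqr a h e o i j) :
    ∃ (c1 c2 : Φ.F) (σ1 σ2 : ℝ) (b : E3), QF Φ κ L u W c1 c2 σ1 σ2 (h / 2) b ∧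
      IsLog q a h c1.1 ∧ IsLog q a h c2.1 := by
  have l1 : IsLog q a h G.xp.1 := ⟨_, _, _, rfl⟩
  have l2 : IsLog q a h G.xm.1 := ⟨_, _, _, rfl⟩
  have l3 : IsLog q a h G.yp.1 := ⟨_, _, _, rfl⟩
  have l4 : IsLog q a h G.ym.1 := ⟨_, _, _, rfl⟩
  -- the x-class
  obtain ⟨c1, σ1, b0, hc1, hs1, hl1, hf1, ho1⟩ : ∃ (c1 : Φ.F) (σ1 b0 : ℝ),
      (c1 = G.xp ∨ c1 = G.xm) ∧ (σ1 = 1 ∨ σ1 = -1) ∧ IsLog q a h c1.1 ∧
      (∀ y ∈ W, a 0 + h * (i + 1 / 2 + (u y G.xm - u y G.xp) / 2) = b0 + σ1 * (h / 2) * u y c1) ∧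
      ∀ c, (c = G.xp ∨ c = G.xm) → c ≠ c1 → ∀ y ∈ W, u y c = 1 := by
    rcases H.x_const G hLa hq hh hx hfx with h1 | h1
    · refine ⟨G.xp, -1, a 0 + h * (i + 1), Or.inl rfl, Or.inr rfl, l1, ?_, ?_⟩
      · intro y hy
        rw [h1 y hy]; ring
      · rintro c (rfl | rfl) hc y hy
        · exact absurd rfl hc
        · exact h1 y hy
    · refine ⟨G.xm, 1, a 0 + h * i, Or.inr rfl, Or.inl rfl, l2, ?_, ?_⟩
      · intro y hy
        rw [h1 y hy]; ring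
      · rintro c (rfl | rfl) hc y hy
        · exact h1 y hy
        · exact absurd rfl hc
  obtain ⟨c2, σ2, b1, hc2, hs2, hl2, hf2, ho2⟩ : ∃ (c2 : Φ.F) (σ2 b1 : ℝ),
      (c2 = G.yp ∨ c2 = G.ym) ∧ (σ2 = 1 ∨ σ2 = -1) ∧ IsLog q a h c2.1 ∧
      (∀ y ∈ W, a 1 + h * (j + 1 / 2 + (u y G.ym - u y G.yp) / 2) = b1 + σ2 * (h / 2) * u y c2) ∧
      ∀ c, (c = G.yp ∨ c = G.ym) → c ≠ c2 → ∀ y ∈ W, u y c = 1 := by
    rcases H.y_const G hLa hq hh hx hfx with h1 | h1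
    · refine ⟨G.yp, -1, a 1 + h * (j + 1), Or.inl rfl, Or.inr rfl, l3, ?_, ?_⟩
      · intro y hy
        rw [h1 y hy]; ring
      · rintro c (rfl | rfl) hc y hy
        · exact absurd rfl hc
        · exact h1 y hy
    · refine ⟨G.ym, 1, a 1 + h * j, Or.inr rfl, Or.inl rfl, l4, ?_, ?_⟩
      · intro y hy
        rw [h1 y hy]; ring
      · rintro c (rfl | rfl) hc y hy
        · exact h1 y hy
        · exact absurd rfl hc
  have hne : c1 ≠ c2 := by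
    rcases hc1 with rfl | rfl <;> rcases hc2 with rfl | rfl
    · exact G.xp_ne_yp hh
    · exact G.xp_ne_ym hh
    · exact G.xm_ne_yp hh
    · exact G.xm_ne_ym hh
  refine ⟨c1, c2, σ1, σ2, ![b0, b1, a 2 + h * ((max e o : ℤ) : ℝ)], ?_, hl1, hl2⟩
  refine ⟨hne, by positivity, hw _ hl1, hw _ hl2, hs1, hs2, ?_, ?_, fun y hy =>
    H.par G hLa hq hh hx hfx hy⟩
  · intro y hy
    obtain ⟨-, k0, k1, k2⟩ := H.coord G hLa hq hh hx hfx hy
    rw [hf1 y hy] at k0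
    rw [hf2 y hy] at k1
    have n01 : (0 : Fin 3) ≠ 1 := by decide
    have n10 : (1 : Fin 3) ≠ 0 := by decide
    have n20 : (2 : Fin 3) ≠ 0 := by decide
    have n21 : (2 : Fin 3) ≠ 1 := by decide
    funext k
    simp only [Pi.add_apply, Pi.smul_apply, smul_eq_mul]
    fin_cases k
    · change T (bc (F := Φ.F)) (u y) 0 = b0 + σ1 * (h / 2) * u y c1 * (Pi.single 0 1 : E3) 0 +
        σ2 * (h / 2) * u y c2 * (Pi.single 1 1 : E3) 0
      rw [Pi.single_eq_same, Pi.single_eq_of_ne n01, k0]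
      ring
    · change T (bc (F := Φ.F)) (u y) 1 = b1 + σ1 * (h / 2) * u y c1 * (Pi.single 0 1 : E3) 1 +
        σ2 * (h / 2) * u y c2 * (Pi.single 1 1 : E3) 1
      rw [Pi.single_eq_same, Pi.single_eq_of_ne n10, k1]
      ring
    · change T (bc (F := Φ.F)) (u y) 2 = (a 2 + h * ((max e o : ℤ) : ℝ)) +
        σ1 * (h / 2) * u y c1 * (Pi.single 0 1 : E3) 2 +
        σ2 * (h / 2) * u y c2 * (Pi.single 1 1 : E3) 2
      rw [Pi.single_eq_of_ne n20, Pi.single_eq_of_ne n21, k2]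
      ring
  · intro c h1 h2 y hy y' hy'
    by_cases e1 : c = G.xp
    · rw [ho1 c (Or.inl e1) h1 y hy, ho1 c (Or.inl e1) h1 y' hy']
    by_cases e2 : c = G.xm
    · rw [ho1 c (Or.inr e2) h1 y hy, ho1 c (Or.inr e2) h1 y' hy']
    by_cases e3 : c = G.yp
    · rw [ho2 c (Or.inl e3) h2 y hy, ho2 c (Or.inl e3) h2 y' hy']
    by_cases e4 : c = G.ym
    · rw [ho2 c (Or.inr e4) h2 y hy, ho2 c (Or.inr e4) h2 y' hy']
    exact H.other G hLa hq hh hx hfx e1 e2 e3 e4 hy hy'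

/-- the labels of `OutNO` are exact on every ordinary tile -/
theorem lab_of_outNO {T : Tiling Om ι} {p : ℝ} {Cu : Set (Set E3) → ℝ} {e' η : ℝ} {Ex : Set ι}
    {tol : ι → ℝ} {Ds : Set E3} {B : E3 → E3 ≃ᵃ[ℝ] E3} {μ : ℝ} {a' : Fin 2 → ℝ} {g : E3 → E3}
    {n : Set E3 → Φ.F → ℝ} (hO : OutNO p Cu e' η Φ T f Ex κ L tol Ds B μ a' g u n) {k : ι}
    (hk : k ∉ Ex) : Lab Φ (P (T.H k)) f u :=
  ⟨hO.memK k hk, fun x hx y hy c hc => hO.zero k hk x hx y hy c hc,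
    fun x hx y hy c hc => hO.one k hk x hx y hy c hc⟩

/-- **(L4) for `OutNO`** -/
theorem qf_of_outNO {T : Tiling Om ι} {p : ℝ} {Cu : Set (Set E3) → ℝ} {e' η : ℝ} {Ex : Set ι}
    {tol : ι → ℝ} {Ds : Set E3} {B : E3 → E3 ≃ᵃ[ℝ] E3} {μ : ℝ} {a' : Fin 2 → ℝ} {g : E3 → E3}
    {n : Set E3 → Φ.F → ℝ} (hO : OutNO p Cu e' η Φ T f Ex κ L tol Ds B μ a' g u n) {k : ι}
    (hk : k ∉ Ex) (G : GSq Φ.F q a h e o i j) (hLa : IsOpen La) (hq : 1 ≤ q)
    (hh : 0 < h) (hw : ∀ c : Φ.F, IsLog q a h c.1 → (L c).card * (2 : ℝ)⁻¹ ^ κ c = h / 2)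
    {x : E3} (hx : x ∈ P (T.H k)) (hfx : Φ.Psi (f x) ∈ sqr a h e o i j) :
    ∃ (c1 c2 : Φ.F) (σ1 σ2 : ℝ) (b : E3), QF Φ κ L u (P (T.H k)) c1 c2 σ1 σ2 (h / 2) b ∧
      IsLog q a h c1.1 ∧ IsLog q a h c2.1 :=
  (lab_of_outNO hO hk).qf G hLa hq hh hw hx hfx



end

end Crest.Agent.R096.Qd_205
end

-- ▼ part R096/Qd3_205
section

/-!
# Row 96, NO0, QUAD (helper205), part 3: the clause `good` of `NONum` by counting volumes

The cubes over the squares of the slices have disjoint half-open interiors of volume `r ^ 3`; a cube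
without a point over a closed good square of the log foam lies in the exceptional set.
-/

set_option autoImplicit false
set_option linter.style.longLine false
set_option linter.unusedSectionVars false

open MeasureTheory Set Filter Topology Metric
open scoped ENNReal

namespace Crest.Agent.R096.Qd_205

open Crest.Agent.R096.Bsp_628 Crest.Agent.R096.Brk1_582 Crest.Agent.R096.Brk3_582
open Crest.Agent.R096.Brk5_582
open Crest.Agent.R096.Log1_582 Crest.Agent.R096.Log2_582 Crest.Agent.R096.Dic1_582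
open Crest.Agent.R096.Dic5_582
open Crest.Agent.R096.Msh_715
open Crest.Agent.R096.SkC1_961 Crest.Agent.R096.SkN1_477 Crest.Agent.R096.No0_477

noncomputable section

/-- half-open cube -/
def hcub (w : E3) (r : ℝ) : Set E3 := Set.pi univ fun i => Ico (w i) (w i + r)

theorem mem_hcub {w : E3} {r : ℝ} {x : E3} : x ∈ hcub w r ↔ ∀ i, w i ≤ x i ∧ x i < w i + r := by
  simp [hcub]

theorem hcub_sub (w : E3) (r : ℝ) : hcub w r ⊆ cub w r := fun _ hx i =>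
  ⟨(mem_hcub.1 hx i).1, (mem_hcub.1 hx i).2.le⟩

theorem measurable_hcub (w : E3) (r : ℝ) : MeasurableSet (hcub w r) :=
  MeasurableSet.univ_pi fun _ => measurableSet_Ico

theorem volume_hcub (w : E3) {r : ℝ} (hr : 0 ≤ r) : volume (hcub w r) = ENNReal.ofReal (r ^ 3) := by
  rw [hcub, volume_pi_pi]
  simp only [Real.volume_Ico, add_sub_cancel_left, Finset.prod_const, Finset.card_univ,
    Fintype.card_fin]
  rw [ENNReal.ofReal_pow hr]

theorem cub_nonempty (w : E3) {r : ℝ} (hr : 0 ≤ r) : (cub w r).Nonempty :=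
  ⟨w, fun i => ⟨le_rfl, by linarith⟩⟩

/-- the half-open cubes of different indices are disjoint -/
theorem hcub_disjoint {a : E3} {r : ℝ} (hr : 0 < r) {o : Fin 2 → ℤ} {q q' : ℤ × (Fin 2 → ℕ)}
    (hne : q ≠ q') : Disjoint (hcub (vx a r o q.1 q.2) r) (hcub (vx a r o q'.1 q'.2) r) := by
  rw [Set.disjoint_left]
  intro x hx hx'
  rw [mem_hcub] at hx hx'
  have key : ∀ b : ℝ, ∀ n n' : ℤ, ∀ y : ℝ, b + r * n ≤ y → y < b + r * n + r →
      b + r * n' ≤ y → y < b + r * n' + r → n = n' := by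
    intro b n n' y h1 h2 h3 h4
    have e1 : r * ((n : ℝ) - n') < r * 1 := by nlinarith
    have e2 : r * ((n' : ℝ) - n) < r * 1 := by nlinarith
    have e3 := lt_of_mul_lt_mul_left e1 hr.le
    have e4 := lt_of_mul_lt_mul_left e2 hr.le
    have e5 : n - n' < 1 := by exact_mod_cast e3
    have e6 : n' - n < 1 := by exact_mod_cast e4
    omega
  apply hne
  have h0 : o 0 + q.2 0 = o 0 + q'.2 0 := by
    have k := hx 0
    have k' := hx' 0
    simp only [vx, Matrix.cons_val_zero] at k k'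
    refine key (a 0) _ _ (x 0) ?_ ?_ ?_ ?_ <;> push_cast
    · exact k.1
    · exact k.2
    · exact k'.1
    · exact k'.2
  have h1 : o 1 + q.2 1 = o 1 + q'.2 1 := by
    have k := hx 1
    have k' := hx' 1
    simp only [vx, Matrix.cons_val_one, Matrix.cons_val_zero] at k k'
    refine key (a 1) _ _ (x 1) ?_ ?_ ?_ ?_ <;> push_cast
    · exact k.1
    · exact k.2
    · exact k'.1
    · exact k'.2
  have h2 : q.1 = q'.1 := by
    have k := hx 2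
    have k' := hx' 2
    simp only [vx, Matrix.cons_val] at k k'
    exact key (a 2) _ _ (x 2) k.1 k.2 k'.1 k'.2
  refine Prod.ext h2 ?_
  funext k
  fin_cases k
  · simpa using h0
  · simpa using h1

/-- **the number of cubes contained in a set is at most its volume / r³** -/
theorem card_cub_le {a : E3} {r : ℝ} (hr : 0 < r) {o : Fin 2 → ℤ} (S : Set E3)
    (B : Finset (ℤ × (Fin 2 → ℕ))) (hB : ∀ q ∈ B, hcub (vx a r o q.1 q.2) r ⊆ S) :
    ENNReal.ofReal ((B.card : ℝ) * r ^ 3) ≤ volume S := by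
  calc ENNReal.ofReal ((B.card : ℝ) * r ^ 3) = ∑ q ∈ B, volume (hcub (vx a r o q.1 q.2) r) := by
        simp_rw [volume_hcub _ hr.le]
        rw [Finset.sum_const, nsmul_eq_mul, ENNReal.ofReal_mul (by positivity),
          ENNReal.ofReal_natCast]
    _ = volume (⋃ q ∈ B, hcub (vx a r o q.1 q.2) r) := by
        rw [measure_biUnion_finset]
        · intro q _ q' _ hne
          exact hcub_disjoint hr hne
        · intro q _
          exact measurable_hcub _ _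
    _ ≤ volume S := measure_mono (iUnion₂_subset hB)

variable {δ κ0 R c0 : ℝ} {La Om : Set E3} {ι : Type} {Φ : FoamD δ κ0 R c0 La}
variable {q : ℕ} {a' : Fin 3 → ℝ} {h : ℝ} {f : E3 → E3}
  {u : E3 → Φ.F → ℝ} {κ : Φ.F → ℕ} {L : Φ.F → Finset ℝ}

theorem mem_Fc {M : ℕ} {Zs : Finset ℤ} {k : ℤ × (Fin 2 → ℕ)} :
    k ∈ Fc M Zs ↔ k.1 ∈ Zs ∧ ∀ j, k.2 j < M := by
  rw [Fc, Finset.mem_product, Fintype.mem_piFinset]
  simp

/-- **the clause `good` of `NONum`** -/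
theorem good_clause {T : Tiling Om ι} {p : ℝ} {Cu : Set (Set E3) → ℝ} {e' η' : ℝ} {Ex : Set ι}
    {tol : ι → ℝ} {Ds : Set E3} {B : E3 → E3 ≃ᵃ[ℝ] E3} {μ : ℝ} {al : Fin 2 → ℝ} {g : E3 → E3}
    {n : Set E3 → Φ.F → ℝ} (hO : OutNO p Cu e' η' Φ T f Ex κ L tol Ds B μ al g u n)
    {𝒬 : Set (Set E3)} {Ls : ℕ} {η r : ℝ} {hr : r ≠ 0} {a : E3} {o : Fin 2 → ℤ} {M : ℕ}
    {Zs : Finset ℤ} {U : ℤ → (Fin 2 → ℕ) → Prop} (hG : NOGeo T Ex 𝒬 Ls η r hr a o M Zs U)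
    (hLa : IsOpen La) (hq : 1 ≤ q) (hh : 0 < h)
    (hw : ∀ c : Φ.F, IsLog q a' h c.1 → (L c).card * (2 : ℝ)⁻¹ ^ κ c = h / 2)
    {ε : ℝ} (hκ : ∀ c : Φ.F, IsLog q a' h c.1 → (2 : ℝ)⁻¹ ^ κ c ≤ ε * r)
    {QQ : Set E3} (hQ : ∀ x ∈ QQ, ∃ (e o' i j : ℤ) (_ : GSq Φ.F q a' h e o' i j),
      Φ.Psi (f x) ∈ sqr a' h e o' i j) {S : Set E3}
    (hS : ∀ m ∈ Zs, ∀ v : Fin 2 → ℕ, (∀ j, v j < M) → cub (vx a r o m v) r ⊆ S)
    {ε1 ε2 : ℝ} (hvol : volume (S \ QQ) ≤ ENNReal.ofReal (ε1 * ((Zs.card : ℝ) * M ^ 2) * r ^ 3))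
    (hU : (({k : ℤ × (Fin 2 → ℕ) | k ∈ Fc M Zs ∧ ¬ U k.1 k.2}).ncard : ℝ) ≤
      ε2 * ((Zs.card : ℝ) * M ^ 2)) (hε1 : 0 ≤ ε1) (hε : ε1 + ε2 ≤ ε) :
    (({k : ℤ × (Fin 2 → ℕ) | k ∈ Fc M Zs ∧ ¬ (U k.1 k.2 ∧ ∃ c1 c2 σ1 σ2 w b,
      QF Φ κ L u (cub (vx a r o k.1 k.2) r) c1 c2 σ1 σ2 w b ∧
      (2 : ℝ)⁻¹ ^ κ c1 ≤ ε * r ∧ (2 : ℝ)⁻¹ ^ κ c2 ≤ ε * r)}).ncard : ℝ) ≤
      ε * ((Zs.card : ℝ) * M ^ 2) := by
  classical
  set N0 : ℝ := (Zs.card : ℝ) * M ^ 2 with hN0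
  have hN0' : 0 ≤ N0 := by positivity
  have hr3 : 0 < r ^ 3 := by have := hG.r0; positivity
  set Bd : Finset (ℤ × (Fin 2 → ℕ)) := (Fc M Zs).filter fun k =>
    hcub (vx a r o k.1 k.2) r ⊆ S \ QQ with hBd
  have h1 : (Bd.card : ℝ) ≤ ε1 * N0 := by
    have h2 := (card_cub_le hG.r0 (S \ QQ) Bd fun k hk => (Finset.mem_filter.1 hk).2).trans hvol
    rw [ENNReal.ofReal_le_ofReal_iff (by positivity)] at h2
    exact le_of_mul_le_mul_right h2 hr3
  have hsub : {k : ℤ × (Fin 2 → ℕ) | k ∈ Fc M Zs ∧ ¬ (U k.1 k.2 ∧ ∃ c1 c2 σ1 σ2 w b,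
      QF Φ κ L u (cub (vx a r o k.1 k.2) r) c1 c2 σ1 σ2 w b ∧
      (2 : ℝ)⁻¹ ^ κ c1 ≤ ε * r ∧ (2 : ℝ)⁻¹ ^ κ c2 ≤ ε * r)} ⊆
      {k : ℤ × (Fin 2 → ℕ) | k ∈ Fc M Zs ∧ ¬ U k.1 k.2} ∪ ↑Bd := by
    rintro k ⟨hk, hnot⟩
    obtain ⟨hm, hv⟩ := mem_Fc.1 hk
    by_cases hUk : U k.1 k.2
    · right
      rw [hBd, Finset.coe_filter]
      refine ⟨hk, ?_⟩
      intro x hx
      have hxc := hcub_sub _ _ hx
      refine ⟨hS _ hm _ hv hxc, ?_⟩
      intro hxQ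
      apply hnot
      refine ⟨hUk, ?_⟩
      obtain ⟨i, hi, -, hdis⟩ := hG.tile _ hm _ hv hUk
      have hiE : i ∉ Ex := by
        intro hiE
        have := hdis i hiE
        have h6 : P (T.H i) = ∅ := disjoint_self.1 this
        rw [hi] at h6
        exact (cub_nonempty _ hG.r0.le).ne_empty h6
      obtain ⟨e, o', i', j', G, hGx⟩ := hQ x hxQ
      obtain ⟨c1, c2, σ1, σ2, b, hqf, l1, l2⟩ := qf_of_outNO hO hiE G hLa hq hh hw
        (x := x) (by rw [hi]; exact hxc) hGx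
      rw [hi] at hqf
      exact ⟨c1, c2, σ1, σ2, h / 2, b, hqf, hκ _ l1, hκ _ l2⟩
    · left
      exact ⟨hk, hUk⟩
  have hfin : ({k : ℤ × (Fin 2 → ℕ) | k ∈ Fc M Zs ∧ ¬ U k.1 k.2} ∪ (↑Bd : Set _)).Finite :=
    ((Fc M Zs).finite_toSet.subset fun k hk => hk.1).union Bd.finite_toSet
  have h3 := (Set.ncard_le_ncard hsub hfin).trans (Set.ncard_union_le _ _)
  rw [Set.ncard_coe_finset] at h3
  have h4 : (({k : ℤ × (Fin 2 → ℕ) | k ∈ Fc M Zs ∧ ¬ (U k.1 k.2 ∧ ∃ c1 c2 σ1 σ2 w b,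
      QF Φ κ L u (cub (vx a r o k.1 k.2) r) c1 c2 σ1 σ2 w b ∧
      (2 : ℝ)⁻¹ ^ κ c1 ≤ ε * r ∧ (2 : ℝ)⁻¹ ^ κ c2 ≤ ε * r)}).ncard : ℝ) ≤
      (({k : ℤ × (Fin 2 → ℕ) | k ∈ Fc M Zs ∧ ¬ U k.1 k.2}).ncard : ℝ) + Bd.card := by
    exact_mod_cast h3
  have h5 : (ε1 + ε2) * N0 ≤ ε * N0 := mul_le_mul_of_nonneg_right hε hN0'
  linarith

end

end Crest.Agent.R096.Qd_205
end

-- ▼ part R096/Nnm2_205
section

/-!
# Row 96 (S0127), NO0 (helper205), NONUM part 2: the clauses `wt`, `ends`, `lip` of `NONum` from the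
numbers on the lattice edges; assembly `nonum_of`
-/

set_option autoImplicit false
set_option linter.style.longLine false
set_option linter.unusedSectionVars false

open MeasureTheory Set Filter Topology Metric
open scoped ENNReal

namespace Crest.Agent.R096.Nnm_205

open Crest.Agent.R096.Bsp_628 Crest.Agent.R096.Brk1_582 Crest.Agent.R096.Brk3_582
open Crest.Agent.R096.Brk5_582
open Crest.Agent.R096.Log1_582 Crest.Agent.R096.Log2_582 Crest.Agent.R096.Dic1_582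
open Crest.Agent.R096.Dic5_582
open Crest.Agent.R096.Msh_715 Crest.Agent.R096.SkC1_961 Crest.Agent.R096.SkN1_477
open Crest.Agent.R096.No0_477 Crest.Agent.R096.Gno_324
open Crest.Agent.R096.Ls_222 (Edg ea ev sgm_edg eIn mem_eIn EN us NN_le Psi_mem_La)
open Crest.Agent.R096.Qd_205 (mem_Fc good_clause)
open Crest.Agent.R096.Nl_234 (num_lip wf HWq)

noncomputable section

/-! ### real numbers -/



/-! ### the weights on the sides -/






/-- **the clause `ends`** -/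
theorem ends_clause {g F : E3 → E3} {a : E3} {r : ℝ} {o : Fin 2 → ℤ} {M : ℕ} {Zs : Finset ℤ}
    {s : Fin 3 → ℝ} {ee θ ε : ℝ} (hM : 0 < M) (hθ : 0 ≤ θ)
    (hF : ∀ j : Fin 2, ∑ m ∈ Zs, ∑ t ∈ Finset.range (M + 1),
      |(F (vx a r o m (fun i => if i = j then M else t)) -
        F (vx a r o m (fun i => if i = j then 0 else t))) j.castSucc - s j.castSucc * (M * r)| ≤
        ee * ((Zs.card : ℝ) * M))
    (hnear : ∀ m ∈ Zs, ∀ v : Fin 2 → ℕ, (∀ j, v j ≤ M) →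
      ‖g (vx a r o m v) - F (vx a r o m v)‖ ≤ θ) (hε : ee + 4 * θ ≤ ε) (j : Fin 2) :
    ∑ m ∈ Zs, ∑ t ∈ Finset.range (M + 1),
      |(g (vx a r o m (fun i => if i = j then M else t)) -
        g (vx a r o m (fun i => if i = j then 0 else t))) j.castSucc - s j.castSucc * (M * r)| ≤
      ε * ((Zs.card : ℝ) * M) := by
  have h1 : ∀ m ∈ Zs, ∀ t ∈ Finset.range (M + 1),
      |(g (vx a r o m (fun i => if i = j then M else t)) -
        g (vx a r o m (fun i => if i = j then 0 else t))) j.castSucc - s j.castSucc * (M * r)| ≤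
      |(F (vx a r o m (fun i => if i = j then M else t)) -
        F (vx a r o m (fun i => if i = j then 0 else t))) j.castSucc - s j.castSucc * (M * r)| +
        2 * θ := by
    intro m hm t ht
    have ht' : t ≤ M := by
      have := Finset.mem_range.1 ht
      omega
    have e1 := (norm_le_pi_norm (g (vx a r o m (fun i => if i = j then M else t)) -
      F (vx a r o m (fun i => if i = j then M else t))) j.castSucc).trans
      (hnear m hm (fun i => if i = j then M else t) (fun i => by split_ifs <;> omega))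
    have e2 := (norm_le_pi_norm (g (vx a r o m (fun i => if i = j then 0 else t)) -
      F (vx a r o m (fun i => if i = j then 0 else t))) j.castSucc).trans
      (hnear m hm (fun i => if i = j then 0 else t) (fun i => by split_ifs <;> omega))
    rw [Real.norm_eq_abs, abs_le] at e1 e2
    simp only [Pi.sub_apply] at e1 e2 ⊢
    set G1 := g (vx a r o m (fun i => if i = j then M else t)) j.castSucc
    set G0 := g (vx a r o m (fun i => if i = j then 0 else t)) j.castSucc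
    set F1 := F (vx a r o m (fun i => if i = j then M else t)) j.castSucc
    set F0 := F (vx a r o m (fun i => if i = j then 0 else t)) j.castSucc
    have e3 : G1 - G0 - s j.castSucc * (M * r) = (F1 - F0 - s j.castSucc * (M * r)) +
        ((G1 - F1) - (G0 - F0)) := by ring
    rw [e3]
    refine (abs_add_le _ _).trans (add_le_add le_rfl ?_)
    rw [abs_le]
    constructor <;> linarith [e1.1, e1.2, e2.1, e2.2]
  have hMr : (1 : ℝ) ≤ M := by exact_mod_cast hM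
  calc _ ≤ ∑ m ∈ Zs, ∑ t ∈ Finset.range (M + 1),
      (|(F (vx a r o m (fun i => if i = j then M else t)) -
        F (vx a r o m (fun i => if i = j then 0 else t))) j.castSucc - s j.castSucc * (M * r)| +
        2 * θ) := Finset.sum_le_sum fun m hm => Finset.sum_le_sum fun t ht => h1 m hm t ht
    _ = ∑ m ∈ Zs, ∑ t ∈ Finset.range (M + 1),
      |(F (vx a r o m (fun i => if i = j then M else t)) -
        F (vx a r o m (fun i => if i = j then 0 else t))) j.castSucc - s j.castSucc * (M * r)| +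
        (Zs.card : ℝ) * ((M + 1 : ℕ) * (2 * θ)) := by
        simp only [Finset.sum_add_distrib, Finset.sum_const, nsmul_eq_mul, Finset.card_range]
    _ ≤ ee * ((Zs.card : ℝ) * M) + (Zs.card : ℝ) * ((M + 1 : ℕ) * (2 * θ)) := by
        gcongr
        exact hF j
    _ ≤ ee * ((Zs.card : ℝ) * M) + 4 * θ * ((Zs.card : ℝ) * M) := by
        have h2 : ((M + 1 : ℕ) : ℝ) * (2 * θ) ≤ 4 * θ * M := by
          push_cast
          nlinarith
        have h3 := mul_le_mul_of_nonneg_left h2 (Nat.cast_nonneg (α := ℝ) Zs.card)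
        linarith
    _ = (ee + 4 * θ) * ((Zs.card : ℝ) * M) := by ring
    _ ≤ _ := mul_le_mul_of_nonneg_right hε (by positivity)

end

end Crest.Agent.R096.Nnm_205
end

-- ▼ part R096/Nnm3_205
section

/-!
# Row 96 (S0127), NO0 (helper205), NONUM part 3: `nonum_of`

`OutNO + Out + PreG + PreN ⟹ NONum` (276 #10742): the output of the machine and the numbers before the
machine give 477's structure `NONum`.
-/

set_option autoImplicit false
set_option linter.style.longLine false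
set_option linter.unusedSectionVars false

open MeasureTheory Set Filter Topology Metric
open scoped ENNReal

namespace Crest.Agent.R096.Nnm_205

open Crest.Agent.R096.Bsp_628 Crest.Agent.R096.Brk1_582 Crest.Agent.R096.Brk3_582
open Crest.Agent.R096.Brk5_582
open Crest.Agent.R096.Log1_582 Crest.Agent.R096.Log2_582 Crest.Agent.R096.Dic1_582
open Crest.Agent.R096.Dic5_582
open Crest.Agent.R096.Msh_715 Crest.Agent.R096.SkN1_477
open Crest.Agent.R096.SkC1_961 (E3 Hom3 FoamD Cfg NN)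
open Crest.Agent.R096.No0_477
open Crest.Agent.R096.Qd_205 (mem_Fc card_cub_le hcub hcub_sub cub_nonempty qf_of_outNO)
open Crest.Agent.R096.Nl_234 (num_lip wf HWq)
open Crest.Agent.R096.No_276 (QL PreG PreN)
open Crest.Agent.R096.Mbf_337

noncomputable section

section hole

variable {δ κ0 R c0 κ1 κ2 : ℝ} {La Om : Set E3} {ι : Type} {Φ : FoamD δ κ0 R c0 La}
  {T : Tiling Om ι} {f : E3 → E3} {X : Set Φ.F} {J0 J V : Φ.F → Set ι} {ct : Φ.F → ι}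
  {A : Φ.F → E3 ≃ᵃ[ℝ] E3} {lam : Φ.F → ℝ} {z : Φ.F → E3} {θ : Φ.F → E3 → E3} {φ : Φ.F → E3 → ℝ}

/-- the points which are mapped into a hole lie in the tiles of `V` -/
theorem hole_tile (hom : Hom3 f Om La) (hC : Cores Φ T f κ1 κ2 X J0 J V ct A lam z θ φ) {x : E3}
    (hx : x ∈ Om) {c : Φ.F} (hc : f x ∈ (Φ.B c).S) : ∃ i ∈ V c, x ∈ P (T.H i) := by
  by_cases hcX : c ∈ X
  · have h1 := (hC.exact_ c hcX).miss x hx
    refine ⟨ct c, by rw [(hC.one c hcX).2.2]; exact mem_singleton _, ?_⟩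
    by_contra h
    exact h1 h hc
  · have ht := hC.tiny c hcX
    obtain ⟨i, hi, y, hy, hfy⟩ := ht.mem
    have e : f x = (Φ.B c).lo := by
      funext k
      have h1 := hc k
      rw [← ht.pt] at h1
      exact le_antisymm h1.2 h1.1
    obtain ⟨fi, h1, h2, h3, h4, h5, h6⟩ := hom
    have hyO : y ∈ Om := T.sub i (I_sub_P _ hy)
    have : x = y := by
      rw [← h3 x hx, ← h3 y hyO, e, hfy]
    exact ⟨i, ht.sub (ht.sub0 hi), this ▸ I_sub_P _ hy⟩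

end hole

/-- a vertex of the slices is in `QL L` -/
theorem vx_mem_QL {Om : Set E3} {ι : Type} {T : Tiling Om ι} {Ex : Set ι} {𝒬 : Set (Set E3)}
    {L : ℕ} {η r : ℝ} {hr : r ≠ 0} {a : E3} {o : Fin 2 → ℤ} {M : ℕ} {Zs : Finset ℤ}
    {U : ℤ → (Fin 2 → ℕ) → Prop} (hG : NOGeo T Ex 𝒬 L η r hr a o M Zs U) {m : ℤ} (hm : m ∈ Zs)
    {v : Fin 2 → ℕ} (hv : ∀ j, v j ≤ M) : vx a r o m v ∈ QL L := by
  have h0 := hG.r0
  have key : ∀ j : Fin 2, |a j.castSucc + r * (o j + v j)| < 1 := by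
    intro j
    have h1 := (hG.lo j).2
    have h2 := (hG.hi j).2
    have h3 : (0 : ℝ) ≤ v j := Nat.cast_nonneg _
    have h4 : (v j : ℝ) ≤ M := by exact_mod_cast hv j
    rw [abs_lt]
    constructor <;> nlinarith
  refine ⟨?_, ?_, ?_⟩
  · exact key 0
  · exact key 1
  · have h1 := hG.zs m hm
    have : vx a r o m v 2 = a 2 + r * m := rfl
    rw [this]
    linarith

variable {δ κ0 R c0 : ℝ} {La : Set E3} {ι : Type}

/-- **`nonum_of`** (276 #10742) -/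
theorem nonum_of {p : ℝ} (hLa : IsOpen La) {s : Fin 3 → ℝ} {L : ℕ}
    {η ε ε' e₂ C0 κ1 κ2 κ3 κp μ S1 S KS : ℝ} {Cs : Set (Set E3) → ℝ} {𝒮 : Set (Set (Set E3))} {t : ℝ} {Cf : ℝ≥0∞}
    {f0 f1 : E3 → E3} {q : ℕ} {al : Fin 3 → ℝ} {h : ℝ} {Φ : FoamD δ κ0 R c0 La}
    {T : Tiling (QL L) ι} {X : Set Φ.F} {J0 J V : Φ.F → Set ι} {ct : Φ.F → ι}
    {A : Φ.F → E3 ≃ᵃ[ℝ] E3} {lam : Φ.F → ℝ} {z : Φ.F → E3} {θ : Φ.F → E3 → E3}
    {φ : Φ.F → E3 → ℝ} {Mg : Φ.F → ℕ} {𝒬 : Set (Set E3)} {r : ℝ} {hr : r ≠ 0} {a : E3}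
    {o : Fin 2 → ℤ} {M : ℕ} {Zs : Finset ℤ} {U : ℤ → (Fin 2 → ℕ) → Prop} {β : Type} {b : β → E3}
    {R0 R1 : β → ℝ} {Sc : β → Finset ι} {d Kc cnt : ι → ℝ}
    (G : PreG p s L η ε ε' C0 κ1 κ2 𝒮 t Cf f0 f1 q al h Φ T X J0 J V ct A lam z θ φ 𝒬 r hr a o
      M Zs U b R0 R1 Sc d Kc cnt)
    {Z : Φ.F → Set ℝ} {m0 : Φ.F → ℕ} {κ : Φ.F → ℕ} {Lv : Φ.F → Finset ℝ}
    (N : PreN p s L η ε ε' e₂ S1 S KS κp μ κ3 Cs 𝒮 f1 q al h Φ T X V ct A lam z Mg r hr a o M Zs U b R1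
      Sc cnt Z m0 κ Lv)
    {Cu C : Set (Set E3) → ℝ} {e' eo η' : ℝ} {tol : ι → ℝ} {Ds : Set E3} {B : E3 → E3 ≃ᵃ[ℝ] E3}
    {μ' : ℝ} {al' : Fin 2 → ℝ} {g : E3 → E3} {u : E3 → Φ.F → ℝ} {n : Set E3 → Φ.F → ℝ}
    (hOut : SkN2_477.OutF C0 C eo Φ T f1 X V ct A lam κ Lv tol Ds μ' g)
    (hO : OutNO p Cu e' η' Φ T f1 (⋃ c, V c) κ Lv tol Ds B μ' al' g u n)
    (hCu : ∀ 𝒦, 0 < Cu 𝒦) {Cq : ℝ} (hCq : Cu 𝒬 ≤ Cq) (hR : 0 < R) (hκ3 : 0 < κ3)
    (hε : 0 ≤ ε) (hS : 0 ≤ S) (hμ : μ' ≤ r * S) (htol : ∀ i, tol i ≤ 1) {εn : ℝ}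
    (hκ : ∀ c : Φ.F, IsLog q al h c.1 → (2 : ℝ)⁻¹ ^ κ c ≤ εn * r)
    {Kj : ℤ → (Fin 2 → ℕ) → ℝ} (hKj : ∀ m v, 0 ≤ Kj m v)
    (hj : ∀ m ∈ Zs, ∀ v, (∀ j, v j < M) → ¬ U m v → ∀ y ∈ usq (fr (vx a r o m v) r hr),
      ∀ y' ∈ usq (fr (vx a r o m v) r hr), ‖g y - g y'‖ ≤ Kj m v * ‖y - y'‖)
    {ε3 : ℝ} (hKs : ∀ D : Finset (ℤ × (Fin 2 → ℕ)), D ⊆ Fc M Zs → (∀ k ∈ D, ¬ U k.1 k.2) →
      ∑ k ∈ D, Kj k.1 k.2 ^ p ≤ ε3 * ((Zs.card : ℝ) * M ^ 2))
    (h5 : 5 * ε ≤ εn)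
    (hn : (2 * Cq) ^ p * ε + (R * κ3 * Cq) ^ p * ε' + ε3 ≤ εn) :
    NONum p Φ f1 κ Lv s εn (2 * Cq * S + 1) r hr a o M Zs U g u := by
  classical
  have h0 := G.geo.r0
  have hM := G.geo.M0
  have hN0 : 0 ≤ (Zs.card : ℝ) * M ^ 2 := by positivity
  have hCq0 : 0 ≤ Cq := (hCu 𝒬).le.trans hCq
  have hcov : ∀ m ∈ Zs, ∀ v, (∀ j, v j < M) → U m v → ∃ x ∈ cub (vx a r o m v) r, ∃ c : Φ.F,
      Φ.Psi (f1 x) ∈ Pc Φ.F c := by
    intro m hm v hv hU
    obtain ⟨x, hx⟩ := cub_nonempty (vx a r o m v) h0.le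
    obtain ⟨i, hi, -, -⟩ := G.geo.tile m hm v hv hU
    have hxO : x ∈ QL L := T.sub i (hi ▸ hx)
    have hxL : f1 x ∈ La := by
      obtain ⟨fi, h1, -⟩ := G.hom
      exact h1 hxO
    have hh : ∀ c, f1 x ∉ (Φ.B c).S := by
      intro c hc
      obtain ⟨i', hi', hx'⟩ := hole_tile G.hom G.cores hxO hc
      exact G.geo.off m hm v hv hU x hx i' hx' (mem_iUnion.2 ⟨c, hi'⟩)
    obtain ⟨c, hc⟩ := (Brk3_582.foam Φ.bf hLa).cov _ (Ls_222.Psi_mem_La hLa hxL hh)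
    exact ⟨x, hx, c, hc⟩
  refine ⟨?_, ?_, ?_, ?_⟩
  · -- good
    have hr3 : 0 < r ^ 3 := by positivity
    set QQ : Set E3 := {x | ∃ e o' i j : ℤ, GSq Φ.F q al h e o' i j ∧
      Φ.Psi (f1 x) ∈ sqr al h e o' i j} with hQQ
    set Bd : Finset (ℤ × (Fin 2 → ℕ)) := (Fc M Zs).filter fun k =>
      hcub (vx a r o k.1 k.2) r ⊆ {x | x ∈ QL L ∧ ¬ ∃ e o' i j : ℤ, GSq Φ.F q al h e o' i j ∧
        Φ.Psi (f1 x) ∈ sqr al h e o' i j} with hBd
    have h1 : (Bd.card : ℝ) ≤ ε * ((Zs.card : ℝ) * M ^ 2) := by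
      have h2 := (card_cub_le h0 _ Bd fun k hk => (Finset.mem_filter.1 hk).2).trans G.gvol
      rw [ENNReal.ofReal_le_ofReal_iff (by positivity)] at h2
      exact le_of_mul_le_mul_right h2 hr3
    have hsub : {k : ℤ × (Fin 2 → ℕ) | k ∈ Fc M Zs ∧ ¬ (U k.1 k.2 ∧ ∃ c1 c2 σ1 σ2 w b,
        QF Φ κ Lv u (cub (vx a r o k.1 k.2) r) c1 c2 σ1 σ2 w b ∧
        (2 : ℝ)⁻¹ ^ κ c1 ≤ εn * r ∧ (2 : ℝ)⁻¹ ^ κ c2 ≤ εn * r)} ⊆
        {k : ℤ × (Fin 2 → ℕ) | k ∈ Fc M Zs ∧ ¬ U k.1 k.2} ∪ ↑Bd := by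
      rintro k ⟨hk, hnot⟩
      obtain ⟨hm, hv⟩ := mem_Fc.1 hk
      by_cases hUk : U k.1 k.2
      · right
        rw [hBd, Finset.coe_filter]
        refine ⟨hk, ?_⟩
        obtain ⟨i, hi, -, hdis⟩ := G.geo.tile _ hm _ hv hUk
        intro x hx
        have hxc := hcub_sub _ _ hx
        refine ⟨T.sub i (hi ▸ hxc), ?_⟩
        intro hxQ
        apply hnot
        refine ⟨hUk, ?_⟩
        have hiE : i ∉ ⋃ c, V c := G.geo.off _ hm _ hv hUk x hxc i (hi ▸ hxc)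
        obtain ⟨e, o', i', j', Gs, hGx⟩ := hxQ
        obtain ⟨c1, c2, σ1, σ2, b, hqf, l1, l2⟩ := qf_of_outNO hO hiE Gs hLa G.q1 G.h0 N.wlog
          (x := x) (by rw [hi]; exact hxc) hGx
        rw [hi] at hqf
        exact ⟨c1, c2, σ1, σ2, h / 2, b, hqf, hκ _ l1, hκ _ l2⟩
      · left
        exact ⟨hk, hUk⟩
    have hfin : ({k : ℤ × (Fin 2 → ℕ) | k ∈ Fc M Zs ∧ ¬ U k.1 k.2} ∪ (↑Bd : Set _)).Finite :=
      ((Fc M Zs).finite_toSet.subset fun k hk => hk.1).union Bd.finite_toSet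
    have h3 := (Set.ncard_le_ncard hsub hfin).trans (Set.ncard_union_le _ _)
    rw [Set.ncard_coe_finset] at h3
    have h4 : (({k : ℤ × (Fin 2 → ℕ) | k ∈ Fc M Zs ∧ ¬ (U k.1 k.2 ∧ ∃ c1 c2 σ1 σ2 w b,
        QF Φ κ Lv u (cub (vx a r o k.1 k.2) r) c1 c2 σ1 σ2 w b ∧
        (2 : ℝ)⁻¹ ^ κ c1 ≤ εn * r ∧ (2 : ℝ)⁻¹ ^ κ c2 ≤ εn * r)}).ncard : ℝ) ≤
        (({k : ℤ × (Fin 2 → ℕ) | k ∈ Fc M Zs ∧ ¬ U k.1 k.2}).ncard : ℝ) + Bd.card := by
      exact_mod_cast h3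
    have h6 := G.nU
    have h7 : 2 * ε * ((Zs.card : ℝ) * M ^ 2) ≤ εn * ((Zs.card : ℝ) * M ^ 2) :=
      mul_le_mul_of_nonneg_right (by linarith) hN0
    linarith
  · -- wt
    obtain ⟨x, hx0, hx1, hx2⟩ := N.wt
    exact ⟨x, hx0, hx1, fun j => (hx2 j).trans (mul_le_mul_of_nonneg_right (by linarith) hN0)⟩
  · -- ends
    intro j
    refine ends_clause (F := f1) (θ := ε) hM hε G.ends ?_ (by linarith) j
    intro m hm v hv
    have hxO := vx_mem_QL G.geo hm hv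
    have hxL : f1 (vx a r o m v) ∈ La := by
      obtain ⟨fi, h1, -⟩ := G.hom
      exact h1 hxO
    obtain ⟨c, hc, hc'⟩ := Φ.bf.cov _ hxL
    exact (hOut.near _ hxO ⟨c, hc⟩ hc').trans (G.size ⟨c, hc⟩)
  · -- lip
    obtain ⟨Xq, hX0, hXN, hX1, hX2⟩ := N.sq
    have hmany : ∀ c c' : Φ.F, (Pc Φ.F c ∩ Pc Φ.F c').Nonempty →
        c.1.sz ≤ (R * κ3) * wf Φ κ Lv c' := by
      intro c c' hcc
      have h1 := Φ.cmp c c' hcc
      have h2 := N.lev.many c'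
      have h3 : R * c'.1.sz ≤ R * (κ3 * wf Φ κ Lv c') := mul_le_mul_of_nonneg_left h2 hR.le
      calc c.1.sz ≤ R * c'.1.sz := h1
        _ ≤ R * (κ3 * wf Φ κ Lv c') := h3
        _ = _ := by ring
    have hgc : ContinuousOn g (QL L) := by
      obtain ⟨fi, -, -, -, -, h5, -⟩ := hOut.homeo
      exact h5
    obtain ⟨X', hX'0, hX'1, hX'2⟩ := num_lip hLa hO hCu G.geo (q := q) (al := al) (s := h) G.h0
      (fun c hc => by unfold wf; rw [N.wlog c hc]; linarith) (Mw := R * κ3) (by positivity) hmany hS hμ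
      (X := Xq) hX0 (fun m hm v hv hU i hi => ⟨hXN m hm v hv hU i hi, htol i⟩) hcov hgc hKj hj
      hCq0 hCq
    refine ⟨X', hX'0, hX'1, (hX'2 _ _ _ hX1 hX2 hKs).trans ?_⟩
    calc (2 * Cq) ^ p * (ε * ((Zs.card : ℝ) * M ^ 2)) +
        (R * κ3 * Cq) ^ p * (ε' * ((Zs.card : ℝ) * M ^ 2)) + ε3 * ((Zs.card : ℝ) * M ^ 2) =
        ((2 * Cq) ^ p * ε + (R * κ3 * Cq) ^ p * ε' + ε3) * ((Zs.card : ℝ) * M ^ 2) := by ring
      _ ≤ _ := mul_le_mul_of_nonneg_right hn hN0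

end

end Crest.Agent.R096.Nnm_205
end

-- ▼ part R096/No10_276

/-!
# Row 96, NO0 (helper276), part 10: the composition `NOS p ⇐ MachNO p + NOPre p` (all `p ≥ 1`)
-/

set_option autoImplicit false
set_option linter.unusedSectionVars false
set_option linter.style.longLine false

open Set Function MeasureTheory Filter Topology Metric
open scoped ENNReal
open Crest.AnalysisR.VecCalc3 Crest.AnalysisR.Sobolev

namespace Crest.Agent.R096.No_276

open Crest.Agent.R096.Bsp_628 Crest.Agent.R096.Brk1_582 Crest.Agent.R096.Brk3_582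
open Crest.Agent.R096.Brk5_582 Crest.Agent.R096.Log2_582 Crest.Agent.R096.Dic1_582
open Crest.Agent.R096.Msh_715 Crest.Agent.R096.Ea_713 Crest.Agent.R96.Hole_348
open Crest.Agent.R096.Sk_962 (Q0 Qc0 dg SH)
open Crest.Agent.R096.Sk4_663 (Zd)
open Crest.Agent.R096.Sq_477
open Crest.Agent.R096.SkC1_961 (E3 Hom3 FoamD Cfg NN)
open Crest.Agent.R096.SkN1_477 Crest.Agent.R096.SkN2_477 Crest.Agent.R096.No0_477
open Crest.Agent.R096.Nl_234 Crest.Agent.R096.No7_477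
open Crest.Agent.R096.Mbf_337 Crest.Agent.R096.Nkt_780 Crest.Agent.R096.Nnm_205

noncomputable section

section numbers

/-- total energy -/
theorem num1 {Cs T2 Pc KS L ε' εt Cp v : ℝ} (hL : 1 ≤ L)
    (h1 : Cs * (T2 + Cp) * ε' ≤ v) (h2 : Cs * T2 * εt ≤ v) (hv : v ≤ 1 / (8 * L)) :
    Cs * (T2 * (Pc * (KS / L) + ε' + εt) + Cp * ε') + v ≤ (Cs * T2 * Pc * KS + 4) / L := by
  have hL0 : 0 < L := by linarith
  have e1 : Cs * (T2 * (Pc * (KS / L) + ε' + εt) + Cp * ε') + v =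
      Cs * T2 * Pc * KS / L + Cs * (T2 + Cp) * ε' + Cs * T2 * εt + v := by ring
  rw [e1, add_div]
  have e2 : 1 / (8 * L) = (1 / 8) * (1 / L) := by field_simp
  have e3 : 4 / L = 4 * (1 / L) := by ring
  have e4 : 0 < 1 / L := by positivity
  rw [e2] at hv
  rw [e3]
  linarith

/-- energy of the shell -/
theorem num2 {Cs T2 Pc KS L ε' εt Cp v e₂ e2' η : ℝ} (hL : 1 ≤ L) (hη : 0 ≤ η) (he : 0 ≤ e₂)
    (h1 : Cs * (T2 + Cp) * ε' ≤ v) (h2 : Cs * T2 * εt ≤ v) (hv : v ≤ e₂ / (8 * L))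
    (h3 : Cs * T2 * Pc * e2' ≤ e₂ / 4) :
    Cs * (T2 * (Pc * ((KS * η + e2') / L) + ε' + εt) + Cp * ε') + v ≤
      ((Cs * T2 * Pc * KS + 4) * η + e₂) / L := by
  have hL0 : 0 < L := by linarith
  have e4 : 0 < 1 / L := by positivity
  have e1 : Cs * (T2 * (Pc * ((KS * η + e2') / L) + ε' + εt) + Cp * ε') + v =
      Cs * T2 * Pc * KS * η * (1 / L) + (Cs * T2 * Pc * e2') * (1 / L) + Cs * (T2 + Cp) * ε' +
        Cs * T2 * εt + v := by ring
  have e5 : ((Cs * T2 * Pc * KS + 4) * η + e₂) / L =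
      Cs * T2 * Pc * KS * η * (1 / L) + 4 * η * (1 / L) + e₂ * (1 / L) := by ring
  rw [e1, e5]
  have e2 : e₂ / (8 * L) = e₂ / 8 * (1 / L) := by field_simp
  rw [e2] at hv
  have e6 := mul_le_mul_of_nonneg_right h3 e4.le
  have e7 : 0 ≤ 4 * η * (1 / L) := by positivity
  have e8 : 0 ≤ e₂ * (1 / L) := by positivity
  have e9 : e₂ / 4 * (1 / L) = 1 / 4 * (e₂ * (1 / L)) := by ring
  have e10 : e₂ / 8 * (1 / L) = 1 / 8 * (e₂ * (1 / L)) := by ring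
  linarith

theorem energy_le {D1 A B : ℝ≥0∞} {Cs x v y : ℝ} (hD : D1 = ENNReal.ofReal Cs) (hCs : 0 ≤ Cs)
    (hx : 0 ≤ x) (hv : 0 ≤ v) (hA : A ≤ ENNReal.ofReal x) (h : Cs * x + v ≤ y)
    (hB : B = ENNReal.ofReal v) : D1 * A + B ≤ ENNReal.ofReal y := by
  rw [hD, hB]
  calc ENNReal.ofReal Cs * A + ENNReal.ofReal v
      ≤ ENNReal.ofReal Cs * ENNReal.ofReal x + ENNReal.ofReal v := by gcongr
    _ = ENNReal.ofReal (Cs * x + v) := by
        rw [← ENNReal.ofReal_mul hCs, ← ENNReal.ofReal_add (by positivity) hv]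
    _ ≤ _ := ENNReal.ofReal_le_ofReal h

theorem num3 {T2 Pc Cp ε ε' εt z M r : ℝ} (hz : 0 < z) (hM : 0 < M) (hr : 0 < r) :
    (T2 * (Pc * (ε * (z * M ^ 2) * r ^ 3) + ε' * (z * M ^ 2) * r ^ 3 + εt) +
      Cp * (ε' * (z * M ^ 2) * r ^ 3)) / r ^ 3 =
    (T2 * (Pc * ε + ε') + Cp * ε' + T2 * εt / (z * M ^ 2 * r ^ 3)) * (z * M ^ 2) := by
  field_simp
  ring

/-- the size of the levels of the logs -/
theorem kap_le {h y x : ℝ} {k m1 : ℕ} (hy : 0 < y) (hm : ⌈h / (2 * y)⌉₊ + 1 ≤ m1) (hk : m1 ≤ k)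
    (h1 : (k : ℝ) * x = h / 2) : x ≤ y := by
  have h2 : (m1 : ℝ) ≤ k := by exact_mod_cast hk
  have h3 : h / (2 * y) ≤ m1 := by
    refine (Nat.le_ceil _).trans ?_
    exact_mod_cast (Nat.le_succ _).trans hm
  have h8 : (0 : ℝ) < k := by
    have : (1 : ℕ) ≤ k := le_trans (Nat.le_add_left 1 _) (hm.trans hk)
    exact_mod_cast this
  have h6 := mul_le_mul_of_nonneg_right (h3.trans h2) hy.le
  have h7 : h / (2 * y) * y = h / 2 := by field_simp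
  rw [h7, ← h1] at h6
  exact le_of_mul_le_mul_left h6 h8

end numbers

theorem N0_pos {Om : Set E3} {ι : Type} {T : Tiling Om ι} {Ex : Set ι} {𝒬 : Set (Set E3)} {L : ℕ}
    {η r : ℝ} {hr : r ≠ 0} {a : E3} {o : Fin 2 → ℤ} {M : ℕ} {Zs : Finset ℤ}
    {U : ℤ → (Fin 2 → ℕ) → Prop} (G : NOGeo T Ex 𝒬 L η r hr a o M Zs U) :
    0 < (Zs.card : ℝ) * M ^ 2 * r ^ 3 := by
  have h1 : (0 : ℝ) < Zs.card := by exact_mod_cast Finset.card_pos.2 G.zne
  have h2 : (0 : ℝ) < M := by exact_mod_cast G.M0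
  have h3 := G.r0
  positivity

section Comp

variable {δ κ0 R c0 : ℝ} {ι : Type}

/-- after the machine -/
theorem nog_of_out {p : ℝ} (hp : 1 ≤ p) {f : R3 → R3} {U₀ W₀ : Set R3} (a1 : IsOpen U₀)
    (a4 : IsOpen W₀) (a8 : IsHomeomorphOn f U₀ W₀) (a7 : Qc0 ⊆ U₀)
    {s : Fin 3 → ℝ} {L : ℕ} (hL : (L : ℝ) ≠ 0)
    {η ε ε' e₂ S1 S KS κp μ κ3 C0 κ1 κ2 : ℝ} {C : Set (Set E3) → ℝ}
    {𝒮 : Set (Set (Set E3))} {t : ℝ} {Cf : ℝ≥0∞} {f1 : E3 → E3} {q : ℕ} {al : Fin 3 → ℝ} {h : ℝ}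
    {Φ : FoamD δ κ0 R c0 (e3 '' (f '' Q0))} {T : Tiling (QL L) ι} {X : Set Φ.F}
    {J0 J V : Φ.F → Set ι}
    {ct : Φ.F → ι} {A : Φ.F → E3 ≃ᵃ[ℝ] E3} {lam : Φ.F → ℝ} {z : Φ.F → E3} {θ : Φ.F → E3 → E3}
    {φ : Φ.F → E3 → ℝ} {Mg : Φ.F → ℕ} {𝒬 : Set (Set E3)} {r : ℝ} {hr : r ≠ 0} {a : E3}
    {o : Fin 2 → ℤ} {M : ℕ} {Zs : Finset ℤ} {U : ℤ → (Fin 2 → ℕ) → Prop} {β : Type} {b : β → E3}
    {R0 R1 : β → ℝ} {Sc : β → Finset ι} {d Kc cnt : ι → ℝ} {Z : Φ.F → Set ℝ} {m0 : Φ.F → ℕ}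
    {κ : Φ.F → ℕ} {Lv : Φ.F → Finset ℝ} {em em' ηm : ℝ} {tol : ι → ℝ} {g : E3 → E3}
    {Cu : Set (Set E3) → ℝ} {B' : E3 → E3 ≃ᵃ[ℝ] E3} {a' : Fin 2 → ℝ}
    {u : E3 → Φ.F → ℝ} {n : Set E3 → Φ.F → ℝ}
    (hout : OutF C0 C em Φ T f1 X V ct A lam κ Lv tol (DsN a r o M Zs U) (S1 * r) g)
    (hNO : OutNO p Cu em' ηm Φ T f1 (⋃ c, V c) κ Lv tol (DsN a r o M Zs U) B' (S1 * r) a' g u n)
    (hCu : ∀ 𝒦, 0 < Cu 𝒦) (hC0 : 0 < C0) (hC : ∀ 𝒦, 0 < C 𝒦)
    (G : PreG p s L η ε ε' C0 κ1 κ2 𝒮 t Cf (fL f L hL) f1 q al h Φ T X J0 J V ct A lam z θ φ 𝒬 r hr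
      a o M Zs U b R0 R1 Sc d Kc cnt)
    (N : PreN p s L η ε ε' e₂ S1 S KS κp μ κ3 C 𝒮 f1 q al h Φ T X V ct A lam z Mg r hr a o M Zs U b R1
      Sc cnt Z m0 κ Lv) (hX : p < 3 ∨ X = univ)
    {CuM : ℝ} (hCM0 : 0 ≤ CuM) (hCM : ∀ 𝒦 ∈ 𝒮, Cu 𝒦 ≤ CuM) (htol0 : ∀ i, 0 < tol i)
    {εt : ℝ} (hεt : 0 ≤ εt) (htol : ∑' i, ENNReal.ofReal (tol i ^ p) *
      (volume (P (T.H i)) + ENNReal.ofReal (cnt i)) ≤ ENNReal.ofReal εt)
    (hε : 0 ≤ ε) (hε' : 0 ≤ ε') (hη : 0 < η) (he₂ : 0 ≤ e₂) (hKS : 0 ≤ KS)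
    (hR : 0 < R) (hκ3 : 0 < κ3) (hS : 0 ≤ S) (hS1 : S1 ≤ S) (htol1 : ∀ i, tol i ≤ 1) {εn : ℝ}
    (hκ : ∀ c : Φ.F, IsLog q al h c.1 → (2 : ℝ)⁻¹ ^ κ c ≤ εn * r)
    (h5 : 5 * ε ≤ εn)
    (hn : (2 * CuM) ^ p * ε + (R * κ3 * CuM) ^ p * ε' + (2 ^ p * ((2 * CuM) ^ p * ε + ε') +
      C0 ^ p * ε' + 2 ^ p * εt / ((Zs.card : ℝ) * M ^ 2 * r ^ 3)) ≤ εn)
    {v e : ℝ} (hv : 0 < v)
    (hlay : NONum p Φ f1 κ Lv s εn (2 * CuM * S + 1) r hr a o M Zs U g u →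
      ∃ (N : ℕ) (z : Fin N → ℝ), 0 < N ∧ (∀ k, |L * z k| ≤ 1 / 2) ∧
          (∀ k, ∃ m ∈ Zs, z k = a 2 + r * m) ∧
          ∑ k, ∑ i : Fin 2, (∫⁻ y in ball (0 : Fin 2 → ℝ) (1 - η),
            ‖Dp (sl g (z k) 2) i y - Pi.single ((2 : Fin 3).succAbove i)
              (s ((2 : Fin 3).succAbove i))‖ₑ ^ p) ≤ N * ENNReal.ofReal e) :
    ∃ E1 E2 : ℝ≥0∞,
      E1 ≤ ENNReal.ofReal (2 ^ p * ((2 * CuM) ^ p * (KS / L) + ε' + εt) + C0 ^ p * ε') ∧
      E2 ≤ ENNReal.ofReal (2 ^ p * ((2 * CuM) ^ p * ((KS * η + e₂) / L) + ε' + εt) + C0 ^ p * ε') ∧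
      NOG p s f L η ((1 + ENNReal.ofReal (Chr 3 p t) * Cf) * E1 + ENNReal.ofReal v)
        ((1 + ENNReal.ofReal (Chr 3 p t) * Cf) * E2 + ENNReal.ofReal v) e := by
  have hp0 : 0 < p := by linarith
  have hLaO : IsOpen (e3 '' (f '' Q0)) := La_open a4 a8 a7
  have hr0 : 0 < r := G.geo.r0
  obtain ⟨Kt, hKt0, hKtl, hs1, hs2', hs3⟩ := kt_of hp hLaO hout hNO hCu hC0 hC G N hCM0 hCM htol0
    hεt htol hε hε' hη.le he₂ hKS hr0.le
  refine ⟨_, _, hs1, hs2', ?_⟩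
  -- junk squares
  have hgc : ContinuousOn g (QL L) := by
    obtain ⟨_, -, -, -, -, h5, -⟩ := hout.homeo
    exact h5
  have h1 : (0 : ℝ) < Zs.card := by exact_mod_cast Finset.card_pos.2 G.geo.zne
  have h2 : (0 : ℝ) < M := by exact_mod_cast G.geo.M0
  have hC0p : 0 ≤ C0 ^ p := Real.rpow_nonneg hC0.le p
  have hB0 : 0 ≤ 2 ^ p * ((2 * CuM) ^ p * (ε * ((Zs.card : ℝ) * M ^ 2) * r ^ 3) +
          ε' * ((Zs.card : ℝ) * M ^ 2) * r ^ 3 + εt) +
          C0 ^ p * (ε' * ((Zs.card : ℝ) * M ^ 2) * r ^ 3) := by positivity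
  obtain ⟨Kj, hKj0, hKjl, hKjs⟩ := junk_of hp0 (hr := hr) hr0 G.geo.lo G.geo.hi G.geo.zs G.jV G.cn hgc
    hKt0 hKtl hB0 hs3
  have hnum := nonum_of hLaO G N hout hNO hCu (hCM _ G.shape) hR hκ3 hε hS
    (by rw [mul_comm]; exact mul_le_mul_of_nonneg_left hS1 hr0.le) htol1 hκ hKj0 hKjl
    (ε3 := 2 ^ p * ((2 * CuM) ^ p * ε + ε') + C0 ^ p * ε' +
      2 ^ p * εt / ((Zs.card : ℝ) * M ^ 2 * r ^ 3))
    (fun D hD hDU => (hKjs D hD hDU).trans (le_of_eq (num3 h1 h2 hr0))) h5 hn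
  obtain ⟨Nl, zl, hNl, hzl, hzm, hlays⟩ := hlay hnum
  obtain ⟨Cn, hCn, hnb⟩ := G.nb
  have hp3 : p < 3 ∨ Vti X V = ∅ := by
    rcases hX with h | h
    · exact Or.inl h
    · right
      ext i
      simp [Vti, h]
  have hnear : ∀ y ∈ QL L, ‖g y - f1 y‖ ≤ C0 * infDist (f1 y) (e3 '' (f '' Q0))ᶜ := by
    intro y hy
    have hy1 : f1 y ∈ e3 '' (f '' Q0) := by
      obtain ⟨_, h1, -⟩ := G.hom
      exact h1 hy
    obtain ⟨c, hc, hyc⟩ := Φ.bf.cov _ hy1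
    exact (hout.near y hy ⟨c, hc⟩ hyc).trans
      (mul_le_mul_of_nonneg_left (G.rho ⟨c, hc⟩ _ hyc) hC0.le)
  refine nog_end hp0 (s := s) a1 a8 a7 hL hη G.mac hp3 hout.homeo hout.pl
    (fun i _ => hKt0 i) hKtl hC0.le hCn hnear G.osc hnb hv hNl hzl
    (fun k y hy c hyc => ?_) hlays
  obtain ⟨m, hm, hzk⟩ := hzm k
  have hy' : ∀ i, |y i| < 1 - η := fun i => by
    have h2 : ‖y‖ < 1 - η := by simpa using hy
    have h3 := norm_le_pi_norm y i
    rw [Real.norm_eq_abs] at h3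
    linarith
  refine G.av m hm c _ hyc ?_ ?_ ?_
  · have e0 : (2 : Fin 3).insertNth (α := fun _ => ℝ) (zl k) y 0 = y 0 := by
      have := Fin.insertNth_apply_succAbove (α := fun _ => ℝ) (2 : Fin 3) (zl k) y 0
      exact this
    rw [e0]; exact hy' 0
  · have e1 : (2 : Fin 3).insertNth (α := fun _ => ℝ) (zl k) y 1 = y 1 := by
      have := Fin.insertNth_apply_succAbove (α := fun _ => ℝ) (2 : Fin 3) (zl k) y 1
      exact this
    rw [e1]; exact hy' 1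
  · rw [Fin.insertNth_apply_same]; exact hzk

end Comp

/-- the constants before the foam -/
theorem cst1 {Pc T2 εn : ℝ} (hPc : 0 ≤ Pc) (hT2 : 0 ≤ T2) (hεn : 0 < εn) :
    ∃ ε : ℝ, 0 < ε ∧ 5 * ε ≤ εn ∧ Pc * ε + T2 * (Pc * ε) ≤ εn / 10 := by
  refine ⟨εn / (10 * (1 + Pc * (1 + T2))), by positivity, ?_, ?_⟩
  · have h : εn / (10 * (1 + Pc * (1 + T2))) ≤ εn / 10 := by
      apply div_le_div_of_nonneg_left hεn.le (by norm_num)
      have : 0 ≤ Pc * (1 + T2) := by positivity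
      linarith
    linarith
  · have h0 : 0 < 1 + Pc * (1 + T2) := by positivity
    have h1 : Pc * (εn / (10 * (1 + Pc * (1 + T2)))) + T2 * (Pc * (εn / (10 * (1 + Pc * (1 + T2))))) =
        εn / 10 * (Pc * (1 + T2) / (1 + Pc * (1 + T2))) := by
      field_simp
    rw [h1]
    have h2 : Pc * (1 + T2) / (1 + Pc * (1 + T2)) ≤ 1 := by
      rw [div_le_one h0]; linarith
    have h3 : (0 : ℝ) ≤ εn / 10 := by positivity
    nlinarith

/-- the constants after the foam -/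
theorem cst2 {Rp Cs T2 Cp εn v : ℝ} (hRp : 0 ≤ Rp) (hCs : 0 ≤ Cs) (hT2 : 0 ≤ T2) (hCp : 0 ≤ Cp)
    (hεn : 0 < εn) (hv : 0 < v) :
    ∃ ε' : ℝ, 0 < ε' ∧ Rp * ε' + T2 * ε' + Cp * ε' ≤ εn / 4 ∧ Cs * (T2 + Cp) * ε' ≤ v := by
  have hW : 0 < 1 + Rp + (Cs + 1) * (T2 + Cp) := by positivity
  have hm : 0 < min (εn / 4) v := lt_min (by positivity) hv
  obtain ⟨y, h0, hx⟩ : ∃ y : ℝ, 0 < y ∧ y * (1 + Rp + (Cs + 1) * (T2 + Cp)) = min (εn / 4) v :=
    ⟨min (εn / 4) v / (1 + Rp + (Cs + 1) * (T2 + Cp)), by positivity, div_mul_cancel₀ _ hW.ne'⟩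
  refine ⟨y, h0, ?_, ?_⟩
  · refine le_trans ?_ (min_le_left (εn / 4) v)
    rw [← hx]
    have : 0 ≤ y * (Cs * (T2 + Cp)) := by positivity
    nlinarith
  · refine le_trans ?_ (min_le_right (εn / 4) v)
    rw [← hx]
    have : 0 ≤ y * (1 + Rp + (T2 + Cp)) := by positivity
    nlinarith

/-- the tolerance -/
theorem cst3 {Cs T2 εn v N0 : ℝ} (hCs : 0 ≤ Cs) (hT2 : 0 < T2) (hεn : 0 < εn) (hv : 0 < v)
    (hN0 : 0 < N0) : ∃ εt : ℝ, 0 < εt ∧ Cs * T2 * εt ≤ v ∧ T2 * εt / N0 ≤ εn / 8 := by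
  refine ⟨min (v / (Cs * T2 + 1)) (εn / 8 * N0 / T2), lt_min (by positivity) (by positivity),
    ?_, ?_⟩
  · have h1 : Cs * T2 * min (v / (Cs * T2 + 1)) (εn / 8 * N0 / T2) ≤ Cs * T2 * (v / (Cs * T2 + 1)) :=
      mul_le_mul_of_nonneg_left (min_le_left _ _) (by positivity)
    refine h1.trans ?_
    have h2 : Cs * T2 * (v / (Cs * T2 + 1)) = v * (Cs * T2 / (Cs * T2 + 1)) := by ring
    rw [h2]
    have h3 : Cs * T2 / (Cs * T2 + 1) ≤ 1 := by
      rw [div_le_one (by positivity)]; linarith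
    nlinarith
  · rw [div_le_iff₀ hN0]
    have h3 := mul_le_mul_of_nonneg_left (min_le_right (v / (Cs * T2 + 1)) (εn / 8 * N0 / T2)) hT2.le
    rwa [mul_div_cancel₀ _ hT2.ne'] at h3

set_option maxHeartbeats 1000000 in
/-- **COMPOSITION**: `NOS p` from the machine and everything before the machine. -/
theorem nos_of {p : ℝ} (hp : 1 ≤ p) (hM : MachNO p) (hP : NOPre p) : NOS p := by
  have hp0 : 0 < p := by linarith
  obtain ⟨𝒮, t, Cf, hSf, hCf, hP⟩ := hP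
  refine nos_of_nog fun s hs hs2 e he => ?_
  obtain ⟨S1, Λ, ef, hS1, hΛ, hef, hsc, hlay⟩ := layers_out' hp s hs he
  obtain ⟨ηm, hηm, Cu, hCu, hM⟩ := hM Λ ef hΛ hef
  obtain ⟨CuM, hCuM0, hCuM⟩ : ∃ CuM : ℝ, 0 ≤ CuM ∧ ∀ 𝒦 ∈ 𝒮, Cu 𝒦 ≤ CuM := by
    obtain ⟨c, hc⟩ := (hSf.image Cu).bddAbove
    exact ⟨max c 0, le_max_right _ _,
      fun 𝒦 h𝒦 => (hc (mem_image_of_mem Cu h𝒦)).trans (le_max_left _ _)⟩
  obtain ⟨S, KS, hS1S, hKS, hP⟩ := hP s hs hs2 S1 hS1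
  have hS : 0 ≤ S := hS1.le.trans hS1S
  obtain ⟨εn, hεn, hεn1, hlay⟩ := hlay ηm (2 * CuM * S + 1) hηm (by positivity)
  have hD1t : (1 + ENNReal.ofReal (Chr 3 p t) * Cf) ≠ ⊤ := ENNReal.add_ne_top.2
    ⟨ENNReal.one_ne_top, ENNReal.mul_ne_top ENNReal.ofReal_ne_top hCf⟩
  obtain ⟨Cs, hCs0, hDC⟩ : ∃ Cs : ℝ, 0 ≤ Cs ∧
      (1 + ENNReal.ofReal (Chr 3 p t) * Cf) = ENNReal.ofReal Cs :=
    ⟨_, ENNReal.toReal_nonneg, (ENNReal.ofReal_toReal hD1t).symm⟩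
  have hPc0 : 0 ≤ (2 * CuM) ^ p := Real.rpow_nonneg (by positivity) p
  have hT20 : (0 : ℝ) < 2 ^ p := by positivity
  have hA0 : 0 ≤ Cs * 2 ^ p * (2 * CuM) ^ p := by positivity
  refine ⟨Cs * 2 ^ p * (2 * CuM) ^ p * KS + 4, by positivity, fun η L e₂ hη hη8 hL1 he₂ => ?_⟩
  have hLr : (1 : ℝ) ≤ L := by exact_mod_cast hL1
  have hL0 : (0 : ℝ) < L := by linarith
  have hL : (L : ℝ) ≠ 0 := hL0.ne'
  obtain ⟨v, hv0, hv1, hv2⟩ : ∃ v : ℝ, 0 < v ∧ v ≤ 1 / (8 * L) ∧ v ≤ e₂ / (8 * L) :=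
    ⟨min (1 / (8 * L)) (e₂ / (8 * L)), lt_min (by positivity) (by positivity), min_le_left _ _,
      min_le_right _ _⟩
  obtain ⟨ε, hε0, hε5, hεP⟩ := cst1 hPc0 hT20.le hεn
  obtain ⟨e2', he2'0, he2'⟩ : ∃ e2' : ℝ, 0 < e2' ∧ Cs * 2 ^ p * (2 * CuM) ^ p * e2' ≤ e₂ / 4 := by
    refine ⟨e₂ / 4 / (Cs * 2 ^ p * (2 * CuM) ^ p + 1), by positivity, ?_⟩
    rw [mul_div_assoc', div_le_iff₀ (by positivity)]
    nlinarith
  obtain ⟨q, δ, κ0, R, c0, κ2, κ3, hδ, hκ0, hR, hc0, hκ2, hκ3, hP⟩ :=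
    hP ε η L hL e2' hε0 hη hη8 hL1 he2'0
  obtain ⟨C0, C, hC0, hC, κp, hκp, hM⟩ := hM δ κ0 R c0 κ2 κ3 hδ hκ0 hR hc0 hκ2 hκ3
  have hCp0 : 0 ≤ C0 ^ p := Real.rpow_nonneg hC0.le p
  have hRp0 : 0 ≤ (R * κ3 * CuM) ^ p := Real.rpow_nonneg (by positivity) p
  obtain ⟨ε', hε'0, hε1, hε2⟩ := cst2 hRp0 hCs0 hT20.le hCp0 hεn hv0
  obtain ⟨μ, hμ, hμκ, hP⟩ := hP C0 C κp ε' hC0 hC hκp hε'0
  obtain ⟨κ1, hκ1, hM⟩ := hM μ hμ hμκ
  obtain ⟨dd, hdd, hP⟩ := hP κ1 hκ1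
  refine ⟨dd, hdd, fun U₀ W₀ f G₀ a1 a2 a3 a4 a5 a6 a7 a8 a9 a10 => ?_⟩
  obtain ⟨f1, al, h, Φ, ι, T, X, J0, J, V, ct, A', lam, z, θ, φ, Mg, 𝒬, r, hr, a, o, M, Zs, U, β, b,
    R0, R1, Sc, d, Kc, cnt, hX, G, hP⟩ := hP U₀ W₀ f G₀ a1 a2 a3 a4 a5 a6 a7 a8 a9 a10
  have hr0 : 0 < r := G.geo.r0
  have hN0 : 0 < (Zs.card : ℝ) * M ^ 2 * r ^ 3 := N0_pos G.geo
  -- the machine
  obtain ⟨Z, m0, hZ, hM⟩ := hM (QL L) (e3 '' (f '' Q0)) f1 (QL_open L) (QL_bdd hL) (QL_conn hL)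
    (La_open a4 a8.homeo a7) (La_bdd a5 a8.homeo a7) (La_conn a8.homeo a7) G.hom Φ ι T X J0 J V ct
    A' lam z θ φ Mg G.star G.cores G.fine (DsN a r o M Zs U) (frN r hr) (S1 * r)
    (fun j => s j.castSucc * r)
    (faceD_of G.geo (mul_pos hS1 hr0) fun j => by
      rcases hsc j with h0 | ⟨h1, h2⟩
      · left; rw [h0, zero_mul]
      · right
        refine ⟨?_, mul_le_mul_of_nonneg_right h2 hr0.le⟩
        rw [mul_div_right_comm]
        exact mul_le_mul_of_nonneg_right h1 hr0.le)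
  obtain ⟨κ, Lv, N⟩ := hP Z (fun c => max (m0 c) (⌈h / (2 * (εn * r))⌉₊ + 1)) hZ
  have hκl : ∀ c : Φ.F, IsLog q al h c.1 → (2 : ℝ)⁻¹ ^ κ c ≤ εn * r := fun c hc =>
    kap_le (mul_pos hεn hr0) le_rfl ((le_max_right (m0 c) _).trans (N.lev.large c)) (N.wlog c hc)
  -- tolerances
  have hcount : Countable ι := countable_ix T
  obtain ⟨εt, hεt0, hεt1, hεt2⟩ := cst3 hCs0 hT20 hεn hv0 hN0
  obtain ⟨tol, htol0, htol1, htols⟩ := exists_tol2 (ι := ι) hp0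
    (w := fun i => volume (P (T.H i)) + ENNReal.ofReal (cnt i))
    (fun i => ENNReal.add_ne_top.2 ⟨(T.cpt i).measure_lt_top.ne, ENNReal.ofReal_ne_top⟩)
    (t0 := εn) hεn hεt0
  obtain ⟨g, u, n, hout, hNO⟩ := hM κ Lv (levels_mono N.lev fun c => le_max_left _ _) N.words tol
    htol0
  obtain ⟨E1, E2, hE1, hE2, hend⟩ := nog_of_out hp a1 a4 a8.homeo a7 hL hout hNO hCu hC0 hC G N hX
    hCuM0 hCuM htol0 hεt0.le htols hε0.le hε'0.le hη he2'0.le hKS (by linarith) (by linarith) hS hS1S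
    (fun i => (htol1 i).trans hεn1) hκl hε5 (by linarith) hv0
    (fun hnum => hlay hr (by linarith) G.geo hnum hNO hout.pl htol1)
  refine hend.mono ?_ ?_ le_rfl
  · exact energy_le hDC hCs0 (by positivity) hv0.le hE1 (num1 hLr hε2 hεt1 hv1) rfl
  · exact energy_le hDC hCs0 (by positivity) hv0.le hE2
      (num2 hLr hη.le he₂.le hε2 hεt1 hv2 he2') rfl

end

end Crest.Agent.R096.No_276
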