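import Crest.Agent.R096.Nem1_493_Mg
import Crest.Agent.R096.Nwi1_688
import Crest.Agent.R096.Ent1_527
import Crest.Agent.R096.Nwi2_688
import Crest.Agent.R096.Dfo1_539
import Crest.Agent.R096.Sde4_422
import Crest.Agent.R096.Lbc1_334
import Crest.Agent.R096.Tro3_147
import Crest.Agent.R096.Yl1_471
import Crest.Agent.R096.Exa14_560
import Crest.Agent.R096.Cns4_778
import Crest.Agent.R096.Ebr8_95
import Crest.Agent.R096.Ebr7_95
import Crest.Agent.R096.Tro1_914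
import Crest.Agent.R096.Pbn3_147
import Crest.Agent.R096.Sgo3_298
import Crest.Agent.R096.Rte1_543
import Crest.Agent.R096.Tro4_147
import Crest.Agent.R096.Dff1_539
import Crest.Agent.R096.Hop1_895

-- ▼ part R096/Asq9_895
section

/-!
# Row 96, S0127 from `NEWINM` (688) ALONE (helper895, assembly)
-/

set_option autoImplicit false
set_option linter.style.longLine false

namespace Crest.Agent.R096.Asq_895

open MeasureTheory Metric Set Filter Topology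
open scoped ENNReal Gradient NNReal
open Crest.AnalysisR.VecCalc3 Crest.AnalysisR.Sobolev

/-- **S0127 from the last leaf** (`NE1M` = 493's `ne1M`, `DICHM` = 522's `dichm`) -/
theorem s0127_NEWIN (h : Hop_895.NEWINM)
    (Ω Λ : Set R3) (hΩo : IsOpen Ω) (hΩb : Bornology.IsBounded Ω) (hΩc : IsConnected Ω)
    (hΛo : IsOpen Λ) (hΛb : Bornology.IsBounded Λ) (hΛc : IsConnected Λ)
    (p : ℝ) (hp : 1 ≤ p) (f : R3 → R3) (hf : IsHomeomorphOn f Ω Λ)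
    (hfp : MemLp f (ENNReal.ofReal p) (volume.restrict Ω))
    (G : Fin 3 → R3 → R3) (hG : ∀ j : Fin 3, HasWeakGradOn Ω (fun x => f x j) (G j))
    (hGp : ∀ j : Fin 3, MemLp (G j) (ENNReal.ofReal p) (volume.restrict Ω))
    (ε : ℝ≥0∞) (hε : 0 < ε) :
    ∃ g : R3 → R3, IsSmoothDiffeoOn g Ω Λ ∧ MemLp g (ENNReal.ofReal p) (volume.restrict Ω) ∧
      (∀ j : Fin 3, MemLp (fun x => ∇ (fun y => g y j) x) (ENNReal.ofReal p) (volume.restrict Ω)) ∧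
      ∫⁻ x in Ω, (‖g x - f x‖ₑ ^ p + ∑ j : Fin 3, ‖∇ (fun y => g y j) x - G j x‖ₑ ^ p) < ε :=
  s0127_NE_NEWIN Nem_493.ne1M h Ω Λ hΩo hΩb hΩc hΛo hΛb hΛc p hp f hf hfp G hG hGp ε hε

end Crest.Agent.R096.Asq_895
end

-- ▼ part R096/Nwi3_688
section

/-!
# R096 (row 96), DOORS, NEWIN (helper688), part 3: the columns and the slice `jm`

`B` = a set of points of the name `i` in the state with layers `s2`, closed under the chords on the
faces of a set `Gd` of faces; the pattern of the family of `i` is the trace on the levels `≤ jm`.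

* `Bcl`, `step_iff`, `col_iff` : a trace point `w` and its copies `hp c j w`, `j ≤ jm`;
* `slice`  : `B` on the slice `jm` consists of full curves of the trace;
* `crv_B`  : a curve of the trace with a point of `B` over the zone has all its points over the zone
             in `B`;
* `outer_B`: all outer points over the zone which are joined in the full sheet over the zone.
-/

set_option autoImplicit false
set_option linter.unusedSectionVars false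
set_option linter.style.longLine false

open Set Module
open scoped Classical

namespace Crest.Agent.R096.Nwi_688

open Crest.Agent.R096.Msh_715 Crest.Agent.R096.Agl5_543 Crest.Agent.R096.St_147
  Crest.Agent.R096.Seq_213 Crest.Agent.R096.Door_501 Crest.Agent.R096.Sla_184
  Crest.Agent.R096.Twr_438 Crest.Agent.R096.Exa_560 Crest.Agent.R096.Ess3_95
  Crest.Agent.R096.Ess4_95 Crest.Agent.R096.Dfi_539 Crest.Agent.R096.Dfi_471
  Crest.Agent.R096.Yl_471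
open Crest.Agent.R096.Sla_184.Sla (hf vf old tg F0 Fn Out OnS InL In)

variable {E : Type} [NormedAddCommGroup E] [NormedSpace ℝ E] [FiniteDimensional ℝ E]
variable {Om : Set E} {ι : Type} {T : Tiling Om ι} {κ : Type} {S : Sla T κ}
  {h3 : finrank ℝ E = 3} {J C : Type} {fam : J → C}

section lay

variable {s : GSt (S.m0 h3) fam} {Tw : Twrs (S.sh h3) S.n s} {l0 : E → J}
  {c : κ} {a : C} {j : ℕ} {i : J} {w x : E} {B : Set E} {Gd : Set (S.Fn h3)}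

/-- `B` consists of points of the name `i` and is closed under the chords on the faces of `Gd` -/
def Bcl (Tw : Twrs (S.sh h3) S.n s) (l0 : E → J) (i : J) (Gd : Set (S.Fn h3)) (B : Set E) : Prop :=
  (∀ x ∈ B, x ∈ (s2 S h3 Tw l0).P ∧ (s2 S h3 Tw l0).lab x = i) ∧
  ∀ F ∈ Gd, ∀ x ∈ B, x ∈ (S.mn h3).On F → (s2 S h3 Tw l0).mu F x ∈ B

/-- one step in a column -/
theorem step_iff (hB : Bcl Tw l0 i Gd B) {e : S.Ed c} (hw : w ∈ e.1.opn) (hj : j < S.n c)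
    (h1 : w ∈ ((Tw.tw c a).pat j).P) (h2 : w ∈ ((Tw.tw c a).pat (j + 1)).P)
    (hF : vf h3 e j ∈ Gd) : S.hp c j w ∈ B ↔ S.hp c (j + 1) w ∈ B := by
  have hF1 : S.hp c j w ∈ (S.mn h3).On (vf h3 e j) :=
    (Sla.on_vf_hp hj.le hj hw).2 ⟨rfl, Or.inl rfl⟩
  have hF2 : S.hp c (j + 1) w ∈ (S.mn h3).On (vf h3 e j) :=
    (Sla.on_vf_hp hj hj hw).2 ⟨rfl, Or.inr rfl⟩
  have hx : (Sum.inl w : (S.sh h3 c).Pnt) ∈ ((Tw.tw c a).mv j).P' :=
    ((Tw.tw c a).mv j).top_mem_P'.2 h1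
  have hxF : (Sum.inl w : (S.sh h3 c).Pnt) ∈ (S.sh h3 c).On (Sum.inr (Sum.inr e)) :=
    (S.sh h3 c).top_mem_vert.2 hw
  have hmu : (s2 S h3 Tw l0).mu (vf h3 e j) (S.hp c j w) = S.hp c (j + 1) w := by
    have h5 := mu_vf (l0 := l0) hj hx hxF
    rw [Move.mu'_vert_nqe _ _ (((Tw.tw c a).mv j).top_not_qe (Twrs.mem_B.2 h2))] at h5
    exact h5
  have hP := mem_hp (l0 := l0) hj.le h1
  have hmu' : (s2 S h3 Tw l0).mu (vf h3 e j) (S.hp c (j + 1) w) = S.hp c j w := by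
    rw [← hmu]
    exact (s2 S h3 Tw l0).mu_mu hP hF1
  constructor
  · intro h
    rw [← hmu]; exact hB.2 _ hF _ h hF1
  · intro h
    rw [← hmu']; exact hB.2 _ hF _ h hF2

/-- a column of a point which does not move up to the level `m` -/
theorem col_iff (hB : Bcl Tw l0 i Gd B) {e : S.Ed c} (hw : w ∈ e.1.opn) {m : ℕ} (hm : m ≤ S.n c)
    (h1 : ∀ j, j ≤ m → w ∈ ((Tw.tw c a).pat j).P) (hF : ∀ j, j < m → vf h3 e j ∈ Gd) :
    w ∈ B ↔ S.hp c m w ∈ B := by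
  induction m with
  | zero => rw [Sla.hp_zero]
  | succ m ih =>
    rw [ih (by omega) (fun j hj => h1 j (by omega)) (fun j hj => hF j (by omega))]
    exact step_iff hB hw (by omega) (h1 m (by omega)) (h1 (m + 1) le_rfl) (hF m (by omega))

end lay

section slice

variable {s : GSt (meshC T h3) fam} {r : J → E}
  {Tw : Twrs (S.sh h3) S.n (outK S.hH S.dis s r)} {l0 : E → J}
  {c : κ} {i : J} {w w' : E} {B : Set E} {Gd : Set (S.Fn h3)} {m : ℕ}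

theorem piK_inl_eq {K : κ → Set E} {q p : ι} (h : piK T K q = Sum.inl p) : q = p := by
  unfold piK at h
  split_ifs at h
  exact Sum.inl.inj h

/-- **the slice `m`**: `B` contains, with a copy of a trace point, the copies of its curve -/
theorem slice (hB : Bcl Tw l0 i Gd B) (hm : m ≤ S.n c)
    (hpat : (Tw.tw c (fam i)).pat m = trc S.hH S.dis s r c (fam i))
    (hG : ∀ G : (S.sh h3 c).Fk, hf G m ∈ Gd)
    (hw : w ∈ (trc S.hH S.dis s r c (fam i)).P) (hwB : S.hp c m w ∈ B)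
    (hcr : w' ∈ crv s (piK T S.K) (Sum.inr c) w) :
    w' ∈ (trc S.hH S.dis s r c (fam i)).P ∧ S.hp c m w' ∈ B := by
  have h1 : Relation.ReflTransGen (FStep s (piK T S.K) (Sum.inr c)) w w' := hcr
  clear hcr
  induction h1 with
  | refl => exact ⟨hw, hwB⟩
  | @tail y z _ hs ih =>
    obtain ⟨i1, i2⟩ := ih
    obtain ⟨F, hF, hy, hyF, rfl⟩ := hs
    let F' : S.F0 h3 := ⟨F, hF.1⟩
    let G : (S.sh h3 c).Fk := ⟨F', mem_map_iff.2 hF.2⟩
    have h2 := (trc S.hH S.dis s r c (fam i)).mu_mem (F := G) i1 hyF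
    refine ⟨h2.1, ?_⟩
    have hyp : y ∈ ((Tw.tw c (fam i)).pat m).P := by rw [hpat]; exact i1
    have hmu : (s2 S h3 Tw l0).mu (hf G m) (S.hp c m y) = S.hp c m (s.mu F y) := by
      by_cases h0 : m = 0
      · subst h0
        have h4 := (S.cols h3).hf_zero c G
        have h5 : (hf G 0 : S.Fn h3) = old G.1 := h4
        rw [h5, Sla.hp_zero, Sla.hp_zero]
        exact mu_old (l0 := l0) ((mem_trc.1 i1).1) hyF
      · have h4 := mu_hf (l0 := l0) (Nat.pos_of_ne_zero h0) hm hyp (G := G) hyF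
        rw [h4, hpat]
        rfl
    rw [← hmu]
    refine hB.2 _ (hG G) _ i2 ?_
    rw [Sla.on_hf hm]
    exact ⟨y, hyF, rfl⟩

/-- **one curve of the trace** -/
theorem crv_B (hB : Bcl Tw l0 i Gd B) {jm : κ → ℕ} (hjm : ∀ c, jm c ≤ S.n c)
    (hord : ∀ c j, j ≤ jm c → (Tw.tw c (fam i)).pat j = trc S.hH S.dis s r c (fam i))
    (hG : ∀ c, ∀ G : (S.sh h3 c).Fk, hf G (jm c) ∈ Gd)
    (hw : w ∈ (trc S.hH S.dis s r c (fam i)).P) {e e' : S.Ed c} (he : w ∈ e.1.opn)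
    (he' : w' ∈ e'.1.opn) (hv : ∀ j, j < jm c → vf h3 e j ∈ Gd)
    (hv' : ∀ j, j < jm c → vf h3 e' j ∈ Gd) (hwB : w ∈ B)
    (hcr : w' ∈ crv s (piK T S.K) (Sum.inr c) w) : w' ∈ B := by
  have h1 := (col_iff (a := fam i) hB he (hjm c) (fun j hj => by rw [hord c j hj]; exact hw) hv).1 hwB
  obtain ⟨h2, h4⟩ := slice hB (hjm c) (hord c _ le_rfl) (hG c) hw h1 hcr
  exact (col_iff (a := fam i) hB he' (hjm c) (fun j hj => by rw [hord c j hj]; exact h2) hv').2 h4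

/-- **all outer points over the zone** -/
theorem outer_B (h1 : s.H1 i) (hr : s.lab (r i) = i) (hB : Bcl Tw l0 i Gd B) {jm : κ → ℕ}
    (hjm : ∀ c, jm c ≤ S.n c)
    (hord : ∀ c j, j ≤ jm c → (Tw.tw c (fam i)).pat j = trc S.hH S.dis s r c (fam i))
    (hG : ∀ c, ∀ G : (S.sh h3 c).Fk, hf G (jm c) ∈ Gd) {Zf : Set (C2 T)}
    (hzo : ∀ F ∈ Zf, ∀ hd : ¬ (((meshC T h3).side F).map (piK T S.K)).IsDiag,
      (old ⟨F, hd⟩ : S.Fn h3) ∈ Gd)
    (hzv : ∀ c, ∀ e : S.Ed c, (∃ F ∈ Zf, InF (meshC T h3) (piK T S.K) (Sum.inr c) F ∧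
      ∃ w ∈ e.1.opn, w ∈ (meshC T h3).On F) → ∀ j, j < jm c → vf h3 e j ∈ Gd) {x y : E}
    (hx : x ∈ B) (hxo : x ∈ (outK S.hH S.dis s r).P) (hyo : y ∈ (outK S.hH S.dis s r).P)
    (hyl : s.lab y = i) (hxy : Relation.ReflTransGen (ZStep s Zf) x y) : y ∈ B := by
  have hlab : ∀ {z : E}, z ∈ B → z ∈ (outK S.hH S.dis s r).P → s.lab z = i := by
    intro z hz hzo
    have h2 := (hB.1 z hz).2
    rw [lab_old hzo] at h2
    exact h2
  have hPo : ∀ {z : E}, z ∈ B → Relation.ReflTransGen (OStep s (piK T S.K)) (r i) z → z ∈ s.P →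
      z ∈ (outK S.hH S.dis s r).P := by
    intro z hz hrz hzP
    refine ⟨hzP, ?_⟩
    rw [show s.lab z = i from (oreach_lab hrz).trans hr]
    exact hrz
  have htr : ∀ {c : κ} {z : E} {F : C2 T}, z ∈ B →
      Relation.ReflTransGen (OStep s (piK T S.K)) (r i) z → s.At F z →
      InF (meshC T h3) (piK T S.K) (Sum.inr c) F → F ∈ Zf →
      z ∈ (trc S.hH S.dis s r c (fam i)).P ∧ ∃ e : S.Ed c, z ∈ e.1.opn ∧
        ∀ j, j < jm c → vf h3 e j ∈ Gd := by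
    intro c z F hz hrz hA hin hF
    have h2 := hPo hz hrz hA.1
    obtain ⟨F0, hF0⟩ := Tw.on z h2
    obtain ⟨G, hG1, hG2⟩ := exists_frF (M := meshC T h3) (π := piK T S.K) hA.2 hin hF0
      (not_inF F0.2 _)
    let F' : S.F0 h3 := ⟨G, hG1.1⟩
    obtain ⟨e, -, -, he⟩ := ((S.sh h3 c).onE (F := F') (mem_map_iff.2 hG1.2)).1 hG2
    refine ⟨mem_trc.2 ⟨h2, ?_, e, he⟩, e, he, hzv c e ⟨F, hF, hin, z, he, hA.2⟩⟩
    rw [hlab hz h2]
  refine reenter (s := s) (π := piK T S.K) (i := i) h1 hr (Zf := Zf) (B := B) ?_ ?_ hx ?_ ?_ hxy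
  · intro F hF hd w hw hrw hA
    have h2 := hPo hw hrw hA.1
    have h4 := hB.2 _ (hzo F hF hd) w hw (by rw [Sla.on_old]; exact hA.2)
    have h5 := mu_old (Tw := Tw) (l0 := l0) (F := (⟨F, hd⟩ : S.F0 h3)) h2 hA.2
    rw [h5] at h4
    exact h4
  · intro k F hF hin F' hF' hin' w hw w' hrw hA hA' hcr
    rcases k with p | c
    · exfalso
      have h2 := (meshC T h3).side_nd F
      apply h2
      have h4 : ∀ q ∈ (meshC T h3).side F, q = p := by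
        intro q hq
        exact piK_inl_eq (hin q hq)
      revert h4
      induction (meshC T h3).side F using Sym2.ind with
      | _ a b =>
        intro h4
        rw [Sym2.mk_isDiag_iff, h4 a (Sym2.mem_mk_left _ _), h4 b (Sym2.mem_mk_right _ _)]
    · obtain ⟨g1, e, g2, g3⟩ := htr hw hrw hA hin hF
      by_cases hw'' : ∃ e' : S.Ed c, w' ∈ e'.1.opn ∧ ∀ j, j < jm c → vf h3 e' j ∈ Gd
      · obtain ⟨e', g4, g5⟩ := hw''
        exact crv_B hB hjm hord hG g1 g2 g4 g3 g5 hw hcr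
      · exfalso
        apply hw''
        have hrw' := hrw.trans (crv_ostep hcr)
        have h2 : w' ∈ (outK S.hH S.dis s r).P := by
          refine ⟨hA'.1, ?_⟩
          rw [show s.lab w' = i from (oreach_lab hrw').trans hr]
          exact hrw'
        obtain ⟨F0, hF0⟩ := Tw.on w' h2
        obtain ⟨G, hG1, hG2⟩ := exists_frF (M := meshC T h3) (π := piK T S.K) hA'.2 hin' hF0
          (not_inF F0.2 _)
        let F'' : S.F0 h3 := ⟨G, hG1.1⟩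
        obtain ⟨e', -, -, he'⟩ := ((S.sh h3 c).onE (F := F'') (mem_map_iff.2 hG1.2)).1 hG2
        exact ⟨e', he', hzv c e' ⟨F', hF', hin', w', he', hA'.2⟩⟩
  · have h2 := hxo.2
    rw [show s.lab x = i from hlab hx hxo] at h2
    exact h2
  · have h2 := hyo.2
    rw [hyl] at h2
    exact h2

end slice

end Crest.Agent.R096.Nwi_688
end

-- ▼ part R096/Nwi4_688
section

/-!
# R096 (row 96), DOORS, NEWIN (helper688), part 4: the composition over `Sla`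

`newin` : a new point `w` of `j` near the zone is in every closed set `X` which contains the points of
`j` on the giants. Inputs: `hord` (Ord), `late` (the points of `j` in the slice `jm`, on a face with a
barrier point), `no1`, `no2` (no points of `j` over the zone), `start` (walk in the layers),
`conn` (the full sheet over the zone leads to a point which is not enclosed).
-/

set_option autoImplicit false
set_option linter.unusedSectionVars false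
set_option linter.style.longLine false

open Set Module
open scoped Classical

namespace Crest.Agent.R096.Nwi_688

open Crest.Agent.R096.Msh_715 Crest.Agent.R096.Agl5_543 Crest.Agent.R096.St_147
  Crest.Agent.R096.Seq_213 Crest.Agent.R096.Door_501 Crest.Agent.R096.Sla_184
  Crest.Agent.R096.Twr_438 Crest.Agent.R096.Exa_560 Crest.Agent.R096.Ess3_95
  Crest.Agent.R096.Ess4_95 Crest.Agent.R096.Dfi_539 Crest.Agent.R096.Dfi_471
  Crest.Agent.R096.Yl_471 Crest.Agent.R096.Dfo_539 Crest.Agent.R096.SecW_892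
  Crest.Agent.R096.Cg_501 Crest.Agent.R096.Sgd_298
open Crest.Agent.R096.Sla_184.Sla (hf vf old tg F0 Fn Out OnS InL In)
open Crest.Agent.R096.Pbn_147 (K3)

variable {E : Type} [NormedAddCommGroup E] [NormedSpace ℝ E] [FiniteDimensional ℝ E]
variable {Om : Set E} {ι : Type} {T : Tiling Om ι} {κ : Type} {S : Sla T κ}
  {h3 : finrank ℝ E = 3} {J C Mo : Type} {fam : J → C} {am : Mo → C}
  {s : GSt (meshC T h3) (Sum.map fam (id : Mo → Mo))} {r : J ⊕ Mo → E}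
  {Tw : Twrs (S.sh h3) S.n (outK S.hH S.dis s r)} {l0 : E → J ⊕ Mo}
  {hs : BSep (s2 S h3 Tw l0) am} {hm : ∀ a, {m | am m = a}.Finite} {j0 : C → J}
  {hj0 : ∀ a, fam (j0 a) = a} {Act : C → Set (T.RIdx S.HH ⊕ κ)}
  {far : ∀ a, PN fam am a → Set E}
  {t : ∀ a, St (S.mn h3) (pcol fam am a)} {Ph : C → Finset E} {s₃ : GSt (S.mn h3) fam}

/-- `F` is a face of a giant -/
def GiF (F : S.Fn h3) : Prop := ∃ c : κ, Sum.inr c ∈ (S.mn h3).side F


end Crest.Agent.R096.Nwi_688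
end

-- ▼ part R096/Afr1_224
section

/-!
# R096 (row 96), DOORS, NE1 (helper224): **no sheets of `am m` over the end zones of the box of `m`**,
BOTH ENDS, wide zones: `lev am ≤ 7 μ / 16` or `1 - 7 μ / 16 ≤ lev am`.

* `far_lev`   : levels on a tile of an end zone;
* `afree_out` : no point of a sheet of the family `am m` on a face of the tile;
* `afree_in`  : the same for the patterns and the moved vertices at every core;
* `afree_s2`  : the same for `s2`.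
-/

set_option autoImplicit false
set_option linter.unusedSectionVars false
set_option linter.unusedVariables false
set_option linter.style.longLine false

open Set Topology Filter Metric Module Relation
open scoped Classical

namespace Crest.Agent.R096.Afr_224

open Crest.Agent.R096.Msh_715 Crest.Agent.R096.Agl5_543 Crest.Agent.R096.St_147
  Crest.Agent.R096.Seq_213 Crest.Agent.R096.Door_501 Crest.Agent.R096.Sla_184
  Crest.Agent.R096.Twr_438 Crest.Agent.R096.Exa_560 Crest.Agent.R096.Ess3_95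
  Crest.Agent.R096.Ess4_95 Crest.Agent.R096.Dfi_539 Crest.Agent.R096.Dfi_471
  Crest.Agent.R096.Ac_117 Crest.Agent.R096.Lm_117 Crest.Agent.R096.Cp_298
  Crest.Agent.R096.Coh_184 Crest.Agent.R096.Gm_298 Crest.Agent.R096.Cpo_642
  Crest.Agent.R096.Gl_422 Crest.Agent.R096.Flb_422 Crest.Agent.R096.Sid_422
  Crest.Agent.R096.Vrt_422 Crest.Agent.R096.Dfo_539
open Crest.Agent.R096.Brk1_582 Crest.Agent.R096.Brk2_582 Crest.Agent.R096.Brk3_582
  Crest.Agent.R096.Brk5_582 Crest.Agent.R096.Bsp_628 Crest.Agent.R096.Init_543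
  Crest.Agent.R096.Bar_106 Crest.Agent.R096.Dib_438 Crest.Agent.R096.Lam_847
  Crest.Agent.R096.Ess5_95 Crest.Agent.R096.Bgf_4 Crest.Agent.R096.Ebr1_95
  Crest.Agent.R096.Ebr4_95 Crest.Agent.R096.Rop_441 Crest.Agent.R096.Nmd1_698
open Crest.Agent.R096.Mbf_337 (sb KJ Tiny gau Cores Fine)
open Crest.Agent.R096.SkC1_961 (E3 FoamD Hom3)
open Crest.Agent.R096.Frn_337 (Ti)
open Crest.Agent.R096.Frs_662 (slC)
open Crest.Agent.R096.Ess7_95 (KT Sh)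
open Crest.Agent.R096.Dia_316 (nbT)
open Crest.Agent.R096.Dff_539 (vS)
open Crest.Agent.R096.Bmf_416 (coT)

variable {δ κ0 R c0 : ℝ} {La Om : Set E3} {ι : Type} {Φ : FoamD δ κ0 R c0 La} {T : Tiling Om ι}
  {f g : E3 → E3} {κ1 κ2 μ : ℝ} {X : Set Φ.F} {J0 J V : Φ.F → Set ι}
  {ct ct' : Φ.F → ι} {A : Φ.F → E3 ≃ᵃ[ℝ] E3} {lam : Φ.F → ℝ} {z : Φ.F → E3}
  {θ : Φ.F → E3 → E3} {φ : Φ.F → E3 → ℝ} {r₀ : Φ.F → ℝ}
  {L : Φ.F → Finset ℝ} [Nonempty (JJ Φ L)] {hG : GF Φ r₀ T f L} {bp : JJ Φ L → E3}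
  {N' : BM Φ X → Set ℝ} {ρ1 ρ2 ρ3 ρ4 d : Φ.F → ℝ} {q₀ : BM Φ X → E3} {ε : BM Φ X → ℝ}
  {bm : BM Φ X → E3} {hGB : GFB Φ r₀ T f L (lRc Φ X μ ρ1 ρ3 d) ε}
  {v0F v1F : ∀ c, Φ.F → VxK T (KT T J X) c} {v0B v1B : ∀ c, BM Φ X → VxK T (KT T J X) c}
  {hLa : IsOpen La} {hC : Cores Φ T f κ1 κ2 X J0 J V ct A lam z θ φ}
  {n : Ti X → ℕ} {hn : ∀ c, 0 < n c} {r : JJ Φ L ⊕ BM Φ X → E3}
  {Sf : JJ Φ L ⊕ BM Φ X → Set E3}
  {Lv : ∀ c, Φ.F ⊕ BM Φ X → Lev T (frontier ((slC hLa hC n hn).K c)) (JJ Φ L ⊕ BM Φ X)}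
  {Tw : Twrs ((slC hLa hC n hn).sh fr3) (slC hLa hC n hn).n
    (outK (slC hLa hC n hn).hH (slC hLa hC n hn).dis (stB hGB bp bm) r)}
  {l0' : E3 → JJ Φ L ⊕ BM Φ X}

/-- **the levels over an end zone** -/
theorem far_lev (N : NumD δ κ0 R c0 κ2 μ κ1)
    (bar : BarOut Φ T f κ1 μ X J0 J V θ hG bp N' ρ1 ρ2 ρ3 ρ4 d q₀ ε bm hGB v0B v1B)
    (m : BM Φ X) {q : ι} {x y : E3} (hx : x ∈ P (T.H q)) (h1 : ρ1 m.co ≤ ga Φ m.co (f x))
    (h2 : ga Φ m.co (f x) ≤ ρ4 m.co)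
    (ha : Φ.lev m.am (f x) ≤ 7 * μ / 16 ∨ 1 - 7 * μ / 16 ≤ Φ.lev m.am (f x))
    (hy : y ∈ P (T.H q)) (hl : μ / 2 - Cn δ R * κ1 ≤ Φ.lev m.am (f y))
    (hh : Φ.lev m.am (f y) ≤ 1 - μ / 2 + Cn δ R * κ1) : False := by
  obtain ⟨hd, hr⟩ := bar.rm m.co m.co_notMem
  have h3 := abs_le.1 ((hr.tile_osc hx h1 h2 hy).2.2 m.am)
  obtain ⟨n1, n2, n3, n4, n5, -⟩ := N.base
  rcases ha with ha | ha
  · linarith [h3.1]
  · linarith [h3.2]

/-- **outside the cores** -/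
theorem afree_out (N : NumD δ κ0 R c0 κ2 μ κ1)
    (bar : BarOut Φ T f κ1 μ X J0 J V θ hG bp N' ρ1 ρ2 ρ3 ρ4 d q₀ ε bm hGB v0B v1B)
    (htl : ∀ w ∈ (stB hGB bp bm).P, ∀ j, (stB hGB bp bm).lab w = Sum.inl j →
      μ ≤ Φ.lev j.1 (f w) ∧ Φ.lev j.1 (f w) ≤ 1 - μ)
    (m : BM Φ X) {q : ι} {x : E3} (hx : x ∈ P (T.H q)) (h1 : ρ1 m.co ≤ ga Φ m.co (f x))
    (h2 : ga Φ m.co (f x) ≤ ρ4 m.co)
    (ha : Φ.lev m.am (f x) ≤ 7 * μ / 16 ∨ 1 - 7 * μ / 16 ≤ Φ.lev m.am (f x))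
    {y : E3} (hy : y ∈ (stB hGB bp bm).P) (hyq : y ∈ P (T.H q)) {i : JJ Φ L}
    (hl : (stB hGB bp bm).lab y = Sum.inl i) : i.1 ≠ m.am := by
  intro he
  obtain ⟨h3, h4⟩ := htl y hy i hl
  rw [he] at h3 h4
  obtain ⟨n1, n2, n3, n4, n5, -⟩ := N.base
  exact far_lev N bar m hx h1 h2 ha hyq (by linarith) (by linarith)

/-- 778's form (G3 (i)), both ends -/
theorem afree_outF (N : NumD δ κ0 R c0 κ2 μ κ1)
    (bar : BarOut Φ T f κ1 μ X J0 J V θ hG bp N' ρ1 ρ2 ρ3 ρ4 d q₀ ε bm hGB v0B v1B)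
    (htl : ∀ w ∈ (stB hGB bp bm).P, ∀ j, (stB hGB bp bm).lab w = Sum.inl j →
      μ ≤ Φ.lev j.1 (f w) ∧ Φ.lev j.1 (f w) ≤ 1 - μ)
    (m : BM Φ X) {q : ι} {x : E3} (hx : x ∈ P (T.H q)) (h1 : ρ1 m.co ≤ ga Φ m.co (f x))
    (h2 : ga Φ m.co (f x) ≤ ρ4 m.co)
    (ha : Φ.lev m.am (f x) ≤ 7 * μ / 16 ∨ 1 - 7 * μ / 16 ≤ Φ.lev m.am (f x))
    (F : C2 T) (hF : q ∈ F.side fr3) : ∀ y ∈ (stB hGB bp bm).P, y ∈ F.On →
      ∀ i, (stB hGB bp bm).lab y = Sum.inl i → i.1 ≠ m.am := by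
  intro y hy hyF i hl
  have h4 : y ∈ T.cc F.pt := by rw [← F.set_eq]; exact hyF.1
  exact afree_out N bar htl m hx h1 h2 ha hy (T.cc_sub_tile (C2.mem_side.1 hF) h4) hl

section s2

variable (N : NumD δ κ0 R c0 κ2 μ κ1)
  (bar : BarOut Φ T f κ1 μ X J0 J V θ hG bp N' ρ1 ρ2 ρ3 ρ4 d q₀ ε bm hGB v0B v1B)
  (D : DIn (slC hLa hC n hn).hH (stB hGB bp bm) r Sf (nbA Φ X) (vS v0F v0B) (vS v1F v1B)
    (uA Φ hLa X θ) (AA Φ X μ κ1) (BA Φ X μ))
  (lo : LevOut (Kc := (slC hLa hC n hn).K) (stB hGB bp bm) (nbA Φ X) (uA Φ hLa X θ)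
    (AA Φ X μ κ1) (BA Φ X μ) Lv)
  (tt : TwOut (slC hLa hC n hn) fr3 (stB hGB bp bm) r (vS v0F v0B) (vS v1F v1B) Lv Tw)
  (htl : ∀ w ∈ (stB hGB bp bm).P, ∀ j, (stB hGB bp bm).lab w = Sum.inl j →
    μ ≤ Φ.lev j.1 (f w) ∧ Φ.lev j.1 (f w) ≤ 1 - μ)
  (hv0 : ∀ (c : Ti X) a, nbT Φ X c a → sb Φ (θ c.1 (v0F c a).1) a ≤ (2 * Cn δ R + 1) * κ1)
  (hv1 : ∀ (c : Ti X) a, nbT Φ X c a → 1 - (2 * Cn δ R + 1) * κ1 ≤ sb Φ (θ c.1 (v1F c a).1) a)
include N D lo tt htl hv0 hv1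

/-- **the moved vertices of a family** at any core -/
theorem rgn_lev (k : Ti X) (a : Φ.F) {j : ℕ} {v : (slC hLa hC n hn).Vx k}
    (hv : v ∈ ((Tw.tw k (Sum.inl a)).mv j).Qv) :
    μ / 2 - Cn δ R * κ1 ≤ Φ.lev a (f v.1) ∧ Φ.lev a (f v.1) ≤ 1 - μ / 2 + Cn δ R * κ1 := by
  obtain ⟨n1, n2, n3, n4, n5, -⟩ := N.base
  have hnb' : nbA Φ X k (Sum.inl a) := qv_nb D tt hv
  have hnb : nbT Φ X k a := hnb'
  have h := Lv4_471.tiny_rgnI (κ := Ti X) (cf := Subtype.val) (J := fun c => J c.1)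
    (J0 := fun c => J0 c.1) (V := fun c => V c.1) (θ := fun c => θ c.1)
    (φ := fun c => φ c.1) (k := k) (a := a) (a' := Sum.inl a) hLa N.hδ N.hR N.hκ N.hμ N.half N.cn3
    (fun c => hC.tiny c.1 c.2) lo (v0 := vS v0F v0B) (v1 := vS v1F v1B) (fun x => rfl) hnb.1
    (show μ / 2 ≤ 1 - μ + Cn δ R * κ1 from N.wA) (show 1 - μ / 2 ≤ 1 - μ / 2 from le_rfl)
    ((hv0 k a hnb).trans N.v0) (N.v1.trans (hv1 k a hnb)) (fun w hw hl => by
      rcases hl' : (stB hGB bp bm).lab w with i | m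
      · rw [hl'] at hl
        have e : i.1 = a := Sum.inl.inj hl
        rw [← e]
        exact htl w hw i hl'
      · rw [hl'] at hl
        cases hl) (tt.rgn k (Sum.inl a) j v hv)
  exact ⟨h.2.2.1.le, h.2.2.2.le⟩

/-- **the pattern points of a family** at any core -/
theorem pat_lev (k : Ti X) (a : Φ.F) {j : ℕ} {w : E3}
    (hw : w ∈ ((Tw.tw k (Sum.inl a)).pat j).P) :
    μ / 2 - Cn δ R * κ1 ≤ Φ.lev a (f w) ∧ Φ.lev a (f w) ≤ 1 - μ / 2 + Cn δ R * κ1 := by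
  obtain ⟨n1, n2, n3, n4, n5, -⟩ := N.base
  rcases tt.fits k (Sum.inl a) j w hw with ⟨h1, -, -⟩ | ⟨h1, -, -⟩
  · obtain ⟨h3, h4, h5⟩ := trc_P h1
    rcases hl' : (stB hGB bp bm).lab w with i | m
    · rw [hl'] at h5
      have e : i.1 = a := Sum.inl.inj h5
      obtain ⟨g1, g2⟩ := htl w h3 i hl'
      rw [e] at g1 g2
      constructor <;> linarith
    · rw [hl'] at h5
      cases h5
  · obtain ⟨e, he⟩ := pat_onE hw
    have hwf : w ∈ frontier ((slC hLa hC n hn).K k) := Sla.ed_opn_fr e he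
    obtain ⟨h3, h4⟩ := exa_lab (Lv k (Sum.inl a)) h1
    obtain ⟨g1, g2⟩ := lo.win k (Sum.inl a) _ h3
    have h5 : sb Φ (θ k.1 w) a = (Lv k (Sum.inl a)).lv ((exa fr3 (slC hLa hC n hn).hH
        (slC hLa hC n hn).dis (Lv k (Sum.inl a))).lab w) := by
      rw [← h4, lo.u]
      rfl
    have g1' : 1 - μ + Cn δ R * κ1 < sb Φ (θ k.1 w) a := by rw [h5]; exact g1
    have g2' : sb Φ (θ k.1 w) a < 1 - μ / 2 := by rw [h5]; exact g2
    have h6 := abs_le.1 (tiny_near hLa N.hδ N.hR N.cn1 (hC.tiny k.1 k.2) hwf a)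
    constructor <;> linarith [h6.1, h6.2]

include bar

/-- **the layers over an end zone**, any core -/
theorem afree_in (m : BM Φ X) {q : ι} {x : E3} (hx : x ∈ P (T.H q))
    (h1 : ρ1 m.co ≤ ga Φ m.co (f x)) (h2 : ga Φ m.co (f x) ≤ ρ4 m.co)
    (ha : Φ.lev m.am (f x) ≤ 7 * μ / 16 ∨ 1 - 7 * μ / 16 ≤ Φ.lev m.am (f x))
    (k : Ti X) (e : (slC hLa hC n hn).Ed k) (he : e.1.set ⊆ P (T.H q)) (j : ℕ) :
    (∀ w ∈ ((Tw.tw k (Sum.inl m.am)).pat j).P, w ∉ e.1.opn) ∧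
      ∀ b, ((slC hLa hC n hn).sh fr3 k).en e b ∉ ((Tw.tw k (Sum.inl m.am)).mv j).Qv := by
  constructor
  · intro w hw hwe
    obtain ⟨g1, g2⟩ := pat_lev N D lo tt htl hv0 hv1 k m.am hw
    exact far_lev N bar m hx h1 h2 ha (he (e.1.opn_sub hwe)) g1 g2
  · intro b hb
    obtain ⟨g1, g2⟩ := rgn_lev N D lo tt htl hv0 hv1 k m.am hb
    refine far_lev N bar m hx h1 h2 ha (he ?_) g1 g2
    have h3 := (endK_iff e (((slC hLa hC n hn).sh fr3 k).en e b)).1 ⟨b, rfl⟩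
    exact h3


end s2

end Crest.Agent.R096.Afr_224
end

-- ▼ part R096/Lat1_498
section

/-!
# R096 (row 96), DOORS, NEWIN (helper498), (O): late columns

`down_late` : a point of the pattern of level `j ≥ jm` (patterns kept from `jm` on) is joined
straight down with its copy on the boundary of the shrunk core;
`late_in`   : a point of the sheet `j` on a late face which carries a barrier point of the family of
`j` is in every set which is closed under the `K3`-chords and contains the points on the giants.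
-/

set_option autoImplicit false
set_option linter.unusedSectionVars false
set_option linter.unusedVariables false
set_option linter.style.longLine false

open Set Relation Module Topology Filter Metric
open scoped Classical

namespace Crest.Agent.R096.Lat_498

open Crest.Agent.R096.Msh_715 Crest.Agent.R096.Agl5_543 Crest.Agent.R096.St_147
  Crest.Agent.R096.Seq_213 Crest.Agent.R096.Door_501 Crest.Agent.R096.Sla_184
  Crest.Agent.R096.Twr_438 Crest.Agent.R096.Exa_560 Crest.Agent.R096.Ess3_95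
  Crest.Agent.R096.Ess4_95 Crest.Agent.R096.Dfi_539 Crest.Agent.R096.Dfi_471
open Crest.Agent.R096.Sla_184.Sla (hf vf old tg F0 Fn Out OnS InL In)

section core

variable {E : Type} [NormedAddCommGroup E] [NormedSpace ℝ E] [FiniteDimensional ℝ E]
variable {Om : Set E} {ι : Type} {T : Tiling Om ι} {κ : Type} {S : Sla T κ}
  {h3 : finrank ℝ E = 3} {J C : Type} {fam : J → C}
variable {s : GSt (S.m0 h3) fam} {Tw : Twrs (S.sh h3) S.n s} {l0 : E → J}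
  {c : κ} {a : C} {j : ℕ} {i : J} {w x : E} {X : Set E}

/-- **straight down, late** -/
theorem down_late {jm : ℕ} {e : S.Ed c} (hw : w ∈ e.1.opn)
    (hpat : ∀ j, jm ≤ j → j < S.n c → w ∈ ((Tw.tw c a).pat j).P → w ∈ ((Tw.tw c a).pat (j + 1)).P)
    {K : S.Fn h3 → E → Prop}
    (hX : ∀ F x, (s2 S h3 Tw l0).At F x → (s2 S h3 Tw l0).lab x = i → K F x →
      (x ∈ X ↔ (s2 S h3 Tw l0).mu F x ∈ X))
    (hK : ∀ j, jm ≤ j → j < S.n c → K (vf h3 e j) (S.hp c j w))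
    (hG : w ∈ ((Tw.tw c a).pat (S.n c)).P → (s2 S h3 Tw l0).lab (S.hp c (S.n c) w) = i →
      S.hp c (S.n c) w ∈ X) :
    ∀ {j : ℕ}, jm ≤ j → j ≤ S.n c → w ∈ ((Tw.tw c a).pat j).P →
      (s2 S h3 Tw l0).lab (S.hp c j w) = i → S.hp c j w ∈ X := by
  have key : ∀ d j, jm ≤ j → j + d = S.n c → w ∈ ((Tw.tw c a).pat j).P →
      (s2 S h3 Tw l0).lab (S.hp c j w) = i → S.hp c j w ∈ X := by
    intro d
    induction d with
    | zero =>
      intro j _ hj h1 h4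
      have : j = S.n c := hj
      subst this
      exact hG h1 h4
    | succ d ih =>
      intro j hjm hj h1 h4
      have hj' : j < S.n c := by omega
      have g1 := hpat j hjm hj' h1
      have hF : S.hp c j w ∈ (S.mn h3).On (vf h3 e j) :=
        (Sla.on_vf_hp hj'.le hj' hw).2 ⟨rfl, Or.inl rfl⟩
      have hx : (Sum.inl w : (S.sh h3 c).Pnt) ∈ ((Tw.tw c a).mv j).P' :=
        ((Tw.tw c a).mv j).top_mem_P'.2 h1
      have hxF : (Sum.inl w : (S.sh h3 c).Pnt) ∈ (S.sh h3 c).On (Sum.inr (Sum.inr e)) :=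
        (S.sh h3 c).top_mem_vert.2 hw
      have hmu : (s2 S h3 Tw l0).mu (vf h3 e j) (S.hp c j w) = S.hp c (j + 1) w := by
        have h5 := mu_vf (l0 := l0) hj' hx hxF
        rw [Move.mu'_vert_nqe _ _ (((Tw.tw c a).mv j).top_not_qe (Twrs.mem_B.2 g1))] at h5
        exact h5
      have hP := mem_hp (l0 := l0) hj'.le h1
      have h7 := (s2 S h3 Tw l0).mu_lab hP hF
      rw [hmu, h4] at h7
      have h6 := ih (j + 1) (by omega) (by omega) g1 h7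
      rw [hX _ _ ⟨hP, hF⟩ h4 (hK j hjm hj'), hmu]
      exact h6
  intro j hjm hj
  exact key (S.n c - j) j hjm (by omega)

/-- a point of the state with layers on the level `j` of the edge `e` -/
theorem pat_of_hp {e : S.Ed c} (hw : w ∈ e.1.opn) (hj : j ≤ S.n c)
    (hP : S.hp c j w ∈ (s2 S h3 Tw l0).P) (hl : fam ((s2 S h3 Tw l0).lab (S.hp c j w)) = a) :
    w ∈ ((Tw.tw c a).pat j).P := by
  rcases Nat.eq_zero_or_pos j with h0 | h0
  · subst h0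
    rw [Sla.hp_zero] at hP hl
    obtain ⟨h1, h2⟩ := s2_out hP (Sla.out_fr (Sla.ed_opn_fr e hw))
    rw [h2] at hl
    exact (Tw.P0 c a w).2 ⟨h1, hl, e, hw⟩
  · have hIn : S.In c (S.hp c j w) := (at_hp e hw h0 hj).1
    rcases s2_in hP hIn with ⟨a', j', u, g0, g1, g2, g3, g4, g5⟩ | ⟨a', j', v, g1, g2, g3, g4, g5⟩
    · obtain ⟨e', he'⟩ := pat_onE g2
      have h5 := Sla.hp_inj hj g1 hw he' g3
      obtain ⟨h7, h8⟩ := h5
      subst h7 h8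
      rw [hl] at g5
      subst g5
      exact g2
    · exfalso
      have h5 := Sla.hp_D e hw hj
      rw [g3, Sla.vc_D (Sla.vx_bd v) j', Sla.vx_D v] at h5
      omega

/-- all cells over one face lie in the same tile -/
theorem tg_same (G : (S.sh h3 c).Fk) {j j' : ℕ} (hj : j < S.n c) (hj' : j' < S.n c) :
    (tg G j).tile = (tg G j').tile := by
  obtain ⟨h1, h2⟩ := tg_tile (S := S) (h3 := h3) (c := c) (G := G) hj
  obtain ⟨g1, g2⟩ := tg_tile (S := S) (h3 := h3) (c := c) (G := G) hj'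
  refine inner_unique (hH := S.hH) (hdis := S.dis) G ?_ h2 ?_ g2
  · rw [C2.mem_side]
    exact h1
  · rw [C2.mem_side]
    exact g1

/-- the late faces at the core `c`: level faces from level `jm` on, vertical faces from layer `jm` -/
def LateF (S : Sla T κ) (h3 : finrank ℝ E = 3) (c : κ) (jm : ℕ) (F : S.Fn h3) : Prop :=
  (∃ (G : (S.sh h3 c).Fk) (i : ℕ), jm ≤ i ∧ i ≤ S.n c ∧ F = hf G i) ∨
    ∃ (e : S.Ed c) (i : ℕ), jm ≤ i ∧ i < S.n c ∧ F = vf h3 e i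

/-- **a point of the family `a` on a late face**: a copy of a point of an edge `e`, and the cells over
one of the faces at `e` lie in the tile of one side of the face -/
theorem late_pt {jm : ℕ} {F : S.Fn h3} (hF : LateF S h3 c jm F) {y : E}
    (hy : (s2 S h3 Tw l0).At F y) (hl : fam ((s2 S h3 Tw l0).lab y) = a)
    (hQ : ∀ j, jm ≤ j → j < S.n c → ((Tw.tw c a).mv j).Qv = ∅) :
    ∃ e : S.Ed c, ∃ w ∈ e.1.opn, ∃ i, jm ≤ i ∧ i ≤ S.n c ∧ y = S.hp c i w ∧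
      w ∈ ((Tw.tw c a).pat i).P ∧ ∃ G : (S.sh h3 c).Fk, (∃ b, (S.sh h3 c).fc e b = G.1) ∧
        ∃ i0, i0 < S.n c ∧ (Sum.inl (tg G i0) : T.RIdx S.HH ⊕ κ) ∈ (S.mn h3).side F := by
  obtain ⟨hyP, hyF⟩ := hy
  rcases hF with ⟨G, i, h1, h2, rfl⟩ | ⟨e, i, h1, h2, rfl⟩
  · obtain ⟨w, hw, rfl⟩ := (Sla.on_hf h2).1 hyF
    obtain ⟨e, b, heb, hwe⟩ := ((S.sh h3 c).onE G.2).1 hw
    have hwe' : w ∈ e.1.opn := hwe
    refine ⟨e, w, hwe', i, h1, h2, rfl, pat_of_hp hwe' h2 hyP hl, G, ⟨b, heb⟩, ?_⟩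
    rcases Nat.lt_or_ge i (S.n c) with h | h
    · refine ⟨i, h, ?_⟩
      rcases Nat.eq_zero_or_pos i with h0 | h0
      · subst h0
        exact Sla.side_top G
      · obtain ⟨k, rfl⟩ := Nat.exists_eq_succ_of_ne_zero h0.ne'
        rw [Sla.side_mid G h]
        exact Sym2.mem_mk_right _ _
    · have h5 : i = S.n c := by omega
      subst h5
      have hn := S.npos c
      refine ⟨S.n c - 1, by omega, ?_⟩
      rw [Sla.side_bot G (j := S.n c - 1) (by omega)]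
      exact Sym2.mem_mk_left _ _
  · -- a vertical face
    have hG : ∃ i0, i0 < S.n c ∧ (Sum.inl (tg (⟨(S.sh h3 c).fc e false,
        (S.sh h3 c).fc_side e false⟩ : (S.sh h3 c).Fk) i0) : T.RIdx S.HH ⊕ κ) ∈
          (S.mn h3).side (vf h3 e i) := by
      refine ⟨i, h2, ?_⟩
      rw [Sla.side_vf e h2]
      exact Sym2.mem_mk_left _ _
    obtain ⟨a', x0, g1, g2, g3, -⟩ := on_vf (l0 := l0) h2 hyP hyF
    rcases x0 with w | w | v
    · have hw : w ∈ e.1.opn := (S.sh h3 c).top_mem_vert.1 g2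
      have g3' : y = S.hp c i w := g3
      subst g3'
      exact ⟨e, w, hw, i, h1, h2.le, rfl, pat_of_hp hw h2.le hyP hl, _, ⟨false, rfl⟩, hG⟩
    · have hw : w ∈ e.1.opn := (S.sh h3 c).bot_mem_vert.1 g2
      have g3' : y = S.hp c (i + 1) w := g3
      subst g3'
      exact ⟨e, w, hw, i + 1, by omega, h2, rfl, pat_of_hp hw h2 hyP hl, _, ⟨false, rfl⟩, hG⟩
    · exfalso
      have hv := ((Tw.tw c a').mv i).vert_mem_P'.1 g1
      have g3' : y = S.vc c v.1 i := g3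
      have h5 := lab_vp (l0 := l0) h2 hv
      rw [← g3'] at h5
      rw [h5, Tw.labv hv] at hl
      subst hl
      rw [hQ i h1 h2] at hv
      simp at hv

end core

section main

open Crest.Agent.R096.Brk1_582 Crest.Agent.R096.Brk2_582 Crest.Agent.R096.Brk3_582
open Crest.Agent.R096.Brk5_582 Crest.Agent.R096.Bsp_628
open Crest.Agent.R096.Seq_213.GSt
open Crest.Agent.R096.Lm_117 Crest.Agent.R096.Ginv_543
open Crest.Agent.R096.Init_543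
open Crest.Agent.R096.SkC1_961 (E3 Hom3 FoamD)
open Crest.Agent.R096.Mbf_337 (KJ sb gau Cores Tiny Words)
open Crest.Agent.R096.Frn_337 (Ti cti Lay)
open Crest.Agent.R096.SkB_662 Crest.Agent.R096.Qdl_662 Crest.Agent.R096.Dinv_106
open Crest.Agent.R096.Dis_184
open Crest.Agent.R096.Frk_441
open Crest.Agent.R096.Tro_914 Crest.Agent.R096.Pbn_147 Crest.Agent.R096.Tro_147
  Crest.Agent.R096.Cg_501 Crest.Agent.R096.Sgd_298
  Crest.Agent.R096.Sgo_298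

variable {δ κ0 R c0 : ℝ} {La Om : Set E3} {ι : Type} {Φ : FoamD δ κ0 R c0 La}
  {T : Tiling Om ι} {f g : E3 → E3} {s₁ σ' tb ε : ℝ} {X : Set Φ.F} {J0 : Φ.F → Set ι}
  {ct' : Φ.F → ι} {r₀ : Φ.F → ℝ} {S : Sla T (Ti X)} {L : Φ.F → Finset ℝ} [Nonempty (JJ Φ L)]
  {hLa : IsOpen La} {hR : InitR Φ T f g J0 ct' r₀}
  {hM : Mesh0 T (Pc Φ.F) (bc (F := Φ.F)) (RF Φ r₀) f (KorJ Φ J0) ε} {hε : ε < s₁} {hε1 : ε < 1}
  {s₃ : GSt (S.mn fr3) (fun j : JJ Φ L => j.1)} {Mo : Type}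
  {s : GSt (S.m0 fr3) (Sum.map (fun j : JJ Φ L => j.1) (id : Mo → Mo))}
  {Tw : Twrs (S.sh fr3) S.n s} {l0 : E3 → JJ Φ L ⊕ Mo} {am : Mo → Φ.F}

/-- **(O): A POINT OF `j` ON A LATE FACE WITH A BARRIER POINT OF ITS FAMILY IS IN `X`** -/
theorem late_in (hσ : tb + ε ≤ σ') (posσ : PosT T f J0 S s₃ σ') {lb : ℝ} (hlb : lb + ε < tb)
    {j : JJ Φ L} {k : Init_543.QK (Pc Φ.F)} (hkB : j.1 ∈ k.B) {c : Ti X} {jm : ℕ}
    (hpat : ∀ i, jm ≤ i → i < S.n c →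
      ((Tw.tw c (Sum.inl j.1)).pat i).P ⊆ ((Tw.tw c (Sum.inl j.1)).pat (i + 1)).P)
    (hQ : ∀ i, jm ≤ i → i < S.n c → ((Tw.tw c (Sum.inl j.1)).mv i).Qv = ∅) {Y : Set E3}
    (hY : ∀ F w, (s2 S fr3 Tw l0).At F w → (s2 S fr3 Tw l0).lab w = Sum.inl j →
      K3 s₃ (qS S hLa hR hM hε hε1) j k F w → (w ∈ Y ↔ (s2 S fr3 Tw l0).mu F w ∈ Y))
    (hG : ∀ F w, Sum.inr c ∈ (S.mn fr3).side F → (s2 S fr3 Tw l0).At F w →
      (s2 S fr3 Tw l0).lab w = Sum.inl j → w ∈ Y)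
    {F : S.Fn fr3} (hF : LateF S fr3 c jm F) {y h : E3} (hy : (s2 S fr3 Tw l0).At F y)
    (hyl : (s2 S fr3 Tw l0).lab y = Sum.inl j) (hh : (s2 S fr3 Tw l0).At F h)
    (hp : ∀ p : T.RIdx S.HH, (∀ k', ¬ P (S.T3.H p) ⊆ S.KK k') → h ∈ P (S.T3.H p) →
      p.tile ∉ KorJ Φ J0 → ∀ e, e ≠ j.1 → ∃ x ∈ P (T.H p.tile),
        Φ.lev e (f x) ≤ lb ∨ 1 - lb ≤ Φ.lev e (f x)) : y ∈ Y := by
  have hfam : Sum.map (fun j : JJ Φ L => j.1) (id : Mo → Mo) ((s2 S fr3 Tw l0).lab y) =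
      Sum.inl j.1 := by rw [hyl]; rfl
  obtain ⟨e, w, hw, i, h1, h2, rfl, h4, G, ⟨b, hGe⟩, i0, h5, h6⟩ := late_pt hF hy hfam hQ
  obtain ⟨hhp, hpK, -⟩ := sideN_tile hh.2 h6
  have hact : (tg G i0).tile ∉ Act0 T (Pc Φ.F) (bc (F := Φ.F)) (RF Φ r₀) f (KorJ Φ J0) tb k :=
    bar_act hLa hR hM hlb hkB fun h3 => hp _ hpK hhp h3
  refine down_late (jm := jm) hw (fun i' a1 a2 a3 => hpat i' a1 a2 a3) hY ?_ ?_ h1 h2 h4 hyl
  · intro i' a1 a2 hA hl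
    refine kfree_side hσ posσ (p := tg G i') ?_ ?_ hA ?_
    · rw [Sla.side_vf e a2]
      have hG' : G = ⟨(S.sh fr3 c).fc e b, (S.sh fr3 c).fc_side e b⟩ := Subtype.ext hGe.symm
      rw [hG']
      cases b
      · exact Sym2.mem_mk_left _ _
      · exact Sym2.mem_mk_right _ _
    · rw [tg_same G a2 h5]
      exact hact
    · rw [hl]
      exact (qin k _).2 hkB
  · intro a1 a2
    obtain ⟨G', hG'⟩ : ∃ G' : (S.sh fr3 c).Fk, (S.sh fr3 c).fc e b = G'.1 := ⟨G, hGe⟩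
    have hwG : w ∈ (S.m0 fr3).On G.1 := by
      rw [(S.sh fr3 c).onE G.2]
      exact ⟨e, b, hGe, hw⟩
    have hn := S.npos c
    refine hG (hf G (S.n c)) _ ?_ ⟨mem_hp le_rfl a1, (Sla.on_hf le_rfl).2 ⟨w, hwG, rfl⟩⟩ a2
    rw [Sla.side_bot G (j := S.n c - 1) (by omega)]
    exact Sym2.mem_mk_right _ _

end main

end Crest.Agent.R096.Lat_498
end

-- ▼ part R096/Zwk1_560
section

/-!
# R096 (row 96), DOORS, NEWIN (helper560): **the full sheet of a barrier over the end zone is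
connected by its own chords** (board leaf B3)

* `part_conn` : the part of the sheet of a barrier over a part `B` of the frontier of the brick;
* `zone_conn` : the parts `{lev (am m) ≤ t0}`, `{t0 ≤ lev (am m)}` of the sheet of the barrier `m`;
* **`zwalk`** : two points of the name `m` of `stB` in the same zone are joined by chords of the full
  sheet on faces of tiles which meet the sheet in the zone (both ends).
-/

set_option autoImplicit false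
set_option linter.unusedSectionVars false
set_option linter.unusedVariables false
set_option linter.style.longLine false

open Set Topology Filter Metric Module Relation
open scoped Classical

namespace Crest.Agent.R096.Zwk_560

open Crest.Agent.R096.Msh_715 Crest.Agent.R096.Coh_184 Crest.Agent.R096.Lab_184
  Crest.Agent.R096.Main_4 Crest.Agent.R096.Agl5_543
  Crest.Agent.R096.Seq_213 Crest.Agent.R096.St_147 Crest.Agent.R096.Door_501
  Crest.Agent.R096.Twr_438 Crest.Agent.R096.Exa_560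
  Crest.Agent.R096.Ess3_95 Crest.Agent.R096.Ess4_95
  Crest.Agent.R096.Dfi_471 Crest.Agent.R096.Sla_184
  Crest.Agent.R096.Brk1_582 Crest.Agent.R096.Brk2_582 Crest.Agent.R096.Brk3_582
  Crest.Agent.R096.Brk5_582 Crest.Agent.R096.Bsp_628 Crest.Agent.R096.Init_543
  Crest.Agent.R096.Dib_438 Crest.Agent.R096.Rop_441
  Crest.Agent.R096.Frs_662 Crest.Agent.R096.Cg_501 Crest.Agent.R096.SecW_892
  Crest.Agent.R096.Nmd1_698 Crest.Agent.R096.Pbn_147 Crest.Agent.R096.Bar_106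
  Crest.Agent.R096.Ebr1_95 Crest.Agent.R096.Ebr3_95 Crest.Agent.R096.Ebr5_95
  Crest.Agent.R096.Ebr6_95 Crest.Agent.R096.Ebr8_95
  Crest.Agent.R096.Ebr4_95 Crest.Agent.R096.Bgf_4 Crest.Agent.R096.Ess5_95
  Crest.Agent.R096.Cns_778 Crest.Agent.R096.Nwi_688 Crest.Agent.R096.Sphg_316
open Crest.Agent.R096.Sgo_298 (RmA rout ActR)
open Crest.Agent.R096.Mbf_337 (KJ Tiny Cores Fine Words sb gau)
open Crest.Agent.R096.SkC1_961 (E3 FoamD Hom3)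
open Crest.Agent.R096.Frn_337 (Ti)
open Crest.Agent.R096.Ess7_95 (KT)

section gen

variable {δ κ0 R c0 : ℝ} {La Om : Set E3} {ι : Type} {Φ : FoamD δ κ0 R c0 La}
  {T : Tiling Om ι} {f g : E3 → E3}
  {J0 J V : Φ.F → Set ι} {θ : Φ.F → E3 → E3} {Mo : Type} {co : Mo → Φ.F}
  {ρ1 ρ2 ρ3 ρ4 d : Mo → ℝ} {G : Mo → E3 → ℝ} {rm h lo hi ω : Mo → ℝ} {q₀ : Mo → E3}
  {g0 ε rr : Mo → ℝ}

/-- the part of the sheet of a barrier over a part `B` of the frontier of the brick -/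
theorem part_conn (hB : BarF Φ T f J0 J V θ co ρ1 ρ2 ρ3 ρ4 d G rm h lo hi ω q₀ g0)
    (hLa : IsOpen La) (H : Hm f g Om La) (hε : ∀ m, ε m ∈ Ioo (lo m) (hi m)) {m : Mo}
    {B : Set E3}
    (hE : IsPreconnected {q | q ∈ frontier (co m).1.set ∧ G m q = ε m ∧ q ∈ B})
    (hL : IsPreconnected {q | q ∈ frontier (co m).1.set ∧ G m q ≤ ε m ∧ q ∈ B})
    (hn : {q | q ∈ frontier (co m).1.set ∧ G m q = ε m ∧ q ∈ B}.Nonempty) :
    IsPreconnected {x | x ∈ Om ∧ lM Φ co rm h hi G m (f x) = ε m ∧ Φ.Psi (f x) ∈ B} := by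
  have hr := hB.room m
  have hd := hr.d0
  have hh := hB.h0 m
  have hG1 : GA Φ (co m) (ρ4 m) := Etg_163.ga_gau Φ hLa (hB.pt m)
    (by linarith [hr.r1, hr.r12, hr.r23, hr.r34]) hr.r4 hr.ray
  have hlo0 := (hB.gm m).lo0
  have hε0 : 0 ≤ ε m := hlo0.trans (hε m).1.le
  have m2 : h m * ε m ≤ h m * hi m := mul_le_mul_of_nonneg_left (hε m).2.le hh.le
  have m0 : 0 ≤ h m * ε m := mul_nonneg hh.le hε0
  have b1 := hB.a0 m
  have b2 := hB.a1' m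
  have b3 := hr.r1
  have b4 := hr.r4
  have c1 := preconn_SB1_on hG1 hE hL hn hLa (hB.pt m) (a0 := rm m - h m * ε m)
    (a1 := rm m + h m * ε m) (by linarith) (by linarith) (by linarith)
  have c2 := H.preconn_pre (D := SB1 Φ (co m) (G m) (rm m - h m * ε m) (rm m + h m * ε m) (ε m) ∩
    {y | Φ.Psi y ∈ B}) (fun y hy => Φ.bf.sub (co m).1 (co m).2 hy.1.1) c1
  have e : {x | x ∈ Om ∧ lM Φ co rm h hi G m (f x) = ε m ∧ Φ.Psi (f x) ∈ B} =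
      Om ∩ f ⁻¹' (SB1 Φ (co m) (G m) (rm m - h m * ε m) (rm m + h m * ε m) (ε m) ∩
        {y | Φ.Psi y ∈ B}) := by
    ext x
    have h6 : rm m + h m * ε m ≤ 1 := by linarith
    have h5 := bl_eq_iff_SB1 (y := f x) (G := G m) hG1 hh hε0 (hε m).2 (rm := rm m) h6
    constructor
    · rintro ⟨k1, k2, k3⟩
      exact ⟨k1, h5.1 k2, k3⟩
    · rintro ⟨k1, k2, k3⟩
      exact ⟨k1, h5.2 k2, k3⟩
  rw [e]
  exact c2

end gen

section bars

variable {δ κ0 R c0 : ℝ} {La Om : Set E3} {ι : Type} {Φ : FoamD δ κ0 R c0 La}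
  {T : Tiling Om ι} {f g : E3 → E3}
variable {X : Set Φ.F} {J0 J V : Φ.F → Set ι} {θ : Φ.F → E3 → E3}
  {ρ1 ρ2 ρ3 ρ4 d : Φ.F → ℝ} {sg l0 mm ra : ℝ}
variable {r₀ : Φ.F → ℝ} {L : Φ.F → Finset ℝ} [Nonempty (JJ Φ L)] {ct' : Φ.F → ι}
  {bp : JJ Φ L → E3} {bm : BM Φ X → E3} {ε : BM Φ X → ℝ} {q₀ : BM Φ X → E3}
  {hGB : GFB Φ r₀ T f L (lBM Φ X ρ1 ρ3 d sg l0 mm ra) ε} {κ1 : ℝ}

/-- the part of the sheet of the barrier `m` in the zone `D` of the levels of its family -/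
def ZnS (Om : Set E3) (Φ : FoamD δ κ0 R c0 La) (f : E3 → E3) (X : Set Φ.F)
    (ℓ : BM Φ X → E3 → ℝ) (ε : BM Φ X → ℝ) (D : ℝ → Prop) (m : BM Φ X) : Set E3 :=
  {x | x ∈ Om ∧ ℓ m (f x) = ε m ∧ D (Φ.lev m.am (f x))}

theorem zone_conn_le (hLa : IsOpen La) (H : Hm f g Om La)
    (hBM : BarM Φ T f X J0 J V θ ρ1 ρ2 ρ3 ρ4 d sg l0 mm ra q₀)
    (hε : ∀ m, ε m ∈ Ioo 1 (hiB ρ1 ρ3 d sg m.co)) (m : BM Φ X) {hi t0 : ℝ}
    (hN : Nm l0 mm ra hi) (hi1 : ε m ≤ hi) (h1 : mm - ε m * ra ≤ t0) (h2 : t0 < mm + ε m * ra) :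
    IsPreconnected (ZnS Om Φ f X (lBM Φ X ρ1 ρ3 d sg l0 mm ra) ε (fun t => t ≤ t0) m) := by
  obtain ⟨p, q, hM⟩ := m.2
  have e0 : (0 : ℝ) ≤ ε m := by linarith [(hε m).1]
  obtain ⟨c1, c2, c3⟩ := moat_le hLa hM hN e0 hi1 h1 h2
  exact part_conn hBM hLa H hε (m := m) (B := {q | sb Φ q m.am ≤ t0}) c1 c2 c3

theorem zone_conn_ge (hLa : IsOpen La) (H : Hm f g Om La)
    (hBM : BarM Φ T f X J0 J V θ ρ1 ρ2 ρ3 ρ4 d sg l0 mm ra q₀)
    (hε : ∀ m, ε m ∈ Ioo 1 (hiB ρ1 ρ3 d sg m.co)) (m : BM Φ X) {hi t0 : ℝ}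
    (hN : Nm l0 mm ra hi) (hi1 : ε m ≤ hi) (h1 : mm - ε m * ra < t0) (h2 : t0 ≤ mm + ε m * ra) :
    IsPreconnected (ZnS Om Φ f X (lBM Φ X ρ1 ρ3 d sg l0 mm ra) ε (fun t => t0 ≤ t) m) := by
  obtain ⟨p, q, hM⟩ := m.2
  have e0 : (0 : ℝ) ≤ ε m := by linarith [(hε m).1]
  obtain ⟨c1, c2, c3⟩ := moat_ge hLa hM hN e0 hi1 h1 h2
  exact part_conn hBM hLa H hε (m := m) (B := {q | t0 ≤ sb Φ q m.am}) c1 c2 c3

end bars

section mach

variable {δ κ0 R c0 : ℝ} {La Om : Set E3} {ι : Type} {Φ : FoamD δ κ0 R c0 La} {T : Tiling Om ι}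
  {f g : E3 → E3} {κ1 κ2 μ : ℝ} {X : Set Φ.F} {J0 J V : Φ.F → Set ι}
  {ct ct' : Φ.F → ι} {θ : Φ.F → E3 → E3} {r₀ : Φ.F → ℝ} {ρ1 ρ2 ρ3 ρ4 d : Φ.F → ℝ}
  {L : Φ.F → Finset ℝ} [Nonempty (JJ Φ L)] {hG : GF Φ r₀ T f L} {bp : JJ Φ L → E3}
  {Nn : BM Φ X → Set ℝ} {q₀ : BM Φ X → E3} {ε : BM Φ X → ℝ} {bm : BM Φ X → E3}
  {hGB : GFB Φ r₀ T f L (lRc Φ X μ ρ1 ρ3 d) ε}
  {v0B v1B : ∀ c, BM Φ X → VxK T (KT T J X) c} {m : BM Φ X} {x y : E3} {t0 : ℝ}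

/-- the faces of the tiles which meet the sheet of `m` in the zone `D` -/
def ZnF (T : Tiling Om ι) (Φ : FoamD δ κ0 R c0 La) (f : E3 → E3) (X : Set Φ.F)
    (ℓ : BM Φ X → E3 → ℝ) (ε : BM Φ X → ℝ) (D : ℝ → Prop) (m : BM Φ X) : Set (C2 T) :=
  {F | ∃ q ∈ F.side fr3, ∃ x ∈ P (T.H q), ℓ m (f x) = ε m ∧ D (Φ.lev m.am (f x))}

/-- the carrier of the sheet of `m` -/
theorem car_m (hLa : IsOpen La) (hI : InitR Φ T f g J0 ct' r₀) (hμ : 0 < μ)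
    (hLm : ∀ c, ∀ t ∈ L c, μ ≤ t ∧ t ≤ 1 - μ)
    (B : BarOut Φ T f κ1 μ X J0 J V θ hG bp Nn ρ1 ρ2 ρ3 ρ4 d q₀ ε bm hGB v0B v1B) (m : BM Φ X) :
    Car (stB hGB bp bm) (Sum.inr m)
      (Bgf_4.SB Om Φ r₀ f L (lRc Φ X μ ρ1 ρ3 d) ε (Sum.inr m)) :=
  car_gmain hGB (fun j => B.base.mem hLa hI j) (Sum.inr m) (B.triv (Sum.inr m))

theorem zwalk_gen (hLa : IsOpen La) (hI : InitR Φ T f g J0 ct' r₀) (hμ : 0 < μ)
    (hLm : ∀ c, ∀ t ∈ L c, μ ≤ t ∧ t ≤ 1 - μ)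
    (B : BarOut Φ T f κ1 μ X J0 J V θ hG bp Nn ρ1 ρ2 ρ3 ρ4 d q₀ ε bm hGB v0B v1B) {D : ℝ → Prop}
    (hc : IsPreconnected (ZnS Om Φ f X (lRc Φ X μ ρ1 ρ3 d) ε D m))
    (hx : x ∈ (stB hGB bp bm).P) (hxl : (stB hGB bp bm).lab x = Sum.inr m)
    (hxt : D (Φ.lev m.am (f x)))
    (hy : y ∈ (stB hGB bp bm).P) (hyl : (stB hGB bp bm).lab y = Sum.inr m)
    (hyt : D (Φ.lev m.am (f y))) :
    ReflTransGen (ZStep (stB hGB bp bm) (ZnF T Φ f X (lRc Φ X μ ρ1 ρ3 d) ε D m)) x y := by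
  have hx' : x ∈ ZnS Om Φ f X (lRc Φ X μ ρ1 ρ3 d) ε D m := by
    obtain ⟨h1, -, h2, -⟩ := B.pos m x hx hxl
    exact ⟨h1, h2, hxt⟩
  have hy' : y ∈ ZnS Om Φ f X (lRc Φ X μ ρ1 ρ3 d) ε D m := by
    obtain ⟨h1, -, h2, -⟩ := B.pos m y hy hyl
    exact ⟨h1, h2, hyt⟩
  have h1 := cl_path (car_m hLa hI hμ hLm B m) hc (fun z hz => ⟨hz.1, hz.2.1⟩)
    (cl_of hx hxl hx') (cl_of hy hyl hy')
  refine Relation.ReflTransGen.mono ?_ _ _ h1
  rintro u v ⟨F, ⟨q, hq, z, hz, hz'⟩, hA, e⟩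
  exact ⟨F, ⟨q, hq, z, hz, hz'.2.1, hz'.2.2⟩, hA, e⟩

/-- **THE WALK OVER THE LOW END ZONE** -/
theorem zwalk_le (hLa : IsOpen La) (hI : InitR Φ T f g J0 ct' r₀) (hμ : 0 < μ) (hμ1 : μ ≤ 1 / 2)
    (hLm : ∀ c, ∀ t ∈ L c, μ ≤ t ∧ t ≤ 1 - μ)
    (B : BarOut Φ T f κ1 μ X J0 J V θ hG bp Nn ρ1 ρ2 ρ3 ρ4 d q₀ ε bm hGB v0B v1B)
    (ht0 : 5 * μ / 16 ≤ t0) (ht1 : t0 ≤ 1 / 2)
    (hx : x ∈ (stB hGB bp bm).P) (hxl : (stB hGB bp bm).lab x = Sum.inr m)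
    (hxt : Φ.lev m.am (f x) ≤ t0)
    (hy : y ∈ (stB hGB bp bm).P) (hyl : (stB hGB bp bm).lab y = Sum.inr m)
    (hyt : Φ.lev m.am (f y) ≤ t0) :
    ReflTransGen (ZStep (stB hGB bp bm) {F | ∃ q ∈ F.side fr3, ∃ x ∈ P (T.H q),
      lRc Φ X μ ρ1 ρ3 d m (f x) = ε m ∧ Φ.lev m.am (f x) ≤ t0}) x y := by
  have h3 := (B.lv m).1
  have hra : 0 < 1 / 2 - 5 * μ / 16 := by linarith
  have h4 : hiB ρ1 ρ3 d (μ / 16) m.co ≤ 1 + μ / 2 := by
    have := hiB_le (ρ1 := ρ1) (ρ3 := ρ3) (d := d) (μ / 16) m.co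
    linarith
  have hc := zone_conn_le hLa hI.hm B.barF B.lv m (nm_rec hμ hμ1) ((B.lv m).2.le.trans h4)
    (t0 := t0) (by nlinarith) (by nlinarith)
  exact zwalk_gen (D := fun t => t ≤ t0) hLa hI hμ hLm B hc hx hxl hxt hy hyl hyt

/-- **THE WALK OVER THE HIGH END ZONE** -/
theorem zwalk_ge (hLa : IsOpen La) (hI : InitR Φ T f g J0 ct' r₀) (hμ : 0 < μ) (hμ1 : μ ≤ 1 / 2)
    (hLm : ∀ c, ∀ t ∈ L c, μ ≤ t ∧ t ≤ 1 - μ)
    (B : BarOut Φ T f κ1 μ X J0 J V θ hG bp Nn ρ1 ρ2 ρ3 ρ4 d q₀ ε bm hGB v0B v1B)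
    (ht0 : 1 / 2 ≤ t0) (ht1 : t0 ≤ 1 - 5 * μ / 16)
    (hx : x ∈ (stB hGB bp bm).P) (hxl : (stB hGB bp bm).lab x = Sum.inr m)
    (hxt : t0 ≤ Φ.lev m.am (f x))
    (hy : y ∈ (stB hGB bp bm).P) (hyl : (stB hGB bp bm).lab y = Sum.inr m)
    (hyt : t0 ≤ Φ.lev m.am (f y)) :
    ReflTransGen (ZStep (stB hGB bp bm) {F | ∃ q ∈ F.side fr3, ∃ x ∈ P (T.H q),
      lRc Φ X μ ρ1 ρ3 d m (f x) = ε m ∧ t0 ≤ Φ.lev m.am (f x)}) x y := by
  have h3 := (B.lv m).1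
  have hra : 0 < 1 / 2 - 5 * μ / 16 := by linarith
  have h4 : hiB ρ1 ρ3 d (μ / 16) m.co ≤ 1 + μ / 2 := by
    have := hiB_le (ρ1 := ρ1) (ρ3 := ρ3) (d := d) (μ / 16) m.co
    linarith
  have hc := zone_conn_ge hLa hI.hm B.barF B.lv m (nm_rec hμ hμ1) ((B.lv m).2.le.trans h4)
    (t0 := t0) (by nlinarith) (by nlinarith)
  exact zwalk_gen (D := fun t => t0 ≤ t) hLa hI hμ hLm B hc hx hxl hxt hy hyl hyt

end mach

end Crest.Agent.R096.Zwk_560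
end

-- ▼ part R096/Zcn1_143
section

/-!
# R096 (row 96), DOORS, NEWIN (helper143): the end zone of the FULL sheet of a barrier is connected

* `sheet_on_conn` : the part of a barrier sheet (all gauges, also inside the core) over a part `D` of
  the frontier of the brick;
* `ends_conn`     : both end walls `{lev a ≤ t0}`, `{t0 ≤ lev a}` of the full sheet;
* `gst1_zone`, `zstep_zone` : the points of the name `m` in an end zone are joined by chords on faces of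
  tiles which meet the end zone of the sheet.
-/

set_option autoImplicit false
set_option linter.unusedSectionVars false
set_option linter.unusedVariables false
set_option linter.style.longLine false

open Set Topology Filter Metric Module Relation
open scoped Classical

namespace Crest.Agent.R096.Zcn_143

open Crest.Agent.R096.Msh_715 Crest.Agent.R096.Coh_184 Crest.Agent.R096.Bsp_628
  Crest.Agent.R096.Brk1_582 Crest.Agent.R096.Brk2_582 Crest.Agent.R096.Brk3_582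
  Crest.Agent.R096.Brk5_582 Crest.Agent.R096.Init_543 Crest.Agent.R096.Mbf_337
  Crest.Agent.R096.Main_4 Crest.Agent.R096.Lab_184
  Crest.Agent.R096.Seq_213 Crest.Agent.R096.Seq_213.GSt Crest.Agent.R096.Ginv_543
  Crest.Agent.R096.Agl5_543
  Crest.Agent.R96.Push_899 Crest.Agent.R096.Ess5_95 Crest.Agent.R096.Ess8_95
  Crest.Agent.R096.Ebr1_95 Crest.Agent.R096.Ebr4_95 Crest.Agent.R096.Bar_106
  Crest.Agent.R096.Exa_560 Crest.Agent.R096.Sphg_316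
  Crest.Agent.R096.Bgf_4 Crest.Agent.R096.Ess3_95 Crest.Agent.R096.Sla_184
  Crest.Agent.R096.Twr_438 Crest.Agent.R096.Dfi_471 Crest.Agent.R096.Pbn_147
  Crest.Agent.R096.Sec_892 Crest.Agent.R096.St_147 Crest.Agent.R096.Door_501
  Crest.Agent.R096.Cg_501 Crest.Agent.R096.Cns_778 Crest.Agent.R096.Dib_438
  Crest.Agent.R096.Ebr8_95
open Crest.Agent.R096.Frn_337 (Ti)
open Crest.Agent.R096.Ess7_95 (KT)
open Crest.Agent.R096.Sla_184.Sla (old Fn Out F0)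
open Crest.Agent.R096.SkC1_961 (E3 Hom3 IsPush FoamD)

section gen

variable {δ κ0 R c0 : ℝ} {La Om : Set E3} {ι : Type} {Φ : FoamD δ κ0 R c0 La}
  {T : Tiling Om ι} {f g : E3 → E3}
  {J0 J V : Φ.F → Set ι} {θ : Φ.F → E3 → E3} {Mo : Type} {co : Mo → Φ.F}
  {ρ1 ρ2 ρ3 ρ4 d : Mo → ℝ} {G : Mo → E3 → ℝ} {rm h lo hi ω : Mo → ℝ} {q₀ : Mo → E3}
  {g0 ε : Mo → ℝ}

/-- the part of the sheet of the barrier `m` (all gauges) over the part `D` of the frontier -/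
def Gsh (Om : Set E3) (Φ : FoamD δ κ0 R c0 La) (f : E3 → E3) (ℓ : Mo → E3 → ℝ) (ε : Mo → ℝ)
    (m : Mo) (D : Set E3) : Set E3 :=
  {x | x ∈ Om ∧ ℓ m (f x) = ε m ∧ Φ.Psi (f x) ∈ D}


end gen

section mach

variable {δ κ0 R c0 : ℝ} {La Om : Set E3} {ι : Type} {Φ : FoamD δ κ0 R c0 La} {T : Tiling Om ι}
  {f g : E3 → E3} {κ1 κ2 μ : ℝ} {X : Set Φ.F} {J0 J V : Φ.F → Set ι}
  {ct' : Φ.F → ι} {θ : Φ.F → E3 → E3} {r₀ : Φ.F → ℝ} {ρ1 ρ2 ρ3 ρ4 d : Φ.F → ℝ}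
  {L : Φ.F → Finset ℝ} [Nonempty (JJ Φ L)] {hG : GF Φ r₀ T f L} {bp : JJ Φ L → E3}
  {Nn : BM Φ X → Set ℝ} {q₀ : BM Φ X → E3} {ε : BM Φ X → ℝ} {bm : BM Φ X → E3}
  {hGB : GFB Φ r₀ T f L (lRc Φ X μ ρ1 ρ3 d) ε}
  {v0B v1B : ∀ c, BM Φ X → VxK T (KT T J X) c}

/-- the part of the barrier of record over the part `D` of the frontier of its brick -/
abbrev GsD (Om : Set E3) (Φ : FoamD δ κ0 R c0 La) (f : E3 → E3) (X : Set Φ.F) (μ : ℝ)
    (ρ1 ρ3 d : Φ.F → ℝ) (ε : BM Φ X → ℝ) (m : BM Φ X) (D : Set E3) : Set E3 :=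
  Gsh Om Φ f (lRc Φ X μ ρ1 ρ3 d) ε m D









/-- **the tiles which meet the sheet over `D`** : near the core of `m`, outside the inner core -/
theorem gsD_tile
    (B : BarOut Φ T f κ1 μ X J0 J V θ hG bp Nn ρ1 ρ2 ρ3 ρ4 d q₀ ε bm hGB v0B v1B) {m : BM Φ X}
    {D : Set E3} {x : E3} (hx : x ∈ GsD Om Φ f X μ ρ1 ρ3 d ε m D) {q : ι} (hq : x ∈ P (T.H q)) :
    (ρ1 m.co + 2 * d m.co ≤ ga Φ m.co (f x) ∧ ga Φ m.co (f x) + 2 * d m.co ≤ ρ4 m.co) ∧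
    q ∈ V m.co ∧ q ∉ J0 m.co ∧ ∀ y ∈ P (T.H q),
      ρ1 m.co + d m.co ≤ ga Φ m.co (f y) ∧ ga Φ m.co (f y) + d m.co ≤ ρ4 m.co ∧
      ∀ e, |Φ.lev e (f x) - Φ.lev e (f y)| ≤ d m.co := by
  obtain ⟨h1, h2, -⟩ := hx
  obtain ⟨n1, n2, -, -⟩ := B.barF.pos (B.lv m).2 h2
  have hr := B.barF.room m
  have hh := B.barF.h0 m
  have e1 := B.barF.a0 m
  have e2 := B.barF.a1' m
  have e3 : Bgf_4.hB ρ1 ρ3 d m.co * ε m ≤ Bgf_4.hB ρ1 ρ3 d m.co * hiB ρ1 ρ3 d (μ / 16) m.co :=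
    mul_le_mul_of_nonneg_left (B.lv m).2.le hh.le
  have hd : 0 < d m.co := hr.d0
  have n1' : rB ρ1 ρ3 d m.co - Bgf_4.hB ρ1 ρ3 d m.co * ε m ≤ ga Φ m.co (f x) := n1
  have n2' : ga Φ m.co (f x) ≤ rB ρ1 ρ3 d m.co + Bgf_4.hB ρ1 ρ3 d m.co * ε m := n2
  have e1' : ρ1 m.co + 2 * d m.co ≤
    rB ρ1 ρ3 d m.co - Bgf_4.hB ρ1 ρ3 d m.co * hiB ρ1 ρ3 d (μ / 16) m.co := e1
  have e2' : rB ρ1 ρ3 d m.co + Bgf_4.hB ρ1 ρ3 d m.co * hiB ρ1 ρ3 d (μ / 16) m.co +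
    2 * d m.co ≤ ρ4 m.co := e2
  have g1 : ρ1 m.co + 2 * d m.co ≤ ga Φ m.co (f x) := by linarith
  have g2 : ga Φ m.co (f x) + 2 * d m.co ≤ ρ4 m.co := by linarith
  have g1' : ρ1 m.co ≤ ga Φ m.co (f x) := by linarith
  have g2' : ga Φ m.co (f x) ≤ ρ4 m.co := by linarith
  obtain ⟨t1, t2⟩ := hr.tile hq g1' g2'
  refine ⟨⟨g1, g2⟩, t1, t2, fun y hy => ?_⟩
  have o := hr.tile_osc hq g1' g2' hy
  have o1 := abs_le.1 o.1
  exact ⟨by linarith [o1.2], by linarith [o1.1], o.2.2⟩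




end mach

end Crest.Agent.R096.Zcn_143
end

-- ▼ part R096/Tro2_914
section

/-!
# R096 (row 96), DOORS (helper914): (T1), the truthful points outside, part 2

The hypotheses `hK`, `hT`, `hnew` of 147's `tr_cutG` for the machine (`s := s2 S fr3 Tw l0`,
`Q := qdT` over the slices), radii from 95's `Rm`:
* `UT` = the wild zone `{w | w ∈ Om ∧ ∃ c, ga (f w) ≤ ρ3 c + 8 d c}`;
* `tile_out`, `tile_bar`, `far_tile`, `root_out` : the tiles outside `Rtl`;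
* `hK_m`, `hT_m`, `hnew_m`.
-/

set_option autoImplicit false
set_option linter.unusedSectionVars false
set_option linter.unusedVariables false
set_option linter.style.longLine false

open Set Relation Module Topology Filter Metric

namespace Crest.Agent.R096.Tro_914

open Crest.Agent.R096.Brk1_582 Crest.Agent.R096.Brk2_582 Crest.Agent.R096.Brk3_582
open Crest.Agent.R096.Brk5_582 Crest.Agent.R096.Bsp_628
open Crest.Agent.R096.St_147 Crest.Agent.R096.Seq_213 Crest.Agent.R096.Seq_213.GSt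
open Crest.Agent.R096.Lm_117 Crest.Agent.R096.Msh_715 Crest.Agent.R096.Ginv_543
open Crest.Agent.R096.Agl5_543 Crest.Agent.R096.Init_543
open Crest.Agent.R096.SkC1_961 (E3 Hom3 FoamD)
open Crest.Agent.R096.Mbf_337 (KJ sb gau Cores Tiny Words)
open Crest.Agent.R096.Frn_337 (Ti cti Lay)
open Crest.Agent.R096.SkB_662 Crest.Agent.R096.Qdl_662 Crest.Agent.R096.Dinv_106
open Crest.Agent.R096.Sla_184 Crest.Agent.R096.Dfi_471 Crest.Agent.R096.Twr_438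
open Crest.Agent.R096.Ess3_95 Crest.Agent.R096.Dis_184
open Crest.Agent.R096.Frk_441 Crest.Agent.R096.Door_501
open Crest.Agent.R096.Ess5_95 Crest.Agent.R096.Dfo_539
open Crest.Agent.R096.Sgo_298 (RmA ga_core)
open Crest.Agent.R096.Sla_184.Sla (hf vf old tg F0 Fn Out OnS InL In)

variable {δ κ0 R c0 : ℝ} {La Om : Set E3} {ι : Type} {Φ : FoamD δ κ0 R c0 La}
  {T : Tiling Om ι} {f g : E3 → E3} {κ1 κ2 s₁ σ' tb ε lm : ℝ} {X : Set Φ.F}
  {J0 J V : Φ.F → Set ι} {ct : Φ.F → ι}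
  {A : Φ.F → E3 ≃ᵃ[ℝ] E3} {lam : Φ.F → ℝ} {z : Φ.F → E3} {θ : Φ.F → E3 → E3} {φ : Φ.F → E3 → ℝ}
  {ct' : Φ.F → ι} {r₀ : Φ.F → ℝ} {S : Sla T (Ti X)} {ρ1 ρ2 ρ3 ρ4 d : Φ.F → ℝ}
  {L : Φ.F → Finset ℝ} [Nonempty (JJ Φ L)]
  {hLa : IsOpen La} {hR : InitR Φ T f g J0 ct' r₀}
  {hM : Mesh0 T (Pc Φ.F) (bc (F := Φ.F)) (RF Φ r₀) f (KorJ Φ J0) ε} {hε : ε < s₁} {hε1 : ε < 1}









/-- a quad of the family `a` has another family -/
theorem exists_other {k : Init_543.QK (Pc Φ.F)} {a : Φ.F} (ha : a ∈ k.B) : ∃ b ∈ k.B, b ≠ a := by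
  have h2 : 1 < k.B.ncard := by rw [k.cB]; norm_num
  obtain ⟨b, hb, hne⟩ := Set.exists_ne_of_one_lt_ncard h2 a
  exact ⟨b, hb, hne⟩


section mach

variable {Mo : Type}
  {s : GSt (meshC T fr3) (Sum.map (fun j : JJ Φ L => j.1) (id : Mo → Mo))}
  {r : JJ Φ L ⊕ Mo → E3} {Tw : Twrs (S.sh fr3) S.n (outK S.hH S.dis s r)}
  {l0 : E3 → JJ Φ L ⊕ Mo} {am : Mo → Φ.F}
  {s₃ : GSt (S.mn fr3) (fun j : JJ Φ L => j.1)}

/-- **the barriers** (334's `PosM` for all barriers, 344) -/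
def BarP (f : E3 → E3) (J0 : Φ.F → Set ι) (am : Mo → Φ.F) (lm : ℝ)
    (s' : GSt (S.mn fr3) (Sum.map (fun j : JJ Φ L => j.1) (id : Mo → Mo))) : Prop :=
  ∀ m, ∀ w ∈ s'.P, s'.lab w = Sum.inr m → ∀ p : T.RIdx S.HH,
    (∀ k, ¬ P (S.T3.H p) ⊆ S.KK k) → w ∈ P (S.T3.H p) → p.tile ∉ KorJ Φ J0 → ∀ e, e ≠ am m →
      ∃ x ∈ P (T.H p.tile), Φ.lev e (f x) ≤ lm ∨ 1 - lm ≤ Φ.lev e (f x)

/-- **no active tiles at the barriers of the own family** -/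
theorem tile_bar (hM : Mesh0 T (Pc Φ.F) (bc (F := Φ.F)) (RF Φ r₀) f (KorJ Φ J0) ε)
    (hLa : IsOpen La) (hR : InitR Φ T f g J0 ct' r₀)
    (hbar : BarP f J0 am lm (s2 S fr3 Tw l0)) (hlm : lm + ε < tb)
    {k : Init_543.QK (Pc Φ.F)} {m : Mo} (hk : am m ∈ k.B) {h : E3}
    (hh : h ∈ (s2 S fr3 Tw l0).P) (hl : (s2 S fr3 Tw l0).lab h = Sum.inr m) {p : T.RIdx S.HH}
    (hpK : ∀ k, ¬ P (S.T3.H p) ⊆ S.KK k) (hp : h ∈ P (S.T3.H p)) :
    p.tile ∉ Act0 T (Pc Φ.F) (bc (F := Φ.F)) (RF Φ r₀) f (KorJ Φ J0) tb k := by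
  rintro ⟨hK, x₀, hx₀, h1, h2⟩
  obtain ⟨b, hb, hne⟩ := exists_other hk
  obtain ⟨y, hy, h3⟩ := hbar m h hh hl p hpK hp hK b hne
  rw [← At_241.va_lev hLa hR hK hy] at h3
  have h4 := abs_le.1 (hM.osc p.tile hK x₀ hx₀ y hy b)
  have h5 := h1 b hb
  rcases h3 with h3 | h3
  · linarith [h5.1, h4.2]
  · linarith [h5.2, h4.1]

/-- **`hK`** -/
theorem hK_m (hbar : BarP f J0 am lm (s2 S fr3 Tw l0)) (hlm : lm + ε < tb) (hσ : tb + ε ≤ σ')
    (posσ : PosT T f J0 S s₃ σ') {k : Init_543.QK (Pc Φ.F)} {j : JJ Φ L} (hk : j.1 ∈ k.B) :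
    ∀ q F F' h m, q ∈ (S.mn fr3).side F → q ∈ (S.mn fr3).side F' →
      (s2 S fr3 Tw l0).At F' h → (s2 S fr3 Tw l0).lab h = Sum.inr m → am m = j.1 →
        ∀ w, s₃.At F w → s₃.lab w = j → KFree s₃ (qS S hLa hR hM hε hε1) k F w := by
  intro q F F' h m hq hq' hA' hl' ham w hA hl
  rcases q with p | c
  · refine kfree_side hσ posσ hq (tile_bar hM hLa hR hbar hlm (by rw [ham]; exact hk) hA'.1 hl'
      (sideN_tile hA'.2 hq').2.1 (sideN_tile hA'.2 hq').1) hA ?_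
    rw [hl]
    exact (qin k _).2 hk
  · intro hin
    exact absurd (hin _ hq) inr_act




end mach

end Crest.Agent.R096.Tro_914
end

-- ▼ part R096/Nwi5_688
section

/-!
# R096 (row 96), DOORS, NEWIN (helper688), part 5: the machine instance

`newIn_m` : the new points of `j` on the tiles which meet the end zones of the levels of the family are
in every closed set which contains the points of `j` on the giants. Open inputs: `start` (walk in the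
layers) and `top` (one not enclosed outer point of every barrier over every end).
-/

set_option autoImplicit false
set_option linter.unusedSectionVars false
set_option linter.unusedVariables false
set_option linter.style.longLine false

open Set Topology Filter Metric Module Relation
open scoped Classical

namespace Crest.Agent.R096.Nwi_688

open Crest.Agent.R096.Msh_715 Crest.Agent.R096.Agl5_543 Crest.Agent.R096.St_147
  Crest.Agent.R096.Seq_213 Crest.Agent.R096.Door_501 Crest.Agent.R096.Sla_184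
  Crest.Agent.R096.Twr_438 Crest.Agent.R096.Exa_560 Crest.Agent.R096.Ess3_95
  Crest.Agent.R096.Ess4_95 Crest.Agent.R096.Dfi_539 Crest.Agent.R096.Dfi_471
  Crest.Agent.R096.Ac_117 Crest.Agent.R096.Lm_117 Crest.Agent.R096.Cp_298
  Crest.Agent.R096.Coh_184 Crest.Agent.R096.Gm_298 Crest.Agent.R096.Cpo_642
  Crest.Agent.R096.Dfo_539
open Crest.Agent.R096.Brk1_582 Crest.Agent.R096.Brk2_582 Crest.Agent.R096.Brk3_582
  Crest.Agent.R096.Brk5_582 Crest.Agent.R096.Bsp_628 Crest.Agent.R096.Init_543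
  Crest.Agent.R096.Bar_106 Crest.Agent.R096.Dib_438
  Crest.Agent.R096.Ess5_95 Crest.Agent.R096.Bgf_4 Crest.Agent.R096.Ebr1_95
  Crest.Agent.R096.Ebr4_95 Crest.Agent.R096.Rop_441 Crest.Agent.R096.Nmd1_698
open Crest.Agent.R096.Mbf_337 (sb KJ Tiny gau Cores Fine)
open Crest.Agent.R096.SkC1_961 (E3 FoamD Hom3)
open Crest.Agent.R096.Frn_337 (Ti)
open Crest.Agent.R096.Frs_662 (slC)
open Crest.Agent.R096.Ess7_95 (KT Sh)
open Crest.Agent.R096.Dia_316 (nbT)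
open Crest.Agent.R096.Dff_539 (vS)
open Crest.Agent.R096.Bmf_416 (coT)
open Crest.Agent.R096.SecW_892 Crest.Agent.R096.Cg_501 Crest.Agent.R096.Sgd_298
open Crest.Agent.R096.Sgo_298 (RmA rout ActR)
open Crest.Agent.R096.Qdl_662
open Crest.Agent.R096.Sla_184.Sla (hf vf old tg F0 Fn Out OnS InL In)
open Crest.Agent.R096.Pbn_147 (K3)
open Crest.Agent.R096.Zwk_560 (ZnF zwalk_le zwalk_ge)
open Crest.Agent.R096.Zcn_143 (GsD gsD_tile)
open Crest.Agent.R096.Tro_914 (PosT qS hK_m BarP)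

variable {δ κ0 R c0 : ℝ} {La Om : Set E3} {ι : Type} {Φ : FoamD δ κ0 R c0 La} {T : Tiling Om ι}
  {f g : E3 → E3} {κ1 κ2 μ : ℝ} {X : Set Φ.F} {J0 J V : Φ.F → Set ι}
  {ct ct' : Φ.F → ι} {A : Φ.F → E3 ≃ᵃ[ℝ] E3} {lam : Φ.F → ℝ} {z : Φ.F → E3}
  {θ : Φ.F → E3 → E3} {φ : Φ.F → E3 → ℝ} {r₀ : Φ.F → ℝ}
  {L : Φ.F → Finset ℝ} [Nonempty (JJ Φ L)] {hG : GF Φ r₀ T f L} {bp : JJ Φ L → E3}
  {N' : BM Φ X → Set ℝ} {ρ1 ρ2 ρ3 ρ4 d : Φ.F → ℝ} {q₀ : BM Φ X → E3} {ε : BM Φ X → ℝ}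
  {bm : BM Φ X → E3} {hGB : GFB Φ r₀ T f L (lRc Φ X μ ρ1 ρ3 d) ε}
  {v0F v1F : ∀ c, Φ.F → VxK T (KT T J X) c} {v0B v1B : ∀ c, BM Φ X → VxK T (KT T J X) c}
  {hLa : IsOpen La} {hC : Cores Φ T f κ1 κ2 X J0 J V ct A lam z θ φ}
  {n : Ti X → ℕ} {hn : ∀ c, 0 < n c} {r : JJ Φ L ⊕ BM Φ X → E3}
  {Sf : JJ Φ L ⊕ BM Φ X → Set E3}
  {Lv : ∀ c, Φ.F ⊕ BM Φ X → Lev T (frontier ((slC hLa hC n hn).K c)) (JJ Φ L ⊕ BM Φ X)}
  {Tw : Twrs ((slC hLa hC n hn).sh fr3) (slC hLa hC n hn).n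
    (outK (slC hLa hC n hn).hH (slC hLa hC n hn).dis (stB hGB bp bm) r)}
  {l0' : E3 → JJ Φ L ⊕ BM Φ X}

/-- the two end zones of the levels -/
def Dz (μ : ℝ) (σ : Bool) (t : ℝ) : Prop := if σ then 1 - 7 * μ / 16 ≤ t else t ≤ 7 * μ / 16

theorem Dz.or {μ : ℝ} {σ : Bool} {t : ℝ} (h : Dz μ σ t) :
    t ≤ 7 * μ / 16 ∨ 1 - 7 * μ / 16 ≤ t := by
  cases σ
  · exact Or.inl h
  · exact Or.inr h

section s2

variable (N : NumD δ κ0 R c0 κ2 μ κ1)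
  (bar : BarOut Φ T f κ1 μ X J0 J V θ hG bp N' ρ1 ρ2 ρ3 ρ4 d q₀ ε bm hGB v0B v1B)
  (D : DIn (slC hLa hC n hn).hH (stB hGB bp bm) r Sf (nbA Φ X) (vS v0F v0B) (vS v1F v1B)
    (uA Φ hLa X θ) (AA Φ X μ κ1) (BA Φ X μ))
  (lo : LevOut (Kc := (slC hLa hC n hn).K) (stB hGB bp bm) (nbA Φ X) (uA Φ hLa X θ)
    (AA Φ X μ κ1) (BA Φ X μ) Lv)
  (tt : TwOut (slC hLa hC n hn) fr3 (stB hGB bp bm) r (vS v0F v0B) (vS v1F v1B) Lv Tw)
  (htl : ∀ w ∈ (stB hGB bp bm).P, ∀ j, (stB hGB bp bm).lab w = Sum.inl j →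
    μ ≤ Φ.lev j.1 (f w) ∧ Φ.lev j.1 (f w) ≤ 1 - μ)
  (hv0 : ∀ (c : Ti X) a, nbT Φ X c a → sb Φ (θ c.1 (v0F c a).1) a ≤ (2 * Cn δ R + 1) * κ1)
  (hv1 : ∀ (c : Ti X) a, nbT Φ X c a → 1 - (2 * Cn δ R + 1) * κ1 ≤ sb Φ (θ c.1 (v1F c a).1) a)

include bar in
/-- the gauge at the zone points of the sheet of `m` -/
theorem zn_ga {m : BM Φ X} {x : E3} (hx : x ∈ Om) (hl : lRc Φ X μ ρ1 ρ3 d m (f x) = ε m) :
    ρ1 m.co ≤ ga Φ m.co (f x) ∧ ga Φ m.co (f x) ≤ ρ4 m.co := by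
  obtain ⟨q, hq⟩ := T.cov x hx
  obtain ⟨⟨h1, h2⟩, -⟩ := gsD_tile bar (m := m) (D := Set.univ) (x := x) ⟨hx, hl, trivial⟩ hq
  have hd := (bar.barF.room m).d0
  have hd' : 0 < d m.co := hd
  constructor <;> linarith

include N bar htl in
/-- no points of the family on the old faces of the zone -/
theorem no1_m {m : BM Φ X} {σ : Bool} {j : JJ Φ L} (hj : m.am = j.1) {F : C2 T}
    (hF : F ∈ ZnF T Φ f X (lRc Φ X μ ρ1 ρ3 d) ε (Dz μ σ) m)
    (hd : ¬ (((meshC T fr3).side F).map (piK T (slC hLa hC n hn).K)).IsDiag) {y : E3}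
    (hy : (s2 (slC hLa hC n hn) fr3 Tw l0').At (old ⟨F, hd⟩) y) :
    (s2 (slC hLa hC n hn) fr3 Tw l0').lab y ≠ Sum.inl j := by
  intro hl
  obtain ⟨q, hq, x, hx, hxl, hxD⟩ := hF
  obtain ⟨h1, h2⟩ := zn_ga bar (T.sub _ hx) hxl
  obtain ⟨g1, g2⟩ := on_old' (F := (⟨F, hd⟩ : (slC hLa hC n hn).F0 fr3)) hy.1 hy.2
  rw [lab_old g1] at hl
  exact Afr_224.afree_outF N bar htl m hx h1 h2 hxD.or F hq y g1.1 g2 j hl hj.symm

include N bar D lo tt htl hv0 hv1 in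
/-- no points of the family on the vertical faces over the zone -/
theorem no2_m {m : BM Φ X} {σ : Bool} {j : JJ Φ L} (hj : m.am = j.1) {c : Ti X}
    {e : (slC hLa hC n hn).Ed c} {F : C2 T}
    (hF : F ∈ ZnF T Φ f X (lRc Φ X μ ρ1 ρ3 d) ε (Dz μ σ) m) {w : E3} (hwe : w ∈ e.1.opn)
    (hwF : w ∈ (meshC T fr3).On F) {i : ℕ} (hi : i < (slC hLa hC n hn).n c) {y : E3}
    (hy : (s2 (slC hLa hC n hn) fr3 Tw l0').At (vf fr3 e i) y) :
    (s2 (slC hLa hC n hn) fr3 Tw l0').lab y ≠ Sum.inl j := by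
  intro hl
  obtain ⟨q, hq, x, hx, hxl, hxD⟩ := hF
  obtain ⟨h1, h2⟩ := zn_ga bar (T.sub _ hx) hxl
  have hwq : w ∈ P (T.H q) := C2.sub_tile (h3 := fr3) hq hwF.1
  have he : e.1.set ⊆ P (T.H q) := by
    intro u hu
    have h4 : T.cc w = e.1.set := by
      rw [e.1.set_eq]
      exact T.cc_eq_of_mem_oc e.1.pt_mem hwe
    rw [← h4] at hu
    exact T.cc_sub_tile hwq hu
  have key := Afr_224.afree_in N bar D lo tt htl hv0 hv1 m hx h1 h2 hxD.or c e he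
  have hfl : Sum.map (fun j : JJ Φ L => j.1) (id : BM Φ X → BM Φ X)
      ((s2 (slC hLa hC n hn) fr3 Tw l0').lab y) = Sum.inl m.am := by
    rw [hl, hj]; rfl
  obtain ⟨a', x0, g1, g2, g3, -⟩ := on_vf (l0 := l0') hi hy.1 hy.2
  rcases x0 with w1 | w1 | v
  · have hw1 : w1 ∈ e.1.opn := ((slC hLa hC n hn).sh fr3 c).top_mem_vert.1 g2
    have hp := ((Tw.tw c a').mv i).top_mem_P'.1 g1
    have g3' : y = (slC hLa hC n hn).hp c i w1 := g3
    have h5 := lab_hp (l0 := l0') hi.le hp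
    rw [← g3'] at h5
    have h6 := Tw.labj hp
    rw [← h5] at h6
    have h7 : (Sum.inl m.am : Φ.F ⊕ BM Φ X) = a' := hfl.symm.trans h6
    subst h7
    exact (key i).1 w1 hp hw1
  · have hw1 : w1 ∈ e.1.opn := ((slC hLa hC n hn).sh fr3 c).bot_mem_vert.1 g2
    have hp := Twrs.mem_B.1 (((Tw.tw c a').mv i).bot_mem_P'.1 g1)
    have g3' : y = (slC hLa hC n hn).hp c (i + 1) w1 := g3
    have h5 := lab_hp (l0 := l0') (show i + 1 ≤ (slC hLa hC n hn).n c from hi) hp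
    rw [← g3'] at h5
    have h6 := Tw.labj hp
    rw [← h5] at h6
    have h7 : (Sum.inl m.am : Φ.F ⊕ BM Φ X) = a' := hfl.symm.trans h6
    subst h7
    exact (key (i + 1)).1 w1 hp hw1
  · obtain ⟨b, hb⟩ := ((slC hLa hC n hn).sh fr3 c).vert_mem_vert.1 g2
    have hv := ((Tw.tw c a').mv i).vert_mem_P'.1 g1
    have g3' : y = (slC hLa hC n hn).vc c v.1 i := g3
    have h5 := lab_vp (l0 := l0') hi hv
    rw [← g3'] at h5
    have h6 := Tw.labv hv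
    rw [← h5] at h6
    have h7 : (Sum.inl m.am : Φ.F ⊕ BM Φ X) = a' := hfl.symm.trans h6
    subst h7
    rw [← hb] at hv
    exact (key i).2 b hv

end s2

end Crest.Agent.R096.Nwi_688
end

-- ▼ part R096/Nwi6_18
section

/-!
# R096 (row 96), DOORS, NEWIN (helper18): 688's `newin` with 72's end of the walk

`newinT` : 688's `newin` where `conn` ends at a point which is not in the set `B` of `new_cutG`
(72's `top_notin_m` / `top_lt_m`: one not enclosed point of the barrier serves both end walls)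
instead of a point which is not enclosed.
-/

set_option autoImplicit false
set_option linter.unusedSectionVars false
set_option linter.style.longLine false

open Set Module
open scoped Classical

namespace Crest.Agent.R096.Nwi_18

open Crest.Agent.R096.Msh_715 Crest.Agent.R096.Agl5_543 Crest.Agent.R096.St_147
  Crest.Agent.R096.Seq_213 Crest.Agent.R096.Door_501 Crest.Agent.R096.Sla_184
  Crest.Agent.R096.Twr_438 Crest.Agent.R096.Exa_560 Crest.Agent.R096.Ess3_95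
  Crest.Agent.R096.Ess4_95 Crest.Agent.R096.Dfi_539 Crest.Agent.R096.Dfi_471
  Crest.Agent.R096.Yl_471 Crest.Agent.R096.Dfo_539 Crest.Agent.R096.SecW_892
  Crest.Agent.R096.Cg_501 Crest.Agent.R096.Sgd_298
open Crest.Agent.R096.Sla_184.Sla (hf vf old tg F0 Fn Out OnS InL In)
open Crest.Agent.R096.Pbn_147 (K3)
open Crest.Agent.R096.Nwi_688 (GiF ZStep Bcl new_cutG outer_B)

variable {E : Type} [NormedAddCommGroup E] [NormedSpace ℝ E] [FiniteDimensional ℝ E]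
variable {Om : Set E} {ι : Type} {T : Tiling Om ι} {κ : Type} {S : Sla T κ}
  {h3 : finrank ℝ E = 3} {J C Mo : Type} {fam : J → C} {am : Mo → C}
  {s : GSt (meshC T h3) (Sum.map fam (id : Mo → Mo))} {r : J ⊕ Mo → E}
  {Tw : Twrs (S.sh h3) S.n (outK S.hH S.dis s r)} {l0 : E → J ⊕ Mo}
  {hs : BSep (s2 S h3 Tw l0) am} {hm : ∀ a, {m | am m = a}.Finite} {j0 : C → J}
  {hj0 : ∀ a, fam (j0 a) = a} {Act : C → Set (T.RIdx S.HH ⊕ κ)}
  {far : ∀ a, PN fam am a → Set E}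
  {t : ∀ a, St (S.mn h3) (pcol fam am a)} {Ph : C → Finset E} {s₃ : GSt (S.mn h3) fam}

/-- **NEWIN** over `Sla`, the walk ends outside `B` -/
theorem newinT {K : Type} {Q : Quads (T.RIdx S.HH ⊕ κ) C K}
    (D : CutR (s2 S h3 Tw l0) hs hm j0 hj0 Act far t Ph s₃) {j : J} {k : K}
    (hK : ∀ q F F' h m, q ∈ (S.mn h3).side F → q ∈ (S.mn h3).side F' →
      (s2 S h3 Tw l0).At F' h → (s2 S h3 Tw l0).lab h = Sum.inr m → am m = fam j →
      ∀ w, s₃.At F w → s₃.lab w = j → Dinv_106.KFree s₃ Q k F w)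
    {X : Set E} (hX : Dinv_106.KCl s₃ Q j k X)
    -- the giants are not in `Act`
    (hAct : ∀ a c, Sum.inr c ∉ Act a)
    (hgi : ∀ F v, GiF F → s₃.At F v → s₃.lab v = j → v ∈ X)
    -- the root
    {b : E} (hb2 : b ∈ (s2 S h3 Tw l0).P) (hbl : (s2 S h3 Tw l0).lab b = Sum.inl j) (hb3 : b ∈ s₃.P)
    (hbX : b ∈ X)
    -- Ord
    {jm : κ → ℕ} (hjm : ∀ c, jm c ≤ S.n c)
    (hord : ∀ m, am m = fam j → ∀ c i, i ≤ jm c →
      (Tw.tw c (Sum.inr m)).pat i = trc S.hH S.dis s r c (Sum.inr m))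
    (h1 : ∀ m, am m = fam j → s.H1 (Sum.inr m))
    (hr : ∀ m, am m = fam j → s.lab (r (Sum.inr m)) = Sum.inr m)
    -- (L) the slice `jm`
    (late : ∀ Y : Set E,
      (∀ F v, (s2 S h3 Tw l0).At F v → (s2 S h3 Tw l0).lab v = Sum.inl j →
        K3 s₃ Q j k F v → (v ∈ Y ↔ (s2 S h3 Tw l0).mu F v ∈ Y)) →
      (∀ F v, GiF F → (s2 S h3 Tw l0).At F v → (s2 S h3 Tw l0).lab v = Sum.inl j → v ∈ Y) →
      ∀ c, ∀ G : (S.sh h3 c).Fk, ∀ m, am m = fam j → ∀ x y, (s2 S h3 Tw l0).At (hf G (jm c)) x →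
        (s2 S h3 Tw l0).lab x = Sum.inr m → (s2 S h3 Tw l0).At (hf G (jm c)) y →
        (s2 S h3 Tw l0).lab y = Sum.inl j → y ∈ Y)
    -- the zone of the barrier `m`
    (Zf : Mo → Set (C2 T)) (Zs : Mo → Set E)
    (no1 : ∀ m, am m = fam j → ∀ F ∈ Zf m, ∀ hd : ¬ (((meshC T h3).side F).map (piK T S.K)).IsDiag,
      ∀ y, (s2 S h3 Tw l0).At (old ⟨F, hd⟩) y → (s2 S h3 Tw l0).lab y ≠ Sum.inl j)
    (no2 : ∀ m, am m = fam j → ∀ c, ∀ e : S.Ed c, (∃ F ∈ Zf m,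
      InF (meshC T h3) (piK T S.K) (Sum.inr c) F ∧ ∃ w ∈ e.1.opn, w ∈ (meshC T h3).On F) →
      ∀ i, i < jm c → ∀ y, (s2 S h3 Tw l0).At (vf h3 e i) y → (s2 S h3 Tw l0).lab y ≠ Sum.inl j)
    {w : E} (hw : w ∈ s₃.P) (hl : s₃.lab w = j) (hws : w ∉ (s2 S h3 Tw l0).P)
    -- (U) from the new point to an outer point over the zone
    (start : ∀ m, am m = fam j → ∀ h, (s2 S h3 Tw l0).lab h = Sum.inr m → h ∈ (s2 S h3 Tw l0).P →
      (∀ F, w ∈ (S.mn h3).On F ↔ h ∈ (S.mn h3).On F) → ∀ B : Set E, h ∈ B →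
      (∀ x ∈ B, x ∈ (s2 S h3 Tw l0).P ∧ (s2 S h3 Tw l0).lab x = Sum.inr m) →
      (∀ F x, x ∈ B → (s2 S h3 Tw l0).At F x → (∀ y, (s2 S h3 Tw l0).At F y →
        (s2 S h3 Tw l0).lab y ≠ Sum.inl j) → (s2 S h3 Tw l0).mu F x ∈ B) →
      (∃ x ∈ B, x ∈ (outK S.hH S.dis s r).P ∧ x ∈ Zs m) ∨ ∃ x ∈ B, ∃ F, GiF F ∧
        (s2 S h3 Tw l0).At F x)
    -- (C) the full sheet over the zone, and a point which is not in `B`
    (conn : ∀ m, am m = fam j → ∀ Y : Set E, b ∈ Y →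
      (∀ F v, (s2 S h3 Tw l0).At F v → (s2 S h3 Tw l0).lab v = Sum.inl j →
        K3 s₃ Q j k F v → (v ∈ Y ↔ (s2 S h3 Tw l0).mu F v ∈ Y)) →
      (∀ F v, GiF F → (s2 S h3 Tw l0).At F v → (s2 S h3 Tw l0).lab v = Sum.inl j → v ∈ Y) →
      ∀ B : Set E, (∀ x ∈ B, x ∈ (s2 S h3 Tw l0).P ∧ (s2 S h3 Tw l0).lab x = Sum.inr m) →
      (∀ F x, x ∈ B → (s2 S h3 Tw l0).At F x →
        (∀ y, (s2 S h3 Tw l0).At F y → (s2 S h3 Tw l0).lab y = Sum.inl j →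
          (S.mn h3).Lace F x ((s2 S h3 Tw l0).mu F x) y ((s2 S h3 Tw l0).mu F y) → y ∈ Y) →
        (s2 S h3 Tw l0).mu F x ∈ B) →
      (∀ x ∈ B, ∀ F, (s2 S h3 Tw l0).At F x → ¬ St.Frozen (S.mn h3) (Act (am m)) F) →
      ∀ x ∈ (outK S.hH S.dis s r).P, s.lab x = Sum.inr m → x ∈ Zs m → x ∈ B →
      ∃ y ∈ (outK S.hH S.dis s r).P, s.lab y = Sum.inr m ∧
        Relation.ReflTransGen (ZStep s (Zf m)) x y ∧ y ∉ B) :
    w ∈ X := by
  by_contra hwX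
  obtain ⟨Y, hY, hcom, h, hh, m, hhl, ham, hnb, B, hhB, hB1, hB2, hB3⟩ :=
    new_cutG D hK hX hw hl hws hwX
  have hfz : ∀ {a F}, GiF F → St.Frozen (S.mn h3) (Act a) F := by
    rintro a F ⟨c, hc⟩
    exact ⟨_, hc, hAct a c⟩
  have hgY : ∀ F v, GiF F → (s2 S h3 Tw l0).At F v → (s2 S h3 Tw l0).lab v = Sum.inl j →
      v ∈ Y := by
    intro F v hF hA hlv
    obtain ⟨e1, e2⟩ := (D.frozen (j := j) (w := v) (hfz hF)).2 ⟨hA, hlv⟩
    exact (hcom v hA.1 hlv e1.1).2 (hgi F v hF e1 e2)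
  have hbY : b ∈ Y := (hcom b hb2 hbl hb3).2 hbX
  -- the good faces
  let Gd : Set (S.Fn h3) := {F | ∀ x, (s2 S h3 Tw l0).At F x → (s2 S h3 Tw l0).lab x = Sum.inr m →
    ∀ y, (s2 S h3 Tw l0).At F y → (s2 S h3 Tw l0).lab y = Sum.inl j → y ∈ Y}
  have hBc : Bcl Tw l0 (Sum.inr m) Gd B := by
    refine ⟨hB1, fun F hF x hx hxF => ?_⟩
    have hx1 := hB1 x hx
    exact hB2 F x hx ⟨hx1.1, hxF⟩ fun y hyA hyl _ => hF x ⟨hx1.1, hxF⟩ hx1.2 y hyA hyl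
  obtain ⟨x, hx, hxo, hxz⟩ : ∃ x ∈ B, x ∈ (outK S.hH S.dis s r).P ∧ x ∈ Zs m := by
    rcases start m ham h hhl hh hnb B hhB hB1 (fun F x hx hA hno => hB2 F x hx hA
      fun y hyA hyl _ => absurd hyl (hno y hyA)) with h2 | ⟨x, hx, F, hF, hA⟩
    · exact h2
    · exact absurd (hfz hF) (hB3 x hx F hA)
  have hxl : s.lab x = Sum.inr m := by
    have h2 := (hB1 x hx).2
    rw [lab_old hxo] at h2
    exact h2
  obtain ⟨y, hyo, hyl, hxy, hne⟩ := conn m ham Y hbY hY hgY B hB1 hB2 hB3 x hxo hxl hxz hx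
  have hyB : y ∈ B := by
    refine outer_B (i := Sum.inr m) (h1 m ham) (hr m ham) hBc hjm
      (fun c i hi => hord m ham c i hi) ?_ (Zf := Zf m) ?_ ?_ hx hxo hyo hyl hxy
    · intro c G x' hx' hxl' y' hy' hyl'
      exact late Y hY hgY c G m ham x' y' hx' hxl' hy' hyl'
    · intro F hF hd x' _ _ y' hy' hyl'
      exact absurd hyl' (no1 m ham F hF hd y' hy')
    · intro c e he i hi x' _ _ y' hy' hyl'
      exact absurd hyl' (no2 m ham c e he i hi y' hy')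
  exact hne hyB

end Crest.Agent.R096.Nwi_18
end

-- ▼ part R096/Afr1_112
section

/-!
# R096 (row 96), DOORS, NE1, leaf G3 (helper112): the tiles of a barrier over `lev ≤ 7μ/16` carry no
sheet of the family of the barrier

`afree_out` : outside the cores; `afree_in` : the columns of the layers.
-/

set_option autoImplicit false
set_option linter.unusedSectionVars false
set_option linter.unusedVariables false
set_option linter.style.longLine false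

open Set Topology Filter Metric Module Relation
open scoped Classical

namespace Crest.Agent.R096.Afr_112

open Crest.Agent.R096.Msh_715 Crest.Agent.R096.Agl5_543 Crest.Agent.R096.St_147
  Crest.Agent.R096.Seq_213 Crest.Agent.R096.Door_501 Crest.Agent.R096.Sla_184
  Crest.Agent.R096.Twr_438 Crest.Agent.R096.Exa_560 Crest.Agent.R096.Ess3_95
  Crest.Agent.R096.Ess4_95 Crest.Agent.R096.Dfi_539 Crest.Agent.R096.Dfi_471
  Crest.Agent.R096.Ac_117 Crest.Agent.R096.Lm_117 Crest.Agent.R096.Cp_298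
  Crest.Agent.R096.Coh_184 Crest.Agent.R096.Gm_298 Crest.Agent.R096.Cpo_642
  Crest.Agent.R096.Gl_422 Crest.Agent.R096.Flb_422 Crest.Agent.R096.Sid_422
  Crest.Agent.R096.Vrt_422 Crest.Agent.R096.Dfo_539
open Crest.Agent.R096.Brk1_582 Crest.Agent.R096.Brk2_582 Crest.Agent.R096.Brk3_582
  Crest.Agent.R096.Brk5_582 Crest.Agent.R096.Bsp_628 Crest.Agent.R096.Init_543
  Crest.Agent.R096.Bar_106 Crest.Agent.R096.Dib_438 Crest.Agent.R096.Lam_847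
  Crest.Agent.R096.Ess5_95 Crest.Agent.R096.Bgf_4 Crest.Agent.R096.Ebr1_95
  Crest.Agent.R096.Ebr4_95 Crest.Agent.R096.Rop_441 Crest.Agent.R096.Nmd1_698
  Crest.Agent.R096.Lbc_334 Crest.Agent.R096.Lv4_471
open Crest.Agent.R096.Mbf_337 (sb KJ Tiny gau Cores Fine)
open Crest.Agent.R096.SkC1_961 (E3 FoamD Hom3)
open Crest.Agent.R096.Frn_337 (Ti)
open Crest.Agent.R096.Frs_662 (slC)
open Crest.Agent.R096.Ess7_95 (KT Sh)
open Crest.Agent.R096.Dff_539 (vS)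
open Crest.Agent.R096.Bmf_416 (coT)

variable {δ κ0 R c0 : ℝ} {La Om : Set E3} {ι : Type} {Φ : FoamD δ κ0 R c0 La} {T : Tiling Om ι}
  {f g : E3 → E3} {κ1 κ2 μ : ℝ} {X : Set Φ.F} {J0 J V : Φ.F → Set ι}
  {ct ct' : Φ.F → ι} {A : Φ.F → E3 ≃ᵃ[ℝ] E3} {lam : Φ.F → ℝ} {z : Φ.F → E3}
  {θ : Φ.F → E3 → E3} {φ : Φ.F → E3 → ℝ} {r₀ : Φ.F → ℝ}
  {L : Φ.F → Finset ℝ} [Nonempty (JJ Φ L)] {hG : GF Φ r₀ T f L} {bp : JJ Φ L → E3}
  {N' : BM Φ X → Set ℝ} {ρ1 ρ2 ρ3 ρ4 d : Φ.F → ℝ} {q₀ : BM Φ X → E3} {ε : BM Φ X → ℝ}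
  {bm : BM Φ X → E3} {hGB : GFB Φ r₀ T f L (lRc Φ X μ ρ1 ρ3 d) ε}
  {v0F v1F : ∀ c, Φ.F → VxK T (KT T J X) c} {v0B v1B : ∀ c, BM Φ X → VxK T (KT T J X) c}
  {hLa : IsOpen La} {hC : Cores Φ T f κ1 κ2 X J0 J V ct A lam z θ φ}
  {n : Ti X → ℕ} {hn : ∀ c, 0 < n c} {r : JJ Φ L ⊕ BM Φ X → E3}
  {Sf : JJ Φ L ⊕ BM Φ X → Set E3}
  {Lv : ∀ c, Φ.F ⊕ BM Φ X → Lev T (frontier ((slC hLa hC n hn).K c)) (JJ Φ L ⊕ BM Φ X)}
  {Tw : Twrs ((slC hLa hC n hn).sh fr3) (slC hLa hC n hn).n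
    (outK (slC hLa hC n hn).hH (slC hLa hC n hn).dis (stB hGB bp bm) r)}
  {l0' : E3 → JJ Φ L ⊕ BM Φ X}

section s2

variable (N : NumD δ κ0 R c0 κ2 μ κ1) (H : Hm f g Om La)
  (bar : BarOut Φ T f κ1 μ X J0 J V θ hG bp N' ρ1 ρ2 ρ3 ρ4 d q₀ ε bm hGB v0B v1B)
  (D : DIn (slC hLa hC n hn).hH (stB hGB bp bm) r Sf (nbA Φ X) (vS v0F v0B) (vS v1F v1B)
    (uA Φ hLa X θ) (AA Φ X μ κ1) (BA Φ X μ))
  (lo : LevOut (Kc := (slC hLa hC n hn).K) (stB hGB bp bm) (nbA Φ X) (uA Φ hLa X θ)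
    (AA Φ X μ κ1) (BA Φ X μ) Lv)
  (tt : TwOut (slC hLa hC n hn) fr3 (stB hGB bp bm) r (vS v0F v0B) (vS v1F v1B) Lv Tw)
  (rec : BR hLa (stB hGB bp bm) f X J θ coT BM.am BM.Zm (nbA Φ X) (vS v0F v0B) (vS v1F v1B)
    (uA Φ hLa X θ) (AA Φ X μ κ1) (BA Φ X μ) μ κ1)
include N bar rec

/-- a tile with a point of level `≤ 7μ/16` at the core of `m` : all levels `< μ/2 - Cn κ1` -/
theorem lev_tile (m : BM Φ X) {q : ι} {x : E3} (hx : x ∈ P (T.H q))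
    (h1 : ρ1 m.co ≤ ga Φ m.co (f x)) (h2 : ga Φ m.co (f x) ≤ ρ4 m.co)
    (ha : Φ.lev m.am (f x) ≤ 7 * μ / 16) {y : E3} (hy : y ∈ P (T.H q)) :
    Φ.lev m.am (f y) < μ / 2 - Cn δ R * κ1 := by
  obtain ⟨hd, hr⟩ := bar.rm m.co m.co_notMem
  have h3 := (abs_le.1 ((hr.tile_osc hx h1 h2 hy).2.2 m.am)).1
  obtain ⟨n1, n2, n3, n4, n5, -⟩ := N.base
  linarith

/-- a tile with a point of level `≥ 1 - 7μ/16` at the core of `m` : all levels
`> 1 - μ/2 + Cn κ1` -/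
theorem lev_tile' (m : BM Φ X) {q : ι} {x : E3} (hx : x ∈ P (T.H q))
    (h1 : ρ1 m.co ≤ ga Φ m.co (f x)) (h2 : ga Φ m.co (f x) ≤ ρ4 m.co)
    (ha : 1 - 7 * μ / 16 ≤ Φ.lev m.am (f x)) {y : E3} (hy : y ∈ P (T.H q)) :
    1 - μ / 2 + Cn δ R * κ1 < Φ.lev m.am (f y) := by
  obtain ⟨hd, hr⟩ := bar.rm m.co m.co_notMem
  have h3 := (abs_le.1 ((hr.tile_osc hx h1 h2 hy).2.2 m.am)).2
  obtain ⟨n1, n2, n3, n4, n5, -⟩ := N.base
  linarith

/-- **a-free, outside** : both ends -/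
theorem afree_pt (m : BM Φ X) {q : ι} {x : E3} (hx : x ∈ P (T.H q))
    (h1 : ρ1 m.co ≤ ga Φ m.co (f x)) (h2 : ga Φ m.co (f x) ≤ ρ4 m.co)
    (ha : Φ.lev m.am (f x) ≤ 7 * μ / 16 ∨ 1 - 7 * μ / 16 ≤ Φ.lev m.am (f x)) {y : E3}
    (hy : y ∈ (stB hGB bp bm).P) (hyq : y ∈ P (T.H q)) {i : JJ Φ L}
    (hl : (stB hGB bp bm).lab y = Sum.inl i) : i.1 ≠ m.am := by
  intro hi
  have h3 := rec.trl y hy i hl
  obtain ⟨n1, n2, n3, n4, n5, -⟩ := N.base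
  rw [hi] at h3
  rcases ha with ha | ha
  · have h4 := lev_tile N bar rec m hx h1 h2 ha hyq
    linarith [h3.1]
  · have h4 := lev_tile' N bar rec m hx h1 h2 ha hyq
    linarith [h3.2]


include D lo tt

/-- **(ii) a-free, the columns of the layers** (778 #12223) -/
theorem afree_in (m : BM Φ X) {q : ι} {x : E3} (hx : x ∈ P (T.H q))
    (h1 : ρ1 m.co ≤ ga Φ m.co (f x)) (h2 : ga Φ m.co (f x) ≤ ρ4 m.co)
    (ha : Φ.lev m.am (f x) ≤ 7 * μ / 16 ∨ 1 - 7 * μ / 16 ≤ Φ.lev m.am (f x))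
    (k : Ti X) (e : (slC hLa hC n hn).Ed k) (he : e.1.set ⊆ P (T.H q)) (j : ℕ) :
    (∀ j', ∀ w ∈ ((Tw.tw k (Sum.inl m.am)).pat j').P, w ∉ e.1.opn) ∧
      ∀ b, ((slC hLa hC n hn).sh fr3 k).en e b ∉ ((Tw.tw k (Sum.inl m.am)).mv j).Qv := by
  obtain ⟨n1, n2, n3, n4, n5, -⟩ := N.base
  constructor
  · intro j' w hw hwe
    have hwq : w ∈ P (T.H q) := he (e.1.opn_sub hwe)
    rcases tt.fits k (Sum.inl m.am) j' w hw with h | h
    · obtain ⟨g1, g2, g3⟩ := trc_P h.1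
      rcases hl : (stB hGB bp bm).lab w with i | m'
      · rw [hl] at g3
        exact afree_pt N bar rec m hx h1 h2 ha g1 hwq hl (Sum.inl.inj g3)
      · rw [hl] at g3; cases g3
    · obtain ⟨g1, g2⟩ := exa_lab (Lv k (Sum.inl m.am)) h.1
      have g4 := lo.win k (Sum.inl m.am) _ g1
      have hnb := (exa_nb lo h.1).1
      have hwf : w ∈ frontier ((slC hLa hC n hn).K k) := e.2.2 (e.1.opn_sub hwe)
      have h5 := abs_le.1 (tiny_near hLa N.hδ N.hR N.cn1 (hC.tiny k.1 k.2) hwf m.am)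
      have g5 : (Lv k (Sum.inl m.am)).u w = sb Φ (θ k.1 w) m.am := by rw [lo.u]; rfl
      have g6 : AA Φ X μ κ1 k (Sum.inl m.am) = 1 - μ + Cn δ R * κ1 := rfl
      have g7 : BA Φ X μ k (Sum.inl m.am) = 1 - μ / 2 := rfl
      rw [g6, g7] at g4
      rw [g5] at g2
      rcases ha with ha | ha
      · have h4 := lev_tile N bar rec m hx h1 h2 ha hwq
        linarith [g4.1, g4.2, h5.1, h5.2, N.hμb]
      · have h4 := lev_tile' N bar rec m hx h1 h2 ha hwq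
        linarith [g4.1, g4.2, h5.1, h5.2]
  · intro b hb
    have hnb := qv_nb D tt hb
    have hrg := tt.rgn k (Sum.inl m.am) j _ hb
    have h := tiny_rgnI (κ := Ti X) (cf := Subtype.val) (J := fun c => J c.1)
      (J0 := fun c => J0 c.1) (V := fun c => V c.1) (θ := fun c => θ c.1)
      (φ := fun c => φ c.1) (k := k) (a := m.am) (a' := Sum.inl m.am) hLa N.hδ N.hR N.hκ N.hμ
      N.half N.cn3
      (fun c => hC.tiny c.1 c.2) lo (fun x => rfl) hnb.1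
      (show μ / 2 ≤ 1 - μ + Cn δ R * κ1 from N.wA) (le_refl (1 - μ / 2))
      (rec.v0l k m.am hnb) (rec.v1l k m.am hnb)
      (fun w hw hl => by
        rcases hl' : (stB hGB bp bm).lab w with i | m'
        · rw [hl'] at hl
          have h6 := rec.trl w hw i hl'
          rw [show i.1 = m.am from Sum.inl.inj hl] at h6
          exact h6
        · rw [hl'] at hl; cases hl) hrg
    have hq : (((slC hLa hC n hn).sh fr3 k).en e b).1 ∈ P (T.H q) :=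
      he ((endK_iff e _).1 ⟨b, rfl⟩)
    rcases ha with ha | ha
    · have h4 := lev_tile N bar rec m hx h1 h2 ha hq
      linarith [h.2.2.1]
    · have h4 := lev_tile' N bar rec m hx h1 h2 ha hq
      linarith [h.2.2.2]

end s2

end Crest.Agent.R096.Afr_112
end

-- ▼ part R096/Ne1_892
section

/-!
# Row 96, DOORS, (NE) in the layers (helper892)

* `up`    : a trace point `hp j w` over `B` is joined straight up with `w` (MON2);
* `walk3` : a vertex point `vc v j` is joined with a giant point or with a trace point;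
* `odd`   : (Y2) if `X` contains all trace points over `B` and the trace has different labels at two
            vertices which never move, then `X` has a point on the giant.
-/

set_option autoImplicit false
set_option linter.unusedSectionVars false
set_option linter.style.longLine false

open Set Module
open scoped Classical

namespace Crest.Agent.R096.Ne_892

open Crest.Agent.R096.Msh_715 Crest.Agent.R096.Agl5_543 Crest.Agent.R096.St_147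
  Crest.Agent.R096.Seq_213 Crest.Agent.R096.Door_501 Crest.Agent.R096.Sla_184
  Crest.Agent.R096.Twr_438 Crest.Agent.R096.Exa_560 Crest.Agent.R096.Ess3_95
  Crest.Agent.R096.Ess4_95 Crest.Agent.R096.Dfi_539 Crest.Agent.R096.Dfi_471
  Crest.Agent.R096.Yl_471 Crest.Agent.R096.Qp_106
open Crest.Agent.R096.Sla_184.Sla (hf vf old tg F0 Fn Out OnS InL In)




variable {E : Type} [NormedAddCommGroup E] [NormedSpace ℝ E] [FiniteDimensional ℝ E]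
variable {Om : Set E} {ι : Type} {T : Tiling Om ι} {κ : Type} {S : Sla T κ}
  {h3 : finrank ℝ E = 3} {J C : Type} {fam : J → C}

section core

variable {s : GSt (S.m0 h3) fam} {Tw : Twrs (S.sh h3) S.n s} {l0 : E → J}
  {c : κ} {a : C} {j : ℕ} {i : J} {w x : E} {B : Set (S.Ed c)} {D D0 X : Set E}

/-- the points of `D0` are not added again -/
def Mon0 (Tw : Twrs (S.sh h3) S.n s) (c : κ) (a : C) (D0 : Set E) : Prop :=
  ∀ j, ∀ w ∈ ((Tw.tw c a).pat (j + 1)).P, w ∈ D0 → w ∈ ((Tw.tw c a).pat j).P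

/-- **straight up** -/
theorem up (hmon : Mon0 Tw c a D0) (hX : Vcl Tw l0 c B i X) {e : S.Ed c} (he : e ∈ B)
    (hw : w ∈ e.1.opn) (hwD : w ∈ D0) : ∀ {j : ℕ}, j ≤ S.n c → w ∈ ((Tw.tw c a).pat j).P →
      S.hp c j w ∈ X → (s2 S h3 Tw l0).lab (S.hp c j w) = i →
      w ∈ ((Tw.tw c a).pat 0).P ∧ w ∈ X ∧ (s2 S h3 Tw l0).lab w = i := by
  intro j
  induction j with
  | zero =>
    intro _ h1 h2 h4
    rw [Sla.hp_zero] at h2 h4
    exact ⟨h1, h2, h4⟩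
  | succ j ih =>
    intro hj h1 h2 h4
    have hj' : j < S.n c := hj
    have g1 := hmon j w h1 hwD
    have hF : S.hp c (j + 1) w ∈ (S.mn h3).On (vf h3 e j) :=
      (Sla.on_vf_hp hj hj' hw).2 ⟨rfl, Or.inr rfl⟩
    have hx : (Sum.inr (Sum.inl w) : (S.sh h3 c).Pnt) ∈ ((Tw.tw c a).mv j).P' :=
      ((Tw.tw c a).mv j).bot_mem_P'.2 (Twrs.mem_B.2 h1)
    have hxF : (Sum.inr (Sum.inl w) : (S.sh h3 c).Pnt) ∈ (S.sh h3 c).On (Sum.inr (Sum.inr e)) :=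
      (S.sh h3 c).bot_mem_vert.2 hw
    have hmu : (s2 S h3 Tw l0).mu (vf h3 e j) (S.hp c (j + 1) w) = S.hp c j w := by
      have h5 := mu_vf (l0 := l0) hj' hx hxF
      rw [Move.mu'_vert_nqe _ _ (((Tw.tw c a).mv j).bot_not_qe g1)] at h5
      exact h5
    have hP := mem_hp (l0 := l0) hj h1
    have h6 := hX e he j hj' _ h2 hP h4 hF
    rw [hmu] at h6
    have h7 := (s2 S h3 Tw l0).mu_lab hP hF
    rw [hmu, h4] at h7
    exact ih hj'.le g1 h6 h7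

/-- **the walk**: a vertex point of the layer `j` is joined with an exact point of the giant or with a
trace point -/
theorem walk3 (hmon : Mon Tw c a D) (hmon0 : Mon0 Tw c a D0) (hX : Vcl Tw l0 c B i X)
    (hB : ∀ e ∈ B, ∀ j, ∀ w ∈ ((Tw.tw c a).pat j).P, w ∈ e.1.opn → w ∈ D ∨ w ∈ D0)
    (hj : j < S.n c) {v v' : S.Vx c} (hw : Relation.ReflTransGen (Stp S h3 c B) v v')
    (hv' : v' ∉ ((Tw.tw c a).mv j).Qv) (hv : v ∈ ((Tw.tw c a).mv j).Qv)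
    (hvX : S.vc c v.1 j ∈ X) (hl : (s2 S h3 Tw l0).lab (S.vc c v.1 j) = i) :
    ∃ e ∈ B, ∃ w, w ∈ e.1.opn ∧ ((w ∈ D ∧ w ∈ ((Tw.tw c a).pat (S.n c)).P ∧
      S.hp c (S.n c) w ∈ X ∧ (s2 S h3 Tw l0).lab (S.hp c (S.n c) w) = i) ∨
      (w ∈ D0 ∧ w ∈ ((Tw.tw c a).pat 0).P ∧ w ∈ X ∧ (s2 S h3 Tw l0).lab w = i)) := by
  induction hw using Relation.ReflTransGen.head_induction_on with
  | refl => exact absurd hv hv'
  | @head v v1 h1 _ ih =>
    obtain ⟨e, he, b, hb, hb'⟩ := h1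
    have hF : S.vc c v.1 j ∈ (S.mn h3).On (vf h3 e j) := (Sla.on_vf_vp hj hj).2 ⟨rfl, b, hb⟩
    have hx : (Sum.inr (Sum.inr v) : (S.sh h3 c).Pnt) ∈ ((Tw.tw c a).mv j).P' :=
      ((Tw.tw c a).mv j).vert_mem_P'.2 hv
    have hq : (Sum.inr (Sum.inr v) : (S.sh h3 c).Pnt) ∈ ((Tw.tw c a).mv j).qe :=
      ((Tw.tw c a).mv j).vert_mem_qe.2 hv
    have hxF : (Sum.inr (Sum.inr v) : (S.sh h3 c).Pnt) ∈ (S.sh h3 c).On (Sum.inr (Sum.inr e)) :=
      Or.inr (Or.inr ⟨b, by rw [hb]⟩)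
    have hpr := ((Tw.tw c a).mv j).pr_spec ((Tw.tw c a).par j) e _
      (((Tw.tw c a).mv j).mem_qon.2 ⟨hq, hxF⟩)
    have hmu := mu_vf (l0 := l0) hj hx hxF
    rw [Move.mu'_vert_qe _ _ hq] at hmu
    have hP := mem_vp (l0 := l0) hj hv
    have h6 := hX e he j hj _ hvX hP hl hF
    have h7 := (s2 S h3 Tw l0).mu_lab hP hF
    have e1 : Twrs.emb (S.cols h3) c j (Sum.inr (Sum.inr v)) = S.vc c v.1 j := rfl
    rw [e1] at hmu
    rw [hmu] at h6 h7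
    rw [hl] at h7
    obtain ⟨g1, g2, -, -, -⟩ := hpr
    obtain ⟨y, hy⟩ : ∃ y, y = ((Tw.tw c a).mv j).pr ((Tw.tw c a).par j) e
      (Sum.inr (Sum.inr v)) := ⟨_, rfl⟩
    rw [← hy] at g1 g2 h6 h7
    obtain ⟨g3, g4⟩ := ((Tw.tw c a).mv j).mem_qon.1 g1
    rcases y with w | w | v''
    · -- a top point
      obtain ⟨p1, p2, -⟩ := ((Tw.tw c a).mv j).top_mem_qe.1 g3
      have p4 : w ∈ e.1.opn := (S.sh h3 c).top_mem_vert.1 g4
      rcases hB e he j w p1 p4 with p5 | p5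
      · exact absurd (Twrs.mem_B.2 (hmon j w p1 p5)) p2
      · obtain ⟨q1, q2, q4⟩ := up hmon0 hX he p4 p5 hj.le p1 h6 h7
        exact ⟨e, he, w, p4, Or.inr ⟨p5, q1, q2, q4⟩⟩
    · -- a bottom point
      obtain ⟨p1, p1'⟩ := ((Tw.tw c a).mv j).bot_mem_qe.1 g3
      have p4 : w ∈ e.1.opn := (S.sh h3 c).bot_mem_vert.1 g4
      have p5 := Twrs.mem_B.1 p1
      rcases hB e he (j + 1) w p5 p4 with p6 | p6
      · obtain ⟨q1, q2, q4⟩ := down hmon hX he p4 p6 (show j + 1 ≤ S.n c by omega) p5 h6 h7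
        exact ⟨e, he, w, p4, Or.inl ⟨p6, q1, q2, q4⟩⟩
      · exact absurd (hmon0 j w p5 p6) p1'
    · -- the other end of the edge
      have p1 := ((Tw.tw c a).mv j).vert_mem_qe.1 g3
      have p2 : v'' = v1 := by
        rcases g4 with ⟨_, _, h⟩ | ⟨_, _, h⟩ | ⟨b', h⟩
        · cases h
        · cases h
        · have h8 : v'' = (S.sh h3 c).en e b' := Sum.inr.inj (Sum.inr.inj h)
          have h9 : b' = !b := by
            by_contra hne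
            have h10 : b' = b := by
              cases b <;> cases b' <;> simp_all
            rw [h10, hb] at h8
            exact g2 (by rw [h8])
          rw [h8, h9, hb']
      rw [p2] at p1 h6 h7
      exact ih p1 h6 h7

/-! ### parity -/





end core

/-! ### over a region -/

section y

variable [Nonempty J] {s : GSt (meshC T h3) fam} {r : J → E}
  {v0 v1 : ∀ c, C → VxK T S.K c} {L : ∀ c, C → Lev T (frontier (S.K c)) J}
  {Tw : Twrs (S.sh h3) S.n (outK S.hH S.dis s r)} {l0 : E → J}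
  {c : κ} {a : C} {i : J} {A X : Set E} {h : E}

/-- a vertex of `A` is in `VA` -/
theorem mem_VA {v : S.Vx c} (hv : v.1 ∈ A) : v ∈ VA S c A := by
  have hO : v.1 ∈ Om := (S.hH c).sub ((S.hH c).cpt.isClosed.frontier_subset v.2.2)
  refine ⟨T.cl hO, ?_, ?_, v.1, ?_, hv⟩
  · rw [T.cl_set]; exact (S.hH c).cc _ v.2.2
  · rw [T.cl_set]; exact T.self_mem_cc _
  · rw [T.cl_set]; exact T.self_mem_cc _

/-- **(Y1)**: every point of the layers over `A` is joined by chords on the vertical faces over the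
cells which meet `A` with a point of the boundary of the shrunk core or with a point of the trace -/
theorem y_three (tt : TwOut S h3 s r v0 v1 L Tw)
    (hmon : Mon Tw c a {w | w ∈ (exa h3 S.hH S.dis (L c a)).P})
    (hmon0 : Mon0 Tw c a {w | w ∈ (trc S.hH S.dis s r c a).P})
    (hA : IsCompact A) (hAc : IsPreconnected A) (hAf : A ⊆ frontier (S.K c))
    {v' : S.Vx c} (hv' : v'.1 ∈ A)
    (hR : ∀ i, ¬ Rgn (S.sh h3 c) (v0 c a) (v1 c a) (trc S.hH S.dis s r c a)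
      (exa h3 S.hH S.dis (L c a)) i v')
    (hX : Vcl Tw l0 c (EA S c A) i X) (hhX : h ∈ X) (hl : (s2 S h3 Tw l0).lab h = i)
    (hh : (∃ j w, j ≤ S.n c ∧ w ∈ ((Tw.tw c a).pat j).P ∧ w ∈ A ∧ h = S.hp c j w) ∨
      ∃ j, ∃ v : S.Vx c, j < S.n c ∧ v ∈ ((Tw.tw c a).mv j).Qv ∧ v.1 ∈ A ∧ h = S.vc c v.1 j) :
    ∃ e ∈ EA S c A, ∃ w, w ∈ e.1.opn ∧ ((w ∈ (exa h3 S.hH S.dis (L c a)).P ∧
      S.hp c (S.n c) w ∈ X ∧ S.hp c (S.n c) w ∈ (s2 S h3 Tw l0).P ∧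
      (s2 S h3 Tw l0).lab (S.hp c (S.n c) w) = i) ∨
      (w ∈ (trc S.hH S.dis s r c a).P ∧ w ∈ X ∧ (s2 S h3 Tw l0).lab w = i)) := by
  have hB : ∀ e ∈ EA S c A, ∀ j, ∀ w ∈ ((Tw.tw c a).pat j).P, w ∈ e.1.opn →
      w ∈ {w | w ∈ (exa h3 S.hH S.dis (L c a)).P} ∨
        w ∈ {w | w ∈ (trc S.hH S.dis s r c a).P} := by
    intro e _ j w hw _
    rcases tt.fits c a j w hw with h1 | h1
    · exact Or.inr h1.1
    · exact Or.inl h1.1
  rcases hh with ⟨j, w, hj, hw, hwA, rfl⟩ | ⟨j, v, hj, hv, hvA, rfl⟩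
  · obtain ⟨e, he⟩ := pat_onE hw
    have heB : e ∈ EA S c A := ⟨e.1, e.2.2, Subset.rfl, w, e.1.opn_sub he, hwA⟩
    rcases hB e heB j w hw he with h1 | h1
    · obtain ⟨g1, g2, g3⟩ := down hmon hX heB he h1 hj hw hhX hl
      exact ⟨e, heB, w, he, Or.inl ⟨h1, g2, mem_hp le_rfl g1, g3⟩⟩
    · obtain ⟨g1, g2, g3⟩ := up hmon0 hX heB he h1 hj hw hhX hl
      exact ⟨e, heB, w, he, Or.inr ⟨h1, g2, g3⟩⟩
  · obtain ⟨e, he, w, g1, g2⟩ := walk3 hmon hmon0 hX hB hj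
      (join (h3 := h3) hA hAc hAf (mem_VA hvA) (mem_VA hv'))
      (fun h1 => hR _ (tt.rgn c a j v' h1)) hv hhX hl
    rcases g2 with ⟨k1, k2, k4, k5⟩ | ⟨k1, k2, k4, k5⟩
    · exact ⟨e, he, w, g1, Or.inl ⟨k1, k4, mem_hp le_rfl k2, k5⟩⟩
    · exact ⟨e, he, w, g1, Or.inr ⟨k1, k4, k5⟩⟩


end y

end Crest.Agent.R096.Ne_892
end

-- ▼ part R096/Upd1_112
section

/-!
# R096 (row 96), DOORS, NEWIN (helper112): UPDOWN over the machine

`updown_m` : a barrier point `h` of the state with layers on a cell whose tile meets the end zone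
`lev ≤ 3μ/8` (or `≥ 1 - 3μ/8`), in a set `B` of points of the barrier which is closed under the
chords on faces without points of the family of the barrier and has no point on a giant: then `B` has
a point of the outer state over the zone `lev ≤ 13μ/32` (or `≥ 1 - 13μ/32`).
-/

set_option autoImplicit false
set_option linter.unusedSectionVars false
set_option linter.unusedVariables false
set_option linter.style.longLine false

open Set Topology Filter Metric Module Relation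
open scoped Classical

namespace Crest.Agent.R096.Upd_112

open Crest.Agent.R096.Msh_715 Crest.Agent.R096.Agl5_543 Crest.Agent.R096.St_147
  Crest.Agent.R096.Seq_213 Crest.Agent.R096.Door_501 Crest.Agent.R096.Sla_184
  Crest.Agent.R096.Twr_438 Crest.Agent.R096.Exa_560 Crest.Agent.R096.Ess3_95
  Crest.Agent.R096.Ess4_95 Crest.Agent.R096.Dfi_539 Crest.Agent.R096.Dfi_471
  Crest.Agent.R096.Ac_117 Crest.Agent.R096.Lm_117 Crest.Agent.R096.Cp_298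
  Crest.Agent.R096.Coh_184 Crest.Agent.R096.Gm_298 Crest.Agent.R096.Cpo_642
  Crest.Agent.R096.Gl_422 Crest.Agent.R096.Flb_422 Crest.Agent.R096.Sid_422
  Crest.Agent.R096.Vrt_422 Crest.Agent.R096.Dfo_539
open Crest.Agent.R096.Brk1_582 Crest.Agent.R096.Brk2_582 Crest.Agent.R096.Brk3_582
  Crest.Agent.R096.Brk5_582 Crest.Agent.R096.Bsp_628 Crest.Agent.R096.Init_543
  Crest.Agent.R096.Bar_106 Crest.Agent.R096.Dib_438 Crest.Agent.R096.Lam_847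
  Crest.Agent.R096.Ess5_95 Crest.Agent.R096.Bgf_4 Crest.Agent.R096.Ebr1_95
  Crest.Agent.R096.Ebr4_95 Crest.Agent.R096.Rop_441 Crest.Agent.R096.Nmd1_698
  Crest.Agent.R096.Lbc_334 Crest.Agent.R096.Lv4_471 Crest.Agent.R096.Lv3_471
  Crest.Agent.R096.Afr_112 Crest.Agent.R096.Yl_471
open Crest.Agent.R096.Mbf_337 (sb KJ Tiny gau Cores Fine)
open Crest.Agent.R096.SkC1_961 (E3 FoamD Hom3)
open Crest.Agent.R096.Frn_337 (Ti)
open Crest.Agent.R096.Frs_662 (slC)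
open Crest.Agent.R096.Ess7_95 (KT Sh)
open Crest.Agent.R096.Dff_539 (vS)
open Crest.Agent.R096.Bmf_416 (coT)
open Crest.Agent.R096.Sla_184.Sla (hf vf old tg F0 Fn Out OnS InL In)

variable {δ κ0 R c0 : ℝ} {La Om : Set E3} {ι : Type} {Φ : FoamD δ κ0 R c0 La} {T : Tiling Om ι}
  {f g : E3 → E3} {κ1 κ2 μ : ℝ} {X : Set Φ.F} {J0 J V : Φ.F → Set ι}
  {ct ct' : Φ.F → ι} {A : Φ.F → E3 ≃ᵃ[ℝ] E3} {lam : Φ.F → ℝ} {z : Φ.F → E3}
  {θ : Φ.F → E3 → E3} {φ : Φ.F → E3 → ℝ} {r₀ : Φ.F → ℝ}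
  {L : Φ.F → Finset ℝ} [Nonempty (JJ Φ L)] {hG : GF Φ r₀ T f L} {bp : JJ Φ L → E3}
  {N' : BM Φ X → Set ℝ} {ρ1 ρ2 ρ3 ρ4 d : Φ.F → ℝ} {q₀ : BM Φ X → E3} {ε : BM Φ X → ℝ}
  {bm : BM Φ X → E3} {hGB : GFB Φ r₀ T f L (lRc Φ X μ ρ1 ρ3 d) ε}
  {v0F v1F : ∀ c, Φ.F → VxK T (KT T J X) c} {v0B v1B : ∀ c, BM Φ X → VxK T (KT T J X) c}
  {hLa : IsOpen La} {hC : Cores Φ T f κ1 κ2 X J0 J V ct A lam z θ φ}
  {n : Ti X → ℕ} {hn : ∀ c, 0 < n c} {r : JJ Φ L ⊕ BM Φ X → E3}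
  {Sf : JJ Φ L ⊕ BM Φ X → Set E3}
  {Lv : ∀ c, Φ.F ⊕ BM Φ X → Lev T (frontier ((slC hLa hC n hn).K c)) (JJ Φ L ⊕ BM Φ X)}
  {Tw : Twrs ((slC hLa hC n hn).sh fr3) (slC hLa hC n hn).n
    (outK (slC hLa hC n hn).hH (slC hLa hC n hn).dis (stB hGB bp bm) r)}
  {l0' : E3 → JJ Φ L ⊕ BM Φ X}

section s2

variable (N : NumD δ κ0 R c0 κ2 μ κ1)
  (bar : BarOut Φ T f κ1 μ X J0 J V θ hG bp N' ρ1 ρ2 ρ3 ρ4 d q₀ ε bm hGB v0B v1B)
  (D : DIn (slC hLa hC n hn).hH (stB hGB bp bm) r Sf (nbA Φ X) (vS v0F v0B) (vS v1F v1B)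
    (uA Φ hLa X θ) (AA Φ X μ κ1) (BA Φ X μ))
  (lo : LevOut (Kc := (slC hLa hC n hn).K) (stB hGB bp bm) (nbA Φ X) (uA Φ hLa X θ)
    (AA Φ X μ κ1) (BA Φ X μ) Lv)
  (tt : TwOut (slC hLa hC n hn) fr3 (stB hGB bp bm) r (vS v0F v0B) (vS v1F v1B) Lv Tw)
  (mon : Dff_539.Mon (slC hLa hC n hn) fr3 Lv Tw)
  (monT : ∀ c a j, ∀ w ∈ (trc (slC hLa hC n hn).hH (slC hLa hC n hn).dis (stB hGB bp bm)
      r c a).P, w ∈ ((Tw.tw c a).pat (j + 1)).P → w ∈ ((Tw.tw c a).pat j).P)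
  (rec : BR hLa (stB hGB bp bm) f X J θ coT BM.am BM.Zm (nbA Φ X) (vS v0F v0B) (vS v1F v1B)
    (uA Φ hLa X θ) (AA Φ X μ κ1) (BA Φ X μ) μ κ1)
include N bar D lo tt rec

/-- 471's `Reg` of the machine for the zone `t` -/
theorem reg_m (m : BM Φ X) {t : ℝ} (ht : (2 * Cn δ R + 1) * κ1 ≤ t) (ht1 : t < 1) :
    Reg (S := slC hLa hC n hn) (stB hGB bp bm) (vS v0F v0B) (vS v1F v1B) Lv r (coT m) m
      (fun x => sb Φ (θ m.co x) m.am) (fun x => Φ.lev m.am (f x)) t (Cn δ R * κ1)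
      ((2 * Cn δ R + 1) * κ1) := by
  have hb1 : (1 : ℝ) + μ / 16 ≤ 1 + μ / 16 := le_rfl
  obtain ⟨p, q, hM⟩ := rec.mo m
  have hN : ∀ e, (Pc Φ.F (coT m).1 ∩ Pc Φ.F e).Nonempty → e ∈ Nb Φ hLa (coT m).1 :=
    fun e he => mem_Nb.2 he
  have hnm : nbA Φ X (coT m) (Sum.inr m) := rfl
  exact reg_tiny hLa N.hδ N.hR N.hκ N.cn21 hC.tiny lo hM hN (rec.um (coT m) m)
    (by
      have h1 := (Bar_543.fs_ge_c hLa hM hN (t := 3 * μ / 16) (by linarith [N.hμ])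
        (by linarith [N.hμb])).1
      rw [rec.Bm (coT m) m]
      exact h1)
    (D.v0_lt (coT m) (Sum.inr m) hnm) (D.v1_gt (coT m) (Sum.inr m) hnm) N.l0 N.ra0
    (by rw [rec.Bm (coT m) m]; exact N.bB hb1) (by rw [rec.Bm (coT m) m]; exact N.bv1)
    (N.m0 hb1) (N.m1 hb1)
    (fun w hw hl _ => rec.trm w hw m hl) ht ht1

include mon monT

/-- **UPDOWN, generic zone** : `Y` a connected part of the frontier of the core of the barrier -/
theorem updown_zone (m : BM Φ X) {h : E3}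
    (hh : h ∈ (s2 (slC hLa hC n hn) fr3 Tw l0').P)
    (hl : (s2 (slC hLa hC n hn) fr3 Tw l0').lab h = Sum.inr m) {B : Set E3} (hhB : h ∈ B)
    (hBc : ∀ F x, x ∈ B → (s2 (slC hLa hC n hn) fr3 Tw l0').At F x →
      (s2 (slC hLa hC n hn) fr3 Tw l0').lab x = Sum.inr m →
      (∀ y, (s2 (slC hLa hC n hn) fr3 Tw l0').At F y → ∀ i,
        (s2 (slC hLa hC n hn) fr3 Tw l0').lab y = Sum.inl i → i.1 ≠ m.am) →
      (s2 (slC hLa hC n hn) fr3 Tw l0').mu F x ∈ B)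
    (hBf : ∀ F x, x ∈ B → (s2 (slC hLa hC n hn) fr3 Tw l0').At F x →
      (s2 (slC hLa hC n hn) fr3 Tw l0').lab x = Sum.inr m →
      ∀ c : Ti X, Sum.inr c ∉ ((slC hLa hC n hn).mn fr3).side F)
    (hc : (slC hLa hC n hn).In (coT m) h)
    {Y : Set E3} (hY : IsCompact Y) (hYc : IsPreconnected Y)
    (hYf : Y ⊆ frontier ((slC hLa hC n hn).K (coT m)))
    (hcl : ∀ q : T.Cell, q.set ⊆ frontier ((slC hLa hC n hn).K (coT m)) → (q.set ∩ Y).Nonempty →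
      ∀ x ∈ q.set, Φ.lev m.am (f x) ≤ 7 * μ / 16 ∨ 1 - 7 * μ / 16 ≤ Φ.lev m.am (f x))
    (hv : ∃ v : (slC hLa hC n hn).Vx (coT m), v.1 ∈ Y ∧ ∀ i,
      ¬ Rgn ((slC hLa hC n hn).sh fr3 (coT m)) (vS v0F v0B (coT m) (Sum.inr m))
        (vS v1F v1B (coT m) (Sum.inr m))
        (trc (slC hLa hC n hn).hH (slC hLa hC n hn).dis (stB hGB bp bm) r (coT m) (Sum.inr m))
        (exa fr3 (slC hLa hC n hn).hH (slC hLa hC n hn).dis (Lv (coT m) (Sum.inr m))) i v)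
    (hhY : ∀ x ∈ frontier ((slC hLa hC n hn).K (coT m)), (∀ p : T.RIdx (slC hLa hC n hn).HH,
      h ∈ P ((slC hLa hC n hn).T3.H p) → x ∈ P (T.H p.tile)) → x ∈ Y) :
    ∃ w ∈ B, w ∈ (outK (slC hLa hC n hn).hH (slC hLa hC n hn).dis (stB hGB bp bm) r).P ∧
      (stB hGB bp bm).lab w = Sum.inr m ∧ ∃ q : T.Cell,
        q.set ⊆ frontier ((slC hLa hC n hn).K (coT m)) ∧ (q.set ∩ Y).Nonempty ∧ w ∈ q.set := by
  obtain ⟨v', hv', hR⟩ := hv
  have hr := (bar.rm m.co m.co_notMem).2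
  have hX : Vcl Tw l0' (coT m) (EA (slC hLa hC n hn) (coT m) Y) (Sum.inr m) B := by
    rintro e' ⟨q, hq, heq, hqY⟩ j hj x hx hxP hxl hxF
    refine hBc _ x hx ⟨hxP, hxF⟩ hxl ?_
    rintro y ⟨hy, hyF⟩ i hyl hi
    -- a tile at the edge
    have hpe : e'.1.pt ∈ e'.1.set := e'.1.opn_sub (T.self_mem_oc _)
    obtain ⟨i0, hi0⟩ := T.at_nonempty e'.1.pt_mem
    have hsub : e'.1.set ⊆ P (T.H i0) := by
      rw [e'.1.set_eq]; exact T.cc_sub_tile hi0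
    have hfr := hr.fr _ (hq (heq hpe))
    obtain ⟨g1, g2⟩ := afree_in N bar D lo tt rec m (hsub hpe) (by linarith [hfr.1, hr.r12, hr.d0])
      (by linarith [hfr.2, hr.r34, hr.d0]) (hcl q hq hqY _ (heq hpe)) (coT m) e' hsub j
    have hfam : famB Φ L (BM Φ X)
        ((s2 (slC hLa hC n hn) fr3 Tw l0').lab y) = Sum.inl m.am := by
      rw [hyl]
      exact congrArg Sum.inl hi
    obtain ⟨a', x0, h1, h2, h4, -⟩ := on_vf hj hy hyF
    rcases x0 with w | w | v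
    · have k1 := ((Tw.tw (coT m) a').mv j).top_mem_P'.1 h1
      have k2 : w ∈ e'.1.opn := ((slC hLa hC n hn).sh fr3 (coT m)).top_mem_vert.1 h2
      have e1 : y = (slC hLa hC n hn).hp (coT m) j w := h4
      have h5 := lab_hp (l0 := l0') hj.le k1
      rw [← e1] at h5
      rw [h5, Tw.labj k1] at hfam
      subst hfam
      exact g1 j w k1 k2
    · have k1 := Twrs.mem_B.1 (((Tw.tw (coT m) a').mv j).bot_mem_P'.1 h1)
      have k2 : w ∈ e'.1.opn := ((slC hLa hC n hn).sh fr3 (coT m)).bot_mem_vert.1 h2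
      have e1 : y = (slC hLa hC n hn).hp (coT m) (j + 1) w := h4
      have h5 := lab_hp (l0 := l0') (show j + 1 ≤ (slC hLa hC n hn).n (coT m) from hj) k1
      rw [← e1] at h5
      rw [h5, Tw.labj k1] at hfam
      subst hfam
      exact g1 (j + 1) w k1 k2
    · have k1 := ((Tw.tw (coT m) a').mv j).vert_mem_P'.1 h1
      have e1 : y = (slC hLa hC n hn).vc (coT m) v.1 j := h4
      have h5 := lab_vp (l0 := l0') hj k1
      rw [← e1] at h5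
      rw [h5, Tw.labv k1] at hfam
      subst hfam
      have k2 : ∃ b, ((slC hLa hC n hn).sh fr3 (coT m)).en e' b = v := by
        rcases h2 with ⟨_, _, h⟩ | ⟨_, _, h⟩ | ⟨b', h⟩
        · cases h
        · cases h
        · exact ⟨b', (Sum.inr.inj (Sum.inr.inj h)).symm⟩
      obtain ⟨b, rfl⟩ := k2
      exact g2 b k1
  have hin := (in2 D lo tt hh hc).2
  have hfam : famB Φ L (BM Φ X)
      ((s2 (slC hLa hC n hn) fr3 Tw l0').lab h) = Sum.inr m := by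
    rw [hl]; rfl
  rw [hfam] at hin
  have hbase : (∃ j w, j ≤ (slC hLa hC n hn).n (coT m) ∧
        w ∈ ((Tw.tw (coT m) (Sum.inr m)).pat j).P ∧ w ∈ Y ∧ h = (slC hLa hC n hn).hp (coT m) j w) ∨
      ∃ j, ∃ v : (slC hLa hC n hn).Vx (coT m), j < (slC hLa hC n hn).n (coT m) ∧
        v ∈ ((Tw.tw (coT m) (Sum.inr m)).mv j).Qv ∧ v.1 ∈ Y ∧
        h = (slC hLa hC n hn).vc (coT m) v.1 j := by
    rcases hin with ⟨j, q, h1, h2, h4, h5, h6, -, -⟩ | ⟨j, v, h1, h2, h4, -⟩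
    · obtain ⟨e', he'⟩ := pat_onE h4
      obtain ⟨g1, g2, g4, g5⟩ := at_hp e' he' h1 h2
      exact Or.inl ⟨j, q, h2, h4, hhY q h6 (fun p hp => (at3_O g2 (h5 ▸ g4) hc hp).1), h5⟩
    · obtain ⟨g1, g2, g4, g5⟩ := at_vc (S := slC hLa hC n hn) v h1
      exact Or.inr ⟨j, v, h1, h2, hhY v.1 g2 (fun p hp => (at3_O g2 (h4 ▸ g4) hc hp).1), h4⟩
  obtain ⟨e', he', w, h1, h2⟩ := Ne_892.y_three (l0 := l0') tt
    (fun j w hw1 hw2 => mon (coT m) _ j w hw2 hw1)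
    (fun j w hw1 hw2 => monT (coT m) _ j w hw2 hw1) hY hYc hYf hv' hR hX hhB hl hbase
  rcases h2 with ⟨-, h4, h5, h6⟩ | ⟨h4, h5, h6⟩
  · exfalso
    let G : ((slC hLa hC n hn).sh fr3 (coT m)).Fk :=
      ⟨((slC hLa hC n hn).sh fr3 (coT m)).fc e' false,
        ((slC hLa hC n hn).sh fr3 (coT m)).fc_side e' false⟩
    have hG : (slC hLa hC n hn).hp (coT m) ((slC hLa hC n hn).n (coT m)) w ∈
        ((slC hLa hC n hn).mn fr3).On (hf G ((slC hLa hC n hn).n (coT m))) :=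
      (Sla.on_hf le_rfl).2 ⟨w, ((slC hLa hC n hn).sh fr3 (coT m)).on_of_onE (e := e') h1 false, rfl⟩
    refine hBf (hf G ((slC hLa hC n hn).n (coT m))) _ h4 ⟨h5, hG⟩ h6 (coT m) ?_
    have h7 : ((slC hLa hC n hn).n (coT m) - 1) + 1 = (slC hLa hC n hn).n (coT m) := by
      have := (slC hLa hC n hn).npos (coT m)
      omega
    have h8 : ((slC hLa hC n hn).mn fr3).side (hf G ((slC hLa hC n hn).n (coT m))) =
        s(Sum.inl (tg G ((slC hLa hC n hn).n (coT m) - 1)), Sum.inr (coT m)) :=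
      (((slC hLa hC n hn).cols fr3).cl (coT m)).side_bot G h7
    rw [h8]
    exact Sym2.mem_mk_right _ _
  · obtain ⟨k1, k2, k3⟩ := mem_trc.1 h4
    obtain ⟨q, hq, heq, hqY⟩ := he'
    refine ⟨w, h5, k1, ?_, q, hq, hqY, heq (e'.1.opn_sub h1)⟩
    rw [lab_old k1] at h6
    exact h6

/-- **UPDOWN, the low end** -/
theorem updown_lo (m : BM Φ X) {p : T.RIdx (slC hLa hC n hn).HH} {h x0 : E3}
    (hh : h ∈ (s2 (slC hLa hC n hn) fr3 Tw l0').P)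
    (hl : (s2 (slC hLa hC n hn) fr3 Tw l0').lab h = Sum.inr m)
    (hhp : h ∈ P ((slC hLa hC n hn).T3.H p)) (hx0 : x0 ∈ P (T.H p.tile))
    (hz : Φ.lev m.am (f x0) ≤ 3 * μ / 8) {B : Set E3} (hhB : h ∈ B)
    (hBc : ∀ F x, x ∈ B → (s2 (slC hLa hC n hn) fr3 Tw l0').At F x →
      (s2 (slC hLa hC n hn) fr3 Tw l0').lab x = Sum.inr m →
      (∀ y, (s2 (slC hLa hC n hn) fr3 Tw l0').At F y → ∀ i,
        (s2 (slC hLa hC n hn) fr3 Tw l0').lab y = Sum.inl i → i.1 ≠ m.am) →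
      (s2 (slC hLa hC n hn) fr3 Tw l0').mu F x ∈ B)
    (hBf : ∀ F x, x ∈ B → (s2 (slC hLa hC n hn) fr3 Tw l0').At F x →
      (s2 (slC hLa hC n hn) fr3 Tw l0').lab x = Sum.inr m →
      ∀ c : Ti X, Sum.inr c ∉ ((slC hLa hC n hn).mn fr3).side F) :
    ∃ w ∈ B, w ∈ (outK (slC hLa hC n hn).hH (slC hLa hC n hn).dis (stB hGB bp bm) r).P ∧
      (stB hGB bp bm).lab w = Sum.inr m ∧ Φ.lev m.am (f w) ≤ 13 * μ / 32 := by
  obtain ⟨n1, n2, n3, n4, n5, -⟩ := N.base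
  obtain ⟨hd, hr⟩ := bar.rm m.co m.co_notMem
  have hO : h ∈ Om := (s2_dim hh).1
  have hxt : h ∈ P (T.H p.tile) := Sla.P3_sub p hhp
  rcases Sla.out_or (S := slC hLa hC n hn) hO with ho | ⟨c, hc⟩
  · -- an outer point
    obtain ⟨g1, g2⟩ := s2_out hh ho
    have g3 : (stB hGB bp bm).lab h = Sum.inr m := g2.symm.trans hl
    have hga := bar.gau m h g1.1 g3
    have h3 := (abs_le.1 ((hr.tile_osc hxt (by linarith [hga.1, hr.d0])
      (by linarith [hga.2, hr.r34, hr.d0]) hx0).2.2 m.am)).2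
    exact ⟨h, hhB, g1, g3, by linarith⟩
  · -- in the layers
    have hcm : c = coT m := by
      have := (in2 D lo tt hh hc).1
      rw [hl] at this
      exact this.symm
    subst hcm
    have hR := reg_m N bar D lo tt rec m (t := 25 * μ / 64) (by linarith) (by linarith)
    obtain ⟨v, k1, k2⟩ := hR.vlo
    have hcl : ∀ q : T.Cell, q.set ⊆ frontier ((slC hLa hC n hn).K (coT m)) →
        (q.set ∩ {x | x ∈ frontier ((slC hLa hC n hn).K (coT m)) ∧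
          sb Φ (θ m.co x) m.am ≤ 25 * μ / 64}).Nonempty →
        ∀ x ∈ q.set, Φ.lev m.am (f x) ≤ 13 * μ / 32 := by
      rintro q hq ⟨z, hz1, -, hz2⟩ x hx
      have h2 := abs_le.1 (hR.osc q hq x hx z hz1)
      have h4 := abs_le.1 (hR.nr x (hq hx))
      linarith [h2.1, h2.2, h4.1, h4.2]
    obtain ⟨w, w1, w2, w3, q, w4, w5, w6⟩ := updown_zone N bar D lo tt mon monT rec m hh hl hhB hBc
      hBf hc (Y := {x | x ∈ frontier ((slC hLa hC n hn).K (coT m)) ∧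
        sb Φ (θ m.co x) m.am ≤ 25 * μ / 64}) hR.lo.1 hR.lo.2 (fun x hx => hx.1)
      (fun q hq hqY x hx => Or.inl (by linarith [hcl q hq hqY x hx]))
      ⟨v, ⟨v.2.2, k1⟩, k2⟩ (fun x hx hxp => by
        have h5 := hxp p hhp
        have hfr := hr.fr x hx
        have h3 := (abs_le.1 ((hr.tile_osc h5 (by linarith [hfr.1, hr.r12, hr.d0])
          (by linarith [hfr.2, hr.r34, hr.d0]) hx0).2.2 m.am)).2
        have h4 := abs_le.1 (hR.nr x hx)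
        exact ⟨hx, by linarith [h4.1, h4.2]⟩)
    exact ⟨w, w1, w2, w3, hcl q w4 w5 w w6⟩

/-- **UPDOWN, the high end** -/
theorem updown_hi (m : BM Φ X) {p : T.RIdx (slC hLa hC n hn).HH} {h x0 : E3}
    (hh : h ∈ (s2 (slC hLa hC n hn) fr3 Tw l0').P)
    (hl : (s2 (slC hLa hC n hn) fr3 Tw l0').lab h = Sum.inr m)
    (hhp : h ∈ P ((slC hLa hC n hn).T3.H p)) (hx0 : x0 ∈ P (T.H p.tile))
    (hz : 1 - 3 * μ / 8 ≤ Φ.lev m.am (f x0)) {B : Set E3} (hhB : h ∈ B)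
    (hBc : ∀ F x, x ∈ B → (s2 (slC hLa hC n hn) fr3 Tw l0').At F x →
      (s2 (slC hLa hC n hn) fr3 Tw l0').lab x = Sum.inr m →
      (∀ y, (s2 (slC hLa hC n hn) fr3 Tw l0').At F y → ∀ i,
        (s2 (slC hLa hC n hn) fr3 Tw l0').lab y = Sum.inl i → i.1 ≠ m.am) →
      (s2 (slC hLa hC n hn) fr3 Tw l0').mu F x ∈ B)
    (hBf : ∀ F x, x ∈ B → (s2 (slC hLa hC n hn) fr3 Tw l0').At F x →
      (s2 (slC hLa hC n hn) fr3 Tw l0').lab x = Sum.inr m →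
      ∀ c : Ti X, Sum.inr c ∉ ((slC hLa hC n hn).mn fr3).side F) :
    ∃ w ∈ B, w ∈ (outK (slC hLa hC n hn).hH (slC hLa hC n hn).dis (stB hGB bp bm) r).P ∧
      (stB hGB bp bm).lab w = Sum.inr m ∧ 1 - 13 * μ / 32 ≤ Φ.lev m.am (f w) := by
  obtain ⟨n1, n2, n3, n4, n5, -⟩ := N.base
  obtain ⟨hd, hr⟩ := bar.rm m.co m.co_notMem
  have hO : h ∈ Om := (s2_dim hh).1
  have hxt : h ∈ P (T.H p.tile) := Sla.P3_sub p hhp
  rcases Sla.out_or (S := slC hLa hC n hn) hO with ho | ⟨c, hc⟩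
  · -- an outer point
    obtain ⟨g1, g2⟩ := s2_out hh ho
    have g3 : (stB hGB bp bm).lab h = Sum.inr m := g2.symm.trans hl
    have hga := bar.gau m h g1.1 g3
    have h3 := (abs_le.1 ((hr.tile_osc hxt (by linarith [hga.1, hr.d0])
      (by linarith [hga.2, hr.r34, hr.d0]) hx0).2.2 m.am)).1
    exact ⟨h, hhB, g1, g3, by linarith⟩
  · -- in the layers
    have hcm : c = coT m := by
      have := (in2 D lo tt hh hc).1
      rw [hl] at this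
      exact this.symm
    subst hcm
    have hR := reg_m N bar D lo tt rec m (t := 25 * μ / 64) (by linarith) (by linarith)
    obtain ⟨v, k1, k2⟩ := hR.vhi
    have hcl : ∀ q : T.Cell, q.set ⊆ frontier ((slC hLa hC n hn).K (coT m)) →
        (q.set ∩ {x | x ∈ frontier ((slC hLa hC n hn).K (coT m)) ∧
          1 - 25 * μ / 64 ≤ sb Φ (θ m.co x) m.am}).Nonempty →
        ∀ x ∈ q.set, 1 - 13 * μ / 32 ≤ Φ.lev m.am (f x) := by
      rintro q hq ⟨z, hz1, -, hz2⟩ x hx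
      have h2 := abs_le.1 (hR.osc q hq x hx z hz1)
      have h4 := abs_le.1 (hR.nr x (hq hx))
      linarith [h2.1, h2.2, h4.1, h4.2]
    obtain ⟨w, w1, w2, w3, q, w4, w5, w6⟩ := updown_zone N bar D lo tt mon monT rec m hh hl hhB hBc
      hBf hc (Y := {x | x ∈ frontier ((slC hLa hC n hn).K (coT m)) ∧
        1 - 25 * μ / 64 ≤ sb Φ (θ m.co x) m.am}) hR.hi.1 hR.hi.2 (fun x hx => hx.1)
      (fun q hq hqY x hx => Or.inr (by linarith [hcl q hq hqY x hx]))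
      ⟨v, ⟨v.2.2, k1⟩, k2⟩ (fun x hx hxp => by
        have h5 := hxp p hhp
        have hfr := hr.fr x hx
        have h3 := (abs_le.1 ((hr.tile_osc h5 (by linarith [hfr.1, hr.r12, hr.d0])
          (by linarith [hfr.2, hr.r34, hr.d0]) hx0).2.2 m.am)).1
        have h4 := abs_le.1 (hR.nr x hx)
        exact ⟨hx, by linarith [h4.1, h4.2]⟩)
    exact ⟨w, w1, w2, w3, hcl q w4 w5 w w6⟩

end s2

end Crest.Agent.R096.Upd_112
end

-- ▼ part R096/Tpn1_72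
section

/-!
# R096 (row 96), DOORS, NEWIN (helper72): no top point of a barrier is in 688's set `B`

* `top_notin`   : over `s2`: `B` closed under the chords of `m` which are laced with no point of the
                  family and under all chords of `m` on the faces of `RB`, without frozen points;
* `top_Y`       : machine: the points of `j` on the faces of `RB` laced with a chord of `m` are in `Y`
                  (`Y` contains the root of `j`, closed under the free chords);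
* `top_notin_m` : machine: a point of `B` is not in `GmT` (BOTH end walls).
-/

set_option autoImplicit false
set_option linter.unusedSectionVars false
set_option linter.unusedVariables false
set_option linter.style.longLine false

open Set Topology Filter Metric Module Relation
open scoped Classical

namespace Crest.Agent.R096.Tpn_72

open Crest.Agent.R096.Msh_715 Crest.Agent.R096.Coh_184 Crest.Agent.R096.Lab_184
  Crest.Agent.R096.Main_4 Crest.Agent.R096.Agl5_543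
  Crest.Agent.R096.Seq_213 Crest.Agent.R096.St_147 Crest.Agent.R096.Door_501
  Crest.Agent.R096.Twr_438 Crest.Agent.R096.Exa_560
  Crest.Agent.R096.Ess3_95 Crest.Agent.R096.Ess4_95 Crest.Agent.R096.Ac_117 Crest.Agent.R096.Lm_117
  Crest.Agent.R096.Dfi_539 Crest.Agent.R096.Dfi_471 Crest.Agent.R096.Dfo_539
  Crest.Agent.R096.Sla_184 Crest.Agent.R096.Gm_298
  Crest.Agent.R096.Brk1_582 Crest.Agent.R096.Brk2_582 Crest.Agent.R096.Brk3_582
  Crest.Agent.R096.Brk5_582 Crest.Agent.R096.Bsp_628 Crest.Agent.R096.Init_543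
  Crest.Agent.R096.Lv3_471 Crest.Agent.R096.Lv4_471 Crest.Agent.R096.Slt_471
  Crest.Agent.R096.Dib_438 Crest.Agent.R096.Rop_441 Crest.Agent.R096.Frk_441
  Crest.Agent.R096.Dff_539 Crest.Agent.R096.Frs_662 Crest.Agent.R096.Qdl_662
  Crest.Agent.R096.Cg_501 Crest.Agent.R096.SecW_892 Crest.Agent.R096.Sgd_298
  Crest.Agent.R096.Dfg_539 Crest.Agent.R096.Nmd1_698 Crest.Agent.R096.Civ_662
  Crest.Agent.R096.Lbc_334 Crest.Agent.R096.Pbn_147 Crest.Agent.R096.Tro_147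
  Crest.Agent.R096.Tro_914 Crest.Agent.R096.Cns_778 Crest.Agent.R096.Bar_106
open Crest.Agent.R096.Sgo_298 (RmA rout ActR)
open Crest.Agent.R096.Mbf_337 (KJ Tiny Cores Fine Words sb gau)
open Crest.Agent.R096.SkC1_961 (E3 FoamD Hom3)
open Crest.Agent.R096.Frn_337 (Ti)
open Crest.Agent.R096.Ess7_95 (KT)
open Crest.Agent.R096.Dia_316 (nbT)
open Crest.Agent.R096.Bgf_4
open Crest.Agent.R096.Bmf_416 (coT coT_fin)
open Crest.Agent.R096.Sla_184.Sla (old Fn Out F0)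

section small

variable {E : Type} [NormedAddCommGroup E] [NormedSpace ℝ E] [FiniteDimensional ℝ E]
variable {Om : Set E} {ι : Type} {T : Tiling Om ι} {κ : Type} {S : Sla T κ}
  {h3 : finrank ℝ E = 3} {J C Mo : Type} {fam : J → C} {am : Mo → C}
  {s : GSt (meshC T h3) (Sum.map fam (id : Mo → Mo))} {r : J ⊕ Mo → E}
  {Tw : Twrs (S.sh h3) S.n (outK S.hH S.dis s r)} {l0 : E → J ⊕ Mo}
  {Sj Gm Gn : Mo → Set E} {a : C}

/-- **no point of the connected top part is in `B`** -/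
theorem top_notin (U : Upp S s r Sj Gm) (hc : ∀ m, IsPreconnected (Gn m))
    (hs : ∀ m, Gn m ⊆ Gm m) {m : Mo} (ha : am m = a) {Act : C → Set (T.RIdx S.HH ⊕ κ)}
    (hy : ∃ y ∈ s.P, s.lab y = Sum.inr m ∧ y ∈ Gn m ∧
      ¬ Dfo_539.Encl (s2 S h3 Tw l0) am Act m y)
    {B : Set E} (hB : ∀ x ∈ B, x ∈ (s2 S h3 Tw l0).P ∧ (s2 S h3 Tw l0).lab x = Sum.inr m)
    (hBc : ∀ F x, x ∈ B → (s2 S h3 Tw l0).At F x →
      Dfo_539.NoX (s2 S h3 Tw l0) (am m) F x → (s2 S h3 Tw l0).mu F x ∈ B)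
    (hBR : ∀ F ∈ RB S h3 am Gn a, ∀ x ∈ B, (s2 S h3 Tw l0).At F x →
      (s2 S h3 Tw l0).mu F x ∈ B)
    (hBf : ∀ x ∈ B, ∀ F, (s2 S h3 Tw l0).At F x →
      ¬ St.Frozen (S.mn h3) (Act (am m)) F) {h : E} (hh : h ∈ B) : h ∉ Gn m := by
  intro hG
  obtain ⟨y, y1, y2, y4, y5⟩ := hy
  have h1 := conn_sub U hc hs ha (hB h hh).1 (hB h hh).2 hG hh
    (fun F hF x hx hA _ => hBR F hF x hx hA) (cl_of y1 y2 y4)
  exact y5 ⟨B, h1, hB, fun F x hx hA hn => hBc F x hx hA hn, fun F x hx hA => hBf x hx F hA⟩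

end small

section mach

variable {δ κ0 R c0 : ℝ} {La Om : Set E3} {ι : Type} {Φ : FoamD δ κ0 R c0 La} {T : Tiling Om ι}
  {f g : E3 → E3} {κ1 κ2 μ : ℝ} {X : Set Φ.F} {J0 J V : Φ.F → Set ι}
  {ct ct' : Φ.F → ι} {Aj : Φ.F → E3 ≃ᵃ[ℝ] E3} {lam : Φ.F → ℝ} {z : Φ.F → E3}
  {θ : Φ.F → E3 → E3} {φ : Φ.F → E3 → ℝ} {r₀ : Φ.F → ℝ} {ρ1 ρ2 ρ3 ρ4 d : Φ.F → ℝ}
  {L : Φ.F → Finset ℝ} [Nonempty (JJ Φ L)] {hG : GF Φ r₀ T f L} {bp : JJ Φ L → E3}
  {Nn : BM Φ X → Set ℝ} {q₀ : BM Φ X → E3} {ε : BM Φ X → ℝ} {bm : BM Φ X → E3}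
  {hGB : GFB Φ r₀ T f L (lRc Φ X μ ρ1 ρ3 d) ε}
  {v0B v1B : ∀ c, BM Φ X → VxK T (KT T J X) c} {r : JJ Φ L → E3}
  {hLa : IsOpen La} {hC : Cores Φ T f κ1 κ2 X J0 J V ct Aj lam z θ φ}
  {n : Ti X → ℕ} {hn : ∀ c, 0 < n c}
  {Sf : JJ Φ L ⊕ BM Φ X → Set E3} {nb : Ti X → Φ.F ⊕ BM Φ X → Prop}
  {v0 v1 : ∀ c, Φ.F ⊕ BM Φ X → VxK T (slC hLa hC n hn).K c} {u : Ti X → Φ.F ⊕ BM Φ X → E3 → ℝ}
  {A B' : Ti X → Φ.F ⊕ BM Φ X → ℝ}
  {Lx : ∀ c, Φ.F ⊕ BM Φ X → Lev T (frontier ((slC hLa hC n hn).K c)) (JJ Φ L ⊕ BM Φ X)}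
  {Tw : Twrs ((slC hLa hC n hn).sh fr3) (slC hLa hC n hn).n
    (outK (slC hLa hC n hn).hH (slC hLa hC n hn).dis (stB hGB bp bm) (Sum.elim r bm))}
  {l0' : E3 → JJ Φ L ⊕ BM Φ X}

/-- **the points of `j` which are laced with a chord of `m` on a top face are in `Y`** -/
theorem top_Y (N : NumD δ κ0 R c0 κ2 μ κ1) (hκ2 : 0 < κ2)
    (hRm : RmA Φ T f X J0 J V θ ρ1 ρ2 ρ3 ρ4 d)
    {hI : InitR Φ T f g J0 ct' r₀}
    {hM : Mesh0 T (Pc Φ.F) (bc (F := Φ.F)) (RF Φ r₀) f (KorJ Φ J0) κ1} {h1 : κ1 < μ / 32}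
    {h2 : κ1 < 1} {M : Φ.F → ℕ} (hW : Words Φ T f X ct Aj lam z M L)
    (hLm : ∀ c, ∀ t ∈ L c, μ ≤ t ∧ t ≤ 1 - μ) (hconn : ∀ j, (st0 hG bp).Conn j)
    (hext : Ext (st0 hG bp) (stB hGB bp bm))
    (D : DIn (slC hLa hC n hn).hH (stB hGB bp bm) (Sum.elim r bm) Sf nb v0 v1 u A B')
    (lo : LevOut (Kc := (slC hLa hC n hn).K) (stB hGB bp bm) nb u A B' Lx)
    (tt : TwOut (slC hLa hC n hn) fr3 (stB hGB bp bm) (Sum.elim r bm) v0 v1 Lx Tw)
    (rec : BR hLa (stB hGB bp bm) f X J θ coT BM.am BM.Zm nb v0 v1 u A B' μ κ1)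
    (hga : ∀ w ∈ (stB hGB bp bm).P, ∀ m, (stB hGB bp bm).lab w = Sum.inr m →
      Ess5_95.ga Φ (coT m).1 (f w) ≤ ρ3 (coT m).1 + 15 * d (coT m).1)
    (hrE : ∀ j : JJ Φ L, ∃ q, r j ∈ P (T.H q) ∧ (∀ c ∉ X, q ∉ V c) ∧
      ∀ (k : QK (Pc Φ.F)) (s : ℝ), j.1 ∈ k.B → κ1 < s →
        q ∉ Act0 T (Pc Φ.F) (bc (F := Φ.F)) (RF Φ r₀) f (KorJ Φ J0) s k)
    {s₃ : GSt ((slC hLa hC n hn).mn fr3) (fun j : JJ Φ L => j.1)}
    (posB : PosS (hH := (Lay_316.lay_sla hLa hC n hn).core) Φ T f (μ / 4) J0 (slC hLa hC n hn) s₃)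
    {j : JJ Φ L} {k : Init_543.QK (Pc Φ.F)} (hkB : j.1 ∈ k.B) {Y : Set E3} (hbY : r j ∈ Y)
    (hY : ∀ F w, (s2 (slC hLa hC n hn) fr3 Tw l0').At F w →
      (s2 (slC hLa hC n hn) fr3 Tw l0').lab w = Sum.inl j →
      K3 s₃ (qdT (fun p : T.RIdx (slC hLa hC n hn).HH => p.tile) (sla_sub (slC hLa hC n hn))
        (slC hLa hC n hn).KK hLa hI hM h1 h2) j k F w →
      (w ∈ Y ↔ (s2 (slC hLa hC n hn) fr3 Tw l0').mu F w ∈ Y))
    {F : (slC hLa hC n hn).Fn fr3}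
    (hF : ∃ p, Sum.inl p ∈ ((slC hLa hC n hn).mn fr3).side F ∧
      ∃ e ∉ X, ∃ y ∈ P (T.H p.tile), ρ3 e + 7 * d e ≤ Ess5_95.ga Φ e (f y) ∧
        Ess5_95.ga Φ e (f y) ≤ ρ4 e)
    {v x : E3} {m : BM Φ X} (hv : (s2 (slC hLa hC n hn) fr3 Tw l0').At F v)
    (hvl : (s2 (slC hLa hC n hn) fr3 Tw l0').lab v = Sum.inl j)
    (hx : (s2 (slC hLa hC n hn) fr3 Tw l0').At F x)
    (hxl : (s2 (slC hLa hC n hn) fr3 Tw l0').lab x = Sum.inr m) (hxa : m.am = j.1) : v ∈ Y := by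
  obtain ⟨n1, n2, n3, n4, n5, -⟩ := N.base
  have hd : ∀ e ∉ X, 0 < d e := fun e he => (hRm e he).d0
  have h12 : ∀ e ∉ X, ρ1 e + 16 * d e ≤ ρ3 e := fun e he =>
    (hRm e he).r12.trans (hRm e he).r23
  have hT : Tlr Φ T f J0 Xᶜ (fun e => ρ3 e + 5 * d e) d :=
    tlr_of_room hC (fun e he => (hRm e he).r1) (fun e he => (hRm e he).r4)
      (fun e he => (hRm e he).d0) (fun e he => (hRm e he).ray) (fun e he => (hRm e he).j0)
      (fun e he => (hRm e he).v)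
      (fun e he i hi hi0 x hx y hy => ((hRm e he).osc i hi hi0 x hx y hy).1)
      (fun e he => by have := hd e he; have := h12 e he; linarith)
      fun e he => by have := hd e he; have := (hRm e he).r34; linarith
  have hJ : ∀ e ∉ X, ∀ i ∈ J e, ∃ x ∈ P (T.H i),
      gau e.1 (Φ.B e).lo (f x) ≤ (ρ3 e + 5 * d e) - d e := by
    intro e he i hi
    obtain ⟨x, hx⟩ := T.ne i
    have hxP := I_sub_P _ hx
    have h3 := Sgo_298.ga_core hLa hI.hm hC hRm he (mem_biUnion (x := i) hi hxP)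
    refine ⟨x, hxP, ?_⟩
    have h4 := hd e he
    show Ess5_95.ga Φ e (f x) ≤ ρ3 e + 5 * d e - d e
    linarith
  obtain ⟨q, hrq, hq2, hq3⟩ := hrE j
  have hq₀ : q ∉ Rtl r₀ T f J0 Xᶜ (fun e => ρ3 e + 5 * d e) (7 * μ / 32) k := by
    rintro (hA | ⟨e, he, x, hx, hxr⟩)
    · exact hq3 k (7 * μ / 32) hkB (by linarith) hA
    · refine hq2 e he ((hRm e he).v q ⟨x, hx, ?_⟩)
      have h3 : gau e.1 (Φ.B e).lo (f x) ≤ ρ3 e + 5 * d e := hxr
      have h4 := hd e he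
      have h5 := (hRm e he).r34
      show gau e.1 (Φ.B e).lo (f x) ≤ ρ4 e
      linarith
  refine hT_tile (S := slC hLa hC n hn) (hLa := hLa) (hR := hI) (hM := hM) (hε := h1)
    (hε1 := h2) (hG := hG) (bp := bp) (s := stB hGB bp bm) (r := Sum.elim r bm) (Tw := Tw)
    (l0 := l0') (tb := 7 * μ / 32) (σ' := μ / 4) (rt := fun e => ρ3 e + 5 * d e) (d := d)
    N.hδ N.hR n1.le hκ2 N.h12 n1.le hC hW (fun _ => rfl)
    (Sgo_298.part_ext hext) (hconn j) hT hJ (by linarith) (by have := N.strip.1; linarith)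
    N.strip.2.2.2 N.chl_tb hkB
    ((N.lv (hLm j.1 _ j.2.2)).1) posB (D.root (Sum.inl j)) hrq hq₀ Y hbY hY v hv.1 hvl ?_
  obtain ⟨p, hp1, e, he, y, hy, hy1, hy4⟩ := hF
  obtain ⟨-, hpK, hvp⟩ := sideN_tile hv.2 hp1
  obtain ⟨hxp, -, -⟩ := sideN_tile hx.2 hp1
  refine ⟨p.tile, hvp, bar_rtl (rS := fun e => ρ3 e + 7 * d e) (rt := fun e => ρ3 e + 5 * d e)
    (lb := 3 * μ / 16 + Cn δ R * κ1) (rmO_of hRm) hC.disj ?_ ?_ ?_ hLa hI hM ?_ hkB
    (fun hkor e' he' => ?_) he hy hy1 hy4⟩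
  · intro e he; have := hd e he; have := h12 e he; show ρ1 e ≤ ρ3 e + 7 * d e; linarith
  · intro e he; have := hd e he; have := (hRm e he).r34; show ρ3 e + 5 * d e ≤ ρ4 e; linarith
  · intro e he; have := hd e he; show ρ3 e + 5 * d e + d e < ρ3 e + 7 * d e; linarith
  · linarith
  · rw [← hxa] at he'
    exact posM_m N hRm D lo tt rec hga m x hx.1 hxl p hpK hxp hkor e' he'

/-- **NO TOP POINT OF `m` IS IN `B`** (both end walls): `B` = 688's set (`new_cutG`) for the sheet `j`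
and the quad `k`, `Y ∋ r j` -/
theorem top_notin_m (N : NumD δ κ0 R c0 κ2 μ κ1) (hκ2 : 0 < κ2)
    {hI : InitR Φ T f g J0 ct' r₀}
    {hM : Mesh0 T (Pc Φ.F) (bc (F := Φ.F)) (RF Φ r₀) f (KorJ Φ J0) κ1} {h1 : κ1 < μ / 32}
    {h2 : κ1 < 1} {M : Φ.F → ℕ} (hW : Words Φ T f X ct Aj lam z M L)
    (hLm : ∀ c, ∀ t ∈ L c, μ ≤ t ∧ t ≤ 1 - μ) (hconn : ∀ j, (st0 hG bp).Conn j)
    (Ba : BarOut Φ T f κ1 μ X J0 J V θ hG bp Nn ρ1 ρ2 ρ3 ρ4 d q₀ ε bm hGB v0B v1B)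
    (D : DIn (slC hLa hC n hn).hH (stB hGB bp bm) (Sum.elim r bm) Sf nb v0 v1 u A B')
    (lo : LevOut (Kc := (slC hLa hC n hn).K) (stB hGB bp bm) nb u A B' Lx)
    (tt : TwOut (slC hLa hC n hn) fr3 (stB hGB bp bm) (Sum.elim r bm) v0 v1 Lx Tw)
    (rec : BR hLa (stB hGB bp bm) f X J θ coT BM.am BM.Zm nb v0 v1 u A B' μ κ1)
    (hrE : ∀ j : JJ Φ L, ∃ q, r j ∈ P (T.H q) ∧ (∀ c ∉ X, q ∉ V c) ∧
      ∀ (k : QK (Pc Φ.F)) (s : ℝ), j.1 ∈ k.B → κ1 < s →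
        q ∉ Act0 T (Pc Φ.F) (bc (F := Φ.F)) (RF Φ r₀) f (KorJ Φ J0) s k)
    {s₃ : GSt ((slC hLa hC n hn).mn fr3) (fun j : JJ Φ L => j.1)}
    (posB : PosS (hH := (Lay_316.lay_sla hLa hC n hn).core) Φ T f (μ / 4) J0 (slC hLa hC n hn) s₃)
    {m : BM Φ X}
    -- 778's `NE1`
    (ne : ∃ w ∈ (stB hGB bp bm).P, (stB hGB bp bm).lab w = Sum.inr m ∧
      ρ3 m.co + 7 * d m.co ≤ Ess5_95.ga Φ m.co (f w) ∧
      ¬ Dfo_539.Encl (s2 (slC hLa hC n hn) fr3 Tw l0') BM.am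
        (fun _ => ActR (slC hLa hC n hn) (Rdc T f Xᶜ (rout ρ3 d))) m w)
    {j : JJ Φ L} {k : Init_543.QK (Pc Φ.F)} (hkB : j.1 ∈ k.B) (ham : m.am = j.1)
    {Y : Set E3} (hbY : r j ∈ Y)
    (hY : ∀ F w, (s2 (slC hLa hC n hn) fr3 Tw l0').At F w →
      (s2 (slC hLa hC n hn) fr3 Tw l0').lab w = Sum.inl j →
      K3 s₃ (qdT (fun p : T.RIdx (slC hLa hC n hn).HH => p.tile) (sla_sub (slC hLa hC n hn))
        (slC hLa hC n hn).KK hLa hI hM h1 h2) j k F w →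
      (w ∈ Y ↔ (s2 (slC hLa hC n hn) fr3 Tw l0').mu F w ∈ Y))
    {B : Set E3}
    (hB : ∀ x ∈ B, x ∈ (s2 (slC hLa hC n hn) fr3 Tw l0').P ∧
      (s2 (slC hLa hC n hn) fr3 Tw l0').lab x = Sum.inr m)
    (hBc : ∀ F x, x ∈ B → (s2 (slC hLa hC n hn) fr3 Tw l0').At F x →
      (∀ y, (s2 (slC hLa hC n hn) fr3 Tw l0').At F y →
        (s2 (slC hLa hC n hn) fr3 Tw l0').lab y = Sum.inl j →
        ((slC hLa hC n hn).mn fr3).Lace F x ((s2 (slC hLa hC n hn) fr3 Tw l0').mu F x) y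
          ((s2 (slC hLa hC n hn) fr3 Tw l0').mu F y) → y ∈ Y) →
      (s2 (slC hLa hC n hn) fr3 Tw l0').mu F x ∈ B)
    (hBf : ∀ x ∈ B, ∀ F, (s2 (slC hLa hC n hn) fr3 Tw l0').At F x →
      ¬ St.Frozen ((slC hLa hC n hn).mn fr3)
        (ActR (slC hLa hC n hn) (Rdc T f Xᶜ (rout ρ3 d))) F) {h : E3} (hh : h ∈ B) :
    h ∉ GmT Om Φ f X μ ρ1 ρ3 d ε m := by
  obtain ⟨n1, n2, n3, n4, n5, -⟩ := N.base
  have hRm := rmA_of Ba
  have hga : ∀ w ∈ (stB hGB bp bm).P, ∀ m, (stB hGB bp bm).lab w = Sum.inr m →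
      Ess5_95.ga Φ (coT m).1 (f w) ≤ ρ3 (coT m).1 + 15 * d (coT m).1 := fun w hw m hl => by
    have h3 := (Ba.gau m w hw hl).2
    have h4 := (hRm m.co m.co_notMem).d0
    show Ess5_95.ga Φ m.co (f w) ≤ ρ3 m.co + 15 * d m.co
    linarith
  have U := upp_m (hLa := hLa) (hC := hC) (n := n) (hn := hn) (r := r) hI n4 hLm Ba
  refine top_notin (a := m.am) (Act := fun _ => ActR (slC hLa hC n hn) (Rdc T f Xᶜ (rout ρ3 d))) U
    (fun m' => ?_) (fun m' => gmT_sub hRm m') rfl ?_ hB ?_ ?_ hBf hh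
  · obtain ⟨c1, c2, c3, c4, c5, c6, c7⟩ := caps Ba.barF Ba.lv m'
    exact gma_conn Ba.barF hLa hI.hm Ba.lv (m := m') (by linarith)
      (by show _ < ρ3 m'.co + 7 * d m'.co; linarith)
      (by show ρ3 m'.co + 7 * d m'.co ≤ _; linarith)
  · obtain ⟨w, e1, e2, e3, e4⟩ := ne
    exact ⟨w, e1, e2, mem_gmT hLa Ba e1 e2 e3, e4⟩
  · intro F x hx hA hno
    refine hBc F x hx hA fun y hy hyl hl => ?_
    exact absurd hl (hno y hy ⟨j, hyl, ham.symm⟩)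
  · intro F hF x hx hA
    refine hBc F x hx hA fun y hy hyl hl => ?_
    exact top_Y N hκ2 hRm hW hLm hconn Ba.ext D lo tt rec hga hrE posB hkB hbY hY
      (hRR_m hI Ba m.am F hF) hy hyl hA (hB x hx).2 ham


end mach

end Crest.Agent.R096.Tpn_72
end

-- ▼ part R096/Whi1_72
section

/-!
# Row 96, DOORS (helper72): barrier points on the HIGH end wall of a box, outside the core

* `exists_wall_gen_hi`, `exists_wall_hi` : 664's `exists_wall_gen`, `exists_wall` at the other end wall;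
* `wall_both` : over 438's `BarOut`, both ends: the top point at which the walks of NEWIN end.
-/

set_option autoImplicit false
set_option linter.unusedSectionVars false
set_option linter.unusedVariables false
set_option linter.style.longLine false

open Set Topology Filter Metric Module MeasureTheory
open scoped Classical

namespace Crest.Agent.R096.Whi_72

open Crest.Agent.R096.Msh_715 Crest.Agent.R096.Coh_184 Crest.Agent.R096.Bsp_628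
  Crest.Agent.R096.Brk1_582 Crest.Agent.R096.Brk2_582 Crest.Agent.R096.Brk3_582
  Crest.Agent.R096.Brk5_582 Crest.Agent.R096.Init_543 Crest.Agent.R096.Mbf_337
  Crest.Agent.R96.Push_899 Crest.Agent.R096.Ess1_95 Crest.Agent.R096.Ess4_95
  Crest.Agent.R096.Ess5_95 Crest.Agent.R096.Ess6_95 Crest.Agent.R096.Ess7_95
  Crest.Agent.R096.Lab_184 Crest.Agent.R096.Seq_213 Crest.Agent.R096.Seq_213.GSt
  Crest.Agent.R096.Main_4 Crest.Agent.R096.Exa_560 Crest.Agent.R096.Agl4_543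
  Crest.Agent.R096.Agl5_543 Crest.Agent.R096.Agl6_543 Crest.Agent.R096.Agl8_543
  Crest.Agent.R096.Ebr1_95 Crest.Agent.R096.Ebr2_95
  Crest.Agent.R096.Ebr3_95 Crest.Agent.R096.Ebr4_95 Crest.Agent.R096.Ebr5_95
  Crest.Agent.R096.Ebr6_95 Crest.Agent.R096.Bar_106 Crest.Agent.R096.Wy_664
  Crest.Agent.R096.Bgf_4 Crest.Agent.R096.Dib_438 Crest.Agent.R096.Sphg_316

open Crest.Agent.R096.SkC1_961 (E3 Hom3 IsPush FoamD)

section gen

variable {δ κ0 R c0 : ℝ} {La Om : Set E3} {ι : Type} {Φ : FoamD δ κ0 R c0 La}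
  {T : Tiling Om ι} {f g : E3 → E3} {J0 J V : Φ.F → Set ι} {θ : Φ.F → E3 → E3}

variable {Mo' : Type} {co : Mo' → Φ.F} {ρ1 ρ2 ρ3 ρ4 d : Mo' → ℝ} {G : Mo' → E3 → ℝ}
  {rm h lo hi ω : Mo' → ℝ} {q₀ : Mo' → E3} {g0 : Mo' → ℝ}
  {r₀ : Φ.F → ℝ} {L : Φ.F → Finset ℝ} [Nonempty (JJ Φ L)] {ε : Mo' → ℝ}
  {bp : JJ Φ L → E3} {bm : Mo' → E3}

/-- **barrier points on the HIGH end wall** of the box at the gauge `t` -/
theorem exists_wall_gen_hi (hLa : IsOpen La) (hδ : 0 < δ) (hR : 0 < R) (H : Hm f g Om La)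
    (hB : BarF Φ T f J0 J V θ co ρ1 ρ2 ρ3 ρ4 d G rm h lo hi ω q₀ g0)
    (hGB : GFB Φ r₀ T f L (lM Φ co rm h hi G) ε) {m : Mo'} (hε : ε m ∈ Ioo (lo m) (hi m))
    {l0 mm ra hN' : ℝ} (hN : Nm l0 mm ra hN') {a p q : Φ.F} {Z : Set Φ.F}
    (hM : Mo (Pc Φ.F) (co m) a Z p q) (hGm : G m = gmf Φ l0 mm ra a Z)
    (hω : 0 < ω m) {b0 : ℝ} (n1 : g0 m ≤ b0) (n2 : ω m ≤ b0) (n3 : b0 + ω m < ε m)
    (n4 : ε m + 2 * ω m < hN')
    {t : ℝ} (ht0 : rm m - h m * ε m + 3 * d m ≤ t) (ht1 : t ≤ rm m + h m * ε m - 3 * d m)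
    {lm : E3 → ZMod 2} (hlam : IsLab T (gPts (stB hGB bp bm) (Sum.inr m)) lm)
    (LOW : ∀ b, b + ω m < ε m → IsPreconnected {q | q ∈ frontier (co m).1.set ∧ G m q ≤ b} →
      G m (q₀ m) ≤ b → ∀ v ∈ Om, T.dim v = 0 → rm m - h m * ε m + 2 * d m ≤ ga Φ (co m) (f v) →
        ga Φ (co m) (f v) ≤ rm m + h m * ε m - 2 * d m → G m (Φ.Psi (f v)) ≤ b → lm v = 1)
    (HIGH : ∀ b, ε m + ω m < b → IsPreconnected {q | q ∈ frontier (co m).1.set ∧ b ≤ G m q} →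
      {q | q ∈ frontier (co m).1.set ∧ b ≤ G m q}.Nonempty → ∀ v ∈ Om, T.dim v = 0 →
        (ga Φ (co m) (f v) ≤ rm m - h m * ε m - 2 * d m ∨
          rm m + h m * ε m + 2 * d m ≤ ga Φ (co m) (f v) ∨ b ≤ G m (Φ.Psi (f v))) → lm v = 0) :
    ∃ u ∈ (stB hGB bp bm).P, (stB hGB bp bm).lab u = Sum.inr m ∧
      u ∈ Om ∧ t - d m ≤ ga Φ (co m) (f u) ∧ ga Φ (co m) (f u) ≤ t + d m ∧
      G m (Φ.Psi (f u)) = ε m ∧
      ∃ i ∈ V (co m), u ∈ P (T.H i) ∧ ∃ x ∈ P (T.H i), ga Φ (co m) (f x) = t ∧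
        mm + ra * (ε m - ω m) ≤ Φ.lev a (f x) ∧ mm + ra * (ε m - ω m) - d m ≤ Φ.lev a (f u) ∧
        ∀ e, dv a Z (fun e => Φ.lev e (f x)) e = 0 := by
  have hr := hB.room m
  have hd := hr.d0
  have hh := hB.h0 m
  have FF := foam Φ.bf hLa
  have hGM : GM Φ (co m) (G m) 0 hN' := by
    rw [hGm]; exact gm_moat hLa hδ hR hM hN
  have hNp := hN.hhi
  have hra := hN.hra
  have hN0 := hN.m0
  have hN1 := hN.m1
  have hrN : 0 < ra * hN' := mul_pos hra hNp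
  have hRct : ∀ s ∈ Icc mm (mm + ra * hN'), ((s, 0) : ℝ × ℝ) ∈ Rct := fun s hs =>
    ⟨⟨by linarith [hs.1], by linarith [hs.2]⟩, ⟨by norm_num, by norm_num⟩⟩
  have hGs : ∀ s ∈ Icc mm (mm + ra * hN'), G m (gam (bc (F := Φ.F)) a Z p q (s, 0)) =
      (s - mm) / ra := by
    intro s hs
    rw [hGm, gmf_gam hLa hM (hRct s hs)]
    show max (|(0 : ℝ)| / l0) (|s - mm| / ra) = _
    rw [abs_zero, zero_div, abs_of_nonneg (by linarith [hs.1])]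
    exact max_eq_right (div_nonneg (by linarith [hs.1]) hra.le)
  set A : Set E3 := (fun s : ℝ => gam (bc (F := Φ.F)) a Z p q (s, 0)) ''
    Icc mm (mm + ra * hN') with hA
  have hAf : A ⊆ frontier (co m).1.set := by
    rintro _ ⟨s, hs, rfl⟩
    exact gam_fr hLa hM (hRct s hs)
  have hAc : IsPreconnected A := by
    refine isPreconnected_Icc.image _ ?_
    refine (hM.continuousOn_gam FF).comp (Continuous.continuousOn (by fun_prop)) ?_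
    intro s hs
    exact hRct s hs
  have hma : mm ∈ Icc mm (mm + ra * hN') := ⟨le_rfl, by linarith⟩
  have hmb : mm + ra * hN' ∈ Icc mm (mm + ra * hN') := ⟨by linarith, le_rfl⟩
  obtain ⟨i, ⟨x, hxi, hxt, hxA⟩, u, hu, hul, hui⟩ := reach_wall hLa H hB hGB hε hGM
    (b0 := b0) (b1 := hN' - ω m) (by linarith) n1 n3 (by linarith) (by linarith) ht0 ht1 hAf hAc
    (mem_image_of_mem _ hma) (mem_image_of_mem _ hmb)
    (by
      show G m (gam (bc (F := Φ.F)) a Z p q (mm, 0)) + ω m ≤ b0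
      rw [hGs mm hma, sub_self, zero_div, zero_add]; exact n2)
    (by
      show hN' - ω m + ω m ≤ G m (gam (bc (F := Φ.F)) a Z p q (mm + ra * hN', 0))
      rw [hGs _ hmb, add_sub_cancel_left, mul_div_cancel_left₀ _ hra.ne', sub_add_cancel])
    hlam LOW HIGH
  have hSB := (hGB.mem_pts_iff (w := u) (i := Sum.inr m)).1 ⟨hu.1, hul⟩
  have hS : u ∈ Om ∧ lM Φ co rm h hi G m (f u) = ε m := hSB.1
  have m1 : h m * lo m ≤ h m * ε m := mul_le_mul_of_nonneg_left hε.1.le hh.le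
  have m2 : h m * ε m ≤ h m * hi m := mul_le_mul_of_nonneg_left hε.2.le hh.le
  have ht0' : ρ1 m ≤ ga Φ (co m) (f x) := by rw [hxt]; linarith [hB.a0 m]
  have htρ : ga Φ (co m) (f x) ≤ ρ4 m := by rw [hxt]; linarith [hB.a1' m]
  have hosc := hr.tile_osc hxi ht0' htρ hui
  have hGo := hB.osc m i x hxi ht0' htρ u hui
  have o1 := abs_le.1 hosc.1
  have o2 := abs_le.1 hGo
  have o3 := abs_le.1 (hosc.2.2 a)
  rw [hxt] at o1
  obtain ⟨-, -, -, h4⟩ := hB.pos hε.2 hS.2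
  have hGu : G m (Φ.Psi (f u)) = ε m := by
    rcases h4 with h4 | h4 | h4
    · exfalso; linarith [o1.2]
    · exfalso; linarith [o1.1]
    · exact h4
  obtain ⟨s, hs, hsx⟩ := hxA
  have hsx' : Φ.Psi (f x) = gam (bc (F := Φ.F)) a Z p q (s, 0) := hsx.symm
  have hsb : ∀ e, Φ.lev e (f x) = uu a Z p q s 0 e := by
    intro e
    show sc (Pc Φ.F) (bc (F := Φ.F)) (Φ.Psi (f x)) e = _
    rw [hsx', hM.sc_gam FF (hRct s hs)]
  rw [hsx', hGs s hs, hGu] at o2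
  have hsle : mm + ra * (ε m - ω m) ≤ s := by
    have h5 : ε m - ω m ≤ (s - mm) / ra := by linarith [o2.1]
    rw [le_div_iff₀ hra] at h5
    linarith
  have hla : Φ.lev a (f x) = s := by rw [hsb a, uu_a]
  refine ⟨u, hu, hul, hS.1, by linarith [o1.2], by linarith [o1.1], hGu, i,
    (hr.tile hxi ht0' htρ).1, hui, x, hxi, hxt, by rw [hla]; exact hsle,
    by rw [hla] at o3; linarith [o3.2], fun e => ?_⟩
  have h6 : (fun e => Φ.lev e (f x)) = uu a Z p q s 0 := funext hsb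
  rw [h6, dv_uu]
  simp

end gen

section rec

variable {δ κ0 R c0 : ℝ} {La Om : Set E3} {ι : Type} {Φ : FoamD δ κ0 R c0 La}
  {T : Tiling Om ι} {f g : E3 → E3}
variable {X : Set Φ.F} {J0 J V : Φ.F → Set ι} {θ : Φ.F → E3 → E3} {κ1 : ℝ}
  {ρ1 ρ2 ρ3 ρ4 d : Φ.F → ℝ} {r₀ : Φ.F → ℝ} {L : Φ.F → Finset ℝ} [Nonempty (JJ Φ L)]
  {bp : JJ Φ L → E3} {bm : BM Φ X → E3} {ε : BM Φ X → ℝ} {q₀ : BM Φ X → E3}

/-- **THE HIGH WALL POINT** of the moat `m` (numbers of record: `l0 = μ / 8`, `mm = 1/2`,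
`ra = 1/2 - 5 μ / 16`, `sg ≤ μ / 16`, `d ≤ κ1`) -/
theorem exists_wall_hi (hLa : IsOpen La) (hδ : 0 < δ) (hR : 0 < R) (H : Hm f g Om La)
    {μ : ℝ} (hμ : 0 < μ) (hμ1 : μ ≤ 1 / 2) {sg : ℝ} (hsg : sg ≤ μ / 16)
    (hBF : BarF Φ T f J0 J V θ (fun m : BM Φ X => m.co) (fun m => ρ1 m.co)
        (fun m => ρ2 m.co) (fun m => ρ3 m.co) (fun m => ρ4 m.co) (fun m => d m.co)
        (fun m => gmf Φ (μ / 8) (1 / 2) (1 / 2 - 5 * μ / 16) m.am m.Zm) (fun m => rB ρ1 ρ3 d m.co)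
        (fun m => hB ρ1 ρ3 d m.co) (fun _ => 1) (fun m => hiB ρ1 ρ3 d sg m.co)
        (fun m => max (d m.co / (μ / 8)) (d m.co / (1 / 2 - 5 * μ / 16))) q₀ (fun _ => 0))
    (hGB : GFB Φ r₀ T f L (lBM Φ X ρ1 ρ3 d sg (μ / 8) (1 / 2) (1 / 2 - 5 * μ / 16)) ε)
    (hε : ∀ m, ε m ∈ Ioo 1 (hiB ρ1 ρ3 d sg m.co)) (m : BM Φ X)
    (hdm : d m.co ≤ μ ^ 2 / 512) {lm : E3 → ZMod 2}
    (hlm : FarL T (Om ∩ f ⁻¹' {y | ga Φ m.co y ≤ ρ4 m.co}) (gPts (stB hGB bp bm) (Sum.inr m)) lm)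
    (LOW : ∀ b, b + max (d m.co / (μ / 8)) (d m.co / (1 / 2 - 5 * μ / 16)) < ε m →
          IsPreconnected {q | q ∈ frontier m.co.1.set ∧
            gmf Φ (μ / 8) (1 / 2) (1 / 2 - 5 * μ / 16) m.am m.Zm q ≤ b} →
          0 ≤ b → ∀ v ∈ Om, T.dim v = 0 →
          rB ρ1 ρ3 d m.co - hB ρ1 ρ3 d m.co * ε m + 2 * d m.co ≤ ga Φ m.co (f v) →
          ga Φ m.co (f v) ≤ rB ρ1 ρ3 d m.co + hB ρ1 ρ3 d m.co * ε m - 2 * d m.co →
          gmf Φ (μ / 8) (1 / 2) (1 / 2 - 5 * μ / 16) m.am m.Zm (Φ.Psi (f v)) ≤ b → lm v = 1)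
    (HIGH : ∀ b, ε m + max (d m.co / (μ / 8)) (d m.co / (1 / 2 - 5 * μ / 16)) < b →
          IsPreconnected {q | q ∈ frontier m.co.1.set ∧
            b ≤ gmf Φ (μ / 8) (1 / 2) (1 / 2 - 5 * μ / 16) m.am m.Zm q} →
          {q | q ∈ frontier m.co.1.set ∧
            b ≤ gmf Φ (μ / 8) (1 / 2) (1 / 2 - 5 * μ / 16) m.am m.Zm q}.Nonempty →
          ∀ v ∈ Om, T.dim v = 0 →
            (ga Φ m.co (f v) ≤ rB ρ1 ρ3 d m.co - hB ρ1 ρ3 d m.co * ε m - 2 * d m.co ∨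
              rB ρ1 ρ3 d m.co + hB ρ1 ρ3 d m.co * ε m + 2 * d m.co ≤ ga Φ m.co (f v) ∨
              b ≤ gmf Φ (μ / 8) (1 / 2) (1 / 2 - 5 * μ / 16) m.am m.Zm (Φ.Psi (f v))) → lm v = 0) :
    ∃ w ∈ (stB hGB bp bm).P, (stB hGB bp bm).lab w = Sum.inr m ∧ w ∈ Om ∧
      ρ3 m.co + 8 * d m.co ≤ ga Φ m.co (f w) ∧ ga Φ m.co (f w) ≤ ρ3 m.co + 10 * d m.co ∧
      gmf Φ (μ / 8) (1 / 2) (1 / 2 - 5 * μ / 16) m.am m.Zm (Φ.Psi (f w)) = ε m ∧
      1 - 3 * μ / 8 ≤ Φ.lev m.am (f w) ∧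
      ∃ q ∈ V m.co, w ∈ P (T.H q) ∧ ∃ x ∈ P (T.H q), ga Φ m.co (f x) = ρ3 m.co + 9 * d m.co ∧
        1 - 3 * μ / 8 ≤ Φ.lev m.am (f x) ∧
        ∀ e, dv m.am m.Zm (fun e => Φ.lev e (f x)) e = 0 := by
  obtain ⟨p, q, hM⟩ := m.mo
  have hr := hBF.room m
  have hd := hr.d0
  have h12 := hr.r12
  have h23 := hr.r23
  have hh := hBF.h0 m
  have hra : 0 < 1 / 2 - 5 * μ / 16 := by linarith
  have hω : 0 < max (d m.co / (μ / 8)) (d m.co / (1 / 2 - 5 * μ / 16)) :=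
    lt_max_of_lt_left (by positivity)
  have hω1 : max (d m.co / (μ / 8)) (d m.co / (1 / 2 - 5 * μ / 16)) ≤ μ / 64 := by
    refine max_le ?_ ?_
    · rw [div_le_iff₀ (by positivity)]
      nlinarith
    · rw [div_le_iff₀ hra]
      nlinarith
  have hεm := hε m
  have h1 : hB ρ1 ρ3 d m.co * 1 ≤ hB ρ1 ρ3 d m.co * ε m :=
    mul_le_mul_of_nonneg_left hεm.1.le hh.le
  have e1 := rB_sub (ρ1 := ρ1) (ρ3 := ρ3) (d := d) m.co
  have e2 := rB_add (ρ1 := ρ1) (ρ3 := ρ3) (d := d) m.co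
  have hhi := hiB_le (ρ1 := ρ1) (ρ3 := ρ3) (d := d) (c := m.co) sg
  obtain ⟨u, hu, hul, huO, g1, g2, g3, i, hi, hui, x, hx, hxt, hl1, hl2, hdv⟩ :=
    exists_wall_gen_hi (m := m) (t := ρ3 m.co + 9 * d m.co) (b0 := 1 / 8) (hN' := 1 + μ / 2)
      (p := p) (q := q) hLa hδ hR H hBF hGB hεm (nm_rec hμ hμ1) hM rfl hω (by norm_num)
      (by linarith) (by linarith [hεm.1]) (by linarith [hεm.2])
      (by show rB ρ1 ρ3 d m.co - hB ρ1 ρ3 d m.co * ε m + 3 * d m.co ≤ _; linarith)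
      (by show _ ≤ rB ρ1 ρ3 d m.co + hB ρ1 ρ3 d m.co * ε m - 3 * d m.co; linarith)
      hlm.lab (fun b h1 h2 h3 => LOW b h1 h2 (le_trans
        (div_nonneg (abs_nonneg _) hra.le) ((le_max_right _ _).trans h3))) HIGH
  have hl3 : 1 - (5 * μ / 16 + μ / 128) ≤ (1 / 2 : ℝ) + (1 / 2 - 5 * μ / 16) *
      (ε m - max (d m.co / (μ / 8)) (d m.co / (1 / 2 - 5 * μ / 16))) := by
    have h6 : (1 / 2 - 5 * μ / 16) * (1 - μ / 64) ≤ (1 / 2 - 5 * μ / 16) *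
        (ε m - max (d m.co / (μ / 8)) (d m.co / (1 / 2 - 5 * μ / 16))) :=
      mul_le_mul_of_nonneg_left (by linarith [hεm.1]) hra.le
    nlinarith
  have hd2 : d m.co ≤ μ / 64 := by nlinarith
  refine ⟨u, hu, hul, huO, by
    have g1' : ρ3 m.co + 9 * d m.co - d m.co ≤ ga Φ m.co (f u) := g1
    linarith, by
    have g2' : ga Φ m.co (f u) ≤ ρ3 m.co + 9 * d m.co + d m.co := g2
    linarith, g3, ?_, i, hi, hui, x, hx, hxt, ?_, hdv⟩
  · refine le_trans ?_ hl2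
    show _ ≤ (1 / 2 : ℝ) + (1 / 2 - 5 * μ / 16) *
      (ε m - max (d m.co / (μ / 8)) (d m.co / (1 / 2 - 5 * μ / 16))) - d m.co
    linarith
  · exact le_trans (by linarith) hl1

end rec

section both

open Crest.Agent.R096.St_147 Crest.Agent.R096.Door_501 Crest.Agent.R096.Twr_438
  Crest.Agent.R096.Ess3_95 Crest.Agent.R096.Dfi_471 Crest.Agent.R096.Sla_184
  Crest.Agent.R096.Rop_441 Crest.Agent.R096.Frs_662 Crest.Agent.R096.Nmd1_698
  Crest.Agent.R096.Cns_778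
open Crest.Agent.R096.Sgo_298 (RmA rout ActR)
open Crest.Agent.R096.SkC1_961 (Hom3)
open Crest.Agent.R096.Frn_337 (Ti)
open Crest.Agent.R096.Ess7_95 (KT)

variable {δ κ0 R c0 : ℝ} {La Om : Set E3} {ι : Type} {Φ : FoamD δ κ0 R c0 La} {T : Tiling Om ι}
  {f g : E3 → E3} {κ1 κ2 μ : ℝ} {X : Set Φ.F} {J0 J V : Φ.F → Set ι}
  {ct ct' : Φ.F → ι} {Aj : Φ.F → E3 ≃ᵃ[ℝ] E3} {lam : Φ.F → ℝ} {z : Φ.F → E3}
  {θ : Φ.F → E3 → E3} {φ : Φ.F → E3 → ℝ} {r₀ : Φ.F → ℝ} {ρ1 ρ2 ρ3 ρ4 d : Φ.F → ℝ}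
  {L : Φ.F → Finset ℝ} [Nonempty (JJ Φ L)] {hG : GF Φ r₀ T f L} {bp : JJ Φ L → E3}
  {Nn : BM Φ X → Set ℝ} {q₀ : BM Φ X → E3} {ε : BM Φ X → ℝ} {bm : BM Φ X → E3}
  {hGB : GFB Φ r₀ T f L (lRc Φ X μ ρ1 ρ3 d) ε}
  {v0B v1B : ∀ c, BM Φ X → VxK T (KT T J X) c} {r : JJ Φ L → E3}
  {hLa : IsOpen La} {hC : Cores Φ T f κ1 κ2 X J0 J V ct Aj lam z θ φ}
  {n : Ti X → ℕ} {hn : ∀ c, 0 < n c}

/-- **THE TOP POINTS OF BOTH END WALLS** (`b = false` : low, `b = true` : high), in the outer state -/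
theorem wall_both (N : NumD δ κ0 R c0 κ2 μ κ1) (hI : InitR Φ T f g J0 ct' r₀)
    (hLm : ∀ c, ∀ t ∈ L c, μ ≤ t ∧ t ≤ 1 - μ)
    (B : BarOut Φ T f κ1 μ X J0 J V θ hG bp Nn ρ1 ρ2 ρ3 ρ4 d q₀ ε bm hGB v0B v1B) (m : BM Φ X)
    (b : Bool) :
    ∃ w ∈ (stB hGB bp bm).P, (stB hGB bp bm).lab w = Sum.inr m ∧ w ∈ Om ∧
      ρ3 m.co + 8 * d m.co ≤ ga Φ m.co (f w) ∧ ga Φ m.co (f w) ≤ ρ3 m.co + 10 * d m.co ∧
      (b = false → Φ.lev m.am (f w) ≤ 3 * μ / 8) ∧ (b = true → 1 - 3 * μ / 8 ≤ Φ.lev m.am (f w)) ∧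
      w ∈ GmT Om Φ f X μ ρ1 ρ3 d ε m ∧
      (∀ q, w ∈ P (T.H q) → q ∈ V m.co ∧ ∀ c, ¬ P (T.H q) ⊆ KJ T (J c)) ∧
      (slC hLa hC n hn).Out w ∧
      w ∈ (outK (slC hLa hC n hn).hH (slC hLa hC n hn).dis (stB hGB bp bm) (Sum.elim r bm)).P := by
  obtain ⟨n1, n2, n3, n4, n5, n6⟩ := N.base
  have hRm := rmA_of B
  have U := upp_m (hLa := hLa) (hC := hC) (n := n) (hn := hn) (r := r) hI n4 hLm B
  obtain ⟨lm, hlm, LOW, HIGH⟩ := B.lab m
  have hdm : d m.co ≤ μ ^ 2 / 512 := by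
    have := (B.rm m.co m.co_notMem).1
    nlinarith
  have hd := (hRm m.co m.co_notMem).d0
  have key : ∃ w ∈ (stB hGB bp bm).P, (stB hGB bp bm).lab w = Sum.inr m ∧ w ∈ Om ∧
      ρ3 m.co + 8 * d m.co ≤ ga Φ m.co (f w) ∧ ga Φ m.co (f w) ≤ ρ3 m.co + 10 * d m.co ∧
      (b = false → Φ.lev m.am (f w) ≤ 3 * μ / 8) ∧
      (b = true → 1 - 3 * μ / 8 ≤ Φ.lev m.am (f w)) := by
    cases b
    · obtain ⟨w, h1, h2, h3, h4, h5, h6, h7, -⟩ :=
        Wy_664.exists_wall hLa N.hδ N.hR hI.hm N.hμ (by linarith) le_rfl B.barF hGB B.lv m hdm hlm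
          LOW HIGH
      exact ⟨w, h1, h2, h3, h4, h5, fun _ => h7, fun h => absurd h (by decide)⟩
    · obtain ⟨w, h1, h2, h3, h4, h5, h6, h7, -⟩ :=
        exists_wall_hi hLa N.hδ N.hR hI.hm N.hμ (by linarith) le_rfl B.barF hGB B.lv m hdm hlm
          LOW HIGH
      exact ⟨w, h1, h2, h3, h4, h5, fun h => absurd h (by decide), fun _ => h7⟩
  obtain ⟨w, h1, h2, h3, h4, h5, h6, h7⟩ := key
  have hwT : w ∈ GmT Om Φ f X μ ρ1 ρ3 d ε m := mem_gmT hLa B h1 h2 (by linarith)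
  have hwB := gmT_sub hRm m hwT
  have htile : ∀ q, w ∈ P (T.H q) → q ∈ V m.co ∧ ∀ c, ¬ P (T.H q) ⊆ KJ T (J c) := fun q hq =>
    ⟨(gmB_tile B.barF B.lv hwB hq).1,
      gmB_out hLa hI.hm hC hRm B.barF B.lv ⟨w, hq, hwB⟩⟩
  obtain ⟨q, hq⟩ := T.cov w h3
  exact ⟨w, h1, h2, h3, h4, h5, h6, h7, hwT, htile,
    Sla.out_of_tile (fun c => (htile q hq).2 c.1) hq, (U.mem_out (cl_of h1 h2 hwB)).1⟩

end both

end Crest.Agent.R096.Whi_72
end

-- ▼ part R096/Nwi7_688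

/-!
# R096 (row 96), DOORS, NEWIN (helper688), part 7: **895's `NEWINM` from 778's `NE1M`**
-/

set_option autoImplicit false
set_option linter.unusedSectionVars false
set_option linter.unusedVariables false
set_option linter.style.longLine false

open Set Topology Filter Metric Module Relation
open scoped Classical

namespace Crest.Agent.R096.Nwi_688

open Crest.Agent.R096.Msh_715 Crest.Agent.R096.Coh_184 Crest.Agent.R096.Lab_184
  Crest.Agent.R096.Main_4 Crest.Agent.R096.Agl5_543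
  Crest.Agent.R096.Seq_213 Crest.Agent.R096.St_147 Crest.Agent.R096.Door_501
  Crest.Agent.R096.Twr_438 Crest.Agent.R096.Exa_560
  Crest.Agent.R096.Ess3_95 Crest.Agent.R096.Ess4_95 Crest.Agent.R096.Ac_117 Crest.Agent.R096.Lm_117
  Crest.Agent.R096.Dfi_539 Crest.Agent.R096.Dfi_471 Crest.Agent.R096.Dfo_539
  Crest.Agent.R096.Sla_184 Crest.Agent.R096.Gm_298
  Crest.Agent.R096.Brk1_582 Crest.Agent.R096.Brk2_582 Crest.Agent.R096.Brk3_582
  Crest.Agent.R096.Brk5_582 Crest.Agent.R096.Bsp_628 Crest.Agent.R096.Init_543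
  Crest.Agent.R096.Lv3_471 Crest.Agent.R096.Lv4_471 Crest.Agent.R096.Slt_471
  Crest.Agent.R096.Dib_438 Crest.Agent.R096.Rop_441 Crest.Agent.R096.Frk_441
  Crest.Agent.R096.Dff_539 Crest.Agent.R096.Frs_662 Crest.Agent.R096.Qdl_662
  Crest.Agent.R096.Cg_501 Crest.Agent.R096.SecW_892 Crest.Agent.R096.Sgd_298
  Crest.Agent.R096.Dfg_539 Crest.Agent.R096.Nmd1_698 Crest.Agent.R096.Civ_662
  Crest.Agent.R096.Lbc_334 Crest.Agent.R096.Bar_106 Crest.Agent.R096.Bgf_4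
  Crest.Agent.R096.Pbn_147 Crest.Agent.R096.Tro_147
  Crest.Agent.R096.Tro_914 Crest.Agent.R096.Cns_778 Crest.Agent.R096.Hop_895
open Crest.Agent.R096.Sgo_298 (RmA rout ActR)
open Crest.Agent.R096.Mbf_337 (KJ Tiny Cores Fine sb gau Star Levels Words)
open Crest.Agent.R096.SkC1_961 (E3 FoamD Hom3)
open Crest.Agent.R096.Frn_337 (Ti)
open Crest.Agent.R096.Ess7_95 (KT Sh)
open Crest.Agent.R096.Dia_316 (nbT)
open Crest.Agent.R096.Bmf_416 (coT coT_fin)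
open Crest.Agent.R096.Sla_184.Sla (hf vf old Fn Out F0)
open Crest.Agent.R096.Zwk_560 (ZnF zwalk_le zwalk_ge)

/-- **THE NEW POINTS OF THE END ZONE ARE IN `Y`**: 895's `NEWINM` from 778's `NE1M` -/
theorem newinm (HN : NE1M) : NEWINM := by
  intro δ κ0 R c0 κ2 κ3 κp μ κ1 Om La f g hLa Φ ι T X J0 J V ct A lam z θ φ M hC ct' r₀ hR hM h1 h2
    L _ hG D bp lam₀ v₀ v₁ r v0 v1 ρ1 ρ2 ρ3 ρ4 d q₀ ε bm hGB v0B v1B n hn Lv Tw MM _ hnC l0' hmf j0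
    hj0 hs far t Ph s₃ g1 g2 g3 DR pB j m0 k hm0 hk Y hbY hY hgi w hw hl hNE
  obtain ⟨n1, n2, n3, n4, n5, -⟩ := MM.N.base
  have hRm := Lbc_334.rma_bo MM.bar
  have hga := Lbc_334.ga_bo MM.bar
  have hrE : ∀ j : JJ Φ L, ∃ q, r j ∈ P (T.H q) ∧ (∀ c ∉ X, q ∉ V c) ∧
      ∀ (k : Init_543.QK (Pc Φ.F)) (s : ℝ), j.1 ∈ k.B → κ1 < s →
        q ∉ Act0 T (Pc Φ.F) (bc (F := Φ.F)) (RF Φ r₀) f (KorJ Φ J0) s k := by
    intro j
    obtain ⟨-, q, g1, -, g2, g3⟩ := MM.root j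
    exact ⟨q, g1, fun c _ => g2 c, g3⟩
  have hconn : ∀ j, (st0 hG bp).Conn j := fun j =>
    st0_conn hLa hR (fun i => ⟨(MM.init.base i).1, (MM.init.base i).2.1, (MM.init.base i).2.2.1⟩) j
  have htl := MM.brec.trl
  have hkB : j.1 ∈ k.B := (qin k _).1 hk
  obtain ⟨hws, p, hpK, hwp, x0, hx0, hlev⟩ := hNE
  choose jm hjm hfam hbar using MM.ord
  -- the end
  obtain ⟨σ, hσ⟩ : ∃ σ : Bool, (σ = false → Φ.lev m0.am (f x0) ≤ 3 * μ / 8) ∧
      (σ = true → 1 - 3 * μ / 8 ≤ Φ.lev m0.am (f x0)) := by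
    rcases hlev with h | h
    · exact ⟨false, fun _ => h, fun h => absurd h (by decide)⟩
    · exact ⟨true, fun h => absurd h (by decide), fun _ => h⟩
  have hr2 := root2 (h3 := fr3) (Tw := Tw) (l0 := l0') MM.din (Sum.inl j)
  have hbm := (DR.good j.1).far_mem (g2 j.1 (nL BM.am j) j rfl)
  obtain ⟨hb3, hbl3⟩ := DR.mem.2 ⟨hbm.1, hbm.2⟩
  refine Nwi_18.newinT (b := r j) (jm := jm) (Zf := ZnF T Φ f X (lRc Φ X μ ρ1 ρ3 d) ε (Dz μ σ))
    (Zs := fun m => {x | Dz μ σ (Φ.lev m.am (f x))}) DR (j := j) (k := k) ?_ hY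
    (fun _ _ => Sgo_298.inr_ActR) ?_ hr2.1 hr2.2 hb3 hbY hjm ?_ (fun m _ => MM.din.h1 (Sum.inr m))
    (fun m _ => (MM.din.root (Sum.inr m)).2) ?_ ?_ ?_ hw hl hws ?_ ?_
  · -- `hK`
    refine hK_m (tb := 7 * μ / 32) (σ' := μ / 4) (lm := 3 * μ / 16 + Cn δ R * κ1)
      (fun m => posM_m MM.N hRm MM.din MM.lo MM.tt MM.brec hga m) ?_ (by linarith) pB hkB
    linarith
  · -- the giants of `s₃`
    rintro F v ⟨c, hc⟩ hA hlv
    exact hgi v hA.1 hlv ⟨c, F, hc, hA.2⟩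
  · -- Ord
    intro m _ c i hi
    exact (hbar c m).1 i hi
  · -- late
    intro Y' hY' hG' c G m ham x y hx hxl hy hyl
    refine Lat_498.late_in (tb := 7 * μ / 32) (σ' := μ / 4) (lb := 3 * μ / 16 + Cn δ R * κ1)
      (by linarith) pB (by linarith) hkB (jm := jm c) (fun i hi _ => ?_)
      (fun i hi _ => (hfam c j.1 i hi).2) hY' (fun F v hF hA hlv => hG' F v ⟨c, hF⟩ hA hlv)
      (Or.inl ⟨G, jm c, le_rfl, hjm c, rfl⟩) hy hyl hx (fun p hpK hp hkor e he => ?_)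
    · rw [(hfam c j.1 i hi).1, (hfam c j.1 (i + 1) (by omega)).1]
    · have ham' : m.am = j.1 := ham
      rw [← ham'] at he
      exact posM_m MM.N hRm MM.din MM.lo MM.tt MM.brec hga m x hx.1 hxl p hpK hp hkor e he
  · intro m ham F hF hd y hy
    exact no1_m MM.N MM.bar htl (ham) hF hd hy
  · rintro m ham c e ⟨F, hF, -, w', hwe, hwF⟩ i hi y hy
    exact no2_m MM.N MM.bar MM.din MM.lo MM.tt htl MM.v0l MM.v1l ham hF hwe hwF
      (lt_of_lt_of_le hi (hjm c)) hy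
  · -- start
    intro m ham h hhl hhP hsame B hhB hB1 hB2
    have ham' : m.am = j.1 := ham
    have hmm : m.am = m0.am := ham'.trans hm0.symm
    by_cases hfr : ∃ x ∈ B, ∃ F, GiF F ∧ (s2 (slC hLa hC n hn) fr3 Tw l0').At F x
    · exact Or.inr hfr
    refine Or.inl ?_
    obtain ⟨p1, p2, -⟩ := pts3 (hKK := (Lay_316.lay_sla hLa hC n hn).core)
      (Dff_539.cutOut_of DR) hw
    obtain ⟨F, h3, h4, -⟩ := exists_faceK (h3 := fr3) (hH := (Lay_316.lay_sla hLa hC n hn).core)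
      (hdis := Sla.dis_KK) p1 p2 hwp hpK
    have hhp : h ∈ P ((slC hLa hC n hn).T3.H p) := (sideN_tile ((hsame F).1 h3) h4).1
    have hBc : ∀ F x, x ∈ B → (s2 (slC hLa hC n hn) fr3 Tw l0').At F x →
        (s2 (slC hLa hC n hn) fr3 Tw l0').lab x = Sum.inr m →
        (∀ y, (s2 (slC hLa hC n hn) fr3 Tw l0').At F y → ∀ i,
          (s2 (slC hLa hC n hn) fr3 Tw l0').lab y = Sum.inl i → i.1 ≠ m.am) →
        (s2 (slC hLa hC n hn) fr3 Tw l0').mu F x ∈ B := fun F x hx hA _ hno =>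
      hB2 F x hx hA fun y hy hyl => hno y hy j hyl ham'.symm
    have hBf : ∀ F x, x ∈ B → (s2 (slC hLa hC n hn) fr3 Tw l0').At F x →
        (s2 (slC hLa hC n hn) fr3 Tw l0').lab x = Sum.inr m →
        ∀ c : Ti X, Sum.inr c ∉ ((slC hLa hC n hn).mn fr3).side F := fun F x hx hA _ c hc =>
      hfr ⟨x, hx, F, ⟨c, hc⟩, hA⟩
    cases σ
    · obtain ⟨x, hx, hxo, hxl, hxz⟩ := Upd_112.updown_lo MM.N MM.bar MM.din MM.lo MM.tt MM.mon
        MM.monT MM.brec m hhP hhl hhp hx0 (by rw [hmm]; exact hσ.1 rfl) hhB hBc hBf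
      refine ⟨x, hx, hxo, ?_⟩
      show Φ.lev m.am (f x) ≤ 7 * μ / 16
      linarith
    · obtain ⟨x, hx, hxo, hxl, hxz⟩ := Upd_112.updown_hi MM.N MM.bar MM.din MM.lo MM.tt MM.mon
        MM.monT MM.brec m hhP hhl hhp hx0 (by rw [hmm]; exact hσ.2 rfl) hhB hBc hBf
      refine ⟨x, hx, hxo, ?_⟩
      show 1 - 7 * μ / 16 ≤ Φ.lev m.am (f x)
      linarith
  · -- conn
    intro m ham Y' hbY' hY' hG' B hB1 hB2 hB3 x hx hxl hxz hxB
    obtain ⟨y, y1, y2, -, -, -, y6, y7, y8, -, -, y11⟩ := Whi_72.wall_both (hLa := hLa) (hC := hC)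
      (n := n) (hn := hn) (r := r) MM.N hR MM.lev MM.bar m σ
    have hyB : y ∉ B := fun hyB => Tpn_72.top_notin_m MM.N MM.k2 MM.words MM.lev hconn MM.bar
      MM.din MM.lo MM.tt MM.brec hrE pB
      (HN δ κ0 R c0 κ2 κ3 κp μ κ1 Om La f g hLa Φ ι T X J0 J V ct A lam z θ φ M hC ct' r₀ hR
        hM h1 h2 L hG D bp lam₀ v₀ v₁ r v0 v1 ρ1 ρ2 ρ3 ρ4 d q₀ ε bm hGB v0B v1B n hn Lv Tw MM hnC
        l0' m) hkB ham hbY' hY' hB1 hB2 hB3 hyB y8
    refine ⟨y, y11, y2, ?_, hyB⟩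
    cases σ
    · have hxz' : Φ.lev m.am (f x) ≤ 7 * μ / 16 := hxz
      exact zwalk_le (t0 := 7 * μ / 16) hLa hR n4 (by linarith) MM.lev MM.bar (by linarith)
        (by linarith) hx.1 hxl hxz' y1 y2 (by linarith [y6 rfl])
    · have hxz' : 1 - 7 * μ / 16 ≤ Φ.lev m.am (f x) := hxz
      exact zwalk_ge (t0 := 1 - 7 * μ / 16) hLa hR n4 (by linarith) MM.lev MM.bar (by linarith)
        (by linarith) hx.1 hxl hxz' y1 y2 (by linarith [y7 rfl])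

end Crest.Agent.R096.Nwi_688
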