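import Crest.Agent.R096.Shp1_432
import Mathlib.Analysis.Convex.KreinMilman
import Crest.Agent.R096.Sq29_55
import Crest.Agent.R096.Gsc5_476
import Crest.Agent.R096.Ca21_855
import Crest.Agent.R096.Dps1_476
import Crest.Agent.R096.Onp4_622
import Crest.Agent.R096.Lnk2_726

-- ▼ part R096/Sts1_55
section

/-!
# R096 (row 96), helper55: shapes of the cells of the STAR of a good tile, part 1: finitely many
affine maps between two polytopes; comparable scales; the finite list of the star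
-/

set_option autoImplicit false
set_option linter.unusedSectionVars false
set_option linter.style.longLine false

open Set Metric Topology Filter

namespace Crest.Agent.R096.Sts_55

open Crest.Agent.R096.Msh_715 Crest.Agent.R096.Mal_874 Crest.Agent.R096.Cut_874
open Crest.Agent.R096.Msh_810 Crest.Agent.R096.Gsm_432 Crest.Agent.R096.Shp_432

universe u v

/-! ### finitely many affine maps -/

section aff

variable {V W : Type*} [NormedAddCommGroup V] [NormedSpace ℝ V] [NormedAddCommGroup W]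
  [NormedSpace ℝ W]

/-- an extreme point of a polytope is determined by its active inequalities -/
lemma ext_inj {H : Finset ((V →L[ℝ] ℝ) × ℝ)} {x y : V} (hx : x ∈ (P H).extremePoints ℝ)
    (hy : y ∈ P H) (h : ∀ h ∈ H, h.1 x = h.2 → h.1 y = h.2) : y = x := by
  have hx' := mem_extremePoints.1 hx
  have h1 : ∀ᶠ ε in 𝓝[>] (0:ℝ), ∀ g ∈ H, g.1 (x + ε • (x - y)) ≤ g.2 := by
    rw [Finset.eventually_all]
    intro g hg
    by_cases he : g.1 x = g.2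
    · refine Eventually.of_forall fun ε => ?_
      rw [map_add, map_smul, map_sub, he, h g hg he]
      simp
    · have h2 : g.1 x < g.2 := lt_of_le_of_ne (hx'.1 g hg) he
      have h3 : Continuous fun ε : ℝ => g.1 (x + ε • (x - y)) := by fun_prop
      have h4 : ∀ᶠ ε in 𝓝 (0:ℝ), g.1 (x + ε • (x - y)) < g.2 := by
        have h5 := h3.tendsto 0
        simp only [zero_smul, add_zero] at h5
        exact h5.eventually (gt_mem_nhds h2)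
      exact (h4.filter_mono nhdsWithin_le_nhds).mono fun ε hε => hε.le
  obtain ⟨ε, hε, h0⟩ := (h1.and self_mem_nhdsWithin).exists
  have h0' : (0:ℝ) < ε := h0
  have hz : x + ε • (x - y) ∈ P H := hε
  refine (hx'.2 _ hz _ hy ⟨1 / (1 + ε), ε / (1 + ε), by positivity, by positivity, by field_simp,
    ?_⟩).2
  have e1 : (1 / (1 + ε)) • (x + ε • (x - y)) + (ε / (1 + ε)) • y =
      ((1 / (1 + ε)) * (1 + ε)) • x := by
    rw [smul_add, smul_smul, mul_add, mul_one, add_smul, smul_sub]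
    have e2 : 1 / (1 + ε) * ε = ε / (1 + ε) := by ring
    rw [e2]
    abel
  rw [e1, one_div, inv_mul_cancel₀ (by positivity), one_smul]

lemma finite_ext (H : Finset ((V →L[ℝ] ℝ) × ℝ)) : ((P H).extremePoints ℝ).Finite := by
  classical
  refine Set.Finite.of_finite_image (f := fun x : V => H.filter fun h => h.1 x = h.2)
    (((H.powerset : Finset _).finite_toSet).subset ?_) ?_
  · rintro _ ⟨x, -, rfl⟩
    exact Finset.mem_coe.2 (Finset.mem_powerset.2 (Finset.filter_subset _ _))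
  · intro x hx y hy hxy
    refine (ext_inj hx hy.1 fun h hh he => ?_).symm
    have h1 : h ∈ H.filter fun h => h.1 x = h.2 := Finset.mem_filter.2 ⟨hh, he⟩
    have h2 : h ∈ H.filter fun h => h.1 y = h.2 := by
      have h3 : (H.filter fun h => h.1 x = h.2) = H.filter fun h => h.1 y = h.2 := hxy
      rwa [h3] at h1
    exact (Finset.mem_filter.1 h2).2

lemma ext_image (B : V ≃ᵃ[ℝ] W) (S : Set V) :
    (B '' S).extremePoints ℝ = B '' (S.extremePoints ℝ) := by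
  have hseg : ∀ (B : V ≃ᵃ[ℝ] W) (a b : V), B '' openSegment ℝ a b = openSegment ℝ (B a) (B b) :=
    fun B a b => image_openSegment ℝ B.toAffineMap a b
  ext w
  constructor
  · intro hw
    rw [mem_extremePoints] at hw
    obtain ⟨⟨x, hx, rfl⟩, hw2⟩ := hw
    refine ⟨x, mem_extremePoints.2 ⟨hx, fun x1 h1 x2 h2 h3 => ?_⟩, rfl⟩
    have h4 := hw2 (B x1) ⟨x1, h1, rfl⟩ (B x2) ⟨x2, h2, rfl⟩ (by
      rw [← hseg]; exact ⟨x, h3, rfl⟩)
    exact ⟨B.injective h4.1, B.injective h4.2⟩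
  · rintro ⟨x, hx, rfl⟩
    rw [mem_extremePoints] at hx ⊢
    refine ⟨⟨x, hx.1, rfl⟩, ?_⟩
    rintro _ ⟨x1, h1, rfl⟩ _ ⟨x2, h2, rfl⟩ h3
    rw [← hseg] at h3
    obtain ⟨x', hx', e⟩ := h3
    obtain rfl := B.injective e
    obtain ⟨h4, h5⟩ := hx.2 x1 h1 x2 h2 hx'
    rw [h4, h5]; exact ⟨rfl, rfl⟩

/-- a full polytope -/
structure Poly (S : Set V) : Prop where
  cpt : IsCompact S
  cvx : Convex ℝ S
  int : (interior S).Nonempty
  fin : (S.extremePoints ℝ).Finite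

/-- **there are finitely many affine maps between two polytopes** -/
lemma fin_aff [FiniteDimensional ℝ V] {S S' : Set V} (hS : Poly S) : {A : V ≃ᵃ[ℝ] V | A '' S = S'}.Finite := by
  rcases Set.eq_empty_or_nonempty {A : V ≃ᵃ[ℝ] V | A '' S = S'} with h0 | ⟨A0, hA0⟩
  · rw [h0]; exact finite_empty
  have hA0' : A0 '' S = S' := hA0
  have hF := hS.fin
  have : Finite (S.extremePoints ℝ) := hF
  refine Set.Finite.of_finite_image (f := fun A : V ≃ᵃ[ℝ] V => fun x : S.extremePoints ℝ => A x)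
    ((Set.Finite.pi' (t := fun _ : S.extremePoints ℝ => A0 '' S.extremePoints ℝ)
      fun _ => hF.image _).subset ?_) ?_
  · rintro _ ⟨A, hA, rfl⟩ x
    have hA' : A '' S = S' := hA
    have h1 : A x ∈ A '' S.extremePoints ℝ := ⟨x, x.2, rfl⟩
    rwa [← ext_image, hA', ← hA0', ext_image] at h1
  · intro A hA A' hA' h
    have h1 : ∀ x ∈ S.extremePoints ℝ, A x = A' x := fun x hx => congrFun h ⟨x, hx⟩
    have hcv : Convex ℝ {x | A x = A' x} := by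
      intro x hx y hy a b ha hb hab
      have hx' : A x = A' x := hx
      have hy' : A y = A' y := hy
      have e : ∀ B : V ≃ᵃ[ℝ] V, B (a • x + b • y) = a • B x + b • B y := fun B =>
        Convex.combo_affine_apply (f := B.toAffineMap) hab
      show A (a • x + b • y) = A' (a • x + b • y)
      rw [e, e, hx', hy']
    have hcl : IsClosed {x | A x = A' x} := by
      have c1 : Continuous A := (A.toHomeomorphOfFiniteDimensional).continuous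
      have c2 : Continuous A' := (A'.toHomeomorphOfFiniteDimensional).continuous
      exact isClosed_eq c1 c2
    have hsub : S ⊆ {x | A x = A' x} := by
      rw [← closure_convexHull_extremePoints hS.cpt hS.cvx]
      exact closure_minimal (convexHull_min h1 hcv) hcl
    obtain ⟨x0, hx0⟩ := hS.int
    refine AffineEquiv.ext fun x => ?_
    have h2 : ∀ᶠ t in 𝓝 (0:ℝ), AffineMap.lineMap x0 x t ∈ interior S := by
      have h3 : Continuous fun t : ℝ => (AffineMap.lineMap x0 x t : V) := AffineMap.lineMap_continuous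
      have h4 := h3.tendsto 0
      rw [AffineMap.lineMap_apply_zero] at h4
      exact h4.eventually (isOpen_interior.mem_nhds hx0)
    obtain ⟨t, ht1, ht2⟩ := ((h2.filter_mono nhdsWithin_le_nhds).and
      (self_mem_nhdsWithin (s := {(0:ℝ)}ᶜ))).exists
    have ht0 : t ≠ 0 := ht2
    have h5 : A (AffineMap.lineMap x0 x t) = A' (AffineMap.lineMap x0 x t) :=
      hsub (interior_subset ht1)
    have h6 : A x0 = A' x0 := hsub (interior_subset hx0)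
    rw [AffineEquiv.apply_lineMap, AffineEquiv.apply_lineMap, h6, AffineMap.lineMap_apply,
      AffineMap.lineMap_apply] at h5
    have h7 : t • (A x - A' x0) = t • (A' x - A' x0) := by
      have := vadd_right_cancel _ h5
      simpa using this
    have h8 := smul_right_injective V ht0 h7
    exact sub_left_injective h8

end aff


/-! ### the star -/

section star

variable {n : ℕ} {E : Type u} [NormedAddCommGroup E] [NormedSpace ℝ E]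

/-- membership in the list with an explicit base point -/
lemma shape_mem {Om : Set E} {ι : Type v} {T : Tiling Om ι} {χ : E ≃ᵃ[ℝ] (Fin n → ℝ)} {s : ℝ}
    (hs : 0 < s) {𝒩 : Finset (Fin n → ℝ)} {d : ℕ} (hd : 0 < d)
    (h𝒩 : ∀ ν ∈ 𝒩, ∀ m, ∃ c : ℤ, ν m = c / d) {R : ℝ} {x x0 : E}
    (hgood : ∀ i ∈ T.at_ x, ∀ h ∈ T.H i, ∃ ν, ∃ t : ℤ, GF χ s 𝒩 d h ν t) {i₀ : ι}
    (hi₀ : i₀ ∈ T.at_ x) (hR : ∀ y ∈ P (T.H i₀), ∀ m, |χ y m - χ x m| ≤ R)
    (h0 : ∀ m, |χ x m - χ x0 m| ≤ R) :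
    (χ.trans (trz fun m => ⌊χ x0 m⌋)) '' T.cc x ∈ shpT 𝒩 d R := by
  obtain ⟨S, hS, e⟩ := cc_shape' (x := x) hs hd h𝒩 (R := R) (le_bnd (R := R)) hgood hi₀ hR
  refine ⟨S, hS, fun m => ⌊χ x m⌋ - ⌊χ x0 m⌋, ?_, ?_⟩
  · intro m
    have h1 := Int.floor_le (χ x m)
    have h2 := Int.lt_floor_add_one (χ x m)
    have h3 := Int.floor_le (χ x0 m)
    have h4 := Int.lt_floor_add_one (χ x0 m)
    have h5 := abs_le.1 (h0 m)
    have h6 := le_abs_self R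
    push_cast
    rw [abs_le]
    constructor <;> linarith
  · ext u
    simp only [Set.mem_image, Set.mem_ofPred_eq]
    constructor
    · rintro ⟨y, hy, rfl⟩
      rw [e] at hy
      have h1 : (fun m => (χ.trans (trz fun m => ⌊χ x0 m⌋)) y m - ((⌊χ x m⌋ - ⌊χ x0 m⌋ : ℤ) : ℝ)) =
          fun m => χ y m - (⌊χ x m⌋ : ℝ) := by
        funext m
        rw [AffineEquiv.trans_apply, trz_apply]
        push_cast
        ring
      rw [h1]
      exact hy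
    · intro hu
      refine ⟨(χ.trans (trz fun m => ⌊χ x0 m⌋)).symm u, ?_, by simp⟩
      rw [e]
      simp only [Set.mem_ofPred_eq]
      have h1 : (fun m => χ ((χ.trans (trz fun m => ⌊χ x0 m⌋)).symm u) m - (⌊χ x m⌋ : ℝ)) =
          fun m => u m - ((⌊χ x m⌋ - ⌊χ x0 m⌋ : ℤ) : ℝ) := by
        funext m
        have h2 : (χ.trans (trz fun m => ⌊χ x0 m⌋)) ((χ.trans (trz fun m => ⌊χ x0 m⌋)).symm u) m
            = u m := by simp
        rw [AffineEquiv.trans_apply, trz_apply] at h2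
        push_cast
        linarith
      rw [h1]
      exact hu

lemma chi_diff (φ : E ≃L[ℝ] (Fin n → ℝ)) (a : Fin n → ℝ) (k : ℕ) (x y : E) (m : Fin n) :
    chi φ a k y m - chi φ a k x m = 2 ^ k * φ (y - x) m := by
  rw [chi_apply, chi_apply, map_sub, Pi.sub_apply]; ring

/-- the size of a set in another frame -/
lemma size_le {φ ψ : E ≃L[ℝ] (Fin n → ℝ)} {a b : Fin n → ℝ} {k l : ℕ} {L1 L2 R : ℝ} (hL1 : 0 ≤ L1)
    (hL2 : 0 ≤ L2) (hR : 0 ≤ R) (h1 : ∀ v, ‖φ v‖ ≤ L1 * ‖v‖) (h2 : ∀ v, ‖v‖ ≤ L2 * ‖ψ v‖) {x y : E}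
    (h : ∀ m, |chi ψ b l y m - chi ψ b l x m| ≤ R) (m : Fin n) :
    |chi φ a k y m - chi φ a k x m| ≤ 2 ^ k * (L1 * (L2 * (R / 2 ^ l))) := by
  have hp : (0:ℝ) < 2 ^ l := by positivity
  have h3 : ‖ψ (y - x)‖ ≤ R / 2 ^ l := by
    rw [pi_norm_le_iff_of_nonneg (by positivity)]
    intro m
    rw [le_div_iff₀ hp, Real.norm_eq_abs, ← abs_of_pos hp, ← abs_mul, mul_comm, ← chi_diff ψ b]
    exact h m
  rw [chi_diff, abs_mul, abs_of_pos (by positivity : (0:ℝ) < 2 ^ k)]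
  refine mul_le_mul_of_nonneg_left ?_ (by positivity)
  calc |φ (y - x) m| ≤ ‖φ (y - x)‖ := norm_le_pi_norm (φ (y - x)) m
    _ ≤ L1 * ‖y - x‖ := h1 _
    _ ≤ L1 * (L2 * ‖ψ (y - x)‖) := by gcongr; exact h2 _
    _ ≤ L1 * (L2 * (R / 2 ^ l)) := by gcongr

/-- a tile is a full polytope in every frame -/
lemma poly_tile [FiniteDimensional ℝ E] {Om : Set E} {ι : Type v} (T : Tiling Om ι) (l : ι)
    (B : E ≃ᵃ[ℝ] (Fin n → ℝ)) : Poly (B '' P (T.H l)) where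
  cpt := (T.cpt l).image (AffineEquiv.toHomeomorphOfFiniteDimensional B).continuous
  cvx := (convex_P _).affine_image B.toAffineMap
  int := by
    obtain ⟨x, hx⟩ := T.ne l
    have h1 : x ∈ interior (P (T.H l)) := by
      have h0 : I (T.H l) ⊆ interior (P (T.H l)) :=
        interior_maximal (I_sub_P _) (isOpen_I _)
      exact h0 hx
    refine ⟨B x, ?_⟩
    have h2 := (AffineEquiv.toHomeomorphOfFiniteDimensional B).image_interior (P (T.H l))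
    have h3 : B '' interior (P (T.H l)) = interior (B '' P (T.H l)) := h2
    rw [← h3]
    exact ⟨x, h1, rfl⟩
  fin := by
    rw [ext_image]
    exact (finite_ext _).image _

variable [NeZero n] [FiniteDimensional ℝ E]

/-- a polytope of a finite list is not small -/
lemma exists_two {Om : Set E} {ι : Type v} (T : Tiling Om ι) (l : ι)
    (B : E ≃ᵃ[ℝ] (Fin n → ℝ)) : 0 < diam (B '' P (T.H l)) := by
  have hP := poly_tile T l B
  obtain ⟨x, hx⟩ := hP.int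
  have h1 : ∀ᶠ t in 𝓝 (0:ℝ), x + t • (fun _ : Fin n => (1:ℝ)) ∈ interior (B '' P (T.H l)) := by
    have h3 : Continuous fun t : ℝ => x + t • (fun _ : Fin n => (1:ℝ)) := by fun_prop
    have h4 := h3.tendsto 0
    rw [zero_smul, add_zero] at h4
    exact h4.eventually (isOpen_interior.mem_nhds hx)
  obtain ⟨t, ht1, ht2⟩ := ((h1.filter_mono nhdsWithin_le_nhds).and
    (self_mem_nhdsWithin (s := {(0:ℝ)}ᶜ))).exists
  have ht0 : t ≠ 0 := ht2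
  have h2 := dist_le_diam_of_mem hP.cpt.isBounded (interior_subset ht1) (interior_subset hx)
  refine lt_of_lt_of_le ?_ h2
  rw [dist_pos]
  intro h3
  have h4 := congrFun h3 0
  simp only [Pi.add_apply, Pi.smul_apply, smul_eq_mul, mul_one] at h4
  exact ht0 (by linarith)

/-- **comparable scales and the finite list of the star of a good tile** -/
theorem star_list (E : Type u) [NormedAddCommGroup E] [NormedSpace ℝ E] [FiniteDimensional ℝ E]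
    {Ls : Set (Finset (Fin n → ℝ) × ℕ)} (hLs : Ls.Finite) (hpos : ∀ p ∈ Ls, 0 < p.2)
    (hrat : ∀ p ∈ Ls, ∀ ν ∈ p.1, ∀ m, ∃ c : ℤ, ν m = c / p.2) (R : ℝ) {L1 L2 : ℝ} (hL1 : 0 ≤ L1)
    (hL2 : 0 ≤ L2) :
    ∃ (K : ℝ) (𝓕 : Set (Set (Fin n → ℝ))), 0 < K ∧ 𝓕.Finite ∧
      ∀ {Om : Set E} {ι : Type v} (T : Tiling Om ι) (κ : ι → ℕ) (ψ : ι → E ≃L[ℝ] (Fin n → ℝ))
        (a' : ι → Fin n → ℝ) (x0 : ι → E), (∀ t, x0 t ∈ I (T.H t)) → ∀ G : Set ι,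
        (∀ t ∈ G, ∃ p ∈ Ls, Good T t (chi (ψ t) (a' t) (κ t)) (κ t) p.1 p.2 R) →
        (∀ t ∈ G, ∀ v, ‖ψ t v‖ ≤ L1 * ‖v‖) → (∀ t ∈ G, ∀ v, ‖v‖ ≤ L2 * ‖ψ t v‖) →
          (∀ t ∈ G, ∀ l ∈ G, (P (T.H l) ∩ P (T.H t)).Nonempty → (2:ℝ) ^ κ l ≤ K * 2 ^ κ t) ∧
          ∀ t ∈ G, ∀ l ∈ G, (P (T.H l) ∩ P (T.H t)).Nonempty → ∀ y ∈ P (T.H l),
            ((chi (ψ t) (a' t) (κ t)).trans (trz fun m => ⌊chi (ψ t) (a' t) (κ t) (x0 t) m⌋)) ''
              T.cc y ∈ 𝓕 := by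
  obtain ⟨μ, hμ, hlow⟩ := exists_diam_lb (shL_finite hLs 1)
  set R0 : ℝ := |R| with hR0
  have hR0' : 0 ≤ R0 := abs_nonneg R
  set C : ℝ := L1 * (L2 * R0) with hC
  have hC0 : 0 ≤ C := by positivity
  set μ1 : ℝ := min 1 μ with hμ1
  have hμ1' : 0 < μ1 := lt_min one_pos hμ
  set K : ℝ := (C + 1) / μ1 with hK
  have hK0 : 0 < K := by positivity
  set D : ℝ := K * C + R0 with hD
  set 𝓐 : Set ((Fin n → ℝ) ≃ᵃ[ℝ] (Fin n → ℝ)) :=
    ⋃ S ∈ {S ∈ shL Ls R0 | Poly S}, ⋃ S' ∈ shL Ls D, {A | A '' S = S'} with h𝓐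
  have h𝓐f : 𝓐.Finite := ((shL_finite hLs R0).subset (sep_subset _ _)).biUnion fun S hS =>
    (shL_finite hLs D).biUnion fun S' _ => fin_aff hS.2
  refine ⟨K, Set.image2 (fun (A : (Fin n → ℝ) ≃ᵃ[ℝ] (Fin n → ℝ)) (F : Set (Fin n → ℝ)) => A '' F) 𝓐
    (shL Ls R0), hK0, Set.Finite.image2 _ h𝓐f (shL_finite hLs R0), ?_⟩
  intro Om ι T κ ψ a' x0 hx0 G hG0 h1 h2
  choose! p hp hG using hG0
  set χ : ι → E ≃ᵃ[ℝ] (Fin n → ℝ) := fun t => chi (ψ t) (a' t) (κ t) with hχ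
  -- own size
  have hsz : ∀ t ∈ G, ∀ x ∈ P (T.H t), ∀ y ∈ P (T.H t), ∀ m, |χ t y m - χ t x m| ≤ R0 :=
    fun t ht x hx y hy m => ((hG t ht).sz x hx y hy m).trans (le_abs_self R)
  -- the size in another frame
  have hsz2 : ∀ t ∈ G, ∀ l ∈ G, ∀ x ∈ P (T.H l), ∀ y ∈ P (T.H l), ∀ m,
      |χ t y m - χ t x m| ≤ 2 ^ κ t * (L1 * (L2 * (R0 / 2 ^ κ l))) :=
    fun t ht l hl x hx y hy m =>
      size_le hL1 hL2 hR0' (h1 t ht) (h2 l hl) (hsz l hl x hx y hy) m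
  have hCe : ∀ t l, (2:ℝ) ^ κ t * (L1 * (L2 * (R0 / 2 ^ κ l))) = 2 ^ κ t / 2 ^ κ l * C := by
    intro t l; rw [hC]; ring
  -- scales
  have hsc : ∀ t ∈ G, ∀ l ∈ G, (P (T.H l) ∩ P (T.H t)).Nonempty →
      (2:ℝ) ^ κ l ≤ K * 2 ^ κ t := by
    intro t ht l hl htl
    have hp1 : (0:ℝ) < 2 ^ κ l := by positivity
    have hp2 : (0:ℝ) < 2 ^ κ t := by positivity
    have key : μ1 ≤ 2 ^ κ t / 2 ^ κ l * C := by
      by_contra hcon
      push Not at hcon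
      have hs1 : ∀ x ∈ P (T.H l), ∀ y ∈ P (T.H l), ∀ m, |χ t y m - χ t x m| ≤ 1 := by
        intro x hx y hy m
        have := hsz2 t ht l hl x hx y hy m
        rw [hCe] at this
        exact this.trans (hcon.le.trans (min_le_left _ _))
      have hmem : ((χ t).trans (trz fun m => ⌊χ t (x0 l) m⌋)) '' T.cc (x0 l) ∈
          shpT (p t).1 (p t).2 1 := by
        refine shape_mem (T := T) (s := 2 ^ κ t) hp2 (hpos _ (hp t ht)) (hrat _ (hp t ht)) ?_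
          (i₀ := l) (I_sub_P _ (hx0 l)) (hs1 _ (I_sub_P _ (hx0 l))) fun m => by simp
        intro i hi h hh
        rw [T.at_eq_singleton (hx0 l), Set.mem_singleton_iff] at hi
        subst hi
        exact (hG t ht).gf i htl h hh
      rw [T.cc_eq_tile (hx0 l)] at hmem
      have h3 := hlow _ (mem_iUnion₂.2 ⟨p t, hp t ht, hmem⟩) (exists_two T l _)
      have h4 : diam (((χ t).trans (trz fun m => ⌊χ t (x0 l) m⌋)) '' P (T.H l)) ≤
          2 ^ κ t / 2 ^ κ l * C := by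
        refine diam_le_of_forall_dist_le (by positivity) ?_
        rintro _ ⟨x, hx, rfl⟩ _ ⟨y, hy, rfl⟩
        rw [dist_pi_le_iff (by positivity)]
        intro m
        rw [Real.dist_eq, AffineEquiv.trans_apply, AffineEquiv.trans_apply, trz_apply, trz_apply,
          sub_sub_sub_cancel_right, ← hCe]
        exact hsz2 t ht l hl y hy x hx m
      exact absurd ((h3.trans h4).trans_lt hcon) (not_lt.2 (min_le_right _ _))
    have h5 : μ1 * 2 ^ κ l ≤ 2 ^ κ t * C := by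
      rw [div_mul_eq_mul_div, le_div_iff₀ hp1] at key
      exact key
    rw [hK, div_mul_eq_mul_div, le_div_iff₀ hμ1', mul_comm]
    nlinarith
  refine ⟨hsc, fun t ht l hl htl y hy => ?_⟩
  set B : ι → E ≃ᵃ[ℝ] (Fin n → ℝ) := fun t => (χ t).trans (trz fun m => ⌊χ t (x0 t) m⌋) with hB
  show B t '' T.cc y ∈ _
  -- own cells
  have hown : ∀ t ∈ G, ∀ y ∈ P (T.H t), B t '' T.cc y ∈ shL Ls R0 := by
    intro t ht y hy
    refine mem_iUnion₂.2 ⟨p t, hp t ht, shape_mem (T := T) (s := 2 ^ κ t) (by positivity)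
      (hpos _ (hp t ht)) (hrat _ (hp t ht)) (fun i hi h hh => (hG t ht).gf i ⟨y, hi, hy⟩ h hh)
      (i₀ := t) hy (hsz t ht y hy) (hsz t ht _ (I_sub_P _ (hx0 t)) y hy)⟩
  -- the neighbour in the frame of the tile
  have hnb : B t '' P (T.H l) ∈ shL Ls D := by
    obtain ⟨w, hwl, hwt⟩ := htl
    have htl' : (P (T.H t) ∩ P (T.H l)).Nonempty := ⟨w, hwt, hwl⟩
    have h3 : (2:ℝ) ^ κ t / 2 ^ κ l * C ≤ K * C := by
      refine mul_le_mul_of_nonneg_right ?_ hC0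
      rw [div_le_iff₀ (by positivity)]
      exact hsc l hl t ht htl'
    have h4 : ∀ x ∈ P (T.H l), ∀ y ∈ P (T.H l), ∀ m, |χ t y m - χ t x m| ≤ K * C := by
      intro x hx y hy m
      have := hsz2 t ht l hl x hx y hy m
      rw [hCe] at this
      exact this.trans h3
    have h5 := shape_mem (T := T) (χ := χ t) (s := 2 ^ κ t) (x := x0 l) (x0 := x0 t) (R := D)
      (by positivity) (hpos _ (hp t ht)) (hrat _ (hp t ht)) (fun i hi h hh => by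
        rw [T.at_eq_singleton (hx0 l), Set.mem_singleton_iff] at hi
        subst hi
        exact (hG t ht).gf i ⟨w, hwl, hwt⟩ h hh) (i₀ := l) (I_sub_P _ (hx0 l))
      (fun y hy m => (h4 _ (I_sub_P _ (hx0 l)) y hy m).trans (by linarith)) (fun m => by
        have h6 := h4 w hwl _ (I_sub_P _ (hx0 l)) m
        have h7 := hsz t ht _ (I_sub_P _ (hx0 t)) w hwt m
        calc |χ t (x0 l) m - χ t (x0 t) m|
            = |(χ t (x0 l) m - χ t w m) + (χ t w m - χ t (x0 t) m)| := by ring_nf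
          _ ≤ |χ t (x0 l) m - χ t w m| + |χ t w m - χ t (x0 t) m| := abs_add_le _ _
          _ ≤ K * C + R0 := add_le_add h6 h7)
    rw [T.cc_eq_tile (hx0 l)] at h5
    exact mem_iUnion₂.2 ⟨p t, hp t ht, h5⟩
  have hPl := hown l hl (x0 l) (I_sub_P _ (hx0 l))
  rw [T.cc_eq_tile (hx0 l)] at hPl
  have himg : ∀ S : Set E, ((B l).symm.trans (B t)) '' (B l '' S) = B t '' S := by
    intro S
    have e : ∀ x, ((B l).symm.trans (B t)) (B l x) = B t x := fun x => by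
      show B t ((B l).symm (B l x)) = B t x
      rw [AffineEquiv.symm_apply_apply]
    rw [Set.image_image]
    exact Set.image_congr fun x _ => e x
  refine ⟨(B l).symm.trans (B t), ?_, B l '' T.cc y, hown l hl y hy, himg _⟩
  refine mem_iUnion₂.2 ⟨B l '' P (T.H l), ⟨hPl, poly_tile T l (B l)⟩, mem_iUnion₂.2
    ⟨B t '' P (T.H l), hnb, himg _⟩⟩

end star

end Crest.Agent.R096.Sts_55
end

-- ▼ part R096/Sq30_55
section

/-!
# R096 (row 96), SOBSQ, part 30 (helper55): `Shp2` and the length of the edges from a finite list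
-/

set_option autoImplicit false
set_option linter.unusedSectionVars false

open Set Metric Filter Topology

namespace Crest.Agent.R096.Sq_55

open Crest.Agent.R096.Ce_537
open Crest.Agent.R096.Sqt_143 (map_line)
open Crest.Agent.R096.Msh_715 (P I Tiling I_sub_P isOpen_I isClosed_P convex_P)
open scoped NNReal

/-- the frame from real inequalities -/
lemma Frm.of_norm {Λ R : ℝ≥0} {B : E3 ≃ᵃ[ℝ] E3} (h1 : ∀ v, ‖B.linear v‖ ≤ (Λ / R : ℝ≥0) * ‖v‖)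
    (h2 : ∀ v, ‖v‖ ≤ (Λ * R : ℝ≥0) * ‖B.linear v‖) : Frm Λ R B where
  lip := LipschitzWith.of_dist_le_mul fun x y => by
    rw [dist_eq_norm, dist_eq_norm]
    have e : B x - B y = B.linear (x - y) := by
      have := B.toAffineMap.linearMap_vsub x y
      simpa using this.symm
    rw [e]; exact h1 _
  lip' := LipschitzWith.of_dist_le_mul fun x y => by
    rw [dist_eq_norm, dist_eq_norm]
    obtain ⟨x, rfl⟩ := B.surjective x
    obtain ⟨y, rfl⟩ := B.surjective y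
    rw [AffineEquiv.symm_apply_apply, AffineEquiv.symm_apply_apply]
    have e : B x - B y = B.linear (x - y) := by
      have := B.toAffineMap.linearMap_vsub x y
      simpa using this.symm
    rw [e]; exact h2 _

/-- **`Shp2` from a finite list of shapes** -/
theorem shp2_of_list {𝓕 : Set (Set E3)} (h𝓕 : 𝓕.Finite) : ∃ v₀ : ℝ≥0, ∀ v, v₀ ≤ v →
    ∀ {Om : Set E3} {ι : Type*} (T : Tiling Om ι) (i : ι) (B : E3 ≃ᵃ[ℝ] E3) (R : ℝ≥0), 0 < R →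
      Frm v R B → (∀ y, StarT T i y → B '' T.cc y ∈ 𝓕) → Shp2 T i B R v := by
  obtain ⟨v1, h1⟩ := exists_muK_le h𝓕
  obtain ⟨v2, h2⟩ := exists_muP_le h𝓕
  refine ⟨max v1 v2, fun v hv Om ι T i B R hR hB hst => ?_⟩
  exact {
    pos := hR
    frm := hB
    sh := fun x hx => h1 v ((le_max_left _ _).trans hv) _ (hst x (starT_self hx))
    st := fun y z hy hz => h2 v ((le_max_right _ _).trans hv) _ (hst y hy) _
      (hst z (starT_self hz)) }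



end Crest.Agent.R096.Sq_55
end

-- ▼ part R096/Sts2_55
section

/-!
# R096 (row 96), helper55: **`exists_shp_T`** = [SH] of 622 #12068: the shape numbers of all tiles of
`h.T a` in three levels (`Shp2`, frames, sizes `2 ^ (-κt)`, ratios of neighbours)
-/

set_option autoImplicit false
set_option linter.unusedSectionVars false
set_option linter.style.longLine false

open Set Metric Topology Filter

namespace Crest.Agent.R096.Sts_55

open Crest.AnalysisR.VecCalc3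
open Crest.Agent.R096.Msh_715 Crest.Agent.R096.Mal_874 Crest.Agent.R096.Cut_874
open Crest.Agent.R096.Msh_810 Crest.Agent.R096.Gsm_432 Crest.Agent.R096.Shp_432
open Crest.Agent.R096.Msb_432 (meshS)
open Crest.Agent.R096.Efi_296 (Te)
open Crest.Agent.R096.Sq_55 (E3 Frm Shp2 StarT shp2_of_list w2)
open Crest.Agent.R96.En10_199 (P3)
open Crest.Agent.R096.Osc_400 (norm_P3_le)
open Crest.Agent.R096.Ca_855 (MIn norm_P3_symm_le cl1_nbr)
open Crest.Agent.R096.Gsc_476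
open Crest.Agent.R096.Dps_476 (deepJ)
open Crest.Agent.R96.Eld_538 (Cl1)
open scoped NNReal

noncomputable section

/-- the frame of a tile of a tiling of a part of `R3`, for the transported tiling -/
def Bf (ψ : R3 ≃L[ℝ] (Fin 3 → ℝ)) (a' : Fin 3 → ℝ) (κ : ℕ) (x0 : R3) : E3 ≃ᵃ[ℝ] E3 :=
  P3.toLinearEquiv.toAffineEquiv.trans
    ((chi ψ a' κ).trans (trz fun m => ⌊chi ψ a' κ x0 m⌋))

lemma Bf_apply (ψ : R3 ≃L[ℝ] (Fin 3 → ℝ)) (a' : Fin 3 → ℝ) (κ : ℕ) (x0 : R3) (y : E3) :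
    Bf ψ a' κ x0 y = ((chi ψ a' κ).trans (trz fun m => ⌊chi ψ a' κ x0 m⌋)) (P3 y) := rfl

lemma norm_Bf (ψ : R3 ≃L[ℝ] (Fin 3 → ℝ)) (a' : Fin 3 → ℝ) (κ : ℕ) (x0 : R3) (v : E3) :
    ‖(Bf ψ a' κ x0).linear v‖ = 2 ^ κ * ‖ψ (P3 v)‖ := by
  have h1 : (Bf ψ a' κ x0).linear v = Bf ψ a' κ x0 v - Bf ψ a' κ x0 0 := by
    have := lin_sub (Bf ψ a' κ x0) 0 v
    rw [sub_zero] at this
    exact this.symm
  have h2 : Bf ψ a' κ x0 v - Bf ψ a' κ x0 0 = (2:ℝ) ^ κ • ψ (P3 v) := by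
    funext m
    rw [Pi.sub_apply, Bf_apply, Bf_apply, AffineEquiv.trans_apply, AffineEquiv.trans_apply,
      trz_apply, trz_apply, sub_sub_sub_cancel_right, chi_diff, map_zero, sub_zero,
      Pi.smul_apply, smul_eq_mul]
  rw [h1, h2, norm_smul, Real.norm_of_nonneg (by positivity)]

lemma frm_Bf {ψ : R3 ≃L[ℝ] (Fin 3 → ℝ)} {a' : Fin 3 → ℝ} {κ : ℕ} {x0 : R3} {L1 L2 : ℝ}
    (hL1 : 0 ≤ L1) (h1 : ∀ v, ‖ψ v‖ ≤ L1 * ‖v‖) (h2 : ∀ v, ‖v‖ ≤ L2 * ‖ψ v‖) {v : ℝ≥0}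
    (hv1 : 2 * L1 ≤ v) (hv2 : L2 ≤ v) : Frm v (((2:ℝ≥0) ^ κ)⁻¹) (Bf ψ a' κ x0) := by
  refine Frm.of_norm (fun w => ?_) (fun w => ?_)
  · rw [norm_Bf]
    have h3 := norm_P3_le w
    have e : ((v / ((2:ℝ≥0) ^ κ)⁻¹ : ℝ≥0) : ℝ) = v * 2 ^ κ := by
      push_cast; rw [div_inv_eq_mul]
    rw [e]
    calc (2:ℝ) ^ κ * ‖ψ (P3 w)‖ ≤ 2 ^ κ * (L1 * ‖P3 w‖) := by gcongr; exact h1 _
      _ ≤ 2 ^ κ * (L1 * (2 * ‖w‖)) := by gcongr
      _ = (2 * L1) * (2 ^ κ * ‖w‖) := by ring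
      _ ≤ v * (2 ^ κ * ‖w‖) := by gcongr
      _ = v * 2 ^ κ * ‖w‖ := by ring
  · rw [norm_Bf]
    have e : ((v * ((2:ℝ≥0) ^ κ)⁻¹ : ℝ≥0) : ℝ) * (2 ^ κ * ‖ψ (P3 w)‖) = v * ‖ψ (P3 w)‖ := by
      push_cast
      rw [mul_assoc, ← mul_assoc (((2:ℝ) ^ κ)⁻¹), inv_mul_cancel₀ (by positivity), one_mul]
    rw [e]
    calc ‖w‖ = ‖P3.symm (P3 w)‖ := by rw [P3.symm_apply_apply]
      _ ≤ ‖P3 w‖ := norm_P3_symm_le _
      _ ≤ L2 * ‖ψ (P3 w)‖ := h2 _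
      _ ≤ v * ‖ψ (P3 w)‖ := by gcongr

/-- cells of the transported tiling in the frame -/
lemma image_Te {OmR : Set R3} {ι : Type} (T : Tiling OmR ι) (ψ : R3 ≃L[ℝ] (Fin 3 → ℝ))
    (a' : Fin 3 → ℝ) (κ : ℕ) (x0 : R3) (y : E3) :
    Bf ψ a' κ x0 '' (Te T).cc y =
      ((chi ψ a' κ).trans (trz fun m => ⌊chi ψ a' κ x0 m⌋)) '' T.cc (P3 y) := by
  have h1 : (Te T).cc y = P3.symm '' T.cc (P3 y) := by
    have := Ttr_622.cc_tr (P3.symm : R3 ≃L[ℝ] E3) T (P3 y)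
    rw [P3.symm_apply_apply] at this
    exact this
  rw [h1, Set.image_image]
  refine Set.image_congr fun x _ => ?_
  rw [Bf_apply, P3.apply_symm_apply]

/-- **one level** -/
lemma level {Ls : Set (Finset (Fin 3 → ℝ) × ℕ)} (hLs : Ls.Finite) (hpos : ∀ p ∈ Ls, 0 < p.2)
    (hrat : ∀ p ∈ Ls, ∀ ν ∈ p.1, ∀ m, ∃ c : ℤ, ν m = c / p.2) (R : ℝ) {L1 L2 : ℝ} (hL1 : 0 ≤ L1)
    (hL2 : 0 ≤ L2) :
    ∃ v₀ : ℝ≥0, 1 ≤ v₀ ∧ ∀ v, v₀ ≤ v → ∀ {OmR : Set R3} {ι : Type} (T : Tiling OmR ι) (κ : ι → ℕ)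
      (ψ : ι → R3 ≃L[ℝ] (Fin 3 → ℝ)) (a' : ι → Fin 3 → ℝ) (x0 : ι → R3),
      (∀ t, x0 t ∈ I (T.H t)) → ∀ G : Set ι,
      (∀ t ∈ G, ∃ p ∈ Ls, Good T t (chi (ψ t) (a' t) (κ t)) (κ t) p.1 p.2 R) →
      (∀ t ∈ G, ∀ v, ‖ψ t v‖ ≤ L1 * ‖v‖) → (∀ t ∈ G, ∀ v, ‖v‖ ≤ L2 * ‖ψ t v‖) → ∀ t,
      (∀ l, (P (T.H l) ∩ P (T.H t)).Nonempty → l ∈ G) →
      Shp2 (Te T) t (Bf (ψ t) (a' t) (κ t) (x0 t)) (((2:ℝ≥0) ^ κ t)⁻¹) v ∧
      ∀ l, (P (T.H l) ∩ P (T.H t)).Nonempty →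
        ((2:ℝ≥0) ^ κ l)⁻¹ ≤ v * ((2:ℝ≥0) ^ κ t)⁻¹ ∧ ((2:ℝ≥0) ^ κ t)⁻¹ ≤ v * ((2:ℝ≥0) ^ κ l)⁻¹ := by
  obtain ⟨K, 𝓕, hK, h𝓕, hst⟩ := star_list (n := 3) R3 hLs hpos hrat R hL1 hL2
  obtain ⟨v1, h1⟩ := shp2_of_list (𝓕 := 𝓕) h𝓕
  refine ⟨max 1 (max v1 (max (2 * L1).toNNReal (max L2.toNNReal K.toNNReal))), le_max_left _ _,
    fun v hv OmR ι T κ ψ a' x0 hx0 G hG hb1 hb2 t htG => ?_⟩
  obtain ⟨hsc, hsh⟩ := hst T κ ψ a' x0 hx0 G hG hb1 hb2
  have hvv := max_le_iff.1 ((max_le_iff.1 hv).2)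
  have hvv2 := max_le_iff.1 hvv.2
  have hvv3 := max_le_iff.1 hvv2.2
  have hc1 : 2 * L1 ≤ v := Real.toNNReal_le_iff_le_coe.1 hvv2.1
  have hc2 : L2 ≤ v := Real.toNNReal_le_iff_le_coe.1 hvv3.1
  have hc3 : K ≤ v := Real.toNNReal_le_iff_le_coe.1 hvv3.2
  have htt : t ∈ G := htG t (by
    have := I_sub_P _ (hx0 t)
    exact ⟨_, this, this⟩)
  have hpw : ∀ k l : ι, (2:ℝ) ^ κ l ≤ K * 2 ^ κ k →
      ((2:ℝ≥0) ^ κ k)⁻¹ ≤ v * ((2:ℝ≥0) ^ κ l)⁻¹ := by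
    intro k l h
    have h3 : (2:ℝ) ^ κ l ≤ v * 2 ^ κ k := h.trans (by gcongr)
    have h4 : (2:ℝ≥0) ^ κ l ≤ v * 2 ^ κ k := by exact_mod_cast h3
    rw [← div_eq_mul_inv, le_div_iff₀ (by positivity), inv_mul_le_iff₀ (by positivity), mul_comm]
    exact h4
  refine ⟨h1 v hvv.1 (Te T) t _ _ (by positivity) (frm_Bf hL1 (hb1 t htt) (hb2 t htt) hc1 hc2)
    fun y hy => ?_, fun l hl => ⟨?_, ?_⟩⟩
  · obtain ⟨l, hyl, w, hwl, hwt⟩ := hy
    rw [image_Te]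
    have hyl' : P3 y ∈ P (T.H l) := (Ttr_622.mem_P_tr (P3.symm : R3 ≃L[ℝ] E3) T).1 hyl
    have hwl' : P3 w ∈ P (T.H l) := (Ttr_622.mem_P_tr (P3.symm : R3 ≃L[ℝ] E3) T).1 hwl
    have hwt' : P3 w ∈ P (T.H t) := (Ttr_622.mem_P_tr (P3.symm : R3 ≃L[ℝ] E3) T).1 hwt
    exact hsh t htt l (htG l ⟨_, hwl', hwt'⟩) ⟨_, hwl', hwt'⟩ _ hyl'
  · exact hpw l t (hsc l (htG l hl) t htt (by rwa [Set.inter_comm]))
  · exact hpw t l (hsc t htt l (htG l hl) hl)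

lemma shp2_re {Om Om' : Set R3} (h : Om = Om') {ι : Type} {T : Tiling Om ι} {i : ι}
    {B : E3 ≃ᵃ[ℝ] E3} {R v : ℝ≥0} (hT : Shp2 (Te T) i B R v) :
    Shp2 (Te (reOm T h)) i B R v := by
  subst h
  exact hT

/-- **[SH] (622 #12068): three levels of shape numbers** -/
theorem exists_shp_T : ∃ vU : ℝ≥0, ∀ (κ : ℝ) (Bs : ℕ), 0 < κ → κ ≤ 1 → ∃ (vI : ℝ≥0) (K3 : ℕ),
    ∀ Nn : ℕ, ∃ vN : ℝ≥0, ∀ {Om W : Set R3} {ρ₀ : R3 → ℝ} {J : Type} [Finite J]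
      {Qb : J → CB R3 3} {k0 : ℕ} {σ : ℝ} (h : MIn Om W ρ₀ Qb k0 σ),
      (∀ j, MIn.BQ κ Bs Nn (Qb j) k0) → ∀ a : R3, ‖a‖ ≤ σ / 8 →
      ∃ (B : h.ιT a → E3 ≃ᵃ[ℝ] E3) (κt : h.ιT a → ℕ) (R u : h.ιT a → ℝ≥0),
        (∀ t, Shp2 (Te (h.T a)) t (B t) (R t) (u t)) ∧
        (∀ t, sclT h a t ≤ κt t) ∧ (∀ t, κt t ≤ sclT h a t + 1) ∧
        (∀ t, R t = ((2:ℝ≥0) ^ κt t)⁻¹) ∧
        (∀ k l, (P ((h.T a).H k) ∩ P ((h.T a).H l)).Nonempty →
          R k ≤ u k * R l ∧ R l ≤ u k * R k) ∧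
        (∀ t, 1 ≤ u t) ∧ (∀ t, Cl1 h 3 a t → u t ≤ vU) ∧
        (∀ j, ∀ t ∈ deepJ h a j K3, u t ≤ vI) ∧ ∀ t, u t ≤ vN := by
  classical
  obtain ⟨vU, hU1, hU⟩ := level (Ls := {(N0 3, 1)}) (finite_singleton _)
    (by rintro p rfl; exact one_pos) (by rintro p rfl; exact N0_rat one_pos) 2
    (L1 := 1) (L2 := 2) (by norm_num) (by norm_num)
  refine ⟨vU, fun κ Bs hκ hκ1 => ?_⟩
  have hκi : 0 ≤ 4 * κ⁻¹ := by positivity
  obtain ⟨vI, hI1, hI⟩ := level (Ls := {(NB 3 (max 1 Bs), 1)}) (finite_singleton _)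
    (by rintro p rfl; exact one_pos) (by rintro p rfl; exact NB_rat _ one_pos)
    (max 2 (max 1 (Bs:ℝ))) (L1 := 4 * κ⁻¹) (L2 := 4 * κ⁻¹) hκi hκi
  refine ⟨vI, 2, fun Nn => ?_⟩
  obtain ⟨Ls, R, L1, L2, g1, g2, g3, g4, g5, g6⟩ := good3 (n := 3) R3 (MIn.Ps_finite Nn)
    (4 * κ⁻¹) (max 1 (Bs:ℝ)) 2 (B0 := max 1 Bs)
  obtain ⟨vN', hN1, hN⟩ := level g1 g2 g3 R g4.le g5
  refine ⟨max vN' (max vI vU), ?_⟩
  intro Om W ρ₀ J _ Qb k0 σ h hb a ha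
  have hG := g6 h.M h.sc (0 + h.M.φ (h.cl a)) (h.adm a) (h.X hκ hκ1 hb)
    (h.rp hκ hκ1 hb a) (h.X_Ps hκ hκ1 hb) (fun _ => le_rfl) (fun _ => le_rfl) (fun _ => le_rfl)
    (fun v => by
      have h3 := norm_P3_symm_le v
      have h4 := norm_nonneg v
      show ‖P3.symm v‖ ≤ 2 * ‖v‖
      linarith)
    (fun v => by
      have h3 := norm_P3_le (P3.symm v)
      rw [P3.apply_symm_apply] at h3
      exact h3)
  choose κt ψ a' hκt hGood hb1 hb2 hin hfar using hG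
  have hx0 : ∀ t, ∃ x, x ∈ I ((h.Ts a).H t) := fun t => (h.Ts a).ne t
  choose x0 hx0 using hx0
  set GF : Set (h.ιT a) := {l | Far h.M h.sc (0 + h.M.φ (h.cl a)) (h.adm a) l} with hGF
  set GI : J → Set (h.ιT a) := fun j => {l | P ((h.Ts a).H l) ⊆ (h.M.Bk (fun _ => h.cl a) j).N ∧
    Disjoint (P ((h.Ts a).H l)) (frontier (h.M.Bk (fun _ => h.cl a) j).N)} with hGI
  have hUlev := hU vU le_rfl (h.Ts a) κt ψ a' x0 hx0 GF
    (fun t ht => ⟨_, rfl, (hfar t ht).2.2.2⟩)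
    (fun t ht v => by
      rw [(hfar t ht).1, one_mul]; exact norm_P3_symm_le v)
    (fun t ht v => by
      rw [(hfar t ht).1]
      have h3 := norm_P3_le (P3.symm v)
      rw [P3.apply_symm_apply] at h3
      exact h3)
  have hIlev := fun j => hI vI le_rfl (h.Ts a) κt ψ a' x0 hx0 (GI j)
    (fun t ht => ⟨_, rfl, (hin t j ht.1 ht.2).2.2⟩)
    (fun t ht v => by
      rw [(hin t j ht.1 ht.2).1]; exact ((hb j).cnd v).2)
    (fun t ht v => by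
      rw [(hin t j ht.1 ht.2).1]
      have h3 := ((hb j).cnd v).1
      have e : 4 * κ⁻¹ * (κ / 4 * ‖v‖) = ‖v‖ := by field_simp
      calc ‖v‖ = 4 * κ⁻¹ * (κ / 4 * ‖v‖) := e.symm
        _ ≤ 4 * κ⁻¹ * ‖(Qb j).ψ v‖ := by gcongr)
  have hNlev := hN (max vN' (max vI vU)) (le_max_left _ _) (h.Ts a) κt ψ a' x0 hx0 univ
    (fun t _ => hGood t) (fun t _ => hb1 t) (fun t _ => hb2 t)
  set u : h.ιT a → ℝ≥0 := fun t =>
    if ∀ l, (P ((h.Ts a).H l) ∩ P ((h.Ts a).H t)).Nonempty → l ∈ GF then vU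
    else if ∃ j, ∀ l, (P ((h.Ts a).H l) ∩ P ((h.Ts a).H t)).Nonempty → l ∈ GI j then vI
    else max vN' (max vI vU) with hu
  have key : ∀ t, Shp2 (Te (h.Ts a)) t (Bf (ψ t) (a' t) (κt t) (x0 t)) (((2:ℝ≥0) ^ κt t)⁻¹) (u t) ∧
      ∀ l, (P ((h.Ts a).H l) ∩ P ((h.Ts a).H t)).Nonempty →
        ((2:ℝ≥0) ^ κt l)⁻¹ ≤ u t * ((2:ℝ≥0) ^ κt t)⁻¹ ∧
        ((2:ℝ≥0) ^ κt t)⁻¹ ≤ u t * ((2:ℝ≥0) ^ κt l)⁻¹ := by
    intro t
    by_cases h1 : ∀ l, (P ((h.Ts a).H l) ∩ P ((h.Ts a).H t)).Nonempty → l ∈ GF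
    · have e : u t = vU := by simp only [hu]; rw [if_pos h1]
      rw [e]; exact hUlev t h1
    · by_cases h2 : ∃ j, ∀ l, (P ((h.Ts a).H l) ∩ P ((h.Ts a).H t)).Nonempty → l ∈ GI j
      · have e : u t = vI := by simp only [hu]; rw [if_neg h1, if_pos h2]
        rw [e]
        obtain ⟨j, hj⟩ := h2
        exact hIlev j t hj
      · have e : u t = max vN' (max vI vU) := by simp only [hu]; rw [if_neg h1, if_neg h2]
        rw [e]; exact hNlev t fun l _ => mem_univ _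
  refine ⟨fun t => Bf (ψ t) (a' t) (κt t) (x0 t), κt, fun t => ((2:ℝ≥0) ^ κt t)⁻¹, u,
    fun t => shp2_re h.dom (key t).1, fun t => (hκt t).1, fun t => (hκt t).2, fun t => rfl,
    fun k l hkl => ?_, fun t => ?_, fun t ht => ?_, fun j t ht => ?_, fun t => ?_⟩
  · have := (key k).2 l (by rw [Set.inter_comm]; exact hkl)
    exact ⟨this.2, this.1⟩
  · simp only [hu]
    split_ifs
    · exact hU1
    · exact hI1
    · exact hU1.trans ((le_max_right _ _).trans (le_max_right _ _))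
  · have h1 : ∀ l, (P ((h.Ts a).H l) ∩ P ((h.Ts a).H t)).Nonempty → l ∈ GF := by
      intro l hl
      have h2 : Cl1 h (3 - 1) a l := cl1_nbr (by norm_num) ht (by rw [Set.inter_comm]; exact hl)
      refine ⟨h2.1, fun j y hy => ?_⟩
      obtain ⟨x, hx⟩ := (h.Ts a).ne l
      refine ⟨x, I_sub_P _ hx, ?_⟩
      have h3 := h2.2 j x (I_sub_P _ hx) y hy
      norm_num at h3
      exact h3
    have e : u t = vU := by simp only [hu]; rw [if_pos h1]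
    exact e.le
  · have h2 : ∃ j, ∀ l, (P ((h.Ts a).H l) ∩ P ((h.Ts a).H t)).Nonempty → l ∈ GI j := by
      refine ⟨j, fun l hl => ?_⟩
      have h3 := star_offT h ha ht.1 ht.2 (by rw [Set.inter_comm]; exact hl)
      have e := Bk_eq h ha j
      refine ⟨?_, ?_⟩
      · rw [e]; exact h3.1
      · rw [e]; exact h3.2.1
    by_cases h1 : ∀ l, (P ((h.Ts a).H l) ∩ P ((h.Ts a).H t)).Nonempty → l ∈ GF
    · exfalso
      have h4 := h1 t (by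
        obtain ⟨x, hx⟩ := (h.Ts a).ne t
        exact ⟨x, I_sub_P _ hx, I_sub_P _ hx⟩)
      have h5 : ¬ P ((h.Ts a).H t) ⊆ (h.M.Bk (fun _ => h.cl a) j).N := h4.1 j
      rw [Bk_eq h ha j] at h5
      exact h5 ht.1
    · have e : u t = vI := by simp only [hu]; rw [if_neg h1, if_pos h2]
      exact e.le
  · simp only [hu]
    split_ifs
    · exact (le_max_right _ _).trans (le_max_right _ _)
    · exact (le_max_left _ _).trans (le_max_right _ _)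
    · exact le_rfl

end

end Crest.Agent.R096.Sts_55
end

-- ▼ part R096/Onp5_622

set_option autoImplicit false
set_option linter.unusedSectionVars false
set_option linter.style.longLine false
set_option maxHeartbeats 1000000

open Set Metric Filter Topology MeasureTheory
open scoped ENNReal NNReal

namespace Crest.Agent.R096.Onp_622

open Crest.AnalysisR.VecCalc3 Crest.AnalysisR.Sobolev Crest.Agent.R096.Sk_962
open Crest.Agent.R096.Msh_715 (P I Tiling)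
open Crest.Agent.R096.Mal_874 (CB)
open Crest.Agent.R096.Sq_55 (E3 GG Shp2)
open Crest.Agent.R096.Efi_296
open Crest.Agent.R096.Cbs_296
open Crest.Agent.R096.Ca_855 (MIn deepT)
open Crest.Agent.R096.Dps_476 (deepJ)
open Crest.Agent.R96.Intr_538 (cel par)
open Crest.Agent.R96.Coarse_538 (vt Cb seg Dt)
open Crest.Agent.R096.Fce_793 (pt cc)
open Crest.Agent.R96.En10_199 (P3)
open Crest.Agent.R96.Eld_538 (Cl1 AdE Els)
open Crest.Agent.R096.Pas_753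
open Crest.Agent.R096.Pin_753
open Crest.Agent.R096.Cl_692 (C1c C1c_one)
open Crest.Agent.R096.Ou_372 (Cout)

noncomputable section

/-- **(O1) with the order of its constants** -/
def O1N (p : ℝ) : Prop :=
  ∀ (κ D : ℝ) (nc Bs : ℕ) (vI : ℝ≥0) (K3 : ℕ), 0 < κ → κ ≤ 1 → 1 ≤ D → 1 ≤ vI → 1 ≤ K3 →
    TileC κ Bs D nc →
  ∃ C1a : ℝ, ∀ (C1 τ hh c1 c2 κw : ℝ) (Nn : ℕ) (vU vN : ℝ≥0), C1a ≤ C1 → 0 < τ → τ ≤ 1 / 4 →
    0 < hh → 0 < c1 → 0 < c2 → 0 < κw → C1 * hh ≤ min τ c2 →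
  ∃ (K1 : ℕ) (r Cer : ℝ), 4 ≤ K1 ∧ 0 ≤ Cer ∧ ∀ Rl : ℝ, r ≤ Rl →
  ∃ θa : ℝ, 0 < θa ∧ ∀ θ0 θ1 : ℝ, 0 < θ0 → θ0 ≤ θa → 0 < θ1 →
  ∃ σa ηa : ℝ, 0 < σa ∧ 0 < ηa ∧ ∀ σ' η₁ : ℝ, 0 < σ' → σ' ≤ σa → 0 < η₁ → η₁ ≤ ηa →
  ∀ (Om La W : Set R3) (f : R3 → R3) (G : Fin 3 → R3 → R3), IsOpen Om → IsOpen La →
    SH p Om La f G → W ⊆ Om → IsCompact W →
  ∀ (ρ₀ : R3 → ℝ) (s : ℝ) (a₀ : R3) (Q₀ : Finset (Fin 3 → ℤ)) (b : (Fin 3 → ℤ) → R3)
    (L : (Fin 3 → ℤ) → R3 →L[ℝ] R3), 0 < s →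
    (∀ k ∈ Q₀, (∀ v, κ * ‖v‖ ≤ ‖L k v‖) ∧ ‖L k‖ ≤ κ⁻¹) →
    (∀ k ∈ Q₀, cel Cb (vt (2 * s) a₀ k) s ⊆ W) →
  ∀ (J : Type) [Finite J] (kk : J → Fin 3 → ℤ) (Qb : J → CB R3 3) (k0 : ℕ)
    (hk : ∀ j, (Qb j).kc ≤ k0), (∀ j, kk j ∈ Q₀) →
    (∀ j, BlkP κ s τ hh c1 θ0 θ1 Bs Nn (vt (2 * s) a₀ (kk j)) (Qb j) k0) →
    (∀ i j, i ≠ j → ∀ x ∈ (Qb i).N, ∀ y ∈ (Qb j).N, c2 * s ≤ dist x y) →
    θ1 * s ≤ 1 / 2 ^ k0 → 1 / 2 ^ k0 ≤ θ0 * s →
  ∀ (h : MIn Om W ρ₀ Qb k0 (c2 * s)) {κi : Type} [Countable κi] (x v : κi → R3)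
    {κf : Type} [Countable κf] (xf : κf → R3) (ef : κf → Fin 2 → R3) (Pf : κf → Set (ℝ × ℝ))
    {κe' κf' : Type} (x' v' : κe' → R3) (e' : κf' → Fin 2 → R3) (xx' : κf' → R3)
    (Qf' : κf' → Set (ℝ × ℝ)) (hA : AllC h x' v' e' xx' Qf') (a : R3), a ∈ Dt (1 / 2 ^ k0) →
    ‖a‖ ≤ 2 / 2 ^ k0 →
  ∀ (hG : ∀ i, GoodA Om (gF p G L i) x' v' e' xx' a) (Q : Finset (Fin 3 → ℤ)), Q ⊆ Q₀ →
    Pos p Om La W f G (h.T a) x v xf ef Pf κ (τ / 12) (τ / 24) η₁ (D * hh * s) s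
      (3 * (nc * (nc * nc) + 2) * (κ⁻¹ * (D * hh * s))) (σ' * (D * hh * s)) (vt (2 * s) a₀) b L Q a →
    O1A p La f G κ (τ / 12) s (σ' * (D * hh * s))
      (3 * (nc * (nc * nc) + 2) * (κ⁻¹ * (D * hh * s)) + hh * s) C1 κw Rl Cer (vt (2 * s) a₀) b L kk
      Q hk h a K1 K3 vU vI vN hA.cpt hG

/-- [SH] in the form `ShD`, with `1 ≤ vI`, `1 ≤ K3` -/
theorem exists_shD : ∃ vU : ℝ≥0, ∀ (κ : ℝ) (Bs : ℕ), 0 < κ → κ ≤ 1 → ∃ (vI : ℝ≥0) (K3 : ℕ),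
    1 ≤ vI ∧ 1 ≤ K3 ∧ ∀ Nn : ℕ, ∃ vN : ℝ≥0, ∀ {Om W : Set R3} {ρ₀ : R3 → ℝ} {J : Type} [Finite J]
      {Qb : J → CB R3 3} {k0 : ℕ} {σ : ℝ} (h : MIn Om W ρ₀ Qb k0 σ),
      (∀ j, MIn.BQ κ Bs Nn (Qb j) k0) → ∀ a : R3, ‖a‖ ≤ σ / 8 →
      ∃ (B : h.ιT a → E3 ≃ᵃ[ℝ] E3) (κt : h.ιT a → ℕ) (R u : h.ιT a → ℝ≥0),
        ShD h a K3 vU vI vN B κt R u := by
  obtain ⟨vU, hU⟩ := Sts_55.exists_shp_T
  refine ⟨vU, fun κ Bs hκ hκ1 => ?_⟩
  obtain ⟨vI, K3, hI⟩ := hU κ Bs hκ hκ1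
  refine ⟨max 1 vI, max 1 K3, le_max_left _ _, le_max_left _ _, fun Nn => ?_⟩
  obtain ⟨vN, hN⟩ := hI Nn
  refine ⟨vN, fun {Om W ρ₀ J} _ {Qb k0 σ} h hb a ha => ?_⟩
  obtain ⟨B, κt, R, u, h1, h2, h3, h4, h5, h6, h7, h8, h9⟩ := hN h hb a ha
  refine ⟨B, κt, R, u, h1, h2, h3, h4, h5, h6, h7, fun j t ht => ?_, h9⟩
  refine (h8 j t ⟨ht.1, ?_⟩).trans (le_max_right _ _)
  exact (Nat.add_le_add_left (le_max_right _ _) _).trans ht.2

/-- **the numbers of `OneP`** -/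
theorem oneP_of {p : ℝ} (hp : 1 ≤ p) (hp2 : p ≤ 2) (hO : O1N p) : OneP p Els := by
  obtain ⟨vU, hSH⟩ := exists_shD
  refine ⟨GG vU, fun Cu Bs => ⟨Cout p (3 / 2) Cu, ?_⟩⟩
  intro Om La f G hOm hOmb _ hLa _ _ hf κ D nc hκ hκ1 hD hTC
  obtain ⟨vI, K3, hvI, hK3, hSH⟩ := hSH κ Bs hκ hκ1
  obtain ⟨C1a, hO⟩ := hO κ D nc Bs vI K3 hκ hκ1 hD hvI hK3 hTC
  have hD0 : 0 < D := by linarith
  have hc1c := C1c_one hκ hD0.le nc
  refine ⟨max (24 * D) (max (C1c κ D nc) C1a), ?_, le_max_left _ _, ?_⟩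
  · exact hc1c.trans ((le_max_left _ _).trans (le_max_right _ _))
  set C1 : ℝ := max (24 * D) (max (C1c κ D nc) C1a) with hC1
  have hC1D : 24 * D ≤ C1 := le_max_left _ _
  have hC1c : C1c κ D nc ≤ C1 := (le_max_left _ _).trans (le_max_right _ _)
  have hC1a : C1a ≤ C1 := (le_max_right _ _).trans (le_max_right _ _)
  intro τ hh c1 c2 κw e Nn hτ hτ4 hhh hc1 hc2 hκw he hCh
  have hCτ : C1 * hh ≤ τ := hCh.trans (min_le_left _ _)
  have hCc : C1 * hh ≤ c2 := hCh.trans (min_le_right _ _)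
  have hDC : 24 * D * hh ≤ C1 * hh := mul_le_mul_of_nonneg_right hC1D hhh.le
  obtain ⟨vN, hSH⟩ := hSH Nn
  obtain ⟨K1, r, Cer, hK1, hCer, hO⟩ := hO C1 τ hh c1 c2 κw Nn vU vN hC1a hτ hτ4 hhh hc1 hc2 hκw hCh
  have hCer1 : 0 < Cer + 1 := by linarith
  set Rl : ℝ := max 40 r with hRl
  have hRl40 : 40 ≤ Rl := le_max_left _ _
  obtain ⟨θa, hθa, hO⟩ := hO Rl (le_max_right _ _)
  obtain ⟨_, dm, hdm, hlnk⟩ := Lnk_726.lnk3 hκ Bs Rl
  set e₀ : ℝ := min (e / 3) (e / (2 * (Cer + 1))) with he₀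
  have he₀0 : 0 < e₀ := lt_min (by positivity) (by positivity)
  refine ⟨Rl, e₀, GG vN, by linarith, he₀0, ?_⟩
  set V : ℝ := (volume Om).toReal with hV
  have hV0 : 0 ≤ V := ENNReal.toReal_nonneg
  have hvol : volume Om ≠ ∞ := (hOmb.measure_lt_top).ne
  have hκi : 0 < κ⁻¹ := inv_pos.2 hκ
  set A7 : ℝ := dm + 8 * κ⁻¹ * Rl with hA7
  have hA70 : 0 ≤ A7 := by
    have : 0 ≤ Rl := by linarith
    positivity
  set θ0 : ℝ := min (min (κ * c2 / 321) (c1 / 40)) (min (κ * τ / 162)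
    (min (e * c1 / (3 * 7680 * (V + 1))) (min (c2 / (A7 + 1)) θa))) with hθ0
  have hθ00 : 0 < θ0 := by
    refine lt_min (lt_min ?_ ?_) (lt_min ?_ (lt_min ?_ (lt_min ?_ hθa))) <;> positivity
  have b1 : θ0 ≤ κ * c2 / 321 := (min_le_left _ _).trans (min_le_left _ _)
  have b2 : θ0 ≤ c1 / 40 := (min_le_left _ _).trans (min_le_right _ _)
  have b3 : θ0 ≤ κ * τ / 162 := (min_le_right _ _).trans (min_le_left _ _)
  have b4 : θ0 ≤ e * c1 / (3 * 7680 * (V + 1)) :=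
    (min_le_right _ _).trans ((min_le_right _ _).trans (min_le_left _ _))
  have b5 : θ0 ≤ c2 / (A7 + 1) := (min_le_right _ _).trans ((min_le_right _ _).trans
    ((min_le_right _ _).trans (min_le_left _ _)))
  have b6 : θ0 ≤ θa := (min_le_right _ _).trans ((min_le_right _ _).trans
    ((min_le_right _ _).trans (min_le_right _ _)))
  have hκc : 0 < κ * c2 := by positivity
  have n1 : 320 * θ0 < κ * c2 := by
    have : 321 * θ0 ≤ κ * c2 := by linarith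
    linarith
  have n2 : 40 * θ0 ≤ c1 := by linarith
  have n3 : 162 * θ0 ≤ κ * τ := by linarith
  have n7 : (dm + 8 * κ⁻¹ * Rl) * θ0 < c2 := by
    have h1 : A7 + 1 > 0 := by linarith
    rw [le_div_iff₀ h1] at b5
    have : A7 * θ0 < c2 := by nlinarith
    exact this
  have n4 : ENNReal.ofReal (7680 * θ0 / c1) * volume Om ≤ ENNReal.ofReal (e / 3) := by
    rw [← ENNReal.ofReal_toReal hvol, ← ENNReal.ofReal_mul (by positivity)]
    refine ENNReal.ofReal_le_ofReal ?_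
    rw [← hV]
    have h1 : 0 < 3 * 7680 * (V + 1) := by positivity
    rw [le_div_iff₀ h1] at b4
    rw [div_mul_eq_mul_div, div_le_div_iff₀ hc1 (by norm_num)]
    nlinarith
  refine ⟨θ0, hθ00, fun θ1 hθ1 => ?_⟩
  obtain ⟨σa, ηa, hσa, hηa, hO⟩ := hO θ0 θ1 hθ00 b6 hθ1
  set σ' : ℝ := min (min 1 σa) (κ * τ / (288 * D * hh)) with hσ'
  have hσ'0 : 0 < σ' := lt_min (lt_min one_pos hσa) (by positivity)
  have hσ'1 : σ' ≤ 1 := (min_le_left _ _).trans (min_le_left _ _)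
  have hσ'2 : σ' ≤ σa := (min_le_left _ _).trans (min_le_right _ _)
  refine ⟨σ', ηa, hσ'0, hηa, ?_, ?_⟩
  · have h1 : σ' ≤ κ * τ / (288 * D * hh) := min_le_right _ _
    rw [le_div_iff₀ (by positivity)] at h1
    linarith
  have hO := hO σ' ηa hσ'0 hσ'2 hηa le_rfl Om La
  intro W K' hWO hWc _ _ _ η w ρ₀ d0 _ _ hd0 hw hw' hη _ _ _ _ _ hosc
  have hCh0 : 0 < C1c κ D nc * hh := mul_pos (by linarith) hhh
  refine ⟨1, 1, d0 / (C1c κ D nc * hh), one_pos, one_pos, div_pos hd0 hCh0, ?_⟩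
  intro s hs hss a₀ Q₀ b L hL hcW hcK _ _ J _ kk Qb k0 hk hkk hb sep hθ1' hθ0' h κi _ x v κf _ xf ef
    Pf κe' κf' x' v' e' xx' Qf' hA a haD ha hG Q hQ _ hP hE
  have hbq : ∀ j, MIn.BQ κ Bs Nn (Qb j) k0 := fun j => MIn.bq_of_blkP (hb j)
  have ha8 : ‖a‖ ≤ c2 * s / 8 := by
    have e1 : (2:ℝ) / 2 ^ k0 = 2 * (1 / 2 ^ k0) := by ring
    rw [e1] at ha
    have h3 : κ * c2 ≤ c2 := by nlinarith
    have h4 : 16 * θ0 ≤ c2 := by linarith
    have h5 : 16 * θ0 * s ≤ c2 * s := mul_le_mul_of_nonneg_right h4 hs.le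
    linarith
  obtain ⟨B, κt, R, u, hShD⟩ := hSH h hbq a ha8
  have hO1 := hO W f G hOm hLa hf hWO hWc ρ₀ s a₀ Q₀ b L hs hL hcW J kk Qb k0 hk hkk hb sep hθ1'
    hθ0' h x v xf ef Pf x' v' e' xx' Qf' hA a haD ha hG Q hQ hP
  have hsm : 4 * κ⁻¹ * Rl / 2 ^ k0 < c2 * s := by
    have h1 : 4 * κ⁻¹ * Rl / 2 ^ k0 = 4 * κ⁻¹ * Rl * (1 / 2 ^ k0) := by ring
    have h0 : 0 ≤ 4 * κ⁻¹ * Rl := by
      have : 0 ≤ Rl := by linarith
      positivity
    rw [h1]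
    calc 4 * κ⁻¹ * Rl * (1 / 2 ^ k0) ≤ 4 * κ⁻¹ * Rl * (θ0 * s) :=
          mul_le_mul_of_nonneg_left hθ0' h0
      _ = (4 * κ⁻¹ * Rl * θ0) * s := by ring
      _ < c2 * s := by
          refine mul_lt_mul_of_pos_right ?_ hs
          have h2 : 0 ≤ dm * θ0 := by positivity
          have h3 : 0 ≤ 4 * κ⁻¹ * Rl * θ0 := mul_nonneg h0 hθ00.le
          nlinarith
  have hz : ∀ j, ∀ t ∈ zoneT h a Rl j, ∀ x ∈ P ((h.T a).H t), ∀ y ∈ P ((h.T a).H t),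
      ‖x - y‖ ≤ dm / 2 ^ k0 := fun j t ht => (hlnk h ha8 j (hbq j) hsm t ht).2
  refine one_fix hp hp2 hOm hOmb hf hWO hWc hκ hκ1 hD hτ hτ4 hhh hc1 hc2 he hσ'0 hs hCer hdm hσ'1
    hC1c (hDC.trans hCτ) (hDC.trans hCc) ?_ le_rfl le_rfl hK1 hRl40 n1 n2 n3 n4 (min_le_left _ _) ?_ n7
    hw hw' hη hosc hL hcW hcK hQ hk hkk hb sep hθ0' h hTC hA ha hG hP hE hShD hz hO1
  · rw [lt_div_iff₀ hCh0] at hss
    nlinarith
  · have h1 : e₀ ≤ e / (2 * (Cer + 1)) := min_le_right _ _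
    have h2 : Cer * e₀ ≤ Cer * (e / (2 * (Cer + 1))) := mul_le_mul_of_nonneg_left h1 hCer
    refine h2.trans ?_
    rw [← mul_div_assoc, div_le_div_iff₀ (by positivity) (by norm_num)]
    nlinarith

end

end Crest.Agent.R096.Onp_622
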