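import Crest.Agent.R096.PlDefs_296

-- ▼ part R096/PlCone_296
section

/-!
# Cone moves (helper296, row 96, P2-Y)

For a region `R = {x | ∀ i, 0 ≤ a i x}` (finitely many affine `a i`, any dimension) and two points
`v, v'` of its interior the map which is the identity off `R` and maps the segment `[v,y]`
linearly onto `[v',y]`, `y ∈ ∂R`.
The functions `a i` only have to be PL and affine in the direction `v' - v`.
-/

namespace Crest.Agent.R096.Pl

open Set

set_option linter.unusedSectionVars false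

variable {V : Type*} [NormedAddCommGroup V] [NormedSpace ℝ V]
variable {ι : Type*} [Fintype ι] [Nonempty ι]

/-- the "depth" of `x` in the region `{a ≥ 0}` seen from `v` : it is `1` at `v`, `0` on the
boundary, and affine on the segments from `v` to boundary points -/
noncomputable def depth (a : ι → V → ℝ) (v x : V) : ℝ :=
  Finset.univ.inf' Finset.univ_nonempty (fun i => a i x / a i v)

/-- the cone move -/
noncomputable def coneMap (a : ι → V → ℝ) (v v' x : V) : V :=
  x + max 0 (depth a v x) • (v' - v)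

theorem le_depth_iff {a : ι → V → ℝ} {v x : V} {m : ℝ} (hv : ∀ i, 0 < a i v) :
    m ≤ depth a v x ↔ ∀ i, m * a i v ≤ a i x := by
  unfold depth
  rw [Finset.le_inf'_iff]
  constructor
  · intro h i
    exact (le_div_iff₀ (hv i)).1 (h i (Finset.mem_univ i))
  · intro h i _
    exact (le_div_iff₀ (hv i)).2 (h i)

theorem depth_le_iff {a : ι → V → ℝ} {v x : V} {m : ℝ} (hv : ∀ i, 0 < a i v) :
    depth a v x ≤ m ↔ ∃ i, a i x ≤ m * a i v := by
  unfold depth
  rw [Finset.inf'_le_iff]
  constructor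
  · rintro ⟨i, -, h⟩
    exact ⟨i, (div_le_iff₀ (hv i)).1 h⟩
  · rintro ⟨i, h⟩
    exact ⟨i, Finset.mem_univ i, (div_le_iff₀ (hv i)).2 h⟩

theorem depth_eq_iff {a : ι → V → ℝ} {v x : V} {m : ℝ} (hv : ∀ i, 0 < a i v) :
    depth a v x = m ↔ (∀ i, m * a i v ≤ a i x) ∧ ∃ i, a i x ≤ m * a i v := by
  rw [← le_depth_iff hv, ← depth_le_iff hv]
  constructor
  · rintro rfl; exact ⟨le_rfl, le_rfl⟩
  · rintro ⟨h1, h2⟩; exact le_antisymm h2 h1

theorem coneMap_of_depth_nonneg {a : ι → V → ℝ} {v v' x : V} (hx : 0 ≤ depth a v x) :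
    coneMap a v v' x = x + depth a v x • (v' - v) := by
  unfold coneMap
  rw [max_eq_right hx]

theorem coneMap_of_depth_nonpos {a : ι → V → ℝ} {v v' x : V} (hx : depth a v x ≤ 0) :
    coneMap a v v' x = x := by
  unfold coneMap
  rw [max_eq_left hx]; simp

/-- the cone move is the identity outside the open region -/
theorem coneMap_of_le {a : ι → V → ℝ} {v v' x : V} (hv : ∀ i, 0 < a i v) (hx : ∃ i, a i x ≤ 0) :
    coneMap a v v' x = x := by
  refine coneMap_of_depth_nonpos ((depth_le_iff hv).2 ?_)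
  obtain ⟨i, hi⟩ := hx
  exact ⟨i, by simpa using hi⟩

theorem depth_coneMap {a : ι → V → ℝ} {v v' x : V} (hv : ∀ i, 0 < a i v) (hv' : ∀ i, 0 < a i v')
    (ha : ∀ i x (c : ℝ), a i (x + c • (v' - v)) = a i x + c * (a i v' - a i v))
    (hx : 0 ≤ depth a v x) : depth a v' (coneMap a v v' x) = depth a v x := by
  rw [coneMap_of_depth_nonneg hx, depth_eq_iff hv']
  obtain ⟨h1, i, h2⟩ := (depth_eq_iff (a := a) (x := x) hv).1 rfl
  refine ⟨fun j => ?_, i, ?_⟩
  · rw [ha]; have := h1 j; nlinarith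
  · rw [ha]; nlinarith

theorem coneMap_coneMap {a : ι → V → ℝ} {v v' : V} (hv : ∀ i, 0 < a i v) (hv' : ∀ i, 0 < a i v')
    (ha : ∀ i x (c : ℝ), a i (x + c • (v' - v)) = a i x + c * (a i v' - a i v)) (x : V) :
    coneMap a v' v (coneMap a v v' x) = x := by
  rcases le_total 0 (depth a v x) with hx | hx
  · have h1 := depth_coneMap hv hv' ha hx
    rw [coneMap_of_depth_nonneg (by rw [h1]; exact hx), h1, coneMap_of_depth_nonneg hx,
      add_assoc, ← smul_add]
    simp
  · rw [coneMap_of_depth_nonpos hx]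
    refine coneMap_of_le hv' ?_
    obtain ⟨i, hi⟩ := (depth_le_iff hv).1 hx
    exact ⟨i, by simpa using hi⟩

theorem ha_swap {a : ι → V → ℝ} {v v' : V}
    (ha : ∀ i x (c : ℝ), a i (x + c • (v' - v)) = a i x + c * (a i v' - a i v)) :
    ∀ i x (c : ℝ), a i (x + c • (v - v')) = a i x + c * (a i v - a i v') := by
  intro i x c
  have := ha i x (-c)
  rw [neg_smul, ← smul_neg, neg_sub] at this
  rw [this]; ring

theorem PLMap_depth {a : ι → V → ℝ} (hPL : ∀ i, PLMap (a i)) (v : V) : PLMap (depth a v) :=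
  PLMap.finset_inf' Finset.univ_nonempty (f := fun i x => a i x / a i v)
    fun i _ => (hPL i).div_const _

theorem PLMap_coneMap {a : ι → V → ℝ} (hPL : ∀ i, PLMap (a i)) (v v' : V) :
    PLMap (coneMap a v v') :=
  PLMap.id.add (((PLMap.const 0).max (PLMap_depth hPL v)).smul_const (v' - v))

/-- the cone move as a homeomorphism -/
noncomputable def coneH (a : ι → V → ℝ) (v v' : V) (hPL : ∀ i, PLMap (a i))
    (hv : ∀ i, 0 < a i v) (hv' : ∀ i, 0 < a i v')
    (ha : ∀ i x (c : ℝ), a i (x + c • (v' - v)) = a i x + c * (a i v' - a i v)) : V ≃ₜ V :=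
  mkH (coneMap a v v') (coneMap a v' v) (PLMap_coneMap hPL _ _) (PLMap_coneMap hPL _ _)
    (coneMap_coneMap hv hv' ha) (coneMap_coneMap hv' hv (ha_swap ha))

theorem PLH_coneH (a : ι → V → ℝ) (v v' : V) (hPL : ∀ i, PLMap (a i))
    (hv : ∀ i, 0 < a i v) (hv' : ∀ i, 0 < a i v')
    (ha : ∀ i x (c : ℝ), a i (x + c • (v' - v)) = a i x + c * (a i v' - a i v)) :
    PLH (coneH a v v' hPL hv hv' ha) := PLH_mkH _ _ _ _ _ _

@[simp] theorem coneH_apply (a : ι → V → ℝ) (v v' : V) (hPL : ∀ i, PLMap (a i))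
    (hv : ∀ i, 0 < a i v) (hv' : ∀ i, 0 < a i v')
    (ha : ∀ i x (c : ℝ), a i (x + c • (v' - v)) = a i x + c * (a i v' - a i v)) (x : V) :
    coneH a v v' hPL hv hv' ha x = coneMap a v v' x := rfl

/-! ### affine data -/

theorem affine_dir (a : V →ᵃ[ℝ] ℝ) (v v' x : V) (c : ℝ) :
    a (x + c • (v' - v)) = a x + c * (a v' - a v) := by
  have h : x + c • (v' - v) = c • (v' - v) +ᵥ x := by rw [vadd_eq_add, add_comm]
  rw [h, AffineMap.map_vadd, map_smul, vadd_eq_add, smul_eq_mul]
  have : a.linear (v' - v) = a v' - a v := by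
    rw [← vsub_eq_sub, AffineMap.linearMap_vsub, vsub_eq_sub]
  rw [this]; ring

/-- along a segment from `v` the depth is affine -/
theorem depth_segment (a : ι → V →ᵃ[ℝ] ℝ) {v y : V} (hv : ∀ i, 0 < a i v) {s : ℝ} (hs : 0 ≤ s) :
    depth (fun i => a i) v (v + s • (y - v)) = (1 - s) + s * depth (fun i => a i) v y := by
  rw [depth_eq_iff (a := fun i => a i) hv]
  obtain ⟨h1, i, h2⟩ := (depth_eq_iff (a := fun i => a i) (x := y) hv).1 rfl
  refine ⟨fun j => ?_, i, ?_⟩
  · rw [affine_dir]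
    have := mul_le_mul_of_nonneg_left (h1 j) hs
    nlinarith
  · rw [affine_dir]
    have := mul_le_mul_of_nonneg_left h2 hs
    nlinarith

/-- **cone move, affine data, any dimension.** -/
theorem exists_coneMove [FiniteDimensional ℝ V] (a : ι → V →ᵃ[ℝ] ℝ) {v v' : V}
    (hv : ∀ i, 0 < a i v) (hv' : ∀ i, 0 < a i v') :
    ∃ H : V ≃ₜ V, PLH H ∧ H v = v' ∧ (∀ x, (∃ i, a i x ≤ 0) → H x = x) ∧
      (∀ y, (∀ i, 0 ≤ a i y) → (∃ i, a i y = 0) → ∀ s ∈ Icc (0 : ℝ) 1,
        H (v + s • (y - v)) = v' + s • (y - v')) := by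
  refine ⟨coneH (fun i => a i) v v' (fun i => PLMap.of_affine _) hv hv'
    (fun i x c => affine_dir _ _ _ _ _), PLH_coneH _ _ _ _ _ _ _, ?_, ?_, ?_⟩
  · rw [coneH_apply]
    have : depth (fun i => a i) v v = 1 := by
      rw [depth_eq_iff (a := fun i => a i) hv]
      exact ⟨fun i => by simp, Classical.arbitrary ι, by simp⟩
    rw [coneMap_of_depth_nonneg (by rw [this]; norm_num), this]; simp
  · intro x hx
    exact coneMap_of_le (a := fun i => a i) hv hx
  · intro y hy ⟨i, hi⟩ s hs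
    have h0 : depth (fun i => a i) v y = 0 := by
      rw [depth_eq_iff (a := fun i => a i) hv]
      exact ⟨fun i => by simpa using hy i, i, by simp [hi]⟩
    have h1 := depth_segment a hv (y := y) hs.1
    rw [h0, mul_zero, add_zero] at h1
    rw [coneH_apply, coneMap_of_depth_nonneg (by rw [h1]; linarith [hs.2]), h1]
    module

/-! ### The push across a double cone -/

/-- **push lemma** in `F × ℝ`, `F` with a polyhedral norm: a PL homeomorphism supported in
`{‖x‖ + |z|/(1+ε) ≤ 1}` which maps the upper cone `{(x, 1 - ‖x‖)}` vertically onto the lower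
cone `{(x, -(1 - ‖x‖))}`. -/
theorem exists_push {F : Type*} [NormedAddCommGroup F] [NormedSpace ℝ F]
    (hN : PLMap (fun x : F => ‖x‖)) {ε : ℝ} (hε : 0 < ε) :
    ∃ H : (F × ℝ) ≃ₜ (F × ℝ), PLH H ∧
      (∀ x : F, ‖x‖ ≤ 1 → H (x, 1 - ‖x‖) = (x, -(1 - ‖x‖))) ∧
      (∀ p : F × ℝ, 1 ≤ ‖p.1‖ + |p.2| / (1 + ε) → H p = p) := by
  have he : 0 < 1 + ε := by linarith
  let a : Bool → F × ℝ → ℝ := fun b p => (1 - ‖p.1‖) + (if b then -1 else 1) * (p.2 / (1 + ε))
  have hPL : ∀ i, PLMap (a i) := fun i =>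
    ((PLMap.const 1).sub (hN.comp PLMap.id.fst)).add ((PLMap.id.snd.div_const _).const_mul _)
  have hlt : (1 + ε)⁻¹ < 1 := inv_lt_one_of_one_lt₀ (by linarith)
  have hpos : 0 < (1 + ε)⁻¹ := inv_pos.2 he
  have hv : ∀ i, 0 < a i ((0 : F), (1 : ℝ)) := by
    intro i
    cases i <;> simp only [a, norm_zero] <;> norm_num <;> linarith
  have hv' : ∀ i, 0 < a i ((0 : F), (-1 : ℝ)) := by
    intro i
    cases i <;> simp only [a, norm_zero, neg_div] <;> norm_num <;> linarith
  have hdir : (((0 : F), (-1 : ℝ)) - ((0 : F), (1 : ℝ))) = ((0 : F), (-2 : ℝ)) := by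
    ext <;> norm_num
  have ha : ∀ i (x : F × ℝ) (c : ℝ), a i (x + c • (((0 : F), (-1 : ℝ)) - ((0 : F), (1 : ℝ)))) =
      a i x + c * (a i ((0 : F), (-1 : ℝ)) - a i ((0 : F), (1 : ℝ))) := by
    intro i x c
    rw [hdir]
    cases i <;> simp only [a, Prod.fst_add, Prod.snd_add, Prod.smul_fst, Prod.smul_snd, smul_zero,
      add_zero, norm_zero, smul_eq_mul] <;> norm_num <;> ring
  refine ⟨coneH a _ _ hPL hv hv' ha, PLH_coneH _ _ _ _ _ _ _, ?_, ?_⟩
  · intro x hx
    have hd : depth a ((0 : F), (1 : ℝ)) (x, 1 - ‖x‖) = 1 - ‖x‖ := by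
      rw [depth_eq_iff hv]
      refine ⟨fun i => ?_, true, ?_⟩
      · cases i <;> simp only [a, norm_zero] <;> norm_num <;> field_simp <;> nlinarith
      · simp only [a, norm_zero]; norm_num; field_simp; nlinarith
    rw [coneH_apply, coneMap_of_depth_nonneg (by rw [hd]; linarith), hd, hdir]
    ext
    · simp
    · simp; ring
  · intro p hp
    rw [coneH_apply]
    refine coneMap_of_le hv ?_
    rcases le_total 0 p.2 with h | h
    · refine ⟨true, ?_⟩
      rw [abs_of_nonneg h] at hp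
      simp only [a]; norm_num; linarith
    · refine ⟨false, ?_⟩
      rw [abs_of_nonpos h, neg_div] at hp
      simp only [a]; norm_num; linarith

end Crest.Agent.R096.Pl
end

-- ▼ part R096/PlCell_296
section

/-!
# Cells: V-polytopes on which PL maps are affine (helper296, row 96, P2-Y)
-/

namespace Crest.Agent.R096.Pl

open Set

set_option linter.unusedSectionVars false

variable {V W : Type*} [NormedAddCommGroup V] [NormedSpace ℝ V]
  [NormedAddCommGroup W] [NormedSpace ℝ W]

/-- V-polytopes: convex hulls of finite sets -/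
def VP (C : Set V) : Prop := ∃ s : Set V, s.Finite ∧ C = convexHull ℝ s

theorem VP.convex {C : Set V} (h : VP C) : Convex ℝ C := by
  obtain ⟨s, -, rfl⟩ := h; exact convex_convexHull ℝ s

theorem VP.isCompact {C : Set V} (h : VP C) : IsCompact C := by
  obtain ⟨s, hs, rfl⟩ := h; exact hs.isCompact_convexHull ℝ

theorem affine_comb (a : V →ᵃ[ℝ] ℝ) {x y : V} {s t : ℝ} (h : s + t = 1) :
    a (s • x + t • y) = s * a x + t * a y := by
  have h1 : s • x + t • y = AffineMap.lineMap x y t := by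
    rw [AffineMap.lineMap_apply_module]; rw [show s = 1 - t by linarith]
  rw [h1, AffineMap.apply_lineMap, AffineMap.lineMap_apply_module, smul_eq_mul, smul_eq_mul,
    show s = 1 - t by linarith]

/-- the point of the segment `[y,z]` where `a = 0` -/
noncomputable def cross (a : V →ᵃ[ℝ] ℝ) (y z : V) : V :=
  (a y / (a y - a z)) • z + (-a z / (a y - a z)) • y

theorem cross_mem_left {a : V →ᵃ[ℝ] ℝ} {K : Set V} (hK : Convex ℝ K) {z : V} (hz : a z < 0) :
    Convex ℝ {y | 0 ≤ a y ∧ cross a y z ∈ K} := by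
  rintro y ⟨hy, hyK⟩ y' ⟨hy', hyK'⟩ s t hs ht hst
  have e : a (s • y + t • y') = s * a y + t * a y' := affine_comb a hst
  refine ⟨by rw [e]; positivity, ?_⟩
  have hd : 0 < a y - a z := by linarith
  have hd' : 0 < a y' - a z := by linarith
  have hD : 0 < s * (a y - a z) + t * (a y' - a z) := by
    have : s * (a y - a z) + t * (a y' - a z) = (s * a y + t * a y') - (s + t) * a z := by ring
    rw [this, hst]; have := mul_nonneg hs hy; have := mul_nonneg ht hy'; linarith
  have hD' : (s * a y + t * a y') - a z = s * (a y - a z) + t * (a y' - a z) := by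
    have : s * (a y - a z) + t * (a y' - a z) = (s * a y + t * a y') - (s + t) * a z := by ring
    rw [this, hst]; ring
  have key : cross a (s • y + t • y') z =
      (s * (a y - a z) / (s * (a y - a z) + t * (a y' - a z))) • cross a y z +
      (t * (a y' - a z) / (s * (a y - a z) + t * (a y' - a z))) • cross a y' z := by
    unfold cross
    rw [e, hD']
    match_scalars <;> field_simp
  rw [key]
  refine hK hyK hyK' (by positivity) (by positivity) ?_
  rw [← add_div, div_self hD.ne']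

theorem cross_mem_right {a : V →ᵃ[ℝ] ℝ} {K : Set V} (hK : Convex ℝ K) {y : V} (hy : 0 ≤ a y) :
    Convex ℝ {z | a z < 0 ∧ cross a y z ∈ K} := by
  rintro z ⟨hz, hzK⟩ z' ⟨hz', hzK'⟩ s t hs ht hst
  have e : a (s • z + t • z') = s * a z + t * a z' := affine_comb a hst
  have hneg : s * a z + t * a z' < 0 := by
    rcases hs.lt_or_eq with hs' | hs'
    · have := mul_neg_of_pos_of_neg hs' hz
      have := mul_nonpos_of_nonneg_of_nonpos ht hz'.le
      linarith
    · have ht1 : t = 1 := by linarith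
      rw [← hs', ht1]; linarith
  refine ⟨by rw [e]; exact hneg, ?_⟩
  have hd : 0 < a y - a z := by linarith
  have hd' : 0 < a y - a z' := by linarith
  have hD' : a y - (s * a z + t * a z') = s * (a y - a z) + t * (a y - a z') := by
    have : s * (a y - a z) + t * (a y - a z') = (s + t) * a y - (s * a z + t * a z') := by ring
    rw [this, hst]; ring
  have hD : 0 < s * (a y - a z) + t * (a y - a z') := by rw [← hD']; linarith
  have key : cross a y (s • z + t • z') =
      (s * (a y - a z) / (s * (a y - a z) + t * (a y - a z'))) • cross a y z +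
      (t * (a y - a z') / (s * (a y - a z) + t * (a y - a z'))) • cross a y z' := by
    unfold cross
    rw [e, hD']
    match_scalars <;> field_simp
    ring
  rw [key]
  refine hK hzK hzK' (by positivity) (by positivity) ?_
  rw [← add_div, div_self hD.ne']

/-- cutting a V-polytope by a half space -/
theorem VP.inter_nonneg {C : Set V} (hC : VP C) (a : V →ᵃ[ℝ] ℝ) : VP (C ∩ {x | 0 ≤ a x}) := by
  obtain ⟨s, hs, rfl⟩ := hC
  set p := {x ∈ s | 0 ≤ a x} with hp
  set q := {x ∈ s | a x < 0} with hq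
  have hpf : p.Finite := hs.subset (sep_subset _ _)
  have hqf : q.Finite := hs.subset (sep_subset _ _)
  have hspq : s = p ∪ q := by
    ext x; simp only [hp, hq, mem_union, mem_ofPred_eq, ← and_or_left]
    constructor
    · intro h; exact ⟨h, le_or_gt 0 (a x)⟩
    · exact fun h => h.1
  have hconvp : Convex ℝ {x | 0 ≤ a x} := by
    intro x hx y hy s t hs ht hst
    simp only [mem_ofPred_eq] at *
    rw [affine_comb a hst]; positivity
  have hconvn : Convex ℝ {x | a x < 0} := by
    intro x hx y hy s t hs ht hst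
    simp only [mem_ofPred_eq] at *
    rw [affine_comb a hst]
    rcases hs.lt_or_eq with hs' | hs'
    · have := mul_neg_of_pos_of_neg hs' hx
      have := mul_nonpos_of_nonneg_of_nonpos ht hy.le
      linarith
    · have ht1 : t = 1 := by linarith
      rw [← hs', ht1]; linarith
  refine ⟨p ∪ image2 (cross a) p q, hpf.union (hpf.image2 _ hqf), ?_⟩
  apply Subset.antisymm
  · rintro x ⟨hx, hx0⟩
    rcases q.eq_empty_or_nonempty with hqe | hqn
    · have : s = p := by rw [hspq, hqe, union_empty]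
      rw [this] at hx
      exact convexHull_mono subset_union_left hx
    rcases p.eq_empty_or_nonempty with hpe | hpn
    · have : s = q := by rw [hspq, hpe, empty_union]
      rw [this] at hx
      have : x ∈ {x | a x < 0} := convexHull_min (fun y hy => hy.2) hconvn hx
      exact absurd (show 0 ≤ a x from hx0) (not_le.2 (show a x < 0 from this))
    rw [hspq, convexHull_union hpn hqn] at hx
    rw [mem_convexJoin] at hx
    obtain ⟨y, hy, z, hz, hx⟩ := hx
    have hy0 : 0 ≤ a y := convexHull_min (t := {x | 0 ≤ a x}) (fun y hy => hy.2) hconvp hy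
    have hz0 : a z < 0 := convexHull_min (t := {x | a x < 0}) (fun y hy => hy.2) hconvn hz
    set K := convexHull ℝ (p ∪ image2 (cross a) p q) with hK
    have hKc : Convex ℝ K := convex_convexHull ℝ _
    have hyK : y ∈ K := convexHull_mono subset_union_left hy
    have h1 : ∀ r ∈ q, cross a y r ∈ K := by
      intro r hr
      have : convexHull ℝ p ⊆ {y | 0 ≤ a y ∧ cross a y r ∈ K} := by
        refine convexHull_min ?_ (cross_mem_left hKc hr.2)
        intro u hu
        exact ⟨hu.2, subset_convexHull ℝ _ (Or.inr (mem_image2_of_mem hu hr))⟩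
      exact (this hy).2
    have h2 : cross a y z ∈ K := by
      have : convexHull ℝ q ⊆ {z | a z < 0 ∧ cross a y z ∈ K} := by
        refine convexHull_min ?_ (cross_mem_right hKc hy0)
        intro u hu
        exact ⟨hu.2, h1 u hu⟩
      exact (this hz).2
    -- `x` is on the segment from `y` to `cross a y z`
    obtain ⟨α, β, hα, hβ, hαβ, rfl⟩ := hx
    have hx0' : 0 ≤ α * a y + β * a z := by rw [← affine_comb a hαβ]; exact hx0
    have hD : 0 < a y - a z := by linarith
    rcases hy0.eq_or_lt with hy0' | hy0'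
    · have : β = 0 := by
        by_contra hne
        have : 0 < β := lt_of_le_of_ne hβ (Ne.symm hne)
        nlinarith
      subst this
      have : α = 1 := by linarith
      subst this
      simpa using hyK
    · have key : α • y + β • z = (1 - β * (a y - a z) / a y) • y +
          (β * (a y - a z) / a y) • cross a y z := by
        unfold cross
        have hα' : α = 1 - β := by linarith
        subst hα'
        match_scalars
        · field_simp; ring
        · field_simp
      rw [key]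
      refine hKc hyK h2 ?_ (by positivity) (by ring)
      rw [sub_nonneg, div_le_one hy0']
      have hα' : α = 1 - β := by linarith
      subst hα'
      nlinarith
  · refine convexHull_min ?_ ((convex_convexHull ℝ s).inter hconvp)
    rintro x (hx | ⟨y, hy, z, hz, rfl⟩)
    · exact ⟨subset_convexHull ℝ _ hx.1, hx.2⟩
    · have hy0 := hy.2
      have hz0 := hz.2
      have hD : 0 < a y - a z := by linarith
      have hsum : a y / (a y - a z) + -a z / (a y - a z) = 1 := by field_simp; ring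
      refine ⟨(convex_convexHull ℝ s) (subset_convexHull ℝ _ hz.1) (subset_convexHull ℝ _ hy.1)
        (by positivity) (div_nonneg (by linarith) hD.le) hsum, ?_⟩
      simp only [mem_ofPred_eq, cross]
      rw [affine_comb a hsum]
      have : a y / (a y - a z) * a z + -a z / (a y - a z) * a y = 0 := by field_simp; ring
      rw [this]

theorem VP.inter_nonpos {C : Set V} (hC : VP C) (a : V →ᵃ[ℝ] ℝ) : VP (C ∩ {x | a x ≤ 0}) := by
  have := hC.inter_nonneg (-a)
  simpa using this

/-- a V-polytope is a finite union of V-polytopes on which finitely many given affine functionals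
have constant sign -/
theorem VP.cells_sign {Q : Set V} (hQ : VP Q) {A : Set (V →ᵃ[ℝ] ℝ)} (hA : A.Finite) :
    ∃ 𝒞 : Set (Set V), 𝒞.Finite ∧ (∀ C ∈ 𝒞, VP C) ∧ ⋃₀ 𝒞 = Q ∧
      ∀ C ∈ 𝒞, ∀ a ∈ A, (∀ x ∈ C, 0 ≤ a x) ∨ (∀ x ∈ C, a x ≤ 0) := by
  induction A, hA using Set.Finite.induction_on with
  | empty => exact ⟨{Q}, finite_singleton Q, by simpa using hQ, by simp, by simp⟩
  | @insert a A _ _ ih =>
    obtain ⟨𝒞, h1, h2, h3, h4⟩ := ih
    refine ⟨(fun C => C ∩ {x | 0 ≤ a x}) '' 𝒞 ∪ (fun C => C ∩ {x | a x ≤ 0}) '' 𝒞,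
      (h1.image _).union (h1.image _), ?_, ?_, ?_⟩
    · rintro C (⟨D, hD, rfl⟩ | ⟨D, hD, rfl⟩)
      · exact (h2 D hD).inter_nonneg a
      · exact (h2 D hD).inter_nonpos a
    · rw [← h3]
      ext x
      simp only [mem_sUnion, mem_union, mem_image]
      constructor
      · rintro ⟨C, (⟨D, hD, rfl⟩ | ⟨D, hD, rfl⟩), hx⟩
        · exact ⟨D, hD, hx.1⟩
        · exact ⟨D, hD, hx.1⟩
      · rintro ⟨D, hD, hx⟩
        rcases le_total 0 (a x) with h | h
        · exact ⟨_, Or.inl ⟨D, hD, rfl⟩, hx, h⟩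
        · exact ⟨_, Or.inr ⟨D, hD, rfl⟩, hx, h⟩
    · rintro C (⟨D, hD, rfl⟩ | ⟨D, hD, rfl⟩) b hb
      · rcases mem_insert_iff.1 hb with rfl | hb
        · left; exact fun x hx => hx.2
        · rcases h4 D hD b hb with h | h
          · left; exact fun x hx => h x hx.1
          · right; exact fun x hx => h x hx.1
      · rcases mem_insert_iff.1 hb with rfl | hb
        · right; exact fun x hx => hx.2
        · rcases h4 D hD b hb with h | h
          · left; exact fun x hx => h x hx.1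
          · right; exact fun x hx => h x hx.1

/-! ### PL functions are affine on suitable cells -/

theorem convex_zero (a : V →ᵃ[ℝ] ℝ) : Convex ℝ {x | a x = 0} := by
  intro x hx y hy s t _ _ hst
  simp only [mem_ofPred_eq] at *
  rw [affine_comb a hst, hx, hy]; simp

theorem exists_generic {s : Set V} (hs : s.Finite) (hne : s.Nonempty) :
    ∃ x₀ ∈ convexHull ℝ s, ∀ a : V →ᵃ[ℝ] ℝ, (∀ x ∈ convexHull ℝ s, 0 ≤ a x) → a x₀ = 0 →
      ∀ x ∈ convexHull ℝ s, a x = 0 := by
  induction s, hs using Set.Finite.induction_on with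
  | empty => exact absurd hne (by simp)
  | @insert p s _ _ ih =>
    rcases s.eq_empty_or_nonempty with rfl | hs'
    · refine ⟨p, by simp, fun a _ h x hx => ?_⟩
      simp only [insert_empty_eq, convexHull_singleton, mem_singleton_iff] at hx
      rw [hx]; exact h
    · obtain ⟨x₀, hx₀, h⟩ := ih hs'
      have hp : p ∈ convexHull ℝ (insert p s) := subset_convexHull ℝ _ (mem_insert _ _)
      have hsub : convexHull ℝ s ⊆ convexHull ℝ (insert p s) :=
        convexHull_mono (subset_insert _ _)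
      refine ⟨(1/2 : ℝ) • p + (1/2 : ℝ) • x₀, ?_, fun a ha h0 => ?_⟩
      · exact (convex_convexHull ℝ _) hp (hsub hx₀) (by norm_num) (by norm_num) (by norm_num)
      · rw [affine_comb a (by norm_num)] at h0
        have h1 := ha p hp
        have h2 := ha x₀ (hsub hx₀)
        have h3 : a p = 0 := by linarith
        have h4 : a x₀ = 0 := by linarith
        have h5 := h a (fun x hx => ha x (hsub hx)) h4
        have : convexHull ℝ (insert p s) ⊆ {x | a x = 0} := by
          refine convexHull_min ?_ (convex_zero a)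
          intro x hx
          rcases mem_insert_iff.1 hx with rfl | hx
          · exact h3
          · exact h5 x (subset_convexHull ℝ _ hx)
        exact fun x hx => this hx

/-- a PL function whose selections are ordered on the V-polytope `C` is affine on `C` -/
theorem affine_of_signs {C : Set V} (hC : VP C) {f : V → ℝ} (hf : Continuous f)
    {G : Set (V →ᵃ[ℝ] ℝ)} (hG : G.Finite) (hsel : ∀ x, ∃ g ∈ G, f x = g x)
    (hs : ∀ g ∈ G, ∀ g' ∈ G, (∀ x ∈ C, 0 ≤ (g - g') x) ∨ (∀ x ∈ C, (g - g') x ≤ 0)) :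
    ∃ g : V →ᵃ[ℝ] ℝ, ∀ x ∈ C, f x = g x := by
  rcases C.eq_empty_or_nonempty with rfl | hne
  · exact ⟨0, by simp⟩
  obtain ⟨s, hsf, rfl⟩ := hC
  have hsne : s.Nonempty := by
    rw [nonempty_iff_ne_empty]; rintro rfl; simp at hne
  obtain ⟨x₀, hx₀, hgen⟩ := exists_generic hsf hsne
  obtain ⟨g, hg, hgx⟩ := hsel x₀
  refine ⟨g, fun x hx => ?_⟩
  -- the path
  let γ : ℝ → V := fun t => (1 - t) • x₀ + t • x
  have hγ : Continuous γ := by fun_prop
  have hgen' : ∀ t ∈ Ico (0:ℝ) 1, ∀ g' ∈ G, g (γ t) = g' (γ t) →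
      ∀ y ∈ convexHull ℝ s, g y = g' y := by
    intro t ht g' hg' h y hy
    have hA : ∀ a : V →ᵃ[ℝ] ℝ, (∀ x ∈ convexHull ℝ s, 0 ≤ a x) → a (γ t) = 0 →
        ∀ y ∈ convexHull ℝ s, a y = 0 := by
      intro a ha h0
      refine hgen a ha ?_
      have h0' : (1 - t) * a x₀ + t * a x = 0 := by
        rw [← affine_comb a (by ring : (1 - t) + t = 1)]; exact h0
      have h1 := ha x₀ hx₀
      have h2 := mul_nonneg ht.1 (ha x hx)
      have h3 : 0 < 1 - t := by linarith [ht.2]
      have h4 := mul_nonneg h3.le h1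
      have : (1 - t) * a x₀ = 0 := by linarith
      rcases mul_eq_zero.1 this with h | h
      · linarith
      · exact h
    rcases hs g hg g' hg' with hh | hh
    · have := hA (g - g') hh (by simp [h]) y hy
      simpa [sub_eq_zero] using this
    · have := hA (g' - g) (fun x hx => by simpa using hh x hx) (by simp [h]) y hy
      simp only [AffineMap.coe_sub, Pi.sub_apply, sub_eq_zero] at this
      exact this.symm
  let T : Set ℝ := {t | f (γ t) = g (γ t)}
  let T' : Set ℝ := ⋃ g' ∈ {g' ∈ G | ¬ ∀ y ∈ convexHull ℝ s, g y = g' y},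
    {t | f (γ t) = g' (γ t)}
  have hline : ∀ a : V →ᵃ[ℝ] ℝ, Continuous fun t => a (γ t) := by
    intro a
    have : (fun t => a (γ t)) = fun t => (1 - t) * a x₀ + t * a x := by
      funext t; exact affine_comb a (by ring)
    rw [this]; fun_prop
  have hT : IsClosed T := isClosed_eq (hf.comp hγ) (hline g)
  have hT' : IsClosed T' :=
    (hG.subset (sep_subset _ _)).isClosed_biUnion fun g' _ => isClosed_eq (hf.comp hγ) (hline g')
  have hsubT : Ico (0:ℝ) 1 ⊆ T ∪ T' := by
    intro t _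
    obtain ⟨g', hg', h⟩ := hsel (γ t)
    by_cases hh : ∀ y ∈ convexHull ℝ s, g y = g' y
    · by_cases ht : t ∈ Icc (0:ℝ) 1
      · left
        have : γ t ∈ convexHull ℝ s := (convex_convexHull ℝ s) hx₀ hx (by linarith [ht.2]) ht.1
          (by ring)
        show f (γ t) = g (γ t)
        rw [h, hh _ this]
      · exact absurd ⟨by assumption, by assumption⟩ (fun _ : (t ∈ Ico (0:ℝ) 1) ∧
          t ∈ Ico (0:ℝ) 1 => ht ⟨by have := ‹t ∈ Ico (0:ℝ) 1›; exact this.1,
            by have := ‹t ∈ Ico (0:ℝ) 1›; exact this.2.le⟩)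
    · right
      exact mem_biUnion (show g' ∈ {g' ∈ G | ¬ ∀ y ∈ convexHull ℝ s, g y = g' y} from ⟨hg', hh⟩) h
  have h0T : (0:ℝ) ∈ T := by
    show f (γ 0) = g (γ 0)
    simpa [γ] using hgx
  have hsubT2 : Ico (0:ℝ) 1 ⊆ T := by
    intro t ht
    by_contra hnt
    have htT' : t ∈ T' := (hsubT ht).resolve_left hnt
    have := isPreconnected_closed_iff.1 (isPreconnected_Ico (a := (0:ℝ)) (b := 1)) T T' hT hT'
      hsubT ⟨0, ⟨le_rfl, one_pos⟩, h0T⟩ ⟨t, ht, htT'⟩
    obtain ⟨u, hu, huT, huT'⟩ := this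
    obtain ⟨g', hg', hu'⟩ := mem_iUnion₂.1 huT'
    have hg1 : g' ∈ G ∧ ¬ ∀ y ∈ convexHull ℝ s, g y = g' y := hg'
    refine hg1.2 (hgen' u hu g' hg1.1 ?_)
    have e1 : f (γ u) = g (γ u) := huT
    have e2 : f (γ u) = g' (γ u) := hu'
    rw [← e1, e2]
  have h1 : (1:ℝ) ∈ closure (Ico (0:ℝ) 1) := by
    rw [closure_Ico (by norm_num)]; exact ⟨zero_le_one, le_rfl⟩
  have h1T : (1:ℝ) ∈ T := hT.closure_subset (closure_mono hsubT2 h1)
  have : f (γ 1) = g (γ 1) := h1T
  simpa [γ] using this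

/-- **cell theorem**: a V-polytope is a finite union of V-polytopes on which a given PL map is
affine and finitely many given affine functionals have constant sign -/
theorem PLMap.cells [FiniteDimensional ℝ W] {f : V → W} (hf : PLMap f) {Q : Set V} (hQ : VP Q)
    {A : Set (V →ᵃ[ℝ] ℝ)} (hA : A.Finite) :
    ∃ 𝒞 : Set (Set V), 𝒞.Finite ∧ (∀ C ∈ 𝒞, VP C) ∧ ⋃₀ 𝒞 = Q ∧
      (∀ C ∈ 𝒞, ∃ g : V →ᵃ[ℝ] W, ∀ x ∈ C, f x = g x) ∧
      ∀ C ∈ 𝒞, ∀ a ∈ A, (∀ x ∈ C, 0 ≤ a x) ∨ (∀ x ∈ C, a x ≤ 0) := by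
  classical
  obtain ⟨hfc, G, hG, hsel⟩ := hf
  let b := Module.finBasis ℝ W
  let co : (V →ᵃ[ℝ] W) → Fin (Module.finrank ℝ W) → (V →ᵃ[ℝ] ℝ) := fun g i =>
    (b.coord i).toAffineMap.comp g
  let B : Set (V →ᵃ[ℝ] ℝ) := ⋃ i, image2 (fun g g' => co g i - co g' i) G G
  have hB : B.Finite := finite_iUnion fun i => hG.image2 _ hG
  obtain ⟨𝒞, h1, h2, h3, h4⟩ := hQ.cells_sign (hA.union hB)
  refine ⟨𝒞, h1, h2, h3, fun C hC => ?_, fun C hC a ha => h4 C hC a (Or.inl ha)⟩
  have key : ∀ i, ∃ g : V →ᵃ[ℝ] ℝ, ∀ x ∈ C, b.coord i (f x) = g x := by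
    intro i
    refine affine_of_signs (h2 C hC) (f := fun x => b.coord i (f x))
      ((b.coord i).continuous_of_finiteDimensional.comp hfc)
      (hG.image fun g => co g i) ?_ ?_
    · intro x
      obtain ⟨g, hg, h⟩ := hsel x
      exact ⟨co g i, mem_image_of_mem _ hg, by simp [co, h]⟩
    · rintro _ ⟨g, hg, rfl⟩ _ ⟨g', hg', rfl⟩
      exact h4 C hC _ (Or.inr (mem_iUnion.2 ⟨i, mem_image2_of_mem hg hg'⟩))
  choose g hg using key
  refine ⟨b.equivFun.symm.toLinearMap.toAffineMap.comp (AffineMap.pi g), fun x hx => ?_⟩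
  have : (AffineMap.pi g) x = b.equivFun (f x) := by
    funext i
    rw [AffineMap.pi_apply, ← hg i x hx]; rfl
  simp only [AffineMap.comp_apply, LinearMap.coe_toAffineMap, this]
  simp

end Crest.Agent.R096.Pl
end

-- ▼ part R096/PlInv_296
section

/-!
# Domination lemma and PL inverses (helper296, row 96, P2-Y)
-/

namespace Crest.Agent.R096.Pl

open Set

variable {V W : Type*} [NormedAddCommGroup V] [NormedSpace ℝ V]
  [NormedAddCommGroup W] [NormedSpace ℝ W]

theorem VP.nonneg_of_vertices {s : Set V} {a : V →ᵃ[ℝ] ℝ} (h : ∀ p ∈ s, 0 ≤ a p) :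
    ∀ x ∈ convexHull ℝ s, 0 ≤ a x := by
  have hc : Convex ℝ {x | 0 ≤ a x} := by
    intro x hx y hy s t hs ht hst
    simp only [mem_ofPred_eq] at *
    rw [affine_comb a hst]; positivity
  have : convexHull ℝ s ⊆ {x | 0 ≤ a x} := convexHull_min (fun p hp => h p hp) hc
  exact fun x hx => this hx

/-- domination on one cell, affine functions -/
theorem domination_cell {s : Set V} (hs : s.Finite) {w d : V →ᵃ[ℝ] ℝ}
    (hw : ∀ x ∈ convexHull ℝ s, 0 ≤ w x)
    (h : ∀ x ∈ convexHull ℝ s, 0 < w x → 0 < d x) :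
    ∃ K : ℝ, 0 ≤ K ∧ ∀ x ∈ convexHull ℝ s, 0 < w x → w x ≤ K * d x := by
  by_cases hq : ∃ q ∈ s, 0 < w q
  · obtain ⟨q, hq, hwq⟩ := hq
    have hqs := subset_convexHull ℝ s hq
    have hd0 : ∀ p ∈ s, 0 ≤ d p := by
      intro p hp
      by_contra hneg
      push Not at hneg
      have hdq := h q hqs hwq
      -- point on the segment where `d < 0` and `w > 0`
      have hps := subset_convexHull ℝ s hp
      let t : ℝ := (-d p) / (2 * (d q - d p))
      have hden : 0 < d q - d p := by linarith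
      have ht0 : 0 < t := by
        apply div_pos <;> linarith
      have ht1 : t < 1 := by
        rw [div_lt_one (by linarith)]; linarith
      have hmem : (1 - t) • p + t • q ∈ convexHull ℝ s :=
        (convex_convexHull ℝ s) hps hqs (by linarith) ht0.le (by ring)
      have h1 : 0 < w ((1 - t) • p + t • q) := by
        rw [affine_comb w (by ring)]
        have := hw p hps
        have := mul_pos ht0 hwq
        have := mul_nonneg (by linarith : (0:ℝ) ≤ 1 - t) (hw p hps)
        linarith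
      have h2 := h _ hmem h1
      rw [affine_comb d (by ring)] at h2
      have h3 : t * (d q - d p) = -d p / 2 := by
        simp only [t]; field_simp
      have : (1 - t) * d p + t * d q = d p + t * (d q - d p) := by ring
      rw [this, h3] at h2
      linarith
    obtain ⟨K, hK⟩ := (hs.image fun p => w p / d p).bddAbove
    refine ⟨max K 0, le_max_right _ _, fun x hx _ => ?_⟩
    have key : ∀ p ∈ s, 0 ≤ (max K 0 • d - w) p := by
      intro p hp
      have hps := subset_convexHull ℝ s hp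
      simp only [AffineMap.coe_sub, AffineMap.coe_smul, Pi.sub_apply, Pi.smul_apply, smul_eq_mul,
        sub_nonneg]
      rcases (hw p hps).eq_or_lt with h0 | h0
      · rw [← h0]; exact mul_nonneg (le_max_right _ _) (hd0 p hp)
      · have hdp := h p hps h0
        have := hK (mem_image_of_mem _ hp)
        rw [div_le_iff₀ hdp] at this
        exact this.trans (mul_le_mul_of_nonneg_right (le_max_left _ _) hdp.le)
    have := VP.nonneg_of_vertices key x hx
    simpa using this
  · push Not at hq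
    refine ⟨0, le_rfl, fun x hx hpos => ?_⟩
    have := VP.nonneg_of_vertices (a := -w) (fun p hp => by simpa using hq p hp) x hx
    simp at this
    linarith

/-- **domination lemma**: two PL functions `w, d` on a V-polytope with `d > 0` wherever `w > 0`
satisfy `w ≤ K d` wherever `w > 0`. -/
theorem domination {Q : Set V} (hQ : VP Q) {w d : V → ℝ} (hw : PLMap w) (hd : PLMap d)
    (h : ∀ x ∈ Q, 0 < w x → 0 < d x) :
    ∃ K : ℝ, 0 < K ∧ ∀ x ∈ Q, 0 < w x → w x ≤ K * d x := by
  obtain ⟨𝒞, h1, h2, h3, h4, -⟩ := (hw.prodMk hd).cells hQ (A := ∅) finite_empty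
  have key : ∀ C ∈ 𝒞, ∃ K : ℝ, 0 ≤ K ∧ ∀ x ∈ C, 0 < w x → w x ≤ K * d x := by
    intro C hC
    obtain ⟨g, hg⟩ := h4 C hC
    let w' : V →ᵃ[ℝ] ℝ := AffineMap.fst.comp g
    let d' : V →ᵃ[ℝ] ℝ := AffineMap.snd.comp g
    have hw' : ∀ x ∈ C, w x = w' x := fun x hx => by
      exact congrArg Prod.fst (hg x hx)
    have hd' : ∀ x ∈ C, d x = d' x := fun x hx => by
      exact congrArg Prod.snd (hg x hx)
    obtain ⟨s, hs, hCs⟩ := (h2 C hC).inter_nonneg w'
    have hsub : convexHull ℝ s ⊆ C := by rw [← hCs]; exact inter_subset_left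
    have hCQ : C ⊆ Q := by rw [← h3]; exact subset_sUnion_of_mem hC
    obtain ⟨K, hK0, hK⟩ := domination_cell hs (w := w') (d := d')
      (fun x hx => by rw [← hCs] at hx; exact hx.2)
      (fun x hx hpos => by
        rw [← hd' x (hsub hx)]
        rw [← hw' x (hsub hx)] at hpos
        exact h x (hCQ (hsub hx)) hpos)
    refine ⟨K, hK0, fun x hx hpos => ?_⟩
    rw [hw' x hx] at hpos
    rw [hw' x hx, hd' x hx]
    refine hK x ?_ hpos
    rw [← hCs]
    exact ⟨hx, hpos.le⟩
  choose! K hK0 hK using key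
  obtain ⟨M, hM⟩ := (h1.image K).bddAbove
  refine ⟨max M 1, by positivity, fun x hx hpos => ?_⟩
  rw [← h3] at hx
  obtain ⟨C, hC, hxC⟩ := hx
  have h5 : x ∈ Q := by rw [← h3]; exact ⟨C, hC, hxC⟩
  refine (hK C hC x hxC hpos).trans ?_
  refine mul_le_mul_of_nonneg_right ?_ (h x h5 hpos).le
  exact (hM (mem_image_of_mem _ hC)).trans (le_max_left _ _)

/-! ### inverses -/

/-- the span of the differences of a convex set -/
def diffSpan {C : Set V} (hC : Convex ℝ C) (x₀ : V) (hx₀ : x₀ ∈ C) : Submodule ℝ V where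
  carrier := {u | ∃ t : ℝ, 0 ≤ t ∧ ∃ x ∈ C, ∃ y ∈ C, u = t • (x - y)}
  zero_mem' := ⟨0, le_rfl, x₀, hx₀, x₀, hx₀, by simp⟩
  add_mem' := by
    rintro u v ⟨t, ht, x, hx, y, hy, rfl⟩ ⟨t', ht', x', hx', y', hy', rfl⟩
    rcases (add_nonneg ht ht').eq_or_lt with h | h
    · have h1 : t = 0 := by linarith
      have h2 : t' = 0 := by linarith
      exact ⟨0, le_rfl, x₀, hx₀, x₀, hx₀, by simp [h1, h2]⟩
    · refine ⟨t + t', h.le, (t / (t + t')) • x + (t' / (t + t')) • x',
        hC hx hx' (by positivity) (by positivity) (by field_simp),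
        (t / (t + t')) • y + (t' / (t + t')) • y',
        hC hy hy' (by positivity) (by positivity) (by field_simp), ?_⟩
      match_scalars <;> field_simp
  smul_mem' := by
    rintro c u ⟨t, ht, x, hx, y, hy, rfl⟩
    rcases le_total 0 c with h | h
    · exact ⟨c * t, mul_nonneg h ht, x, hx, y, hy, by rw [mul_smul]⟩
    · exact ⟨(-c) * t, mul_nonneg (by linarith) ht, y, hy, x, hx, by module⟩

/-- an affine map injective on a convex set has an affine left inverse there -/
theorem exists_affine_leftInv {C : Set V} (hC : Convex ℝ C) (g : V →ᵃ[ℝ] W) (hg : InjOn g C) :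
    ∃ g' : W →ᵃ[ℝ] V, ∀ x ∈ C, g' (g x) = x := by
  rcases C.eq_empty_or_nonempty with rfl | ⟨x₀, hx₀⟩
  · exact ⟨AffineMap.const ℝ W 0, by simp⟩
  set M := diffSpan hC x₀ hx₀ with hM
  have hinj : LinearMap.ker (g.linear.comp M.subtype) = ⊥ := by
    rw [LinearMap.ker_eq_bot']
    rintro ⟨u, t, ht, x, hx, y, hy, rfl⟩ hu
    simp only [LinearMap.comp_apply, Submodule.subtype_apply, map_smul] at hu
    have e : g.linear (x - y) = g x - g y := by
      rw [← vsub_eq_sub, AffineMap.linearMap_vsub, vsub_eq_sub]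
    rw [e] at hu
    rcases smul_eq_zero.1 hu with h | h
    · subst h; ext; simp
    · have := hg hx hy (sub_eq_zero.1 h)
      subst this; ext; simp
  obtain ⟨ψ, hψ⟩ := LinearMap.exists_leftInverse_of_injective _ hinj
  let φ : W →ₗ[ℝ] V := M.subtype.comp ψ
  refine ⟨φ.toAffineMap.comp (AffineMap.id ℝ W - AffineMap.const ℝ W (g x₀)) +
    AffineMap.const ℝ W x₀, fun x hx => ?_⟩
  have hmem : x - x₀ ∈ M := ⟨1, zero_le_one, x, hx, x₀, hx₀, by simp⟩
  have h1 := LinearMap.congr_fun hψ ⟨x - x₀, hmem⟩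
  simp only [LinearMap.comp_apply, Submodule.subtype_apply, LinearMap.id_apply] at h1
  have e : g.linear (x - x₀) = g x - g x₀ := by
    rw [← vsub_eq_sub, AffineMap.linearMap_vsub, vsub_eq_sub]
  rw [e] at h1
  simp only [AffineMap.coe_add, Pi.add_apply, AffineMap.comp_apply, AffineMap.coe_sub,
    Pi.sub_apply, AffineMap.id_apply, AffineMap.const_apply, LinearMap.coe_toAffineMap, φ,
    LinearMap.comp_apply, Submodule.subtype_apply, h1]
  abel

/-- finite affine selections on a set -/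
def SelOn (f : V → W) (S : Set V) : Prop :=
  ∃ G : Set (V →ᵃ[ℝ] W), G.Finite ∧ ∀ x ∈ S, ∃ g ∈ G, f x = g x

theorem PLMap.selOn {f : V → W} (hf : PLMap f) (S : Set V) : SelOn f S := by
  obtain ⟨-, G, hG, h⟩ := hf
  exact ⟨G, hG, fun x _ => h x⟩

theorem SelOn.mono {f : V → W} {S T : Set V} (h : SelOn f S) (hT : T ⊆ S) : SelOn f T := by
  obtain ⟨G, hG, h⟩ := h
  exact ⟨G, hG, fun x hx => h x (hT hx)⟩

theorem SelOn.union {f : V → W} {S T : Set V} (h : SelOn f S) (h' : SelOn f T) :
    SelOn f (S ∪ T) := by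
  obtain ⟨G, hG, h⟩ := h
  obtain ⟨G', hG', h'⟩ := h'
  refine ⟨G ∪ G', hG.union hG', fun x hx => ?_⟩
  rcases hx with hx | hx
  · obtain ⟨g, hg, e⟩ := h x hx
    exact ⟨g, Or.inl hg, e⟩
  · obtain ⟨g, hg, e⟩ := h' x hx
    exact ⟨g, Or.inr hg, e⟩

/-- **PL inverses**: a PL map injective on a V-polytope has finitely many affine left inverses -/
theorem PLMap.exists_inverse [FiniteDimensional ℝ W] {f : V → W} (hf : PLMap f) {Q : Set V}
    (hQ : VP Q) (hinj : InjOn f Q) :
    ∃ G : Set (W →ᵃ[ℝ] V), G.Finite ∧ ∀ x ∈ Q, ∃ g ∈ G, g (f x) = x := by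
  obtain ⟨𝒞, h1, h2, h3, h4, -⟩ := hf.cells hQ (A := ∅) finite_empty
  have key : ∀ C ∈ 𝒞, ∃ g' : W →ᵃ[ℝ] V, ∀ x ∈ C, g' (f x) = x := by
    intro C hC
    obtain ⟨g, hg⟩ := h4 C hC
    have hCQ : C ⊆ Q := by rw [← h3]; exact subset_sUnion_of_mem hC
    obtain ⟨g', hg'⟩ := exists_affine_leftInv (h2 C hC).convex g (by
      intro x hx y hy hxy
      exact hinj (hCQ hx) (hCQ hy) (by rw [hg x hx, hg y hy, hxy]))
    exact ⟨g', fun x hx => by rw [hg x hx, hg' x hx]⟩
  choose! g' hg' using key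
  refine ⟨g' '' 𝒞, h1.image _, fun x hx => ?_⟩
  rw [← h3] at hx
  obtain ⟨C, hC, hxC⟩ := hx
  exact ⟨g' C, mem_image_of_mem _ hC, hg' C hC x hxC⟩

/-- the inverse of a PL map injective on a V-polytope has finite affine selections -/
theorem PLMap.selOn_inverse [FiniteDimensional ℝ W] {f : V → W} (hf : PLMap f) {Q : Set V}
    (hQ : VP Q) (hinj : InjOn f Q) {f' : W → V} (hf' : ∀ x ∈ Q, f' (f x) = x) :
    SelOn f' (f '' Q) := by
  obtain ⟨G, hG, h⟩ := hf.exists_inverse hQ hinj
  refine ⟨G, hG, ?_⟩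
  rintro _ ⟨x, hx, rfl⟩
  obtain ⟨g, hg, e⟩ := h x hx
  exact ⟨g, hg, by rw [hf' x hx, e]⟩

end Crest.Agent.R096.Pl
end

-- ▼ part R096/PlCut_296

/-!
# The cut lemma for PL spheres (helper296, row 96, P2-Y)

Model: `V = F × ℝ`, `F` a finite dimensional space with a polyhedral norm;
`Kp`, `Km` the upper / lower boundary disc of the double cone `{‖x‖ + |z| ≤ 1}`, `Eq` the equator.
`StdS E₁ E₂`: there is a PL homeomorphism of `F × ℝ` which maps `Kp` onto `E₁`, `Km` onto `E₂`.

`cut_lemma`: if `(E₁, D)` and `(E₂, D)` are standard with the same boundary `Γ` and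
`E₁ ∩ E₂ = Γ`, then `(E₁, E₂)` is standard.
-/

namespace Crest.Agent.R096.Pl

open Set Metric

set_option linter.unusedSectionVars false

theorem trans_image {X Y Z : Type*} [TopologicalSpace X] [TopologicalSpace Y] [TopologicalSpace Z]
    (h : X ≃ₜ Y) (k : Y ≃ₜ Z) (s : Set X) : (h.trans k) '' s = k '' (h '' s) :=
  image_comp k h s

theorem symm_image_image' {X Y : Type*} [TopologicalSpace X] [TopologicalSpace Y]
    (h : X ≃ₜ Y) (s : Set X) : h.symm '' (h '' s) = s := by
  rw [← image_comp]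
  convert image_id _ using 2
  ext q; simp

theorem image_symm_image' {X Y : Type*} [TopologicalSpace X] [TopologicalSpace Y]
    (h : X ≃ₜ Y) (s : Set Y) : h '' (h.symm '' s) = s := by
  rw [← image_comp]
  convert image_id _ using 2
  ext q; simp

variable {F : Type*} [NormedAddCommGroup F] [NormedSpace ℝ F]

/-- the norm of `F` is polyhedral -/
structure PolyNorm (F : Type*) [NormedAddCommGroup F] [NormedSpace ℝ F] : Prop where
  pl : PLMap (fun x : F => ‖x‖)
  vp : VP (closedBall (0 : F) 1)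

/-- the double cone gauge -/
def N1 (p : F × ℝ) : ℝ := ‖p.1‖ + |p.2|

variable (F) in
/-- upper disc of the double cone -/
def Kp : Set (F × ℝ) := {p | 0 ≤ p.2 ∧ N1 p = 1}

variable (F) in
/-- lower disc of the double cone -/
def Km : Set (F × ℝ) := {p | p.2 ≤ 0 ∧ N1 p = 1}

variable (F) in
/-- the equator -/
def Eqt : Set (F × ℝ) := {p | p.2 = 0 ∧ ‖p.1‖ = 1}

variable (F) in
/-- the double cone sphere -/
def S1 : Set (F × ℝ) := {p | N1 p = 1}

variable (F) in
def U1 : Set (F × ℝ) := {p | N1 p < 1}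

variable (F) in
def X1 : Set (F × ℝ) := {p | 1 < N1 p}

theorem N1_continuous : Continuous (N1 : F × ℝ → ℝ) := by unfold N1; fun_prop

theorem N1_smul (c : ℝ) (p : F × ℝ) : N1 (c • p) = |c| * N1 p := by
  simp only [N1, Prod.smul_fst, Prod.smul_snd, norm_smul, smul_eq_mul, abs_mul, Real.norm_eq_abs]
  ring

theorem N1_nonneg (p : F × ℝ) : 0 ≤ N1 p := by unfold N1; positivity

theorem N1_zero : N1 (0 : F × ℝ) = 0 := by simp [N1]

theorem N1_eq_zero {p : F × ℝ} : N1 p = 0 ↔ p = 0 := by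
  constructor
  · intro h
    unfold N1 at h
    have h1 : ‖p.1‖ = 0 := by have := norm_nonneg p.1; have := abs_nonneg p.2; linarith
    have h2 : |p.2| = 0 := by have := norm_nonneg p.1; have := abs_nonneg p.2; linarith
    ext
    · simpa using h1
    · simpa using h2
  · rintro rfl; exact N1_zero

theorem norm_le_N1 (p : F × ℝ) : ‖p‖ ≤ N1 p := by
  rw [Prod.norm_def, Real.norm_eq_abs]
  unfold N1
  exact max_le (by have := abs_nonneg p.2; linarith) (by have := norm_nonneg p.1; linarith)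

theorem N1_pl (hF : PolyNorm F) : PLMap (N1 : F × ℝ → ℝ) :=
  (hF.pl.comp PLMap.id.fst).add PLMap.id.snd.abs

theorem isOpen_U1 : IsOpen (U1 F) := isOpen_lt N1_continuous continuous_const

theorem isOpen_X1 : IsOpen (X1 F) := isOpen_lt continuous_const N1_continuous

theorem Kp_union_Km : Kp F ∪ Km F = S1 F := by
  ext p
  simp only [Kp, Km, S1, mem_union, mem_ofPred_eq]
  constructor
  · rintro (h | h)
    · exact h.2
    · exact h.2
  · intro h
    rcases le_total 0 p.2 with h' | h'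
    · exact Or.inl ⟨h', h⟩
    · exact Or.inr ⟨h', h⟩

theorem Kp_inter_Km : Kp F ∩ Km F = Eqt F := by
  ext p
  simp only [Kp, Km, Eqt, mem_inter_iff, mem_ofPred_eq, N1]
  constructor
  · rintro ⟨⟨h1, h2⟩, h3, -⟩
    have h0 : p.2 = 0 := le_antisymm h3 h1
    rw [h0] at h2
    exact ⟨h0, by simpa using h2⟩
  · rintro ⟨h1, h2⟩
    rw [h1]; simp [h2]

theorem Eqt_subset_Kp : Eqt F ⊆ Kp F := by rw [← Kp_inter_Km]; exact inter_subset_left

theorem Eqt_subset_Km : Eqt F ⊆ Km F := by rw [← Kp_inter_Km]; exact inter_subset_right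

/-- graph parametrisation of the upper disc -/
def ep (x : F) : F × ℝ := (x, 1 - ‖x‖)

/-- graph parametrisation of the lower disc -/
def em (x : F) : F × ℝ := (x, -(1 - ‖x‖))

theorem ep_pl (hF : PolyNorm F) : PLMap (ep : F → F × ℝ) :=
  PLMap.id.prodMk ((PLMap.const 1).sub hF.pl)

theorem em_pl (hF : PolyNorm F) : PLMap (em : F → F × ℝ) :=
  PLMap.id.prodMk ((PLMap.const 1).sub hF.pl).neg

theorem ep_image : ep '' closedBall (0 : F) 1 = Kp F := by
  ext p
  simp only [mem_image, mem_closedBall, dist_zero_right, Kp, mem_ofPred_eq, N1, ep]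
  constructor
  · rintro ⟨x, hx, rfl⟩
    refine ⟨by simpa using hx, ?_⟩
    simp only
    rw [abs_of_nonneg (by linarith)]; ring
  · rintro ⟨h1, h2⟩
    rw [abs_of_nonneg h1] at h2
    refine ⟨p.1, by linarith, ?_⟩
    ext
    · rfl
    · simp only; linarith

theorem em_image : em '' closedBall (0 : F) 1 = Km F := by
  ext p
  simp only [mem_image, mem_closedBall, dist_zero_right, Km, mem_ofPred_eq, N1, em]
  constructor
  · rintro ⟨x, hx, rfl⟩
    refine ⟨by simpa using hx, ?_⟩
    simp only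
    rw [abs_neg, abs_of_nonneg (by linarith)]; ring
  · rintro ⟨h1, h2⟩
    rw [abs_of_nonpos h1] at h2
    refine ⟨p.1, by linarith, ?_⟩
    ext
    · rfl
    · simp only; linarith

theorem ep_image_ball : ep '' ball (0 : F) 1 = Kp F \ Eqt F := by
  ext p
  simp only [mem_image, mem_ball, dist_zero_right, Kp, Eqt, mem_sdiff, mem_ofPred_eq, N1, ep]
  constructor
  · rintro ⟨x, hx, rfl⟩
    refine ⟨⟨by simp only; linarith, ?_⟩, ?_⟩
    · simp only
      rw [abs_of_nonneg (by linarith)]; ring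
    · rintro ⟨h1, -⟩; simp only at h1; linarith
  · rintro ⟨⟨h1, h2⟩, h3⟩
    rw [abs_of_nonneg h1] at h2
    refine ⟨p.1, ?_, ?_⟩
    · have h4 : ‖p.1‖ ≤ 1 := by linarith
      rcases h4.lt_or_eq with h | h
      · exact h
      · exact absurd ⟨by linarith, h⟩ h3
    · ext
      · rfl
      · simp only; linarith

theorem isPreconnected_Kp_diff : IsPreconnected (Kp F \ Eqt F) := by
  rw [← ep_image_ball]
  refine (convex_ball (0 : F) 1).isPreconnected.image _ ?_
  unfold ep; fun_prop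

theorem Kp_diff_nonempty : (Kp F \ Eqt F).Nonempty := by
  refine ⟨(0, 1), ⟨by simp [Kp, N1], ?_⟩⟩
  simp [Eqt]

/-! ### the reflection -/

variable (F) in
/-- the reflection `(x, z) ↦ (x, -z)` -/
def refl : (F × ℝ) ≃ₜ (F × ℝ) := (Homeomorph.refl F).prodCongr (Homeomorph.neg ℝ)

theorem refl_apply (p : F × ℝ) : refl F p = (p.1, -p.2) := rfl

theorem refl_refl (p : F × ℝ) : refl F (refl F p) = p := by simp [refl_apply]

theorem refl_symm : (refl F).symm = refl F := by
  ext p <;> rfl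

theorem PLH_refl : PLH (refl F) := by
  have h : PLMap (refl F) := PLMap.id.fst.prodMk PLMap.id.snd.neg
  exact ⟨h, by rw [refl_symm]; exact h⟩

theorem refl_image_Kp : refl F '' Kp F = Km F := by
  ext p
  constructor
  · rintro ⟨q, ⟨h1, h2⟩, rfl⟩
    exact ⟨by simpa [refl_apply] using h1, by simpa [refl_apply, N1] using h2⟩
  · rintro ⟨h1, h2⟩
    exact ⟨refl F p, ⟨by simpa [refl_apply] using h1, by simpa [refl_apply, N1] using h2⟩,
      refl_refl p⟩

theorem refl_image_Km : refl F '' Km F = Kp F := by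
  rw [← refl_image_Kp]
  nth_rewrite 1 [← refl_symm]
  exact symm_image_image' _ _

theorem refl_image_Eqt : refl F '' Eqt F = Eqt F := by
  rw [← Kp_inter_Km, image_inter (refl F).injective, refl_image_Kp, refl_image_Km, inter_comm]

/-! ### standard pairs -/

/-- `(E₁, E₂)` is the image of the pair (upper disc, lower disc) -/
def StdS (E₁ E₂ : Set (F × ℝ)) : Prop :=
  ∃ H : (F × ℝ) ≃ₜ (F × ℝ), PLH H ∧ H '' Kp F = E₁ ∧ H '' Km F = E₂

theorem StdS.symm {E₁ E₂ : Set (F × ℝ)} (h : StdS E₁ E₂) : StdS E₂ E₁ := by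
  obtain ⟨H, hH, h1, h2⟩ := h
  refine ⟨(refl F).trans H, PLH_refl.trans hH, ?_, ?_⟩
  · rw [trans_image, refl_image_Kp, h2]
  · rw [trans_image, refl_image_Km, h1]

theorem StdS.map {E₁ E₂ : Set (F × ℝ)} (h : StdS E₁ E₂) {G : (F × ℝ) ≃ₜ (F × ℝ)} (hG : PLH G) :
    StdS (G '' E₁) (G '' E₂) := by
  obtain ⟨H, hH, h1, h2⟩ := h
  exact ⟨H.trans G, hH.trans hG, by rw [trans_image, h1],
    by rw [trans_image, h2]⟩

/-! ### the push step -/

theorem cut_push (hF : PolyNorm F) [FiniteDimensional ℝ F] {E₁ E₂ D Γ : Set (F × ℝ)}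
    {HA HB : (F × ℝ) ≃ₜ (F × ℝ)} (hA : PLH HA) (hB : PLH HB)
    (hA1 : HA '' Kp F = E₁) (hA2 : HA '' Km F = D) (hAΓ : HA '' Eqt F = Γ)
    (hB1 : HB '' Kp F = E₂) (hB2 : HB '' Km F = D) (hBΓ : HB '' Eqt F = Γ)
    (hE : E₁ ∩ E₂ = Γ) (hdis : Disjoint (E₂ \ Γ) (HA '' U1 F)) :
    StdS E₂ E₁ := by
  -- the pulled back disc
  let e : F → F × ℝ := fun x => HA.symm (HB (ep x))
  have he : PLMap e := hA.2.comp (hB.1.comp (ep_pl hF))
  have heHA : ∀ x, HA (e x) = HB (ep x) := fun x => HA.apply_symm_apply _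
  have hmem : ∀ x ∈ closedBall (0 : F) 1, HA (e x) ∈ E₂ := by
    intro x hx
    rw [heHA, ← hB1]
    exact mem_image_of_mem _ (by rw [← ep_image]; exact mem_image_of_mem _ hx)
  have hED : E₂ ∩ D = Γ := by
    rw [← hB1, ← hB2, ← image_inter HB.injective, Kp_inter_Km, hBΓ]
  -- outside the closed double cone, off the rim
  have hout : ∀ x ∈ closedBall (0 : F) 1, 0 < 1 - ‖(e x).1‖ → 1 < N1 (e x) := by
    intro x hx hW
    have hnot : e x ∉ Eqt F := fun h => by
      have := h.2; rw [this] at hW; simp at hW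
    have hnot' : HA (e x) ∉ Γ := by
      rw [← hAΓ]; rintro ⟨q, hq, hq'⟩
      rw [HA.injective hq'] at hq; exact hnot hq
    rcases lt_trichotomy (N1 (e x)) 1 with h | h | h
    · exact absurd (mem_image_of_mem HA (show e x ∈ U1 F from h))
        (disjoint_left.1 hdis ⟨hmem x hx, hnot'⟩)
    · exfalso
      have : e x ∈ Kp F ∪ Km F := by rw [Kp_union_Km]; exact h
      rcases this with h' | h'
      · exact hnot' (hE ▸ ⟨hA1 ▸ mem_image_of_mem HA h', hmem x hx⟩)
      · exact hnot' (hED ▸ ⟨hmem x hx, hA2 ▸ mem_image_of_mem HA h'⟩)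
    · exact h
  let w : F → ℝ := fun x => 1 - ‖(e x).1‖
  let d : F → ℝ := fun x => |(e x).2| - w x
  have hw : PLMap w := (PLMap.const 1).sub (hF.pl.comp he.fst)
  have hd : PLMap d := he.snd.abs.sub hw
  obtain ⟨K, hK0, hK⟩ := domination hF.vp hw hd (by
    intro x hx hpos
    have := hout x hx hpos
    simp only [N1] at this
    simp only [d, w]; linarith)
  obtain ⟨P, hP, hP1, hP2⟩ := exists_push hF.pl (ε := 1 / K) (by positivity)
  have hfix : ∀ x ∈ closedBall (0 : F) 1, P (e x) = e x := by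
    intro x hx
    refine hP2 _ ?_
    have h1K : 0 < 1 + 1 / K := by positivity
    rcases le_or_gt (w x) 0 with h | h
    · have h1 : 1 ≤ ‖(e x).1‖ := by simp only [w] at h; linarith
      have h2 : 0 ≤ |(e x).2| / (1 + 1 / K) := by positivity
      linarith
    · have h2 := hK x hx h
      have h3 : w x * (1 + 1 / K) ≤ |(e x).2| := by
        have h4 : w x / K ≤ d x := by rw [div_le_iff₀ hK0]; linarith
        have h5 : w x * (1 + 1 / K) = w x + w x / K := by ring
        rw [h5]; simp only [d] at h4; linarith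
      have h4 : w x ≤ |(e x).2| / (1 + 1 / K) := by rwa [le_div_iff₀ h1K]
      simp only [w] at h4; linarith
  have hPK : P '' Kp F = Km F := by
    rw [← ep_image, ← em_image, ← image_comp]
    refine image_congr fun x hx => ?_
    exact hP1 x (by simpa using hx)
  have hPK' : P.symm '' Km F = Kp F := by
    rw [← hPK, symm_image_image']
  have hAD : HA.symm '' D = Km F := by
    rw [← hA2, symm_image_image']
  refine ⟨HB.trans (HA.symm.trans (P.symm.trans HA)),
    hB.trans (hA.symm.trans (hP.symm.trans hA)), ?_, ?_⟩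
  · rw [← hB1, ← ep_image, ← image_comp, ← image_comp]
    refine image_congr fun x hx => ?_
    simp only [Function.comp_apply, Homeomorph.trans_apply]
    have : P.symm (e x) = e x := by
      rw [Homeomorph.symm_apply_eq]; exact (hfix x hx).symm
    change HA (P.symm (e x)) = _
    rw [this]; exact heHA x
  · rw [trans_image, hB2, trans_image, hAD,
      trans_image, hPK', hA1]

/-! ### topology of the complement -/

theorem univ_diff_S1 : (S1 F)ᶜ = U1 F ∪ X1 F := by
  ext p
  simp only [S1, U1, X1, mem_compl_iff, mem_union, mem_ofPred_eq]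
  exact ne_iff_lt_or_gt

theorem U1_subset_le : U1 F ⊆ {p : F × ℝ | N1 p ≤ 1} := fun p hp =>
  show N1 p ≤ 1 from le_of_lt (show N1 p < 1 from hp)

theorem S1_subset_le : S1 F ⊆ {p : F × ℝ | N1 p ≤ 1} := fun p hp =>
  show N1 p ≤ 1 from le_of_eq (show N1 p = 1 from hp)

theorem interior_le : interior {p : F × ℝ | N1 p ≤ 1} = U1 F := by
  apply Subset.antisymm
  · intro p hp
    by_contra hnot
    have h1 : 1 ≤ N1 p := not_lt.1 hnot
    have hcont : Continuous fun t : ℝ => (1 + t) • p := by fun_prop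
    have hmem : (1 + (0:ℝ)) • p ∈ interior {p : F × ℝ | N1 p ≤ 1} := by simpa using hp
    have := (hcont.tendsto 0).eventually (isOpen_interior.mem_nhds hmem)
    obtain ⟨δ, hδ, h⟩ := Metric.eventually_nhds_iff.1 this
    have h2 := interior_subset (h (y := δ / 2) (by simp [abs_of_pos hδ]; linarith))
    simp only [mem_ofPred_eq, N1_smul] at h2
    rw [abs_of_pos (by linarith)] at h2
    nlinarith
  · exact interior_maximal U1_subset_le isOpen_U1

theorem isCompact_le [FiniteDimensional ℝ F] : IsCompact {p : F × ℝ | N1 p ≤ 1} := by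
  have hp : ProperSpace (F × ℝ) := FiniteDimensional.proper ℝ _
  refine (isCompact_closedBall (0 : F × ℝ) 1).of_isClosed_subset
    (isClosed_le N1_continuous continuous_const) ?_
  intro p hp
  rw [mem_closedBall, dist_zero_right]
  exact (norm_le_N1 p).trans hp

theorem isConnected_X1 [FiniteDimensional ℝ F] [Nontrivial F] : IsConnected (X1 F) := by
  have hrank : 1 < Module.rank ℝ (F × ℝ) := by
    rw [← Module.finrank_eq_rank, Module.finrank_prod, Module.finrank_self]
    have : 0 < Module.finrank ℝ F := Module.finrank_pos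
    exact_mod_cast Nat.lt_add_of_pos_left this
  have hc : IsConnected ({(0 : F × ℝ)}ᶜ : Set (F × ℝ)) :=
    isConnected_compl_singleton_of_one_lt_rank hrank 0
  have hprod : IsConnected ((Ioi (1:ℝ)) ×ˢ ({(0 : F × ℝ)}ᶜ : Set (F × ℝ))) :=
    (isConnected_Ioi (a := (1:ℝ))).prod hc
  have : X1 F = (fun q : ℝ × (F × ℝ) => (q.1 / N1 q.2) • q.2) '' ((Ioi (1:ℝ)) ×ˢ {(0 : F × ℝ)}ᶜ) := by
    ext p
    constructor
    · intro hp
      have hp' : 1 < N1 p := hp
      refine ⟨(N1 p, p), ⟨hp', ?_⟩, ?_⟩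
      · simp only [mem_compl_iff, mem_singleton_iff]
        intro h0; rw [h0, N1_zero] at hp'; linarith
      · simp only
        rw [div_self (by linarith), one_smul]
    · rintro ⟨⟨r, q⟩, ⟨hr, hq⟩, rfl⟩
      have hq' : q ≠ 0 := hq
      have hN : 0 < N1 q := lt_of_le_of_ne (N1_nonneg q) (fun h => hq' (N1_eq_zero.1 h.symm))
      show 1 < N1 _
      simp only [N1_smul]
      have hr' : (1:ℝ) < r := hr
      rw [abs_of_pos (by positivity), div_mul_cancel₀ _ hN.ne']
      exact hr'
  rw [this]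
  refine hprod.image _ ?_
  have hcd : ContinuousOn (fun q : ℝ × (F × ℝ) => q.1 / N1 q.2)
      ((Ioi (1:ℝ)) ×ˢ {(0 : F × ℝ)}ᶜ) := by
    refine continuous_fst.continuousOn.div (N1_continuous.comp continuous_snd).continuousOn ?_
    rintro ⟨r, q⟩ ⟨_, hq⟩ h
    exact hq (N1_eq_zero.1 h)
  exact hcd.smul continuous_snd.continuousOn

theorem X1_unbounded : ¬ ∃ K : Set (F × ℝ), IsCompact K ∧ X1 F ⊆ K := by
  rintro ⟨K, hK, hX⟩
  obtain ⟨R, hR⟩ := hK.isBounded.subset_closedBall 0
  have hmem : ((0 : F), |R| + 2) ∈ X1 F := by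
    show 1 < N1 _
    simp only [N1, norm_zero, zero_add]
    rw [abs_of_pos (by positivity)]
    have := abs_nonneg R; linarith
  have h1 := hR (hX hmem)
  rw [mem_closedBall, dist_zero_right, Prod.norm_def] at h1
  simp only [norm_zero, Real.norm_eq_abs] at h1
  rw [abs_of_pos (show (0:ℝ) < |R| + 2 by positivity), max_eq_right (by positivity)] at h1
  have := le_abs_self R; linarith

/-- if a standard sphere `A = HA '' S1` lies in the closure of the inside of `B = HB '' S1`, then
the inside of `A` lies in the inside of `B` -/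
theorem inside_subset [FiniteDimensional ℝ F] [Nontrivial F] {HA HB : (F × ℝ) ≃ₜ (F × ℝ)}
    (h : HA '' S1 F ⊆ HB '' {p | N1 p ≤ 1}) : HA '' U1 F ⊆ HB '' U1 F := by
  have hcompl : ∀ H : (F × ℝ) ≃ₜ (F × ℝ), (H '' S1 F)ᶜ = H '' U1 F ∪ H '' X1 F := by
    intro H
    rw [← image_union, ← univ_diff_S1, H.image_compl]
  have hXB : IsPreconnected (HB '' X1 F) :=
    (isConnected_X1.isPreconnected).image _ HB.continuous.continuousOn
  have hdisj : ∀ H : (F × ℝ) ≃ₜ (F × ℝ), Disjoint (H '' X1 F) (H '' {p | N1 p ≤ 1}) := by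
    intro H
    rw [disjoint_image_iff H.injective, disjoint_left]
    intro p hp hp'
    exact absurd (show N1 p ≤ 1 from hp') (not_le.2 hp)
  have hsub : HB '' X1 F ⊆ HA '' U1 F ∪ HA '' X1 F := by
    rw [← hcompl]
    intro p hp hp'
    exact disjoint_left.1 (hdisj HB) hp (h hp')
  have hopU : IsOpen (HA '' U1 F) := HA.isOpenMap _ isOpen_U1
  have hopX : IsOpen (HA '' X1 F) := HA.isOpenMap _ isOpen_X1
  have hdA : Disjoint (HA '' U1 F) (HA '' X1 F) := by
    rw [disjoint_image_iff HA.injective, disjoint_left]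
    intro p hp hp'
    exact absurd (show N1 p < 1 from hp) (not_lt.2 (le_of_lt hp'))
  have hXX : HB '' X1 F ⊆ HA '' X1 F := by
    rcases hXB.subset_or_subset hopU hopX hdA hsub with h' | h'
    · exfalso
      refine X1_unbounded (F := F) ⟨HB.symm '' (HA '' {p | N1 p ≤ 1}),
        (isCompact_le.image HA.continuous).image HB.symm.continuous, ?_⟩
      intro p hp
      have h1 := h' (mem_image_of_mem HB hp)
      obtain ⟨q, hq, hq'⟩ := h1
      exact ⟨HB p, ⟨q, U1_subset_le hq, hq'⟩, HB.symm_apply_apply p⟩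
    · exact h'
  have hle : HA '' U1 F ⊆ HB '' {p | N1 p ≤ 1} := by
    intro p hp
    by_contra hnot
    have h1 : p ∈ HB '' X1 F := by
      refine ⟨HB.symm p, ?_, HB.apply_symm_apply p⟩
      show 1 < N1 _
      by_contra hle
      exact hnot ⟨HB.symm p, not_lt.1 hle, HB.apply_symm_apply p⟩
    exact disjoint_left.1 hdA hp (hXX h1)
  have := interior_maximal hle hopU
  rwa [← HB.image_interior, interior_le] at this

/-- a connected set disjoint from `H '' S1` and meeting the inside lies inside -/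
theorem subset_inside {H : (F × ℝ) ≃ₜ (F × ℝ)} {C : Set (F × ℝ)} (hC : IsPreconnected C)
    (hdis : Disjoint C (H '' S1 F)) (hne : (C ∩ H '' U1 F).Nonempty) : C ⊆ H '' U1 F := by
  have hcompl : (H '' S1 F)ᶜ = H '' U1 F ∪ H '' X1 F := by
    rw [← image_union, ← univ_diff_S1, H.image_compl]
  have hopU : IsOpen (H '' U1 F) := H.isOpenMap _ isOpen_U1
  have hopX : IsOpen (H '' X1 F) := H.isOpenMap _ isOpen_X1
  have hdA : Disjoint (H '' U1 F) (H '' X1 F) := by
    rw [disjoint_image_iff H.injective, disjoint_left]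
    intro p hp hp'
    exact absurd (show N1 p < 1 from hp) (not_lt.2 (le_of_lt hp'))
  exact hC.subset_left_of_subset_union hopU hopX hdA
    (by rw [← hcompl]; exact fun p hp hp' => disjoint_left.1 hdis hp hp') hne

/-- **CUT LEMMA (X)**: if `(E₁, D)` and `(E₂, D)` are standard pairs with common boundary `Γ`
and `E₁ ∩ E₂ = Γ`, then `(E₁, E₂)` is a standard pair. -/
theorem cut_lemma (hF : PolyNorm F) [FiniteDimensional ℝ F] [Nontrivial F]
    {E₁ E₂ D Γ : Set (F × ℝ)} {HA HB : (F × ℝ) ≃ₜ (F × ℝ)} (hA : PLH HA) (hB : PLH HB)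
    (hA1 : HA '' Kp F = E₁) (hA2 : HA '' Km F = D) (hAΓ : HA '' Eqt F = Γ)
    (hB1 : HB '' Kp F = E₂) (hB2 : HB '' Km F = D) (hBΓ : HB '' Eqt F = Γ)
    (hE : E₁ ∩ E₂ = Γ) : StdS E₁ E₂ := by
  by_cases h1 : Disjoint (E₂ \ Γ) (HA '' U1 F)
  · exact (cut_push hF hA hB hA1 hA2 hAΓ hB1 hB2 hBΓ hE h1).symm
  by_cases h2 : Disjoint (E₁ \ Γ) (HB '' U1 F)
  · exact cut_push hF hB hA hB1 hB2 hBΓ hA1 hA2 hAΓ (by rw [inter_comm]; exact hE) h2
  exfalso
  have hE1D : E₁ ∩ D = Γ := by
    rw [← hA1, ← hA2, ← image_inter HA.injective, Kp_inter_Km, hAΓ]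
  have hE2D : E₂ ∩ D = Γ := by
    rw [← hB1, ← hB2, ← image_inter HB.injective, Kp_inter_Km, hBΓ]
  have hAS : HA '' S1 F = E₁ ∪ D := by rw [← Kp_union_Km, image_union, hA1, hA2]
  have hBS : HB '' S1 F = E₂ ∪ D := by rw [← Kp_union_Km, image_union, hB1, hB2]
  have hc2 : IsPreconnected (E₂ \ Γ) := by
    rw [← hB1, ← hBΓ, ← image_sdiff HB.injective]
    exact isPreconnected_Kp_diff.image _ HB.continuous.continuousOn
  have hc1 : IsPreconnected (E₁ \ Γ) := by
    rw [← hA1, ← hAΓ, ← image_sdiff HA.injective]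
    exact isPreconnected_Kp_diff.image _ HA.continuous.continuousOn
  have hd2 : Disjoint (E₂ \ Γ) (HA '' S1 F) := by
    rw [hAS, disjoint_left]
    rintro p ⟨hp, hpΓ⟩ (h | h)
    · exact hpΓ (hE ▸ ⟨h, hp⟩)
    · exact hpΓ (hE2D ▸ ⟨hp, h⟩)
  have hd1 : Disjoint (E₁ \ Γ) (HB '' S1 F) := by
    rw [hBS, disjoint_left]
    rintro p ⟨hp, hpΓ⟩ (h | h)
    · exact hpΓ (hE ▸ ⟨hp, h⟩)
    · exact hpΓ (hE1D ▸ ⟨hp, h⟩)
  have hs2 : E₂ \ Γ ⊆ HA '' U1 F := subset_inside hc2 hd2 (not_disjoint_iff_nonempty_inter.1 h1)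
  have hs1 : E₁ \ Γ ⊆ HB '' U1 F := subset_inside hc1 hd1 (not_disjoint_iff_nonempty_inter.1 h2)
  have hUsub : ∀ H : (F × ℝ) ≃ₜ (F × ℝ), H '' U1 F ⊆ H '' {p | N1 p ≤ 1} := fun H =>
    image_mono U1_subset_le
  have hSsub : ∀ H : (F × ℝ) ≃ₜ (F × ℝ), H '' S1 F ⊆ H '' {p | N1 p ≤ 1} := fun H =>
    image_mono S1_subset_le
  have hAB : HA '' U1 F ⊆ HB '' U1 F := by
    refine inside_subset ?_
    rw [hAS]
    rintro p (hp | hp)
    · by_cases hpΓ : p ∈ Γ
      · exact hSsub HB (by rw [hBS]; exact Or.inr ((hE1D ▸ hpΓ : p ∈ E₁ ∩ D).2))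
      · exact hUsub HB (hs1 ⟨hp, hpΓ⟩)
    · exact hSsub HB (by rw [hBS]; exact Or.inr hp)
  -- a point of `E₂ \ Γ` is in the inside of `A`, hence of `B`: contradiction
  obtain ⟨q, hq⟩ := (Kp_diff_nonempty (F := F))
  have hq2 : HB q ∈ E₂ \ Γ := by
    rw [← hB1, ← hBΓ, ← image_sdiff HB.injective]
    exact mem_image_of_mem _ hq
  obtain ⟨r, hr, hr'⟩ := hAB (hs2 hq2)
  have : r = q := HB.injective hr'
  rw [this] at hr
  have h3 : N1 q < 1 := hr
  have h4 : N1 q = 1 := hq.1.2
  linarith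

end Crest.Agent.R096.Pl
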