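import Crest.Agent.R096.Qp1_106
import Crest.Agent.R096.Coh4_184

-- ▼ part R096/Qp2_106
section

/-!
# Row 96, DOORS (QP), part 2 (helper106): the pairing on an edge, splitting of sums over the points of
the horizontal piece on a vertical face, closed curves with total zero.
-/

set_option autoImplicit false

namespace Crest.Agent.R096.Qp_106

open Crest.Agent.R096.St_147 Crest.Agent.R096.Door_501 Classical

/-- a cochain on a connected two-regular graph with total zero is exact (half edge form) -/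
theorem cyc {E V : Type} [Fintype E] [Fintype V] (v : E → V) (σ : E → E)
    (hσ : ∀ p, σ (σ p) = p) (g : E → ZMod 2) (hg : ∑ p, g p = 0)
    (hconn : ∀ z : E → ZMod 2, (∀ p, z (σ p) = z p) →
      (∀ u, ∑ p ∈ Finset.univ.filter (fun p => v p = u), z p = 0) → ∀ p q, z p = z q) :
    ∃ lam : V → ZMod 2, ∀ p, g p + g (σ p) = lam (v p) + lam (v (σ p)) := by
  let τ : Equiv.Perm E := ⟨σ, σ, hσ, hσ⟩
  obtain ⟨ψ, hψ⟩ := Coh_184.exact_of_kills (K := ZMod 2)
    (fun (p : E) (u : V) => (if v p = u then (1 : ZMod 2) else 0) + (if v (σ p) = u then 1 else 0))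
    (fun _ => True) (fun p => g p + g (σ p)) (by
      intro z _ hz
      have h1 : ∀ p q, z p + z (σ p) = z q + z (σ q) := by
        refine hconn (fun p => z p + z (σ p)) (fun p => ?_) (fun u => ?_)
        · rw [hσ, add_comm]
        · rw [Finset.sum_filter]
          refine Eq.trans ?_ (hz u)
          have h2 : ∑ p, z p * ((if v p = u then (1 : ZMod 2) else 0) +
              (if v (σ p) = u then 1 else 0)) =
              (∑ p, if v p = u then z p else 0) + ∑ p, if v (σ p) = u then z p else 0 := by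
            rw [← Finset.sum_add_distrib]
            refine Finset.sum_congr rfl fun p _ => ?_
            rw [mul_add, mul_ite, mul_ite, mul_one, mul_zero]
          have h3 : (∑ p, if v p = u then z p + z (σ p) else 0) =
              (∑ p, if v p = u then z p else 0) + ∑ p, if v p = u then z (σ p) else 0 := by
            rw [← Finset.sum_add_distrib]
            refine Finset.sum_congr rfl fun p _ => ?_
            split_ifs
            · rfl
            · rw [add_zero]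
          rw [h2, h3]
          congr 1
          rw [← Equiv.sum_comp τ (fun p => if v (σ p) = u then z p else 0)]
          refine Finset.sum_congr rfl fun p _ => ?_
          show _ = if v (σ (σ p)) = u then z (σ p) else 0
          rw [hσ]
      have h4 : ∑ p, z p * (g p + g (σ p)) = ∑ p, (z p + z (σ p)) * g p := by
        simp only [mul_add, add_mul, Finset.sum_add_distrib]
        congr 1
        rw [← Equiv.sum_comp τ (fun p => z (σ p) * g p)]
        refine Finset.sum_congr rfl fun p _ => ?_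
        show _ = z (σ (σ p)) * g (σ p)
        rw [hσ]
      rw [h4]
      by_cases hE : Nonempty E
      · obtain ⟨p0⟩ := hE
        have h5 : ∑ p, (z p + z (σ p)) * g p = ∑ p, (z p0 + z (σ p0)) * g p :=
          Finset.sum_congr rfl fun p _ => by rw [h1 p p0]
        rw [h5, ← Finset.mul_sum, hg, mul_zero]
      · have : IsEmpty E := not_nonempty_iff.1 hE
        rw [Finset.univ_eq_empty, Finset.sum_empty])
  refine ⟨ψ, fun p => ?_⟩
  rw [hψ p trivial]
  simp only [add_mul, ite_mul, one_mul, zero_mul, Finset.sum_add_distrib, Finset.sum_ite_eq,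
    Finset.mem_univ, if_true]

end Crest.Agent.R096.Qp_106

namespace Crest.Agent.R096.Door_501.Shell

open Crest.Agent.R096.St_147 Crest.Agent.R096.Door_501 Crest.Agent.R096.Qp_106 Classical

variable {ι Φ W : Type} {M : MeshC ι Φ W} {k : ι} {Vx Ed : Type} (S : Shell M k Vx Ed)

/-- a connected closed curve on the sphere: a cochain with total zero is exact -/
theorem curve_exact [Fintype Ed] (T : Finset W) (hT : ∀ w ∈ T, ∃ e, w ∈ S.OnE e)
    (nu : Φ → W → W)
    (h1 : ∀ F w, k ∈ M.side F → w ∈ T → w ∈ M.On F → nu F w ∈ T ∧ nu F w ∈ M.On F)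
    (h3 : ∀ F w, k ∈ M.side F → w ∈ T → w ∈ M.On F → nu F (nu F w) = w)
    (hconn : ∀ X : Set W, (∀ F w, k ∈ M.side F → w ∈ M.On F → w ∈ T → w ∈ X → nu F w ∈ X) →
      ∀ w ∈ X, w ∈ T → ∀ w' ∈ T, w' ∈ X)
    (ψ : Φ → W → ZMod 2)
    (htot : ∑ e : Ed, ∑ w ∈ T.filter (fun w => w ∈ S.OnE e),
      (ψ (S.fc e false) w + ψ (S.fc e true) w) = 0) :
    ∃ lam : W → ZMod 2, ∀ F w, k ∈ M.side F → w ∈ T → w ∈ M.On F →
      ψ F w + ψ F (nu F w) = lam w + lam (nu F w) := by
  let HC : Finset (Φ × W) := (S.FS ×ˢ T).filter (fun p => p.2 ∈ M.On p.1)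
  have hHC : ∀ p, p ∈ HC ↔ p.1 ∈ S.FS ∧ p.2 ∈ T ∧ p.2 ∈ M.On p.1 := by
    intro p
    simp only [HC, Finset.mem_filter, Finset.mem_product]
    tauto
  have hFS : ∀ F w, k ∈ M.side F → w ∈ T → w ∈ M.On F → (F, w) ∈ HC := by
    intro F w hF hw hwF
    obtain ⟨e, b, rfl, _⟩ := (S.onE hF).1 hwF
    exact (hHC _).2 ⟨S.FS_of e b, hw, hwF⟩
  let v : HC → T := fun p => ⟨p.1.2, ((hHC p.1).1 p.2).2.1⟩
  have hσm : ∀ p : HC, (p.1.1, nu p.1.1 p.1.2) ∈ HC := by
    intro p
    obtain ⟨g1, g2, g3⟩ := (hHC p.1).1 p.2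
    obtain ⟨g4, g5⟩ := h1 p.1.1 p.1.2 (S.mem_FS g1) g2 g3
    exact (hHC _).2 ⟨g1, g4, g5⟩
  let σ : HC → HC := fun p => ⟨(p.1.1, nu p.1.1 p.1.2), hσm p⟩
  have hσ : ∀ p, σ (σ p) = p := by
    intro p
    obtain ⟨g1, g2, g3⟩ := (hHC p.1).1 p.2
    apply Subtype.ext
    show (p.1.1, nu p.1.1 (nu p.1.1 p.1.2)) = p.1
    rw [h3 p.1.1 p.1.2 (S.mem_FS g1) g2 g3]
  obtain ⟨lam, hlam⟩ := cyc v σ hσ (fun p => ψ p.1.1 p.1.2) (by
    rw [Finset.sum_coe_sort HC (fun p => ψ p.1 p.2)]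
    rw [Finset.sum_filter, Finset.sum_product]
    rw [S.hsum] at htot
    refine Eq.trans ?_ htot
    refine Finset.sum_congr rfl fun F _ => ?_
    rw [Finset.sum_filter]) (by
    intro z hz1 hz2
    -- the two faces at a point
    have hpair : ∀ (e : Ed) (w : W) (hw : w ∈ S.OnE e) (hwT : w ∈ T)
        (g1 : (S.fc e false, w) ∈ HC) (g2 : (S.fc e true, w) ∈ HC),
        z ⟨_, g1⟩ = z ⟨_, g2⟩ := by
      intro e w hw hwT g1 g2
      have h4 := hz2 ⟨w, hwT⟩
      have h5 : ∑ p ∈ ({⟨_, g1⟩, ⟨_, g2⟩} : Finset HC), z p = 0 := by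
        refine Eq.trans (Finset.sum_congr ?_ fun _ _ => rfl) h4
        ext p
        simp only [Finset.mem_filter, Finset.mem_univ, true_and, Finset.mem_insert,
          Finset.mem_singleton]
        constructor
        · rintro (h6 | h6)
          · rw [h6]
          · rw [h6]
        · intro h6
          have h7 : p.1.2 = w := congrArg Subtype.val h6
          obtain ⟨a1, a2, a3⟩ := (hHC p.1).1 p.2
          rw [h7] at a3
          obtain ⟨b, hb⟩ := S.fc_of_on hw (S.mem_FS a1) a3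
          cases b
          · left
            apply Subtype.ext
            exact Prod.ext hb.symm h7
          · right
            apply Subtype.ext
            exact Prod.ext hb.symm h7
      rw [Finset.sum_pair] at h5
      · exact zz_eq _ _ h5
      · intro h6
        exact S.fc_ne e (congrArg (fun p : HC => p.1.1) h6)
    have hpair' : ∀ (F F' : Φ) (w : W) (g1 : (F, w) ∈ HC) (g2 : (F', w) ∈ HC),
        z ⟨_, g1⟩ = z ⟨_, g2⟩ := by
      intro F F' w g1 g2
      obtain ⟨a1, a2, a3⟩ := (hHC _).1 g1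
      obtain ⟨b1, b2, b3⟩ := (hHC _).1 g2
      obtain ⟨e, he⟩ := hT w a2
      obtain ⟨b, rfl⟩ := S.fc_of_on he (S.mem_FS a1) a3
      obtain ⟨b', rfl⟩ := S.fc_of_on he (S.mem_FS b1) b3
      cases b <;> cases b'
      · rfl
      · exact hpair e w he a2 g1 g2
      · exact (hpair e w he a2 g2 g1).symm
      · rfl
    intro p q
    obtain ⟨a1, a2, a3⟩ := (hHC _).1 p.2
    obtain ⟨b1, b2, b3⟩ := (hHC _).1 q.2
    have h8 := hconn {w | ∀ F, ∀ h : (F, w) ∈ HC, z ⟨_, h⟩ = z p} (by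
      intro F w hF hwF hwT hwX F' hF'
      have c1 := hFS F w hF hwT hwF
      have c2 := h1 F w hF hwT hwF
      have c3 := hFS F (nu F w) hF c2.1 c2.2
      have c4 : σ ⟨_, c1⟩ = ⟨_, c3⟩ := rfl
      rw [hpair' F' F _ hF' c3, ← c4, hz1]
      exact hwX F c1) p.1.2 (fun F hF => hpair' F p.1.1 _ hF p.2) a2 q.1.2 b2
    exact (h8 q.1.1 q.2).symm)
  refine ⟨fun w => if h : w ∈ T then lam ⟨w, h⟩ else 0, fun F w hF hw hwF => ?_⟩
  have c1 := hFS F w hF hw hwF
  have c2 := h1 F w hF hw hwF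
  have h9 := hlam ⟨_, c1⟩
  show _ = (if h : w ∈ T then lam ⟨w, h⟩ else 0) + (if h : nu F w ∈ T then lam ⟨_, h⟩ else 0)
  rw [dif_pos hw, dif_pos c2.1]
  exact h9

end Crest.Agent.R096.Door_501.Shell

namespace Crest.Agent.R096.Door_501.Move

open Crest.Agent.R096.St_147 Crest.Agent.R096.Door_501 Crest.Agent.R096.Qp_106 Classical

variable {ι Φ W : Type} {M : MeshC ι Φ W} {k : ι} {Vx Ed : Type} {I : Type} {col : I → Bool}
variable {S : Shell M k Vx Ed} {s : St M col} (m : Move S s)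

/-- the positions below `x` on the vertical face `e` -/
noncomputable def Lx (e : Ed) (x : S.Pnt) : Finset S.Pnt :=
  (m.qon e).filter fun y => S.tau e y < S.tau e x

theorem mem_Lx {e : Ed} {x y : S.Pnt} :
    y ∈ m.Lx e x ↔ y ∈ m.qon e ∧ S.tau e y < S.tau e x := Finset.mem_filter

theorem tau_ne {e : Ed} {x y : S.Pnt} (hx : x ∈ m.qon e) (hy : y ∈ m.qon e) (h : x ≠ y) :
    S.tau e x ≠ S.tau e y := fun h' => h (m.tau_inj e (Finset.mem_coe.2 hx) (Finset.mem_coe.2 hy) h')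

/-- the points below the upper end of a pair -/
theorem Lx_pr (hp : m.Par) {e : Ed} {x : S.Pnt} (hx : x ∈ m.qon e)
    (h : S.tau e x < S.tau e (m.pr hp e x)) :
    m.Lx e (m.pr hp e x) = insert x (m.Lx e x) ∧ x ∉ m.Lx e x ∧ Even (m.Lx e x).card := by
  obtain ⟨g1, g2, g3, g4, g5⟩ := m.pr_spec hp e x hx
  refine ⟨?_, fun h' => lt_irrefl _ (m.mem_Lx.1 h').2, g5 h⟩
  ext y
  rw [mem_Lx, Finset.mem_insert, mem_Lx]
  constructor
  · rintro ⟨h1, h2⟩
    by_cases h3 : y = x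
    · exact Or.inl h3
    · right
      refine ⟨h1, ?_⟩
      rcases lt_or_gt_of_ne (m.tau_ne h1 hx h3) with h4 | h4
      · exact h4
      · exact ((g4 y h1).1 ⟨h4, h2⟩).elim
  · rintro (rfl | ⟨h1, h2⟩)
    · exact ⟨hx, h⟩
    · exact ⟨h1, h2.trans h⟩

theorem pair_total (hp : m.Par) (e : Ed) (g : S.Pnt → ZMod 2)
    (hg : ∀ x ∈ m.qon e, g (m.pr hp e x) = g x) : ∑ x ∈ m.qon e, g x = 0 :=
  sum_inv _ _ (m.pr hp e) (fun x hx => (m.pr_spec hp e x hx).1)
    (fun x hx => (m.pr_spec hp e x hx).2.1) (fun x hx => (m.pr_spec hp e x hx).2.2.1) hg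

theorem pair_sum (hp : m.Par) {e : Ed} (g : S.Pnt → ZMod 2)
    (hg : ∀ x ∈ m.qon e, g (m.pr hp e x) = g x) {x : S.Pnt} (hx : x ∈ m.qon e) :
    ∑ y ∈ m.Lx e x, g y = if Even (m.Lx e x).card then 0 else g x := by
  obtain ⟨g1, g2, g3, g4, g5⟩ := m.pr_spec hp e x hx
  have hne := m.tau_ne g1 hx g2
  rcases lt_or_gt_of_ne hne with hlt | hlt
  · -- `x` is the upper end
    have h1 := m.Lx_pr hp g1 (by rw [g3]; exact hlt)
    rw [g3] at h1
    obtain ⟨h2, h3, h4⟩ := h1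
    have h5 : ¬ Even (m.Lx e x).card := by
      rw [h2, Finset.card_insert_of_notMem h3, Nat.even_add_one]
      exact fun h => h h4
    rw [if_neg h5, h2, Finset.sum_insert h3, hg x hx]
    have h6 : ∑ y ∈ m.Lx e (m.pr hp e x), g y = 0 := by
      refine sum_inv _ _ (m.pr hp e) ?_ ?_ ?_ ?_
      · intro y hy
        obtain ⟨a1, a2⟩ := m.mem_Lx.1 hy
        obtain ⟨b1, b2, b3, b4, b5⟩ := m.pr_spec hp e y a1
        rw [mem_Lx]
        refine ⟨b1, ?_⟩
        by_contra hcon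
        have hne2 : m.pr hp e y ≠ m.pr hp e x := by
          intro h7
          have : y = x := by rw [← b3, h7, g3]
          rw [this] at a2
          exact absurd a2 (not_lt.2 hlt.le)
        rcases lt_or_gt_of_ne (m.tau_ne b1 g1 hne2) with h8 | h8
        · exact hcon h8
        · exact (b4 _ g1).1 ⟨a2, h8⟩
      · intro y hy
        exact (m.pr_spec hp e y (m.mem_Lx.1 hy).1).2.1
      · intro y hy
        exact (m.pr_spec hp e y (m.mem_Lx.1 hy).1).2.2.1
      · intro y hy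
        exact hg y (m.mem_Lx.1 hy).1
    rw [h6, add_zero]
  · -- `x` is the lower end
    have h4 := g5 hlt
    have h4' : Even (m.Lx e x).card := h4
    rw [if_pos h4']
    refine sum_inv _ _ (m.pr hp e) ?_ ?_ ?_ ?_
    · intro y hy
      obtain ⟨a1, a2⟩ := m.mem_Lx.1 hy
      obtain ⟨b1, b2, b3, b4, b5⟩ := m.pr_spec hp e y a1
      rw [mem_Lx]
      refine ⟨b1, ?_⟩
      by_contra hcon
      have hne2 : m.pr hp e y ≠ x := by
        intro h7
        have : y = m.pr hp e x := by rw [← b3, h7]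
        rw [this] at a2
        exact absurd a2 (not_lt.2 hlt.le)
      rcases lt_or_gt_of_ne (m.tau_ne b1 hx hne2) with h8 | h8
      · exact hcon h8
      · exact (b4 _ hx).1 ⟨a2, h8⟩
    · intro y hy
      exact (m.pr_spec hp e y (m.mem_Lx.1 hy).1).2.1
    · intro y hy
      exact (m.pr_spec hp e y (m.mem_Lx.1 hy).1).2.2.1
    · intro y hy
      exact hg y (m.mem_Lx.1 hy).1

/-- the points of the boundary curves of `Q` -/
noncomputable def Dp : Finset W :=
  (s.P.filter fun w => w ∉ m.B ∧ ∃ e, w ∈ S.OnE e) ∪ (m.B.filter fun w => w ∉ s.P)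

theorem mem_Dp {w : W} : w ∈ m.Dp ↔ (w ∈ s.P ∧ w ∉ m.B ∧ ∃ e, w ∈ S.OnE e) ∨
    (w ∈ m.B ∧ w ∉ s.P) := by
  unfold Dp
  rw [Finset.mem_union, Finset.mem_filter, Finset.mem_filter]

theorem Dp_edge {w : W} (h : w ∈ m.Dp) : ∃ e, w ∈ S.OnE e := by
  rcases m.mem_Dp.1 h with ⟨_, _, h⟩ | ⟨h, _⟩
  · exact h
  · exact m.B_on h

/-- the point of `qe` at `w` -/
noncomputable def pt (_m : Move S s) (w : W) : S.Pnt := if w ∈ s.P then S.top w else S.bot w

theorem pt_top {w : W} (h : w ∈ s.P) : m.pt w = S.top w := if_pos h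

theorem pt_bot {w : W} (h : w ∉ s.P) : m.pt w = S.bot w := if_neg h

theorem pt_inj : Function.Injective m.pt := by
  intro w w' h
  by_cases h1 : w ∈ s.P <;> by_cases h2 : w' ∈ s.P
  · rw [m.pt_top h1, m.pt_top h2] at h
    exact Sum.inl.inj h
  · rw [m.pt_top h1, m.pt_bot h2] at h
    cases h
  · rw [m.pt_bot h1, m.pt_top h2] at h
    cases h
  · rw [m.pt_bot h1, m.pt_bot h2] at h
    exact Sum.inl.inj (Sum.inr.inj h)

theorem tau_pt (e : Ed) (w : W) : S.tau e (m.pt w) = S.t w := by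
  unfold pt
  split_ifs <;> rfl

theorem pt_ne_vert (w : W) (v : Vx) : m.pt w ≠ S.vert v := by
  unfold pt
  split_ifs
  · intro h; cases h
  · intro h; cases h

theorem pt_mem_qe {w : W} : m.pt w ∈ m.qe ↔ w ∈ m.Dp := by
  by_cases h : w ∈ s.P
  · rw [m.pt_top h, m.top_mem_qe, m.mem_Dp]
    tauto
  · rw [m.pt_bot h, m.bot_mem_qe, m.mem_Dp]
    tauto

theorem pt_mem_vert {e : Ed} {w : W} : m.pt w ∈ S.On (Sum.inr (Sum.inr e)) ↔ w ∈ S.OnE e := by
  by_cases h : w ∈ s.P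
  · rw [m.pt_top h]; exact S.top_mem_vert
  · rw [m.pt_bot h]; exact S.bot_mem_vert

theorem pt_mem_qon {e : Ed} {w : W} : m.pt w ∈ m.qon e ↔ w ∈ m.Dp ∧ w ∈ S.OnE e := by
  rw [m.mem_qon, m.pt_mem_qe, m.pt_mem_vert]

theorem vert_mem_qon {e : Ed} {v : Vx} : S.vert v ∈ m.qon e ↔ v ∈ m.Qv ∧ ∃ b, S.en e b = v := by
  rw [m.mem_qon, m.vert_mem_qe, S.vert_mem_vert]

theorem qe_cases {x : S.Pnt} (h : x ∈ m.qe) :
    (∃ w ∈ m.Dp, x = m.pt w) ∨ ∃ v ∈ m.Qv, x = S.vert v := by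
  rcases x with w | w | v
  · have h1 := m.top_mem_qe.1 h
    left
    exact ⟨w, m.mem_Dp.2 (Or.inl h1), (m.pt_top h1.1).symm⟩
  · have h1 := m.bot_mem_qe.1 h
    left
    exact ⟨w, m.mem_Dp.2 (Or.inr h1), (m.pt_bot h1.2).symm⟩
  · right
    exact ⟨v, m.vert_mem_qe.1 h, rfl⟩

theorem qon_eq (e : Ed) : m.qon e = ((m.Dp.filter fun w => w ∈ S.OnE e).image m.pt) ∪
    ((m.Qv.filter fun v => ∃ b, S.en e b = v).image S.vert) := by
  ext x
  rw [Finset.mem_union, Finset.mem_image, Finset.mem_image]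
  constructor
  · intro h
    have h1 := m.mem_qon.1 h
    rcases m.qe_cases h1.1 with ⟨w, hw, rfl⟩ | ⟨v, hv, rfl⟩
    · exact Or.inl ⟨w, Finset.mem_filter.2 (m.pt_mem_qon.1 h), rfl⟩
    · exact Or.inr ⟨v, Finset.mem_filter.2 (m.vert_mem_qon.1 h), rfl⟩
  · rintro (⟨w, hw, rfl⟩ | ⟨v, hv, rfl⟩)
    · exact m.pt_mem_qon.2 (Finset.mem_filter.1 hw)
    · exact m.vert_mem_qon.2 (Finset.mem_filter.1 hv)

/-- value at a vertex of `Q`, `0` at the other vertices -/
noncomputable def vq (f : S.Pnt → ZMod 2) (v : Vx) : ZMod 2 :=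
  if v ∈ m.Qv then f (S.vert v) else 0

/-- splitting of a sum over the points of `Q` on the vertical face `e` -/
theorem sum_qon (e : Ed) (f : S.Pnt → ZMod 2) :
    ∑ x ∈ m.qon e, f x = (∑ w ∈ m.Dp.filter (fun w => w ∈ S.OnE e), f (m.pt w)) +
      (m.vq f (S.en e false) + m.vq f (S.en e true)) := by
  rw [m.qon_eq, Finset.sum_union, Finset.sum_image, Finset.sum_image]
  · congr 1
    have h1 : (m.Qv.filter fun v => ∃ b, S.en e b = v) =
        (({S.en e false, S.en e true} : Finset Vx).filter fun v => v ∈ m.Qv) := by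
      ext v
      simp only [Finset.mem_filter, Finset.mem_insert, Finset.mem_singleton, Bool.exists_bool]
      constructor
      · rintro ⟨h1, h2 | h2⟩
        · exact ⟨Or.inl h2.symm, h1⟩
        · exact ⟨Or.inr h2.symm, h1⟩
      · rintro ⟨h2 | h2, h1⟩
        · exact ⟨h1, Or.inl h2.symm⟩
        · exact ⟨h1, Or.inr h2.symm⟩
    rw [h1, Finset.sum_filter, Finset.sum_pair (S.en_ne e)]
    rfl
  · intro v _ v' _ h
    exact Sum.inr.inj (Sum.inr.inj h)
  · intro w _ w' _ h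
    exact m.pt_inj h
  · rw [Finset.disjoint_left]
    intro x h1 h2
    obtain ⟨w, _, rfl⟩ := Finset.mem_image.1 h1
    obtain ⟨v, _, h3⟩ := Finset.mem_image.1 h2
    exact m.pt_ne_vert w v h3.symm

/-- splitting of a sum over the points of `Q` below `w` on the vertical face `e` -/
theorem sum_Lx {e : Ed} {w : W} (hw : w ∈ S.OnE e) (f : S.Pnt → ZMod 2) :
    ∑ x ∈ m.Lx e (m.pt w), f x =
      (∑ y ∈ m.Dp.filter (fun y => y ∈ S.OnE e ∧ S.t y < S.t w), f (m.pt y)) +
        m.vq f (S.en e false) := by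
  unfold Lx
  rw [Finset.sum_filter, m.sum_qon]
  have h1 : m.vq (fun x => if S.tau e x < S.tau e (m.pt w) then f x else 0) (S.en e false) =
      m.vq f (S.en e false) := by
    by_cases h1 : S.en e false ∈ m.Qv
    · unfold vq
      rw [if_pos h1, if_pos h1]
      show (if S.tau e (S.vert (S.en e false)) < S.tau e (m.pt w) then
        f (S.vert (S.en e false)) else 0) = _
      rw [if_pos]
      rw [m.tau_pt]
      have h3 : S.tau e (S.vert (S.en e false)) = -1 / 2 := by simp [Shell.tau]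
      rw [h3]
      have := S.t_pos hw
      linarith
    · unfold vq
      rw [if_neg h1, if_neg h1]
  have h2 : m.vq (fun x => if S.tau e x < S.tau e (m.pt w) then f x else 0) (S.en e true) = 0 := by
    by_cases h1 : S.en e true ∈ m.Qv
    · unfold vq
      rw [if_pos h1]
      show (if S.tau e (S.vert (S.en e true)) < S.tau e (m.pt w) then
        f (S.vert (S.en e true)) else 0) = _
      rw [if_neg]
      rw [m.tau_pt]
      have h3 : S.tau e (S.vert (S.en e true)) = 3 / 2 := by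
        simp [Shell.tau, (S.en_ne e).symm]
      rw [h3]
      have := S.t_lt hw
      intro h4
      linarith
    · unfold vq
      rw [if_neg h1]
  rw [h1, h2, add_zero]
  congr 1
  have h4 : m.Dp.filter (fun y => y ∈ S.OnE e ∧ S.t y < S.t w) =
      (m.Dp.filter (fun y => y ∈ S.OnE e)).filter (fun y => S.t y < S.t w) := by
    ext y
    simp only [Finset.mem_filter]
    tauto
  rw [h4]
  refine Eq.trans ?_ (Finset.sum_filter _ _).symm
  refine Finset.sum_congr rfl fun y _ => ?_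
  rw [m.tau_pt, m.tau_pt]

end Crest.Agent.R096.Door_501.Move
end

-- ▼ part R096/Qp3_106
section

/-!
# Row 96, DOORS (QP), part 3 (helper106): **`Move.qp`**, the horizontal piece has no period.
-/

set_option autoImplicit false

namespace Crest.Agent.R096.Qp_106

theorem y1 : ∀ a b c d : ZMod 2, a + b = c + d → c + a = d + b := by decide

theorem y2 : ∀ R R1 e : ZMod 2, (R + e) + (1 + (R1 + 1)) * e = R + (1 + R1) * e := by decide

theorem y3 : ∀ a b c : ZMod 2, a + c + (b + c) = a + b := by decide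

theorem y4 : ∀ a b c d : ZMod 2, a + b = c + d → a + c + (b + d) = 0 := by decide

theorem y5 : ∀ a b : ZMod 2, a = b + a + b := by decide

theorem y6 : ∀ R o e R1 : ZMod 2, R + o * e + (1 + (R1 + o * 1)) * e = R + (1 + R1) * e := by
  decide

end Crest.Agent.R096.Qp_106

namespace Crest.Agent.R096.Door_501.Move

open Crest.Agent.R096.St_147 Crest.Agent.R096.Door_501 Crest.Agent.R096.Qp_106 Classical

variable {ι Φ W : Type} {M : MeshC ι Φ W} {k : ι} {Vx Ed : Type} {I : Type} {col : I → Bool}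
variable {S : Shell M k Vx Ed} {s : St M col} (m : Move S s)

/-- (NL): upper and lower difference chords do not interlace -/
def NL : Prop := ∀ F w x, k ∈ M.side F → w ∈ s.P → w ∉ m.B → w ∈ M.On F →
  x ∈ m.B → x ∉ s.P → x ∈ M.On F →
  ¬ M.Lace F w (s.mu F w) x (m.mu0 F x) ∧ ¬ M.Lace F x (m.mu0 F x) w (s.mu F w)

/-- the partner on the boundary curves of `Q` -/
noncomputable def nu (F : Φ) (w : W) : W := if w ∈ s.P then s.mu F w else m.mu0 F w

theorem nu_top {F : Φ} {w : W} (h : w ∈ s.P) : m.nu F w = s.mu F w := if_pos h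

theorem nu_bot {F : Φ} {w : W} (h : w ∉ s.P) : m.nu F w = m.mu0 F w := if_neg h

theorem nu_mem {F : Φ} {w : W} (hF : k ∈ M.side F) (hw : w ∈ m.Dp) (hwF : w ∈ M.On F) :
    m.nu F w ∈ m.Dp ∧ m.nu F w ∈ M.On F := by
  by_cases h : w ∈ s.P
  · rw [m.nu_top h]
    have h1 : w ∉ m.B := by
      rcases m.mem_Dp.1 hw with h1 | h1
      · exact h1.2.1
      · exact (h1.2 h).elim
    have h2 := s.mu_mem h hwF
    obtain ⟨e, _, _, he⟩ := (S.onE hF).1 h2.2
    exact ⟨m.mem_Dp.2 (Or.inl ⟨h2.1, m.mu_not_B hF hwF h h1, e, he⟩), h2.2⟩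
  · rw [m.nu_bot h]
    have h1 : w ∈ m.B := by
      rcases m.mem_Dp.1 hw with h1 | h1
      · exact (h h1.1).elim
      · exact h1.1
    have h2 := m.mem hF h1 hwF
    exact ⟨m.mem_Dp.2 (Or.inr ⟨h2.1, m.mu0_not_P hF hwF h h1⟩), h2.2⟩

theorem Dp_top {w : W} (hw : w ∈ m.Dp) (h : w ∈ s.P) : w ∉ m.B := by
  rcases m.mem_Dp.1 hw with h1 | h1
  · exact h1.2.1
  · exact (h1.2 h).elim

theorem Dp_bot {w : W} (hw : w ∈ m.Dp) (h : w ∉ s.P) : w ∈ m.B := by
  rcases m.mem_Dp.1 hw with h1 | h1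
  · exact (h h1.1).elim
  · exact h1.1

theorem nu_P {F : Φ} {w : W} (hF : k ∈ M.side F) (hw : w ∈ m.Dp) (hwF : w ∈ M.On F) :
    m.nu F w ∈ s.P ↔ w ∈ s.P := by
  by_cases h : w ∈ s.P
  · rw [m.nu_top h]
    exact ⟨fun _ => h, fun _ => (s.mu_mem h hwF).1⟩
  · rw [m.nu_bot h]
    exact ⟨fun h' => (m.mu0_not_P hF hwF h (m.Dp_bot hw h) h').elim, fun h' => (h h').elim⟩

theorem nu_ne {F : Φ} {w : W} (hF : k ∈ M.side F) (hw : w ∈ m.Dp) (hwF : w ∈ M.On F) :
    m.nu F w ≠ w := by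
  by_cases h : w ∈ s.P
  · rw [m.nu_top h]; exact s.mu_ne h hwF
  · rw [m.nu_bot h]; exact m.ne hF (m.Dp_bot hw h) hwF

theorem nu_nu {F : Φ} {w : W} (hF : k ∈ M.side F) (hw : w ∈ m.Dp) (hwF : w ∈ M.On F) :
    m.nu F (m.nu F w) = w := by
  have h1 := m.nu_P hF hw hwF
  by_cases h : w ∈ s.P
  · rw [m.nu_top (h1.2 h), m.nu_top h]; exact s.mu_mu h hwF
  · rw [m.nu_bot (fun h' => h (h1.1 h')), m.nu_bot h]; exact m.inv hF (m.Dp_bot hw h) hwF

theorem nu_lace (hNL : m.NL) {F : Φ} {w x : W} (hF : k ∈ M.side F) (hw : w ∈ m.Dp)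
    (hwF : w ∈ M.On F) (hx : x ∈ m.Dp) (hxF : x ∈ M.On F) (h1 : x ≠ w) (h2 : x ≠ m.nu F w) :
    ¬ M.Lace F w (m.nu F w) x (m.nu F x) := by
  by_cases hwP : w ∈ s.P <;> by_cases hxP : x ∈ s.P
  · rw [m.nu_top hwP] at h2 ⊢
    rw [m.nu_top hxP]
    obtain ⟨e, he⟩ := m.Dp_edge hw
    obtain ⟨e', he'⟩ := m.Dp_edge hx
    refine s.nc hwP hwF hxP hxF ?_ h1 h2
    rw [m.dif_top he hwP (m.Dp_top hw hwP), m.dif_top he' hxP (m.Dp_top hx hxP)]
  · rw [m.nu_top hwP, m.nu_bot hxP]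
    exact (hNL F w x hF hwP (m.Dp_top hw hwP) hwF (m.Dp_bot hx hxP) hxP hxF).1
  · rw [m.nu_bot hwP, m.nu_top hxP]
    exact (hNL F x w hF hxP (m.Dp_top hx hxP) hxF (m.Dp_bot hw hwP) hwP hwF).2
  · rw [m.nu_bot hwP] at h2 ⊢
    rw [m.nu_bot hxP]
    refine m.nc hF (m.Dp_bot hw hwP) hwF (m.Dp_bot hx hxP) hxF ?_ h1 h2
    rw [m.dif_bot (m.Dp_bot hw hwP) hwP, m.dif_bot (m.Dp_bot hx hxP) hxP]

/-- running sums of an invariant weight at the two ends of a chord -/
theorem run_chord (hNL : m.NL) {F : Φ} (hF : k ∈ M.side F) (f : W → ZMod 2)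
    (hf : ∀ w ∈ m.Dp, w ∈ M.On F → f (m.nu F w) = f w) {w : W} (hw : w ∈ m.Dp)
    (hwF : w ∈ M.On F) (hlt : M.pos F w < M.pos F (m.nu F w)) :
    ∑ x ∈ (m.Dp.filter fun x => x ∈ M.On F).filter (fun x => M.pos F x < M.pos F (m.nu F w)), f x =
      (∑ x ∈ (m.Dp.filter fun x => x ∈ M.On F).filter (fun x => M.pos F x < M.pos F w), f x) +
        f w := by
  set DF := m.Dp.filter fun x => x ∈ M.On F with hDF
  have hmem : ∀ x, x ∈ DF ↔ x ∈ m.Dp ∧ x ∈ M.On F := fun x => Finset.mem_filter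
  have hw' := m.nu_mem hF hw hwF
  set J := DF.filter fun x => M.pos F w < M.pos F x ∧ M.pos F x < M.pos F (m.nu F w) with hJ
  have h1 : DF.filter (fun x => M.pos F x < M.pos F (m.nu F w)) =
      insert w (DF.filter (fun x => M.pos F x < M.pos F w) ∪ J) := by
    ext x
    simp only [hJ, Finset.mem_filter, Finset.mem_insert, Finset.mem_union]
    constructor
    · rintro ⟨h1, h2⟩
      rcases lt_trichotomy (M.pos F x) (M.pos F w) with h3 | h3 | h3
      · exact Or.inr (Or.inl ⟨h1, h3⟩)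
      · exact Or.inl (M.pos_inj F ((hmem x).1 h1).2 hwF h3)
      · exact Or.inr (Or.inr ⟨h1, h3, h2⟩)
    · rintro (rfl | ⟨h1, h2⟩ | ⟨h1, h2, h3⟩)
      · exact ⟨(hmem _).2 ⟨hw, hwF⟩, hlt⟩
      · exact ⟨h1, h2.trans hlt⟩
      · exact ⟨h1, h3⟩
  have h2 : w ∉ DF.filter (fun x => M.pos F x < M.pos F w) ∪ J := by
    simp only [hJ, Finset.mem_filter, Finset.mem_union, lt_irrefl, and_false, false_and, or_false,
      not_false_eq_true]
  have h3 : Disjoint (DF.filter (fun x => M.pos F x < M.pos F w)) J := by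
    rw [Finset.disjoint_left]
    intro x a1 a2
    exact lt_asymm (Finset.mem_filter.1 a1).2 (Finset.mem_filter.1 a2).2.1
  rw [h1, Finset.sum_insert h2, Finset.sum_union h3, add_comm]
  have h4 : ∑ x ∈ J, f x = 0 := by
    refine sum_inv _ _ (m.nu F) ?_ ?_ ?_ ?_
    · intro x hx
      obtain ⟨a1, a2, a3⟩ := Finset.mem_filter.1 hx
      obtain ⟨b1, b2⟩ := (hmem x).1 a1
      have h5 : x ≠ w := by rintro rfl; exact lt_irrefl _ a2
      have h6 : x ≠ m.nu F w := by rintro rfl; exact lt_irrefl _ a3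
      have h7 := m.nu_lace hNL hF hw hwF b1 b2 h5 h6
      have h8 : M.Btw F w (m.nu F w) x := Or.inl ⟨a2, a3⟩
      have h9 : M.Btw F w (m.nu F w) (m.nu F x) := (not_not.1 h7).1 h8
      refine Finset.mem_filter.2 ⟨(hmem _).2 (m.nu_mem hF b1 b2), ?_⟩
      rcases h9 with h9 | h9
      · exact h9
      · exact absurd (h9.1.trans h9.2) (not_lt.2 hlt.le)
    · intro x hx
      obtain ⟨a1, a2, a3⟩ := Finset.mem_filter.1 hx
      obtain ⟨b1, b2⟩ := (hmem x).1 a1
      exact m.nu_ne hF b1 b2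
    · intro x hx
      obtain ⟨a1, a2, a3⟩ := Finset.mem_filter.1 hx
      obtain ⟨b1, b2⟩ := (hmem x).1 a1
      exact m.nu_nu hF b1 b2
    · intro x hx
      obtain ⟨a1, a2, a3⟩ := Finset.mem_filter.1 hx
      obtain ⟨b1, b2⟩ := (hmem x).1 a1
      exact hf x b1 b2
  rw [h4, add_zero]

/-- potentials on the boundary circle of a face -/
theorem face_key [Fintype Ed] (hC : S.Circ) (hNL : m.NL) {F : Φ} (hF : k ∈ M.side F) :
    ∃ o : W → ZMod 2, ∀ (f : W → ZMod 2) (d : Vx → ZMod 2),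
      (∀ w ∈ m.Dp, w ∈ M.On F → f (m.nu F w) = f w) →
      (∀ e ∈ S.EF F, d (S.en e false) + d (S.en e true) =
        ∑ w ∈ m.Dp.filter (fun w => w ∈ S.OnE e), f w) →
      ∃ R : W → ZMod 2,
        (∀ e ∈ S.EF F, ∀ w ∈ m.Dp, w ∈ S.OnE e →
          d (S.en e false) + ∑ y ∈ m.Dp.filter (fun y => y ∈ S.OnE e ∧ S.t y < S.t w), f y =
            R w + o w * f w) ∧
        (∀ w ∈ m.Dp, w ∈ M.On F → R (m.nu F w) = R w + f w) := by
  obtain ⟨pv, o, hco⟩ := hC.weighted hF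
  refine ⟨o, fun f d hf hd => ?_⟩
  set DF := m.Dp.filter fun x => x ∈ M.On F with hDF
  have hmem : ∀ x, x ∈ DF ↔ x ∈ m.Dp ∧ x ∈ M.On F := fun x => Finset.mem_filter
  have hsum : ∑ w ∈ DF, f w = 0 := by
    refine sum_inv _ _ (m.nu F) ?_ ?_ ?_ ?_
    · intro x hx
      exact (hmem _).2 (m.nu_mem hF ((hmem x).1 hx).1 ((hmem x).1 hx).2)
    · intro x hx
      exact m.nu_ne hF ((hmem x).1 hx).1 ((hmem x).1 hx).2
    · intro x hx
      exact m.nu_nu hF ((hmem x).1 hx).1 ((hmem x).1 hx).2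
    · intro x hx
      exact hf x ((hmem x).1 hx).1 ((hmem x).1 hx).2
  obtain ⟨c1, c2⟩ := hco DF f (fun w hw => ((hmem w).1 hw).2) hsum
  obtain ⟨Rr, hRr⟩ : ∃ Rr : ℝ → ZMod 2, ∀ r, Rr r = ∑ w ∈ DF.filter (fun w => M.pos F w < r), f w :=
    ⟨_, fun _ => rfl⟩
  have hDe : ∀ e, e ∈ S.EF F → DF.filter (fun w => w ∈ S.OnE e) =
      m.Dp.filter (fun w => w ∈ S.OnE e) := by
    intro e he
    obtain ⟨b, hb⟩ := S.mem_EF.1 he
    ext w
    simp only [hDF, Finset.mem_filter]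
    constructor
    · rintro ⟨⟨a1, a2⟩, a3⟩
      exact ⟨a1, a3⟩
    · rintro ⟨a1, a3⟩
      exact ⟨⟨a1, by rw [← hb]; exact S.on_of_onE a3 b⟩, a3⟩
  have hDe2 : ∀ e, e ∈ S.EF F → ∀ w, DF.filter (fun y => y ∈ S.OnE e ∧ S.t y < S.t w) =
      m.Dp.filter (fun y => y ∈ S.OnE e ∧ S.t y < S.t w) := by
    intro e he w
    obtain ⟨b, hb⟩ := S.mem_EF.1 he
    ext y
    simp only [hDF, Finset.mem_filter]
    constructor
    · rintro ⟨⟨a1, a2⟩, a3⟩
      exact ⟨a1, a3⟩
    · rintro ⟨a1, a3⟩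
      exact ⟨⟨a1, by rw [← hb]; exact S.on_of_onE a3.1 b⟩, a3⟩
  -- the constant
  have hconst : ∀ e ∈ S.EF F, ∀ b, ∀ e' ∈ S.EF F, ∀ b',
      d (S.en e b) + Rr (pv (S.en e b)) = d (S.en e' b') + Rr (pv (S.en e' b')) := by
    intro e he b e' he' b'
    have h1 := hC.vconn F hF {v | d v + Rr (pv v) = d (S.en e b) + Rr (pv (S.en e b))} (by
      intro e0 he0
      have h2 := hd e0 (S.mem_EF.2 he0)
      have h3 := c1 e0 he0
      rw [hDe e0 (S.mem_EF.2 he0), ← h2, ← hRr, ← hRr] at h3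
      have h4 : d (S.en e0 false) + Rr (pv (S.en e0 false)) =
          d (S.en e0 true) + Rr (pv (S.en e0 true)) := y1 _ _ _ _ h3
      show d (S.en e0 false) + Rr (pv (S.en e0 false)) = _ ↔
        d (S.en e0 true) + Rr (pv (S.en e0 true)) = _
      rw [h4]) e (S.mem_EF.1 he) b rfl e' (S.mem_EF.1 he') b'
    exact h1.symm
  obtain ⟨C, hCc⟩ : ∃ C : ZMod 2, ∀ e ∈ S.EF F, ∀ b, d (S.en e b) + Rr (pv (S.en e b)) = C := by
    by_cases hne : ∃ e, e ∈ S.EF F
    · obtain ⟨e, he⟩ := hne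
      exact ⟨d (S.en e false) + Rr (pv (S.en e false)), fun e' he' b' =>
        hconst e' he' b' e he false⟩
    · exact ⟨0, fun e he => (hne ⟨e, he⟩).elim⟩
  refine ⟨fun w => C + Rr (M.pos F w), ?_, ?_⟩
  · intro e he w hw hwe
    obtain ⟨b, hb⟩ := S.mem_EF.1 he
    have hwF : w ∈ M.On F := by rw [← hb]; exact S.on_of_onE hwe b
    have h1 := c2 e (S.mem_EF.1 he) w hwe ((hmem w).2 ⟨hw, hwF⟩)
    rw [hDe2 e he w, ← hRr, ← hRr] at h1
    have h2 := hCc e he false
    have y : ∀ d r r' s t C : ZMod 2, r + r' = s + t → d + r = C → d + s = C + r' + t := by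
      decide
    exact y _ _ _ _ _ _ h1 h2
  · have hlow : ∀ w ∈ m.Dp, w ∈ M.On F → M.pos F w < M.pos F (m.nu F w) →
        C + Rr (M.pos F (m.nu F w)) = C + Rr (M.pos F w) + f w := by
      intro w hw hwF hlt
      rw [hRr, hRr, m.run_chord hNL hF f hf hw hwF hlt, add_assoc]
    intro w hw hwF
    have hw' := m.nu_mem hF hw hwF
    rcases lt_trichotomy (M.pos F w) (M.pos F (m.nu F w)) with h | h | h
    · exact hlow w hw hwF h
    · exact absurd (M.pos_inj F hwF hw'.2 h) (m.nu_ne hF hw hwF).symm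
    · have h1 := hlow _ hw'.1 hw'.2 (by rw [m.nu_nu hF hw hwF]; exact h)
      rw [m.nu_nu hF hw hwF, hf w hw hwF] at h1
      show C + Rr (M.pos F (m.nu F w)) = C + Rr (M.pos F w) + f w
      rw [h1, add_assoc, zz_self, add_zero]

theorem vq_add (f g : S.Pnt → ZMod 2) (v : Vx) :
    m.vq (fun x => f x + g x) v = m.vq f v + m.vq g v := by
  unfold vq
  split_ifs
  · rfl
  · rw [add_zero]

/-- `∑` over the points of a union -/
theorem sum_Dp (p : W → Prop) (f : W → ZMod 2) : ∑ w ∈ m.Dp.filter p, f w =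
    (∑ w ∈ (s.P.filter fun w => w ∉ m.B ∧ ∃ e, w ∈ S.OnE e).filter p, f w) +
      ∑ w ∈ (m.B.filter fun w => w ∉ s.P).filter p, f w := by
  unfold Dp
  rw [Finset.filter_union, Finset.sum_union]
  rw [Finset.disjoint_left]
  intro w h1 h2
  exact (Finset.mem_filter.1 (Finset.mem_filter.1 h2).1).2
    (Finset.mem_filter.1 (Finset.mem_filter.1 h1).1).1

end Crest.Agent.R096.Door_501.Move
end

-- ▼ part R096/Qp4_106

/-!
# Row 96, DOORS (QP), part 4 (helper106): **`Move.qp`**, the horizontal piece has no period.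
-/

set_option autoImplicit false

namespace Crest.Agent.R096.Door_501.Move

open Crest.Agent.R096.St_147 Crest.Agent.R096.Door_501 Crest.Agent.R096.Qp_106 Classical

variable {ι Φ W : Type} {M : MeshC ι Φ W} {k : ι} {Vx Ed : Type} {I : Type} {col : I → Bool}
variable {S : Shell M k Vx Ed} {s : St M col} (m : Move S s)

/-- the vertex terms cancel -/
theorem vert_total [Fintype Ed] (ψ : Φ → S.Pnt → ZMod 2) :
    ∑ e : Ed, (m.vq (fun x => ψ (S.fc e false) x + ψ (S.fc e true) x) (S.en e false) +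
      m.vq (fun x => ψ (S.fc e false) x + ψ (S.fc e true) x) (S.en e true)) = 0 := by
  have h1 := S.esum (fun F e => m.vq (ψ F) (S.en e false) + m.vq (ψ F) (S.en e true))
  have h2 : ∑ F ∈ S.FS, ∑ e ∈ S.EF F, (m.vq (ψ F) (S.en e false) + m.vq (ψ F) (S.en e true)) =
      0 := Finset.sum_eq_zero fun F _ => S.vsum F (m.vq (ψ F))
  rw [h2] at h1
  rw [← h1]
  refine Finset.sum_congr rfl fun e _ => ?_
  rw [m.vq_add, m.vq_add]
  exact add_add_add_comm _ _ _ _

/-- the total of the local potentials on the upper curves is zero -/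
theorem top_total [Fintype Ed] (hp : m.Par) (ψ : Φ → S.Pnt → ZMod 2) (ψk : S.Pnt → ZMod 2)
    (hg : ∀ e, ∀ x ∈ m.qon e, ψ (S.fc e false) (m.pr hp e x) + ψ (S.fc e true) (m.pr hp e x) =
      ψ (S.fc e false) x + ψ (S.fc e true) x)
    (hb : ∀ F w, k ∈ M.side F → w ∈ m.B → w ∉ s.P → w ∈ M.On F →
      ψ F (S.bot w) + ψ F (S.bot (m.mu0 F w)) = ψk (S.bot w) + ψk (S.bot (m.mu0 F w))) :
    ∑ e : Ed, ∑ w ∈ (s.P.filter fun w => w ∉ m.B ∧ ∃ e, w ∈ S.OnE e).filter
      (fun w => w ∈ S.OnE e), (ψ (S.fc e false) (S.top w) + ψ (S.fc e true) (S.top w)) = 0 := by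
  have h1 : ∑ e : Ed, ∑ x ∈ m.qon e, (ψ (S.fc e false) x + ψ (S.fc e true) x) = 0 :=
    Finset.sum_eq_zero fun e _ => m.pair_total hp e _ (hg e)
  have h2 : ∑ e : Ed, ∑ x ∈ m.qon e, (ψ (S.fc e false) x + ψ (S.fc e true) x) =
      ∑ e : Ed, ∑ w ∈ m.Dp.filter (fun w => w ∈ S.OnE e),
        (ψ (S.fc e false) (m.pt w) + ψ (S.fc e true) (m.pt w)) := by
    have h3 := m.vert_total ψ
    have h4 : ∀ e : Ed, ∑ x ∈ m.qon e, (ψ (S.fc e false) x + ψ (S.fc e true) x) =
        (∑ w ∈ m.Dp.filter (fun w => w ∈ S.OnE e),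
          (ψ (S.fc e false) (m.pt w) + ψ (S.fc e true) (m.pt w))) +
        (m.vq (fun x => ψ (S.fc e false) x + ψ (S.fc e true) x) (S.en e false) +
          m.vq (fun x => ψ (S.fc e false) x + ψ (S.fc e true) x) (S.en e true)) := fun e =>
      m.sum_qon e (fun x => ψ (S.fc e false) x + ψ (S.fc e true) x)
    rw [Finset.sum_congr rfl fun e _ => h4 e, Finset.sum_add_distrib, h3, add_zero]
  rw [h1] at h2
  have h5 : ∑ e : Ed, ∑ w ∈ m.Dp.filter (fun w => w ∈ S.OnE e),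
        (ψ (S.fc e false) (m.pt w) + ψ (S.fc e true) (m.pt w)) =
      (∑ e : Ed, ∑ w ∈ (s.P.filter fun w => w ∉ m.B ∧ ∃ e, w ∈ S.OnE e).filter
        (fun w => w ∈ S.OnE e), (ψ (S.fc e false) (S.top w) + ψ (S.fc e true) (S.top w))) +
      ∑ e : Ed, ∑ w ∈ (m.B.filter fun w => w ∉ s.P).filter
        (fun w => w ∈ S.OnE e), (ψ (S.fc e false) (S.bot w) + ψ (S.fc e true) (S.bot w)) := by
    rw [← Finset.sum_add_distrib]
    refine Finset.sum_congr rfl fun e _ => ?_
    rw [m.sum_Dp]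
    congr 1
    · refine Finset.sum_congr (by ext; simp only [Finset.mem_filter]) fun w hw => ?_
      rw [m.pt_top (Finset.mem_filter.1 (Finset.mem_filter.1 hw).1).1]
    · refine Finset.sum_congr (by ext; simp only [Finset.mem_filter]) fun w hw => ?_
      rw [m.pt_bot (Finset.mem_filter.1 (Finset.mem_filter.1 hw).1).2]
  have h6 : ∑ e : Ed, ∑ w ∈ (m.B.filter fun w => w ∉ s.P).filter
        (fun w => w ∈ S.OnE e), (ψ (S.fc e false) (S.bot w) + ψ (S.fc e true) (S.bot w)) = 0 := by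
    have h7 := S.hsum_inv (m.B.filter fun w => w ∉ s.P)
      (fun F w => ψ F (S.bot w) + ψk (S.bot w)) m.mu0 (by
        intro F w hF hw hwF
        obtain ⟨a1, a2⟩ := Finset.mem_filter.1 hw
        have a3 := m.mem hF a1 hwF
        exact ⟨Finset.mem_filter.2 ⟨a3.1, m.mu0_not_P hF hwF a2 a1⟩, a3.2⟩) (by
        intro F w hF hw hwF
        exact m.ne hF (Finset.mem_filter.1 hw).1 hwF) (by
        intro F w hF hw hwF
        exact m.inv hF (Finset.mem_filter.1 hw).1 hwF) (by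
        intro F w hF hw hwF
        obtain ⟨a1, a2⟩ := Finset.mem_filter.1 hw
        exact (zz_swap _ _ _ _ (hb F w hF a1 a2 hwF)).symm)
    rw [← h7]
    refine Finset.sum_congr rfl fun e _ => Finset.sum_congr rfl fun w _ => ?_
    exact (y3 _ _ _).symm
  rw [h5, h6, add_zero] at h2
  exact h2.symm

/-- **(QP)**: the horizontal piece has no period, if the upper curve is connected and the sphere has
`H¹ = 0`. -/
theorem qp [Fintype Ed] (hp : m.Par) (hS : S.Sph) (hC : S.Circ) (hTC : m.TC) (hNL : m.NL) :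
    m.QP hp := by
  intro κ hG hK
  choose ψ' hψ' using hG
  obtain ⟨ψk, hψk⟩ := hK
  obtain ⟨ψ, hψdef⟩ : ∃ ψ : Φ → S.Pnt → ZMod 2, ∀ F (hF : k ∈ M.side F) x,
      ψ F x = ψ' ⟨F, hF⟩ x :=
    ⟨fun F x => if hF : k ∈ M.side F then ψ' ⟨F, hF⟩ x else 0, fun F hF x => dif_pos hF⟩
  have hψ : ∀ F (hF : k ∈ M.side F) F' x, (Sum.inr ⟨F, hF⟩ : S.Cell) ∈ S.side F' → x ∈ m.qe →
      x ∈ S.On F' → κ F' x = ψ F x + ψ F (m.mu' hp F' x) := by
    intro F hF F' x h1 h2 h3
    rw [hψdef F hF, hψdef F hF]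
    exact hψ' ⟨F, hF⟩ F' x h1 h2 h3
  clear hψ' hψdef
  -- vertical chords
  have hv : ∀ e b x, x ∈ m.qon e →
      κ (Sum.inr (Sum.inr e)) x = ψ (S.fc e b) x + ψ (S.fc e b) (m.pr hp e x) := by
    intro e b x hx
    obtain ⟨h1, h2⟩ := m.mem_qon.1 hx
    have h3 := hψ (S.fc e b) (S.fc_side e b) (Sum.inr (Sum.inr e)) x
      (S.mem_side_vert.2 ⟨b, rfl⟩) h1 h2
    rwa [m.mu'_vert_qe hp h1] at h3
  have hg : ∀ e, ∀ x ∈ m.qon e,
      ψ (S.fc e false) (m.pr hp e x) + ψ (S.fc e true) (m.pr hp e x) =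
        ψ (S.fc e false) x + ψ (S.fc e true) x := by
    intro e x hx
    have h1 := hv e false x hx
    have h2 := hv e true x hx
    rw [h1] at h2
    have y : ∀ a b c d : ZMod 2, a + b = c + d → b + d = a + c := by decide
    exact y _ _ _ _ h2
  -- chords of the upper and lower curves
  have htop : ∀ F w, k ∈ M.side F → S.top w ∈ m.qe → w ∈ M.On F →
      κ (Sum.inl F) (S.top w) = ψ F (S.top w) + ψ F (S.top (s.mu F w)) := fun F w hF h1 h2 =>
    hψ F hF (Sum.inl F) (S.top w) (S.inr_mem_side.2 rfl) h1 (S.top_mem_On.2 h2)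
  have hbot : ∀ F (hF : k ∈ M.side F) w, S.bot w ∈ m.qe → w ∈ M.On F →
      κ (Sum.inr (Sum.inl ⟨F, hF⟩)) (S.bot w) = ψ F (S.bot w) + ψ F (S.bot (m.mu0 F w)) :=
    fun F hF w h1 h2 => hψ F hF (Sum.inr (Sum.inl ⟨F, hF⟩)) (S.bot w)
      (S.mem_side_bot.2 (Or.inl rfl)) h1 (S.bot_mem_On.2 h2)
  have hbotk : ∀ F (hF : k ∈ M.side F) w, S.bot w ∈ m.qe → w ∈ M.On F →
      κ (Sum.inr (Sum.inl ⟨F, hF⟩)) (S.bot w) = ψk (S.bot w) + ψk (S.bot (m.mu0 F w)) :=
    fun F hF w h1 h2 => hψk (Sum.inr (Sum.inl ⟨F, hF⟩)) (S.bot w)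
      (S.mem_side_bot.2 (Or.inr rfl)) h1 (S.bot_mem_On.2 h2)
  have hb : ∀ F w, k ∈ M.side F → w ∈ m.B → w ∉ s.P → w ∈ M.On F →
      ψ F (S.bot w) + ψ F (S.bot (m.mu0 F w)) = ψk (S.bot w) + ψk (S.bot (m.mu0 F w)) := by
    intro F w hF h1 h2 h3
    have h4 := m.bot_mem_qe.2 ⟨h1, h2⟩
    rw [← hbot F hF w h4 h3, hbotk F hF w h4 h3]
  -- the potential on the upper curve
  obtain ⟨lam, hlam⟩ := S.curve_exact (s.P.filter fun w => w ∉ m.B ∧ ∃ e, w ∈ S.OnE e)
    (fun w hw => (Finset.mem_filter.1 hw).2.2) s.mu (by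
      intro F w hF hw hwF
      obtain ⟨a1, a2, a3⟩ := Finset.mem_filter.1 hw
      have a4 := s.mu_mem a1 hwF
      obtain ⟨e, _, _, he⟩ := (S.onE hF).1 a4.2
      exact ⟨Finset.mem_filter.2 ⟨a4.1, m.mu_not_B hF hwF a1 a2, e, he⟩, a4.2⟩) (by
      intro F w hF hw hwF
      exact s.mu_mu (Finset.mem_filter.1 hw).1 hwF) (by
      intro X hX w hwX hw w' hw'
      obtain ⟨a1, a2, a3⟩ := Finset.mem_filter.1 hw
      obtain ⟨b1, b2, b3⟩ := Finset.mem_filter.1 hw'
      refine hTC X (fun F u h1 h2 h3 h4 h5 => ?_) w hwX a1 a2 a3 w' b1 b2 b3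
      obtain ⟨e, _, _, he⟩ := (S.onE h1).1 h2
      exact hX F u h1 h2 (Finset.mem_filter.2 ⟨h3, h4, e, he⟩) h5)
    (fun F w => ψ F (S.top w)) (m.top_total hp ψ ψk hg hb)
  obtain ⟨lam', hlam1, hlam2⟩ : ∃ lam' : W → ZMod 2, (∀ w ∈ s.P, lam' w = lam w) ∧
      ∀ w, w ∉ s.P → lam' w = ψk (S.bot w) :=
    ⟨fun w => if w ∈ s.P then lam w else ψk (S.bot w), fun w hw => if_pos hw,
      fun w hw => if_neg hw⟩
  obtain ⟨eps, heps⟩ : ∃ eps : Φ → W → ZMod 2, ∀ F w, eps F w = ψ F (m.pt w) + lam' w :=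
    ⟨_, fun _ _ => rfl⟩
  have hinv : ∀ F, k ∈ M.side F → ∀ w ∈ m.Dp, w ∈ M.On F → eps F (m.nu F w) = eps F w := by
    intro F hF w hw hwF
    rw [heps, heps]
    by_cases hP : w ∈ s.P
    · have hB := m.Dp_top hw hP
      obtain ⟨e, he⟩ := m.Dp_edge hw
      have h1 := hlam F w hF (Finset.mem_filter.2 ⟨hP, hB, e, he⟩) hwF
      have h2 := s.mu_mem hP hwF
      rw [m.nu_top hP, m.pt_top hP, m.pt_top h2.1, hlam1 _ hP, hlam1 _ h2.1]
      exact (zz_swap _ _ _ _ h1).symm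
    · have hB := m.Dp_bot hw hP
      have h2 := m.mem hF hB hwF
      have h3 := m.mu0_not_P hF hwF hP hB
      rw [m.nu_bot hP, m.pt_bot hP, m.pt_bot h3, hlam2 _ hP, hlam2 _ h3]
      exact (zz_swap _ _ _ _ (hb F w hF hB hP hwF)).symm
  -- the cochain on the edges
  obtain ⟨c, hc0⟩ : ∃ c : Ed → ZMod 2, ∀ e, c e =
      (∑ w ∈ m.Dp.filter (fun w => w ∈ S.OnE e), eps (S.fc e false) w) +
        (m.vq (ψ (S.fc e false)) (S.en e false) + m.vq (ψ (S.fc e false)) (S.en e true)) :=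
    ⟨_, fun _ => rfl⟩
  have hc1 : ∀ e b, c e =
      (∑ w ∈ m.Dp.filter (fun w => w ∈ S.OnE e), eps (S.fc e b) w) +
        (m.vq (ψ (S.fc e b)) (S.en e false) + m.vq (ψ (S.fc e b)) (S.en e true)) := by
    intro e b
    cases b
    · exact hc0 e
    · rw [hc0 e]
      apply zz_eq
      have h1 := m.pair_total hp e (fun x => ψ (S.fc e false) x + ψ (S.fc e true) x) (hg e)
      rw [m.sum_qon, m.vq_add, m.vq_add] at h1
      have h2 : ∑ w ∈ m.Dp.filter (fun w => w ∈ S.OnE e),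
          (ψ (S.fc e false) (m.pt w) + ψ (S.fc e true) (m.pt w)) =
          (∑ w ∈ m.Dp.filter (fun w => w ∈ S.OnE e), eps (S.fc e false) w) +
            ∑ w ∈ m.Dp.filter (fun w => w ∈ S.OnE e), eps (S.fc e true) w := by
        rw [← Finset.sum_add_distrib]
        refine Finset.sum_congr rfl fun w _ => ?_
        rw [heps, heps]
        exact (y3 _ _ _).symm
      rw [h2] at h1
      rw [← h1]
      have y : ∀ a b c d e f : ZMod 2, a + (b + c) + (d + (e + f)) = a + d + (b + e + (c + f)) := by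
        decide
      exact y _ _ _ _ _ _
  have hc : ∀ F e, e ∈ S.EF F → c e =
      (∑ w ∈ m.Dp.filter (fun w => w ∈ S.OnE e), eps F w) +
        (m.vq (ψ F) (S.en e false) + m.vq (ψ F) (S.en e true)) := by
    intro F e he
    obtain ⟨b, rfl⟩ := S.mem_EF.1 he
    exact hc1 e b
  obtain ⟨ψ0, hψ0⟩ := hS c (by
    intro F hF
    rw [Finset.sum_congr rfl (hc F), Finset.sum_add_distrib, S.vsum F (m.vq (ψ F)), add_zero,
      S.wsum hF]
    refine sum_inv _ _ (m.nu F) ?_ ?_ ?_ ?_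
    · intro x hx
      obtain ⟨a1, a2⟩ := Finset.mem_filter.1 hx
      exact Finset.mem_filter.2 (m.nu_mem hF a1 a2)
    · intro x hx
      obtain ⟨a1, a2⟩ := Finset.mem_filter.1 hx
      exact m.nu_ne hF a1 a2
    · intro x hx
      obtain ⟨a1, a2⟩ := Finset.mem_filter.1 hx
      exact m.nu_nu hF a1 a2
    · intro x hx
      obtain ⟨a1, a2⟩ := Finset.mem_filter.1 hx
      exact hinv F hF x a1 a2)
  obtain ⟨DG, hDG⟩ : ∃ DG : Φ → Vx → ZMod 2, ∀ F v, DG F v = ψ0 v + m.vq (ψ F) v :=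
    ⟨_, fun _ _ => rfl⟩
  have hE1 : ∀ F, ∀ e ∈ S.EF F, DG F (S.en e false) + DG F (S.en e true) =
      ∑ w ∈ m.Dp.filter (fun w => w ∈ S.OnE e), eps F w := by
    intro F e he
    have h1 := hψ0 e
    rw [hc F e he] at h1
    rw [hDG, hDG]
    have y : ∀ s a b c d : ZMod 2, s + (a + b) = c + d → c + a + (d + b) = s := by decide
    exact y _ _ _ _ _ h1
  -- the potential
  obtain ⟨Pe, hPe⟩ : ∃ Pe : Ed → Φ → W → ZMod 2, ∀ e F w, Pe e F w =
      DG F (S.en e false) +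
        (∑ y ∈ m.Dp.filter (fun y => y ∈ S.OnE e ∧ S.t y < S.t w), eps F y) +
        (if Even (m.Lx e (m.pt w)).card then lam' w else ψ F (m.pt w)) :=
    ⟨_, fun _ _ _ => rfl⟩
  have hind : ∀ e w, w ∈ m.Dp → w ∈ S.OnE e → Pe e (S.fc e false) w = Pe e (S.fc e true) w := by
    intro e w hw hwe
    have h1 := m.pair_sum hp (fun x => ψ (S.fc e false) x + ψ (S.fc e true) x) (hg e)
      (m.pt_mem_qon.2 ⟨hw, hwe⟩)
    rw [m.sum_Lx hwe, m.vq_add] at h1
    have h2 : ∑ y ∈ m.Dp.filter (fun y => y ∈ S.OnE e ∧ S.t y < S.t w),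
          (ψ (S.fc e false) (m.pt y) + ψ (S.fc e true) (m.pt y)) =
          (∑ y ∈ m.Dp.filter (fun y => y ∈ S.OnE e ∧ S.t y < S.t w), eps (S.fc e false) y) +
            ∑ y ∈ m.Dp.filter (fun y => y ∈ S.OnE e ∧ S.t y < S.t w), eps (S.fc e true) y := by
      rw [← Finset.sum_add_distrib]
      refine Finset.sum_congr rfl fun w _ => ?_
      rw [heps, heps]
      exact (y3 _ _ _).symm
    rw [h2] at h1
    rw [hPe, hPe, hDG, hDG]
    by_cases hev : Even (m.Lx e (m.pt w)).card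
    · rw [if_pos hev] at h1
      rw [if_pos hev, if_pos hev]
      have y : ∀ p a b s t l : ZMod 2, s + t + (a + b) = 0 →
          p + a + s + l = p + b + t + l := by decide
      exact y _ _ _ _ _ _ h1
    · rw [if_neg hev] at h1
      rw [if_neg hev, if_neg hev]
      have y : ∀ p a b s t l l' : ZMod 2, s + t + (a + b) = l + l' →
          p + a + s + l = p + b + t + l' := by decide
      exact y _ _ _ _ _ _ _ h1
  obtain ⟨Pw, hPw⟩ : ∃ Pw : W → ZMod 2, ∀ e F w, e ∈ S.EF F → w ∈ m.Dp → w ∈ S.OnE e →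
      Pw w = Pe e F w := by
    refine ⟨fun w => if h : ∃ e, w ∈ S.OnE e then Pe h.choose (S.fc h.choose false) w else 0, ?_⟩
    intro e F w he hw hwe
    have h : ∃ e, w ∈ S.OnE e := ⟨e, hwe⟩
    have h1 : h.choose = e := S.onE_disj h.choose_spec hwe
    show (if h : ∃ e, w ∈ S.OnE e then Pe h.choose (S.fc h.choose false) w else 0) = _
    rw [dif_pos h, h1]
    obtain ⟨b, rfl⟩ := S.mem_EF.1 he
    cases b
    · rfl
    · exact hind e w hw hwe
  obtain ⟨Ψ, hΨ1, hΨ2⟩ : ∃ Ψ : S.Pnt → ZMod 2, (∀ w, Ψ (m.pt w) = Pw w) ∧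
      ∀ v, Ψ (S.vert v) = ψ0 v := by
    refine ⟨fun x => match x with
      | Sum.inl w => Pw w
      | Sum.inr (Sum.inl w) => Pw w
      | Sum.inr (Sum.inr v) => ψ0 v, fun w => ?_, fun v => rfl⟩
    by_cases h : w ∈ s.P
    · rw [m.pt_top h]
    · rw [m.pt_bot h]
  -- the defect
  have hdel : ∀ F e w, e ∈ S.EF F → w ∈ m.Dp → w ∈ S.OnE e →
      Ψ (m.pt w) + ψ F (m.pt w) = DG F (S.en e false) +
        (∑ y ∈ m.Dp.filter (fun y => y ∈ S.OnE e ∧ S.t y < S.t w), eps F y) +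
        (if Even (m.Lx e (m.pt w)).card then eps F w else 0) := by
    intro F e w he hw hwe
    rw [hΨ1, hPw e F w he hw hwe, hPe, heps]
    split_ifs
    · have y : ∀ a b c d : ZMod 2, a + b + c + d = a + b + (d + c) := by decide
      exact y _ _ _ _
    · have y : ∀ a b c : ZMod 2, a + b + c + c = a + b + 0 := by decide
      exact y _ _ _
  -- along the boundary circle of a face
  have hface : ∀ F, k ∈ M.side F → ∀ w ∈ m.Dp, w ∈ M.On F →
      Ψ (m.pt w) + Ψ (m.pt (m.nu F w)) = ψ F (m.pt w) + ψ F (m.pt (m.nu F w)) := by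
    intro F hF
    obtain ⟨o, ho⟩ := m.face_key hC hNL hF
    obtain ⟨R, hR1, hR2⟩ := ho (eps F) (DG F) (hinv F hF) (hE1 F)
    obtain ⟨R1, hR3, hR4⟩ := ho (fun _ => 1) (m.vq fun _ => 1) (fun _ _ _ => rfl) (by
      intro e he
      have h1 := hp.even e
      have h2 : ∑ x ∈ m.qon e, (1 : ZMod 2) = 0 := by
        rw [Finset.sum_const, nsmul_even h1]
      rw [m.sum_qon e (fun _ => 1)] at h2
      exact (zz_eq _ _ h2).symm)
    have hD : ∀ w ∈ m.Dp, w ∈ M.On F →
        Ψ (m.pt w) + ψ F (m.pt w) = R w + (1 + R1 w) * eps F w := by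
      intro w hw hwF
      obtain ⟨e, b, hb1, hwe⟩ := (S.onE hF).1 hwF
      have he : e ∈ S.EF F := S.mem_EF.2 ⟨b, hb1⟩
      rw [hdel F e w he hw hwe, hR1 e he w hw hwe]
      have h3 : ((m.Lx e (m.pt w)).card : ZMod 2) = R1 w + o w * 1 := by
        rw [← hR3 e he w hw hwe]
        have h4 := m.sum_Lx hwe (fun _ => (1 : ZMod 2))
        rw [Finset.sum_const, nsmul_eq_mul, mul_one] at h4
        rw [h4, add_comm]
      have h5 : (if Even (m.Lx e (m.pt w)).card then eps F w else 0) =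
          (1 + ((m.Lx e (m.pt w)).card : ZMod 2)) * eps F w := by
        by_cases hev : Even (m.Lx e (m.pt w)).card
        · rw [if_pos hev, (ZMod.natCast_eq_zero_iff_even).2 hev, add_zero, one_mul]
        · have h6 : ((m.Lx e (m.pt w)).card : ZMod 2) = 1 :=
            ZMod.natCast_eq_one_iff_odd.2 (Nat.not_even_iff_odd.1 hev)
          rw [if_neg hev, h6]
          have y : ∀ a : ZMod 2, 0 = (1 + 1) * a := by decide
          exact y _
      rw [h5, h3]
      exact y6 _ _ _ _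
    intro w hw hwF
    have hw' := m.nu_mem hF hw hwF
    have h1 := hD w hw hwF
    have h2 := hD _ hw'.1 hw'.2
    rw [hR2 w hw hwF, hR4 w hw hwF, hinv F hF w hw hwF, y2, ← h1] at h2
    have y : ∀ a b c d : ZMod 2, a + b = c + d → c + a = d + b := by decide
    exact y _ _ _ _ h2
  -- along a vertical face
  have hvert : ∀ e, ∀ x ∈ m.qon e, Ψ x + Ψ (m.pr hp e x) =
      ψ (S.fc e false) x + ψ (S.fc e false) (m.pr hp e x) := by
    intro e
    have he : e ∈ S.EF (S.fc e false) := S.mem_EF.2 ⟨false, rfl⟩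
    obtain ⟨eP, heP1, heP2⟩ : ∃ eP : S.Pnt → ZMod 2,
        (∀ w, eP (m.pt w) = eps (S.fc e false) w) ∧ ∀ v, eP (S.vert v) = 0 := by
      refine ⟨fun x => match x with
        | Sum.inl w => eps (S.fc e false) w
        | Sum.inr (Sum.inl w) => eps (S.fc e false) w
        | Sum.inr (Sum.inr _) => 0, fun w => ?_, fun v => rfl⟩
      by_cases h : w ∈ s.P
      · rw [m.pt_top h]
      · rw [m.pt_bot h]
    have hvq : ∀ v, m.vq eP v = 0 := by
      intro v
      unfold vq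
      rw [heP2, ite_self]
    have hval : ∀ x ∈ m.qon e, Ψ x + ψ (S.fc e false) x = DG (S.fc e false) (S.en e false) +
        (∑ y ∈ m.Lx e x, eP y) + (if Even (m.Lx e x).card then eP x else 0) := by
      intro x hx
      have hx1 := (m.mem_qon.1 hx).1
      rcases m.qe_cases hx1 with ⟨w, hw, rfl⟩ | ⟨v, hv, rfl⟩
      · have hwe := (m.pt_mem_qon.1 hx).2
        rw [hdel _ e w he hw hwe, m.sum_Lx hwe, hvq, add_zero, heP1]
        congr 2
        exact Finset.sum_congr rfl fun y _ => (heP1 y).symm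
      · obtain ⟨_, b, hb1⟩ := m.vert_mem_qon.1 hx
        rw [hΨ2, heP2, ite_self, add_zero]
        have h1 : ψ0 v + ψ (S.fc e false) (S.vert v) = DG (S.fc e false) v := by
          rw [hDG]
          unfold vq
          rw [if_pos hv]
        rw [h1]
        cases b
        · subst hb1
          have h2 : m.Lx e (S.vert (S.en e false)) = ∅ := by
            rw [Finset.eq_empty_iff_forall_notMem]
            intro y hy
            obtain ⟨a1, a2⟩ := m.mem_Lx.1 hy
            have h3 : S.tau e (S.vert (S.en e false)) = -1 / 2 := by simp [Shell.tau]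
            have h4 := (S.tau_mem (m.mem_qon.1 a1).2).1
            rw [h3] at a2
            linarith
          rw [h2, Finset.sum_empty, add_zero]
        · subst hb1
          have h3 : S.tau e (S.vert (S.en e true)) = 3 / 2 := by
            simp [Shell.tau, (S.en_ne e).symm]
          have h2 : m.Lx e (S.vert (S.en e true)) = (m.qon e).erase (S.vert (S.en e true)) := by
            ext y
            rw [m.mem_Lx, Finset.mem_erase]
            constructor
            · rintro ⟨a1, a2⟩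
              refine ⟨?_, a1⟩
              rintro rfl
              exact lt_irrefl _ a2
            · rintro ⟨a1, a2⟩
              refine ⟨a2, ?_⟩
              have h4 := (S.tau_mem (m.mem_qon.1 a2).2).2.1
              have h5 := m.tau_ne a2 hx a1
              rw [h3] at h5 ⊢
              exact lt_of_le_of_ne h4 h5
          have h6 : ∑ y ∈ m.Lx e (S.vert (S.en e true)), eP y =
              ∑ w ∈ m.Dp.filter (fun w => w ∈ S.OnE e), eps (S.fc e false) w := by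
            rw [h2, Finset.sum_erase _ (heP2 _), m.sum_qon, hvq, hvq, add_zero, add_zero]
            exact Finset.sum_congr rfl fun y _ => heP1 y
          rw [h6, ← hE1 _ e he]
          have y : ∀ a b : ZMod 2, a = b + (b + a) := by decide
          exact y _ _
    -- lower end first
    have hlow : ∀ x ∈ m.qon e, S.tau e x < S.tau e (m.pr hp e x) →
        Ψ (m.pr hp e x) + ψ (S.fc e false) (m.pr hp e x) = Ψ x + ψ (S.fc e false) x := by
      intro x hx hlt
      obtain ⟨a1, a2, a3⟩ := m.Lx_pr hp hx hlt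
      have h4 : ¬ Even (m.Lx e (m.pr hp e x)).card := by
        rw [a1, Finset.card_insert_of_notMem a2, Nat.even_add_one]
        exact fun h => h a3
      rw [hval x hx, hval _ (m.pr_spec hp e x hx).1, if_pos a3, if_neg h4, a1,
        Finset.sum_insert a2]
      have y : ∀ a b c : ZMod 2, a + (b + c) + 0 = a + c + b := by decide
      exact y _ _ _
    intro x hx
    obtain ⟨g1, g2, g3, g4, g5⟩ := m.pr_spec hp e x hx
    rcases lt_or_gt_of_ne (m.tau_ne g1 hx g2) with h | h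
    · have h1 := hlow _ g1 (by rw [g3]; exact h)
      rw [g3] at h1
      have y : ∀ a b c d : ZMod 2, a + b = c + d → a + c = b + d := by decide
      exact y _ _ _ _ h1
    · have h1 := hlow x hx h
      have y : ∀ a b c d : ZMod 2, a + b = c + d → c + a = d + b := by decide
      exact y _ _ _ _ h1
  -- conclusion
  refine ⟨Ψ, fun F x hF hx hxF => ?_⟩
  rcases F with F | G | e
  · have hk := S.of_lay_top hF
    rcases x with w | x
    · have hwF := S.top_mem_On.1 hxF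
      obtain ⟨a1, a2, a3⟩ := m.top_mem_qe.1 hx
      have h1 := hface F hk w (m.mem_Dp.2 (Or.inl ⟨a1, a2, a3⟩)) hwF
      rw [m.nu_top a1, m.pt_top a1, m.pt_top (s.mu_mem a1 hwF).1] at h1
      exact (htop F w hk hx hwF).trans h1.symm
    · obtain ⟨w, _, h⟩ := hxF
      cases h
  · rcases x with w | w | v
    · exact (S.top_not_mem_On hxF).elim
    · have hwF := S.bot_mem_On.1 hxF
      obtain ⟨a1, a2⟩ := m.bot_mem_qe.1 hx
      have h1 := hface G.1 G.2 w (m.mem_Dp.2 (Or.inr ⟨a1, a2⟩)) hwF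
      rw [m.nu_bot a2, m.pt_bot a2, m.pt_bot (m.mu0_not_P G.2 hwF a2 a1)] at h1
      exact (hbot G.1 G.2 w hx hwF).trans h1.symm
    · exact (S.vert_not_mem_On' hxF).elim
  · have hx1 := m.mem_qon.2 ⟨hx, hxF⟩
    rw [m.mu'_vert_qe hp hx, hv e false x hx1]
    exact (hvert e x hx1).symm

end Crest.Agent.R096.Door_501.Move
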