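import Crest.Agent.R096.Cin3_181_Mg
import Crest.Agent.R096.Gl12_422
import Crest.Agent.R096.Cpo2_642
import Crest.Agent.R096.Csub7_487
import Crest.Agent.R096.Fin4_147
import Crest.Agent.R096.Onb1_63

-- ▼ part R096/SkMv2_362
section

/-!
# R096 (row 96), BOTTOM, vertical slice `X = univ` (helper362, hot spare of SkM_337), part 2

The slice over `Lx` = the labelled mesh of the closed cells which are not exact core tiles: complex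
`cplxX`, `StI`, `StO`, `mm > 0`, `Inv`-free data of the placement.
-/

set_option autoImplicit false
set_option linter.style.longLine false
set_option linter.unusedSectionVars false

open Set Topology Filter Relation MeasureTheory

namespace Crest.Agent.R096.SkMv_362

open Crest.Agent.R096.Coh_184 Crest.Agent.R096.Brk1_582 Crest.Agent.R096.Brk2_582
  Crest.Agent.R096.Brk3_582 Crest.Agent.R096.Brk5_582 Crest.Agent.R096.Bsp_628
  Crest.Agent.R096.Lab_184 Crest.Agent.R096.Main_4 Crest.Agent.R096.Msh_715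
  Crest.Agent.R096.Agl4_543 Crest.Agent.R096.Agl5_543 Crest.Agent.R096.Agl6_543
  Crest.Agent.R096.Ginv_543 Crest.Agent.R096.Seq_213 Crest.Agent.R096.Seq_213.GSt
  Crest.Agent.R096.St_147 Crest.Agent.R96.Push_899
  Crest.Agent.R096.Init_543 Crest.Agent.R096.Leaf_965 Crest.Agent.R096.SkB_662
  Crest.Agent.R096.Lm_117 Crest.Agent.R096.Ac_117 Crest.Agent.R096.Gl_422
  Crest.Agent.R096.Cp_298 Crest.Agent.R096.Ori_543 Crest.Agent.R096.Bd_416 Crest.Agent.R096.Mg_441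
  Crest.Agent.R096.Cpo_642 Crest.Agent.R096.Csub_487 Crest.Agent.R096.Ce_537

open Crest.Agent.R096.SkC1_961 (E3 Hom3 IsPush FoamD Cfg th NN)
open Crest.Agent.R096.Fin_147 (Xout)

section mesh

variable {Om : Set E3} {ι α : Type} (T : Tiling Om ι) (ct : α → ι)

/-- the closed cells which are not one of the tiles `ct a` -/
abbrev Qx : Type := {c : T.Cell // notTile T ct c}

theorem px_down (c d : T.Cell) (h : c ≤ d) (hd : notTile T ct d) : notTile T ct c :=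
  notTile_down ct h hd

theorem px_two [Nonempty T.Cell] (c : T.Cell) (h : c.dim ≤ 2) : notTile T ct c :=
  notTile_of_dim ct fr3 (by omega)

theorem px_ne [Nonempty T.Cell] : ∃ c : T.Cell, notTile T ct c := by
  obtain ⟨c⟩ := (inferInstance : Nonempty T.Cell)
  obtain ⟨v, hv, hd⟩ := exists_vertex T c.pt_mem
  have hvO : v ∈ Om := T.cc_sub_Om c.pt_mem hv
  refine ⟨T.cl hvO, px_two T ct _ ?_⟩
  rw [T.dim_cl, hd]
  norm_num

/-- the labelled mesh over `Qx` -/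
noncomputable abbrev Lx [Nonempty T.Cell] : LM (meshC T fr3) (Qx T ct) (fun c => c.1.dim) :=
  sb (lmT T fr3) (notTile T ct) (px_down T ct) (px_ne T ct) (px_two T ct)




end mesh

section slice

variable {δ κ0 R c0 : ℝ} {La Om : Set E3} {ι : Type} {Φ : FoamD δ κ0 R c0 La}
  {T : Tiling Om ι} {f g : E3 → E3}





end slice

end Crest.Agent.R096.SkMv_362
end

-- ▼ part R096/Rop7_441

/-!
# R096 (row 96), ROPES (helper441), part 7: the slice `X = univ`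

`env_x`, `levOn_x`, `deep_x`, `far_x` : 441's `Env`, `LevOn`, `Deep` for 362's labelled mesh `Lx`;
**`meshExA_x`** : (K4) for all cells of `Lx`;
**`hpath_x`**   : a frozen path from `v₀ a` to a vertex of every exact core tile (446's `hpath`).
-/

set_option autoImplicit false
set_option linter.unusedSectionVars false

open Set Relation Module

namespace Crest.Agent.R096.Rop_441

open Crest.Agent.R096.Brk1_582 Crest.Agent.R096.Brk2_582 Crest.Agent.R096.Brk3_582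
  Crest.Agent.R096.Brk5_582 Crest.Agent.R096.Bsp_628 Crest.Agent.R096.Init_543
  Crest.Agent.R096.Vb_965 Crest.Agent.R096.Msh_715 Crest.Agent.R096.St_147
  Crest.Agent.R096.Seq_213 Crest.Agent.R096.Lm_117 Crest.Agent.R096.Gl_422
  Crest.Agent.R096.SkB_662 Crest.Agent.R096.SkMv_362 Crest.Agent.R096.Cpo_642
  Crest.Agent.R096.Ce_537 Crest.Agent.R096.Agl5_543 Crest.Agent.R096.Ecm_446
  Crest.Agent.R096.Cp_298 Crest.Agent.R096.Kin_527 Crest.Agent.R096.Ac_117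
open Crest.Agent.R096.SkC1_961 (E3 Hom3 FoamD)
open Crest.Agent.R096.Mbf_337 (KJ sb)
open Crest.Agent.R096.Gia_537 (Kc Kc_sub Kc_compact Kc_disj Kc_exact)
open Crest.Agent.R096.Exa_560 (Cn Cn_nonneg)

section gen

variable {δ κ0 R c0 : ℝ} {La Om : Set E3} {ι : Type} {Φ : FoamD δ κ0 R c0 La}
  {T : Tiling Om ι} {f g : E3 → E3} {κ1 κ2 : ℝ} {X : Set Φ.F} {J0 J V : Φ.F → Set ι} {ct : Φ.F → ι}
  {A : Φ.F → E3 ≃ᵃ[ℝ] E3} {lam : Φ.F → ℝ} {z : Φ.F → E3} {θ : Φ.F → E3 → E3} {φ : Φ.F → E3 → ℝ}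
  {ct' : Φ.F → ι} {r₀ : Φ.F → ℝ}

theorem RF_Psi (hLa : IsOpen La) (hR : InitR Φ T f g J0 ct' r₀) {x : E3} (hx : x ∈ Om)
    (hxI : ∀ c, x ∉ I (T.H (ct' c))) : RF Φ r₀ (f x) = Φ.Psi (f x) := by
  obtain ⟨c, hc⟩ := (foam4 Φ hLa).cov (f x) (hR.hm.fm hx)
  exact (RF_eq Φ hLa hR.pos hR.le_one hc (hR.out c x hx hc (hxI c))).1

theorem notMem_hole' (hR : InitR Φ T f g J0 ct' r₀) {q : ι} (hq : q ∉ KorJ Φ J0) {x : E3}
    (hx : x ∈ P (T.H q)) (c : Φ.F) : x ∉ I (T.H (ct' c)) :=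
  not_mem_I (fun e => hq ⟨c, by rw [e]; exact hR.ct c⟩) hx

theorem korJ_mono (hC : Mbf_337.Cores Φ T f κ1 κ2 X J0 J V ct A lam z θ φ) :
    KorJ Φ J0 ⊆ KorJ Φ J := by
  rintro q ⟨c, hc⟩
  exact ⟨c, Nr_527.J0_sub hC c hc⟩

theorem kor_sub : ∀ q ∈ KorJ Φ J, ∃ c, P (T.H q) ⊆ Kc T J c := by
  rintro q ⟨c, hc⟩
  exact ⟨c, fun x hx => Nr_527.mem_KJ.2 ⟨q, hc, hx⟩⟩


theorem int_J {q : ι} (hq : q ∉ KorJ Φ J) {x : E3} (hx : x ∈ P (T.H q)) (c : Φ.F) :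
    x ∉ interior (Kc T J c) := Nr_527.not_mem_interior_KJ (fun h => hq ⟨c, h⟩) hx

/-- the threshold of the ropes -/
noncomputable def θN (δ κ0 R c0 κ2 κ1 : ℝ) : ℝ := κ1 + η0F δ κ0 R c0 κ2 κ1

/-- the width of the ropes -/
noncomputable def ηN (δ κ0 R c0 κ2 κ1 : ℝ) : ℝ :=
  θN δ κ0 R c0 κ2 κ1 + η0F δ κ0 R c0 κ2 κ1

/-- **the numbers of the ropes**: `s₁` = threshold of the active tiles (`s₁ ≤ μ`, `μ` the margin of
the levels) -/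
structure Num (δ κ0 R c0 κ2 κ1 s₁ : ℝ) : Prop where
  hδ : 0 < δ
  hR : 0 < R
  hκ0 : 0 ≤ κ0
  hκ1 : 0 ≤ κ1
  hκ2 : 0 < κ2
  hκ : 2 * κ0 * κ1 ≤ κ2
  hκn : Cn δ R * κ1 < 1
  hs : κ1 + (ηN δ κ0 R c0 κ2 κ1 + η0F δ κ0 R c0 κ2 κ1) < s₁
  hs1 : s₁ ≤ 1 / 2

theorem Num.h00 {s₁ : ℝ} (h : Num δ κ0 R c0 κ2 κ1 s₁) : 0 ≤ η0F δ κ0 R c0 κ2 κ1 :=
  η0F_nonneg h.hδ h.hR h.hκ0 h.hκ1 h.hκ2.le

theorem Num.hθ {s₁ : ℝ} (h : Num δ κ0 R c0 κ2 κ1 s₁) : 0 ≤ θN δ κ0 R c0 κ2 κ1 :=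
  add_nonneg h.hκ1 h.h00

/-- `κ1` exists for given `s₁` -/
theorem exists_num {s₁ : ℝ} (hδ : 0 < δ) (hκ0 : 0 ≤ κ0) (hR : 0 < R) (hκ2 : 0 < κ2)
    (hs : 0 < s₁) (hs1 : s₁ ≤ 1 / 2) :
    ∃ κ : ℝ, 0 < κ ∧ ∀ κ1, 0 ≤ κ1 → κ1 ≤ κ → Num δ κ0 R c0 κ2 κ1 s₁ := by
  set C := Cs 3 δ R * (54 * κ0 / (c0 ^ 2 * κ2)) + Cn δ R with hC
  have hC0 : 0 ≤ C := by
    have h1 := Cs_nonneg (n := 3) hδ hR
    have h2 := Cn_nonneg hδ hR
    positivity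
  have hCn := Cn_nonneg hδ hR
  refine ⟨min (κ2 / (2 * κ0 + 1)) (min (1 / (Cn δ R + 2)) (s₁ / (2 * (2 + 3 * C)))), by positivity,
    fun κ1 h0 h1 => ?_⟩
  have a1 : κ1 ≤ κ2 / (2 * κ0 + 1) := h1.trans (min_le_left _ _)
  have a2 : κ1 ≤ 1 / (Cn δ R + 2) := h1.trans ((min_le_right _ _).trans (min_le_left _ _))
  have a3 : κ1 ≤ s₁ / (2 * (2 + 3 * C)) := h1.trans ((min_le_right _ _).trans (min_le_right _ _))
  have e : η0F δ κ0 R c0 κ2 κ1 = C * κ1 := by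
    rw [hC]; unfold η0F; ring
  refine ⟨hδ, hR, hκ0, h0, hκ2, ?_, ?_, ?_, hs1⟩
  · rw [le_div_iff₀ (by positivity)] at a1
    nlinarith
  · rw [le_div_iff₀ (by positivity)] at a2
    nlinarith
  · rw [le_div_iff₀ (by positivity)] at a3
    unfold ηN θN
    rw [e]
    nlinarith

end gen

section slice

variable {δ κ0 R c0 : ℝ} {La Om : Set E3} {ι : Type} {Φ : FoamD δ κ0 R c0 La}
  {T : Tiling Om ι} {f g : E3 → E3} [Nonempty T.Cell] {J0 : Φ.F → Set ι} {ct' : Φ.F → ι}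
  {r₀ : Φ.F → ℝ} {κ1 s₁ : ℝ} {hLa : IsOpen La} {hR : InitR Φ T f g J0 ct' r₀}
  {hM : Mesh0 T (Pc Φ.F) (bc (F := Φ.F)) (RF Φ r₀) f (KorJ Φ J0) κ1} {h1 : κ1 < s₁}
  {h2 : κ1 < 1} {ct : Φ.F → ι} {κ : Φ.F → ℕ} {L : Φ.F → Finset ℝ} [Nonempty (JJ Φ L)]
  {hG : GF Φ r₀ T f L} {D : Φ.F → Set E3} {bp : JJ Φ L → E3} {lam₀ : JJ Φ L → E3 → ZMod 2}
  {v₀ v₁ : Φ.F → E3} {far₀ : JJ Φ L → Set E3} {kap : Φ.F → ℕ}
  {s : GSt (meshC T fr3) (fam' (fun j : JJ Φ L => j.1) (Rk κ kap))}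
  {far : Nm' (fun j : JJ Φ L => j.1) (Rk κ kap) → Set E3} {β : E3 → E3}
  {lam : Nm' (fun j : JJ Φ L => j.1) (Rk κ kap) → Qx T ct → ZMod 2}
  {κ2 : ℝ} {J V : Φ.F → Set ι} {A : Φ.F → E3 ≃ᵃ[ℝ] E3} {lm : Φ.F → ℝ} {z : Φ.F → E3}
  {θ : Φ.F → E3 → E3} {φ : Φ.F → E3 → ℝ}







end slice

end Crest.Agent.R096.Rop_441
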