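import Crest.Agent.R096.Sec7_892
import Crest.Agent.R096.Sec3_892

-- ▼ part R096/Sec8_892
section

/-!
# R096 / DOORS-SEC, part 8 (helper892): exchange along ONE closed double curve, the sheets of
colour `true` only
-/

set_option autoImplicit false

namespace Crest.Agent.R096.SecW_892

open Crest.Agent.R096.St_147 Crest.Agent.R096.Wk_689 Crest.Agent.R096.F_422
open Crest.Agent.R096.Sec_892

variable {ι Φ W I : Type} {M : MeshC ι Φ W} {col : I → Bool} {s : St M col}
variable {Act : Set ι} {far : I → Set W} {G : Set s.Dbl} {inn : s.Dbl → Bool → Bool}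
variable {nm : Dart s → Option I}

/-- names of the new sheets of colour `true` (`none` = discarded or of colour `false`) -/
structure NmsT (s : St M col) (G : Set s.Dbl) (far : I → Set W) (inn : s.Dbl → Bool → Bool)
    (nm : Dart s → Option I) : Prop where
  fl : ∀ d, nm (flip d) = nm d
  tt : ∀ d, nm (tt G inn d) = nm d
  cont : ∀ (F F' : Φ) (w : W) (h : s.At F w) (h' : s.At F' w), nm (ed h) = nm (ed h')
  out : ∀ z ∉ G, ∀ x b i, nm (dz z x b) = some i → i = s.lab (z.e x)
  ct : ∀ d i, nm d = some i → col i = true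
  same : ∀ (F : Φ) (w : W) (h : s.At F w) (i : I), col (s.lab w) = true → nm (ed h) = some i →
    i = s.lab w
  farF : ∀ i, col i = false → ∀ (F : Φ) (w : W) (h : s.At F w), w ∈ far i → nm (ed h) = none
  far : ∀ i, col i = true → ∀ (F : Φ) (w : W) (h : s.At F w), w ∈ far i → nm (ed h) = some i
  sep : ∀ t : Dart s → ZMod 2, St_147.Even t → (∀ d, t (Wk_689.tt G inn d) = t d) →
    (∀ d, nm d = none → t d = 0) →
    ∃ c : ι → Dart s → ZMod 2, (∀ q d, c q (flip d) = c q d) ∧
      (∀ q d, nm d ≠ none → q ∈ M.side (fc d) → c q (Wk_689.tt G inn d) = c q d) ∧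
      (∀ (q : ι) (F F' : Φ) (w : W) (h : s.At F w) (h' : s.At F' w), q ∈ M.side F →
        q ∈ M.side F' → c q (ed h) = c q (ed h')) ∧
      ∀ d q q', M.side (fc d) = s(q, q') → t d = c q d + c q' d

section one

variable {A : s.Arcs Act} {τ : Bool → ι → s.Dbl → ZMod 2} {D : s.Dbl → Bool → Dart s → ZMod 2}
variable {z₀ : s.Dbl}

open Classical in
/-- the names after the exchange along the curve of `z₀`, inner disc of colour `true` discarded -/
noncomputable def nm1 (D : s.Dbl → Bool → Dart s → ZMod 2) (z₀ : s.Dbl) (d : Dart s) :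
    Option I :=
  if d.x = true then (if D z₀ true d = 0 then some (s.lab (pt d)) else none)
  else (if D z₀ false d = 1 then some (s.lab (z₀.e true)) else none)

theorem nm1_t {d : Dart s} (hx : d.x = true) (h : D z₀ true d = 0) :
    nm1 D z₀ d = some (s.lab (pt d)) := by
  unfold nm1; rw [if_pos hx, if_pos h]

theorem nm1_t' {d : Dart s} (hx : d.x = true) (h : D z₀ true d = 1) :
    nm1 D z₀ d = none := by
  unfold nm1; rw [if_pos hx, if_neg (by rw [h]; exact one_ne_zero)]

theorem nm1_f {d : Dart s} (hx : d.x = false) (h : D z₀ false d = 1) :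
    nm1 D z₀ d = some (s.lab (z₀.e true)) := by
  unfold nm1; rw [if_neg (by rw [hx]; exact Bool.false_ne_true), if_pos h]

theorem nm1_f' {d : Dart s} (hx : d.x = false) (h : D z₀ false d = 0) :
    nm1 D z₀ d = none := by
  unfold nm1; rw [if_neg (by rw [hx]; exact Bool.false_ne_true), if_neg (by rw [h]; exact zero_ne_one)]

theorem nm1_reg (hz₀ : z₀ ∈ G) {d d' : Dart s} (h : Reg G D d d') :
    nm1 D z₀ d = nm1 D z₀ d' := by
  have h1 := h.hD z₀ hz₀
  unfold nm1
  rw [h.hx, h.hl]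
  cases hx : d.x
  · rw [hx] at h1
    rw [h1, if_neg Bool.false_ne_true, if_neg Bool.false_ne_true]
  · rw [hx] at h1
    rw [h1, if_pos rfl, if_pos rfl]

theorem exists_nms1 (hD : DD A τ A.mx far D) (hR : RefStmt A τ)
    (hfar : ∀ i w, w ∈ far i → s.lab w = i) (hz₀ : z₀ ∈ A.mx)
    (hin : ∀ u ∉ A.cv z₀, ∀ b, D z₀ false (dz u false b) = 0) :
    NmsT s (A.cv z₀) far (innD D) (nm1 D z₀) := by
  have hmx := A.mx_closed
  have hG : A.Closed (A.cv z₀) := by
    intro u hu q hq
    exact ⟨(hmx u (cv_sub hmx hz₀ hu) q hq).1, cv_trans hu (cv_arc hq)⟩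
  have hsub : A.cv z₀ ⊆ A.mx := fun u hu => cv_sub hmx hz₀ hu
  have hDw : DDw A τ (A.cv z₀) far D := DDw.of hD hsub
  have h0 : z₀ ∈ A.cv z₀ := cv_refl A z₀
  have hval_in : ∀ z ∈ A.cv z₀, ∀ x, D z₀ x (inD (innD D) z x) = 1 := fun z hz x =>
    SecW_892.D_in' hDw hG h0 hz x
  have hval_out : ∀ z ∈ A.cv z₀, ∀ x, D z₀ x (outD (innD D) z x) = 0 := fun z hz x =>
    SecW_892.D_out' hDw hG h0 hz x
  have hlab : ∀ z ∈ A.cv z₀, ∀ x, s.lab (z.e x) = s.lab (z₀.e x) := fun z hz x =>
    SecW_892.lab_cv hDw hG h0 hz x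
  have hin_out : ∀ z ∈ A.cv z₀, ∀ x,
      nm1 D z₀ (inD (innD D) z x) = nm1 D z₀ (outD (innD D) z (!x)) := by
    intro z hz x
    cases x
    · show nm1 D z₀ (inD (innD D) z false) = nm1 D z₀ (outD (innD D) z true)
      rw [nm1_f (inD_x _ _ _) (hval_in z hz false)]
      rw [nm1_t (outD_x _ _ _) (hval_out z hz true)]
      unfold outD
      rw [lab_dz]
      exact congrArg some (hlab z hz true).symm
    · show nm1 D z₀ (inD (innD D) z true) = nm1 D z₀ (outD (innD D) z false)
      rw [nm1_t' (inD_x _ _ _) (hval_in z hz true)]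
      rw [nm1_f' (outD_x _ _ _) (hval_out z hz false)]
  have hne : ∀ d : Dart s, nmf (A.cv z₀) D d ≠ none := by
    intro d
    by_cases h : D z₀ d.x d = 1
    · have hI : Inm (A.cv z₀) D z₀ d := ⟨h0, h, fun z' hz' _ d' h2 => by
        rw [hDw.congr z₀ h0 z' hz']; exact h2⟩
      have h1 : Nm (A.cv z₀) D (outD (innD D) z₀ (!d.x))
          (s.lab (pt (outD (innD D) z₀ (!d.x)))) 0 := Nm.root _ (fun z hz => by
        rw [outD_x, hDw.congr z₀ h0 z hz]
        exact hval_out z₀ h0 _)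
      have h2 := Nm.step d z₀ _ 0 hI h1
      rw [(SecW_892.nmf_some hDw hG).2 ⟨1, h2⟩]
      simp
    · have h1 : Nm (A.cv z₀) D d (s.lab (pt d)) 0 := Nm.root _ (fun z hz => by
        rw [hDw.congr z₀ h0 z hz]
        exact z2_ne h)
      rw [(SecW_892.nmf_some hDw hG).2 ⟨0, h1⟩]
      simp
  constructor
  · exact fun d => (nm1_reg h0 (SecW_892.reg_flip hDw d)).symm
  · intro d
    rcases hn : node d with _ | z
    · rw [tt_none hn]
    · have hd := eq_dz hn
      rw [hd]
      by_cases hz : z ∈ A.cv z₀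
      · rcases dz_cases (innD D) z d.x d.b with h | h
        · rw [h, tt_inD hz, hin_out z hz]
        · rw [h, tt_outD hz, hin_out z hz, Bool.not_not]
      · rw [tt_dz_out hz]
        exact nm1_reg h0 (SecW_892.reg_dz hDw hG hz _ _ _)
  · exact fun F F' w h h' => nm1_reg h0 (SecW_892.reg_ed hDw h h')
  · intro z hz x b i h
    cases x
    · rw [nm1_f' (dz_x _ _ _) (hin z hz b)] at h
      exact absurd h (by simp)
    · rcases z2 (D z₀ true (dz z true b)) with h1 | h1
      · rw [nm1_t (dz_x _ _ _) h1, lab_dz] at h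
        exact (Option.some.inj h).symm
      · rw [nm1_t' (dz_x _ _ _) h1] at h
        exact absurd h (by simp)
  · intro d i h
    cases hx : d.x
    · rcases z2 (D z₀ false d) with h1 | h1
      · rw [nm1_f' hx h1] at h
        exact absurd h (by simp)
      · rw [nm1_f hx h1] at h
        rw [← Option.some.inj h]
        exact z₀.colr true
    · rcases z2 (D z₀ true d) with h1 | h1
      · rw [nm1_t hx h1] at h
        rw [← Option.some.inj h]
        exact (x_eq d).symm.trans hx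
      · rw [nm1_t' hx h1] at h
        exact absurd h (by simp)
  · intro F w h i hc hi
    have hx : (ed h).x = true := by rw [x_ed, hc]
    rcases z2 (D z₀ true (ed h)) with h1 | h1
    · rw [nm1_t hx h1, pt_ed] at hi
      exact (Option.some.inj hi).symm
    · rw [nm1_t' hx h1] at hi
      exact absurd hi (by simp)
  · intro i hi F w h hw
    have hl : s.lab w = i := hfar i w hw
    have hx : (ed h).x = false := by rw [x_ed, hl, hi]
    exact nm1_f' hx (hD.far0 z₀ hz₀ false i F w h hw)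
  · intro i hi F w h hw
    have hl : s.lab w = i := hfar i w hw
    have hx : (ed h).x = true := by rw [x_ed, hl, hi]
    have h1 := hD.far0 z₀ hz₀ true i F w h hw
    rw [nm1_t hx h1, pt_ed, hl]
  · intro t ht htt hsup
    obtain ⟨c, c1, c2, c3, c4⟩ := sepw hDw hG hR t ht htt (fun d hd => absurd hd (hne d))
    exact ⟨c, c1, fun q d _ hq => c2 q d (hne d) hq, c3, c4⟩

end one

/-! ### the new sheets of colour `true` -/

section new

/-- the name of an orbit -/
def nmO (N : NmsT s G far inn nm) : Orb G inn → Option I :=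
  Quot.lift nm (by
    rintro d d' (rfl | rfl)
    · exact (N.fl d).symm
    · exact (N.tt d).symm)

theorem nmO_orb (N : NmsT s G far inn nm) (d : Dart s) : nmO N (orb G inn d) = nm d := rfl

theorem joined_nm (N : NmsT s G far inn nm) {i : I} (hi : col i = true) {w : W}
    (hJ : Joined s G inn far i w) {F : Φ} (h : s.At F w) : nm (ed h) = some i := by
  refine hJ {v | ∀ F (h : s.At F v), nm (ed h) = some i} ?_ ?_ F h
  · intro v hv F h
    exact N.far i hi F v h hv
  · intro F v hv h F' h'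
    rw [N.cont F' F _ h' (mu'_at G inn h), ← nmO_orb N, orb_mu' h, nmO_orb N]
    exact hv F h

theorem joined_lab (hg : s.Good Act far) (N : NmsT s G far inn nm) {i : I} (hi : col i = true)
    {w : W} (hJ : Joined s G inn far i w) : lab' s nm w = i := by
  classical
  by_cases h : ∃ F, s.At F w
  · unfold lab'
    rw [dif_pos h, joined_nm N hi hJ h.choose_spec]
    rfl
  · unfold lab'
    rw [dif_neg h]
    have h1 : w ∈ {v | v = w → v ∈ far i} := by
      refine hJ {v | v = w → v ∈ far i} (fun v hv _ => hv) ?_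
      intro F v _ hA he
      exact (h ⟨F, he ▸ mu'_at G inn hA⟩).elim
    exact (hg.far_mem (h1 rfl)).2

open Classical in
/-- the data for 689's `newSt` -/
noncomputable def nmd (hg : s.Good Act far) (N : NmsT s G far inn nm) : Nm G inn where
  P := s.P.filter (fun w => col (lab' s nm w) = true ∧ Joined s G inn far (lab' s nm w) w)
  sub := Finset.filter_subset _ _
  lab := lab' s nm
  nm := nmO N
  hnm {F w} h hw := by
    rw [nmO_orb N]
    exact joined_nm N (Finset.mem_filter.1 hw).2.1 (Finset.mem_filter.1 hw).2.2 h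
  mem {F w} h hw := by
    have h0 := (Finset.mem_filter.1 hw).2.1
    have h1 := joined_mu (Finset.mem_filter.1 hw).2.2 h
    rw [Finset.mem_filter]
    refine ⟨(mu'_at G inn h).1, ?_⟩
    rw [joined_lab hg N h0 h1]
    exact ⟨h0, h1⟩
  old {z} hz x i h := N.out z hz x false i h

theorem mem_nmd {hg : s.Good Act far} {N : NmsT s G far inn nm} {w : W} :
    w ∈ (nmd hg N).P ↔ w ∈ s.P ∧ col (lab' s nm w) = true ∧
      Joined s G inn far (lab' s nm w) w := by
  classical
  exact Finset.mem_filter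

theorem far_lab (hg : s.Good Act far) (N : NmsT s G far inn nm) {i : I} (hi : col i = true)
    {w : W} (h : w ∈ far i) : lab' s nm w = i := joined_lab hg N hi (joined_far h)

theorem far_mem' (hg : s.Good Act far) (N : NmsT s G far inn nm) {i : I} (hi : col i = true)
    {w : W} (h : w ∈ far i) : w ∈ (nmd hg N).P := by
  rw [mem_nmd]
  refine ⟨(hg.far_mem h).1, ?_⟩
  rw [far_lab hg N hi h]
  exact ⟨hi, joined_far h⟩

/-- the new state (sheets of colour `true` only) -/
noncomputable def nst (hg : s.Good Act far) (N : NmsT s G far inn nm) : St M col :=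
  newSt (nmd hg N)

theorem nst_mu (hg : s.Good Act far) (N : NmsT s G far inn nm) :
    (nst hg N).mu = mu' G inn := rfl
theorem nst_at {hg : s.Good Act far} {N : NmsT s G far inn nm} {F : Φ} {w : W}
    (h : (nst hg N).At F w) : s.At F w := newSt_at h

theorem mu_frozen {A : s.Arcs Act} (hG : A.Closed G) (hg : s.Good Act far)
    (N : NmsT s G far inn nm) {F : Φ} {w : W} (hF : St.Frozen M Act F) (h : s.At F w) :
    (nst hg N).mu F w = s.mu F w :=
  mu_keep (nmd hg N) h (fun z hz hzF => (frozen_not hG hF z hz hzF).elim)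

/-- steps between marked points -/
theorem far_sub {A : s.Arcs Act} (hG : A.Closed G) (hg : s.Good Act far)
    (N : NmsT s G far inn nm) (i : I) (hi : col i = true) (X : Set W)
    (hX : ∀ F w, w ∈ X → w ∈ far i → (nst hg N).At F w → (nst hg N).mu F w ∈ far i →
      ((nst hg N).Free F w ∨ St.Frozen M Act F) → (nst hg N).mu F w ∈ X)
    (w : W) (hw : w ∈ X) (hwf : w ∈ far i) : far i ⊆ X := by
  refine hg.far_conn i X ?_ w hw hwf
  intro F w hw hwf hA hmu hfr
  have hmw : (nst hg N).mu F w = s.mu F w := by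
    rcases hfr with h | h
    · exact (free_keep (nmd hg N) hA h).1
    · exact mu_frozen hG hg N h hA
  rw [← hmw] at hmu ⊢
  refine hX F w hw hwf ⟨far_mem' hg N hi hwf, hA.2⟩ hmu ?_
  rcases hfr with h | h
  · exact Or.inl (free_keep (nmd hg N) hA h).2.2
  · exact Or.inr h

theorem conn' {A : s.Arcs Act} (hG : A.Closed G) (hg : s.Good Act far)
    (N : NmsT s G far inn nm) (i : I) (hi : col i = true) : (nst hg N).Conn i := by
  obtain ⟨w₀, hw₀⟩ := hg.far_ne i
  refine ⟨⟨w₀, far_mem' hg N hi hw₀, far_lab hg N hi hw₀⟩, ?_⟩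
  intro X hX w hw hwP hwi w' hw'P hw'i
  have hwP' := (mem_nmd (hg := hg) (N := N)).1 hwP
  have hw'P' := (mem_nmd (hg := hg) (N := N)).1 hw'P
  change lab' s nm w = i at hwi
  change lab' s nm w' = i at hw'i
  rw [hwi] at hwP'
  rw [hw'i] at hw'P'
  -- some marked point is in `X`
  have h1 : ∃ v ∈ far i, v ∈ X := by
    by_contra hcon
    have h2 : w ∈ {v | ¬ (v ∈ X ∧ v ∈ (nmd hg N).P ∧ lab' s nm v = i)} := by
      refine hwP'.2.2 _ ?_ ?_
      · intro v hv hv'
        exact hcon ⟨v, hv, hv'.1⟩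
      · intro F v hv hA hv'
        apply hv
        have hA' := mu'_at G inn hA
        have h3 : (nst hg N).mu F (mu' G inn F v) ∈ X :=
          hX F _ hv'.1 ⟨hv'.2.1, hA'.2⟩ hv'.2.2
        rw [nst_mu, mu'_mu' hA] at h3
        have h4 := (nmd hg N).mem hA' hv'.2.1
        rw [mu'_mu' hA] at h4
        refine ⟨h3, h4, ?_⟩
        have h5 := joined_mu (mem_nmd.1 hv'.2.1).2.2 hA'
        rw [mu'_mu' hA, hv'.2.2] at h5
        exact joined_lab hg N hi h5
    exact h2 ⟨hw, hwP, hwi⟩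
  obtain ⟨v, hvf, hvX⟩ := h1
  have h2 : far i ⊆ X := far_sub hG hg N i hi X
    (fun F w hw hwf hA _ _ => hX F w hw hA (far_lab hg N hi hwf)) v hvX hvf
  have h3 : w' ∈ {v | v ∈ X ∧ v ∈ (nmd hg N).P ∧ lab' s nm v = i} := by
    refine hw'P'.2.2 _ ?_ ?_
    · intro v hv
      exact ⟨h2 hv, far_mem' hg N hi hv, far_lab hg N hi hv⟩
    · intro F v hv hA
      refine ⟨hX F v hv.1 ⟨hv.2.1, hA.2⟩ hv.2.2, (nmd hg N).mem hA hv.2.1, ?_⟩
      have h5 := joined_mu (mem_nmd.1 hv.2.1).2.2 hA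
      rw [hv.2.2] at h5
      exact joined_lab hg N hi h5
  exact h3.1

open Classical in
/-- transport of a function on the new chords of sheet `i` to the darts -/
noncomputable def tf (hg : s.Good Act far) (N : NmsT s G far inn nm) (i : I)
    (θ : Φ → W → ZMod 2) (d : Dart s) : ZMod 2 :=
  if h : ∃ p : Φ × W, ∃ h : s.At p.1 p.2, (p.2 ∈ (nmd hg N).P ∧ lab' s nm p.2 = i) ∧
    orb G inn d = orb G inn (ed h) then θ h.choose.1 h.choose.2 else 0

theorem sep' (hg : s.Good Act far) (N : NmsT s G far inn nm) (i : I) (hi : col i = true) :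
    (nst hg N).Sep i := by
  classical
  intro θ hθ1 hθ2
  -- kept status along a chord
  have hkeep : ∀ {F : Φ} {w : W} (h : s.At F w), (w ∈ (nmd hg N).P ∧ lab' s nm w = i) →
      (mu' G inn F w ∈ (nmd hg N).P ∧ lab' s nm (mu' G inn F w) = i) := by
    intro F w h hw
    refine ⟨(nmd hg N).mem h hw.1, ?_⟩
    have h5 := joined_mu (mem_nmd.1 hw.1).2.2 h
    rw [hw.2] at h5
    exact joined_lab hg N hi h5
  have ht : ∀ {F : Φ} {w : W} (h : s.At F w), (w ∈ (nmd hg N).P ∧ lab' s nm w = i) →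
      ∀ d, orb G inn d = orb G inn (ed h) → tf hg N i θ d = θ F w := by
    intro F w h hw d hd
    have hex : ∃ p : Φ × W, ∃ h : s.At p.1 p.2, (p.2 ∈ (nmd hg N).P ∧ lab' s nm p.2 = i) ∧
      orb G inn d = orb G inn (ed h) := ⟨(F, w), h, hw, hd⟩
    unfold tf
    rw [dif_pos hex]
    obtain ⟨h1, h2, h3⟩ := hex.choose_spec
    obtain ⟨hF, hw'⟩ := (orb_ed_iff h h1).1 (h3.symm.trans hd)
    rw [hF]
    rcases hw' with h4 | h4
    · rw [h4]
    · rw [h4]
      exact hθ1 F w ⟨hw.1, h.2⟩ hw.2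
  have ht0 : ∀ d, (¬ ∃ p : Φ × W, ∃ h : s.At p.1 p.2,
      (p.2 ∈ (nmd hg N).P ∧ lab' s nm p.2 = i) ∧ orb G inn d = orb G inn (ed h)) →
      tf hg N i θ d = 0 := by
    intro d hd
    unfold tf
    rw [dif_neg hd]
  have htcongr : ∀ d d', orb G inn d = orb G inn d' → tf hg N i θ d = tf hg N i θ d' := by
    intro d d' h
    by_cases hex : ∃ p : Φ × W, ∃ h : s.At p.1 p.2, (p.2 ∈ (nmd hg N).P ∧ lab' s nm p.2 = i) ∧
      orb G inn d = orb G inn (ed h)
    · obtain ⟨⟨F, w⟩, h1, h2, h3⟩ := hex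
      rw [ht h1 h2 d h3, ht h1 h2 d' (h.symm.trans h3)]
    · rw [ht0 d hex, ht0 d' (by rw [← h]; exact hex)]
  have heven : St_147.Even (tf hg N i θ) := by
    refine ⟨fun d => htcongr _ _ (orb_flip d), ?_⟩
    intro w hw
    by_cases hk : w ∈ (nmd hg N).P ∧ lab' s nm w = i
    · rw [← hθ2 w hk.1 hk.2]
      refine Finset.sum_congr rfl fun F hF => ?_
      have hA : s.At F w := ⟨hw, MeshC.mem_fs.1 hF⟩
      rw [edv_eq hA, ht hA hk _ rfl]
    · refine Finset.sum_eq_zero fun F hF => ?_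
      have hA : s.At F w := ⟨hw, MeshC.mem_fs.1 hF⟩
      rw [edv_eq hA]
      apply ht0
      rintro ⟨⟨F', w'⟩, h1, h2, h3⟩
      obtain ⟨hF', hw'⟩ := (orb_ed_iff h1 hA).1 h3
      apply hk
      rcases hw' with h4 | h4
      · rw [h4]; exact h2
      · rw [h4]; exact hkeep h1 h2
  obtain ⟨c, c1, c2, c3, c4⟩ := N.sep (tf hg N i θ) heven (fun d => htcongr _ _ (orb_tt d)) (by
    intro d hd
    apply ht0
    rintro ⟨⟨F, w⟩, h1, h2, h3⟩
    have h4 := congrArg (nmO N) h3
    rw [nmO_orb, nmO_orb, hd, joined_nm N (mem_nmd.1 h2.1).2.1 (mem_nmd.1 h2.1).2.2 h1] at h4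
    exact absurd h4 (by simp))
  refine ⟨fun q w => if hh : ∃ F, s.At F w ∧ q ∈ M.side F then c q (ed hh.choose_spec.1) else 0,
    ?_, ?_⟩
  · intro q F w hq hA hi
    have hA₀ : s.At F w := nst_at hA
    have hA' : s.At F (mu' G inn F w) := mu'_at G inn hA₀
    have h1 : ∃ F, s.At F w ∧ q ∈ M.side F := ⟨F, hA₀, hq⟩
    have h2 : ∃ F', s.At F' (mu' G inn F w) ∧ q ∈ M.side F' := ⟨F, hA', hq⟩
    beta_reduce
    rw [nst_mu, dif_pos h1, dif_pos h2, c3 q _ F _ h1.choose_spec.1 hA₀ h1.choose_spec.2 hq,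
      c3 q _ F _ h2.choose_spec.1 hA' h2.choose_spec.2 hq]
    have h3 := orb_eq_iff.1 (orb_mu' (G := G) (inn := inn) hA₀).symm
      (fun d => c q d = c q (ed hA₀) ∧ nm d ≠ none ∧ q ∈ M.side (fc d)) ?_ ?_ ?_
    · exact h3.1
    · rintro d ⟨h4, h5, h6⟩
      exact ⟨(c1 q d).trans h4, by rw [N.fl]; exact h5, h6⟩
    · rintro d ⟨h4, h5, h6⟩
      exact ⟨(c2 q d h5 h6).trans h4, by rw [N.tt]; exact h5, by rw [fc_tt]; exact h6⟩
    · refine ⟨rfl, ?_, by rw [fc_ed]; exact hq⟩
      have h7 := (mem_nmd (hg := hg) (N := N)).1 hA.1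
      rw [joined_nm N h7.2.1 h7.2.2 hA₀]
      simp
  · intro F w q q' hqq hA hi
    have hA₀ : s.At F w := nst_at hA
    have hq : q ∈ M.side F := hqq ▸ Sym2.mem_mk_left q q'
    have hq' : q' ∈ M.side F := hqq ▸ Sym2.mem_mk_right q q'
    have h1 : ∃ F, s.At F w ∧ q ∈ M.side F := ⟨F, hA₀, hq⟩
    have h2 : ∃ F, s.At F w ∧ q' ∈ M.side F := ⟨F, hA₀, hq'⟩
    beta_reduce
    rw [dif_pos h1, dif_pos h2, c3 q _ F _ h1.choose_spec.1 hA₀ h1.choose_spec.2 hq,
      c3 q' _ F _ h2.choose_spec.1 hA₀ h2.choose_spec.2 hq',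
      ← c4 (ed hA₀) q q' (by rw [fc_ed]; exact hqq)]
    exact (ht hA₀ ⟨hA.1, hi⟩ _ rfl).symm

end new

end Crest.Agent.R096.SecW_892
end

-- ▼ part R096/Sec9_892
section

/-!
# R096 / DOORS-SEC, part 9 (helper892): the pushed state after the exchange along one curve
-/

set_option autoImplicit false

namespace Crest.Agent.R096.SecW_892

open Crest.Agent.R096.St_147 Crest.Agent.R096.Wk_689 Crest.Agent.R096.F_422
open Crest.Agent.R096.Sec_892

variable {ι Φ W I : Type} {M : MeshC ι Φ W} {col : I → Bool} {s : St M col}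
variable {Act : Set ι} {far : I → Set W} {G : Set s.Dbl} {inn : s.Dbl → Bool → Bool}
variable {nm : Dart s → Option I}
variable {up : Φ → W → Bool} {Ph : Finset W} {b : Bool} {c : W → W}

section pst

variable {t : St M col} {hp : Push s up Ph b c} {hP : s.P ⊆ Ph} {ht : t.P ⊆ s.P}

theorem pst_H1' (h1 : ∀ i, s.H1 i) (h2 : ∀ i, col i = true → t.H1 i) (i : I) :
    (pst hp hP ht).H1 i := by
  intro κ hκ
  cases hi : col i
  · obtain ⟨Ψ, hΨ⟩ := h1 i κ (fun q => by
      obtain ⟨ψ, hψ⟩ := hκ q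
      refine ⟨ψ, fun F w hq hw hl => ?_⟩
      have h3 : HP s w := ⟨hw.1, by rw [hl]; exact hi⟩
      have h4 := pst_hp (hp := hp) (hP := hP) (ht := ht) h3
      rw [hψ F w hq ⟨h4.1, hw.2⟩ (h4.2.1.trans hl), h4.2.2])
    refine ⟨Ψ, fun F x hx hl => ?_⟩
    have h3 : HP s x := pst_hp_iff.1 ⟨hx.1, by rw [hl]; exact hi⟩
    have h4 := pst_hp (hp := hp) (hP := hP) (ht := ht) h3
    rw [hΨ F x ⟨h3.1, hx.2⟩ (h4.2.1.symm.trans hl), h4.2.2]
  · obtain ⟨Ψ, hΨ⟩ := h2 i hi (fun F w => κ F (ph s c w)) (fun q => by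
      obtain ⟨ψ, hψ⟩ := hκ q
      refine ⟨fun w => ψ (ph s c w), fun F w hq hw hl => ?_⟩
      have h3 : w ∈ kA t := mem_kA.2 ⟨hw.1, by rw [hl]; exact hi⟩
      have h4 := pst_ph (hp := hp) (hP := hP) (ht := ht) h3
      rw [hψ F (ph s c w) hq ⟨h4.1, (ph_on hp (ht hw.1) F).2 hw.2⟩ (h4.2.1.trans hl), h4.2.2])
    refine ⟨fun x => Ψ (iv s t c x), fun F x hx hl => ?_⟩
    obtain ⟨w, hw, rfl⟩ := pst_true hx.1 (by rw [hl]; exact hi)
    have h4 := pst_ph (hp := hp) (hP := hP) (ht := ht) hw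
    have hwF : w ∈ M.On F := (ph_on hp (ht (mem_kA.1 hw).1) F).1 hx.2
    have h5 : t.mu F w ∈ kA t := mem_kA.2 ⟨(t.mu_mem (mem_kA.1 hw).1 hwF).1, by
      rw [t.mu_lab (mem_kA.1 hw).1 hwF]; exact (mem_kA.1 hw).2⟩
    show κ F (ph s c w) = Ψ (iv s t c (ph s c w)) + Ψ (iv s t c ((pst hp hP ht).mu F (ph s c w)))
    rw [h4.2.2, iv_ph hp hP ht hw, iv_ph hp hP ht h5]
    exact hΨ F w ⟨(mem_kA.1 hw).1, hwF⟩ (h4.2.1.symm.trans hl)

theorem pst_Conn' (h1 : ∀ i, s.Conn i) (h2 : ∀ i, col i = true → t.Conn i) (i : I) :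
    (pst hp hP ht).Conn i := by
  cases hi : col i
  · obtain ⟨⟨w, hw, hl⟩, hc⟩ := h1 i
    have h3 : HP s w := ⟨hw, by rw [hl]; exact hi⟩
    have h4 := pst_hp (hp := hp) (hP := hP) (ht := ht) h3
    refine ⟨⟨w, h4.1, h4.2.1.trans hl⟩, ?_⟩
    intro X hX x hx hxP hxl y hyP hyl
    have h5 : HP s x := pst_hp_iff.1 ⟨hxP, by rw [hxl]; exact hi⟩
    have h6 : HP s y := pst_hp_iff.1 ⟨hyP, by rw [hyl]; exact hi⟩
    rw [(pst_hp h5).2.1] at hxl
    rw [(pst_hp h6).2.1] at hyl
    refine hc X ?_ x hx h5.1 hxl y h6.1 hyl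
    intro F u hu hat hul
    have h7 : HP s u := ⟨hat.1, by rw [hul]; exact hi⟩
    have h8 := pst_hp (hp := hp) (hP := hP) (ht := ht) h7
    rw [← h8.2.2]
    exact hX F u hu ⟨h8.1, hat.2⟩ (h8.2.1.trans hul)
  · obtain ⟨⟨w, hw, hl⟩, hc⟩ := h2 i hi
    have h3 : w ∈ kA t := mem_kA.2 ⟨hw, by rw [hl]; exact hi⟩
    have h4 := pst_ph (hp := hp) (hP := hP) (ht := ht) h3
    refine ⟨⟨_, h4.1, h4.2.1.trans hl⟩, ?_⟩
    intro X hX x hx hxP hxl y hyP hyl
    obtain ⟨u, hu, rfl⟩ := pst_true hxP (by rw [hxl]; exact hi)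
    obtain ⟨v, hv, rfl⟩ := pst_true hyP (by rw [hyl]; exact hi)
    rw [(pst_ph hu).2.1] at hxl
    rw [(pst_ph hv).2.1] at hyl
    refine hc {w | ph s c w ∈ X} ?_ u hx (mem_kA.1 hu).1 hxl v (mem_kA.1 hv).1 hyl
    intro F w' hw' hat hwl
    have h7 : w' ∈ kA t := mem_kA.2 ⟨hat.1, by rw [hwl]; exact hi⟩
    have h8 := pst_ph (hp := hp) (hP := hP) (ht := ht) h7
    show ph s c (t.mu F w') ∈ X
    rw [← h8.2.2]
    exact hX F _ hw' ⟨h8.1, (ph_on hp (ht hat.1) F).2 hat.2⟩ (h8.2.1.trans hwl)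

end pst

theorem nst_sub (hg : s.Good Act far) (N : NmsT s G far inn nm) : (nst hg N).P ⊆ s.P :=
  (nmd hg N).sub

theorem nst_mu' (hg : s.Good Act far) (N : NmsT s G far inn nm) (F : Φ) (w : W)
    (_ : s.At F w) : (nst hg N).mu F w = mu' G inn F w := rfl

theorem far_kA (hg : s.Good Act far) (N : NmsT s G far inn nm) {i : I} {w : W} (h : w ∈ far i)
    (hi : col i = true) : w ∈ kA (nst hg N) ∧ ph s c w = w ∧ (nst hg N).lab w = i := by
  have h1 := far_mem' hg N hi h
  have h2 : (nst hg N).lab w = i := far_lab hg N hi h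
  refine ⟨mem_kA.2 ⟨h1, by rw [h2]; exact hi⟩, ph_neg (by rw [(hg.far_mem h).2]; exact hi), h2⟩

/-- kept points on frozen faces are marked points of colour `true` -/
theorem kA_frozen (hg : s.Good Act far) (N : NmsT s G far inn nm) {F : Φ} {v : W}
    (hv : v ∈ kA (nst hg N)) (hvF : v ∈ M.On F) (hF : St.Frozen M Act F) :
    v ∈ far (s.lab v) ∧ col (s.lab v) = true ∧ (nst hg N).lab v = s.lab v := by
  have hvP := nst_sub hg N (mem_kA.1 hv).1
  have h3 := hg.far_frozen (F := F) ⟨hvP, hvF⟩ hF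
  have h4 : col (s.lab v) = true := by
    cases hc : col (s.lab v)
    · exfalso
      have h5 := (mem_nmd (hg := hg) (N := N)).1 (mem_kA.1 hv).1
      have h6 := joined_nm N h5.2.1 h5.2.2 (F := F) ⟨hvP, hvF⟩
      rw [N.farF _ hc F v ⟨hvP, hvF⟩ h3] at h6
      exact absurd h6 (by simp)
    · rfl
  exact ⟨h3, h4, far_lab hg N h4 h3⟩

/-- partners of marked points -/
theorem pst_mu_far (hg : s.Good Act far) (N : NmsT s G far inn nm) (hp : Push s up Ph b c)
    (hP : s.P ⊆ Ph) {i : I} {F : Φ} {w : W} (hw : w ∈ far i) (hmw : s.mu F w ∈ far i)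
    (hmu : (nst hg N).mu F w = s.mu F w) :
    (pst hp hP (nst_sub hg N)).mu F w = s.mu F w := by
  cases hi : col i
  · have h1 : HP s w := ⟨(hg.far_mem hw).1, by rw [(hg.far_mem hw).2]; exact hi⟩
    exact (pst_hp h1).2.2 F
  · obtain ⟨h1, h2, -⟩ := far_kA (c := c) hg N hw hi
    have h3 := (pst_ph (hp := hp) (hP := hP) (ht := nst_sub hg N) h1).2.2 F
    rw [h2, hmu, (far_kA (c := c) hg N hmw hi).2.1] at h3
    exact h3

theorem pst_far (hg : s.Good Act far) (N : NmsT s G far inn nm) (hp : Push s up Ph b c)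
    (hP : s.P ⊆ Ph) {i : I} {w : W} (hw : w ∈ far i) :
    w ∈ (pst hp hP (nst_sub hg N)).P ∧ (pst hp hP (nst_sub hg N)).lab w = i := by
  cases hi : col i
  · have h1 : HP s w := ⟨(hg.far_mem hw).1, by rw [(hg.far_mem hw).2]; exact hi⟩
    exact ⟨(pst_hp h1).1, (pst_hp h1).2.1.trans (hg.far_mem hw).2⟩
  · obtain ⟨h1, h2, h4⟩ := far_kA (c := c) hg N hw hi
    have h3 := pst_ph (hp := hp) (hP := hP) (ht := nst_sub hg N) h1
    rw [h2] at h3
    exact ⟨h3.1, h3.2.1.trans h4⟩

/-- free chords which keep their partner stay free -/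
theorem pst_free (hg : s.Good Act far) (N : NmsT s G far inn nm) (hp : Push s up Ph b c)
    (hP : s.P ⊆ Ph) (h2 : Two s up) {F : Φ} {w : W} (hw : s.At F w) (hfr : s.Free F w)
    (hmu : (pst hp hP (nst_sub hg N)).mu F w = s.mu F w) :
    (pst hp hP (nst_sub hg N)).Free F w := by
  intro z' hF x he
  have hlo : (pst hp hP (nst_sub hg N)).lo F w = s.lo F w := by
    unfold St.lo
    rw [hmu]
  rw [hlo] at he
  obtain ⟨v, hv, z, β, h3, h4, h5, h6, h7, -⟩ := exists_old' h2 (nst_mu' hg N) z'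
  have hlA := lo_at hw
  subst hF
  cases x
  · exact hfr z h5 false (h6.trans he)
  · have hct : col (s.lab v) = true := by
      cases hc : col (s.lab v)
      · exfalso
        rw [ph_pos hc] at h4
        exact hp.nin ⟨hv.1, hc⟩ (by rw [← h4, he]; exact hP hlA.1)
      · rfl
    rw [ph_neg hct, he] at h4
    subst h4
    have hfr' : ∀ z ∈ G, z.F = z'.F → z.e (col (s.lab (s.lo z'.F w))) ≠
        s.lo z'.F (s.lo z'.F w) := by
      intro y _ hy
      rw [lo_lo hw]
      exact hfr y hy _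
    have h8 := orb_chd hv hfr' h7
    have h9 := chd_dz z true β
    rw [h8.2, lo_lo hw, dz_x] at h9
    exact hfr z h5 true (Prod.mk.inj h9).2.symm

/-- **the pushed state is good** -/
theorem pst_good {A : s.Arcs Act} (hG : A.Closed G) (hg : s.Good Act far)
    (N : NmsT s G far inn nm) (hp : Push s up Ph b c) (hP : s.P ⊆ Ph) (h2 : Two s up) :
    (pst hp hP (nst_sub hg N)).Good Act far where
  h1 := pst_H1' hg.h1 (fun i hi => B_422.h1_of_sep _ i (sep' hg N i hi))
  conn := pst_Conn' hg.conn (conn' hG hg N)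
  far_mem := fun h => pst_far hg N hp hP h
  far_ne := hg.far_ne
  far_frozen := by
    intro F w hw hF
    rcases pst_cases hw.1 with ⟨v, hv, rfl⟩ | h
    · have hvF : v ∈ M.On F := (ph_on hp (nst_sub hg N (mem_kA.1 hv).1) F).1 hw.2
      obtain ⟨h3, h5, h4⟩ := kA_frozen hg N hv hvF hF
      rw [(pst_ph hv).2.1, h4, ph_neg h5]
      exact h3
    · rw [(pst_hp h).2.1]
      exact hg.far_frozen ⟨h.1, hw.2⟩ hF
  far_conn := by
    intro i X hX w hw hwf
    refine hg.far_conn i X ?_ w hw hwf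
    intro F w hw hwf hA hmu hfr
    have hmt : (nst hg N).mu F w = s.mu F w := by
      rcases hfr with h | h
      · exact (free_keep (nmd hg N) hA h).1
      · exact mu_frozen hG hg N h hA
    have hmw := pst_mu_far hg N hp hP hwf hmu hmt
    rw [← hmw] at hmu ⊢
    refine hX F w hw hwf ⟨(pst_far hg N hp hP hwf).1, hA.2⟩ hmu ?_
    rcases hfr with h | h
    · exact Or.inl (pst_free hg N hp hP h2 hA h hmw)
    · exact Or.inr h

/-- the relation with the old state -/
theorem pst_cle {A : s.Arcs Act} (hG : A.Closed G) (hg : s.Good Act far)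
    (N : NmsT s G far inn nm) (hp : Push s up Ph b c) (hP : s.P ⊆ Ph) (h2 : Two s up) :
    CLe Act far Ph (pst hp hP (nst_sub hg N)) s where
  hp _ := pst_hp_iff
  hlab _ h := (pst_hp h).2.1
  hmu _ F h := (pst_hp h).2.2 F
  P w hw := by
    rcases pst_cases hw with ⟨v, hv, rfl⟩ | h
    · have hvP := nst_sub hg N (mem_kA.1 hv).1
      cases hc : col (s.lab v)
      · right
        rw [ph_pos hc]
        exact ⟨hp.nin ⟨hvP, hc⟩, v, ⟨hvP, hc⟩, fun F => hp.on F ⟨hvP, hc⟩,
          fun F u h3 h4 h5 h6 => hp.adj ⟨hvP, hc⟩ h3 h4 h5 h6⟩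
      · left; rw [ph_neg hc]; exact hvP
    · exact Or.inl h.1
  frozen_P F w hF hw := by
    constructor
    · intro h
      rcases pst_cases h with ⟨v, hv, rfl⟩ | h
      · have hvP := nst_sub hg N (mem_kA.1 hv).1
        have hvF : v ∈ M.On F := (ph_on hp hvP F).1 hw
        rw [ph_neg (kA_frozen hg N hv hvF hF).2.1]
        exact hvP
      · exact h.1
    · intro h
      exact (pst_far hg N hp hP (hg.far_frozen ⟨h, hw⟩ hF)).1
  frozen_mu F w hF hw := by
    have h3 := hg.far_frozen hw hF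
    have h4 := hg.far_frozen (At.mu s hw) hF
    rw [s.mu_lab hw.1 hw.2] at h4
    exact pst_mu_far hg N hp hP h3 h4 (mu_frozen hG hg N hF hw)
  free F w hw hf hf' hfr := by
    have h3 := pst_mu_far hg N hp hP hf hf' (free_keep (nmd hg N) hw hfr).1
    exact ⟨h3, pst_free hg N hp hP h2 hw hfr h3⟩
  dbl z' := by
    obtain ⟨v, hv, z, β, -, -, h5, h6, -, -⟩ := exists_old' h2 (nst_mu' hg N) z'
    exact ⟨z, h5, h6⟩
  third F w p q hw hpP hqP hps hqs hpF hqF hl := by
    rcases pst_cases hw.1 with ⟨v, hv, rfl⟩ | h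
    · have hvP := nst_sub hg N (mem_kA.1 hv).1
      have hvF : v ∈ M.On F := (ph_on hp hvP F).1 hw.2
      rw [(pst_ph hv).2.2] at hl
      exact third hp hP ⟨hvP, hvF⟩ hpP hqP hps hqs hpF hqF hl
    · rw [(pst_hp h).2.2] at hl
      exact ⟨w, ⟨h.1, hw.2⟩, hl⟩

/-- the number of double points drops if the push is chosen well at one point of `G` -/
theorem pst_card (hg : s.Good Act far)
    (N : NmsT s G far inn nm) (hp : Push s up Ph b c) (hP : s.P ⊆ Ph) (h2 : Two s up)
    {z₀ : s.Dbl} {β₀ : Bool}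
    (hanti : ¬ (M.Btw z₀.F (z₀.e false) (s.mu z₀.F (z₀.e false)) (pt (flip (dz z₀ true β₀))) ↔
      M.pos z₀.F (z₀.e false) < M.pos z₀.F (c (z₀.e false))))
    (hnm : nm (dz z₀ true β₀) = none) :
    Nat.card (pst hp hP (nst_sub hg N)).Dbl < Nat.card s.Dbl := by
  classical
  have hinj := odp_inj (hp := hp) (hP := hP) (ht := nst_sub hg N) h2 (nst_mu' hg N)
  have hmiss : ∀ z', odp (hp := hp) (hP := hP) (ht := nst_sub hg N) h2 (nst_mu' hg N) z' ≠ z₀ := by
    intro z' he
    obtain ⟨v, hv, β, hk, -, -, -, h5, h6⟩ := odp_spec (hp := hp) (hP := hP)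
      (ht := nst_sub hg N) h2 (nst_mu' hg N) z'
    rw [he] at h5 h6
    have hβ := anti_unique h6 hanti
    subst hβ
    have hk' := mem_kA.1 hk
    have hm := (mem_nmd (hg := hg) (N := N)).1 hk'.1
    have h7 := joined_nm N hm.2.1 hm.2.2 hv
    rw [← nmO_orb N, ← h5, nmO_orb N, hnm] at h7
    exact absurd h7 (by simp)
  have h1 : Nat.card (pst hp hP (nst_sub hg N)).Dbl ≤ Nat.card {z : s.Dbl // z ≠ z₀} := by
    apply Nat.card_le_card_of_injective
      (fun z' => (⟨odp h2 (nst_mu' hg N) z', hmiss z'⟩ : {z : s.Dbl // z ≠ z₀}))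
    intro a b h
    exact hinj (by simpa using h)
  have h3 : Nat.card {z : s.Dbl // z ≠ z₀} < Nat.card s.Dbl := by
    have := Fintype.ofFinite s.Dbl
    rw [Nat.card_eq_fintype_card, Nat.card_eq_fintype_card]
    exact Fintype.card_subtype_lt (x := z₀) (by simp)
  omega

end Crest.Agent.R096.SecW_892
end

-- ▼ part R096/Sec10_892

/-!
# R096 / DOORS-SEC, part 10 (helper892): CUT, one curve at a time, with pull back of closed sets
-/

set_option autoImplicit false

namespace Crest.Agent.R096.SecW_892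

open Crest.Agent.R096.St_147 Crest.Agent.R096.Wk_689 Crest.Agent.R096.F_422
open Crest.Agent.R096.Sec_892

variable {ι Φ W I : Type} {M : MeshC ι Φ W} {col : I → Bool} {s : St M col}
variable {Act : Set ι} {far : I → Set W}

/-- closed under the `K`-chords of the sheet `i` -/
def KCl (s : St M col) (i : I) (K : Φ → W → Prop) (X : Set W) : Prop :=
  ∀ F w, s.At F w → s.lab w = i → K F w → (w ∈ X ↔ s.mu F w ∈ X)

/-- `K` contains all chords on the faces of the cells which have a barrier point -/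
def KBar (s : St M col) (K : Φ → W → Prop) : Prop :=
  ∀ q F F' h, q ∈ M.side F → q ∈ M.side F' → HP s h → h ∈ M.On F' → ∀ w, K F w

/-- **pull back of closed sets** -/
def PB (s' s : St M col) : Prop :=
  ∀ i, col i = true → ∀ K : Φ → W → Prop, KBar s K → ∀ X', KCl s' i K X' →
    ∃ X, KCl s i K X ∧ ∀ w, w ∈ s.P → s.lab w = i → w ∈ s'.P → s'.lab w = i → (w ∈ X ↔ w ∈ X')

/-- the relation between the cut state and the old state -/
structure CL2 (Act : Set ι) (far : I → Set W) (Ph : Finset W) (s' s : St M col) : Prop where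
  cle : CLe Act far Ph s' s
  /-- old points keep their names -/
  lab : ∀ w ∈ s'.P, w ∈ s.P → s'.lab w = s.lab w
  /-- free chords with a kept end are kept and stay free -/
  off : ∀ F w, s.At F w → w ∈ s'.P → s.Free F w → s'.mu F w = s.mu F w ∧ s'.Free F w
  pb : PB s' s

theorem PB.refl (s : St M col) : PB s s := fun _ _ _ _ X h => ⟨X, h, fun _ _ _ _ _ => Iff.rfl⟩

theorem CL2.refl (Act : Set ι) (far : I → Set W) (Ph : Finset W) (s : St M col) :
    CL2 Act far Ph s s :=
  ⟨CLe.refl _ _ _ _, fun _ _ _ => rfl, fun _ _ _ _ h => ⟨rfl, h⟩, PB.refl s⟩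

theorem CL2.trans {Ph Ph' : Finset W} {s'' s' s : St M col} (hPh : Ph ⊆ Ph') (hP : s.P ⊆ Ph')
    (h2 : CL2 Act far Ph' s'' s') (h1 : CL2 Act far Ph s' s)
    (hg' : s'.Good Act far) : CL2 Act far Ph s'' s := by
  have hmid : ∀ w, w ∈ s''.P → w ∈ s.P → w ∈ s'.P := by
    intro w hw hws
    rcases h2.cle.P w hw with h | h
    · exact h
    · exact absurd (hP hws) h.1
  refine ⟨CLe.trans hPh h2.cle h1.cle hg', ?_, ?_, ?_⟩
  · intro w hw hws
    have h := hmid w hw hws
    rw [h2.lab w hw h, h1.lab w h hws]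
  · intro F w hw hw'' hf
    have h := hmid w hw'' hw.1
    obtain ⟨a1, a2⟩ := h1.off F w hw h hf
    obtain ⟨b1, b2⟩ := h2.off F w ⟨h, hw.2⟩ hw'' a2
    exact ⟨b1.trans a1, b2⟩
  · intro i hi K hK X'' hX''
    have hK' : KBar s' K := fun q F F' h hq hq' hh hF' => hK q F F' h hq hq' ((h1.cle.hp h).1 hh) hF'
    obtain ⟨X', hX', e'⟩ := h2.pb i hi K hK' X'' hX''
    obtain ⟨X, hX, e⟩ := h1.pb i hi K hK X' hX'
    refine ⟨X, hX, fun w hw hwi hw'' hwi'' => ?_⟩
    have h := hmid w hw'' hw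
    have hl : s'.lab w = i := by rw [h1.lab w h hw, hwi]
    rw [e w hw hwi h hl, e' w h hl hw'' hwi'']

/-! ### one curve -/

section curve

variable {A : s.Arcs Act} {z₀ : s.Dbl}

/-- a function which is constant along the chords of the sheet on the cells of a curve is constant
along the curve -/
theorem curve_const (hz₀ : z₀ ∈ A.mx) {K : Φ → W → Prop} (hK : KBar s K) {Ψ : W → ZMod 2}
    (hΨ : ∀ F w, s.At F w → s.lab w = s.lab (z₀.e true) → K F w → Ψ w = Ψ (s.mu F w))
    {z : s.Dbl} (hz : z ∈ A.cv z₀) :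
    s.lab (z.e true) = s.lab (z₀.e true) ∧ Ψ (z.e true) = Ψ (z₀.e true) := by
  classical
  induction hz with
  | refl => exact ⟨rfl, rfl⟩
  | @tail u v h1 h ih =>
    obtain ⟨q, hq, rfl⟩ := h
    have hu := cv_sub A.mx_closed hz₀ h1
    have hqA : q ∈ Act := (A.mx_closed u hu q hq).1
    have hl := Sd1_161.lab_arc A true hqA hq
    refine ⟨hl.trans ih.1, ?_⟩
    rw [← ih.2]
    have hH : HP s (u.e false) := ⟨(u.at_ false).1, u.colr false⟩
    have hKq : ∀ F, q ∈ M.side F → ∀ w, K F w := fun F hF w =>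
      hK q F u.F (u.e false) hF hq hH (u.at_ false).2 w
    have h := A.same true hqA hq (fun p => if s.lab (chd p).2 = s.lab (z₀.e true) then
      Ψ (chd p).2 else 0) (by
        intro F F' w p p' hF hF' he he'
        have key : ∀ (F : Φ) (p : s.Sub true), q ∈ M.side F → p.End F w →
            (s.lab (chd p).2 = s.lab w ∧ (s.lab w = s.lab (z₀.e true) → Ψ (chd p).2 = Ψ w)) := by
          intro F p hF he
          obtain ⟨hat, h | h⟩ := he
          · obtain ⟨_, b, rfl, hb⟩ := h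
            simp only [chd, hb]
            exact ⟨trivial, fun _ => trivial⟩
          · obtain ⟨_, h⟩ := h
            have hc : (chd p).2 = s.mu F w := by
              rcases p with b | z
              · simp only [chd]
                rw [h.1]
              · simp only [chd]
                rw [h.2.1]
            rw [hc]
            exact ⟨s.mu_lab hat.1 hat.2, fun hl => (hΨ F w hat hl (hKq F hF w)).symm⟩
        have k1 := key F p hF he
        have k2 := key F' p' hF' he'
        beta_reduce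
        rw [k1.1, k2.1]
        split_ifs with hc
        · rw [k1.2 hc, k2.2 hc]
        · rfl) (by
        intro y p p' _ hb ha'
        beta_reduce
        rw [below_chd hb, ha']
        rfl)
    have e1 : (if s.lab (chd (Sum.inr u : s.Sub true)).2 = s.lab (z₀.e true) then
        Ψ (chd (Sum.inr u : s.Sub true)).2 else 0) = Ψ (u.e true) := if_pos ih.1
    have e2 : (if s.lab (chd (Sum.inr (A.arc q u) : s.Sub true)).2 = s.lab (z₀.e true) then
        Ψ (chd (Sum.inr (A.arc q u) : s.Sub true)).2 else 0) = Ψ ((A.arc q u).e true) :=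
      if_pos (hl.trans ih.1)
    exact (e2.symm.trans (h.symm)).trans e1

end curve

theorem exists_side' (F : Φ) : ∃ q, q ∈ M.side F := by
  rcases h : M.side F with ⟨q, q'⟩
  exact ⟨q, Sym2.mem_mk_left q q'⟩

section step

variable {G : Set s.Dbl} {inn : s.Dbl → Bool → Bool} {nm : Dart s → Option I}
variable {up : Φ → W → Bool} {Ph : Finset W} {b : Bool} {c : W → W}

/-- kept old points keep their names -/
theorem nst_same (hg : s.Good Act far) (N : NmsT s G far inn nm) {v : W}
    (hv : v ∈ (nst hg N).P) (hc : col (s.lab v) = true) : (nst hg N).lab v = s.lab v := by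
  have h1 := (mem_nmd (hg := hg) (N := N)).1 hv
  have hi : col ((nst hg N).lab v) = true := h1.2.1
  by_cases h : ∃ F, s.At F v
  · obtain ⟨F, h2⟩ := h
    exact N.same F v h2 _ hc (joined_nm N h1.2.1 h1.2.2 h2)
  · have h3 : v ∈ {u | u = v → u ∈ far ((nst hg N).lab v)} := by
      refine h1.2.2 {u | u = v → u ∈ far ((nst hg N).lab v)} (fun u hu _ => hu) ?_
      intro F u _ hA he
      exact (h ⟨F, he ▸ mu'_at G inn hA⟩).elim
    exact (hg.far_mem (h3 rfl)).2.symm

/-- a common point of the pushed state and the old one -/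
theorem pst_common (hg : s.Good Act far) (N : NmsT s G far inn nm) (hp : Push s up Ph b c)
    (hP : s.P ⊆ Ph) {w : W} (hw : w ∈ (pst hp hP (nst_sub hg N)).P) (hws : w ∈ s.P) :
    (HP s w ∨ (w ∈ kA (nst hg N) ∧ col (s.lab w) = true)) ∧
      (pst hp hP (nst_sub hg N)).lab w = s.lab w := by
  rcases pst_cases hw with ⟨v, hv, rfl⟩ | h
  · have hvP := nst_sub hg N (mem_kA.1 hv).1
    cases hc : col (s.lab v)
    · exfalso
      rw [ph_pos hc] at hws
      exact hp.nin ⟨hvP, hc⟩ (hP hws)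
    · rw [(pst_ph hv).2.1]
      rw [ph_neg hc]
      exact ⟨Or.inr ⟨hv, hc⟩, nst_same hg N (mem_kA.1 hv).1 hc⟩
  · exact ⟨Or.inl h, (pst_hp h).2.1⟩

theorem pst_off (hg : s.Good Act far) (N : NmsT s G far inn nm) (hp : Push s up Ph b c)
    (hP : s.P ⊆ Ph) (h2 : Two s up) {F : Φ} {w : W} (hw : s.At F w)
    (hw' : w ∈ (pst hp hP (nst_sub hg N)).P) (hf : s.Free F w) :
    (pst hp hP (nst_sub hg N)).mu F w = s.mu F w ∧ (pst hp hP (nst_sub hg N)).Free F w := by
  have hmu : (pst hp hP (nst_sub hg N)).mu F w = s.mu F w := by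
    rcases (pst_common hg N hp hP hw' hw.1).1 with h | ⟨h, hc⟩
    · exact (pst_hp h).2.2 F
    · have h3 := (pst_ph (hp := hp) (hP := hP) (ht := nst_sub hg N) h).2.2 F
      have h4 : (nst hg N).mu F w = s.mu F w := (free_keep (nmd hg N) hw hf).1
      rw [ph_neg hc, h4, ph_neg (by rw [s.mu_lab hw.1 hw.2]; exact hc)] at h3
      exact h3
  exact ⟨hmu, pst_free hg N hp hP h2 hw hf hmu⟩

/-- **pull back of closed sets for one curve** -/
theorem pst_pb {A : s.Arcs Act} {z₀ : s.Dbl} (hz₀ : z₀ ∈ A.mx) (hg : s.Good Act far)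
    (N : NmsT s (A.cv z₀) far inn nm) (hp : Push s up Ph b c) (hP : s.P ⊆ Ph)
    (hgood : (pst hp hP (nst_sub hg N)).Good Act far) :
    PB (pst hp hP (nst_sub hg N)) s := by
  classical
  intro i hi K hK X' hX'
  set t := nst hg N with ht
  set s' := pst hp hP (nst_sub hg N) with hs'
  set χ : W → ZMod 2 := fun w => if w ∈ X' then 1 else 0 with hχ
  have hχe : ∀ {u v : W}, (u ∈ X' ↔ v ∈ X') → χ u = χ v := fun h => if_congr h rfl rfl
  -- kept points
  have hkept : ∀ {w}, w ∈ t.P → s.lab w = i → t.lab w = i ∧ ph s c w = w ∧ w ∈ s'.P ∧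
      s'.lab w = i := by
    intro w hw hwi
    have hc : col (s.lab w) = true := by rw [hwi]; exact hi
    have h1 : t.lab w = i := (nst_same hg N hw hc).trans hwi
    have h2 : w ∈ kA t := mem_kA.2 ⟨hw, by rw [h1]; exact hi⟩
    have h3 := pst_ph (hp := hp) (hP := hP) (ht := nst_sub hg N) h2
    rw [ph_neg hc] at h3
    exact ⟨h1, ph_neg hc, h3.1, h3.2.1.trans h1⟩
  have hcom : ∀ w, w ∈ s.P → s.lab w = i → w ∈ s'.P → w ∈ t.P := by
    intro w hw hwi hw'
    rcases (pst_common hg N hp hP hw' hw).1 with h | ⟨h, hc⟩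
    · exfalso
      have h3 := h.2
      rw [hwi, hi] at h3
      exact Bool.false_ne_true h3.symm
    · exact (mem_kA.1 h).1
  have htm : ∀ {F w}, s.At F w → w ∈ t.P → t.mu F w ∈ t.P := fun hA hw => (nmd hg N).mem hA hw
  -- free chords
  have hfree : ∀ {F w}, s.At F w → s.lab w = i →
      (∀ z ∈ A.cv z₀, z.F = F → z.e true ≠ s.lo F w) → t.mu F w = s.mu F w := by
    intro F w hA hwi hz
    exact mu'_eq_mu hA (by rw [hwi, hi]; exact hz)
  have hfree_iff : ∀ {F w}, s.At F w → s.lab w = i →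
      (∀ z ∈ A.cv z₀, z.F = F → z.e true ≠ s.lo F w) →
      (w ∈ t.P → s.mu F w ∈ t.P ∧ s'.mu F w = s.mu F w) := by
    intro F w hA hwi hz hw
    have h1 := hfree hA hwi hz
    have h2 := htm hA hw
    rw [h1] at h2
    refine ⟨h2, ?_⟩
    obtain ⟨h3, h4, -, -⟩ := hkept hw hwi
    have h5 : w ∈ kA t := mem_kA.2 ⟨hw, by rw [h3]; exact hi⟩
    have h6 := (pst_ph (hp := hp) (hP := hP) (ht := nst_sub hg N) h5).2.2 F
    rw [h4] at h6
    refine h6.trans ?_
    show ph s c (t.mu F w) = _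
    rw [h1]
    exact (hkept h2 ((s.mu_lab hA.1 hA.2).trans hwi)).2.1
  have hlo : ∀ {F w}, s.At F w → s.lo F (s.mu F w) = s.lo F w := by
    intro F w hA
    unfold St.lo
    rw [s.mu_mu hA.1 hA.2]
    rcases lt_trichotomy (M.pos F w) (M.pos F (s.mu F w)) with h | h | h
    · rw [if_neg (not_le.2 h), if_pos h.le]
    · exact absurd (M.pos_inj F hA.2 (s.mu_mem hA.1 hA.2).2 h).symm (s.mu_ne hA.1 hA.2)
    · rw [if_pos h.le, if_neg (not_le.2 h)]
  -- the cochain
  set θ : Φ → W → ZMod 2 := fun F w =>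
    if w ∈ t.P ∧ ¬ K F w ∧ ¬ K F (s.mu F w) then χ w + χ (s.mu F w) else 0 with hθ
  have hθK : ∀ {F w}, K F w → θ F w = 0 := fun h => if_neg fun h' => h'.2.1 h
  obtain ⟨Ψ, hΨ⟩ := hg.h1 i θ (by
    intro q
    by_cases hq : ∃ F' h, q ∈ M.side F' ∧ HP s h ∧ h ∈ M.On F'
    · obtain ⟨F', h, hq', hh, hF'⟩ := hq
      refine ⟨fun _ => 0, fun F w hF hA hl => ?_⟩
      rw [add_zero]
      exact hθK (hK q F F' h hF hq' hh hF' w)
    · refine ⟨fun w => if w ∈ t.P then χ w else 0, fun F w hF hA hl => ?_⟩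
      have hno : ∀ z ∈ A.cv z₀, z.F = F → z.e true ≠ s.lo F w := by
        intro z _ hzF _
        exact hq ⟨z.F, z.e false, by rw [hzF]; exact hF, ⟨(z.at_ false).1, z.colr false⟩,
          (z.at_ false).2⟩
      have hA' := At.mu s hA
      have hl' : s.lab (s.mu F w) = i := (s.mu_lab hA.1 hA.2).trans hl
      have hno' : ∀ z ∈ A.cv z₀, z.F = F → z.e true ≠ s.lo F (s.mu F w) := by
        rw [hlo hA]; exact hno
      by_cases hw : w ∈ t.P
      · obtain ⟨h1, h2⟩ := hfree_iff hA hl hno hw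
        beta_reduce
        rw [if_pos hw, if_pos h1]
        by_cases hk : K F w ∨ K F (s.mu F w)
        · have h3 : w ∈ X' ↔ s.mu F w ∈ X' := by
            rcases hk with hk | hk
            · have := hX' F w ⟨(hkept hw hl).2.2.1, hA.2⟩ (hkept hw hl).2.2.2 hk
              rwa [h2] at this
            · have h4 := (hfree_iff hA' hl' hno' h1).2
              rw [s.mu_mu hA.1 hA.2] at h4
              have := hX' F (s.mu F w) ⟨(hkept h1 hl').2.2.1, hA'.2⟩ (hkept h1 hl').2.2.2 hk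
              rw [h4] at this
              exact this.symm
          rw [hχe h3, add_self2]
          exact if_neg fun h' => hk.elim h'.2.1 h'.2.2
        · rw [not_or] at hk
          exact if_pos ⟨hw, hk.1, hk.2⟩
      · have h1 : s.mu F w ∉ t.P := by
          intro h
          have := (hfree_iff hA' hl' hno' h).1
          rw [s.mu_mu hA.1 hA.2] at this
          exact hw this
        beta_reduce
        rw [if_neg hw, if_neg h1, add_zero]
        exact if_neg fun h' => hw h'.1)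
  have hΨK : ∀ {F w}, s.At F w → s.lab w = i → K F w → Ψ w = Ψ (s.mu F w) := by
    intro F w hA hl hk
    have := hΨ F w hA hl
    rw [hθK hk] at this
    exact eq_of_add2 this.symm
  -- affected chords
  have haff : ∀ {F w}, s.At F w → s.lab w = i →
      (∃ z ∈ A.cv z₀, z.F = F ∧ z.e true = s.lo F w) → Ψ w = Ψ (z₀.e true) := by
    rintro F w hA hl ⟨z, hz, hzF, hze⟩
    have hKF : ∀ u, K F u := by
      obtain ⟨q, hq⟩ := exists_side' (M := M) F
      exact hK q F F (z.e false) hq hq ⟨(z.at_ false).1, z.colr false⟩ (by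
        rw [← hzF]; exact (z.at_ false).2)
    have hloA : s.lo F w = w ∨ s.lo F w = s.mu F w := by
      unfold St.lo
      split_ifs
      · exact Or.inl rfl
      · exact Or.inr rfl
    have hl2 : s.lab (s.lo F w) = i := by
      rcases hloA with h | h
      · rw [h]; exact hl
      · rw [h, s.mu_lab hA.1 hA.2]; exact hl
    have hΨ2 : Ψ (s.lo F w) = Ψ w := by
      rcases hloA with h | h
      · rw [h]
      · rw [h]; exact (hΨK hA hl (hKF w)).symm
    have hz1 : s.lab (z.e true) = i := by rw [hze]; exact hl2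
    have hmx := A.mx_closed
    -- the curve lies on the sheet `i`
    have hi0 : s.lab (z₀.e true) = i := by
      have := (curve_const (K := K) (Ψ := fun _ => 0) hz₀ hK (fun _ _ _ _ _ => rfl) hz).1
      rw [← this]; exact hz1
    have := (curve_const (Ψ := Ψ) hz₀ hK (fun F w hA' hl' hk' => hΨK hA' (hl'.trans hi0) hk') hz).2
    rw [← this, hze]
    exact hΨ2.symm
  obtain ⟨b₀, hb₀⟩ := hg.far_ne i
  have hb1 : b₀ ∈ t.P := far_mem' hg N hi hb₀
  have hb2 : s.lab b₀ = i := (hg.far_mem hb₀).2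
  set e : ZMod 2 := Ψ b₀ + χ b₀ with he
  set Z : Set W := {x | (x ∈ s.P → Ψ x + χ x = e) ∧ (x ∉ s.P → Ψ (z₀.e true) + χ x = e)} with hZ
  have hclosed : ∀ F x, x ∈ Z → s'.At F x → s'.lab x = i → s'.mu F x ∈ Z := by
    intro F x hxZ hxA hxl
    obtain ⟨v, hv, rfl⟩ := pst_true hxA.1 (by rw [hxl]; exact hi)
    have hvP := nst_sub hg N (mem_kA.1 hv).1
    have hvF : v ∈ M.On F := (ph_on hp hvP F).1 hxA.2
    have hvA : s.At F v := ⟨hvP, hvF⟩
    have h4 := pst_ph (hp := hp) (hP := hP) (ht := nst_sub hg N) hv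
    have hvl : t.lab v = i := h4.2.1.symm.trans hxl
    have hmu : s'.mu F (ph s c v) = ph s c (t.mu F v) := h4.2.2 F
    -- the new partner
    have hv' : t.mu F v ∈ t.P := htm hvA (mem_kA.1 hv).1
    have hv'l : t.lab (t.mu F v) = i := (t.mu_lab (mem_kA.1 hv).1 hvF).trans hvl
    have hv'A : s.At F (t.mu F v) := mu'_at (A.cv z₀) inn hvA
    have hmm : t.mu F (t.mu F v) = v := t.mu_mu (mem_kA.1 hv).1 hvF
    -- values at a common point on an affected chord
    have hval : ∀ u, s.At F u → u ∈ t.P → col (s.lab u) = true → t.lab u = i →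
        (∃ z ∈ A.cv z₀, z.F = F ∧ z.e true = s.lo F u) → Ψ u = Ψ (z₀.e true) := by
      intro u hu huP huc hul hz
      exact haff hu ((nst_same hg N huP huc).symm.trans hul) hz
    by_cases haf : col (s.lab v) = true ∧ ∀ z ∈ A.cv z₀, z.F = F → z.e true ≠ s.lo F v
    · -- not affected
      obtain ⟨hc, hz⟩ := haf
      have hsl : s.lab v = i := (nst_same hg N (mem_kA.1 hv).1 hc).symm.trans hvl
      have h1 := hfree hvA hsl hz
      have hsl' : s.lab (s.mu F v) = i := (s.mu_lab hvP hvF).trans hsl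
      obtain ⟨h2, h3⟩ := hfree_iff hvA hsl hz (mem_kA.1 hv).1
      rw [ph_neg hc] at hxZ hxA hxl ⊢
      rw [h3]
      have hmP : s.mu F v ∈ s.P := (At.mu s hvA).1
      have hx1 := hxZ.1 hvP
      refine ⟨fun _ => ?_, fun h => absurd hmP h⟩
      rw [← hx1]
      have hq := hΨ F v hvA hsl
      by_cases hk : K F v ∨ K F (s.mu F v)
      · have h5 : v ∈ X' ↔ s.mu F v ∈ X' := by
          rcases hk with hk | hk
          · have := hX' F v hxA hxl hk
            rwa [h3] at this
          · have h6 := (hfree_iff (At.mu s hvA) hsl' (by rw [hlo hvA]; exact hz) h2).2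
            rw [s.mu_mu hvP hvF] at h6
            have := hX' F (s.mu F v) ⟨(hkept h2 hsl').2.2.1, (At.mu s hvA).2⟩
              (hkept h2 hsl').2.2.2 hk
            rw [h6] at this
            exact this.symm
        have h7 : θ F v = 0 := if_neg fun h' => hk.elim h'.2.1 h'.2.2
        rw [h7] at hq
        rw [← eq_of_add2 hq.symm, hχe h5]
      · rw [not_or] at hk
        have h7 : θ F v = χ v + χ (s.mu F v) := if_pos ⟨(mem_kA.1 hv).1, hk.1, hk.2⟩
        rw [h7] at hq
        have e1 := add_self2 (Ψ (s.mu F v))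
        have e2 := add_self2 (χ (s.mu F v))
        have e3 := add_self2 (χ v)
        have e4 := add_self2 (Ψ v)
        linear_combination hq + e1 - e3
    · -- affected: the face has a barrier point
      have hface : ∃ h, HP s h ∧ h ∈ M.On F := by
        by_cases hc : col (s.lab v) = true
        · have : ∃ z ∈ A.cv z₀, z.F = F ∧ z.e true = s.lo F v := by
            by_contra hcon
            apply haf
            refine ⟨hc, fun z hz hzF hze => hcon ⟨z, hz, hzF, hze⟩⟩
          obtain ⟨z, -, hzF, -⟩ := this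
          exact ⟨z.e false, ⟨(z.at_ false).1, z.colr false⟩, by rw [← hzF]; exact (z.at_ false).2⟩
        · exact ⟨v, ⟨hvP, by simpa using hc⟩, hvF⟩
      have hKF : ∀ u, K F u := by
        obtain ⟨h, hh, hhF⟩ := hface
        obtain ⟨q, hq⟩ := exists_side' (M := M) F
        exact hK q F F h hq hq hh hhF
      have hXX : (ph s c v ∈ X' ↔ s'.mu F (ph s c v) ∈ X') := hX' F _ hxA hxl (hKF _)
      -- the value at `x`
      have hx1 : Ψ (z₀.e true) + χ (ph s c v) = e := by
        by_cases hc : col (s.lab v) = true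
        · have : ∃ z ∈ A.cv z₀, z.F = F ∧ z.e true = s.lo F v := by
            by_contra hcon
            apply haf
            refine ⟨hc, fun z hz hzF hze => hcon ⟨z, hz, hzF, hze⟩⟩
          rw [ph_neg hc] at hxZ ⊢
          rw [← hval v hvA (mem_kA.1 hv).1 hc hvl this]
          exact hxZ.1 hvP
        · have hc' : col (s.lab v) = false := by simpa using hc
          refine hxZ.2 ?_
          rw [ph_pos hc']
          exact fun h => hp.nin ⟨hvP, hc'⟩ (hP h)
      have hx2 : Ψ (z₀.e true) + χ (s'.mu F (ph s c v)) = e := by rw [← hχe hXX]; exact hx1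
      rw [hmu] at hx2 ⊢
      by_cases hc' : col (s.lab (t.mu F v)) = true
      · rw [ph_neg hc'] at hx2 ⊢
        refine ⟨fun _ => ?_, fun _ => hx2⟩
        have : ∃ z ∈ A.cv z₀, z.F = F ∧ z.e true = s.lo F (t.mu F v) := by
          by_contra hcon
          push Not at hcon
          have hsl' : s.lab (t.mu F v) = i := (nst_same hg N hv' hc').symm.trans hv'l
          have h5 := hfree hv'A hsl' hcon
          rw [hmm] at h5
          -- `v` is the old partner of its new partner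
          apply haf
          have h6 : t.mu F v = s.mu F v := by
            conv_rhs => rw [h5]
            rw [s.mu_mu hv'A.1 hv'A.2]
          have hc : col (s.lab v) = true := by
            rw [h5, s.mu_lab hv'A.1 hv'A.2]; exact hc'
          refine ⟨hc, ?_⟩
          have h7 : s.lo F v = s.lo F (t.mu F v) := by
            rw [h6, hlo hvA]
          rw [h7]
          exact hcon
        rw [hval _ hv'A hv' hc' hv'l this]
        exact hx2
      · have hc'' : col (s.lab (t.mu F v)) = false := by simpa using hc'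
        rw [ph_pos hc''] at hx2 ⊢
        exact ⟨fun h => absurd (hP h) (hp.nin ⟨hv'A.1, hc''⟩), fun _ => hx2⟩
  have hbZ : b₀ ∈ Z := ⟨fun _ => rfl, fun h => absurd (hg.far_mem hb₀).1 h⟩
  have hall := (hgood.conn i).2 Z hclosed b₀ hbZ (hkept hb1 hb2).2.2.1 (hkept hb1 hb2).2.2.2
  refine ⟨{w | Ψ w = e + 1}, ?_, ?_⟩
  · intro F w hA hl hk
    show Ψ w = e + 1 ↔ Ψ (s.mu F w) = e + 1
    rw [hΨK hA hl hk]
  · intro w hw hwi hw' hwi'
    have h1 := (hall w hw' hwi').1 hw
    show Ψ w = e + 1 ↔ w ∈ X'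
    by_cases hx : w ∈ X'
    · have h2 : χ w = 1 := if_pos hx
      rw [h2] at h1
      refine ⟨fun _ => hx, fun _ => ?_⟩
      rw [← h1]
      have := add_self2 (1 : ZMod 2)
      linear_combination -this
    · have h2 : χ w = 0 := if_neg hx
      rw [h2, add_zero] at h1
      refine ⟨fun h3 => ?_, fun h => absurd h hx⟩
      exfalso
      rw [h1] at h3
      exact one_ne_zero (left_eq_add.1 h3)

/-- an innermost closed curve on the barriers -/
theorem exists_inner {A : s.Arcs Act} {τ : Bool → ι → s.Dbl → ZMod 2}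
    {D : s.Dbl → Bool → Dart s → ZMod 2} (hD : DD A τ A.mx far D) (hne : A.mx.Nonempty) :
    ∃ z₀ ∈ A.mx, ∀ u ∉ A.cv z₀, ∀ b, D z₀ false (dz u false b) = 0 := by
  obtain ⟨z₀, hz₀, hmin⟩ := Set.exists_min_image A.mx
    (fun z => {d' : Dart s | D z false d' = 1}.ncard) (Set.toFinite _) hne
  refine ⟨z₀, hz₀, ?_⟩
  intro u hu b
  by_cases hum : u ∈ A.mx
  · by_contra h
    have h1 := z2_ne0 h
    have hany : ∀ b', D z₀ false (dz u false b') = 1 := by
      intro b'
      rw [St_147.D_any hD hz₀ hu false b' b]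
      exact h1
    have h2 : D u false (inD (innD D) u false) = 1 := St_147.D_in hD hum false
    have h3 : D z₀ false (inD (innD D) u false) = 1 := hany _
    have h4 : D u false (outD (innD D) u false) = 0 := St_147.D_out hD hum false
    have h5 : D z₀ false (outD (innD D) u false) = 1 := hany _
    rcases hD.lam z₀ hz₀ u hum false _ h3 h2 with h6 | h6
    · rw [h6 _ h5] at h4
      exact one_ne_zero h4
    · have h7 : {d' : Dart s | D u false d' = 1} ⊂ {d' : Dart s | D z₀ false d' = 1} := by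
        refine ⟨fun d hd => h6 d hd, fun h8 => ?_⟩
        have h9 : D u false (outD (innD D) u false) = 1 := h8 h5
        rw [h9] at h4
        exact one_ne_zero h4
      have h8 := Set.ncard_lt_ncard h7 (Set.toFinite _)
      exact absurd (hmin u hum) (not_le.2 h8)
  · exact hD.out z₀ hz₀ u hum false b

/-- **one step** -/
theorem step (hg : s.Good Act far) (h2 : Two s up) (hP : s.P ⊆ Ph)
    (hroom : ∀ b, ∃ c, Push s up Ph b c) (A : s.Arcs Act) {G : Set s.Dbl} (hG : A.Closed G)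
    (hne : G.Nonempty) :
    ∃ s' : St M col, s'.Good Act far ∧ CL2 Act far Ph s' s ∧ Nat.card s'.Dbl < Nat.card s.Dbl := by
  classical
  have hR := refStmt A (fun i => B_422.sep_of_h1 s i (hg.h1 i))
  obtain ⟨D, hD⟩ := Sd1_161.exists_DD hg A _ hR
  have hmx := A.mx_closed
  obtain ⟨z₀, hz₀, hin⟩ := exists_inner hD (hne.mono (A.sub_mx hG))
  have N := exists_nms1 hD hR (fun _ _ h => (hg.far_mem h).2) hz₀ hin
  have hG' : A.Closed (A.cv z₀) := by
    intro u hu q hq
    exact ⟨(hmx u (cv_sub hmx hz₀ hu) q hq).1, cv_trans hu (cv_arc hq)⟩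
  have hDw : DDw A _ (A.cv z₀) far D := DDw.of hD fun u hu => cv_sub hmx hz₀ hu
  have hn : nm1 D z₀ (dz z₀ true (!innD D z₀ true)) = none := by
    have h1 := SecW_892.D_in hDw (cv_refl A z₀) true
    exact nm1_t' (dz_x _ _ _) h1
  have hx : HP s (z₀.e false) := ⟨(z₀.at_ false).1, z₀.colr false⟩
  have hfin : ∀ {b : Bool} {c : W → W} (hp : Push s up Ph b c),
      (¬ (M.Btw z₀.F (z₀.e false) (s.mu z₀.F (z₀.e false))
        (pt (flip (dz z₀ true (!innD D z₀ true)))) ↔
        M.pos z₀.F (z₀.e false) < M.pos z₀.F (c (z₀.e false)))) →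
      ∃ s' : St M col, s'.Good Act far ∧ CL2 Act far Ph s' s ∧
        Nat.card s'.Dbl < Nat.card s.Dbl := by
    intro b c hp hanti
    have hgood := pst_good hG' hg N hp hP h2
    refine ⟨pst hp hP (nst_sub hg N), hgood,
      ⟨pst_cle hG' hg N hp hP h2, ?_, ?_, pst_pb hz₀ hg N hp hP hgood⟩,
      pst_card hg N hp hP h2 (z₀ := z₀) (β₀ := !innD D z₀ true) hanti hn⟩
    · exact fun w hw hws => (pst_common hg N hp hP hw hws).2
    · exact fun F w hw hw' hf => pst_off hg N hp hP h2 hw hw' hf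
  by_cases hQ : M.Btw z₀.F (z₀.e false) (s.mu z₀.F (z₀.e false))
      (pt (flip (dz z₀ true (!innD D z₀ true))))
  · obtain ⟨c, hp⟩ := hroom (!up z₀.F (z₀.e false))
    refine hfin hp ?_
    intro h
    have h3 := (hp.side hx (z₀.at_ false).2).1 (h.1 hQ)
    cases up z₀.F (z₀.e false) <;> simp at h3
  · obtain ⟨c, hp⟩ := hroom (up z₀.F (z₀.e false))
    refine hfin hp ?_
    intro h
    exact hQ (h.2 ((hp.side hx (z₀.at_ false).2).2 rfl))

/-- **CUT**: one-sided removal of all closed double curves, with pull back of closed sets -/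
theorem cut (up : Φ → W → Bool) (s : St M col) (hg : s.Good Act far) (h2 : Two s up)
    (hroom : Room s up) (Ph : Finset W) (hP : s.P ⊆ Ph) :
    ∃ s' : St M col, s'.Good Act far ∧ CL2 Act far Ph s' s ∧
      ∀ (A : s'.Arcs Act) (G : Set s'.Dbl), A.Closed G → G = ∅ := by
  classical
  induction hn : Nat.card s.Dbl using Nat.strong_induction_on generalizing s Ph with
  | _ n ih =>
    by_cases h : ∀ (A : s.Arcs Act) (G : Set s.Dbl), A.Closed G → G = ∅
    · exact ⟨s, hg, CL2.refl _ _ _ _, h⟩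
    · push Not at h
      obtain ⟨A, G, hG, hne⟩ := h
      obtain ⟨s₁, hg₁, hl₁, hc₁⟩ := step hg h2 hP (fun b => hroom Ph b) A hG hne
      have h2' : Two s₁ up := by
        intro F w hw hF
        have hw' := (hl₁.cle.hp w).1 hw
        rw [hl₁.cle.hmu w F hw']
        exact h2 hw' hF
      have hroom' : Room s₁ up := by
        intro Ph' b
        obtain ⟨c, hp⟩ := hroom Ph' b
        exact ⟨c, hp.congr hl₁.cle.hp⟩
      obtain ⟨s₂, hg₂, hl₂, hc₂⟩ := ih _ (hn ▸ hc₁) s₁ hg₁ h2' hroom' (Ph ∪ s₁.P)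
        Finset.subset_union_right rfl
      exact ⟨s₂, hg₂, CL2.trans Finset.subset_union_left (hP.trans Finset.subset_union_left)
        hl₂ hl₁ hg₁, hc₂⟩

end step

end Crest.Agent.R096.SecW_892
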