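import Crest.Agent.R096.Cb6_609
import Crest.Agent.R096.Ax9_914

-- ▼ part R096/Tws1_662
section

/-!
# Local two-sidedness of PL surfaces, part 1 (helper662, row 96, `twoSided_of_sphere`)

`twoSidedAt_cone`: the cone over a closed polygon of the open lower half space whose points lie on
different rays is two-sided at the origin.
-/

set_option autoImplicit false

namespace Crest.Agent.R096.Tws_662

open Set Metric Function Topology
open Crest.Agent.R096.Pl Crest.Agent.R096.Ax_914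

abbrev V3 : Type := (ℝ × ℝ) × ℝ

/-! ### conic sets -/

section Conic

variable {E : Type*} [NormedAddCommGroup E] [NormedSpace ℝ E]

/-- a conic preconnected set meets every ball round the origin in a preconnected set -/
theorem isPreconnected_inter_ball {P : Set E} (hP : IsPreconnected P)
    (hc : ∀ z ∈ P, ∀ t : ℝ, 0 < t → t • z ∈ P) {ε : ℝ} (hε : 0 < ε) :
    IsPreconnected (P ∩ ball 0 ε) := by
  have h0 : ∀ z : E, 0 < 1 + ‖z‖ := fun z => by positivity
  have hcont : Continuous fun z : E => (ε / (1 + ‖z‖)) • z :=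
    (continuous_const.div (by fun_prop) fun z => (h0 z).ne').smul continuous_id
  have : P ∩ ball 0 ε = (fun z : E => (ε / (1 + ‖z‖)) • z) '' P := by
    ext z
    constructor
    · rintro ⟨hz, hb⟩
      have hb' : ‖z‖ < ε := by simpa using hb
      have h1 : 0 < ε - ‖z‖ := by linarith
      refine ⟨(ε - ‖z‖)⁻¹ • z, hc z hz _ (by positivity), ?_⟩
      show (ε / (1 + ‖(ε - ‖z‖)⁻¹ • z‖)) • ((ε - ‖z‖)⁻¹ • z) = z
      rw [norm_smul, smul_smul, Real.norm_eq_abs, abs_of_pos (by positivity)]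
      have h2 : ε / (1 + (ε - ‖z‖)⁻¹ * ‖z‖) * (ε - ‖z‖)⁻¹ = 1 := by
        field_simp
        ring
      rw [h2, one_smul]
    · rintro ⟨w, hw, rfl⟩
      refine ⟨hc w hw _ (by have := h0 w; positivity), ?_⟩
      have h1 := h0 w
      simp only [mem_ball, dist_zero_right, norm_smul, Real.norm_eq_abs]
      rw [abs_of_pos (by positivity), div_mul_eq_mul_div, div_lt_iff₀ h1]
      nlinarith [norm_nonneg w]
  rw [this]
  exact hP.image _ hcont.continuousOn

/-- the origin is in the closure of a nonempty conic set -/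
theorem zero_mem_closure {P : Set E} {ε : ℝ} (hε : 0 < ε) (hn : P.Nonempty)
    (hc : ∀ z ∈ P, ∀ t : ℝ, 0 < t → t • z ∈ P) : (0 : E) ∈ closure (P ∩ ball 0 ε) := by
  obtain ⟨z, hz⟩ := hn
  rw [Metric.mem_closure_iff]
  intro δ hδ
  set m := min δ ε with hm
  have hm0 : 0 < m := lt_min hδ hε
  have h1 : 0 < 1 + ‖z‖ := by positivity
  have h2 : ‖(m / (1 + ‖z‖)) • z‖ < m := by
    rw [norm_smul, Real.norm_eq_abs, abs_of_pos (by positivity), div_mul_eq_mul_div,
      div_lt_iff₀ h1]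
    nlinarith [norm_nonneg z]
  refine ⟨(m / (1 + ‖z‖)) • z, ⟨hc z hz _ (by positivity), ?_⟩, ?_⟩
  · simpa using h2.trans_le (min_le_right _ _)
  · rw [dist_comm, dist_zero_right]
    exact h2.trans_le (min_le_left _ _)

/-- two complementary conic open preconnected sets -/
theorem twoSidedAt_of_conic {C P N : Set E} (hP : IsOpen P) (hN : IsOpen N)
    (hPc : IsPreconnected P) (hNc : IsPreconnected N) (hd : Disjoint P N) (hu : Cᶜ = P ∪ N)
    (hPn : P.Nonempty) (hNn : N.Nonempty)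
    (cP : ∀ z ∈ P, ∀ t : ℝ, 0 < t → t • z ∈ P) (cN : ∀ z ∈ N, ∀ t : ℝ, 0 < t → t • z ∈ N) :
    TwoSidedAt C 0 := by
  intro ε hε
  refine ⟨ball 0 ε, P ∩ ball 0 ε, N ∩ ball 0 ε, isOpen_ball, hP.inter isOpen_ball,
    hN.inter isOpen_ball, mem_ball_self hε, Subset.rfl, isPreconnected_inter_ball hPc cP hε,
    isPreconnected_inter_ball hNc cN hε, hd.mono inter_subset_left inter_subset_left, ?_,
    zero_mem_closure hε hPn cP, zero_mem_closure hε hNn cN⟩
  rw [← union_inter_distrib_right, ← hu, sdiff_eq, inter_comm]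

end Conic

/-! ### central projection to the plane `z = -1` -/

/-- central projection of the lower half space -/
noncomputable def pr (z : V3) : ℝ × ℝ := (-z.2)⁻¹ • z.1

theorem pr_smul {t : ℝ} (ht : 0 < t) (z : V3) : pr (t • z) = pr z := by
  simp only [pr, Prod.smul_snd, Prod.smul_fst, smul_eq_mul, smul_smul]
  congr 1
  rcases eq_or_ne z.2 0 with h | h
  · simp [h]
  · field_simp

theorem eq_of_pr {z z' : V3} (hz : z.2 < 0) (hz' : z'.2 < 0) (h : pr z = pr z') :
    z = (z.2 / z'.2) • z' := by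
  have h1 : z.2 ≠ 0 := hz.ne
  have h2 : z'.2 ≠ 0 := hz'.ne
  have h3 : z.1 = (z.2 / z'.2) • z'.1 := by
    have : (-z.2) • pr z = (-z.2) • pr z' := by rw [h]
    rw [pr, smul_smul, mul_inv_cancel₀ (by simpa using h1), one_smul, pr, smul_smul] at this
    rw [this]
    congr 1
    field_simp
  ext1
  · rw [Prod.smul_fst]; exact h3
  · rw [Prod.smul_snd, smul_eq_mul, div_mul_cancel₀ _ h2]

theorem continuousOn_pr : ContinuousOn pr {z : V3 | z.2 < 0} := by
  have : ContinuousOn (fun z : V3 => (-z.2)⁻¹) {z : V3 | z.2 < 0} :=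
    (by fun_prop : Continuous fun z : V3 => -z.2).continuousOn.inv₀ fun z hz => by
      have : z.2 < 0 := hz
      linarith
  exact this.smul continuous_fst.continuousOn

theorem isOpen_lower : IsOpen {z : V3 | z.2 < 0} := isOpen_lt continuous_snd continuous_const

theorem pr_segment {x y : V3} (hx : x.2 < 0) (hy : y.2 < 0) :
    pr '' segment ℝ x y = segment ℝ (pr x) (pr y) := by
  obtain ⟨x1, x2⟩ := x
  obtain ⟨y1, y2⟩ := y
  obtain ⟨p, rfl⟩ : ∃ p, x2 = -p := ⟨-x2, by ring⟩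
  obtain ⟨q, rfl⟩ : ∃ q, y2 = -q := ⟨-y2, by ring⟩
  have hp : 0 < p := by simpa using hx
  have hq : 0 < q := by simpa using hy
  have hsum : ∀ a b : ℝ, a * -p + b * -q = -(a * p + b * q) := fun a b => by ring
  ext z
  constructor
  · rintro ⟨w, ⟨a, b, ha, hb, hab, rfl⟩, rfl⟩
    have hD : 0 < a * p + b * q := by
      rcases ha.lt_or_eq with h | h
      · have := mul_pos h hp
        have := mul_nonneg hb hq.le
        linarith
      · have hb1 : b = 1 := by linarith
        rw [← h, hb1]; linarith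
    refine ⟨a * p / (a * p + b * q), b * q / (a * p + b * q),
      div_nonneg (mul_nonneg ha hp.le) hD.le,
      div_nonneg (mul_nonneg hb hq.le) hD.le, ?_, ?_⟩
    · rw [← add_div, div_self hD.ne']
    · simp only [pr, Prod.snd_add, Prod.smul_snd, smul_eq_mul, Prod.fst_add, Prod.smul_fst,
        smul_add, smul_smul, neg_neg, hsum]
      congr 2
      · field_simp
      · field_simp
  · rintro ⟨a, b, ha, hb, hab, rfl⟩
    have hD : 0 < a / p + b / q := by
      rcases ha.lt_or_eq with h | h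
      · have := div_pos h hp
        have := div_nonneg hb hq.le
        linarith
      · have hb1 : b = 1 := by linarith
        rw [← h, hb1]; positivity
    refine ⟨(a / p / (a / p + b / q)) • (x1, -p) + (b / q / (a / p + b / q)) • (y1, -q),
      ⟨_, _, div_nonneg (div_nonneg ha hp.le) hD.le, div_nonneg (div_nonneg hb hq.le) hD.le,
        ?_, rfl⟩, ?_⟩
    · rw [← add_div, div_self hD.ne']
    · have h3 : (a / p / (a / p + b / q)) * p + (b / q / (a / p + b / q)) * q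
          = (a / p + b / q)⁻¹ := by
        have h4 : a / p * p = a := div_mul_cancel₀ _ hp.ne'
        have h5 : b / q * q = b := div_mul_cancel₀ _ hq.ne'
        rw [div_mul_eq_mul_div (a / p), div_mul_eq_mul_div (b / q), h4, h5, ← add_div, hab,
          one_div]
      simp only [pr, Prod.snd_add, Prod.smul_snd, smul_eq_mul, Prod.fst_add, Prod.smul_fst,
        smul_add, smul_smul, neg_neg, hsum]
      rw [h3, inv_inv]
      congr 2
      · rw [mul_div_cancel₀ _ hD.ne', div_eq_mul_inv]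
      · rw [mul_div_cancel₀ _ hD.ne', div_eq_mul_inv]

/-- the projected polygon -/
theorem poly_pr {n : ℕ} {v : ℤ → V3} (hv : Poly n v) (hneg : ∀ i, (v i).2 < 0)
    (hray : ∀ x ∈ polySet v, ∀ y ∈ polySet v, ∀ t : ℝ, 0 < t → x = t • y → x = y) :
    Poly n (fun i => pr (v i)) ∧ polySet (fun i => pr (v i)) = pr '' polySet v ∧
      ∀ x ∈ polySet v, x.2 < 0 := by
  have hedge : ∀ i, edge (fun i => pr (v i)) i = pr '' edge v i := fun i =>
    (pr_segment (hneg i) (hneg (i + 1))).symm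
  have hlow : ∀ x ∈ polySet v, x.2 < 0 := by
    intro x hx
    obtain ⟨i, hi⟩ := mem_polySet.1 hx
    obtain ⟨a, b, ha, hb, hab, rfl⟩ := hi
    have h1 := hneg i
    have h2 := hneg (i + 1)
    simp only [Prod.snd_add, Prod.smul_snd, smul_eq_mul]
    rcases ha.lt_or_eq with h | h
    · nlinarith
    · have hb1 : b = 1 := by linarith
      rw [← h, hb1]; linarith
  have hinj : ∀ x ∈ polySet v, ∀ y ∈ polySet v, pr x = pr y → x = y := by
    intro x hx y hy h
    exact hray x hx y hy _ (div_pos_of_neg_of_neg (hlow x hx) (hlow y hy))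
      (eq_of_pr (hlow x hx) (hlow y hy) h)
  have hvm : ∀ i, v i ∈ polySet v := fun i => mem_polySet.2 ⟨i, left_mem_edge v i⟩
  refine ⟨⟨hv.three, fun i => by rw [hv.per], fun i j h => hv.inj i j (hinj _ (hvm i) _ (hvm j) h),
    ?_⟩, ?_, hlow⟩
  · intro i j hij x hx hx'
    rw [hedge] at hx hx'
    obtain ⟨y, hy, rfl⟩ := hx
    obtain ⟨y', hy', he⟩ := hx'
    have : y' = y := hinj _ (mem_polySet.2 ⟨j, hy'⟩) _ (mem_polySet.2 ⟨i, hy⟩) he
    subst this
    obtain ⟨h1, h2⟩ := hv.simple i j hij _ hy hy'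
    refine ⟨h1.imp (fun h => ?_) (fun h => ?_), h2.imp (fun h => ?_) (fun h => ?_)⟩ <;>
      · show pr y' = _
        rw [h]
  · simp only [polySet, hedge, image_iUnion]

/-! ### the cone over a polygon -/

/-- the closed cone over `A` -/
def coneOf {E : Type*} [NormedAddCommGroup E] [NormedSpace ℝ E] (A : Set E) : Set E :=
  {z | ∃ t : ℝ, 0 ≤ t ∧ ∃ y ∈ A, z = t • y}

theorem twoSidedAt_cone {n : ℕ} {v : ℤ → V3} (hv : Poly n v) (hneg : ∀ i, (v i).2 < 0)
    (hray : ∀ x ∈ polySet v, ∀ y ∈ polySet v, ∀ t : ℝ, 0 < t → x = t • y → x = y) :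
    TwoSidedAt (coneOf (polySet v)) (0 : V3) := by
  obtain ⟨hw, hws, hlow⟩ := poly_pr hv hneg hray
  obtain ⟨H, hH, hHS⟩ := hw.stdC
  -- membership in the cone
  have hC : ∀ z : V3, z ∈ coneOf (polySet v) ↔ z = 0 ∨ (z.2 < 0 ∧ pr z ∈ H '' S1 ℝ) := by
    intro z
    rw [hHS, hws]
    constructor
    · rintro ⟨t, ht, y, hy, rfl⟩
      rcases ht.lt_or_eq with h | h
      · right
        refine ⟨?_, y, hy, (pr_smul h y).symm⟩
        rw [Prod.smul_snd, smul_eq_mul]
        exact mul_neg_of_pos_of_neg h (hlow y hy)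
      · left; rw [← h, zero_smul]
    · rintro (rfl | ⟨hz, y, hy, h⟩)
      · exact ⟨0, le_rfl, v 0, mem_polySet.2 ⟨0, left_mem_edge v 0⟩, by simp⟩
      · exact ⟨z.2 / y.2, (div_pos_of_neg_of_neg hz (hlow y hy)).le, y, hy,
          eq_of_pr hz (hlow y hy) h.symm⟩
  -- a bound of the inside
  have hBc : IsCompact (H '' {p : ℝ × ℝ | N1 p ≤ 1}) := isCompact_le.image H.continuous
  obtain ⟨R, hR⟩ := hBc.isBounded.exists_norm_le
  have hR0 : 0 ≤ R := (norm_nonneg _).trans
    (hR (H 0) ⟨0, by show N1 _ ≤ 1; rw [N1_zero]; norm_num, rfl⟩)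
  have htri : ∀ x : ℝ × ℝ, x ∈ H '' U1 ℝ ∨ x ∈ H '' S1 ℝ ∨ x ∈ H '' X1 ℝ := by
    intro x
    obtain ⟨p, rfl⟩ := H.surjective x
    rcases lt_trichotomy (N1 p) 1 with h | h | h
    · exact Or.inl ⟨p, h, rfl⟩
    · exact Or.inr (Or.inl ⟨p, h, rfl⟩)
    · exact Or.inr (Or.inr ⟨p, h, rfl⟩)
  have hX : ∀ x : ℝ × ℝ, R < ‖x‖ → x ∈ H '' X1 ℝ := by
    intro x hx
    rcases htri x with h | h | h
    · obtain ⟨p, hp, rfl⟩ := h
      have h2 : N1 p < 1 := hp
      exact absurd (hR _ ⟨p, h2.le, rfl⟩) (not_le.2 hx)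
    · obtain ⟨p, hp, rfl⟩ := h
      have h2 : N1 p = 1 := hp
      exact absurd (hR _ ⟨p, h2.le, rfl⟩) (not_le.2 hx)
    · exact h
  have hdUX : Disjoint (H '' U1 ℝ) (H '' X1 ℝ) := by
    rw [disjoint_image_iff H.injective, disjoint_left]
    intro p hp hp'
    have h1 : N1 p < 1 := hp
    have h2 : 1 < N1 p := hp'
    linarith
  have hdSX : Disjoint (H '' S1 ℝ) (H '' X1 ℝ) := by
    rw [disjoint_image_iff H.injective, disjoint_left]
    intro p hp hp'
    have h1 : N1 p = 1 := hp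
    have h2 : 1 < N1 p := hp'
    linarith
  have hdUS : Disjoint (H '' U1 ℝ) (H '' S1 ℝ) := Cb_609.disjoint_U1_S1 H
  -- the sets
  let P : Set V3 := {z | z.2 < 0 ∧ pr z ∈ H '' U1 ℝ}
  let N₁ : Set V3 := {z | z.2 < 0 ∧ pr z ∈ H '' X1 ℝ}
  let N₂ : Set V3 := {z | 0 ≤ z.2 ∧ z ≠ 0}
  have opn : ∀ A : Set (ℝ × ℝ), IsOpen A → IsOpen {z : V3 | z.2 < 0 ∧ pr z ∈ A} := fun A hA =>
    continuousOn_pr.isOpen_inter_preimage isOpen_lower hA
  have con : ∀ A : Set (ℝ × ℝ), IsPreconnected A →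
      IsPreconnected {z : V3 | z.2 < 0 ∧ pr z ∈ A} := by
    intro A hA
    have : {z : V3 | z.2 < 0 ∧ pr z ∈ A} =
        (fun p : (ℝ × ℝ) × ℝ => (p.2 • p.1, -p.2)) '' (A ×ˢ Ioi (0 : ℝ)) := by
      ext z
      constructor
      · rintro ⟨h1, h2⟩
        have h1' : z.2 ≠ 0 := h1.ne
        refine ⟨(pr z, -z.2), ⟨h2, by simpa using h1⟩, ?_⟩
        ext1
        · show (-z.2) • pr z = z.1
          rw [pr, smul_smul, mul_inv_cancel₀ (by simpa using h1'), one_smul]
        · simp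
      · rintro ⟨p, ⟨h1, h2⟩, rfl⟩
        have h2' : 0 < p.2 := h2
        refine ⟨by simpa using h2', ?_⟩
        have : pr (p.2 • p.1, -p.2) = p.1 := by
          simp only [pr, neg_neg, smul_smul]
          rw [inv_mul_cancel₀ h2'.ne', one_smul]
        rw [this]; exact h1
    rw [this]
    exact (hA.prod isPreconnected_Ioi).image _ (by fun_prop)
  have cconic : ∀ A : Set (ℝ × ℝ), ∀ z ∈ {z : V3 | z.2 < 0 ∧ pr z ∈ A}, ∀ t : ℝ, 0 < t →
      t • z ∈ {z : V3 | z.2 < 0 ∧ pr z ∈ A} := by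
    rintro A z ⟨h1, h2⟩ t ht
    refine ⟨?_, ?_⟩
    · rw [Prod.smul_snd, smul_eq_mul]; exact mul_neg_of_pos_of_neg ht h1
    · rw [pr_smul ht]; exact h2
  have hU1n : (U1 ℝ).Nonempty := ⟨0, by show N1 _ < 1; rw [N1_zero]; norm_num⟩
  have hPn : P.Nonempty := by
    obtain ⟨p, hp⟩ := hU1n
    refine ⟨(H p, -1), by norm_num, p, hp, ?_⟩
    simp [pr]
  have hz0 : (((1 : ℝ), (0 : ℝ)), (0 : ℝ)) ∈ N₂ := by
    refine ⟨le_rfl, fun h => ?_⟩
    have := congrArg (fun z : V3 => z.1.1) h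
    simp at this
  have hz0c : (((1 : ℝ), (0 : ℝ)), (0 : ℝ)) ∈ closure N₁ := by
    rw [Metric.mem_closure_iff]
    intro δ hδ
    set m := min (δ / 2) (1 / (R + 1) / 2) with hm
    have hR1 : 0 < R + 1 := by linarith
    have hm0 : 0 < m := lt_min (by linarith) (by positivity)
    have hm1 : m < δ := lt_of_le_of_lt (min_le_left _ _) (by linarith)
    have hm2 : m < 1 / (R + 1) := lt_of_le_of_lt (min_le_right _ _) (by
      have : 0 < 1 / (R + 1) := by positivity
      linarith)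
    refine ⟨((1, 0), -m), ⟨by simpa using hm0, hX _ ?_⟩, ?_⟩
    · have h2 : pr ((1, 0), -m) = (m⁻¹, 0) := by simp [pr]
      rw [h2, Prod.norm_def]
      have h3 : R < m⁻¹ := by
        rw [lt_div_iff₀ hR1] at hm2
        rw [← one_div, lt_div_iff₀ hm0]
        nlinarith
      exact lt_of_lt_of_le (h3.trans_le (le_abs_self _)) (le_max_left _ _)
    · rw [Prod.dist_eq]
      simp only [dist_self, dist_zero_left, norm_neg, Real.norm_eq_abs, abs_of_pos hm0]
      exact max_lt hδ hm1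
  have hN₂ : IsPreconnected N₂ := by
    have h1 : IsPreconnected {z : V3 | 0 < z.2} := by
      apply Convex.isPreconnected
      exact convex_halfSpace_gt (LinearMap.isLinear (LinearMap.snd ℝ (ℝ × ℝ) ℝ)) 0
    refine h1.subset_closure ?_ ?_
    · intro z hz
      have hz' : 0 < z.2 := hz
      exact ⟨hz'.le, fun h => by rw [h] at hz'; simp at hz'⟩
    · rintro z ⟨hz, -⟩
      rw [Metric.mem_closure_iff]
      intro δ hδ
      refine ⟨(z.1, z.2 + δ / 2), by show 0 < z.2 + δ / 2; linarith, ?_⟩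
      rw [Prod.dist_eq]
      simp only [dist_self]
      refine max_lt hδ ?_
      rw [Real.dist_eq]
      have : z.2 - (z.2 + δ / 2) = -(δ / 2) := by ring
      rw [this, abs_neg, abs_of_pos (by linarith)]
      linarith
  have hN : IsPreconnected (N₁ ∪ N₂) := by
    have h1 : IsPreconnected (N₁ ∪ {(((1 : ℝ), (0 : ℝ)), (0 : ℝ))}) :=
      (con _ (isConnected_X1.isPreconnected.image _ H.continuous.continuousOn)).subset_closure
        subset_union_left (union_subset subset_closure (singleton_subset_iff.2 hz0c))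
    have h2 := h1.union (((1 : ℝ), (0 : ℝ)), (0 : ℝ)) (Or.inr rfl) hz0 hN₂
    have : N₁ ∪ {(((1 : ℝ), (0 : ℝ)), (0 : ℝ))} ∪ N₂ = N₁ ∪ N₂ := by
      rw [union_assoc]
      congr 1
      exact union_eq_right.2 (singleton_subset_iff.2 hz0)
    rwa [this] at h2
  refine twoSidedAt_of_conic (P := P) (N := N₁ ∪ N₂) (opn _ (H.isOpenMap _ isOpen_U1)) ?_
    (con _ (Cb_609.isPreconnected_U1.image _ H.continuous.continuousOn)) hN ?_ ?_ hPn
    ⟨_, Or.inr hz0⟩ (cconic _) ?_
  · -- open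
    have : N₁ ∪ N₂ = {z : V3 | R * |z.2| < ‖z.1‖} ∪ {z : V3 | 0 < z.2} ∪ N₁ := by
      ext z
      constructor
      · rintro (h | ⟨h1, h2⟩)
        · exact Or.inr h
        · left
          rcases h1.lt_or_eq with h | h
          · exact Or.inr h
          · left
            show R * |z.2| < ‖z.1‖
            rw [← h, abs_zero, mul_zero, norm_pos_iff]
            intro h3
            exact h2 (Prod.ext h3 h.symm)
      · rintro ((h | h) | h)
        · have h' : R * |z.2| < ‖z.1‖ := h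
          rcases lt_or_ge z.2 0 with h1 | h1
          · left
            refine ⟨h1, hX _ ?_⟩
            rw [pr, norm_smul, norm_inv, norm_neg, Real.norm_eq_abs]
            have h2 : 0 < |z.2| := abs_pos.2 h1.ne
            rw [inv_mul_eq_div, lt_div_iff₀ h2]
            exact h'
          · right
            refine ⟨h1, fun h3 => ?_⟩
            rw [h3] at h'
            simp at h'
        · have h' : 0 < z.2 := h
          exact Or.inr ⟨h'.le, fun h3 => by rw [h3] at h'; simp at h'⟩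
        · exact Or.inl h
    rw [this]
    refine ((isOpen_lt ?_ ?_).union (isOpen_lt continuous_const continuous_snd)).union
      (opn _ (H.isOpenMap _ isOpen_X1))
    · fun_prop
    · fun_prop
  · rw [disjoint_left]
    rintro z ⟨h1, h2⟩ (h3 | h3)
    · exact disjoint_left.1 hdUX h2 h3.2
    · exact absurd h1 (not_lt.2 h3.1)
  · ext z
    rw [mem_compl_iff, hC]
    constructor
    · intro h
      push Not at h
      rcases lt_or_ge z.2 0 with h1 | h1
      · rcases htri (pr z) with h2 | h2 | h2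
        · exact Or.inl ⟨h1, h2⟩
        · exact absurd h2 (h.2 h1)
        · exact Or.inr (Or.inl ⟨h1, h2⟩)
      · exact Or.inr (Or.inr ⟨h1, h.1⟩)
    · rintro (⟨h1, h2⟩ | ⟨h1, h2⟩ | ⟨h1, h2⟩) (h3 | ⟨h3, h4⟩)
      · rw [h3] at h1; simp at h1
      · exact disjoint_left.1 hdUS h2 h4
      · rw [h3] at h1; simp at h1
      · exact disjoint_left.1 hdSX h4 h2
      · exact h2 h3
      · exact absurd h3 (not_lt.2 h1)
  · rintro z (h | ⟨h1, h2⟩) t ht
    · exact Or.inl (cconic _ z h t ht)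
    · refine Or.inr ⟨?_, fun h => ?_⟩
      · rw [Prod.smul_snd, smul_eq_mul]; exact mul_nonneg ht.le h1
      · exact h2 ((smul_eq_zero.1 h).resolve_left ht.ne')

end Crest.Agent.R096.Tws_662
end

-- ▼ part R096/Tws2_662
section

/-!
# Local two-sidedness of PL surfaces, part 2 (helper662, row 96, `twoSided_of_sphere`)

`twoSidedAt_range`: the image of an injective positively homogeneous PL map `ℝ² → ℝ³` is two-sided
at the origin.
-/

set_option autoImplicit false

namespace Crest.Agent.R096.Tws_662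

open Set Metric Function Topology MeasureTheory
open Crest.Agent.R096.Pl Crest.Agent.R096.Ax_914

/-- a PL map `ℝ² → ℝ³` is not surjective -/
theorem range_ne_univ {Ψ : ℝ × ℝ → V3} (hΨ : PLMap Ψ) : range Ψ ≠ univ := by
  obtain ⟨-, G, hG, h⟩ := hΨ
  intro hu
  have h1 : (univ : Set V3) ⊆ ⋃ g ∈ G, ((AffineSubspace.map g ⊤ : AffineSubspace ℝ V3) : Set V3) := by
    rw [← hu]
    rintro _ ⟨y, rfl⟩
    obtain ⟨g, hg, e⟩ := h y
    refine mem_iUnion₂.2 ⟨g, hg, ?_⟩
    rw [AffineSubspace.coe_map, e]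
    exact ⟨y, trivial, rfl⟩
  have h2 : (Measure.addHaar : Measure V3) univ = 0 := by
    refine measure_mono_null h1 ((measure_biUnion_null_iff hG.countable).2 fun g _ => ?_)
    refine Measure.addHaar_affineSubspace _ _ fun h3 => ?_
    have h4 : Surjective g := by
      intro z
      have : z ∈ (AffineSubspace.map g ⊤ : AffineSubspace ℝ V3) := by
        rw [h3]; exact AffineSubspace.mem_top ℝ V3 z
      obtain ⟨y, -, hy⟩ := (AffineSubspace.mem_map).1 this
      exact ⟨y, hy⟩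
    have h5 : Surjective g.linear := (AffineMap.linear_surjective_iff g).2 h4
    have h6 := LinearMap.finrank_le_finrank_of_surjective h5
    simp at h6
  exact (NeZero.ne (Measure.addHaar : Measure V3)) (Measure.measure_univ_eq_zero.1 h2)

/-- a conic PL homeo of `ℝ³` moving a closed proper subset of the octahedral sphere down -/
theorem exists_conic_push {A : Set V3} (hA : IsClosed A) (hAS : A ⊆ S1 (ℝ × ℝ))
    (hne : A ≠ S1 (ℝ × ℝ)) :
    ∃ K : V3 ≃ₜ V3, PLH K ∧ K 0 = 0 ∧ (∀ z : V3, ∀ t : ℝ, 0 < t → K (t • z) = t • K z) ∧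
      ∀ p ∈ A, (K p).2 < 0 := by
  obtain ⟨K, hK, hKS, hKA⟩ := push_off hA hAS hne
  have hm : MapsTo K (S1 (ℝ × ℝ)) (S1 (ℝ × ℝ)) := fun x hx => by
    rw [← hKS]; exact mem_image_of_mem _ hx
  have hm' : MapsTo K.symm (S1 (ℝ × ℝ)) (S1 (ℝ × ℝ)) := fun x hx => by
    rw [← hKS] at hx
    obtain ⟨y, hy, rfl⟩ := hx
    rwa [K.symm_apply_apply]
  have hl : ∀ x ∈ S1 (ℝ × ℝ), K.symm (K x) = x := fun x _ => K.symm_apply_apply x
  have hr : ∀ x ∈ S1 (ℝ × ℝ), K (K.symm x) = x := fun x _ => K.apply_symm_apply x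
  have p1 : PLMap (coneExt K) :=
    PLMap_coneExt polyNorm_plane hK.1.continuous.continuousOn (hK.1.selOn _)
  have p2 : PLMap (coneExt K.symm) :=
    PLMap_coneExt polyNorm_plane hK.2.continuous.continuousOn (hK.2.selOn _)
  refine ⟨mkH (coneExt K) (coneExt K.symm) p1 p2 (coneExt_leftInv hm hl) (coneExt_leftInv hm' hr),
    PLH_mkH _ _ _ _ _ _, ?_, ?_, ?_⟩
  · rw [mkH_apply, coneExt_zero]
  · intro z t ht
    rw [mkH_apply, mkH_apply]
    unfold coneExt
    rw [N1_smul, abs_of_pos ht, mul_smul]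
    congr 3
    rw [smul_smul, mul_inv, mul_comm t⁻¹, mul_assoc, inv_mul_cancel₀ ht.ne', mul_one]
  · intro p hp
    rw [mkH_apply, coneExt_of_mem (hAS hp)]
    exact hKA p hp

/-- **the image of an injective positively homogeneous PL map `ℝ² → ℝ³` is two-sided at `0`** -/
theorem twoSidedAt_range {Ψ : ℝ × ℝ → V3} (hΨ : PLMap Ψ)
    (hh : ∀ y : ℝ × ℝ, ∀ t : ℝ, 0 ≤ t → Ψ (t • y) = t • Ψ y) (hi : Injective Ψ) :
    TwoSidedAt (range Ψ) (0 : V3) := by
  have h0 : Ψ 0 = 0 := by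
    have := hh 0 0 le_rfl
    simpa using this
  have hne0 : ∀ y, y ≠ 0 → Ψ y ≠ 0 := fun y hy h => hy (hi (h.trans h0.symm))
  have hS0 : ∀ y ∈ S1 ℝ, y ≠ 0 := by
    rintro y hy rfl
    have : N1 (0 : ℝ × ℝ) = 1 := hy
    rw [N1_zero] at this
    norm_num at this
  -- the trace on the octahedral sphere
  let A : Set V3 := (fun y => (N1 (Ψ y))⁻¹ • Ψ y) '' S1 ℝ
  have hAc : IsClosed A := by
    refine (isCompact_S1.image_of_continuousOn ?_).isClosed
    have h1 : ContinuousOn (fun y => N1 (Ψ y)) (S1 ℝ) :=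
      (N1_continuous.comp hΨ.continuous).continuousOn
    exact (h1.inv₀ fun y hy => (N1_pos (hne0 y (hS0 y hy))).ne').smul hΨ.continuous.continuousOn
  have hAS : A ⊆ S1 (ℝ × ℝ) := by
    rintro _ ⟨y, hy, rfl⟩
    exact normalize_mem (hne0 y (hS0 y hy))
  have hA : A ≠ S1 (ℝ × ℝ) := by
    intro h
    refine range_ne_univ hΨ (eq_univ_of_forall fun z => ?_)
    by_cases hz : z = 0
    · exact ⟨0, by rw [h0, hz]⟩
    · obtain ⟨y, hy, e⟩ := (h ▸ normalize_mem hz : (N1 z)⁻¹ • z ∈ A)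
      have e' : (N1 (Ψ y))⁻¹ • Ψ y = (N1 z)⁻¹ • z := e
      have hz' := N1_pos hz
      refine ⟨(N1 z * (N1 (Ψ y))⁻¹) • y, ?_⟩
      have h2 := N1_pos (hne0 y (hS0 y hy))
      rw [hh _ _ (by positivity), mul_smul, e', smul_smul, mul_inv_cancel₀ hz'.ne', one_smul]
  obtain ⟨K, hK, hK0, hKh, hKA⟩ := exists_conic_push hAc hAS hA
  let Φ : ℝ × ℝ → V3 := fun y => K (Ψ y)
  have hΦ : PLMap Φ := hK.1.comp hΨ
  have hΦi : Injective Φ := K.injective.comp hi
  have hΦh : ∀ y : ℝ × ℝ, ∀ t : ℝ, 0 ≤ t → Φ (t • y) = t • Φ y := by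
    intro y t ht
    rcases ht.lt_or_eq with h | h
    · show K (Ψ (t • y)) = t • K (Ψ y)
      rw [hh _ _ ht, hKh _ _ h]
    · show K (Ψ (t • y)) = t • K (Ψ y)
      rw [← h, zero_smul, zero_smul, h0, hK0]
  have hΦn : ∀ y ∈ S1 ℝ, (Φ y).2 < 0 := by
    intro y hy
    have h1 := hKA _ (mem_image_of_mem (fun y => (N1 (Ψ y))⁻¹ • Ψ y) hy)
    have h2 := N1_pos (hne0 y (hS0 y hy))
    rw [hKh _ _ (by positivity), Prod.smul_snd, smul_eq_mul] at h1
    by_contra h3
    exact absurd h1 (not_lt.2 (mul_nonneg (by positivity) (not_lt.1 h3)))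
  obtain ⟨n, v, hv, hset⟩ := exists_poly_of_injOn hΦ hΦi.injOn
  have hvn : ∀ i, (v i).2 < 0 := by
    intro i
    have : v i ∈ polySet v := mem_polySet.2 ⟨i, left_mem_edge v i⟩
    rw [hset] at this
    obtain ⟨y, hy, e⟩ := this
    rw [← e]; exact hΦn y hy
  have hray : ∀ x ∈ polySet v, ∀ y ∈ polySet v, ∀ t : ℝ, 0 < t → x = t • y → x = y := by
    rw [hset]
    rintro _ ⟨y, hy, rfl⟩ _ ⟨y', hy', rfl⟩ t ht e
    rw [← hΦh _ _ ht.le] at e
    have h1 := hΦi e
    have h2 : N1 y = 1 := hy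
    have h3 : N1 y' = 1 := hy'
    rw [h1, N1_smul, h3, mul_one, abs_of_pos ht] at h2
    rw [h1, h2, one_smul]
  have key := twoSidedAt_cone hv hvn hray
  have hcone : coneOf (polySet v) = K '' range Ψ := by
    rw [hset]
    ext z
    constructor
    · rintro ⟨t, ht, _, ⟨y, hy, rfl⟩, rfl⟩
      rw [← hΦh _ _ ht]
      exact ⟨Ψ (t • y), ⟨_, rfl⟩, rfl⟩
    · rintro ⟨_, ⟨y, rfl⟩, rfl⟩
      by_cases hy : y = 0
      · refine ⟨0, le_rfl, Φ (1, 0), ⟨(1, 0), ?_, rfl⟩, ?_⟩
        · show N1 _ = 1; simp [N1]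
        · rw [hy, h0, hK0, zero_smul]
      · have h1 := N1_pos hy
        refine ⟨N1 y, h1.le, Φ ((N1 y)⁻¹ • y), ⟨_, normalize_mem hy, rfl⟩, ?_⟩
        rw [← hΦh _ _ h1.le, smul_smul, mul_inv_cancel₀ h1.ne', one_smul]
  rw [hcone, ← hK0] at key
  exact (TwoSidedAt.map_iff K).1 key

end Crest.Agent.R096.Tws_662
end

-- ▼ part R096/Tws3_662

/-!
# Local two-sidedness of PL surfaces, part 3 (helper662, row 96, `twoSided_of_sphere`)

`twoSidedAt_of_chart`, `twoSidedAt_of_isBall`, `twoSided_of_sphere`.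
-/

set_option autoImplicit false

namespace Crest.Agent.R096.Tws_662

open Set Metric Function Topology Filter
open Crest.Agent.R096.Pl Crest.Agent.R096.Ax_914 Crest.Agent.R096.Ce_537

/-! ### germs of PL maps are positively homogeneous -/

section Germ

variable {V W : Type*} [NormedAddCommGroup V] [NormedSpace ℝ V] [FiniteDimensional ℝ V]
  [NormedAddCommGroup W] [NormedSpace ℝ W]

omit [FiniteDimensional ℝ V] in
theorem affine_lin (g : V →ᵃ[ℝ] W) (h : g 0 = 0) (t : ℝ) (y : V) : g (t • y) = t • g y := by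
  have e : ∀ z, g z = g.linear z := fun z => by
    have := g.map_vadd 0 z
    simpa [h] using this
  rw [e, e, map_smul]

/-- a PL map with `F 0 = 0` is positively homogeneous near `0` -/
theorem exists_homogeneous {F : V → W} {r : ℝ} (hr : 0 < r) (hF : PLOn F (closedBall 0 r))
    (h0 : F 0 = 0) : ∃ r' > 0, r' ≤ r ∧ ∃ S : Finset (V →ᵃ[ℝ] W), (∀ g ∈ S, g 0 = 0) ∧
      (∀ y, ‖y‖ ≤ r' → ∃ g ∈ S, F y = g y) ∧
      ∀ y, ‖y‖ ≤ r' → ∀ t : ℝ, 0 ≤ t → t ≤ 1 → F (t • y) = t • F y := by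
  classical
  obtain ⟨hc, S, hS⟩ := hF
  have hm0 : (0 : V) ∈ closedBall (0 : V) r := mem_closedBall_self hr.le
  have hca : ContinuousAt F 0 := hc.continuousAt (closedBall_mem_nhds _ hr)
  -- near `0` only the linear pieces occur
  have h1 : ∀ᶠ y in 𝓝 (0 : V), ∀ g ∈ S, g 0 ≠ 0 → F y ≠ g y := by
    rw [Filter.eventually_all_finset]
    intro g hg
    by_cases hg0 : g 0 = 0
    · exact Eventually.of_forall fun y h => absurd hg0 h
    · have h2 : Tendsto (fun y => F y - g y) (𝓝 0) (𝓝 (F 0 - g 0)) :=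
        hca.sub (g.continuous_of_finiteDimensional.tendsto 0)
      rw [h0, zero_sub] at h2
      filter_upwards [h2.eventually (isOpen_compl_singleton.mem_nhds
        (show -g 0 ∈ ({0}ᶜ : Set W) by simpa using hg0))] with y hy _ h
      exact hy (by simp [h])
  obtain ⟨δ, hδ, hball⟩ := Metric.eventually_nhds_iff.1 h1
  set r' := min r (δ / 2) with hr'
  have hr0 : 0 < r' := lt_min hr (by linarith)
  have hsel : ∀ y, ‖y‖ ≤ r' → ∃ g ∈ S.filter (fun g => g 0 = 0), F y = g y := by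
    intro y hy
    obtain ⟨g, hg, e⟩ := hS y (by simpa using hy.trans (min_le_left _ _))
    refine ⟨g, Finset.mem_filter.2 ⟨hg, ?_⟩, e⟩
    by_contra hne
    refine hball (y := y) ?_ g hg hne e
    rw [dist_zero_right]
    exact lt_of_le_of_lt (hy.trans (min_le_right _ _)) (by linarith)
  refine ⟨r', hr0, min_le_left _ _, S.filter (fun g => g 0 = 0),
    fun g hg => (Finset.mem_filter.1 hg).2, hsel, ?_⟩
  intro y hy t ht ht1
  rcases ht.lt_or_eq with ht | ht
  swap
  · rw [← ht, zero_smul, zero_smul, h0]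
  -- the finite set of values of `t⁻¹ F (t y)`
  let T : Set W := (fun g : V →ᵃ[ℝ] W => g y) '' (S : Set (V →ᵃ[ℝ] W))
  have hT : T.Finite := S.finite_toSet.image _
  have hny : ∀ s : ℝ, s ∈ Ioc (0 : ℝ) 1 → ‖s • y‖ ≤ r' := by
    intro s hs
    rw [norm_smul, Real.norm_eq_abs, abs_of_pos hs.1]
    nlinarith [norm_nonneg y, hs.2, hs.1]
  have hcont : ContinuousOn (fun s : ℝ => s⁻¹ • F (s • y)) (Ioc 0 1) := by
    refine (continuousOn_id.inv₀ fun s hs => hs.1.ne').smul ?_
    refine hc.comp (by fun_prop) fun s hs => ?_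
    simpa using (hny s hs).trans (min_le_left _ _)
  have hmaps : MapsTo (fun s : ℝ => s⁻¹ • F (s • y)) (Ioc 0 1) T := by
    intro s hs
    obtain ⟨g, hg, e⟩ := hsel (s • y) (hny s hs)
    have hg' := Finset.mem_filter.1 hg
    refine ⟨g, hg'.1, ?_⟩
    show g y = s⁻¹ • F (s • y)
    rw [e, affine_lin g hg'.2, smul_smul, inv_mul_cancel₀ hs.1.ne', one_smul]
  obtain ⟨c, -, hcst⟩ := isPreconnected_Ioc.eqOn_const_of_mapsTo hT.isDiscrete hcont hmaps
    ⟨_, hmaps (show (1 : ℝ) ∈ Ioc (0 : ℝ) 1 by simp)⟩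
  have e1 := hcst (show t ∈ Ioc (0 : ℝ) 1 from ⟨ht, ht1⟩)
  have e2 := hcst (show (1 : ℝ) ∈ Ioc (0 : ℝ) 1 by simp)
  simp only [const_apply, inv_one, one_smul] at e1 e2
  rw [← e2] at e1
  rw [← e1, smul_smul, mul_inv_cancel₀ ht.ne', one_smul]

/-- the positively homogeneous extension of a germ -/
theorem exists_extension {F : V → W} {r : ℝ} (hr : 0 < r) (hF : PLOn F (closedBall 0 r))
    (h0 : F 0 = 0) (hi : InjOn F (closedBall 0 r)) : ∃ r' > 0, r' ≤ r ∧ ∃ Ψ : V → W, PLMap Ψ ∧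
      Injective Ψ ∧ (∀ y : V, ∀ t : ℝ, 0 ≤ t → Ψ (t • y) = t • Ψ y) ∧
      ∀ y, ‖y‖ ≤ r' → Ψ y = F y := by
  classical
  obtain ⟨r', hr', hrr, S, hS0, hsel, hhom⟩ := exists_homogeneous hr hF h0
  let lam : V → ℝ := fun y => r' / (1 + ‖y‖)
  have hlam : ∀ y, 0 < lam y := fun y => div_pos hr' (by positivity)
  have hlamn : ∀ y, ‖lam y • y‖ ≤ r' := by
    intro y
    have h1 : 0 < 1 + ‖y‖ := by positivity
    rw [norm_smul, Real.norm_eq_abs, abs_of_pos (hlam y), div_mul_eq_mul_div, div_le_iff₀ h1]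
    nlinarith [norm_nonneg y]
  let Ψ : V → W := fun y => (lam y)⁻¹ • F (lam y • y)
  have mono : ∀ y : V, ∀ a b : ℝ, 0 < a → a ≤ b → ‖b • y‖ ≤ r' →
      a⁻¹ • F (a • y) = b⁻¹ • F (b • y) := by
    intro y a b ha hab hb
    have hb0 : 0 < b := ha.trans_le hab
    have h1 := hhom (b • y) hb (a / b) (by positivity) ((div_le_one hb0).2 hab)
    rw [smul_smul, div_mul_cancel₀ _ hb0.ne'] at h1
    rw [h1, smul_smul]
    congr 1
    field_simp
  have key : ∀ y : V, ∀ a : ℝ, 0 < a → ‖a • y‖ ≤ r' → Ψ y = a⁻¹ • F (a • y) := by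
    intro y a ha hay
    rcases le_total a (lam y) with h | h
    · exact (mono y a (lam y) ha h (hlamn y)).symm
    · exact mono y (lam y) a (hlam y) h hay
  have hcont : Continuous Ψ := by
    have h1 : Continuous lam := continuous_const.div (by fun_prop) fun y => by positivity
    refine (h1.inv₀ fun y => (hlam y).ne').smul ?_
    exact hF.1.comp_continuous (h1.smul continuous_id) fun y => by
      simpa using (hlamn y).trans hrr
  refine ⟨r', hr', hrr, Ψ, ⟨hcont, (S : Set (V →ᵃ[ℝ] W)), S.finite_toSet, fun y => ?_⟩, ?_, ?_, ?_⟩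
  · obtain ⟨g, hg, e⟩ := hsel (lam y • y) (hlamn y)
    refine ⟨g, hg, ?_⟩
    show (lam y)⁻¹ • F (lam y • y) = g y
    rw [e, affine_lin g (hS0 g hg), smul_smul, inv_mul_cancel₀ (hlam y).ne', one_smul]
  · intro y y' h
    set a := r' / (1 + ‖y‖ + ‖y'‖) with ha
    have hd : 0 < 1 + ‖y‖ + ‖y'‖ := by positivity
    have ha0 : 0 < a := div_pos hr' hd
    have h1 : ‖a • y‖ ≤ r' := by
      rw [norm_smul, Real.norm_eq_abs, abs_of_pos ha0, ha, div_mul_eq_mul_div, div_le_iff₀ hd]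
      nlinarith [norm_nonneg y, norm_nonneg y']
    have h2 : ‖a • y'‖ ≤ r' := by
      rw [norm_smul, Real.norm_eq_abs, abs_of_pos ha0, ha, div_mul_eq_mul_div, div_le_iff₀ hd]
      nlinarith [norm_nonneg y, norm_nonneg y']
    rw [key y a ha0 h1, key y' a ha0 h2] at h
    have h3 : F (a • y) = F (a • y') := by
      have := congrArg (fun w => a • w) h
      simpa [smul_smul, mul_inv_cancel₀ ha0.ne'] using this
    have h4 := hi (by simpa using h1.trans hrr) (by simpa using h2.trans hrr) h3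
    have := congrArg (fun w => a⁻¹ • w) h4
    simpa [smul_smul, inv_mul_cancel₀ ha0.ne'] using this
  · intro y t ht
    rcases ht.lt_or_eq with ht | ht
    · have h1 := key y (lam (t • y) * t) (mul_pos (hlam _) ht) (by
        rw [mul_smul]; exact hlamn _)
      rw [h1]
      show (lam (t • y))⁻¹ • F (lam (t • y) • (t • y)) = _
      rw [smul_smul, smul_smul]
      congr 1
      have := (hlam (t • y)).ne'
      field_simp
    · rw [← ht, zero_smul, zero_smul]
      show (lam 0)⁻¹ • F (lam 0 • 0) = 0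
      rw [smul_zero, h0, smul_zero]
  · intro y hy
    rw [key y 1 one_pos (by simpa using hy), inv_one, one_smul, one_smul]

end Germ

/-! ### charts -/

section Chart

variable {E : Type*} [NormedAddCommGroup E] [NormedSpace ℝ E] [FiniteDimensional ℝ E]

/-- **a set of 3-space with a PL chart at `x` is two-sided at `x`** -/
theorem twoSidedAt_of_chart (h3 : Module.finrank ℝ E = 3) {S : Set E} {x : E}
    {F : ℝ × ℝ → E} {r : ℝ} (hr : 0 < r) (hF : PLOn F (closedBall 0 r))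
    (hi : InjOn F (closedBall 0 r)) (h0 : F 0 = x) (hm : MapsTo F (closedBall 0 r) S)
    (hn : F '' closedBall 0 r ∈ 𝓝[S] x) : TwoSidedAt S x := by
  classical
  have hfr : Module.finrank ℝ E = Module.finrank ℝ V3 := by rw [h3]; simp
  let L : E ≃L[ℝ] V3 := ContinuousLinearEquiv.ofFinrankEq hfr
  let Φ : E ≃ₜ V3 := (Homeomorph.subRight x).trans L.toHomeomorph
  have hΦ : ∀ z, Φ z = L (z - x) := fun z => rfl
  have hΦx : Φ x = 0 := by rw [hΦ, sub_self, map_zero]
  let F' : ℝ × ℝ → V3 := fun y => L (F y - x)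
  have hF' : PLOn F' (closedBall 0 r) := by
    obtain ⟨hc, T, hT⟩ := hF
    refine ⟨L.continuous.comp_continuousOn (hc.sub continuousOn_const),
      T.image (fun g => (L.toLinearMap.toAffineMap.comp
        ((AffineMap.id ℝ E) - AffineMap.const ℝ E x)).comp g), ?_⟩
    intro y hy
    obtain ⟨g, hg, e⟩ := hT y hy
    refine ⟨_, Finset.mem_image_of_mem _ hg, ?_⟩
    show L (F y - x) = _
    rw [e]
    simp
  have hF'0 : F' 0 = 0 := by show L (F 0 - x) = 0; rw [h0, sub_self, map_zero]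
  have hF'i : InjOn F' (closedBall 0 r) := by
    intro y hy y' hy' h
    have h1 : F y - x = F y' - x := L.injective h
    exact hi hy hy' (sub_left_injective h1)
  obtain ⟨r', hr', hrr, Ψ, hΨ, hΨi, hΨh, hΨF⟩ := exists_extension hr hF' hF'0 hF'i
  have key := twoSidedAt_range hΨ hΨh hΨi
  have hΨ0 : Ψ 0 = 0 := by simpa using hΨh 0 0 le_rfl
  -- lower bound
  obtain ⟨c, hc, hcb⟩ : ∃ c > 0, ∀ y, c * ‖y‖ ≤ ‖Ψ y‖ := by
    have hcomp : IsCompact (sphere (0 : ℝ × ℝ) 1) := isCompact_sphere _ _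
    have hne : (sphere (0 : ℝ × ℝ) 1).Nonempty := NormedSpace.sphere_nonempty.2 zero_le_one
    obtain ⟨y₀, hy₀, hmin⟩ := hcomp.exists_isMinOn hne hΨ.continuous.norm.continuousOn
    have hy1 : ‖y₀‖ = 1 := by simpa using hy₀
    have hpos : 0 < ‖Ψ y₀‖ := by
      rw [norm_pos_iff]
      intro h
      have : y₀ = 0 := hΨi (h.trans hΨ0.symm)
      rw [this, norm_zero] at hy1
      norm_num at hy1
    refine ⟨‖Ψ y₀‖, hpos, fun y => ?_⟩
    rcases eq_or_ne y 0 with rfl | hy
    · simp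
    · have hny : 0 < ‖y‖ := norm_pos_iff.2 hy
      have h1 : ‖y‖⁻¹ • y ∈ sphere (0 : ℝ × ℝ) 1 := by
        simp [norm_smul, inv_mul_cancel₀ hny.ne']
      have h2 : ‖Ψ y₀‖ ≤ ‖Ψ (‖y‖⁻¹ • y)‖ := hmin h1
      rw [hΨh _ _ (by positivity), norm_smul, norm_inv, norm_norm, inv_mul_eq_div,
        le_div_iff₀ hny] at h2
      exact h2
  -- points of `S` near `x` come from the small ball
  obtain ⟨ε₁, hε₁, hsmall⟩ : ∃ ε > 0, ∀ s ∈ S, dist s x < ε → ∃ y, ‖y‖ ≤ r' ∧ F y = s := by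
    have hcl : IsClosed (F '' (closedBall 0 r \ ball 0 r')) := by
      refine (((isCompact_closedBall (0 : ℝ × ℝ) r).diff isOpen_ball).image_of_continuousOn
        (hF.1.mono sdiff_subset)).isClosed
    have hx : x ∉ F '' (closedBall 0 r \ ball 0 r') := by
      rintro ⟨y, ⟨hy, hy'⟩, e⟩
      have : y = 0 := hi hy (mem_closedBall_self hr.le) (e.trans h0.symm)
      rw [this] at hy'
      exact hy' (mem_ball_self hr')
    have h1 : F '' closedBall 0 r ∩ (F '' (closedBall 0 r \ ball 0 r'))ᶜ ∈ 𝓝[S] x :=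
      inter_mem hn (mem_nhdsWithin_of_mem_nhds (hcl.isOpen_compl.mem_nhds hx))
    obtain ⟨ε, hε, hb⟩ := Metric.mem_nhdsWithin_iff.1 h1
    refine ⟨ε, hε, fun s hs hd => ?_⟩
    obtain ⟨⟨y, hy, e⟩, h2⟩ := hb ⟨hd, hs⟩
    refine ⟨y, ?_, e⟩
    by_contra h3
    exact h2 ⟨y, ⟨hy, by simpa using (not_le.1 h3).le⟩, e⟩
  have hV : Φ '' ball x ε₁ ∩ ball 0 (c * r') ∈ 𝓝 (0 : V3) := by
    refine inter_mem ?_ (ball_mem_nhds _ (mul_pos hc hr'))
    rw [← hΦx]
    exact Φ.isOpenMap.image_mem_nhds (ball_mem_nhds _ hε₁)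
  have h4 : TwoSidedAt (Φ '' S) 0 := by
    refine key.congr hV ?_
    ext z
    constructor
    · rintro ⟨⟨y, rfl⟩, hz, hz'⟩
      refine ⟨?_, hz, hz'⟩
      have h5 : ‖Ψ y‖ < c * r' := by simpa using hz'
      have h6 : ‖y‖ ≤ r' := (lt_of_mul_lt_mul_left ((hcb y).trans_lt h5) hc.le).le
      rw [hΨF y h6]
      exact ⟨F y, hm (by simpa using h6.trans hrr), rfl⟩
    · rintro ⟨⟨s, hs, rfl⟩, hz, hz'⟩
      refine ⟨?_, hz, hz'⟩
      obtain ⟨s', hs', e⟩ := hz
      have : s' = s := Φ.injective e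
      subst this
      obtain ⟨y, hy, rfl⟩ := hsmall s' hs hs'
      exact ⟨y, hΨF y hy⟩
  rw [← hΦx] at h4
  exact (TwoSidedAt.map_iff Φ).1 h4

end Chart

end Crest.Agent.R096.Tws_662
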