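import Crest.Agent.R096.Arc7_778
import Crest.Agent.R096.Bd15_416
import Crest.Agent.R096.Shp4_334
import Crest.Agent.R096.Shg0_334
import Crest.Agent.R096.Shp5_334
import Crest.Agent.R096.GpZ_702

-- ▼ part R096/Shg1_334
section

/-!
# R096 (row 96), ARR-SH (helper334), GIANT part 1: one sheet and the giant cells

`GQ B` = the cells `Q` outside the cores and one 3-cell for every core `c : 𝒢` (`B.bq c` = the cells
of the boundary of the core).
* `cplxG` : the complex `GQ B`;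
* `cmbG`  : the combinatorics of the ONE sheet `j` (a core has one piece if the sheet meets its
  boundary);
* `invG`  : 416's invariant on the old cells.
-/

set_option autoImplicit false
set_option linter.unusedSectionVars false

open Set Metric

namespace Crest.Agent.R096.Shg_334

open Crest.Agent.R096.Ce_537 Crest.Agent.R096.Bd_416 Crest.Agent.R096.Shp_334

open scoped Classical

/-- the cells of the boundaries of the cores -/
structure BdD (Q 𝒢 : Type) [PartialOrder Q] where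
  bq : 𝒢 → Set Q
  down : ∀ c p q, p ≤ q → q ∈ bq c → p ∈ bq c

/-- old cells and giant cells -/
inductive GQ {Q 𝒢 : Type} [PartialOrder Q] (B : BdD Q 𝒢) : Type
  | old (q : Q) : GQ B
  | big (c : 𝒢) : GQ B

section order

variable {Q 𝒢 : Type} [PartialOrder Q] {B : BdD Q 𝒢}

/-- the order -/
def GQ.le' : GQ B → GQ B → Prop
  | .old q, .old q' => q ≤ q'
  | .old q, .big c => q ∈ B.bq c
  | .big c, .big c' => c = c'
  | .big _, .old _ => False

instance : PartialOrder (GQ B) where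
  le := GQ.le'
  le_refl q := by
    cases q with
    | old q => exact le_refl q
    | big c => exact rfl
  le_trans q q' q'' h h' := by
    cases q with
    | old q =>
      cases q' with
      | old q' =>
        cases q'' with
        | old q'' => exact le_trans (show q ≤ q' from h) h'
        | big c => exact B.down c q q' h h'
      | big c =>
        cases q'' with
        | old q'' => exact (h' : False).elim
        | big c' =>
          have h1 : c = c' := h'
          subst h1; exact h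
    | big c =>
      cases q' with
      | old q' => exact (h : False).elim
      | big c' =>
        have h1 : c = c' := h
        subst h1; exact h'
  le_antisymm q q' h h' := by
    cases q with
    | old q =>
      cases q' with
      | old q' => exact congrArg _ (le_antisymm (show q ≤ q' from h) h')
      | big c => exact (h' : False).elim
    | big c =>
      cases q' with
      | old q' => exact (h : False).elim
      | big c' => exact congrArg _ h


lemma old_lt {q q' : Q} : (GQ.old q : GQ B) < .old q' ↔ q < q' := by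
  rw [lt_iff_le_not_ge, lt_iff_le_not_ge]; exact Iff.rfl

lemma old_lt_big {q : Q} {c : 𝒢} : (GQ.old q : GQ B) < .big c ↔ q ∈ B.bq c := by
  rw [lt_iff_le_not_ge]
  exact ⟨fun h => h.1, fun h => ⟨h, fun h' => h'⟩⟩

lemma not_big_lt {c : 𝒢} {q : GQ B} : ¬ ((GQ.big c : GQ B) < q) := by
  intro h
  cases q with
  | old q => exact h.le
  | big c' =>
    have h1 : c = c' := h.le
    subst h1; exact lt_irrefl _ h

end order

/-- dimensions -/
def dimG {Q 𝒢 : Type} [PartialOrder Q] (B : BdD Q 𝒢) (dim : Q → ℕ) : GQ B → ℕ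
  | .old q => dim q
  | .big _ => 3

/-- the sets -/
def KG {Q 𝒢 : Type} [PartialOrder Q] (B : BdD Q 𝒢) {E : Type*} (K : Q → Set E) (Kt : 𝒢 → Set E) :
    GQ B → Set E
  | .old q => K q
  | .big c => Kt c

section cplx

variable {Q 𝒢 : Type} [PartialOrder Q] {B : BdD Q 𝒢} {dim : Q → ℕ}
variable {E : Type*} [NormedAddCommGroup E] [NormedSpace ℝ E] {K : Q → Set E} {Kt : 𝒢 → Set E}
  {Ω0 Ω : Set E}

/-- **geometric input**: the cores are PL balls whose boundary is a union of cells -/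
structure GC (Ω0 Ω : Set E) (dim : Q → ℕ) (K : Q → Set E) (B : BdD Q 𝒢) (Kt : 𝒢 → Set E) :
    Prop where
  sub0 : Ω0 ⊆ Ω
  sub : ∀ c, Kt c ⊆ Ω
  cov : Ω ⊆ Ω0 ∪ ⋃ c, Kt c
  ball : ∀ c, IsBall 3 (Kt c) (⋃ q ∈ B.bq c, K q)
  dim_lt : ∀ c, ∀ q ∈ B.bq c, dim q < 3
  inter : ∀ c, Kt c ∩ Ω0 ⊆ ⋃ q ∈ B.bq c, K q
  disj : ∀ c c', c ≠ c' → Kt c ∩ Kt c' ⊆ Ω0
  near : ∀ x ∈ Ω, x ∉ Ω0 → ∃ r > (0:ℝ), Disjoint Ω0 (Metric.ball x r)
  lf : ∀ x ∈ Ω, ∃ r > (0:ℝ), {c | (Kt c ∩ Metric.ball x r).Nonempty}.Finite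

lemma below_old {q : Q} : (⋃ j ∈ {j : GQ B | j < .old q}, KG B K Kt j) = ⋃ p ∈ {p | p < q}, K p := by
  ext x
  simp only [mem_iUnion, mem_ofPred_eq, exists_prop]
  constructor
  · rintro ⟨j, hj, hx⟩
    cases j with
    | old p => exact ⟨p, old_lt.1 hj, hx⟩
    | big c => exact absurd hj not_big_lt
  · rintro ⟨p, hp, hx⟩
    exact ⟨.old p, old_lt.2 hp, hx⟩

lemma below_big {c : 𝒢} : (⋃ j ∈ {j : GQ B | j < .big c}, KG B K Kt j) = ⋃ q ∈ B.bq c, K q := by
  ext x
  simp only [mem_iUnion, mem_ofPred_eq, exists_prop]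
  constructor
  · rintro ⟨j, hj, hx⟩
    cases j with
    | old p => exact ⟨p, old_lt_big.1 hj, hx⟩
    | big c => exact absurd hj not_big_lt
  · rintro ⟨p, hp, hx⟩
    exact ⟨.old p, old_lt_big.2 hp, hx⟩

lemma bdS_old {q : Q} : bdS (KG B K Kt) (.old q) = bdS K q := below_old
lemma bdS_big {c : 𝒢} : bdS (KG B K Kt) (.big c) = ⋃ q ∈ B.bq c, K q := below_big

/-- **the complex with the giant cells** -/
theorem cplxG (X : Cplx Ω0 Q dim K) (G : GC Ω0 Ω dim K B Kt) :
    Cplx Ω (GQ B) (dimG B dim) (KG B K Kt) where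
  isBall i := by
    cases i with
    | old q => rw [below_old]; exact X.isBall q
    | big c => rw [below_big]; exact G.ball c
  mono i j h := by
    cases j with
    | big c => exact absurd h not_big_lt
    | old q =>
      cases i with
      | old p => exact X.mono _ _ (old_lt.1 h)
      | big c => exact G.dim_lt c q (old_lt_big.1 h)
  disj i j x hi hj := by
    have key : ∀ (c : 𝒢), Opn (KG B K Kt) (.big c) x → x ∉ Ω0 := by
      intro c hc h0
      obtain ⟨p, hp, hx⟩ := mem_iUnion₂.1 (G.inter c ⟨hc.1, h0⟩)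
      exact hc.2 (.old p) (old_lt_big.2 hp) hx
    cases i with
    | old q =>
      cases j with
      | old q' =>
        refine congrArg _ (X.disj q q' x ⟨hi.1, fun p hp h => hi.2 (.old p) (old_lt.2 hp) h⟩
          ⟨hj.1, fun p hp h => hj.2 (.old p) (old_lt.2 hp) h⟩)
      | big c => exact absurd (X.sub q hi.1) (key c hj)
    | big c =>
      cases j with
      | old q => exact absurd (X.sub q hj.1) (key c hi)
      | big c' =>
        by_contra hne
        have h1 : c ≠ c' := fun h => hne (congrArg _ h)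
        exact key c hi (G.disj c c' h1 ⟨hi.1, hj.1⟩)
  sub i := by
    cases i with
    | old q => exact (X.sub q).trans G.sub0
    | big c => exact G.sub c
  cover x hx := by
    rcases G.cov hx with h | h
    · obtain ⟨q, hq⟩ := X.cover x h
      exact ⟨.old q, hq⟩
    · obtain ⟨c, hc⟩ := mem_iUnion.1 h
      exact ⟨.big c, hc⟩
  lf x hx := by
    obtain ⟨r, hr, hf⟩ := G.lf x hx
    have h0 : ∃ s > (0:ℝ), {q | (K q ∩ Metric.ball x s).Nonempty}.Finite := by
      by_cases h : x ∈ Ω0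
      · exact X.lf x h
      · obtain ⟨s, hs, hd⟩ := G.near x hx h
        refine ⟨s, hs, ?_⟩
        have : {q | (K q ∩ Metric.ball x s).Nonempty} = ∅ := by
          refine eq_empty_of_forall_notMem fun q hq => ?_
          obtain ⟨y, hy1, hy2⟩ := hq
          exact disjoint_left.1 hd (X.sub q hy1) hy2
        rw [this]; exact finite_empty
    obtain ⟨s, hs, hfs⟩ := h0
    refine ⟨min r s, lt_min hr hs, ?_⟩
    refine ((hfs.image GQ.old).union (hf.image GQ.big)).subset ?_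
    rintro i ⟨y, hy1, hy2⟩
    cases i with
    | old q =>
      exact Or.inl ⟨q, ⟨y, hy1, ball_subset_ball (min_le_right _ _) hy2⟩, rfl⟩
    | big c =>
      exact Or.inr ⟨c, ⟨y, hy1, ball_subset_ball (min_le_left _ _) hy2⟩, rfl⟩

end cplx

/-! ### the combinatorics of one sheet -/

section sums

lemma prod_sub {α M : Type*} [CommMonoid M] [Fintype α] {p : α → Prop} [Fintype {a // p a}]
    {P : {a // p a} → Prop} {P' : α → Prop} (f : α → M)
    (h : ∀ a (ha : p a), P ⟨a, ha⟩ ↔ P' a) (h' : ∀ a, P' a → p a) :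
    ∏ y : {a // p a} with P y, f y.1 = ∏ a : α with P' a, f a := by
  refine Finset.prod_bij (fun y _ => y.1) ?_ ?_ ?_ ?_
  · intro y hy
    rw [Finset.mem_filter] at hy ⊢
    exact ⟨Finset.mem_univ _, (h y.1 y.2).1 hy.2⟩
  · intro y _ y' _ he
    exact Subtype.ext he
  · intro a ha
    rw [Finset.mem_filter] at ha
    exact ⟨⟨a, h' a ha.2⟩, Finset.mem_filter.2 ⟨Finset.mem_univ _, (h a _).2 ha.2⟩, rfl⟩
  · intro y _
    rfl

lemma sum_sub {α M : Type*} [AddCommMonoid M] [Fintype α] {p : α → Prop} [Fintype {a // p a}]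
    {P : {a // p a} → Prop} {P' : α → Prop} (f : α → M)
    (h : ∀ a (ha : p a), P ⟨a, ha⟩ ↔ P' a) (h' : ∀ a, P' a → p a) :
    ∑ y : {a // p a} with P y, f y.1 = ∑ a : α with P' a, f a := by
  refine Finset.sum_bij (fun y _ => y.1) ?_ ?_ ?_ ?_
  · intro y hy
    rw [Finset.mem_filter] at hy ⊢
    exact ⟨Finset.mem_univ _, (h y.1 y.2).1 hy.2⟩
  · intro y _ y' _ he
    exact Subtype.ext he
  · intro a ha
    rw [Finset.mem_filter] at ha
    exact ⟨⟨a, h' a ha.2⟩, Finset.mem_filter.2 ⟨Finset.mem_univ _, (h a _).2 ha.2⟩, rfl⟩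
  · intro y _
    rfl

end sums

section cmb

variable {Q 𝒢 : Type} [PartialOrder Q] {dim : Q → ℕ} {J Fam : Type}

/-- the pieces of the sheet `j` -/
def GI (C : Cmb Q dim J Fam) (j : J) (B : BdD Q 𝒢) : GQ B → Type
  | .old q => {x : C.I q // C.col q x = j}
  | .big c => PLift (∃ q ∈ B.bq c, ∃ x : C.I q, C.col q x = j)

noncomputable instance (C : Cmb Q dim J Fam) (j : J) (B : BdD Q 𝒢) (q : GQ B) :
    Fintype (GI C j B q) :=
  match q with
  | .old q => inferInstanceAs (Fintype {x : C.I q // C.col q x = j})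
  | .big c =>
    show Fintype (PLift (∃ q ∈ B.bq c, ∃ x : C.I q, C.col q x = j)) from Fintype.ofFinite _

lemma gi_big_subsingleton {C : Cmb Q dim J Fam} {j : J} {B : BdD Q 𝒢} {c : 𝒢}
    (x x' : GI C j B (.big c)) : x = x' := by
  obtain ⟨x⟩ := x
  obtain ⟨x'⟩ := x'
  rfl

/-- base vertices of the cores, constant labels on cores which do not meet the sheet -/
structure GO (C : Cmb Q dim J Fam) (j : J) (B : BdD Q 𝒢) (o : 𝒢 → Q) : Prop where
  o_mem : ∀ c, o c ∈ B.bq c
  o_dim : ∀ c, dim (o c) = 0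
  const : ∀ c, (∀ q ∈ B.bq c, ∀ x : C.I q, C.col q x ≠ j) →
    ∀ q ∈ B.bq c, C.Lab j q = C.Lab j (o c)

variable (C : Cmb Q dim J Fam) (j : J) (B : BdD Q 𝒢) (o : 𝒢 → Q)

/-- the piece of a bigger cell -/
def upG : ∀ {p q : GQ B}, p < q → GI C j B p → GI C j B q
  | .old _, .old _, h, x => ⟨C.up (old_lt.1 h) x.1, (C.col_up (old_lt.1 h) x.1).trans x.2⟩
  | .old p, .big _, h, x => ⟨⟨p, old_lt_big.1 h, x.1, x.2⟩⟩
  | .big _, _, h, _ => absurd h not_big_lt

/-- labels of base vertices -/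
noncomputable def sG : ∀ {p q : GQ B}, p < q → GI C j B q → ZMod 2
  | .old _, .old _, h, x => C.s (old_lt.1 h) x.1
  | .old p, .big c, _, _ => C.Lab j p + C.Lab j (o c)
  | .big _, _, _, _ => 0

/-- base vertices -/
def oG : GQ B → GQ B
  | .old q => .old (C.o q)
  | .big c => .old (o c)

/-- labels -/
def LabG : GQ B → ZMod 2
  | .old q => C.Lab j q
  | .big c => C.Lab j (o c)

/-- sides -/
def sideG : ∀ q : GQ B, GI C j B q → GI C j B q → ZMod 2
  | .old q, x, x' => C.side q x.1 x'.1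
  | .big _, _, _ => 0

variable {C j B o}

lemma add_self2 (a : ZMod 2) : a + a = 0 := CharTwo.add_self_eq_zero a

/-- **the combinatorics of the sheet `j` with giant cells** -/
noncomputable def cmbG (O : GO C j B o) : Cmb (GQ B) (dimG B dim) Unit Unit where
  I := GI C j B
  fin := fun _ => inferInstance
  col _ _ := ()
  fam _ := ()
  up h x := upG C j B h x
  col_up _ _ := rfl
  up_up := by
    intro p r q h h' y
    cases p with
    | big c => exact absurd h not_big_lt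
    | old p =>
      cases r with
      | big c => exact absurd h' not_big_lt
      | old r =>
        cases q with
        | big c => exact gi_big_subsingleton _ _
        | old q => exact Subtype.ext (C.up_up (old_lt.1 h) (old_lt.1 h') y.1)
  vert := by
    intro q hq
    cases q with
    | old q =>
      have := C.vert q hq
      exact ⟨fun x => this.false x.1⟩
    | big c => exact absurd hq (by show ¬ (3 = 0); norm_num)
  s h x := sG C j B o h x
  coc := by
    intro p r q h h' x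
    cases p with
    | big c => exact absurd h not_big_lt
    | old p =>
      cases r with
      | big c => exact absurd h' not_big_lt
      | old r =>
        cases q with
        | old q =>
          have h1 := C.coc (old_lt.1 h) (old_lt.1 h') x.1
          have h2 := sum_sub (p := fun y : C.I r => C.col r y = j)
            (P := fun y => upG C j B h' y = x) (P' := fun y => C.up (old_lt.1 h') y = x.1)
            (fun y => C.s (old_lt.1 h) y) (fun a ha => by
              constructor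
              · intro e; exact congrArg Subtype.val e
              · intro e; exact Subtype.ext e) (fun a ha => by
              rw [← C.col_up (old_lt.1 h') a, ha]; exact x.2)
          refine h1.trans ?_
          rw [← h2]
          rfl
        | big c =>
          have h1 := C.lab_eq (old_lt.1 h) j
          have h2 := sum_sub (p := fun y : C.I r => C.col r y = j)
            (P := fun y => upG C j B h' y = x) (P' := fun y => C.col r y = j)
            (fun y => C.s (old_lt.1 h) y) (fun a ha => by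
              constructor
              · intro _; exact ha
              · intro _; exact gi_big_subsingleton _ _) (fun a ha => ha)
          refine Eq.trans ?_ (congrArg (fun t => C.Lab j r + C.Lab j (o c) + t) h2.symm)
          show C.Lab j p + C.Lab j (o c) = C.Lab j r + C.Lab j (o c) + _
          rw [h1]
          ring
  o := oG C B o
  o_dim := by
    intro q hq
    cases q with
    | old q => exact C.o_dim q hq
    | big c => exact O.o_dim c
  o_lt := by
    intro q hq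
    cases q with
    | old q => exact old_lt.2 (C.o_lt q hq)
    | big c => exact old_lt_big.2 (O.o_mem c)
  s_o := by
    intro q hq x
    cases q with
    | old q => exact C.s_o q hq x.1
    | big c => exact add_self2 _
  Lab _ q := LabG C j B o q
  lab_eq := by
    intro p q h _
    cases p with
    | big c => exact absurd h not_big_lt
    | old p =>
      cases q with
      | old q =>
        have h1 := C.lab_eq (old_lt.1 h) j
        have h2 := sum_sub (p := fun y : C.I q => C.col q y = j)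
          (P := fun _ => () = ()) (P' := fun y => C.col q y = j)
          (fun y => C.s (old_lt.1 h) y) (fun a ha => ⟨fun _ => ha, fun _ => rfl⟩) (fun a ha => ha)
        refine h1.trans ?_
        rw [← h2]
        rfl
      | big c =>
        show C.Lab j p = C.Lab j (o c) + _
        by_cases hne : ∃ q ∈ B.bq c, ∃ x : C.I q, C.col q x = j
        · let x0 : GI C j B (.big c) := PLift.up hne
          have h2 : ∀ t : Finset (GI C j B (.big c)), x0 ∈ t →
              ∑ x ∈ t, sG C j B o h x = C.Lab j p + C.Lab j (o c) := fun t ht =>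
            Finset.sum_eq_single_of_mem x0 ht
              (fun y _ hne' => absurd (gi_big_subsingleton _ _) hne')
          refine Eq.trans ?_ (congrArg (fun t => C.Lab j (o c) + t) (h2 _ ?_).symm)
          · show C.Lab j p = C.Lab j (o c) + (C.Lab j p + C.Lab j (o c))
            have := add_self2 (C.Lab j (o c))
            linear_combination -this
          · exact (@Finset.mem_filter _ _ (_) _ _).2 ⟨Finset.mem_univ _, rfl⟩
        · have h1 := O.const c (fun q hq x hx => hne ⟨q, hq, x, hx⟩) p (old_lt_big.1 h)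
          rw [h1, Finset.sum_eq_zero, add_zero]
          intro y _
          exact absurd y.down hne
  side q x x' := sideG C j B q x x'
  side_up := by
    intro p q h y x' hne _
    cases p with
    | big c => exact absurd h not_big_lt
    | old p =>
      cases q with
      | big c => exact absurd (gi_big_subsingleton _ _) hne
      | old q =>
        have hne' : x'.1 ≠ C.up (old_lt.1 h) y.1 := fun e => hne (Subtype.ext e)
        have h1 := C.side_up (old_lt.1 h) y.1 x'.1 hne' (by rw [y.2, x'.2])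
        have h2 := sum_sub (p := fun y : C.I p => C.col p y = j)
          (P := fun y' => upG C j B h y' = x') (P' := fun y' => C.up (old_lt.1 h) y' = x'.1)
          (fun y' => C.side p y.1 y') (fun a ha => by
            constructor
            · intro e; exact congrArg Subtype.val e
            · intro e; exact Subtype.ext e) (fun a ha => by
            rw [← C.col_up (old_lt.1 h) a, ha]; exact x'.2)
        refine h1.trans ?_
        rw [← h2]
        rfl
  s_edge := by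
    intro v q h hd hne x
    cases v with
    | big c => exact absurd h not_big_lt
    | old v =>
      cases q with
      | old q => exact C.s_edge (old_lt.1 h) hd (fun e => hne (congrArg _ e)) x.1
      | big c => exact absurd hd (by show ¬ (3 = 1); norm_num)

end cmb

/-! ### the invariant on the old cells -/

section inv

variable {Q 𝒢 : Type} [PartialOrder Q] {dim : Q → ℕ} {J Fam : Type}
variable {E : Type*} [NormedAddCommGroup E] [NormedSpace ℝ E]
variable {C : Cmb Q dim J Fam} {K : Q → Set E} {g : Gd E J}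
  {P : ∀ q, C.I q → Set E} {c : ∀ q, C.I q → E → ℝ} {j : J} {B : BdD Q 𝒢} {o : 𝒢 → Q}
  {Kt : 𝒢 → Set E}

/-- the bands of one sheet -/
def gdG (g : Gd E J) (j : J) : Gd E Unit where
  G _ := g.G j
  B _ := g.B j
  lev _ := g.lev j
  tr _ := g.tr j

lemma gdG_is {Z : Set E} (h : g.Is Z) : (gdG g j).Is Z where
  pG _ := h.pG j
  cB _ := h.cB j
  nB _ := h.nB j
  li _ := h.li j
  ab _ := h.ab j
  pt _ := h.pt j
  tZ _ := h.tZ j
  tB _ := h.tB j
  tl _ := h.tl j
  tG _ := h.tG j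
  ts _ := h.ts j
  tt _ := h.tt j
  oG _ _ hab := absurd rfl hab
  oB _ _ hab := absurd rfl hab
  ol _ _ hab := absurd rfl hab
  oc _ _ hab := absurd rfl hab

/-- the pieces -/
def PG (P : ∀ q, C.I q → Set E) (j : J) (B : BdD Q 𝒢) : ∀ q : GQ B, GI C j B q → Set E
  | .old q, x => P q x.1
  | .big _, _ => ∅

/-- the band functions -/
def cG (c : ∀ q, C.I q → E → ℝ) (j : J) (B : BdD Q 𝒢) : ∀ q : GQ B, GI C j B q → E → ℝ
  | .old q, x => c q x.1
  | .big _, _ => fun _ => 0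

/-- the old cells -/
def OldS (B : BdD Q 𝒢) : Set (GQ B) := {q | ∃ p, q = .old p}

/-- **the invariant on the old cells** -/
theorem invG (H : Inv C K univ g P c) (O : GO C j B o) :
    Inv (cmbG O) (KG B K Kt) (OldS B) (gdG g j) (PG P j B) (cG c j B) where
  is := by
    rintro _ ⟨q, rfl⟩
    exact gdG_is (H.is q (mem_univ q))
  PF := by
    rintro _ ⟨q, rfl⟩ _ z hz
    have h1 := H.PF q (mem_univ q) j z hz
    have h2 := prod_sub (p := fun y : C.I q => C.col q y = j)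
      (P := fun _ => () = ()) (P' := fun y => C.col q y = j)
      (fun x => (-2 * c q x z)) (fun a ha => ⟨fun _ => ha, fun _ => rfl⟩) (fun a ha => ha)
    refine h1.trans ?_
    rw [← h2]
    rfl
  cl := by
    rintro _ ⟨q, rfl⟩ x
    exact H.cl q (mem_univ q) x.1
  PK := by
    rintro _ ⟨q, rfl⟩ x
    exact H.PK q (mem_univ q) x.1
  PB := by
    rintro _ ⟨q, rfl⟩ x
    have h1 := H.PB q (mem_univ q) x.1
    rw [x.2] at h1
    exact h1
  cov := by
    rintro _ ⟨q, rfl⟩ _ z hz hB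
    obtain ⟨x, hx, hxz⟩ := H.cov q (mem_univ q) j z hz hB
    exact ⟨⟨x, hx⟩, rfl, hxz⟩
  pc := by
    rintro _ ⟨q, rfl⟩ x
    exact H.pc q (mem_univ q) x.1
  cm := by
    rintro _ ⟨q, rfl⟩ x
    exact H.cm q (mem_univ q) x.1
  cn := by
    rintro _ ⟨q, rfl⟩ x
    exact H.cn q (mem_univ q) x.1
  fd := by
    rintro _ ⟨q, rfl⟩ x x' hne _
    exact H.fd q (mem_univ q) x.1 x'.1 (fun h => hne (Subtype.ext h)) (by rw [x.2, x'.2])
  sd := by
    rintro _ ⟨q, rfl⟩ x x' hne _
    exact H.sd q (mem_univ q) x.1 x'.1 (fun h => hne (Subtype.ext h)) (by rw [x.2, x'.2])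
  r1 := by
    rintro p _ h ⟨q, rfl⟩ x z hz
    cases p with
    | big c => exact absurd h not_big_lt
    | old p =>
      have h1 := H.r1 (old_lt.1 h) (mem_univ q) x.1 z hz
      refine h1.trans ?_
      constructor
      · rintro ⟨y, hy, hyz⟩
        exact ⟨⟨y, by rw [← C.col_up (old_lt.1 h) y, hy]; exact x.2⟩, Subtype.ext hy, hyz⟩
      · rintro ⟨y, hy, hyz⟩
        exact ⟨y.1, congrArg Subtype.val hy, hyz⟩
  r2 := by
    rintro p _ h ⟨q, rfl⟩ x z hz
    cases p with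
    | big c => exact absurd h not_big_lt
    | old p =>
      have h1 := H.r2 (old_lt.1 h) (mem_univ q) x.1 z hz
      have h2 := prod_sub (p := fun y : C.I p => C.col p y = j)
        (P := fun y => upG C j B h y = x) (P' := fun y => C.up (old_lt.1 h) y = x.1)
        (fun y => (-2 * c p y z)) (fun a ha => by
          constructor
          · intro e; exact congrArg Subtype.val e
          · intro e; exact Subtype.ext e) (fun a ha => by
          rw [← C.col_up (old_lt.1 h) a, ha]; exact x.2)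
      refine h1.trans ?_
      rw [← h2]
      rfl

end inv

end Crest.Agent.R096.Shg_334
end

-- ▼ part R096/Shg2_334
section

/-!
# R096 (row 96), ARR-SH (helper334), GIANT part 2: the giant cells are filled

* `exists_fill` : the sheet `j` extends over the giant cells (416's stage, one piece per giant cell);
* `bls_fill`    : helper778's discs;
* `sheet_sphere_fill` : a PL 2-sphere `S ⊆ Ω` with `S ∩ Ω0 = {z ∈ Ω0 | G_j z = 1/2}`.
-/

set_option autoImplicit false
set_option linter.unusedSectionVars false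

open Set Metric

namespace Crest.Agent.R096.Shg_334

open Crest.Agent.R096.Ce_537 Crest.Agent.R096.Bd_416 Crest.Agent.R096.Shp_334
  Crest.Agent.R096.Arc_778

open scoped Classical

variable {Q 𝒢 : Type} [PartialOrder Q] {dim : Q → ℕ} {J Fam : Type}
variable {E : Type*} [NormedAddCommGroup E] [NormedSpace ℝ E]
variable {C : Cmb Q dim J Fam} {K : Q → Set E} {g : Gd E J}
  {P : ∀ q, C.I q → Set E} {c : ∀ q, C.I q → E → ℝ} {j : J} {B : BdD Q 𝒢} {o : 𝒢 → Q}
  {Kt : 𝒢 → Set E} {Ω0 Ω : Set E}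

/-- the giant cells -/
def BigS (B : BdD Q 𝒢) : Set (GQ B) := {q | ∃ c, q = .big c}

lemma old_union_big : OldS B ∪ BigS B = univ := by
  ext q
  simp only [mem_union, mem_univ, iff_true]
  cases q with
  | old q => exact Or.inl ⟨q, rfl⟩
  | big c => exact Or.inr ⟨c, rfl⟩

/-- what the filling knows -/
structure Filled (O : GO C j B o) (K : Q → Set E) (Kt : 𝒢 → Set E)
    (c : ∀ q, C.I q → E → ℝ) (g1 : Gd E Unit) (P1 : ∀ q, (cmbG O).I q → Set E)
    (c1 : ∀ q, (cmbG O).I q → E → ℝ) : Prop where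
  inv : Inv (cmbG O) (KG B K Kt) univ g1 P1 c1
  old : ∀ (q : Q) (x : {x : C.I q // C.col q x = j}), ∀ z ∈ K q,
    (c1 (.old q) x z = 0 ↔ c q x.1 z = 0)
  big : ∀ k : 𝒢, FCell (Kt k) (⋃ q ∈ B.bq k, K q) (c1 (.big k))

/-- **the filling of the giant cells** -/
theorem exists_fill (H : Inv C K univ g P c) (X : Cplx Ω0 Q dim K) (G : GC Ω0 Ω dim K B Kt)
    (O : GO C j B o) : ∃ g1 P1 c1, Filled O K Kt c g1 P1 c1 := by
  have H0 := invG (Kt := Kt) H O
  have X1 := cplxG X G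
  have hD : ∀ q ∈ OldS B, ∀ p < q, p ∈ OldS B := by
    rintro _ ⟨q, rfl⟩ p hp
    cases p with
    | old p => exact ⟨p, rfl⟩
    | big c => exact absurd hp not_big_lt
  have hDN : ∀ q ∈ BigS B, q ∉ OldS B := by
    rintro _ ⟨k, rfl⟩ ⟨q, hq⟩
    cases hq
  have hN : ∀ τ ∈ BigS B, ∀ σ < τ, σ ∈ OldS B := by
    rintro _ ⟨k, rfl⟩ p hp
    cases p with
    | old p => exact ⟨p, rfl⟩
    | big c => exact absurd hp not_big_lt
  have hb0 : (0:ℝ) < 1/4 := by norm_num
  have hb2 : (1/4:ℝ) < 1/2 := by norm_num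
  have hM : ∀ τ ∈ BigS B, ∃ M : Lam (KG B K Kt τ) ((cmbG O).I τ),
      NewCell (cmbG O) (KG B K Kt) (gdG g j) (cG c j B) (1/4) τ M ∧
        FCell (KG B K Kt τ) (bdS (KG B K Kt) τ) M.c := by
    rintro _ ⟨k, rfl⟩
    obtain ⟨e, he⟩ := X1.isBall (.big k)
    have hs : (1/2:ℝ) * ∑ _x : (cmbG O).I (.big k), (1:ℝ) ≤ 1/2 := by
      have h1 : Fintype.card ((cmbG O).I (.big k)) ≤ 1 :=
        Fintype.card_le_one_iff.2 fun a b => gi_big_subsingleton a b
      rw [Finset.sum_const, Finset.card_univ, nsmul_eq_mul, mul_one]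
      have h2 : ((Fintype.card ((cmbG O).I (.big k)) : ℕ) : ℝ) ≤ 1 := by exact_mod_cast h1
      linarith
    obtain ⟨ρ, Dp, hN'⟩ := exists_newCell_cone H0 X1 (hN _ ⟨k, rfl⟩)
      (by show 2 ≤ 3; norm_num) e he (Cst.mk' hb0 hb2) (fun _ => 1) (fun _ => one_pos)
      (u := 1/2) (by norm_num) hs
    exact ⟨_, hN', FCell.of_fill e he Dp fun a b hab => absurd (gi_big_subsingleton a b) hab.1⟩
  choose M hM1 hM2 using hM
  have hst := stage H0 X1 hD hDN hN hb0 hb2 hM1
  rw [old_union_big] at hst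
  refine ⟨_, _, _, hst, ?_, ?_⟩
  · intro q x z hz
    have h2 : stc (cmbG O) (KG B K Kt) (BigS B) (cG c j B) (1/4) M (.old q) x z =
        cl (c q x.1 z / (2 * (1/4))) := stc_old (C := cmbG O) (hDN' q) x z
    have h3 : cl (c q x.1 z / (2 * (1/4))) = 0 ↔ c q x.1 z = 0 := by
      rw [← sign_eq_zero_iff, sign_cl hb0, sign_eq_zero_iff]
    exact (Iff.of_eq (congrArg (· = 0) h2)).trans h3
  · intro k
    have h1 := hM2 (.big k) ⟨k, rfl⟩
    rw [bdS_big] at h1
    have h2 : stc (cmbG O) (KG B K Kt) (BigS B) (cG c j B) (1/4) M (.big k) =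
        (M (.big k) ⟨k, rfl⟩).c := by
      funext x z
      exact stc_new (C := cmbG O) (q := (.big k : GQ B))
        (show (GQ.big k : GQ B) ∈ BigS B from ⟨k, rfl⟩) x z
    rw [h2]
    exact h1
where
  hDN' (q : Q) : (GQ.old q : GQ B) ∉ BigS B := by
    rintro ⟨k, hk⟩
    cases hk

section facts

variable {O : GO C j B o} {g1 : Gd E Unit} {P1 : ∀ q, (cmbG O).I q → Set E}
  {c1 : ∀ q, (cmbG O).I q → E → ℝ}

lemma Filled.zer_old (F : Filled O K Kt c g1 P1 c1) (q : Q) (x : {x : C.I q // C.col q x = j}) :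
    Zr (C := cmbG O) c1 (KG B K Kt) (.old q) x = Zr c K q x.1 := by
  ext z
  constructor
  · rintro ⟨h1, h2⟩; exact ⟨h1, (F.old q x z h1).1 h2⟩
  · rintro ⟨h1, h2⟩; exact ⟨h1, (F.old q x z h1).2 h2⟩

/-- **the mid level on the old cells** -/
theorem Filled.half (F : Filled O K Kt c g1 P1 c1) (H : Inv C K univ g P c) {q : Q} {z : E}
    (hz : z ∈ K q) : g1.G () z = 1/2 ↔ g.G j z = 1/2 := by
  rw [half_iff F.inv (q := .old q) (j := ()) hz, half_iff H hz]
  constructor
  · rintro ⟨x, -, hx⟩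
    have h1 : z ∈ Zr c K q x.1 := by rw [← F.zer_old q x]; exact hx
    exact ⟨x.1, x.2, h1⟩
  · rintro ⟨x, hxj, hx⟩
    refine ⟨⟨x, hxj⟩, rfl, ?_⟩
    rw [F.zer_old q ⟨x, hxj⟩]; exact hx

/-- **helper778's discs in the giant cells** -/
theorem bls_fill [FiniteDimensional ℝ E] (F : Filled O K Kt c g1 P1 c1)
    (X : Cplx Ω0 Q dim K) (G : GC Ω0 Ω dim K B Kt) (hB : Bls C K c j)
    (hL : ∀ (k : 𝒢) (x : (cmbG O).I (.big k)), Loop (cmbG O) (.big k) x) :
    Bls (cmbG O) (KG B K Kt) c1 () := by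
  have X1 := cplxG X G
  have hE : ∀ e : GQ B, e ∈ OldS B → dimG B dim e = 1 → EdgeG (KG B K Kt e) (c1 e) := by
    rintro _ ⟨e, rfl⟩ he
    have he' : dim e = 1 := he
    constructor
    · intro x
      obtain ⟨z, hz⟩ := exists_pt (c := c) (K := K) hB ⟨⟨e, x.1⟩, he', x.2⟩
      exact ⟨z, (F.zer_old e x).trans hz⟩
    · intro x x' hne
      refine disjoint_left.2 fun z hz hz' => hne ?_
      exact Zr_unique F.inv (q := .old e) rfl hz hz'
  have hF : ∀ f : GQ B, f ∈ OldS B → dimG B dim f = 2 → ∀ y,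
      IsBall 1 (Zer (KG B K Kt f) (c1 f) y) (Gam (bdS (KG B K Kt) f) (c1 f) y) := by
    rintro _ ⟨f, rfl⟩ hf y
    have hf' : dim f = 2 := hf
    have h1 := hB f (by omega) y.1 y.2
    rw [hf'] at h1
    have e1 : Zer (K f) (c1 (.old f)) y = Zr c K f y.1 := F.zer_old f y
    have e2 : Gam (bdS (KG B K Kt) (.old f)) (c1 (.old f)) y = Zr c K f y.1 ∩ bdS K f := by
      rw [bdS_old]
      ext z
      constructor
      · rintro ⟨h2, h3⟩
        have h4 : z ∈ K f := bdS_sub X h2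
        exact ⟨⟨h4, (F.old f y z h4).1 h3⟩, h2⟩
      · rintro ⟨⟨h2, h3⟩, h4⟩
        exact ⟨h4, (F.old f y z h2).2 h3⟩
    show IsBall 1 (Zer (K f) (c1 (.old f)) y) _
    rw [e1, e2]
    exact h1
  intro q hq x _
  cases q with
  | old q =>
    have h1 := hB q hq x.1 x.2
    rw [F.zer_old q x, bdS_old]
    exact h1
  | big k =>
    have hd : dimG B dim (.big k : GQ B) = 3 := rfl
    have hold : ∀ e : GQ B, e < .big k → e ∈ OldS B := by
      intro e he
      cases e with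
      | old e => exact ⟨e, rfl⟩
      | big c => exact absurd he not_big_lt
    have hc := circle_of_loop F.inv X1 hd (fun e he hde => hE e (hold e he) hde)
      (fun f hf hdf => hF f (hold f hf) hdf) (hL k x)
    have hfc : FCell (KG B K Kt (.big k)) (bdS (KG B K Kt) (.big k)) (c1 (.big k)) := by
      rw [bdS_big]; exact F.big k
    have h1 := zer_disc F.inv X1 hd hfc hc
    have e2 : Zr (C := cmbG O) c1 (KG B K Kt) (.big k) x ∩ bdS (KG B K Kt) (.big k) =
        Gam (bdS (KG B K Kt) (.big k)) (c1 (.big k)) x := by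
      ext z
      exact ⟨fun h => ⟨h.2, h.1.2⟩, fun h => ⟨⟨bdS_sub X1 h.1, h.2⟩, h.1⟩⟩
    rw [e2]
    exact h1

end facts

/-- **the sheet, closed by discs in the cores, is a PL 2-sphere** -/
theorem sheet_sphere_fill [FiniteDimensional ℝ E] (hE : Gp_702.ExistStmt) (hN : Gp_702.NormStmt)
    (h3 : Module.finrank ℝ E = 3) (hΩ : IsOpen Ω) (H : Inv C K univ g P c)
    (X : Cplx Ω0 Q dim K) (G : GC Ω0 Ω dim K B Kt) (O : GO C j B o) (hB : Bls C K c j)
    (htop : Top3 (GQ B) (dimG B dim))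
    (hL : ∀ (k : 𝒢) (x : (cmbG O).I (.big k)), Loop (cmbG O) (.big k) x)
    [Finite (Pce (cmbG O) () 3)] (h1 : SH1 (cmbG O) ()) (hc : SConn (cmbG O) ()) :
    ∃ S : Set E, Nonempty (PLEquiv (sph 3) S) ∧ S ⊆ Ω ∧
      ∀ z ∈ Ω0, (z ∈ S ↔ g.G j z = 1/2) := by
  obtain ⟨g1, P1, c1, F⟩ := exists_fill H X G O
  refine ⟨{z | z ∈ Ω ∧ g1.G () z = 1/2}, ?_, fun z hz => hz.1, ?_⟩
  · exact sheet_sphere hE hN h3 hΩ F.inv (cplxG X G) (bls_fill F X G hB hL) htop h1 hc
  · intro z hz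
    obtain ⟨q, hq⟩ := X.cover z hz
    rw [← F.half H hq]
    exact ⟨fun h => h.2, fun h => ⟨G.sub0 hz, h⟩⟩

end Crest.Agent.R096.Shg_334
end

-- ▼ part R096/Shg3_334
section

/-!
# R096 (row 96), ARR-SH (helper334), GIANT part 3: the dictionary with giant tiles

* `exists_GO` : base vertices and constant labels;
* `Dic2`      : `Dic` of part 3 with two index sets, `sh1`, `sconn`, `finite1`;
* `Gnt`       : the giant tiles of the merged mesh, (E1) = `one`;
* `dicG`, `loopG`, and the final `sheet_giant`.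
-/

set_option autoImplicit false
set_option linter.unusedSectionVars false

open Set Metric

namespace Crest.Agent.R096.Shg_334

open Crest.Agent.R096.Ce_537 Crest.Agent.R096.Bd_416 Crest.Agent.R096.Shp_334
  Crest.Agent.R096.Arc_778 Crest.Agent.R096.Seq_213 Crest.Agent.R096.St_147

open scoped Classical

/-! ### base vertices -/

section base

variable {Q 𝒢 : Type} [PartialOrder Q] {dim : Q → ℕ} {J Fam : Type}
variable {E : Type*} [NormedAddCommGroup E] [NormedSpace ℝ E]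
variable {C : Cmb Q dim J Fam} {K : Q → Set E} {g : Gd E J}
  {P : ∀ q, C.I q → Set E} {c : ∀ q, C.I q → E → ℝ} {j : J} {B : BdD Q 𝒢}
  {Kt : 𝒢 → Set E} {Ω0 Ω : Set E}

/-- every core has a vertex in its boundary -/
lemma exists_vertex (C : Cmb Q dim J Fam) (G : GC Ω0 Ω dim K B Kt) (k : 𝒢) :
    ∃ v ∈ B.bq k, dim v = 0 := by
  obtain ⟨e, he⟩ := G.ball k
  have h1 : (fun _ => 1 : Fin 3 → ℝ) ∈ sph 3 := by
    rw [mem_sphere_zero_iff_norm, pi_norm_const]; exact norm_one
  have h2 : e.f (fun _ => 1) ∈ ⋃ q ∈ B.bq k, K q := by rw [← he]; exact ⟨_, h1, rfl⟩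
  obtain ⟨q, hq, -⟩ := mem_iUnion₂.1 h2
  by_cases h0 : dim q = 0
  · exact ⟨q, hq, h0⟩
  · have h1 : 1 ≤ dim q := Nat.one_le_iff_ne_zero.2 h0
    exact ⟨C.o q, B.down k _ _ (C.o_lt q h1).le hq, C.o_dim q h1⟩

/-- **base vertices and constant labels exist** -/
theorem exists_GO (H : Inv C K univ g P c) (X : Cplx Ω0 Q dim K) (G : GC Ω0 Ω dim K B Kt) :
    ∃ o : 𝒢 → Q, GO C j B o := by
  choose o ho1 ho2 using exists_vertex C G
  refine ⟨o, ho1, ho2, fun k hk => ?_⟩
  have X1 := cplxG X G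
  -- the boundary sphere
  have hcon : IsPreconnected (⋃ q ∈ B.bq k, K q) := by
    obtain ⟨e, he⟩ := G.ball k
    rw [← he]
    have h1 : 1 < Module.rank ℝ (Fin 3 → ℝ) := by
      rw [rank_fin_fun]; norm_num
    exact (isPreconnected_sphere h1 0 1).image _ (e.pf.1.mono sph_subset_cube)
  have hfin : (B.bq k).Finite := by
    have h1 := X1.finite_below (.big k)
    have h2 : B.bq k ⊆ GQ.old ⁻¹' {i : GQ B | i < .big k} := fun q hq => old_lt_big.2 hq
    exact (h1.preimage (by intro a _ b _ h; cases h; rfl)).subset h2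
  have hval : ∀ q ∈ B.bq k, ∀ z ∈ K q, g.G j z = 1/2 - sg (C.Lab j q) / 2 := by
    intro q hq z hz
    rw [H.PF q (mem_univ q) j z hz, Finset.filter_false_of_mem (fun x _ => hk q hq x)]
    simp
  let A : ZMod 2 → Set E := fun a => ⋃ q ∈ {q | q ∈ B.bq k ∧ C.Lab j q = a}, K q
  have hcl : ∀ a, IsClosed (A a) := fun a =>
    (hfin.subset fun q hq => hq.1).isClosed_biUnion fun q _ => X.isClosed q
  have hcov : (⋃ q ∈ B.bq k, K q) ⊆ A 0 ∪ A 1 := by
    intro z hz
    obtain ⟨q, hq, hzq⟩ := mem_iUnion₂.1 hz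
    rcases z2 (C.Lab j q) with h | h
    · exact Or.inl (mem_biUnion (show q ∈ {q | q ∈ B.bq k ∧ C.Lab j q = 0} from ⟨hq, h⟩) hzq)
    · exact Or.inr (mem_biUnion (show q ∈ {q | q ∈ B.bq k ∧ C.Lab j q = 1} from ⟨hq, h⟩) hzq)
  have hne : ∀ q, (K q).Nonempty := fun q => by
    obtain ⟨e, -⟩ := X.isBall q
    exact ⟨e.f 0, e.mf (by simp [cube])⟩
  have h01 : ∀ q ∈ B.bq k, ∀ q' ∈ B.bq k, C.Lab j q = 0 → C.Lab j q' = 1 → False := by
    intro q hq q' hq' h h'
    obtain ⟨z, hz⟩ := hne q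
    obtain ⟨z', hz'⟩ := hne q'
    obtain ⟨y, -, hy0, hy1⟩ := isPreconnected_closed_iff.1 hcon (A 0) (A 1) (hcl 0) (hcl 1) hcov
      ⟨z, mem_biUnion hq hz,
        mem_biUnion (show q ∈ {q | q ∈ B.bq k ∧ C.Lab j q = 0} from ⟨hq, h⟩) hz⟩
      ⟨z', mem_biUnion hq' hz',
        mem_biUnion (show q' ∈ {q | q ∈ B.bq k ∧ C.Lab j q = 1} from ⟨hq', h'⟩) hz'⟩
    obtain ⟨p, ⟨hp, hp0⟩, hyp⟩ := mem_iUnion₂.1 hy0
    obtain ⟨p', ⟨hp', hp1⟩, hyp'⟩ := mem_iUnion₂.1 hy1
    have e1 := hval p hp y hyp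
    have e2 := hval p' hp' y hyp'
    rw [hp0, sg_zero] at e1
    rw [hp1, sg_one] at e2
    rw [e1] at e2
    norm_num at e2
  intro q hq
  rcases z2 (C.Lab j q) with h | h <;> rcases z2 (C.Lab j (o k)) with h' | h'
  · rw [h, h']
  · exact (h01 q hq (o k) (ho1 k) h h').elim
  · exact (h01 (o k) (ho1 k) q hq h' h).elim
  · rw [h, h']

end base

/-! ### the dictionary with two index sets -/

section dic

variable {Q : Type} [PartialOrder Q] {dim : Q → ℕ} {J Fam J' Fam' : Type}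
variable {ι Φ W : Type} {M : MeshC ι Φ W} {fam : J → Fam}

/-- dictionary between the sheet `j'` of a `Cmb` and the sheet `j` of a state -/
structure Dic2 (C : Cmb Q dim J' Fam') (j' : J') (s : GSt M fam) (j : J) where
  pt : Pce C j' 1 → W
  inj : Function.Injective pt
  mem : ∀ a, pt a ∈ s.P ∧ s.lab (pt a) = j
  sur : ∀ w ∈ s.P, s.lab w = j → ∃ a, pt a = w
  ch : Φ → W → Pce C j' 2 → Prop
  ch_ex : ∀ F w, s.At F w → s.lab w = j → ∃ y, ch F w y
  ch_un : ∀ F w y y', ch F w y → ch F w y' → y = y'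
  ch_sur : ∀ y, ∃ F w, s.At F w ∧ s.lab w = j ∧ ch F w y
  sub : ∀ F w y, s.At F w → s.lab w = j → ch F w y → ∀ a,
    (Sub C a y ↔ pt a = w ∨ pt a = s.mu F w)
  In : ι → W → Pce C j' 3 → Prop
  in_un : ∀ q w t t', In q w t → In q w t' → t = t'
  tile : ∀ q F w y, q ∈ M.side F → s.At F w → s.lab w = j → ch F w y →
    ∃ t, In q w t ∧ In q (s.mu F w) t ∧ Sub C y t

namespace Dic2

variable {C : Cmb Q dim J' Fam'} {j' : J'} {s : GSt M fam} {j : J} (D : Dic2 C j' s j)
include D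

lemma mu_j {F : Φ} {w : W} (h : s.At F w) (hj : s.lab w = j) :
    s.mu F w ∈ s.P ∧ s.lab (s.mu F w) = j :=
  ⟨(s.mu_mem h.1 h.2).1, by rw [s.mu_lab h.1 h.2, hj]⟩

/-- the two ends of a chord -/
lemma ends {F : Φ} {w : W} {y : Pce C j' 2} (h : s.At F w) (hj : s.lab w = j) (hy : D.ch F w y) :
    ∃ a b, D.pt a = w ∧ D.pt b = s.mu F w ∧ a ≠ b ∧ Sub C a y ∧ Sub C b y := by
  obtain ⟨a, ha⟩ := D.sur w h.1 hj
  obtain ⟨b, hb⟩ := D.sur _ (D.mu_j h hj).1 (D.mu_j h hj).2
  refine ⟨a, b, ha, hb, ?_, (D.sub F w y h hj hy a).2 (Or.inl ha),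
    (D.sub F w y h hj hy b).2 (Or.inr hb)⟩
  rintro rfl
  exact s.mu_ne h.1 h.2 (hb.symm.trans ha)

/-- **`H¹ = 0`** -/
theorem sh1 (h1 : s.H1 j) : SH1 C j' := by
  intro κ' hκ'
  choose ψ' hψ' using hκ'
  let κ : Φ → W → ZMod 2 := fun F w => if h : ∃ y, D.ch F w y then κ' h.choose else 0
  have hκ : ∀ F w y, D.ch F w y → κ F w = κ' y := by
    intro F w y hy
    have h : ∃ y, D.ch F w y := ⟨y, hy⟩
    have e1 : κ F w = κ' h.choose := by simp only [κ]; rw [dif_pos h]
    rw [e1, D.ch_un F w _ _ h.choose_spec hy]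
  obtain ⟨Ψ, hΨ⟩ := h1 κ (by
    intro q
    let ψ : W → ZMod 2 := fun w => if h : ∃ ta : Pce C j' 3 × Pce C j' 1, D.In q w ta.1 ∧
      D.pt ta.2 = w then ψ' h.choose.1 h.choose.2 else 0
    have hψ : ∀ w t a, D.In q w t → D.pt a = w → ψ w = ψ' t a := by
      intro w t a ht ha
      have h : ∃ ta : Pce C j' 3 × Pce C j' 1, D.In q w ta.1 ∧ D.pt ta.2 = w := ⟨(t, a), ht, ha⟩
      have e1 : ψ w = ψ' h.choose.1 h.choose.2 := by simp only [ψ]; rw [dif_pos h]
      rw [e1, D.in_un q w _ t h.choose_spec.1 ht, D.inj (h.choose_spec.2.trans ha.symm)]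
    refine ⟨ψ, fun F w hq hAt hj => ?_⟩
    obtain ⟨y, hy⟩ := D.ch_ex F w hAt hj
    obtain ⟨t, ht1, ht2, hty⟩ := D.tile q F w y hq hAt hj hy
    obtain ⟨a, b, ha, hb, hab, hay, hby⟩ := D.ends hAt hj hy
    rw [hκ F w y hy, hψ w t a ht1 ha, hψ _ t b ht2 hb]
    exact hψ' t y hty a b hay hby hab)
  refine ⟨fun a => Ψ (D.pt a), fun y a b ha hb hab => ?_⟩
  obtain ⟨F, w, hAt, hj, hy⟩ := D.ch_sur y
  have h2 := hΨ F w hAt hj
  rw [hκ F w y hy] at h2
  rw [h2]
  rcases (D.sub F w y hAt hj hy a).1 ha with ha | ha <;>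
    rcases (D.sub F w y hAt hj hy b).1 hb with hb | hb
  · exact absurd (D.inj (ha.trans hb.symm)) hab
  · show _ = Ψ (D.pt a) + Ψ (D.pt b)
    rw [ha, hb]
  · show _ = Ψ (D.pt a) + Ψ (D.pt b)
    rw [ha, hb, add_comm]
  · exact absurd (D.inj (ha.trans hb.symm)) hab

/-- **connectedness** -/
theorem sconn (hc : s.Conn j) : SConn C j' := by
  obtain ⟨⟨w, hw, hwj⟩, hc⟩ := hc
  refine ⟨?_, ?_⟩
  · obtain ⟨a, -⟩ := D.sur w hw hwj
    exact ⟨a⟩
  · intro Z hZ a b haZ
    have h1 := hc {w | ∃ a ∈ Z, D.pt a = w} (by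
      rintro F w ⟨a, haZ, ha⟩ hAt hj
      obtain ⟨y, hy⟩ := D.ch_ex F w hAt hj
      obtain ⟨a', b', ha', hb', hab, hay, hby⟩ := D.ends hAt hj hy
      have e : a = a' := D.inj (ha.trans ha'.symm)
      subst e
      exact ⟨b', hZ y a b' hay hby haZ, hb'⟩) (D.pt a) ⟨a, haZ, rfl⟩ (D.mem a).1 (D.mem a).2
      (D.pt b) (D.mem b).1 (D.mem b).2
    obtain ⟨b', hb'Z, hb'⟩ := h1
    rw [← D.inj hb']
    exact hb'Z

/-- finitely many points -/
theorem finite1 : Finite (Pce C j' 1) := by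
  have h1 := s.fin (fam j)
  have h2 : {w | w ∈ s.P ∧ s.lab w = j}.Finite := h1.subset fun w hw => ⟨hw.1, by rw [hw.2]⟩
  have := h2.to_subtype
  exact Finite.of_injective (β := {w | w ∈ s.P ∧ s.lab w = j}) (fun a => ⟨D.pt a, D.mem a⟩)
    (fun a b hab => D.inj (congrArg Subtype.val hab))

end Dic2

end dic

/-! ### giant tiles -/

section giant

variable {Q 𝒢 : Type} [PartialOrder Q] {dim : Q → ℕ} {J Fam : Type}
variable {ι Φ W : Type} {M : MeshC ι Φ W} {fam : J → Fam}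
variable {C : Cmb Q dim J Fam} {s : GSt M fam} {j : J} {B : BdD Q 𝒢} {o : 𝒢 → Q}
  {cf : Φ → Q} {ord : ι → Prop}

/-- **the giant tiles of the merged mesh**; `one` = (E1): the sheet `j` has at most one cycle on the
boundary of a core -/
structure Gnt (s : GSt M fam) (j : J) (dim : Q → ℕ) (cf : Φ → Q) (ord : ι → Prop)
    (B : BdD Q 𝒢) (tl : 𝒢 → ι) : Prop where
  side : ∀ k F, cf F ∈ B.bq k ↔ tl k ∈ M.side F
  cf_inj : ∀ F F', cf F = cf F' → F = F'
  cell2 : ∀ k, ∀ f ∈ B.bq k, dim f = 2 → ∃ F, cf F = f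
  dim2 : ∀ F, dim (cf F) = 2
  dlt : ∀ k, ∀ q ∈ B.bq k, dim q < 3
  edge : ∀ k, ∀ e ∈ B.bq k, dim e = 1 → ∃ f ∈ B.bq k, dim f = 2 ∧ e < f
  tl_inj : ∀ k k', tl k = tl k' → k = k'
  nord : ∀ k, ¬ ord (tl k)
  giant : ∀ q F, q ∈ M.side F → ¬ ord q → ∃ k, q = tl k
  one : ∀ k, ∀ Z : Set W, (∀ F w, tl k ∈ M.side F → w ∈ Z → s.At F w → s.lab w = j →
    s.mu F w ∈ Z) → ∀ F w F' w', tl k ∈ M.side F → tl k ∈ M.side F' → s.At F w → s.At F' w' →
    s.lab w = j → s.lab w' = j → w ∈ Z → w' ∈ Z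

/-- a piece of the sheet as a piece of the giant complex -/
def eP {k : ℕ} (O : GO C j B o) (y : Pce C j k) : Pce (cmbG O) () k :=
  ⟨⟨.old y.1.1, (⟨y.1.2, y.2.2⟩ : {x : C.I y.1.1 // C.col y.1.1 x = j})⟩, y.2.1, rfl⟩

lemma eP_inj {k : ℕ} (O : GO C j B o) {y y' : Pce C j k} (h : eP O y = eP O y') : y = y' := by
  obtain ⟨⟨q, x⟩, h1, h2⟩ := y
  obtain ⟨⟨q', x'⟩, h1', h2'⟩ := y'
  have h3 := congrArg Subtype.val h
  have h4 : (⟨.old q, (⟨x, h2⟩ : {x : C.I q // C.col q x = j})⟩ : Σ e, (cmbG O).I e) =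
      ⟨.old q', (⟨x', h2'⟩ : {x : C.I q' // C.col q' x = j})⟩ := h3
  obtain ⟨h5, h6⟩ := Sigma.mk.inj h4
  cases h5
  have h7 := eq_of_heq h6
  have h8 : x = x' := congrArg Subtype.val h7
  subst h8
  rfl

lemma eP_sur {k : ℕ} (O : GO C j B o) (hk : k ≠ 3) (y : Pce (cmbG O) () k) :
    ∃ y0, eP O y0 = y := by
  obtain ⟨⟨q, x⟩, h1, h2⟩ := y
  cases q with
  | old q => exact ⟨⟨⟨q, x.1⟩, h1, x.2⟩, rfl⟩
  | big c => exact absurd (show k = 3 from h1.symm) hk

lemma sub_eP {k l : ℕ} (O : GO C j B o) {a : Pce C j k} {y : Pce C j l} :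
    Sub (cmbG O) (eP O a) (eP O y) ↔ Sub C a y := by
  constructor
  · rintro ⟨h, e⟩
    exact ⟨old_lt.1 h, congrArg Subtype.val e⟩
  · rintro ⟨h, e⟩
    exact ⟨old_lt.2 h, Subtype.ext e⟩

/-- the inverse -/
noncomputable def dP {k : ℕ} (O : GO C j B o) (hk : k ≠ 3) (y : Pce (cmbG O) () k) : Pce C j k :=
  (eP_sur O hk y).choose

lemma eP_dP {k : ℕ} (O : GO C j B o) (hk : k ≠ 3) (y : Pce (cmbG O) () k) : eP O (dP O hk y) = y :=
  (eP_sur O hk y).choose_spec

lemma dP_eP {k : ℕ} (O : GO C j B o) (hk : k ≠ 3) (y : Pce C j k) : dP O hk (eP O y) = y :=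
  eP_inj O (eP_dP O hk _)

variable {tl : 𝒢 → ι}

/-- the piece in a giant cell -/
def bigP (O : GO C j B o) (k : 𝒢) {l : ℕ} (y : Pce C j l) (hy : y.1.1 ∈ B.bq k) :
    Pce (cmbG O) () 3 :=
  ⟨⟨.big k, (PLift.up ⟨y.1.1, hy, y.1.2, y.2.2⟩ :
    PLift (∃ q ∈ B.bq k, ∃ x : C.I q, C.col q x = j))⟩, rfl, rfl⟩

lemma sub_bigP (O : GO C j B o) (k : 𝒢) {l : ℕ} (y : Pce C j l) (hy : y.1.1 ∈ B.bq k) :
    Sub (cmbG O) (eP O y) (bigP O k y hy) := ⟨old_lt_big.2 hy, gi_big_subsingleton _ _⟩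

lemma big_unique (O : GO C j B o) {k : 𝒢} {t t' : Pce (cmbG O) () 3} (h : t.1.1 = .big k)
    (h' : t'.1.1 = .big k) : t = t' := by
  obtain ⟨⟨q, x⟩, h1, h2⟩ := t
  obtain ⟨⟨q', x'⟩, h1', h2'⟩ := t'
  have e : q = .big k := h
  have e' : q' = .big k := h'
  subst e
  subst e'
  have : x = x' := gi_big_subsingleton _ _
  subst this
  rfl

/-- **the dictionary with giant tiles** -/
noncomputable def dicG (D : DicO C s j cf ord) (G : Gnt s j dim cf ord B tl) (O : GO C j B o) :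
    Dic2 (cmbG O) () s j where
  pt a := D.pt (dP O (by norm_num) a)
  inj a b h := by
    have h1 := D.inj h
    rw [← eP_dP O (by norm_num) a, ← eP_dP O (by norm_num) b, h1]
  mem a := D.mem _
  sur w hw hj := by
    obtain ⟨a, ha⟩ := D.sur w hw hj
    exact ⟨eP O a, by rw [dP_eP]; exact ha⟩
  ch F w y := D.ch F w (dP O (by norm_num) y)
  ch_ex F w h hj := by
    obtain ⟨y, hy⟩ := D.ch_ex F w h hj
    exact ⟨eP O y, by rw [dP_eP]; exact hy⟩
  ch_un F w y y' h h' := by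
    have h1 := D.ch_un F w _ _ h h'
    rw [← eP_dP O (by norm_num) y, ← eP_dP O (by norm_num) y', h1]
  ch_sur y := D.ch_sur _
  sub F w y h hj hy a := by
    rw [← D.sub F w _ h hj hy, ← sub_eP O, eP_dP, eP_dP]
  In q w t := (ord q ∧ ∃ t0, t = eP O t0 ∧ D.In q w t0) ∨ ∃ k, q = tl k ∧ t.1.1 = .big k
  in_un := by
    rintro q w t t' (⟨h1, t0, rfl, h2⟩ | ⟨k, rfl, h2⟩) (⟨h1', t0', rfl, h2'⟩ | ⟨k', h1', h2'⟩)
    · rw [D.in_un q h1 w t0 t0' h2 h2']
    · subst h1'; exact absurd h1 (G.nord k')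
    · exact absurd h1' (G.nord k)
    · have := G.tl_inj k k' h1'
      subst this
      exact big_unique O h2 h2'
  tile q F w y hq hAt hj hy := by
    by_cases ho : ord q
    · obtain ⟨t, h1, h2, h3⟩ := D.tile q ho F w _ hq hAt hj hy
      refine ⟨eP O t, Or.inl ⟨ho, t, rfl, h1⟩, Or.inl ⟨ho, t, rfl, h2⟩, ?_⟩
      rw [← eP_dP O (by norm_num) y, sub_eP]
      exact h3
    · obtain ⟨k, rfl⟩ := G.giant q F hq ho
      have h1 : (dP O (by norm_num) y).1.1 ∈ B.bq k := by
        rw [D.ch_cf F w _ hy]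
        exact (G.side k F).2 hq
      refine ⟨bigP O k _ h1, Or.inr ⟨k, rfl, rfl⟩, Or.inr ⟨k, rfl, rfl⟩, ?_⟩
      have h2 := sub_bigP O k _ h1
      rwa [eP_dP] at h2

/-- the ends of a chord -/
lemma dic_ends (D : DicO C s j cf ord) (y : Pce C j 2) : ∃ a b : Pce C j 1, a ≠ b ∧
    Sub C a y ∧ Sub C b y ∧ ∀ v, Sub C v y → v = a ∨ v = b := by
  obtain ⟨F, w, hAt, hj, hy⟩ := D.ch_sur y
  obtain ⟨a, ha⟩ := D.sur w hAt.1 hj
  obtain ⟨b, hb⟩ := D.sur _ (s.mu_mem hAt.1 hAt.2).1 (by rw [s.mu_lab hAt.1 hAt.2, hj])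
  refine ⟨a, b, ?_, (D.sub F w y hAt hj hy a).2 (Or.inl ha),
    (D.sub F w y hAt hj hy b).2 (Or.inr hb), fun v hv => ?_⟩
  · rintro rfl
    exact s.mu_ne hAt.1 hAt.2 (hb.symm.trans ha)
  · rcases (D.sub F w y hAt hj hy v).1 hv with h | h
    · exact Or.inl (D.inj (h.trans ha.symm))
    · exact Or.inr (D.inj (h.trans hb.symm))

/-- pieces in `Blw` -/
lemma mem_blw_old (O : GO C j B o) {f : Q} {y : (cmbG O).I (.old f)} {v : Σ e, (cmbG O).I e}
    (hv : v ∈ Blw (cmbG O) (.old f) y) : ∃ a : Pce C j 1, (eP O a).1 = v ∧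
      ∃ h : a.1.1 < f, C.up h a.1.2 = y.1 := by
  obtain ⟨⟨q, x⟩, hd, hlt, he⟩ := v, hv
  cases q with
  | big c => exact absurd hlt not_big_lt
  | old q => exact ⟨⟨⟨q, x.1⟩, hd, x.2⟩, rfl, old_lt.1 hlt, congrArg Subtype.val he⟩

lemma mem_blw_big (O : GO C j B o) {k : 𝒢} {y : (cmbG O).I (.big k)} {v : Σ e, (cmbG O).I e}
    (hv : v ∈ Blw (cmbG O) (.big k) y) : ∃ a : Pce C j 1, (eP O a).1 = v ∧ a.1.1 ∈ B.bq k := by
  obtain ⟨⟨q, x⟩, hd, hlt, he⟩ := v, hv
  cases q with
  | big c => exact absurd hlt not_big_lt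
  | old q => exact ⟨⟨⟨q, x.1⟩, hd, x.2⟩, rfl, old_lt_big.1 hlt⟩

lemma blw_big_of (O : GO C j B o) {k : 𝒢} {y : (cmbG O).I (.big k)} {a : Pce C j 1}
    (ha : a.1.1 ∈ B.bq k) : (eP O a).1 ∈ Blw (cmbG O) (.big k) y :=
  ⟨(eP O a).2.1, old_lt_big.2 ha, gi_big_subsingleton _ _⟩

/-- an edge point of the sheet on a giant tile -/
lemma at_of (D : DicO C s j cf ord) {a : Pce C j 1} {F : Φ} (h : a.1.1 < cf F) :
    s.At F (D.pt a) := ⟨(D.mem a).1, (D.on a F).1 h⟩

/-- **the curve of the sheet on a giant cell** -/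
theorem loopG (D : DicO C s j cf ord) (G : Gnt s j dim cf ord B tl) (O : GO C j B o) (k : 𝒢)
    (x : (cmbG O).I (.big k)) : Loop (cmbG O) (.big k) x where
  ends := by
    intro F hF hlt y
    cases F with
    | big c => exact absurd hlt not_big_lt
    | old f =>
      have hf : dim f = 2 := hF
      obtain ⟨a, b, hab, ha, hb, hall⟩ := dic_ends D ⟨⟨f, y.1⟩, hf, y.2⟩
      refine ⟨(eP O a).1, (eP O b).1, fun h => hab (eP_inj O (Subtype.ext h)), ?_⟩
      ext v
      constructor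
      · intro hv
        obtain ⟨v0, rfl, h1, h2⟩ := mem_blw_old O hv
        rcases hall v0 ⟨h1, h2⟩ with rfl | rfl
        · exact Or.inl rfl
        · exact Or.inr rfl
      · have key : ∀ u : Pce C j 1, Sub C u (⟨⟨f, y.1⟩, hf, y.2⟩ : Pce C j 2) →
            (eP O u).1 ∈ Blw (cmbG O) (.old f) y := by
          rintro u ⟨h1, h2⟩
          exact ⟨(eP O u).2.1, old_lt.2 h1, Subtype.ext h2⟩
        rintro (rfl | rfl)
        · exact key a ha
        · exact key b hb
  two := by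
    rintro e he hlt ⟨u⟩
    cases e with
    | big c => exact absurd hlt not_big_lt
    | old e =>
      have he' : dim e = 1 := he
      have hek : e ∈ B.bq k := old_lt_big.1 hlt
      let a : Pce C j 1 := ⟨⟨e, u.1⟩, he', u.2⟩
      obtain ⟨f, hf, hfd, hef⟩ := G.edge k e hek he'
      obtain ⟨F, rfl⟩ := G.cell2 k f hf hfd
      have hdeg := M.deg (tl k) (D.pt a)
      have hfin : {F | tl k ∈ M.side F ∧ D.pt a ∈ M.On F}.Finite :=
        (M.fin (D.pt a)).subset fun F hF => hF.2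
      have hne : {F | tl k ∈ M.side F ∧ D.pt a ∈ M.On F}.Nonempty :=
        ⟨F, (G.side k F).1 hf, (D.on a F).1 hef⟩
      have h2 : {F | tl k ∈ M.side F ∧ D.pt a ∈ M.On F}.ncard = 2 := by
        rcases hdeg with h | h
        · rw [Set.ncard_eq_zero hfin] at h
          exact absurd h hne.ne_empty
        · exact h
      obtain ⟨F1, F2, hF12, hset⟩ := Set.ncard_eq_two.1 h2
      refine ⟨.old (cf F1), .old (cf F2), fun h => hF12 (G.cf_inj _ _ (GQ.old.inj h)), ?_⟩
      ext q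
      constructor
      · rintro ⟨hq, hq1, hq2⟩
        cases q with
        | big c => exact absurd hq2 not_big_lt
        | old q =>
          have hqk := old_lt_big.1 hq2
          obtain ⟨F', rfl⟩ := G.cell2 k q hqk hq
          have h3 : F' ∈ {F | tl k ∈ M.side F ∧ D.pt a ∈ M.On F} :=
            ⟨(G.side k F').1 hqk, (D.on a F').1 (old_lt.1 hq1)⟩
          rw [hset] at h3
          rcases h3 with rfl | rfl
          · exact Or.inl rfl
          · exact Or.inr rfl
      · have key : ∀ F', F' ∈ {F | tl k ∈ M.side F ∧ D.pt a ∈ M.On F} →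
            (GQ.old (cf F') : GQ B) ∈ {F : GQ B | dimG B dim F = 2 ∧ .old e < F ∧ F < .big k} := by
          rintro F' ⟨h3, h4⟩
          exact ⟨G.dim2 F', old_lt.2 ((D.on a F').2 h4), old_lt_big.2 ((G.side k F').2 h3)⟩
        rintro (rfl | rfl)
        · exact key F1 (by rw [hset]; simp)
        · exact key F2 (by rw [hset]; simp)
  ne := by
    obtain ⟨q, hq, y, hy⟩ := (show PLift (∃ q ∈ B.bq k, ∃ x : C.I q, C.col q x = j) from x).down
    have h0 : dim q ≠ 0 := fun h => (C.vert q h).false y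
    by_cases h1 : dim q = 1
    · exact ⟨_, blw_big_of O (a := ⟨⟨q, y⟩, h1, hy⟩) hq⟩
    · have h2 : dim q = 2 := by have := G.dlt k q hq; omega
      obtain ⟨a, b, -, ⟨ha, -⟩, -⟩ := dic_ends D ⟨⟨q, y⟩, h2, hy⟩
      exact ⟨_, blw_big_of O (a := a) (B.down k _ _ ha.le hq)⟩
  conn := by
    intro S hS hne hcl
    refine Subset.antisymm hS ?_
    obtain ⟨v0, hv0⟩ := hne
    obtain ⟨a0, rfl, ha0⟩ := mem_blw_big O (hS hv0)
    intro v hv
    obtain ⟨a, rfl, ha⟩ := mem_blw_big O hv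
    obtain ⟨f0, hf0, hfd0, hef0⟩ := G.edge k a0.1.1 ha0 a0.2.1
    obtain ⟨F0, rfl⟩ := G.cell2 k f0 hf0 hfd0
    obtain ⟨f, hf, hfd, hef⟩ := G.edge k a.1.1 ha a.2.1
    obtain ⟨F, rfl⟩ := G.cell2 k f hf hfd
    have h1 := G.one k {w | ∃ a : Pce C j 1, D.pt a = w ∧ (eP O a).1 ∈ S} (by
      rintro F' w' hF' ⟨a', rfl, ha'⟩ hAt hj
      obtain ⟨y, hy⟩ := D.ch_ex F' _ hAt hj
      obtain ⟨b, hb⟩ := D.sur _ (s.mu_mem hAt.1 hAt.2).1 (by rw [s.mu_lab hAt.1 hAt.2, hj])
      refine ⟨b, hb, ?_⟩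
      obtain ⟨ha1, ha2⟩ := (D.sub F' _ y hAt hj hy a').2 (Or.inl rfl)
      obtain ⟨hb1, hb2⟩ := (D.sub F' _ y hAt hj hy b).2 (Or.inr hb)
      have hyc : y.1.1 = cf F' := D.ch_cf F' _ y hy
      have hyk : y.1.1 ∈ B.bq k := by rw [hyc]; exact (G.side k F').2 hF'
      have h2 := hcl (eP O a').1 ha' (.old y.1.1) y.2.1 (old_lt.2 ha1) (old_lt_big.2 hyk)
      refine h2 ⟨(eP O b).2.1, old_lt.2 hb1, Subtype.ext ?_⟩
      show C.up hb1 b.1.2 = C.up ha1 a'.1.2
      rw [ha2, hb2]) F0 (D.pt a0) F (D.pt a)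
      ((G.side k F0).1 hf0) ((G.side k F).1 hf) (at_of D hef0) (at_of D hef) (D.mem a0).2
      (D.mem a).2 ⟨a0, rfl, hv0⟩
    obtain ⟨a', ha', hmem⟩ := h1
    rw [← D.inj ha']
    exact hmem

end giant

end Crest.Agent.R096.Shg_334
end

-- ▼ part R096/Shg4_334

/-!
# R096 (row 96), ARR-SH (helper334), GIANT part 4: the sheets with cores as giant cells

* `sheet_giant` : a PL 2-sphere `S ⊆ Ω` which is `{G_j = 1/2}` on the mesh part `Ω0`; the cores are
  no cells of `Q`, the invariant is only on the cells of `Ω0`;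
* `sheetData'`, `exact_sheets'` : helper241's `SheetData` from such spheres.
P2-GEN (helper702, helper914) is discharged: no hypotheses.
-/

set_option autoImplicit false
set_option linter.unusedSectionVars false

open Set Metric Topology Module

namespace Crest.Agent.R096.Shg_334

open Crest.Agent.R096.Ce_537 Crest.Agent.R096.Bd_416 Crest.Agent.R096.Shp_334
  Crest.Agent.R096.Arc_778 Crest.Agent.R096.Seq_213 Crest.Agent.R096.St_147

section giant

variable {Q 𝒢 : Type} [PartialOrder Q] {dim : Q → ℕ} {J Fam : Type}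
variable {E : Type*} [NormedAddCommGroup E] [NormedSpace ℝ E]
variable {C : Cmb Q dim J Fam} {K : Q → Set E} {g : Gd E J}
  {P : ∀ q, C.I q → Set E} {c : ∀ q, C.I q → E → ℝ} {j : J} {B : BdD Q 𝒢}
  {Kt : 𝒢 → Set E} {Ω0 Ω : Set E}
variable {ι Φ W : Type} {M : MeshC ι Φ W} {fam : J → Fam} {s : GSt M fam} {cf : Φ → Q}
  {ord : ι → Prop} {tl : 𝒢 → ι}

/-- every cell of the mesh part lies in a 3-cell or in the boundary of a core -/
def Top3G (B : BdD Q 𝒢) (dim : Q → ℕ) : Prop :=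
  ∀ q : Q, (∃ q', q ≤ q' ∧ dim q' = 3) ∨ ∃ k, q ∈ B.bq k

lemma top3G (h : Top3G B dim) : Top3 (GQ B) (dimG B dim) := by
  intro q
  cases q with
  | old q =>
    rcases h q with ⟨q', hq', h3⟩ | ⟨k, hk⟩
    · exact ⟨.old q', hq', h3⟩
    · exact ⟨.big k, hk, rfl⟩
  | big k => exact ⟨.big k, le_rfl, rfl⟩

/-- **(SH) with giant cells: the sheet `{G_j = 1/2}` of the mesh part is part of a PL 2-sphere** -/
theorem sheet_giant [FiniteDimensional ℝ E] (h3 : finrank ℝ E = 3) (hΩ : IsOpen Ω)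
    (H : Inv C K univ g P c) (X : Cplx Ω0 Q dim K) (G : GC Ω0 Ω dim K B Kt) (hB : Bls C K c j)
    (htop : Top3G B dim) (D : DicO C s j cf ord) (Gn : Gnt s j dim cf ord B tl)
    (h1 : s.H1 j) (hc : s.Conn j) :
    ∃ S : Set E, Nonempty (PLEquiv (sph 3) S) ∧ S ⊆ Ω ∧
      ∀ z ∈ Ω0, (z ∈ S ↔ g.G j z = 1/2) := by
  obtain ⟨o, O⟩ := exists_GO (j := j) H X G
  obtain ⟨g1, P1, c1, F⟩ := exists_fill H X G O
  have hL : ∀ (k : 𝒢) (x : (cmbG O).I (.big k)), Loop (cmbG O) (.big k) x :=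
    fun k x => loopG D Gn O k x
  have hB1 := bls_fill F X G hB hL
  have D2 := dicG D Gn O
  haveI : Finite (Pce (cmbG O) () 1) := D2.finite1
  haveI : Finite (Pce (cmbG O) () 3) := finite3 F.inv (cplxG X G) hB1
  exact sheet_sphere_fill Gp_702.existStmt Gp_702.normStmt h3 hΩ H X G O hB (top3G htop) hL
    (D2.sh1 h1) (D2.sconn hc)

end giant

/-! ### the sheets of the transport structure -/

section main

open Crest.Agent.R096.Mg_441 Crest.Agent.R096.Xp_537 Crest.Agent.R096.Grd_714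
open Crest.Agent.R096.Ar_241 (dirW cod Tr0 SheetData CoreData Exact TopC)

variable {Q : Type} [PartialOrder Q] {dim : Q → ℕ} {J Fam : Type} {Cc : Cmb Q dim J Fam}
variable {E' : Type*} [NormedAddCommGroup E'] [NormedSpace ℝ E'] [FiniteDimensional ℝ E']
variable {K : Q → Set E'} {g : Gd E' J} {P : ∀ q, Cc.I q → Set E'} {c : ∀ q, Cc.I q → E' → ℝ}
  {Ω : Set E'}
variable {E : Type*} [NormedAddCommGroup E] [NormedSpace ℝ E] [FiniteDimensional ℝ E]
  {Λ : Set E} {hfin : ∀ a, {j | Cc.fam j = a}.Finite} {Pf : Fam → Set E}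
  {C : CC Λ (Cel Pf (Mg_441.mm hfin))} {T : (Fam → ℝ) → E} {co : E → Fam → ℝ} {G : E' → E}
variable {X : Tr0 Ω C G} {X0 : Set E'} {ι : Type*} {Kc : ι → Set E'}

/-- **the sheet of an edge of the grid, from spheres which agree with the sheets on the mesh part** -/
theorem sheetData' (hE3 : finrank ℝ E = 3) (hΛ : IsOpen Λ) (H : Inv Cc K univ g P c)
    (hKΩ : ∀ p, K p ⊆ Ω)
    (hS : ∀ j, ∃ S : Set E', Nonempty (PLEquiv (sph 3) S) ∧ S ⊆ Ω ∧
      ∀ z ∈ Ω, z ∈ X0 → (z ∈ S ↔ g.G j z = 1/2))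
    {ℓ : J → ℝ} (hO : Ord Cc ℓ) (hℓ : ∀ j j', j ≠ j' → Cc.fam j = Cc.fam j' → ℓ j ≠ ℓ j')
    (OK : GridOK C T co) (hM : OnMesh X K g T X0)
    (cov : Ω ⊆ X0 ∪ ⋃ i, Kc i) {q : Cel Pf (Mg_441.mm hfin)} (hq : cod C q = 2)
    (hD : CoreData X Kc X0 1 q) : SheetData X Kc X0 q := by
  classical
  obtain ⟨q', rfl, a, ha⟩ := free_of_cod hΛ hE3 OK hq
  have haf : a ∈ q'.free := by rw [ha]; rfl
  have hhi : q'.hi a = q'.lo a + 1 := Gx.hi_eq haf
  have hlt : q'.lo a < Mg_441.mm hfin a := by have := q'.him a; omega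
  obtain ⟨j, hja, hjn⟩ := exists_num hfin hℓ a hlt
  obtain ⟨S, hSs, hSΩ, hSj⟩ := hS j
  have hb : ∀ b, co (C.b (.gr q')) b = if b = a then (q'.lo a : ℝ) + 1/2 else q'.hi b := by
    intro b
    rw [OK.co_b]
    split_ifs with h
    · subst h; rw [hhi]; push_cast; ring
    · have hbf : b ∉ q'.free := by rw [ha]; exact h
      rw [Gx.lo_eq hbf]; ring
  have hba : co (C.b (.gr q')) a = (q'.lo a : ℝ) + 1/2 := by rw [hb, if_pos rfl]
  -- membership in the sheet
  have key : ∀ z ∈ Ω, z ∈ X0 → (co (G z) a = co (C.b (.gr q')) a ↔ z ∈ S) := by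
    intro z hz hz0
    obtain ⟨p, hp, -⟩ := hM.cov z hz hz0
    rw [hM.co_eq OK hz hz0, hba, ← hjn, ← hja, hSj z hz hz0]
    exact half_merge H hfin hO hℓ (mem_univ p) hp
  refine ⟨S, hSs, hSΩ, ?_, ?_, ?_⟩
  · rintro z ⟨⟨hz, hzG⟩, hz0⟩
    exact (key z hz hz0).1 (by rw [hzG])
  · intro z hzS hzc hzG
    have hz := hSΩ hzS
    have hz0 : z ∈ X0 := by
      rcases cov hz with h | h
      · exact h
      · obtain ⟨i, hi⟩ := mem_iUnion.1 h
        exact absurd hi (hzc i)
    obtain ⟨k1, k2⟩ := OK.co_mem q' _ hzG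
    obtain ⟨k3, k4⟩ := OK.co_mem q' _ (C.bmem (.gr q'))
    have h2 : co (G z) = co (C.b (.gr q')) := by
      funext b
      by_cases hbb : b = a
      · subst hbb; exact (key z hz hz0).2 hzS
      · have hbf : b ∉ q'.free := by rw [ha]; exact hbb
        rw [Gx.eq_of_mem hbf k1, Gx.eq_of_mem hbf k3]
    rw [← k2, h2, k4]
  · -- a point of the boundary of the fibre on `X0`
    obtain ⟨s, R, Qc, ⟨i, hi⟩, -, hPi⟩ := hD
    have hp := hPi.pair i hi
    obtain ⟨x, hx⟩ : (Qc i).Nonempty := by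
      obtain ⟨e, he⟩ := hp.ball₁
      rw [← he]
      exact ⟨_, mem_image_of_mem _ (show (fun _ => (1:ℝ)) ∈ sph 1 by
        rw [sph, mem_sphere, dist_zero_right, Pi.norm_def]; simp)⟩
    have hxD : x ∈ X.F (.gr q') ∩ Kc i ∩ X0 ∩ R i := by
      have := hp.inter
      rw [this]; exact hx
    have hxS : x ∈ X.S (.gr q') := by
      have := hPi.inter i hi
      have h2 : x ∈ X.F (.gr q') ∩ Kc i ∩ X.S (.gr q') := by rw [this]; exact hxD.2
      exact h2.2
    have hxΩ : x ∈ Ω := hxS.1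
    have hx0 : x ∈ X0 := hxD.1.2
    obtain ⟨r, hr, hrf, hrb⟩ := hM.top_eq x hxΩ hx0
    have hle : q' ≤ r := by
      have h2 := X.F_top hxD.1.1.1
      rw [hr] at h2
      exact Cel.gr_le_gr.1 h2
    have hlt : q' < r := lt_of_le_of_ne hle fun h => hxS.2.2 (by rw [hr, h])
    obtain ⟨hsub, hns⟩ := Gx.free_lt hlt
    obtain ⟨b, hb1, hb2⟩ := not_subset.1 hns
    have hbB : x ∈ (merge hfin g).B b := by rw [hrf] at hb1; exact hb1
    have hbane : b ≠ a := by rw [ha] at hb2; exact hb2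
    obtain ⟨p, hxp, hpX⟩ := hM.cov x hxΩ hx0
    have hI := inv_merge_is H hfin (mem_univ p)
    -- move in the direction `b`
    obtain ⟨t, ht, htne⟩ : ∃ t ∈ I2, (merge hfin g).lev b x + 1/2 + t ≠ (merge hfin g).G b x := by
      by_cases h0 : (merge hfin g).lev b x + 1/2 + 0 = (merge hfin g).G b x
      · exact ⟨1/2, by constructor <;> norm_num, by rw [← h0]; norm_num⟩
      · exact ⟨0, by constructor <;> norm_num, h0⟩
    have hz'K := hI.tZ b x hxp hbB t ht
    have hz'Ω : (merge hfin g).tr b (x, t) ∈ Ω := hKΩ p hz'K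
    have hz'0 : (merge hfin g).tr b (x, t) ∈ X0 := hpX hz'K
    have hGa : co (G x) a = co (C.b (.gr q')) a := by rw [hxS.2.1]
    refine ⟨(merge hfin g).tr b (x, t), ?_, ?_⟩
    · rw [← key _ hz'Ω hz'0, ← hGa, hM.co_eq OK hz'Ω hz'0, hM.co_eq OK hxΩ hx0]
      exact hI.oG b a hbane x hxp hbB t ht
    · rintro ⟨-, hcon⟩
      apply htne
      have h4 : co (G ((merge hfin g).tr b (x, t))) b = co (G x) b := by
        rw [hcon, hxS.2.1]
      rw [hM.co_eq OK hz'Ω hz'0, hM.co_eq OK hxΩ hx0] at h4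
      exact (hI.tG b x hxp hbB t ht).symm.trans h4

/-- **the sheets of 241's `Exact.balls` / `Exact.trn`, from spheres** -/
theorem exact_sheets' (hE3 : finrank ℝ E = 3) (hΛ : IsOpen Λ) (H : Inv Cc K univ g P c)
    (hKΩ : ∀ p, K p ⊆ Ω)
    (hS : ∀ j, ∃ S : Set E', Nonempty (PLEquiv (sph 3) S) ∧ S ⊆ Ω ∧
      ∀ z ∈ Ω, z ∈ X0 → (z ∈ S ↔ g.G j z = 1/2))
    {ℓ : J → ℝ} (hO : Ord Cc ℓ) (hℓ : ∀ j j', j ≠ j' → Cc.fam j = Cc.fam j' → ℓ j ≠ ℓ j')
    (OK : GridOK C T co) (hM : OnMesh X K g T X0)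
    {κ θ : TopC (Cel Pf (Mg_441.mm hfin)) → ℝ} {Kt : TopC (Cel Pf (Mg_441.mm hfin)) → Set E'}
    (cov : Ω ⊆ X0 ∪ ⋃ i, Kt i) (hX : Exact X κ θ Kt X0) :
    ∀ q, cod C q = 2 → SheetData X Kt X0 q := fun _ hq =>
  sheetData' hE3 hΛ H hKΩ hS hO hℓ OK hM cov hq (hX.coreData hΛ hq)


end main

end Crest.Agent.R096.Shg_334
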