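import Crest.Agent.R096.Msh4_715
import Crest.Agent.R096.Msh3_715
import Crest.Agent.R096.Mrg4_715
import Crest.Agent.R096.Lac1_441
import Crest.Agent.R096.Door6_501
import Crest.Agent.R096.Mrg6_715

-- ▼ part R096/Slc1_184
section

/-!
# Row 96, DOORS, leaf SLC (helper184), part 1

* the cells of a refined tiling `T.refine HH h0` in terms of the cells of `T`;
* a function which is affine on the tiles through a point: extreme values on a closed cell are
  attained at vertices; levels without vertices.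
-/

set_option autoImplicit false
set_option linter.unusedSectionVars false

open Set Filter Topology Metric
open scoped Classical

namespace Crest.Agent.R096.Slc_184

open Crest.Agent.R096.Msh_715

variable {E : Type*} [NormedAddCommGroup E] [NormedSpace ℝ E]
variable {Om : Set E} {ι : Type*} (T : Tiling Om ι)

section refine

variable {HH : ι → Finset ((E →L[ℝ] ℝ) × ℝ)} (h0 : ∀ i, ∀ h ∈ HH i, h.1 ≠ 0)

/-- closed cells of the refinement -/
theorem mem_refine_cc {x y : E} : y ∈ (T.refine HH h0).cc x ↔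
    y ∈ T.cc x ∧ ∀ i ∈ T.at_ x, ∀ h ∈ HH i, (h.1 x ≤ h.2 → h.1 y ≤ h.2) ∧
      (h.2 ≤ h.1 x → h.2 ≤ h.1 y) := by
  constructor
  · intro hy
    exact ⟨T.refine_cc_sub h0 x hy, fun i hi h hh =>
      ⟨T.le_of_refine_cc h0 hy hi hh, T.ge_of_refine_cc h0 hy hi hh⟩⟩
  · rintro ⟨h1, h2⟩ p hp h hh
    have hi := T.tile_mem_at h0 hp
    rcases Finset.mem_union.1 (show h ∈ T.H p.1.1 ∪ _ from hh) with hh | hh
    · exact h1 _ hi h hh
    · obtain ⟨g, hg, rfl⟩ := Finset.mem_image.1 hh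
      have h3 := h2 _ hi g hg
      have h4 := ((T.mem_P_rH HH).1 (show x ∈ P (T.rH HH p.1.1 p.1.2) from hp)).2 g hg
      by_cases hs : g ∈ p.1.2
      · simp only [hs, if_true, opp_fst, opp_snd]
        have h5 := h3.2 (h4.1 hs)
        refine ⟨by linarith, fun e => ?_⟩
        have h6 := h3.1 (by linarith)
        linarith
      · simp only [hs, if_false]
        have h5 := h3.1 (h4.2 hs)
        refine ⟨h5, fun e => ?_⟩
        have h6 := h3.2 e.ge
        linarith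

/-- open cells of the refinement -/
theorem mem_refine_oc {x y : E} (hx : x ∈ Om) : y ∈ (T.refine HH h0).oc x ↔
    y ∈ T.oc x ∧ ∀ i ∈ T.at_ x, ∀ h ∈ HH i, (h.1 y ≤ h.2 ↔ h.1 x ≤ h.2) ∧
      (h.2 ≤ h.1 y ↔ h.2 ≤ h.1 x) := by
  constructor
  · intro hy
    refine ⟨T.refine_oc_sub h0 x hy, fun i hi h hh => ?_⟩
    have h1 := T.lt_iff_of_refine_oc h0 hy hi hh
    have h2 := T.eq_iff_of_refine_oc h0 hy hi hh
    constructor
    · rw [le_iff_lt_or_eq, le_iff_lt_or_eq, h1, h2]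
    · rw [← not_lt, ← not_lt, h1]
  · rintro ⟨h1, h2⟩
    apply (T.refine HH h0).mem_oc_of_mem_cc
    · exact (mem_refine_cc T h0).2 ⟨T.oc_sub_cc x h1, fun i hi h hh =>
        ⟨(h2 i hi h hh).1.2, (h2 i hi h hh).2.2⟩⟩
    · refine (mem_refine_cc T h0).2 ⟨?_, fun i hi h hh => ?_⟩
      · rw [T.cc_eq_of_mem_oc hx h1]; exact T.self_mem_cc x
      · rw [T.at_eq_of_mem_oc hx h1] at hi
        exact ⟨(h2 i hi h hh).1.1, (h2 i hi h hh).2.1⟩

/-- directions of the cells of the refinement -/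
theorem mem_refine_V {x v : E} : v ∈ (T.refine HH h0).V x ↔
    v ∈ T.V x ∧ ∀ i ∈ T.at_ x, ∀ h ∈ HH i, h.1 x = h.2 → h.1 v = 0 := by
  constructor
  · intro hv
    constructor
    · intro i hi h hh e
      obtain ⟨p, rfl, hp⟩ := T.exists_mem_at h0 hi
      exact hv p hp h (T.sub_rH HH _ _ hh) e
    · intro i hi h hh e
      obtain ⟨p, rfl, hp⟩ := T.exists_mem_at h0 hi
      by_cases hs : h ∈ p.1.2
      · have := hv p hp (opp h) (T.mem_rH_of_mem HH hh hs) (by simp only [opp_fst, opp_snd]; rw [e])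
        simpa using this
      · exact hv p hp h (T.mem_rH_of_notMem HH hh hs) e
  · rintro ⟨h1, h2⟩ p hp h hh e
    have hi := T.tile_mem_at h0 hp
    rcases Finset.mem_union.1 (show h ∈ T.H p.1.1 ∪ _ from hh) with hh | hh
    · exact h1 _ hi h hh e
    · obtain ⟨g, hg, rfl⟩ := Finset.mem_image.1 hh
      have h3 := h2 _ hi g hg
      by_cases hs : g ∈ p.1.2
      · simp only [hs, if_true, opp_fst, opp_snd] at e ⊢
        rw [h3 (by linarith)]; simp
      · simp only [hs, if_false] at e ⊢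
        exact h3 e

end refine

section affine

variable {T}

/-- `φ` is affine on the closed cell of `x` -/
def AffOn (φ : E → ℝ) (C : Set E) : Prop := ∃ g : E →ᵃ[ℝ] ℝ, EqOn φ g C

theorem AffOn.mono {φ : E → ℝ} {C D : Set E} (h : AffOn φ C) (hD : D ⊆ C) : AffOn φ D := by
  obtain ⟨g, hg⟩ := h
  exact ⟨g, hg.mono hD⟩

theorem AffOn.line {φ : E → ℝ} {C : Set E} (h : AffOn φ C) {x y : E} (hx : x ∈ C) (hy : y ∈ C)
    {s : ℝ} (hs : x + s • (y - x) ∈ C) : φ (x + s • (y - x)) = φ x + s * (φ y - φ x) := by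
  obtain ⟨g, hg⟩ := h
  rw [hg hs, hg hx, hg hy]
  have e : x + s • (y - x) = AffineMap.lineMap x y s := by
    rw [AffineMap.lineMap_apply, vsub_eq_sub, vadd_eq_add]; abel
  rw [e, AffineMap.apply_lineMap, AffineMap.lineMap_apply, vsub_eq_sub, vadd_eq_add, smul_eq_mul]
  ring

theorem AffOn.continuousOn [FiniteDimensional ℝ E] {φ : E → ℝ} {C : Set E} (h : AffOn φ C) :
    ContinuousOn φ C := by
  obtain ⟨g, hg⟩ := h
  exact (AffineMap.continuous_of_finiteDimensional g).continuousOn.congr hg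

/-- moving along a direction of the open cell -/
theorem AffOn.exists_lin {φ : E → ℝ} {C : Set E} (h : AffOn φ C) :
    ∃ L : E →ₗ[ℝ] ℝ, ∀ x ∈ C, ∀ y ∈ C, φ y = φ x + L (y - x) := by
  obtain ⟨g, hg⟩ := h
  refine ⟨g.linear, fun x hx y hy => ?_⟩
  rw [hg hx, hg hy]
  have := g.linearMap_vsub y x
  rw [vsub_eq_sub, vsub_eq_sub] at this
  rw [this]; ring

variable [FiniteDimensional ℝ E]

/-- the minimum of an affine function on a closed cell is attained at a vertex -/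
theorem exists_min_vertex {φ : E → ℝ} {x : E} (hx : x ∈ Om) (h : AffOn φ (T.cc x)) :
    ∃ v ∈ T.cc x, T.dim v = 0 ∧ ∀ y ∈ T.cc x, φ v ≤ φ y := by
  obtain ⟨m, hm, hmin⟩ := (T.isCompact_cc hx).exists_isMinOn ⟨x, T.self_mem_cc x⟩ h.continuousOn
  -- the minimum set is nonempty; take the smallest dimension
  have key : ∀ d : ℕ, ∀ z ∈ T.cc x, T.dim z = d → (∀ y ∈ T.cc x, φ z ≤ φ y) →
      ∃ v ∈ T.cc x, T.dim v = 0 ∧ ∀ y ∈ T.cc x, φ v ≤ φ y := by
    intro d
    induction d using Nat.strong_induction_on with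
    | _ d ih =>
      intro z hz hd hzm
      rcases Nat.eq_zero_or_pos d with h0 | h0
      · exact ⟨z, hz, hd.trans h0, hzm⟩
      · have hzO := T.cc_sub_Om hx hz
        have hne : T.V z ≠ ⊥ := by
          intro h1
          have := T.dim_eq_zero_iff.2 h1
          omega
        obtain ⟨v, hv, hv0⟩ := Submodule.exists_mem_ne_zero_of_ne_bot hne
        obtain ⟨t, ht, h1, h2, h3⟩ := T.exists_exit hzO hv hv0
        have hsub := T.cc_sub_of_mem hz
        -- `φ` is constant along `v`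
        obtain ⟨r, hr, hb⟩ := T.exists_ball_oc hzO
        obtain ⟨ε, hε, hεt, hεr⟩ : ∃ ε : ℝ, 0 < ε ∧ ε < t ∧ ε * ‖v‖ < r := by
          have hvn : 0 < ‖v‖ := norm_pos_iff.2 hv0
          refine ⟨min (t / 2) (r / (2 * ‖v‖)), by positivity, ?_, ?_⟩
          · exact (min_le_left _ _).trans_lt (by linarith)
          · calc min (t / 2) (r / (2 * ‖v‖)) * ‖v‖ ≤ r / (2 * ‖v‖) * ‖v‖ :=
                mul_le_mul_of_nonneg_right (min_le_right _ _) hvn.le
              _ = r / 2 := by field_simp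
              _ < r := by linarith
        have h4 : z + ε • v ∈ T.cc x := hsub (T.oc_sub_cc z (hb _ ((T.V z).smul_mem _ hv) (by
          rw [norm_smul, Real.norm_eq_abs, abs_of_pos hε]; exact hεr)))
        have h5 : z + (-ε) • v ∈ T.cc x := hsub (T.oc_sub_cc z (hb _ ((T.V z).smul_mem _ hv) (by
          rw [norm_smul, Real.norm_eq_abs, abs_neg, abs_of_pos hε]; exact hεr)))
        obtain ⟨L, hL⟩ := h.exists_lin
        have h6 := hL z hz _ h4
        have h7 := hL z hz _ h5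
        have h8 := hL z hz _ (hsub h1)
        rw [add_sub_cancel_left, map_smul, smul_eq_mul] at h6 h7 h8
        have h9 := hzm _ h4
        have h10 := hzm _ h5
        have hLv : L v = 0 := by
          have a1 : 0 ≤ ε * L v := by linarith
          have a2 : ε * L v ≤ 0 := by linarith
          have a3 : ε * L v = 0 := le_antisymm a2 a1
          rcases mul_eq_zero.1 a3 with h | h
          · exact absurd h hε.ne'
          · exact h
        rw [hLv, mul_zero, add_zero] at h8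
        refine ih _ (hd ▸ T.dim_lt h1 h2) _ (hsub h1) rfl fun y hy => ?_
        rw [h8]; exact hzm y hy
  exact key _ m hm rfl fun y hy => hmin hy

theorem exists_max_vertex {φ : E → ℝ} {x : E} (hx : x ∈ Om) (h : AffOn φ (T.cc x)) :
    ∃ v ∈ T.cc x, T.dim v = 0 ∧ ∀ y ∈ T.cc x, φ y ≤ φ v := by
  obtain ⟨g, hg⟩ := h
  obtain ⟨v, h1, h2, h3⟩ := exists_min_vertex (φ := fun y => -φ y) hx (T := T)
    ⟨-g, fun y hy => by simp [hg hy]⟩
  exact ⟨v, h1, h2, fun y hy => by have h4 : -φ v ≤ -φ y := h3 y hy; linarith⟩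

end affine

end Crest.Agent.R096.Slc_184
end

-- ▼ part R096/Slc2_184
section

/-!
# Row 96, DOORS, leaf SLC (helper184), part 2

`Slc T κ` : a function `φ`, affine on the tiles, disjoint open sets `U c`, levels
`b > t 0 > t 1 > .. > t n > a` without vertices of `T` in between.
`Slc.T3` : the tiling cut along the levels.
-/

set_option autoImplicit false
set_option linter.unusedSectionVars false

open Set Filter Topology Metric
open scoped Classical

namespace Crest.Agent.R096.Slc_184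

open Crest.Agent.R096.Msh_715

variable {E : Type} [NormedAddCommGroup E] [NormedSpace ℝ E]
variable {Om : Set E} {ι : Type}

/-- slices of a tiling near the cores `c : κ` -/
structure Slc (T : Tiling Om ι) (κ : Type) where
  φ : E → ℝ
  U : κ → Set E
  a : κ → ℝ
  b : κ → ℝ
  n : κ → ℕ
  t : κ → ℕ → ℝ
  cont : ContinuousOn φ Om
  opn : ∀ c, IsOpen (U c)
  subO : ∀ c, closure (U c) ⊆ Om
  cpt : ∀ c, IsCompact (closure (U c))
  fr : ∀ c, ∀ x ∈ frontier (U c), b c ≤ φ x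
  dis : ∀ c c', c ≠ c' → Disjoint (U c) (U c')
  aff : ∀ c i, (P (T.H i) ∩ U c).Nonempty → AffOn φ (P (T.H i))
  vert : ∀ c, ∀ v ∈ U c, T.dim v = 0 → φ v ≤ a c ∨ b c ≤ φ v
  npos : ∀ c, 0 < n c
  anti : ∀ c j, j < n c → t c (j + 1) < t c j
  lt : ∀ c, t c 0 < b c
  gt : ∀ c, a c < t c (n c)

namespace Slc

variable {T : Tiling Om ι} {κ : Type} (S : Slc T κ)

/-- the band of the core `c` -/
def Bd (c : κ) : Set E := {x | x ∈ S.U c ∧ S.a c < S.φ x ∧ S.φ x < S.b c}

theorem t_le {c : κ} : ∀ {j k : ℕ}, j ≤ k → k ≤ S.n c → S.t c k ≤ S.t c j := by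
  intro j k hjk
  induction hjk with
  | refl => intro _; exact le_rfl
  | step h ih => intro hk; exact (S.anti c _ hk).le.trans (ih (by omega))

theorem t_lt {c : κ} {j k : ℕ} (h : j < k) (hk : k ≤ S.n c) : S.t c k < S.t c j :=
  (S.t_le (c := c) (Nat.succ_le_of_lt h) hk).trans_lt (S.anti c j (by omega))

theorem t_lt_b {c : κ} {j : ℕ} (hj : j ≤ S.n c) : S.t c j < S.b c :=
  (S.t_le (Nat.zero_le j) hj).trans_lt (S.lt c)

theorem a_lt_t {c : κ} {j : ℕ} (hj : j ≤ S.n c) : S.a c < S.t c j :=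
  (S.gt c).trans_le (S.t_le hj le_rfl)

theorem t_inj {c : κ} {j k : ℕ} (hj : j ≤ S.n c) (hk : k ≤ S.n c) (h : S.t c j = S.t c k) :
    j = k := by
  rcases lt_trichotomy j k with h1 | h1 | h1
  · exact absurd h (S.t_lt h1 hk).ne'
  · exact h1
  · exact absurd h (S.t_lt h1 hj).ne

/-- middle level of a layer -/
noncomputable def mid (c : κ) (j : ℕ) : ℝ := (S.t c j + S.t c (j + 1)) / 2

theorem mid_lt {c : κ} {j : ℕ} (hj : j < S.n c) : S.mid c j < S.t c j := by
  have := S.anti c j hj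
  unfold mid; linarith

theorem lt_mid {c : κ} {j : ℕ} (hj : j < S.n c) : S.t c (j + 1) < S.mid c j := by
  have := S.anti c j hj
  unfold mid; linarith

theorem mid_lt_b {c : κ} {j : ℕ} (hj : j < S.n c) : S.mid c j < S.b c :=
  (S.mid_lt hj).trans (S.t_lt_b hj.le)

theorem a_lt_mid {c : κ} {j : ℕ} (hj : j < S.n c) : S.a c < S.mid c j :=
  (S.a_lt_t (Nat.succ_le_of_lt hj)).trans (S.lt_mid hj)

theorem sub_U' (c : κ) : S.U c ⊆ Om := subset_closure.trans (S.subO c)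

/-- inside a tile the sublevel set is in one zone -/
theorem mem_U {c : κ} {i : ι} {x : E} (hx : x ∈ P (T.H i)) (hxU : x ∈ S.U c)
    (hxb : S.φ x < S.b c) {y : E} (hy : y ∈ P (T.H i)) (hyb : S.φ y < S.b c) : y ∈ S.U c := by
  obtain ⟨g, hg⟩ := S.aff c i ⟨x, hx, hxU⟩
  set C : Set E := {z | z ∈ P (T.H i) ∧ S.φ z < S.b c} with hC
  have hconv : Convex ℝ C := by
    have : C = P (T.H i) ∩ {z | g z < S.b c} := by
      ext z
      constructor
      · rintro ⟨h1, h2⟩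
        refine ⟨h1, ?_⟩
        show g z < S.b c
        rw [← hg h1]; exact h2
      · rintro ⟨h1, h2⟩
        refine ⟨h1, ?_⟩
        show S.φ z < S.b c
        rw [hg h1]; exact h2
    rw [this]
    refine (convex_P _).inter ?_
    exact (convex_Iio (S.b c)).affine_preimage g
  have hsub : C ⊆ S.U c := by
    refine hconv.isPreconnected.subset_left_of_subset_union (S.opn c)
      (isClosed_closure (s := S.U c)).isOpen_compl ?_ ?_ ⟨x, ⟨hx, hxb⟩, hxU⟩
    · rw [Set.disjoint_left]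
      intro z hz hz'
      exact hz' (subset_closure hz)
    · rintro z ⟨_, hz⟩
      by_cases h1 : z ∈ closure (S.U c)
      · left
        by_contra h2
        have h3 : z ∈ frontier (S.U c) := by
          rw [frontier, (S.opn c).interior_eq]; exact ⟨h1, h2⟩
        exact absurd (S.fr c z h3) (not_le.2 hz)
      · exact Or.inr h1
  exact hsub ⟨hy, hyb⟩

/-- the tile `i` meets the band of `c` -/
def Cut (c : κ) (i : ι) : Prop := (P (T.H i) ∩ S.Bd c).Nonempty

theorem cut_unique {c c' : κ} {i : ι} (h : S.Cut c i) (h' : S.Cut c' i) : c = c' := by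
  obtain ⟨y, hy, hyU, hya, hyb⟩ := h
  obtain ⟨y', hy', hyU', hya', hyb'⟩ := h'
  by_contra hne
  rcases le_total (S.b c) (S.b c') with hb | hb
  · have := S.mem_U hy' hyU' hyb' hy (hyb.trans_le hb)
    exact Set.disjoint_left.1 (S.dis c c' hne) hyU this
  · have := S.mem_U hy hyU hyb hy' (hyb'.trans_le hb)
    exact Set.disjoint_left.1 (S.dis c c' hne) this hyU'

theorem Cut.aff {S : Slc T κ} {c : κ} {i : ι} (h : S.Cut c i) : AffOn S.φ (P (T.H i)) := by
  obtain ⟨y, hy, hyU, _⟩ := h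
  exact S.aff c i ⟨y, hy, hyU⟩

theorem Cut.mem_U {S : Slc T κ} {c : κ} {i : ι} (h : S.Cut c i) {y : E} (hy : y ∈ P (T.H i))
    (hyb : S.φ y < S.b c) : y ∈ S.U c := by
  obtain ⟨x, hx, hxU, _, hxb⟩ := h
  exact S.mem_U hx hxU hxb hy hyb

theorem cut_of_mem {c : κ} {x : E} (hx : x ∈ S.Bd c) {i : ι} (hi : x ∈ P (T.H i)) : S.Cut c i :=
  ⟨x, hi, hx⟩

theorem Bd_sub {c : κ} {x : E} (hx : x ∈ S.Bd c) : x ∈ Om := S.sub_U' c hx.1

/-- `φ` is affine on the cells of the band -/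
theorem aff_cc {c : κ} {x : E} (hx : x ∈ S.Bd c) : AffOn S.φ (T.cc x) := by
  obtain ⟨i, hi⟩ := T.cov x (S.Bd_sub hx)
  exact (S.cut_of_mem hx hi).aff.mono (T.cc_sub_tile hi)

theorem cc_mem_U {c : κ} {x : E} (hx : x ∈ S.Bd c) {y : E} (hy : y ∈ T.cc x)
    (hyb : S.φ y < S.b c) : y ∈ S.U c := by
  obtain ⟨i, hi⟩ := T.cov x (S.Bd_sub hx)
  exact (S.cut_of_mem hx hi).mem_U (T.cc_sub_tile hi hy) hyb

variable [FiniteDimensional ℝ E]

/-- low and high vertices of the cells of the band -/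
theorem exists_low {c : κ} {x : E} (hx : x ∈ S.Bd c) : ∃ v ∈ T.cc x, S.φ v ≤ S.a c := by
  obtain ⟨v, hv, hv0, hmin⟩ := exists_min_vertex (S.Bd_sub hx) (S.aff_cc hx)
  have h1 : S.φ v < S.b c := (hmin x (T.self_mem_cc x)).trans_lt hx.2.2
  rcases S.vert c v (S.cc_mem_U hx hv h1) hv0 with h | h
  · exact ⟨v, hv, h⟩
  · exact absurd h1 (not_lt.2 h)

theorem exists_high {c : κ} {x : E} (hx : x ∈ S.Bd c) : ∃ v ∈ T.cc x, S.b c ≤ S.φ v := by
  obtain ⟨v, hv, hv0, hmax⟩ := exists_max_vertex (S.Bd_sub hx) (S.aff_cc hx)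
  refine ⟨v, hv, ?_⟩
  by_contra h
  push Not at h
  have h2 := hmax x (T.self_mem_cc x)
  rcases S.vert c v (S.cc_mem_U hx hv h) hv0 with h1 | h1
  · have := hx.2.1
    linarith
  · linarith

/-- every level of the band is attained on every open cell of the band -/
theorem exists_level {c : κ} {x : E} (hx : x ∈ S.Bd c) {s : ℝ} (hs : S.a c < s)
    (hs' : s < S.b c) : ∃ y ∈ T.oc x, S.φ y = s := by
  have hA := S.aff_cc hx
  obtain ⟨v, hv, hva⟩ := S.exists_low hx
  obtain ⟨w, hw, hwb⟩ := S.exists_high hx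
  have key : ∀ v ∈ T.cc x, ∀ r : ℝ, 0 < r → ∃ y ∈ T.oc x, |S.φ y - S.φ v| < r := by
    intro v hv r hr
    set D := |S.φ x - S.φ v| + 1 with hD
    have hD0 : 0 < D := by positivity
    set ε := min 1 (r / (2 * D)) with hε
    have hε0 : 0 < ε := by positivity
    have hε1 : ε ≤ 1 := min_le_left _ _
    have hy := T.move_mem_oc hv hε0 hε1
    refine ⟨_, hy, ?_⟩
    rw [hA.line hv (T.self_mem_cc x) (T.oc_sub_cc x hy), add_sub_cancel_left, abs_mul,
      abs_of_pos hε0]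
    calc ε * |S.φ x - S.φ v| ≤ r / (2 * D) * D :=
          mul_le_mul (min_le_right _ _) (by rw [hD]; linarith) (abs_nonneg _) (by positivity)
      _ = r / 2 := by field_simp
      _ < r := by linarith
  obtain ⟨y, hy, h1⟩ := key v hv (s - S.a c) (by linarith)
  obtain ⟨z, hz, h2⟩ := key w hw (S.b c - s) (by linarith)
  rw [abs_lt] at h1 h2
  have h3 : S.φ y < s := by linarith
  have h4 : s < S.φ z := by linarith
  set τ := (s - S.φ y) / (S.φ z - S.φ y) with hτ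
  have hd : 0 < S.φ z - S.φ y := by linarith
  have hτ0 : 0 ≤ τ := div_nonneg (by linarith) hd.le
  have hτ1 : τ ≤ 1 := by rw [hτ, div_le_one hd]; linarith
  have hm : y + τ • (z - y) ∈ T.oc x := (T.convex_oc x).add_smul_sub_mem hy hz ⟨hτ0, hτ1⟩
  refine ⟨_, hm, ?_⟩
  rw [hA.line (T.oc_sub_cc x hy) (T.oc_sub_cc x hz) (T.oc_sub_cc x hm), hτ]
  field_simp
  ring

/-- a point of the open cell of `x` at the level `s` -/
noncomputable def lv (c : κ) (x : E) (s : ℝ) : E :=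
  if h : x ∈ S.Bd c ∧ S.a c < s ∧ s < S.b c then (S.exists_level h.1 h.2.1 h.2.2).choose else x

theorem lv_mem {c : κ} {x : E} (hx : x ∈ S.Bd c) {s : ℝ} (hs : S.a c < s) (hs' : s < S.b c) :
    S.lv c x s ∈ T.oc x ∧ S.φ (S.lv c x s) = s := by
  unfold lv
  rw [dif_pos ⟨hx, hs, hs'⟩]
  exact (S.exists_level hx hs hs').choose_spec

theorem lv_Bd {c : κ} {x : E} (hx : x ∈ S.Bd c) {s : ℝ} (hs : S.a c < s) (hs' : s < S.b c) :
    S.lv c x s ∈ S.Bd c := by
  obtain ⟨h1, h2⟩ := S.lv_mem hx hs hs'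
  exact ⟨S.cc_mem_U hx (T.oc_sub_cc x h1) (by rw [h2]; exact hs'), by rw [h2]; exact hs,
    by rw [h2]; exact hs'⟩

/-- `φ` is not constant along the directions of a cell of the band -/
theorem exists_dir {c : κ} {x : E} (hx : x ∈ S.Bd c) :
    ∃ L : E →ₗ[ℝ] ℝ, (∀ y ∈ T.cc x, ∀ z ∈ T.cc x, S.φ z = S.φ y + L (z - y)) ∧
      ∃ v ∈ T.V x, L v ≠ 0 := by
  obtain ⟨L, hL⟩ := (S.aff_cc hx).exists_lin
  obtain ⟨v, hv, hva⟩ := S.exists_low hx
  refine ⟨L, hL, v - x, T.sub_mem_V hv, fun h => ?_⟩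
  have := hL x (T.self_mem_cc x) v hv
  rw [h, add_zero] at this
  have := hx.2.1
  linarith

end Slc

end Crest.Agent.R096.Slc_184
end

-- ▼ part R096/Slc3_184
section

/-!
# Row 96, DOORS, leaf SLC (helper184), part 3: the sliced tiling `S.T3` and its cells.
-/

set_option autoImplicit false
set_option linter.unusedSectionVars false

open Set Filter Topology Metric
open scoped Classical

namespace Crest.Agent.R096.Slc_184

open Crest.Agent.R096.Msh_715

variable {E : Type} [NormedAddCommGroup E] [NormedSpace ℝ E] [FiniteDimensional ℝ E]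
variable {Om : Set E} {ι : Type}

namespace Slc

variable {T : Tiling Om ι} {κ : Type} (S : Slc T κ)

/-- the affine function on a cut tile -/
noncomputable def af (i : ι) : E →ᵃ[ℝ] ℝ :=
  if h : AffOn S.φ (P (T.H i)) then h.choose else AffineMap.const ℝ E 0

theorem af_eq {i : ι} (h : AffOn S.φ (P (T.H i))) : EqOn S.φ (S.af i) (P (T.H i)) := by
  unfold af
  rw [dif_pos h]
  exact h.choose_spec

/-- the plane of the level `s` in the tile `i` -/
noncomputable def pl (i : ι) (s : ℝ) : (E →L[ℝ] ℝ) × ℝ :=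
  (LinearMap.toContinuousLinearMap (S.af i).linear, s - S.af i 0)

theorem af_apply (i : ι) (y : E) : S.af i y = (S.af i).linear y + S.af i 0 := by
  have := (S.af i).linearMap_vsub y 0
  rw [vsub_eq_sub, vsub_eq_sub, sub_zero] at this
  rw [this]; ring

theorem pl_le {i : ι} (h : AffOn S.φ (P (T.H i))) {y : E} (hy : y ∈ P (T.H i)) (s : ℝ) :
    (S.pl i s).1 y ≤ (S.pl i s).2 ↔ S.φ y ≤ s := by
  rw [S.af_eq h hy, S.af_apply]
  show (S.af i).linear y ≤ s - S.af i 0 ↔ _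
  constructor <;> intro h <;> linarith

theorem pl_ge {i : ι} (h : AffOn S.φ (P (T.H i))) {y : E} (hy : y ∈ P (T.H i)) (s : ℝ) :
    (S.pl i s).2 ≤ (S.pl i s).1 y ↔ s ≤ S.φ y := by
  rw [S.af_eq h hy, S.af_apply]
  show s - S.af i 0 ≤ (S.af i).linear y ↔ _
  constructor <;> intro h <;> linarith

theorem pl_eq {i : ι} (h : AffOn S.φ (P (T.H i))) {y : E} (hy : y ∈ P (T.H i)) (s : ℝ) :
    (S.pl i s).1 y = (S.pl i s).2 ↔ S.φ y = s := by
  rw [le_antisymm_iff, S.pl_le h hy, S.pl_ge h hy, ← le_antisymm_iff]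

/-- the cutting planes -/
noncomputable def HH (i : ι) : Finset ((E →L[ℝ] ℝ) × ℝ) :=
  if h : ∃ c, S.Cut c i then
    (Finset.range (S.n h.choose + 1)).image fun j => S.pl i (S.t h.choose j)
  else ∅

theorem mem_HH {i : ι} {h : (E →L[ℝ] ℝ) × ℝ} :
    h ∈ S.HH i ↔ ∃ c, S.Cut c i ∧ ∃ j ≤ S.n c, S.pl i (S.t c j) = h := by
  unfold HH
  by_cases hex : ∃ c, S.Cut c i
  · rw [dif_pos hex, Finset.mem_image]
    constructor
    · rintro ⟨j, hj, e⟩
      exact ⟨_, hex.choose_spec, j, Nat.lt_succ_iff.1 (Finset.mem_range.1 hj), e⟩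
    · rintro ⟨c, hc, j, hj, e⟩
      have : c = hex.choose := S.cut_unique hc hex.choose_spec
      subst this
      exact ⟨j, Finset.mem_range.2 (Nat.lt_succ_iff.2 hj), e⟩
  · rw [dif_neg hex]
    simp only [Finset.notMem_empty, false_iff]
    rintro ⟨c, hc, _⟩
    exact hex ⟨c, hc⟩

theorem h0 : ∀ i, ∀ h ∈ S.HH i, h.1 ≠ 0 := by
  intro i h hh e
  obtain ⟨c, hc, j, hj, rfl⟩ := S.mem_HH.1 hh
  obtain ⟨x, hx, hxB⟩ := hc
  have hA : AffOn S.φ (P (T.H i)) := Cut.aff ⟨x, hx, hxB⟩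
  obtain ⟨v, hv, hva⟩ := S.exists_low hxB
  have hv' := T.cc_sub_tile hx hv
  have h1 := S.af_apply i v
  have h2 := S.af_apply i x
  have e' : ∀ y, (S.af i).linear y = 0 := fun y => by
    have := congrArg (fun f : E →L[ℝ] ℝ => f y) e
    exact this
  rw [e', zero_add] at h1 h2
  rw [← S.af_eq hA hv'] at h1
  rw [← S.af_eq hA hx] at h2
  have := hxB.2.1
  linarith

/-- **the sliced tiling** -/
noncomputable def T3 : Tiling Om (T.RIdx S.HH) := T.refine S.HH S.h0

theorem mem_cc3 {x y : E} : y ∈ S.T3.cc x ↔ y ∈ T.cc x ∧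
    ∀ i ∈ T.at_ x, ∀ c, S.Cut c i → ∀ j ≤ S.n c,
      (S.φ x ≤ S.t c j → S.φ y ≤ S.t c j) ∧ (S.t c j ≤ S.φ x → S.t c j ≤ S.φ y) := by
  unfold T3
  rw [mem_refine_cc]
  constructor
  · rintro ⟨h1, h2⟩
    refine ⟨h1, fun i hi c hc j hj => ?_⟩
    have h3 := h2 i hi _ (S.mem_HH.2 ⟨c, hc, j, hj, rfl⟩)
    rw [S.pl_le hc.aff hi, S.pl_le hc.aff (T.cc_sub_tile hi h1), S.pl_ge hc.aff hi,
      S.pl_ge hc.aff (T.cc_sub_tile hi h1)] at h3
    exact h3
  · rintro ⟨h1, h2⟩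
    refine ⟨h1, fun i hi h hh => ?_⟩
    obtain ⟨c, hc, j, hj, rfl⟩ := S.mem_HH.1 hh
    rw [S.pl_le hc.aff hi, S.pl_le hc.aff (T.cc_sub_tile hi h1), S.pl_ge hc.aff hi,
      S.pl_ge hc.aff (T.cc_sub_tile hi h1)]
    exact h2 i hi c hc j hj

theorem mem_oc3 {x y : E} (hx : x ∈ Om) : y ∈ S.T3.oc x ↔ y ∈ T.oc x ∧
    ∀ i ∈ T.at_ x, ∀ c, S.Cut c i → ∀ j ≤ S.n c,
      (S.φ y ≤ S.t c j ↔ S.φ x ≤ S.t c j) ∧ (S.t c j ≤ S.φ y ↔ S.t c j ≤ S.φ x) := by
  unfold T3
  rw [mem_refine_oc _ _ hx]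
  constructor
  · rintro ⟨h1, h2⟩
    refine ⟨h1, fun i hi c hc j hj => ?_⟩
    have h3 := h2 i hi _ (S.mem_HH.2 ⟨c, hc, j, hj, rfl⟩)
    have hy := T.cc_sub_tile hi (T.oc_sub_cc x h1)
    rw [S.pl_le hc.aff hi, S.pl_le hc.aff hy, S.pl_ge hc.aff hi, S.pl_ge hc.aff hy] at h3
    exact h3
  · rintro ⟨h1, h2⟩
    refine ⟨h1, fun i hi h hh => ?_⟩
    obtain ⟨c, hc, j, hj, rfl⟩ := S.mem_HH.1 hh
    have hy := T.cc_sub_tile hi (T.oc_sub_cc x h1)
    rw [S.pl_le hc.aff hi, S.pl_le hc.aff hy, S.pl_ge hc.aff hi, S.pl_ge hc.aff hy]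
    exact h2 i hi c hc j hj

theorem cc3_sub (x : E) : S.T3.cc x ⊆ T.cc x := fun _ h => (S.mem_cc3.1 h).1

theorem oc3_sub (x : E) : S.T3.oc x ⊆ T.oc x := T.refine_oc_sub S.h0 x

/-! ### cells of the band -/

theorem mem_cc_band {c : κ} {x y : E} (hx : x ∈ S.Bd c) : y ∈ S.T3.cc x ↔ y ∈ T.cc x ∧
    ∀ j ≤ S.n c, (S.φ x ≤ S.t c j → S.φ y ≤ S.t c j) ∧ (S.t c j ≤ S.φ x → S.t c j ≤ S.φ y) := by
  rw [S.mem_cc3]
  constructor
  · rintro ⟨h1, h2⟩
    obtain ⟨i, hi⟩ := T.cov x (S.Bd_sub hx)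
    exact ⟨h1, h2 i hi c (S.cut_of_mem hx hi)⟩
  · rintro ⟨h1, h2⟩
    refine ⟨h1, fun i hi c' hc' => ?_⟩
    rw [S.cut_unique hc' (S.cut_of_mem hx hi)]
    exact h2

theorem mem_oc_band {c : κ} {x y : E} (hx : x ∈ S.Bd c) : y ∈ S.T3.oc x ↔ y ∈ T.oc x ∧
    ∀ j ≤ S.n c, (S.φ y ≤ S.t c j ↔ S.φ x ≤ S.t c j) ∧ (S.t c j ≤ S.φ y ↔ S.t c j ≤ S.φ x) := by
  rw [S.mem_oc3 (S.Bd_sub hx)]
  constructor
  · rintro ⟨h1, h2⟩
    obtain ⟨i, hi⟩ := T.cov x (S.Bd_sub hx)
    exact ⟨h1, h2 i hi c (S.cut_of_mem hx hi)⟩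
  · rintro ⟨h1, h2⟩
    refine ⟨h1, fun i hi c' hc' => ?_⟩
    rw [S.cut_unique hc' (S.cut_of_mem hx hi)]
    exact h2

/-- a point of a slice -/
def OnS (c : κ) (j : ℕ) (x : E) : Prop := x ∈ S.U c ∧ j ≤ S.n c ∧ S.φ x = S.t c j

theorem OnS.bd {S : Slc T κ} {c : κ} {j : ℕ} {x : E} (h : S.OnS c j x) : x ∈ S.Bd c :=
  ⟨h.1, by rw [h.2.2]; exact S.a_lt_t h.2.1, by rw [h.2.2]; exact S.t_lt_b h.2.1⟩

/-- a point in a layer -/
def InL (c : κ) (j : ℕ) (x : E) : Prop :=
  x ∈ S.U c ∧ j < S.n c ∧ S.t c (j + 1) < S.φ x ∧ S.φ x < S.t c j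

theorem InL.bd {S : Slc T κ} {c : κ} {j : ℕ} {x : E} (h : S.InL c j x) : x ∈ S.Bd c :=
  ⟨h.1, (S.a_lt_t (Nat.succ_le_of_lt h.2.1)).trans h.2.2.1, h.2.2.2.trans (S.t_lt_b h.2.1.le)⟩

theorem OnS.cc {S : Slc T κ} {c : κ} {j : ℕ} {x : E} (h : S.OnS c j x) {y : E} :
    y ∈ S.T3.cc x ↔ y ∈ T.cc x ∧ S.φ y = S.t c j := by
  rw [S.mem_cc_band h.bd]
  constructor
  · rintro ⟨h1, h2⟩
    have := h2 j h.2.1
    rw [h.2.2] at this
    exact ⟨h1, le_antisymm (this.1 le_rfl) (this.2 le_rfl)⟩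
  · rintro ⟨h1, h2⟩
    refine ⟨h1, fun k _ => ?_⟩
    rw [h2, h.2.2]
    exact ⟨id, id⟩

theorem OnS.oc {S : Slc T κ} {c : κ} {j : ℕ} {x : E} (h : S.OnS c j x) {y : E} :
    y ∈ S.T3.oc x ↔ y ∈ T.oc x ∧ S.φ y = S.t c j := by
  rw [S.mem_oc_band h.bd]
  constructor
  · rintro ⟨h1, h2⟩
    have := h2 j h.2.1
    rw [h.2.2] at this
    exact ⟨h1, le_antisymm (this.1.2 le_rfl) (this.2.2 le_rfl)⟩
  · rintro ⟨h1, h2⟩
    refine ⟨h1, fun k _ => ?_⟩
    rw [h2, h.2.2]
    exact ⟨Iff.rfl, Iff.rfl⟩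

theorem InL.cc {S : Slc T κ} {c : κ} {j : ℕ} {x : E} (h : S.InL c j x) {y : E} :
    y ∈ S.T3.cc x ↔ y ∈ T.cc x ∧ S.t c (j + 1) ≤ S.φ y ∧ S.φ y ≤ S.t c j := by
  rw [S.mem_cc_band h.bd]
  obtain ⟨_, hj, h1, h2⟩ := h
  constructor
  · rintro ⟨h3, h4⟩
    exact ⟨h3, (h4 (j + 1) (by omega)).2 h1.le, (h4 j (by omega)).1 h2.le⟩
  · rintro ⟨h3, h4, h5⟩
    refine ⟨h3, fun k hk => ?_⟩
    rcases Nat.lt_or_ge j k with hjk | hjk
    · have h6 : S.t c k ≤ S.t c (j + 1) := S.t_le (by omega) hk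
      exact ⟨fun h => by linarith, fun _ => by linarith⟩
    · have h6 : S.t c j ≤ S.t c k := S.t_le hjk (by omega)
      exact ⟨fun _ => by linarith, fun h => by linarith⟩

theorem InL.oc {S : Slc T κ} {c : κ} {j : ℕ} {x : E} (h : S.InL c j x) {y : E} :
    y ∈ S.T3.oc x ↔ y ∈ T.oc x ∧ S.t c (j + 1) < S.φ y ∧ S.φ y < S.t c j := by
  rw [S.mem_oc_band h.bd]
  obtain ⟨_, hj, h1, h2⟩ := h
  constructor
  · rintro ⟨h3, h4⟩
    refine ⟨h3, ?_, ?_⟩
    · by_contra hc
      have := (h4 (j + 1) (by omega)).1.1 (not_lt.1 hc)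
      linarith
    · by_contra hc
      have := (h4 j (by omega)).2.1 (not_lt.1 hc)
      linarith
  · rintro ⟨h3, h4, h5⟩
    refine ⟨h3, fun k hk => ?_⟩
    rcases Nat.lt_or_ge j k with hjk | hjk
    · have h6 : S.t c k ≤ S.t c (j + 1) := S.t_le (by omega) hk
      exact ⟨⟨fun h => by linarith, fun h => by linarith⟩,
        ⟨fun _ => by linarith, fun _ => by linarith⟩⟩
    · have h6 : S.t c j ≤ S.t c k := S.t_le hjk (by omega)
      exact ⟨⟨fun _ => by linarith, fun _ => by linarith⟩,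
        ⟨fun h => by linarith, fun h => by linarith⟩⟩

/-! ### dimensions -/

theorem mem_V3 {x v : E} : v ∈ S.T3.V x ↔ v ∈ T.V x ∧
    ∀ i ∈ T.at_ x, ∀ c, S.Cut c i → ∀ j ≤ S.n c, S.φ x = S.t c j → (S.af i).linear v = 0 := by
  unfold T3
  rw [mem_refine_V]
  constructor
  · rintro ⟨h1, h2⟩
    refine ⟨h1, fun i hi c hc j hj e => ?_⟩
    exact h2 i hi _ (S.mem_HH.2 ⟨c, hc, j, hj, rfl⟩) ((S.pl_eq hc.aff hi _).2 e)
  · rintro ⟨h1, h2⟩
    refine ⟨h1, fun i hi h hh e => ?_⟩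
    obtain ⟨c, hc, j, hj, rfl⟩ := S.mem_HH.1 hh
    exact h2 i hi c hc j hj ((S.pl_eq hc.aff hi _).1 e)

/-- off the slices the dimension does not change -/
theorem dim3_off {x : E} (h : ∀ c j, ¬ S.OnS c j x) : S.T3.dim x = T.dim x := by
  have : S.T3.V x = T.V x := by
    ext v
    rw [S.mem_V3]
    refine ⟨fun h => h.1, fun hv => ⟨hv, fun i hi c hc j hj e => ?_⟩⟩
    exact absurd ⟨hc.mem_U hi (by rw [e]; exact S.t_lt_b hj), hj, e⟩ (h c j)
  unfold Tiling.dim
  rw [this]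

/-- on a slice the dimension drops by one -/
theorem dim3_on {c : κ} {j : ℕ} {x : E} (h : S.OnS c j x) : S.T3.dim x + 1 = T.dim x := by
  obtain ⟨L, hL, v, hv, hLv⟩ := S.exists_dir h.bd
  have hxO := S.Bd_sub h.bd
  -- the linear parts agree with `L` on the directions of the cell
  have hlin : ∀ i ∈ T.at_ x, ∀ w ∈ T.V x, (S.af i).linear w = L w := by
    intro i hi w hw
    obtain ⟨r, hr, hb⟩ := T.exists_ball_oc hxO
    by_cases hw0 : w = 0
    · rw [hw0, map_zero, map_zero]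
    have hwn : 0 < ‖w‖ := norm_pos_iff.2 hw0
    set ε := r / (2 * ‖w‖) with hε
    have hε0 : 0 < ε := by positivity
    have hm : x + ε • w ∈ T.cc x := T.oc_sub_cc x (hb _ ((T.V x).smul_mem _ hw) (by
      rw [norm_smul, Real.norm_eq_abs, abs_of_pos hε0, hε]
      have : r / (2 * ‖w‖) * ‖w‖ = r / 2 := by field_simp
      rw [this]; linarith))
    have hA : AffOn S.φ (P (T.H i)) := (S.cut_of_mem h.bd hi).aff
    have h1 := hL x (T.self_mem_cc x) _ hm
    rw [add_sub_cancel_left, S.af_eq hA (T.cc_sub_tile hi hm), S.af_eq hA hi, S.af_apply,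
      S.af_apply i x, map_add, map_smul, map_smul, smul_eq_mul, smul_eq_mul] at h1
    have h2 : ε * (S.af i).linear w = ε * L w := by linarith
    exact mul_left_cancel₀ hε0.ne' h2
  -- the directions form the kernel of `L` on `V x`
  let l : T.V x →ₗ[ℝ] ℝ := L.comp (T.V x).subtype
  have hker : S.T3.V x = (LinearMap.ker l).map (T.V x).subtype := by
    ext w
    rw [S.mem_V3, Submodule.mem_map]
    constructor
    · rintro ⟨h1, h2⟩
      obtain ⟨i, hi⟩ := T.cov x hxO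
      refine ⟨⟨w, h1⟩, ?_, rfl⟩
      rw [LinearMap.mem_ker]
      show L w = 0
      rw [← hlin i hi w h1]
      exact h2 i hi c (S.cut_of_mem h.bd hi) j h.2.1 h.2.2
    · rintro ⟨⟨w', hw'⟩, h1, rfl⟩
      rw [LinearMap.mem_ker] at h1
      refine ⟨hw', fun i hi c' hc' j' hj' e => ?_⟩
      show (S.af i).linear w' = 0
      rw [hlin i hi w' hw']
      exact h1
  have h1 := LinearMap.finrank_range_add_finrank_ker l
  have h2 : LinearMap.range l = ⊤ := by
    rw [LinearMap.range_eq_top]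
    intro s
    refine ⟨(s / L v) • ⟨v, hv⟩, ?_⟩
    rw [map_smul]
    show (s / L v) • L v = s
    rw [smul_eq_mul, div_mul_cancel₀ _ hLv]
  rw [h2, finrank_top, Module.finrank_self] at h1
  have h3 : Module.finrank ℝ (S.T3.V x) = Module.finrank ℝ (LinearMap.ker l) := by
    rw [hker]
    exact Submodule.finrank_map_subtype_eq _ _
  unfold Tiling.dim
  rw [h3]
  omega

end Slc

end Crest.Agent.R096.Slc_184
end

-- ▼ part R096/Slc4_184
section

/-!
# Row 96, DOORS, leaf SLC (helper184), part 4: the cores `KK k c`, points of the slices and layers,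
diagonal faces.
-/

set_option autoImplicit false
set_option linter.unusedSectionVars false

open Set Filter Topology Metric
open scoped Classical

namespace Crest.Agent.R096.Slc_184

open Crest.Agent.R096.Msh_715 Crest.Agent.R096.Agl5_543 Crest.Agent.R096.St_147

variable {E : Type} [NormedAddCommGroup E] [NormedSpace ℝ E] [FiniteDimensional ℝ E]
variable {Om : Set E} {ι : Type}

section general

variable {T : Tiling Om ι}

theorem mem_oc_of_dim {x y : E} (hy : y ∈ T.cc x) (hd : T.dim x ≤ T.dim y) :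
    y ∈ T.oc x := by
  by_contra h
  have := T.dim_lt hy h
  omega

theorem c2_eq_mk {F : C2 T} {x : E} (hx : x ∈ Om) (hd : T.dim x = 2) (h : x ∈ F.set) :
    F = mk2 T hx hd := by
  apply C2.ext
  rw [F.set_eq] at h ⊢
  have h1 : x ∈ T.oc F.pt := mem_oc_of_dim h (by rw [F.dim_pt, hd])
  rw [mk2_set]
  exact (T.cc_eq_of_mem_oc F.pt_mem h1).symm

theorem mk2_pt {x : E} (hx : x ∈ Om) (hd : T.dim x = 2) : (mk2 T hx hd).pt ∈ T.oc x := T.pt_cl hx


/-- the tile of a point of full dimension -/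
noncomputable def tl (T : Tiling Om ι) {x : E} (hx : x ∈ Om)
    (hd : T.dim x = Module.finrank ℝ E) : ι :=
  ((T.V_eq_top_iff hx).1 (Submodule.eq_top_of_finrank_eq hd)).choose

theorem tl_mem {x : E} (hx : x ∈ Om) (hd : T.dim x = Module.finrank ℝ E) :
    x ∈ I (T.H (tl T hx hd)) :=
  ((T.V_eq_top_iff hx).1 (Submodule.eq_top_of_finrank_eq hd)).choose_spec

theorem tl_P {x : E} (hx : x ∈ Om) (hd : T.dim x = Module.finrank ℝ E) :
    P (T.H (tl T hx hd)) = T.cc x := (T.cc_eq_tile (tl_mem hx hd)).symm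

theorem tl_eq {x : E} (hx : x ∈ Om) (hd : T.dim x = Module.finrank ℝ E) {q : ι}
    (hq : x ∈ P (T.H q)) : q = tl T hx hd := by
  have := T.at_eq_singleton (tl_mem hx hd)
  have h1 : q ∈ T.at_ x := hq
  rw [this] at h1
  exact h1

theorem exists_full (T : Tiling Om ι) (q : ι) :
    ∃ x, x ∈ I (T.H q) ∧ x ∈ Om ∧ T.dim x = Module.finrank ℝ E := by
  obtain ⟨x, hx⟩ := T.ne q
  have hO : x ∈ Om := T.sub q (I_sub_P _ hx)
  refine ⟨x, hx, hO, ?_⟩
  unfold Tiling.dim
  rw [(T.V_eq_top_iff hO).2 ⟨q, hx⟩, finrank_top]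

variable {κ : Type} {Kc : κ → Set E}

/-- the faces of the merged mesh: not inside a core -/
theorem diag_iff (h3 : Module.finrank ℝ E = 3) (hK : ∀ c, Core (Kc c)) (hKO : ∀ c, Kc c ⊆ Om)
    (hs : ∀ c, ∀ x ∈ frontier (Kc c), T.cc x ⊆ frontier (Kc c))
    (hdis : ∀ c c', c ≠ c' → Disjoint (Kc c) (Kc c')) (F : C2 T) :
    (((meshC T h3).side F).map (piK T Kc)).IsDiag ↔ ∃ c, F.pt ∈ interior (Kc c) := by
  obtain ⟨x, hne, hat, -⟩ := F.exists_side h3
  have hm : ∀ q, q ∈ (meshC T h3).side F ↔ q ∈ T.at_ F.pt := fun q => C2.mem_side (h3 := h3)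
  rw [map_isDiag_iff]
  constructor
  · intro h
    have h1 : x.1 ∈ T.at_ F.pt := by rw [hat]; exact mem_insert _ _
    have h2 : x.2 ∈ T.at_ F.pt := by rw [hat]; exact mem_insert_of_mem _ rfl
    have h4 := h x.1 ((hm _).2 h1) x.2 ((hm _).2 h2)
    rcases hpi : piK T Kc x.1 with q | c
    · rw [hpi] at h4
      have h5 := (piK_inl.1 hpi).1
      have h6 := (piK_inl.1 h4.symm).1
      exact absurd (h5.trans h6.symm) hne
    · rw [hpi] at h4
      have h5 := (piK_inr hdis).1 hpi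
      have h6 := (piK_inr hdis).1 h4.symm
      refine ⟨c, ?_⟩
      have h7 : F.pt ∈ Kc c := h5 h1
      by_contra h8
      have h9 : F.pt ∈ frontier (Kc c) := by
        rw [(hK c).closed.frontier_eq]; exact ⟨h7, h8⟩
      exact (T.mem_frontier_iff (hK c) (hKO c) (hs c) F.pt_mem hat).1 h9 (iff_of_true h5 h6)
  · rintro ⟨c, hc⟩ q hq q' hq'
    have h1 := T.sub_of_mem_interior (hK c).closed (hs c) ((hm q).1 hq) hc
    have h2 := T.sub_of_mem_interior (hK c).closed (hs c) ((hm q').1 hq') hc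
    rw [(piK_inr hdis).2 h1, (piK_inr hdis).2 h2]

end general

namespace Slc

variable {T : Tiling Om ι} {κ : Type} (S : Slc T κ)

/-- the cores -/
def KK (k : κ → ℕ) (c : κ) : Set E := {x | x ∈ S.U c ∧ S.φ x ≤ S.t c (k c)}

section KK

variable {S}
variable {k : κ → ℕ} (hk : ∀ c, k c ≤ S.n c)

include hk in
theorem isClosed_KK (c : κ) : IsClosed (S.KK k c) := by
  have h1 : S.KK k c = {x | x ∈ closure (S.U c) ∧ S.φ x ≤ S.t c (k c)} := by
    ext x
    constructor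
    · rintro ⟨h1, h2⟩; exact ⟨subset_closure h1, h2⟩
    · rintro ⟨h1, h2⟩
      refine ⟨?_, h2⟩
      by_contra h4
      have h5 : x ∈ frontier (S.U c) := by
        rw [frontier, (S.opn c).interior_eq]; exact ⟨h1, h4⟩
      have h6 := S.fr c x h5
      have h7 := S.t_lt_b (hk c)
      linarith
  rw [h1]
  have h2 : ContinuousOn S.φ (closure (S.U c)) := S.cont.mono (S.subO c)
  have := h2.preimage_isClosed_of_isClosed isClosed_closure (isClosed_Iic (a := S.t c (k c)))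
  exact this

theorem KK_sub (k : κ → ℕ) (c : κ) : S.KK k c ⊆ Om := fun _ h => S.sub_U' c h.1

include hk in
theorem interior_KK (c : κ) : interior (S.KK k c) = {x | x ∈ S.U c ∧ S.φ x < S.t c (k c)} := by
  apply Subset.antisymm
  · intro x hx
    have hxK := interior_subset hx
    refine ⟨hxK.1, lt_of_le_of_ne hxK.2 fun e => ?_⟩
    have hOn : S.OnS c (k c) x := ⟨hxK.1, hk c, e⟩
    obtain ⟨L, hL, v, hv, hLv⟩ := S.exists_dir hOn.bd
    obtain ⟨r, hr, hb⟩ := T.exists_ball_oc (S.Bd_sub hOn.bd)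
    obtain ⟨r', hr', hb'⟩ := Metric.isOpen_iff.1 isOpen_interior x hx
    -- a direction with positive slope
    obtain ⟨w, hw, hLw⟩ : ∃ w ∈ T.V x, 0 < L w := by
      rcases lt_or_gt_of_ne hLv with h | h
      · exact ⟨-v, (T.V x).neg_mem hv, by rw [map_neg]; linarith⟩
      · exact ⟨v, hv, h⟩
    have hw0 : w ≠ 0 := fun h => by rw [h, map_zero] at hLw; exact lt_irrefl _ hLw
    have hwn : 0 < ‖w‖ := norm_pos_iff.2 hw0
    set ε := min r r' / (2 * ‖w‖) with hε
    have hε0 : 0 < ε := by positivity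
    have hnorm : ‖ε • w‖ < min r r' := by
      rw [norm_smul, Real.norm_eq_abs, abs_of_pos hε0, hε]
      have h9 : 0 < min r r' := lt_min hr hr'
      have : min r r' / (2 * ‖w‖) * ‖w‖ = min r r' / 2 := by field_simp
      rw [this]; linarith
    have h1 : x + ε • w ∈ T.cc x :=
      T.oc_sub_cc x (hb _ ((T.V x).smul_mem _ hw) (hnorm.trans_le (min_le_left _ _)))
    have h2 := interior_subset (hb' (show x + ε • w ∈ ball x r' by
      rw [mem_ball, dist_eq_norm, add_sub_cancel_left]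
      exact hnorm.trans_le (min_le_right _ _)))
    have h3 := hL x (T.self_mem_cc x) _ h1
    rw [add_sub_cancel_left, map_smul, smul_eq_mul, e] at h3
    have h4 := h2.2
    have h5 : 0 < ε * L w := mul_pos hε0 hLw
    linarith
  · apply interior_maximal
    · rintro x ⟨h1, h2⟩; exact ⟨h1, h2.le⟩
    · have h1 : ContinuousOn S.φ (S.U c) := S.cont.mono (S.sub_U' c)
      have := h1.isOpen_inter_preimage (S.opn c) (isOpen_Iio (a := S.t c (k c)))
      exact this

include hk in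
theorem frontier_KK (c : κ) : frontier (S.KK k c) = {x | S.OnS c (k c) x} := by
  rw [(isClosed_KK hk c).frontier_eq, interior_KK hk c]
  ext x
  constructor
  · rintro ⟨⟨h1, h2⟩, h4⟩
    refine ⟨h1, hk c, le_antisymm h2 (not_lt.1 fun h5 => h4 ⟨h1, h5⟩)⟩
  · rintro ⟨h1, _, h2⟩
    exact ⟨⟨h1, h2.le⟩, fun h => by have := h.2; linarith⟩

include hk in
theorem hs_KK (c : κ) : ∀ x ∈ frontier (S.KK k c), S.T3.cc x ⊆ frontier (S.KK k c) := by
  intro x hx y hy
  rw [frontier_KK hk c] at hx ⊢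
  have h1 := (OnS.cc hx).1 hy
  exact ⟨S.cc_mem_U hx.bd h1.1 (by rw [h1.2]; exact S.t_lt_b (hk c)), hk c, h1.2⟩

theorem dis_KK (k : κ → ℕ) (c c' : κ) (h : c ≠ c') : Disjoint (S.KK k c) (S.KK k c') :=
  (S.dis c c' h).mono (fun _ h => h.1) (fun _ h => h.1)

end KK

/-! ### points of the slices and layers -/

variable {S}

theorem OnS.mem {c : κ} {j : ℕ} {x : E} (h : S.OnS c j x) : x ∈ Om := S.Bd_sub h.bd
theorem InL.mem {c : κ} {j : ℕ} {x : E} (h : S.InL c j x) : x ∈ Om := S.Bd_sub h.bd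

theorem OnS.core {c c' : κ} {j j' : ℕ} {x : E} (h : S.OnS c j x) (h' : S.OnS c' j' x) : c = c' := by
  by_contra hne
  exact Set.disjoint_left.1 (S.dis c c' hne) h.1 h'.1

theorem core_of_U {c c' : κ} {x : E} (h : x ∈ S.U c) (h' : x ∈ S.U c') : c = c' := by
  by_contra hne
  exact Set.disjoint_left.1 (S.dis c c' hne) h h'

theorem InL.not_onS {c c' : κ} {j j' : ℕ} {x : E} (h : S.InL c j x) : ¬ S.OnS c' j' x := by
  intro h'
  have : c = c' := core_of_U h.1 h'.1
  subst this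
  obtain ⟨_, hj, h1, h2⟩ := h
  obtain ⟨_, hj', h3⟩ := h'
  rw [h3] at h1 h2
  rcases Nat.lt_or_ge j j' with h4 | h4
  · have := S.t_le (c := c) (show j + 1 ≤ j' by omega) hj'
    linarith
  · have := S.t_le (c := c) h4 hj.le
    linarith

theorem InL.dim3 {c : κ} {j : ℕ} {x : E} (h : S.InL c j x) : S.T3.dim x = T.dim x :=
  S.dim3_off fun _ _ => h.not_onS

/-- the point at the level `j` in the open cell of `x` -/
theorem onS_lv {c : κ} {x : E} (hx : x ∈ S.Bd c) {j : ℕ} (hj : j ≤ S.n c) :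
    S.OnS c j (S.lv c x (S.t c j)) := by
  have h1 := S.lv_mem hx (S.a_lt_t hj) (S.t_lt_b hj)
  exact ⟨(S.lv_Bd hx (S.a_lt_t hj) (S.t_lt_b hj)).1, hj, h1.2⟩

theorem lv_oc {c : κ} {x : E} (hx : x ∈ S.Bd c) {j : ℕ} (hj : j ≤ S.n c) :
    S.lv c x (S.t c j) ∈ T.oc x := (S.lv_mem hx (S.a_lt_t hj) (S.t_lt_b hj)).1

theorem inL_lv {c : κ} {x : E} (hx : x ∈ S.Bd c) {j : ℕ} (hj : j < S.n c) :
    S.InL c j (S.lv c x (S.mid c j)) := by
  have h1 := S.lv_mem hx (S.a_lt_mid hj) (S.mid_lt_b hj)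
  exact ⟨(S.lv_Bd hx (S.a_lt_mid hj) (S.mid_lt_b hj)).1, hj, by rw [h1.2]; exact S.lt_mid hj,
    by rw [h1.2]; exact S.mid_lt hj⟩

theorem lvm_oc {c : κ} {x : E} (hx : x ∈ S.Bd c) {j : ℕ} (hj : j < S.n c) :
    S.lv c x (S.mid c j) ∈ T.oc x := (S.lv_mem hx (S.a_lt_mid hj) (S.mid_lt_b hj)).1

/-- every point between the extreme slices is on a slice or in a layer -/
theorem onS_or_inL {c : κ} {x : E} (hx : x ∈ S.U c) (h0 : S.φ x ≤ S.t c 0)
    (h1 : S.t c (S.n c) ≤ S.φ x) : (∃ j, S.OnS c j x) ∨ ∃ j, S.InL c j x := by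
  have key : ∀ m ≤ S.n c, S.t c m ≤ S.φ x → (∃ j, S.OnS c j x) ∨ ∃ j, S.InL c j x := by
    intro m
    induction m with
    | zero => intro _ h; exact Or.inl ⟨0, hx, Nat.zero_le _, le_antisymm h0 h⟩
    | succ m ih =>
      intro hm h
      rcases lt_or_ge (S.φ x) (S.t c m) with h2 | h2
      · rcases eq_or_lt_of_le h with h3 | h3
        · exact Or.inl ⟨m + 1, hx, hm, h3.symm⟩
        · exact Or.inr ⟨m, hx, by omega, h3, h2⟩
      · exact ih (by omega) h2
  exact key _ le_rfl h1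

end Slc

end Crest.Agent.R096.Slc_184
end

-- ▼ part R096/Sld1_316
section

/-!
# Row 96, DOORS / SLC (helper316), part (S-d): sublevel sets of a PL function are cores

`core_sub` (statement of helper184, #9813): `φ` affine on the tiles, `t` not a vertex value, then
`{x ∈ U | φ x ≤ t}` is compact, its frontier is the level set, it is a `Core` and its frontier is
locally connected after removing a point (`PC`).
-/

set_option autoImplicit false

open Set Metric Filter Topology Module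

namespace Crest.Agent.R096.Sld_316

open Crest.Agent.R096.Msh_715

variable {E : Type*} [NormedAddCommGroup E] [NormedSpace ℝ E]

/-- `φ` has a local product structure in the direction `v` and is conical at `x` -/
structure LP (φ : E → ℝ) (x v : E) (r : ℝ) : Prop where
  pos : 0 < r
  prod : ∀ y ∈ ball x r, ∀ s : ℝ, |s| < r → φ (y + s • v) = φ y + s
  cone : ∀ y ∈ ball x r, ∀ l : ℝ, 0 ≤ l → l ≤ 1 → φ (x + l • (y - x)) = φ x + l * (φ y - φ x)
  cont : ContinuousOn φ (ball x r)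

theorem aff_add (g : E →ᵃ[ℝ] ℝ) (y v : E) (s : ℝ) : g (y + s • v) = g y + s * g.linear v := by
  rw [add_comm y, ← vadd_eq_add, g.map_vadd, map_smul, vadd_eq_add, smul_eq_mul, add_comm]

theorem LP.mono {φ : E → ℝ} {x v : E} {r r' : ℝ} (h : LP φ x v r) (h0 : 0 < r') (hr : r' ≤ r) :
    LP φ x v r' where
  pos := h0
  prod := fun y hy s hs => h.prod y (ball_subset_ball hr hy) s (hs.trans_le hr)
  cone := fun y hy => h.cone y (ball_subset_ball hr hy)
  cont := h.cont.mono (ball_subset_ball hr)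

/-- local product structure at a point where `φ` is not constant on the cell -/
theorem exists_LP {Om : Set E} {ι : Type*} {T : Tiling Om ι} {φ : E → ℝ} {U : Set E}
    (hU : IsOpen U) (hUO : U ⊆ Om) (hφ : ContinuousOn φ Om)
    (haff : ∀ i, (P (T.H i) ∩ U).Nonempty → ∃ g : E →ᵃ[ℝ] ℝ, EqOn φ g (P (T.H i)))
    {x p : E} (hx : x ∈ U) (hp : p ∈ T.cc x) (hpx : φ p ≠ φ x) :
    ∃ v ∈ T.V x, ∃ r, LP φ x v r ∧ ball x r ⊆ U := by
  have hxO := hUO hx
  obtain ⟨r1, hr1, hO, hat⟩ := T.exists_ball hxO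
  obtain ⟨r2, hr2, hU2⟩ := Metric.isOpen_iff.1 hU x hx
  have hd : φ p - φ x ≠ 0 := sub_ne_zero.2 hpx
  set v : E := (φ p - φ x)⁻¹ • (p - x) with hv
  have hvV : v ∈ T.V x := (T.V x).smul_mem _ (T.sub_mem_V hp)
  have hg : ∀ i ∈ T.at_ x, ∃ g : E →ᵃ[ℝ] ℝ, EqOn φ g (P (T.H i)) ∧ g.linear v = 1 := by
    intro i hi
    obtain ⟨g, hg⟩ := haff i ⟨x, hi, hx⟩
    refine ⟨g, hg, ?_⟩
    have h1 : g p = g x + 1 * g.linear (p - x) := by
      rw [← aff_add, one_smul, add_sub_cancel]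
    have h2 : φ p = g p := hg (T.cc_sub_tile hi hp)
    have h3 : φ x = g x := hg hi
    rw [hv, map_smul, smul_eq_mul]
    have h4 : g.linear (p - x) = φ p - φ x := by rw [h2, h3, h1]; ring
    rw [h4, inv_mul_cancel₀ hd]
  -- small moves stay in the tiles
  have hev : ∀ᶠ q : E × ℝ in 𝓝 (x, (0 : ℝ)), ∀ i ∈ T.at_ x, ∀ h ∈ T.H i, h.1 x < h.2 →
      h.1 (q.1 + q.2 • v) < h.2 := by
    rw [Filter.eventually_all_finite (T.at_finite hxO)]
    intro i _
    rw [Finset.eventually_all]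
    intro h _
    by_cases e : h.1 x < h.2
    · simp only [e, forall_const]
      have hc : Continuous fun q : E × ℝ => h.1 (q.1 + q.2 • v) := by fun_prop
      have := hc.tendsto (x, (0 : ℝ))
      simp only [zero_smul, add_zero] at this
      exact this.eventually (gt_mem_nhds e)
    · simp [e]
  obtain ⟨r3, hr3, h3⟩ := Metric.eventually_nhds_iff.1 hev
  refine ⟨v, hvV, min (min r1 r2) r3, ⟨by positivity, ?_, ?_, ?_⟩, ?_⟩
  · intro y hy s hs
    have hy1 : y ∈ ball x r1 := ball_subset_ball ((min_le_left _ _).trans (min_le_left _ _)) hy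
    obtain ⟨i, hi⟩ := T.cov y (hO hy1)
    have hix := hat y hy1 hi
    obtain ⟨g, hg1, hg2⟩ := hg i hix
    have hys : y + s • v ∈ P (T.H i) := by
      intro h hh
      rcases (hix h hh).lt_or_eq with e | e
      · have : dist (y, s) (x, (0 : ℝ)) < r3 := by
          rw [Prod.dist_eq, max_lt_iff]
          refine ⟨(mem_ball.1 hy).trans_le (min_le_right _ _), ?_⟩
          rw [Real.dist_eq, sub_zero]
          exact hs.trans_le (min_le_right _ _)
        exact (h3 this i hix h hh e).le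
      · rw [map_add, map_smul, hvV i hix h hh e, smul_zero, add_zero]
        exact hi h hh
    rw [hg1 hys, hg1 hi, aff_add, hg2, mul_one]
  · intro y hy l hl0 hl1
    have hy1 : y ∈ ball x r1 := ball_subset_ball ((min_le_left _ _).trans (min_le_left _ _)) hy
    obtain ⟨i, hi⟩ := T.cov y (hO hy1)
    have hix := hat y hy1 hi
    obtain ⟨g, hg1, hg2⟩ := hg i hix
    have hm : x + l • (y - x) ∈ P (T.H i) := (convex_P _).add_smul_sub_mem hix hi ⟨hl0, hl1⟩
    have h4 : g y = g x + 1 * g.linear (y - x) := by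
      rw [← aff_add, one_smul, add_sub_cancel]
    rw [hg1 hm, hg1 hi, hg1 hix, aff_add, h4]
    ring
  · exact hφ.mono ((ball_subset_ball ((min_le_left _ _).trans (min_le_left _ _))).trans hO)
  · exact (ball_subset_ball ((min_le_left _ _).trans (min_le_right _ _))).trans hU2

/-- the one sided neighbourhoods are connected: `c > 0` times `φ - t` -/
theorem LP.side {φ : E → ℝ} {x v : E} {r : ℝ} (h : LP φ x v r) (e : ℝ) (he : e = 1 ∨ e = -1)
    {W : Set E} (hW : W ∈ 𝓝 x) : ∃ V ∈ 𝓝 x, ∃ S, IsPreconnected S ∧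
      V ∩ {y | y ∈ ball x r ∧ 0 < e * (φ y - φ x)} ⊆ S ∧
      S ⊆ W ∩ {y | y ∈ ball x r ∧ 0 < e * (φ y - φ x)} := by
  obtain ⟨δ, hδ, hδW⟩ := Metric.mem_nhds_iff.1 hW
  have hr := h.pos
  set ρ : ℝ := min δ r with hρ
  have hρ0 : 0 < ρ := lt_min hδ hr
  set σ : ℝ := ρ / (2 * (‖v‖ + 1)) with hσ
  have hn := norm_nonneg v
  have hσ0 : 0 < σ := by positivity
  have hσv : σ * ‖v‖ < ρ / 2 := by
    rw [hσ, div_mul_eq_mul_div, div_lt_div_iff₀ (by positivity) (by norm_num)]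
    nlinarith
  have hσr : σ < r := by
    have : σ ≤ ρ / 2 := by
      rw [hσ]
      apply div_le_div_of_nonneg_left hρ0.le (by norm_num)
      linarith
    linarith [min_le_right δ r]
  have hee : e * e = 1 := by rcases he with rfl | rfl <;> norm_num
  have habs : |e| = 1 := by rcases he with rfl | rfl <;> simp
  set D : Set (ℝ × ℝ) := {p | 0 ≤ p.1 ∧ p.1 ≤ 1 ∧ 0 ≤ p.2 ∧ p.2 ≤ σ ∧ 0 < p.1 + p.2} with hD
  have hDc : Convex ℝ D := by
    intro p hp q hq a b ha hb hab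
    obtain ⟨p1, p2, p3, p4, p5⟩ := hp
    obtain ⟨q1, q2, q3, q4, q5⟩ := hq
    refine ⟨?_, ?_, ?_, ?_, ?_⟩
    · show 0 ≤ a * p.1 + b * q.1
      positivity
    · show a * p.1 + b * q.1 ≤ 1
      nlinarith
    · show 0 ≤ a * p.2 + b * q.2
      positivity
    · show a * p.2 + b * q.2 ≤ σ
      nlinarith
    · show 0 < (a * p.1 + b * q.1) + (a * p.2 + b * q.2)
      rcases ha.lt_or_eq with h1 | h1
      · nlinarith [mul_pos h1 p5, mul_nonneg hb q5.le]
      · have : b = 1 := by linarith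
        rw [← h1, this]
        linarith
  set f : E → ℝ × ℝ → E := fun y p => x + p.1 • (y - x) + (e * p.2) • v with hf
  have hfc : ∀ y, Continuous (f y) := by intro y; rw [hf]; fun_prop
  refine ⟨ball x (ρ / 2), ball_mem_nhds x (by positivity),
    ⋃ y ∈ ball x (ρ / 2) ∩ {y | y ∈ ball x r ∧ 0 < e * (φ y - φ x)}, f y '' D, ?_, ?_, ?_⟩
  · apply isPreconnected_of_forall (x + (e * σ) • v)
    intro z hz
    obtain ⟨y, hy, hz⟩ := mem_iUnion₂.1 hz
    refine ⟨f y '' D, ?_, ?_, hz, hDc.isPreconnected.image _ (hfc y).continuousOn⟩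
    · exact subset_biUnion_of_mem (u := fun y => f y '' D) hy
    · refine ⟨(0, σ), ⟨le_rfl, zero_le_one, hσ0.le, le_rfl, by simpa using hσ0⟩, ?_⟩
      show x + (0 : ℝ) • (y - x) + (e * σ) • v = x + (e * σ) • v
      rw [zero_smul, add_zero]
  · rintro y ⟨hy1, hy2⟩
    refine mem_biUnion (show y ∈ ball x (ρ / 2) ∩ {y | y ∈ ball x r ∧ 0 < e * (φ y - φ x)} from
      ⟨hy1, hy2⟩) ⟨(1, 0), ⟨zero_le_one, le_rfl, le_rfl, hσ0.le,
      by norm_num⟩, ?_⟩
    show x + (1 : ℝ) • (y - x) + (e * 0) • v = y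
    rw [one_smul, mul_zero, zero_smul, add_zero, add_sub_cancel]
  · intro z hz
    obtain ⟨y, ⟨hy1, hy2, hy3⟩, ⟨p, ⟨p1, p2, p3, p4, p5⟩, rfl⟩⟩ := mem_iUnion₂.1 hz
    have hd1 : dist (x + p.1 • (y - x)) x < ρ / 2 := by
      rw [dist_eq_norm, add_sub_cancel_left, norm_smul, Real.norm_eq_abs, abs_of_nonneg p1]
      have : ‖y - x‖ < ρ / 2 := by rw [← dist_eq_norm]; exact hy1
      nlinarith [norm_nonneg (y - x)]
    have hd2 : ‖(e * p.2) • v‖ < ρ / 2 := by
      rw [norm_smul, Real.norm_eq_abs, abs_mul, habs, one_mul, abs_of_nonneg p3]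
      exact (mul_le_mul_of_nonneg_right p4 hn).trans_lt hσv
    have hd : dist (f y p) x < ρ := by
      rw [dist_eq_norm]
      have : f y p - x = (x + p.1 • (y - x) - x) + (e * p.2) • v := by
        show x + p.1 • (y - x) + (e * p.2) • v - x = _
        abel
      rw [this]
      have h1 := norm_add_le (x + p.1 • (y - x) - x) ((e * p.2) • v)
      rw [← dist_eq_norm] at h1
      linarith
    refine ⟨hδW (hd.trans_le (min_le_left _ _)), hd.trans_le (min_le_right _ _), ?_⟩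
    have hmem : x + p.1 • (y - x) ∈ ball x r :=
      hd1.trans (by linarith [min_le_right δ r])
    have hs : |e * p.2| < r := by
      rw [abs_mul, habs, one_mul, abs_of_nonneg p3]
      exact p4.trans_lt hσr
    have h1 : φ (f y p) = φ x + p.1 * (φ y - φ x) + e * p.2 := by
      show φ (x + p.1 • (y - x) + (e * p.2) • v) = _
      rw [h.prod _ hmem _ hs, h.cone y hy2 p.1 p1 p2]
    rw [h1]
    have h2 : e * (φ x + p.1 * (φ y - φ x) + e * p.2 - φ x) =
        p.1 * (e * (φ y - φ x)) + (e * e) * p.2 := by ring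
    rw [h2, hee, one_mul]
    rcases p1.lt_or_eq with h3 | h3
    · nlinarith [mul_pos h3 hy3]
    · rw [← h3, zero_mul, zero_add]
      linarith

/-- the level set is locally connected after removing a point -/
theorem LP.punct [FiniteDimensional ℝ E] (h3 : finrank ℝ E = 3) {φ : E → ℝ} {x v : E} {r : ℝ}
    (h : LP φ x v r) {W : Set E} (hW : W ∈ 𝓝 x) : ∃ V ∈ 𝓝 x, ∃ R, IsPreconnected R ∧
      V ∩ ({y | y ∈ ball x r ∧ φ y = φ x} \ {x}) ⊆ R ∧
      R ⊆ W ∩ ({y | y ∈ ball x r ∧ φ y = φ x} \ {x}) := by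
  have hr := h.pos
  have hv0 : v ≠ 0 := by
    intro h0
    have h1 := h.prod x (mem_ball_self hr) (r / 2) (by rw [abs_of_pos (by positivity)]; linarith)
    rw [h0, smul_zero, add_zero] at h1
    linarith
  obtain ⟨l0, hl0⟩ : ∃ l : E →L[ℝ] ℝ, l v = 1 := by
    obtain ⟨l, hl1, hl2⟩ := exists_dual_vector ℝ v (norm_ne_zero_iff.2 hv0)
    have h1 : l v = ‖v‖ := by simpa using hl2
    refine ⟨(‖v‖)⁻¹ • l, ?_⟩
    show (‖v‖)⁻¹ • l v = 1
    rw [h1, smul_eq_mul, inv_mul_cancel₀ (norm_ne_zero_iff.2 hv0)]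
  set W0 : Submodule ℝ E := LinearMap.ker (l0 : E →ₗ[ℝ] ℝ) with hW0
  have hfin : finrank ℝ W0 = 2 := by
    have h1 := LinearMap.finrank_range_add_finrank_ker (l0 : E →ₗ[ℝ] ℝ)
    have h2 : LinearMap.range (l0 : E →ₗ[ℝ] ℝ) = ⊤ := by
      rw [LinearMap.range_eq_top]
      intro c
      refine ⟨c • v, ?_⟩
      show l0 (c • v) = c
      rw [map_smul, hl0, smul_eq_mul, mul_one]
    rw [h2, finrank_top, finrank_self, h3, ← hW0] at h1
    omega
  have hrank : 1 < Module.rank ℝ W0 := by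
    rw [← Module.finrank_eq_rank, hfin]; norm_num
  let Ψ : W0 → E := fun u => x + (u : E) - (φ (x + u) - φ x) • v
  -- small `u`
  have hΨc : ContinuousOn Ψ {u : W0 | ‖u‖ < r} := by
    have h1 : ContinuousOn (fun u : W0 => φ (x + u)) {u : W0 | ‖u‖ < r} := by
      refine h.cont.comp (by fun_prop) ?_
      intro u hu
      rw [mem_ball, dist_eq_norm, add_sub_cancel_left]
      exact hu
    have h2 : ContinuousOn (fun u : W0 => (φ (x + u) - φ x) • v) {u : W0 | ‖u‖ < r} :=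
      (h1.sub continuousOn_const).smul continuousOn_const
    exact ContinuousOn.sub (by fun_prop) h2
  have hΨ0 : Ψ 0 = x := by simp [Ψ]
  have hcat : ContinuousAt Ψ 0 := by
    refine hΨc.continuousAt ?_
    have : {u : W0 | ‖u‖ < r} = ball 0 r := by
      ext u; rw [mem_ball, dist_zero_right]; rfl
    rw [this]
    exact ball_mem_nhds _ hr
  have hφat : ContinuousAt φ x := h.cont.continuousAt (ball_mem_nhds x hr)
  have hev : ∀ᶠ u in 𝓝 (0 : W0), Ψ u ∈ W ∧ Ψ u ∈ ball x r ∧ x + (u : E) ∈ ball x r ∧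
      |φ (x + u) - φ x| < r := by
    have h1 : Tendsto (fun u : W0 => x + (u : E)) (𝓝 0) (𝓝 x) := by
      have hc : Continuous fun u : W0 => x + (u : E) := by fun_prop
      have := hc.tendsto 0
      simpa using this
    have h2 : Tendsto (fun u : W0 => |φ (x + u) - φ x|) (𝓝 0) (𝓝 0) := by
      have h4 : Tendsto (fun u : W0 => φ (x + u)) (𝓝 0) (𝓝 (φ x)) := hφat.tendsto.comp h1
      have h5 := (h4.sub_const (φ x)).abs
      simpa using h5
    have h6 : Tendsto Ψ (𝓝 0) (𝓝 x) := by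
      have := hcat.tendsto
      rwa [hΨ0] at this
    exact (h6.eventually hW).and ((h6.eventually (ball_mem_nhds x hr)).and
      ((h1.eventually (ball_mem_nhds x hr)).and (h2.eventually (gt_mem_nhds hr))))
  obtain ⟨δ, hδ, hδb⟩ := Metric.eventually_nhds_iff.1 hev
  have hδb' : ∀ u : W0, ‖u‖ < δ → Ψ u ∈ W ∧ Ψ u ∈ ball x r ∧ x + (u : E) ∈ ball x r ∧
      |φ (x + u) - φ x| < r := fun u hu => hδb (by rwa [dist_zero_right])
  set δ' : ℝ := min δ r with hδ'
  have hδ0 : 0 < δ' := lt_min hδ hr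
  -- the neighbourhood of `x`
  have hV : {y : E | ‖(y - x) - l0 (y - x) • v‖ < δ' ∧ |l0 (y - x)| < r ∧ y ∈ ball x r} ∈ 𝓝 x := by
    have hc1 : Continuous fun y : E => ‖(y - x) - l0 (y - x) • v‖ := by fun_prop
    have hc2 : Continuous fun y : E => |l0 (y - x)| := by fun_prop
    have e1 : ‖(x - x) - l0 (x - x) • v‖ < δ' := by simpa using hδ0
    have e2 : |l0 (x - x)| < r := by simpa using hr
    exact (hc1.continuousAt.eventually (gt_mem_nhds e1)).and
      ((hc2.continuousAt.eventually (gt_mem_nhds e2)).and (ball_mem_nhds x hr))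
  refine ⟨_, hV, Ψ '' {u : W0 | 0 < ‖u‖ ∧ ‖u‖ < δ'}, ?_, ?_, ?_⟩
  · refine (isPreconnected_annulus hrank δ').image _ (hΨc.mono ?_)
    intro u hu
    exact hu.2.trans_le (min_le_right _ _)
  · rintro y ⟨⟨hy1, hy2, hy3⟩, ⟨hyb, hyt⟩, hyx⟩
    set c : ℝ := l0 (y - x) with hc
    have huW : (y - x) - c • v ∈ W0 := by
      rw [hW0, LinearMap.mem_ker]
      show l0 ((y - x) - c • v) = 0
      rw [map_sub, map_smul, hl0, smul_eq_mul, mul_one, ← hc, sub_self]
    have hxu : x + ((y - x) - c • v) = y + (-c) • v := by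
      rw [neg_smul]; abel
    have hφu : φ (x + ((y - x) - c • v)) - φ x = -c := by
      rw [hxu, h.prod y hyb (-c) (by rwa [abs_neg]), hyt]
      ring
    have hΨu : Ψ ⟨(y - x) - c • v, huW⟩ = y := by
      show x + ((y - x) - c • v) - (φ (x + ((y - x) - c • v)) - φ x) • v = y
      rw [hφu, neg_smul]
      abel
    refine ⟨⟨(y - x) - c • v, huW⟩, ⟨?_, hy1⟩, hΨu⟩
    rw [norm_pos_iff]
    intro h0
    rw [h0, hΨ0] at hΨu
    exact hyx hΨu.symm
  · rintro _ ⟨u, ⟨hu0, hu1⟩, rfl⟩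
    obtain ⟨g1, g2, g3, g4⟩ := hδb' u (hu1.trans_le (min_le_left _ _))
    refine ⟨g1, ⟨g2, ?_⟩, ?_⟩
    · show φ (x + (u : E) - (φ (x + u) - φ x) • v) = φ x
      have h5 := h.prod _ g3 (-(φ (x + u) - φ x)) (by rwa [abs_neg])
      rw [neg_smul, ← sub_eq_add_neg] at h5
      rw [h5]
      ring
    · intro h5
      rw [mem_singleton_iff] at h5
      have h6 : (u : E) = (φ (x + u) - φ x) • v := by
        have h7 : x + (u : E) - (φ (x + u) - φ x) • v = x := h5
        have h8 : (u : E) - (φ (x + u) - φ x) • v = 0 := by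
          have : x + (u : E) - (φ (x + u) - φ x) • v - x = 0 := by rw [h7, sub_self]
          rw [← this]; abel
        exact sub_eq_zero.1 h8
      have h7 : l0 (u : E) = 0 := u.2
      rw [h6, map_smul, hl0, smul_eq_mul, mul_one] at h7
      rw [h7, zero_smul] at h6
      have : u = 0 := Subtype.ext h6
      rw [this, norm_zero] at hu0
      exact lt_irrefl _ hu0

/-- **sublevel sets are cores** (abstract form) -/
theorem core_of_LP {K U : Set E} {φ : E → ℝ} {t : ℝ} (hU : IsOpen U)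
    (hK : K = {x | x ∈ U ∧ φ x ≤ t}) (hKc : IsClosed K) (hc : ContinuousOn φ U)
    (hLP : ∀ x ∈ U, φ x = t → ∃ v r, LP φ x v r ∧ ball x r ⊆ U) :
    frontier K = {x | x ∈ U ∧ φ x = t} ∧ interior K = {x | x ∈ U ∧ φ x < t} ∧ Core K := by
  have hopen : IsOpen {x | x ∈ U ∧ φ x < t} := hc.isOpen_inter_preimage hU isOpen_Iio
  have hint : interior K = {x | x ∈ U ∧ φ x < t} := by
    apply Subset.antisymm
    · intro x hx
      have hxK := interior_subset hx
      rw [hK] at hxK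
      refine ⟨hxK.1, lt_of_le_of_ne hxK.2 fun h => ?_⟩
      obtain ⟨v, r, hl, hb⟩ := hLP x hxK.1 h
      have hr := hl.pos
      have h1 : Tendsto (fun s : ℝ => x + s • v) (𝓝[>] 0) (𝓝 x) := by
        have hcc : Continuous fun s : ℝ => x + s • v := by fun_prop
        have := hcc.tendsto 0
        simp only [zero_smul, add_zero] at this
        exact this.mono_left nhdsWithin_le_nhds
      have h2 : ∀ᶠ s : ℝ in 𝓝[>] 0, s < r :=
        (gt_mem_nhds hr : ∀ᶠ s : ℝ in 𝓝 0, s < r).filter_mono nhdsWithin_le_nhds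
      obtain ⟨s, ⟨hs1, hs2⟩, hs3⟩ :=
        ((h1.eventually (mem_interior_iff_mem_nhds.1 hx)).and h2).and self_mem_nhdsWithin |>.exists
      have hs3' : (0 : ℝ) < s := hs3
      rw [hK] at hs1
      have h3 := hs1.2
      rw [hl.prod x (mem_ball_self hr) s (by rwa [abs_of_pos hs3']), h] at h3
      linarith
    · refine interior_maximal ?_ hopen
      rw [hK]
      exact fun x hx => ⟨hx.1, hx.2.le⟩
  have hfr : frontier K = {x | x ∈ U ∧ φ x = t} := by
    rw [hKc.frontier_eq, hint, hK]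
    ext x
    constructor
    · rintro ⟨⟨h1, h2⟩, h3⟩
      exact ⟨h1, le_antisymm h2 (not_lt.1 fun h => h3 ⟨h1, h⟩)⟩
    · rintro ⟨h1, h2⟩
      exact ⟨⟨h1, h2.le⟩, fun h => absurd h.2 (by rw [h2]; exact lt_irrefl _)⟩
  refine ⟨hfr, hint, ?_⟩
  constructor
  · exact hKc
  · rw [hfr, hint]
    rintro x ⟨hxU, hxt⟩
    obtain ⟨v, r, hl, hb⟩ := hLP x hxU hxt
    have hr := hl.pos
    rw [mem_closure_iff_nhds]
    intro W hW
    obtain ⟨δ, hδ, hδW⟩ := Metric.mem_nhds_iff.1 hW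
    have h1 : Tendsto (fun s : ℝ => x + (-s) • v) (𝓝[>] 0) (𝓝 x) := by
      have hcc : Continuous fun s : ℝ => x + (-s) • v := by fun_prop
      have := hcc.tendsto 0
      simp only [neg_zero, zero_smul, add_zero] at this
      exact this.mono_left nhdsWithin_le_nhds
    have h2 : ∀ᶠ s : ℝ in 𝓝[>] 0, s < r :=
      (gt_mem_nhds hr : ∀ᶠ s : ℝ in 𝓝 0, s < r).filter_mono nhdsWithin_le_nhds
    obtain ⟨s, ⟨⟨hs1, hs2⟩, hs4⟩, hs3⟩ :=
      ((((h1.eventually hW).and (h1.eventually (hU.mem_nhds hxU))).and h2).and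
        self_mem_nhdsWithin).exists
    have hs3' : (0 : ℝ) < s := hs3
    refine ⟨_, hs1, hs2, ?_⟩
    rw [hl.prod x (mem_ball_self hr) (-s) (by rwa [abs_neg, abs_of_pos hs3']), hxt]
    linarith
  · intro x hx W hW
    rw [hfr] at hx
    obtain ⟨v, r, hl, hb⟩ := hLP x hx.1 hx.2
    obtain ⟨V, hV, S, hS, h1, h2⟩ := hl.side (-1) (Or.inr rfl) hW
    rw [hint]
    refine ⟨V ∩ ball x r, inter_mem hV (ball_mem_nhds x hl.pos), S, hS, ?_, ?_⟩
    · rintro y ⟨⟨hy1, hy2⟩, hy3, hy4⟩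
      refine h1 ⟨hy1, hy2, ?_⟩
      rw [hx.2]
      linarith
    · intro y hy
      obtain ⟨h3, h4, h5⟩ := h2 hy
      refine ⟨h3, hb h4, ?_⟩
      rw [hx.2] at h5
      linarith
  · intro x hx W hW
    rw [hfr] at hx
    obtain ⟨v, r, hl, hb⟩ := hLP x hx.1 hx.2
    obtain ⟨V, hV, S, hS, h1, h2⟩ := hl.side 1 (Or.inl rfl) hW
    refine ⟨V ∩ ball x r, inter_mem hV (ball_mem_nhds x hl.pos), S, hS, ?_, ?_⟩
    · rintro y ⟨⟨hy1, hy2⟩, hy3⟩
      refine h1 ⟨hy1, hy2, ?_⟩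
      rw [hx.2, one_mul, sub_pos]
      by_contra h
      apply hy3
      rw [hK]
      exact ⟨hb hy2, not_lt.1 h⟩
    · intro y hy
      obtain ⟨h3, h4, h5⟩ := h2 hy
      refine ⟨h3, fun h => ?_⟩
      rw [hK] at h
      rw [hx.2, one_mul, sub_pos] at h5
      exact absurd h5 (not_lt.2 h.2)

/-- **the level sets are locally connected after removing a point** (abstract form) -/
theorem pc_of_LP [FiniteDimensional ℝ E] (h3 : finrank ℝ E = 3) {S U : Set E} {φ : E → ℝ} {t : ℝ}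
    (hS : S = {x | x ∈ U ∧ φ x = t})
    (hLP : ∀ x ∈ U, φ x = t → ∃ v r, LP φ x v r ∧ ball x r ⊆ U) : PC S := by
  intro x hx W hW
  rw [hS] at hx
  obtain ⟨v, r, hl, hb⟩ := hLP x hx.1 hx.2
  obtain ⟨V, hV, R, hR, h1, h2⟩ := hl.punct h3 hW
  refine ⟨V ∩ ball x r, inter_mem hV (ball_mem_nhds x hl.pos), R, hR, ?_, ?_⟩
  · rintro y ⟨⟨hy1, hy2⟩, hy3, hy4⟩
    rw [hS] at hy3
    exact h1 ⟨hy1, ⟨hy2, by rw [hy3.2, hx.2]⟩, hy4⟩
  · intro y hy
    obtain ⟨h3, ⟨h4, h5⟩, h6⟩ := h2 hy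
    refine ⟨h3, ?_, h6⟩
    rw [hS]
    exact ⟨hb h4, by rw [h5, hx.2]⟩

/-- **(S-d)** the sublevel sets of a PL function between two vertex values are cores -/
theorem core_sub [FiniteDimensional ℝ E] {Om : Set E} {ι : Type*} {T : Tiling Om ι} {φ : E → ℝ}
    {U : Set E} {a b t : ℝ}
    (hU : IsOpen U) (hUO : closure U ⊆ Om) (hUc : IsCompact (closure U)) (hφ : ContinuousOn φ Om)
    (hfr : ∀ x ∈ frontier U, b ≤ φ x)
    (haff : ∀ i, (P (T.H i) ∩ U).Nonempty → ∃ g : E →ᵃ[ℝ] ℝ, EqOn φ g (P (T.H i)))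
    (hv : ∀ v ∈ U, T.dim v = 0 → φ v ≤ a ∨ b ≤ φ v) (hat : a < t) (htb : t < b) :
    IsCompact {x | x ∈ U ∧ φ x ≤ t} ∧
    frontier {x | x ∈ U ∧ φ x ≤ t} = {x | x ∈ U ∧ φ x = t} ∧
    interior {x | x ∈ U ∧ φ x ≤ t} = {x | x ∈ U ∧ φ x < t} ∧
    Core {x | x ∈ U ∧ φ x ≤ t} ∧
    (finrank ℝ E = 3 → PC (frontier {x | x ∈ U ∧ φ x ≤ t})) := by
  have hUO' : U ⊆ Om := subset_closure.trans hUO
  have hcpt : IsCompact {x | x ∈ U ∧ φ x ≤ t} := by
    have e : {x | x ∈ U ∧ φ x ≤ t} = {x | x ∈ closure U ∧ φ x ≤ t} := by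
      ext x
      constructor
      · exact fun h => ⟨subset_closure h.1, h.2⟩
      · rintro ⟨h1, h2⟩
        refine ⟨?_, h2⟩
        by_contra hxU
        have h4 : x ∈ frontier U := by
          rw [hU.frontier_eq]; exact ⟨h1, hxU⟩
        have := hfr x h4
        linarith
    rw [e]
    refine hUc.of_isClosed_subset ?_ fun x hx => hx.1
    exact (hφ.mono hUO).preimage_isClosed_of_isClosed isClosed_closure isClosed_Iic
  have hLP : ∀ x ∈ U, φ x = t → ∃ v r, LP φ x v r ∧ ball x r ⊆ U := by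
    intro x hx hxt
    -- some point of the cell has another value
    obtain ⟨p, hp, hpt⟩ : ∃ p ∈ T.cc x, φ p ≠ φ x := by
      by_contra hcon
      push Not at hcon
      obtain ⟨p, hp, hpd⟩ := T.exists_vertex (hUO' hx)
      have hpt := hcon p hp
      by_cases hpU : p ∈ U
      · rcases hv p hpU hpd with h | h <;> rw [hpt, hxt] at h <;> linarith
      · -- the cell meets the frontier of `U`
        obtain ⟨z, hz1, hz2⟩ : (T.cc x ∩ frontier U).Nonempty := by
          by_contra hne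
          have hcov : T.cc x ⊆ U ∪ (closure U)ᶜ := by
            intro z hz
            by_cases hzU : z ∈ U
            · exact Or.inl hzU
            · right
              intro hzc
              exact hne ⟨z, hz, by rw [hU.frontier_eq]; exact ⟨hzc, hzU⟩⟩
          obtain ⟨z, -, hz1, hz2⟩ := (T.convex_cc x).isPreconnected U (closure U)ᶜ hU
            isClosed_closure.isOpen_compl hcov ⟨x, T.self_mem_cc x, hx⟩
            ⟨p, hp, (hcov hp).resolve_left hpU⟩
          exact hz2 (subset_closure hz1)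
        have h1 := hfr z hz2
        rw [hcon z hz1, hxt] at h1
        linarith
    obtain ⟨v, -, r, hl, hb⟩ := exists_LP hU hUO' hφ haff hx hp hpt
    exact ⟨v, r, hl, hb⟩
  obtain ⟨h1, h2, h3⟩ := core_of_LP hU rfl hcpt.isClosed (hφ.mono hUO') hLP
  refine ⟨hcpt, h1, h2, h3, fun h => ?_⟩
  rw [h1]
  exact pc_of_LP h rfl hLP

end Crest.Agent.R096.Sld_316
end

-- ▼ part R096/Lac2_441
section

/-!
# Row 96 (helper441): the cyclic order on a vertical face (trapezoid) of a layer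

* `qd q0 p0 p1 q1` : the loop `q0 → p0 → p1 → q1 → q0` on `[-1, 3]`;
* `Trap B q0 p0 p1 q1` : `B` is the union of the four sides, which only meet in the corners;
* `lace_vert` : the clause `lace_vf` of `Door6_501.Col`.
-/

set_option autoImplicit false

open Set

namespace Crest.Agent.R096.Lac_441

open Crest.Agent.R096.Agl5_543 Crest.Agent.R096.Agl1_543 Crest.Agent.R096.Agl2_543
  Crest.Agent.R096.Agl3_543 Crest.Agent.R096.Pat5_543 Crest.Agent.R096.St_147
  Crest.Agent.R096.Msh_715 Crest.Agent.R096.Door_501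

variable {E : Type} [NormedAddCommGroup E] [NormedSpace ℝ E]

/-- the clamp to `[0, 1]` -/
def cl1 (x : ℝ) : ℝ := max 0 (min 1 x)

theorem cl1_cont : Continuous cl1 := continuous_const.max (continuous_const.min continuous_id)

theorem cl1_of_le {x : ℝ} (h : x ≤ 0) : cl1 x = 0 := by
  unfold cl1
  rw [min_eq_right (h.trans zero_le_one), max_eq_left h]

theorem cl1_of_ge {x : ℝ} (h : 1 ≤ x) : cl1 x = 1 := by
  unfold cl1
  rw [min_eq_left h, max_eq_right zero_le_one]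

theorem cl1_of_mem {x : ℝ} (h0 : 0 ≤ x) (h1 : x ≤ 1) : cl1 x = x := by
  unfold cl1
  rw [min_eq_right h1, max_eq_right h0]

/-- the loop `q0 → p0 → p1 → q1 → q0` -/
noncomputable def qd (q0 p0 p1 q1 : E) (s : ℝ) : E :=
  q0 + cl1 (s + 1) • (p0 - q0) + cl1 s • (p1 - p0) + cl1 (s - 1) • (q1 - p1) +
    cl1 (s - 2) • (q0 - q1)

variable {q0 p0 p1 q1 : E}

theorem qd_cont : Continuous (qd q0 p0 p1 q1) := by
  unfold qd
  have h := cl1_cont
  fun_prop

theorem qd_left {s : ℝ} (h0 : -1 ≤ s) (h1 : s ≤ 0) :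
    qd q0 p0 p1 q1 s = AffineMap.lineMap q0 p0 (s + 1) := by
  unfold qd
  rw [cl1_of_mem (by linarith) (by linarith), cl1_of_le h1, cl1_of_le (by linarith),
    cl1_of_le (by linarith), AffineMap.lineMap_apply_module']
  module

theorem qd_top {s : ℝ} (h0 : 0 ≤ s) (h1 : s ≤ 1) :
    qd q0 p0 p1 q1 s = AffineMap.lineMap p0 p1 s := by
  unfold qd
  rw [cl1_of_ge (by linarith), cl1_of_mem h0 h1, cl1_of_le (by linarith),
    cl1_of_le (by linarith), AffineMap.lineMap_apply_module']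
  module

theorem qd_right {s : ℝ} (h0 : 1 ≤ s) (h1 : s ≤ 2) :
    qd q0 p0 p1 q1 s = AffineMap.lineMap p1 q1 (s - 1) := by
  unfold qd
  rw [cl1_of_ge (by linarith), cl1_of_ge h0, cl1_of_mem (by linarith) (by linarith),
    cl1_of_le (by linarith), AffineMap.lineMap_apply_module']
  module

theorem qd_bot {s : ℝ} (h0 : 2 ≤ s) (h1 : s ≤ 3) :
    qd q0 p0 p1 q1 s = AffineMap.lineMap q1 q0 (s - 2) := by
  unfold qd
  rw [cl1_of_ge (by linarith), cl1_of_ge (by linarith), cl1_of_ge (by linarith),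
    cl1_of_mem (by linarith) (by linarith), AffineMap.lineMap_apply_module']
  module

theorem qd_bot' {t : ℝ} (h0 : 0 ≤ t) (h1 : t ≤ 1) :
    qd q0 p0 p1 q1 (3 - t) = AffineMap.lineMap q0 q1 t := by
  rw [qd_bot (by linarith) (by linarith), AffineMap.lineMap_apply_module',
    AffineMap.lineMap_apply_module']
  module

/-- `B` is the boundary of a quadrilateral: the four sides meet only in the corners. -/
structure Trap (B : Set E) (q0 p0 p1 q1 : E) : Prop where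
  eq : B = segment ℝ q0 p0 ∪ segment ℝ p0 p1 ∪ segment ℝ p1 q1 ∪ segment ℝ q1 q0
  n1 : q0 ≠ p0
  n2 : p0 ≠ p1
  n3 : p1 ≠ q1
  n4 : q1 ≠ q0
  c1 : ∀ {x}, x ∈ segment ℝ q0 p0 → x ∈ segment ℝ p0 p1 → x = p0
  c2 : ∀ {x}, x ∈ segment ℝ p0 p1 → x ∈ segment ℝ p1 q1 → x = p1
  c3 : ∀ {x}, x ∈ segment ℝ p1 q1 → x ∈ segment ℝ q1 q0 → x = q1
  c4 : ∀ {x}, x ∈ segment ℝ q1 q0 → x ∈ segment ℝ q0 p0 → x = q0
  d1 : ∀ {x}, x ∈ segment ℝ q0 p0 → x ∉ segment ℝ p1 q1
  d2 : ∀ {x}, x ∈ segment ℝ p0 p1 → x ∉ segment ℝ q1 q0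

theorem lm_mem {a b : E} {t : ℝ} (h0 : 0 ≤ t) (h1 : t ≤ 1) :
    AffineMap.lineMap a b t ∈ segment ℝ a b := by
  rw [segment_eq_image_lineMap]
  exact ⟨t, ⟨h0, h1⟩, rfl⟩

theorem lm_inj {a b : E} (h : a ≠ b) {s t : ℝ}
    (e : AffineMap.lineMap a b s = (AffineMap.lineMap a b t : E)) : s = t :=
  AffineMap.lineMap_injective ℝ h e

theorem lm_one {a b : E} (h : a ≠ b) {s : ℝ} (e : AffineMap.lineMap a b s = b) : s = 1 :=
  lm_inj h (e.trans (AffineMap.lineMap_apply_one a b).symm)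


theorem qd_ends : qd q0 p0 p1 q1 (-1) = qd q0 p0 p1 q1 3 := by
  rw [qd_left le_rfl (by norm_num), qd_bot (by norm_num) le_rfl]
  norm_num

theorem Trap.injOn {B : Set E} (h : Trap B q0 p0 p1 q1) :
    InjOn (qd q0 p0 p1 q1) (Ico (-1) 3) := by
  have main : ∀ s t : ℝ, -1 ≤ s → s < t → t < 3 → qd q0 p0 p1 q1 s ≠ qd q0 p0 p1 q1 t := by
    intro s t hs hst ht e
    rcases lt_or_ge s 0 with hs0 | hs0
    · have es := qd_left (q0 := q0) (p0 := p0) (p1 := p1) (q1 := q1) hs hs0.le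
      have ms : qd q0 p0 p1 q1 s ∈ segment ℝ q0 p0 := by
        rw [es]; exact lm_mem (by linarith) (by linarith)
      rcases lt_or_ge t 0 with ht0 | ht0
      · rw [es, qd_left (by linarith) ht0.le] at e
        have := lm_inj h.n1 e
        linarith
      · rcases lt_or_ge t 1 with ht1 | ht1
        · have mt : qd q0 p0 p1 q1 s ∈ segment ℝ p0 p1 := by
            rw [e, qd_top ht0 ht1.le]; exact lm_mem ht0 ht1.le
          have h1 := h.c1 ms mt
          rw [es] at h1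
          have := lm_one h.n1 h1
          linarith
        · rcases lt_or_ge t 2 with ht2 | ht2
          · have mt : qd q0 p0 p1 q1 s ∈ segment ℝ p1 q1 := by
              rw [e, qd_right ht1 ht2.le]; exact lm_mem (by linarith) (by linarith)
            exact h.d1 ms mt
          · have et := qd_bot (q0 := q0) (p0 := p0) (p1 := p1) (q1 := q1) ht2 ht.le
            have mt : qd q0 p0 p1 q1 t ∈ segment ℝ q1 q0 := by
              rw [et]; exact lm_mem (by linarith) (by linarith)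
            rw [e] at ms
            have h1 := h.c4 mt ms
            rw [et] at h1
            have := lm_one h.n4 h1
            linarith
    · rcases lt_or_ge s 1 with hs1 | hs1
      · have es := qd_top (q0 := q0) (p0 := p0) (p1 := p1) (q1 := q1) hs0 hs1.le
        have ms : qd q0 p0 p1 q1 s ∈ segment ℝ p0 p1 := by
          rw [es]; exact lm_mem (by linarith) (by linarith)
        rcases lt_or_ge t 1 with ht1 | ht1
        · rw [es, qd_top (by linarith) ht1.le] at e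
          have := lm_inj h.n2 e
          linarith
        · rcases lt_or_ge t 2 with ht2 | ht2
          · have mt : qd q0 p0 p1 q1 s ∈ segment ℝ p1 q1 := by
              rw [e, qd_right ht1 ht2.le]; exact lm_mem (by linarith) (by linarith)
            have h1 := h.c2 ms mt
            rw [es] at h1
            have := lm_one h.n2 h1
            linarith
          · have mt : qd q0 p0 p1 q1 s ∈ segment ℝ q1 q0 := by
              rw [e, qd_bot ht2 ht.le]; exact lm_mem (by linarith) (by linarith)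
            exact h.d2 ms mt
      · rcases lt_or_ge s 2 with hs2 | hs2
        · have es := qd_right (q0 := q0) (p0 := p0) (p1 := p1) (q1 := q1) hs1 hs2.le
          have ms : qd q0 p0 p1 q1 s ∈ segment ℝ p1 q1 := by
            rw [es]; exact lm_mem (by linarith) (by linarith)
          rcases lt_or_ge t 2 with ht2 | ht2
          · rw [es, qd_right (by linarith) ht2.le] at e
            have := lm_inj h.n3 e
            linarith
          · have mt : qd q0 p0 p1 q1 s ∈ segment ℝ q1 q0 := by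
              rw [e, qd_bot ht2 ht.le]; exact lm_mem (by linarith) (by linarith)
            have h1 := h.c3 ms mt
            rw [es] at h1
            have := lm_one h.n3 h1
            linarith
        · rw [qd_bot hs2 (by linarith), qd_bot (by linarith) ht.le] at e
          have := lm_inj h.n4 e
          linarith
  intro s hs t ht e
  rcases lt_trichotomy s t with h1 | h1 | h1
  · exact absurd e (main s t hs.1 h1 ht.2)
  · exact h1
  · exact absurd e.symm (main t s ht.1 h1 hs.2)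

theorem Trap.image {B : Set E} (h : Trap B q0 p0 p1 q1) :
    qd q0 p0 p1 q1 '' Icc (-1) 3 = B := by
  rw [h.eq]
  apply Subset.antisymm
  · rintro _ ⟨s, hs, rfl⟩
    rcases le_total s 0 with h0 | h0
    · rw [qd_left hs.1 h0]
      exact Or.inl (Or.inl (Or.inl (lm_mem (by linarith [hs.1]) (by linarith))))
    · rcases le_total s 1 with h1 | h1
      · rw [qd_top h0 h1]
        exact Or.inl (Or.inl (Or.inr (lm_mem h0 h1)))
      · rcases le_total s 2 with h2 | h2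
        · rw [qd_right h1 h2]
          exact Or.inl (Or.inr (lm_mem (by linarith) (by linarith)))
        · rw [qd_bot h2 hs.2]
          exact Or.inr (lm_mem (by linarith) (by linarith [hs.2]))
  · rintro x (((hx | hx) | hx) | hx)
    · rw [segment_eq_image_lineMap] at hx
      obtain ⟨t, ht, rfl⟩ := hx
      refine ⟨t - 1, ⟨by linarith [ht.1], by linarith [ht.2]⟩, ?_⟩
      rw [qd_left (by linarith [ht.1]) (by linarith [ht.2])]
      congr 1; ring
    · rw [segment_eq_image_lineMap] at hx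
      obtain ⟨t, ht, rfl⟩ := hx
      exact ⟨t, ⟨by linarith [ht.1], by linarith [ht.2]⟩, qd_top ht.1 ht.2⟩
    · rw [segment_eq_image_lineMap] at hx
      obtain ⟨t, ht, rfl⟩ := hx
      refine ⟨t + 1, ⟨by linarith [ht.1], by linarith [ht.2]⟩, ?_⟩
      rw [qd_right (by linarith [ht.1]) (by linarith [ht.2])]
      congr 1; ring
    · rw [segment_eq_image_lineMap] at hx
      obtain ⟨t, ht, rfl⟩ := hx
      refine ⟨t + 2, ⟨by linarith [ht.1], by linarith [ht.2]⟩, ?_⟩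
      rw [qd_bot (by linarith [ht.1]) (by linarith [ht.2])]
      congr 1; ring

section lace

variable [FiniteDimensional ℝ E] {Om : Set E} {ι : Type} {T : Tiling Om ι}

/-- interlacing on a quadrilateral -/
theorem lace_qd (h3 : Module.finrank ℝ E = 3) (F : C2 T) (h : Trap F.bd q0 p0 p1 q1)
    {a b c d : ℝ} (ha : a ∈ Ico (-1 : ℝ) 3) (hb : b ∈ Ico (-1 : ℝ) 3) (hc : c ∈ Ico (-1 : ℝ) 3)
    (hd : d ∈ Ico (-1 : ℝ) 3) (hac : a ≠ c) (had : a ≠ d) (hbc : b ≠ c) (hbd : b ≠ d) :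
    (meshC T h3).Lace F (qd q0 p0 p1 q1 a) (qd q0 p0 p1 q1 b) (qd q0 p0 p1 q1 c)
      (qd q0 p0 p1 q1 d) ↔ lac a b c d :=
  lace_param h3 F qd_cont.continuousOn qd_ends h.injOn h.image ha hb hc hd hac had hbc hbd

variable {ι0 Φ0 W : Type} {M0 : MeshC ι0 Φ0 W} {k0 : ι0} {Vx Ed : Type}

/-- position of the points of a vertical face, general parameters -/
noncomputable def vP (S : Shell M0 k0 Vx Ed) (e : Ed) (τ τ' : W → ℝ) (σ : Bool → ℝ) :
    S.Pnt → ℝ
  | Sum.inl w => τ w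
  | Sum.inr (Sum.inl w) => 3 - τ' w
  | Sum.inr (Sum.inr v) => by
      classical
      exact if v = S.en e false then σ false - 1 else 1 + σ true

/-- **clause `lace_vf`**: the cyclic order on a vertical face of a layer.  `τ`, `τ'` are affine
parameters of the points of the upper and of the lower side, `σ b` of the points on the vertical
edges (`σ false` from the bottom, `σ true` from the top). -/
theorem lace_vert (h3 : Module.finrank ℝ E = 3) (F : C2 T) (h : Trap F.bd q0 p0 p1 q1)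
    (S : Shell M0 k0 Vx Ed) (e : Ed) {top bot : W → E} {vt : Vx → E} {τ τ' : W → ℝ}
    {σ : Bool → ℝ}
    (hτ : ∀ w ∈ S.OnE e, 0 < τ w ∧ τ w < 1) (hτ' : ∀ w ∈ S.OnE e, 0 < τ' w ∧ τ' w < 1)
    (hσ : ∀ b, 0 < σ b ∧ σ b < 1)
    (mτ : ∀ w ∈ S.OnE e, ∀ w' ∈ S.OnE e, (τ w < τ w' ↔ S.t w < S.t w'))
    (mτ' : ∀ w ∈ S.OnE e, ∀ w' ∈ S.OnE e, (τ' w < τ' w' ↔ S.t w < S.t w'))
    (htop : ∀ w ∈ S.OnE e, top w = AffineMap.lineMap p0 p1 (τ w))
    (hbot : ∀ w ∈ S.OnE e, bot w = AffineMap.lineMap q0 q1 (τ' w))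
    (hv0 : vt (S.en e false) = AffineMap.lineMap q0 p0 (σ false))
    (hv1 : vt (S.en e true) = AffineMap.lineMap p1 q1 (σ true))
    {a b c d : S.Pnt} (ha : a ∈ S.On (Sum.inr (Sum.inr e)))
    (hb : b ∈ S.On (Sum.inr (Sum.inr e))) (hc : c ∈ S.On (Sum.inr (Sum.inr e)))
    (hd : d ∈ S.On (Sum.inr (Sum.inr e))) (hac : a ≠ c) (had : a ≠ d)
    (hbc : b ≠ c) (hbd : b ≠ d) :
    (meshC T h3).Lace F (Sum.elim top (Sum.elim bot vt) a) (Sum.elim top (Sum.elim bot vt) b)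
      (Sum.elim top (Sum.elim bot vt) c) (Sum.elim top (Sum.elim bot vt) d) ↔
      S.mesh.Lace (Sum.inr (Sum.inr e)) a b c d := by
  have hen : S.en e true ≠ S.en e false := fun h => S.en_ne e h.symm
  -- the parameter of every point
  have key : ∀ x : S.Pnt, x ∈ S.On (Sum.inr (Sum.inr e)) →
      vP S e τ τ' σ x ∈ Ico (-1 : ℝ) 3 ∧
        Sum.elim top (Sum.elim bot vt) x = qd q0 p0 p1 q1 (vP S e τ τ' σ x) := by
    rintro x (⟨w, hw, rfl⟩ | ⟨w, hw, rfl⟩ | ⟨b, rfl⟩)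
    · have h1 := hτ w hw
      refine ⟨⟨?_, ?_⟩, ?_⟩
      · show -1 ≤ τ w; linarith [h1.1]
      · show τ w < 3; linarith [h1.2]
      · show top w = _
        rw [htop w hw]
        exact (qd_top h1.1.le h1.2.le).symm
    · have h1 := hτ' w hw
      refine ⟨⟨?_, ?_⟩, ?_⟩
      · show -1 ≤ 3 - τ' w; linarith [h1.2]
      · show 3 - τ' w < 3; linarith [h1.1]
      · show bot w = _
        rw [hbot w hw]
        exact (qd_bot' h1.1.le h1.2.le).symm
    · have h1 := hσ b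
      cases b
      · have e1 : vP S e τ τ' σ (Sum.inr (Sum.inr (S.en e false))) = σ false - 1 := if_pos rfl
        rw [e1]
        refine ⟨⟨by linarith [h1.1], by linarith [h1.2]⟩, ?_⟩
        show vt (S.en e false) = _
        rw [hv0, qd_left (by linarith [h1.1]) (by linarith [h1.2])]
        congr 1; ring
      · have e1 : vP S e τ τ' σ (Sum.inr (Sum.inr (S.en e true))) = 1 + σ true := if_neg hen
        rw [e1]
        refine ⟨⟨by linarith [h1.1], by linarith [h1.2]⟩, ?_⟩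
        show vt (S.en e true) = _
        rw [hv1, qd_right (by linarith [h1.1]) (by linarith [h1.2])]
        congr 1; ring
  -- the order of the parameters is the order of the positions
  have ord : ∀ x y : S.Pnt, x ∈ S.On (Sum.inr (Sum.inr e)) → y ∈ S.On (Sum.inr (Sum.inr e)) →
      (S.pos (Sum.inr (Sum.inr e)) x < S.pos (Sum.inr (Sum.inr e)) y ↔
        vP S e τ τ' σ x < vP S e τ τ' σ y) := by
    have pf : S.pos (Sum.inr (Sum.inr e)) (Sum.inr (Sum.inr (S.en e false))) = -1 / 2 :=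
      if_pos rfl
    have pt : S.pos (Sum.inr (Sum.inr e)) (Sum.inr (Sum.inr (S.en e true))) = 3 / 2 :=
      if_neg hen
    have vf : vP S e τ τ' σ (Sum.inr (Sum.inr (S.en e false))) = σ false - 1 := if_pos rfl
    have vt' : vP S e τ τ' σ (Sum.inr (Sum.inr (S.en e true))) = 1 + σ true := if_neg hen
    have hf := hσ false
    have ht := hσ true
    have yes : ∀ {a b c d : ℝ}, a < b → c < d → (a < b ↔ c < d) :=
      fun h1 h2 => ⟨fun _ => h2, fun _ => h1⟩
    have no : ∀ {a b c d : ℝ}, b ≤ a → d ≤ c → (a < b ↔ c < d) :=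
      fun h1 h2 => ⟨fun h => absurd h (not_lt.2 h1), fun h => absurd h (not_lt.2 h2)⟩
    rintro x y (⟨w, hw, rfl⟩ | ⟨w, hw, rfl⟩ | ⟨b, rfl⟩) (⟨w', hw', rfl⟩ | ⟨w', hw', rfl⟩ | ⟨b', rfl⟩)
    · exact (mτ w hw w' hw').symm
    · have h1 := hτ w hw
      have h2 := hτ' w' hw'
      have h3 := S.t_lt hw
      have h4 := S.t_lt hw'
      refine yes (show S.t w < 3 - S.t w' by linarith) (show τ w < 3 - τ' w' by linarith [h1.2, h2.2])
    · have h1 := hτ w hw
      have h3 := S.t_lt hw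
      have h4 := S.t_pos hw
      cases b'
      · rw [pf, vf]
        exact no (show _ ≤ S.t w by linarith) (show _ ≤ τ w by linarith [h1.1, hf.2])
      · rw [pt, vt']
        exact yes (show S.t w < _ by linarith) (show τ w < _ by linarith [h1.2, ht.1])
    · have h1 := hτ' w hw
      have h2 := hτ w' hw'
      have h3 := S.t_lt hw
      have h4 := S.t_lt hw'
      exact no (show S.t w' ≤ 3 - S.t w by linarith) (show τ w' ≤ 3 - τ' w by linarith [h1.2, h2.2])
    · have h1 := mτ' w' hw' w hw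
      constructor
      · intro h
        have h5 : 3 - S.t w < 3 - S.t w' := h
        have := h1.2 (by linarith)
        show 3 - τ' w < 3 - τ' w'
        linarith
      · intro h
        have h5 : 3 - τ' w < 3 - τ' w' := h
        have := h1.1 (by linarith)
        show 3 - S.t w < 3 - S.t w'
        linarith
    · have h1 := hτ' w hw
      have h3 := S.t_lt hw
      have h4 := S.t_pos hw
      cases b'
      · rw [pf, vf]
        exact no (show _ ≤ 3 - S.t w by linarith) (show _ ≤ 3 - τ' w by linarith [h1.2, hf.2])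
      · rw [pt, vt']
        exact no (show _ ≤ 3 - S.t w by linarith) (show _ ≤ 3 - τ' w by linarith [h1.2, ht.2])
    · have h1 := hτ w' hw'
      have h3 := S.t_lt hw'
      have h4 := S.t_pos hw'
      cases b
      · rw [pf, vf]
        exact yes (show _ < S.t w' by linarith) (show _ < τ w' by linarith [h1.1, hf.2])
      · rw [pt, vt']
        exact no (show S.t w' ≤ _ by linarith) (show τ w' ≤ _ by linarith [h1.2, ht.1])
    · have h1 := hτ' w' hw'
      have h3 := S.t_lt hw'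
      have h4 := S.t_pos hw'
      cases b
      · rw [pf, vf]
        exact yes (show _ < 3 - S.t w' by linarith) (show _ < 3 - τ' w' by linarith [h1.2, hf.2])
      · rw [pt, vt']
        exact yes (show _ < 3 - S.t w' by linarith) (show _ < 3 - τ' w' by linarith [h1.2, ht.2])
    · cases b <;> cases b'
      · exact no le_rfl le_rfl
      · rw [pf, pt, vf, vt']
        exact yes (by norm_num) (by linarith [hf.2, ht.1])
      · rw [pf, pt, vf, vt']
        exact no (by norm_num) (by linarith [hf.2, ht.1])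
      · exact no le_rfl le_rfl
  have inj : ∀ x y : S.Pnt, x ∈ S.On (Sum.inr (Sum.inr e)) → y ∈ S.On (Sum.inr (Sum.inr e)) →
      x ≠ y → vP S e τ τ' σ x ≠ vP S e τ τ' σ y := by
    intro x y hx hy hne heq
    apply hne
    refine S.mesh.pos_inj (Sum.inr (Sum.inr e)) hx hy (le_antisymm ?_ ?_)
    · exact not_lt.1 fun h => absurd heq ((ord y x hy hx).1 h).ne'
    · exact not_lt.1 fun h => absurd heq ((ord x y hx hy).1 h).ne
  rw [(key a ha).2, (key b hb).2, (key c hc).2, (key d hd).2,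
    lace_qd h3 F h (key a ha).1 (key b hb).1 (key c hc).1 (key d hd).1 (inj a c ha hc hac)
      (inj a d ha hd had) (inj b c hb hc hbc) (inj b d hb hd hbd)]
  unfold MeshC.Lace MeshC.Btw lac
  rw [← ord a c ha hc, ← ord c b hc hb, ← ord b c hb hc, ← ord c a hc ha, ← ord a d ha hd,
    ← ord d b hd hb, ← ord b d hb hd, ← ord d a hd ha]
  rfl

end lace

end Crest.Agent.R096.Lac_441
end

-- ▼ part R096/Slc5_184
section

/-!
# Row 96, DOORS, leaf SLC (helper184), part 5: level points, level edges, the maps `hc`, `vc`, `hp`.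
-/

set_option autoImplicit false
set_option linter.unusedSectionVars false

open Set Filter Topology Metric
open scoped Classical

namespace Crest.Agent.R096.Slc_184

open Crest.Agent.R096.Msh_715 Crest.Agent.R096.Agl5_543 Crest.Agent.R096.St_147

variable {E : Type} [NormedAddCommGroup E] [NormedSpace ℝ E] [FiniteDimensional ℝ E]
variable {Om : Set E} {ι : Type}

section general

variable {T : Tiling Om ι}

theorem oc_symm {x y : E} (hx : x ∈ Om) (hy : y ∈ T.oc x) : x ∈ T.oc y := by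
  rw [T.oc_eq_of_mem hx hy]; exact T.self_mem_oc x

theorem oc_trans {x y z : E} (hx : x ∈ Om) (hy : y ∈ T.oc x) (hz : z ∈ T.oc y) : z ∈ T.oc x := by
  rw [← T.oc_eq_of_mem hx hy]; exact hz

/-- the interior of a subcomplex is a union of open stars -/
theorem mem_int_of_cc {K : Set E} (hcl : IsClosed K)
    (hs : ∀ x ∈ frontier K, T.cc x ⊆ frontier K) {x y : E} (hx : x ∈ Om) (hy : y ∈ T.cc x)
    (hyi : y ∈ interior K) : x ∈ interior K := by
  obtain ⟨i, hi⟩ := T.cov x hx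
  have h1 : P (T.H i) ⊆ K := T.sub_of_mem_interior hcl hs (T.at_sub_of_mem_cc hy hi) hyi
  have h2 : x ∈ K := h1 hi
  by_contra h
  have h3 : x ∈ frontier K := by rw [hcl.frontier_eq]; exact ⟨h2, h⟩
  have h4 := hs x h3 hy
  rw [hcl.frontier_eq] at h4
  exact h4.2 hyi

end general

namespace Slc

variable {T : Tiling Om ι} {κ : Type} {S : Slc T κ} {c : κ} {x y z w : E} {j : ℕ}

theorem dim3_le (x : E) : S.T3.dim x ≤ T.dim x := by
  by_cases h : ∃ c j, S.OnS c j x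
  · obtain ⟨c, j, h⟩ := h
    have := S.dim3_on h
    omega
  · push Not at h
    exact (S.dim3_off h).le

/-- points of an edge of `T` at the same level are equal -/
theorem lv_unique (hx : x ∈ S.Bd c) (hd : T.dim x = 1) (hy : y ∈ T.cc x) (hz : z ∈ T.cc x)
    (h : S.φ y = S.φ z) : y = z := by
  obtain ⟨L, hL, v, hv, hLv⟩ := S.exists_dir hx
  have h1 := hL y hy z hz
  have h2 : L (z - y) = 0 := by linarith
  have h3 : z - y ∈ T.V x := T.sub_mem_V' hz hy
  have hv0 : (⟨v, hv⟩ : T.V x) ≠ 0 := fun h => by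
    have h5 : v = 0 := congrArg Subtype.val h
    rw [h5, map_zero] at hLv
    exact hLv rfl
  obtain ⟨s, hs⟩ := exists_smul_eq_of_finrank_eq_one (K := ℝ) (V := T.V x) hd hv0 ⟨z - y, h3⟩
  have hs' : s • v = z - y := congrArg Subtype.val hs
  rw [← hs', map_smul, smul_eq_mul] at h2
  rcases mul_eq_zero.1 h2 with h | h
  · rw [h, zero_smul] at hs'
    exact (sub_eq_zero.1 hs'.symm).symm
  · exact absurd h hLv

theorem onS_of_cc (hx : x ∈ S.Bd c) (hy : y ∈ T.cc x) (hj : j ≤ S.n c) (h : S.φ y = S.t c j) :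
    S.OnS c j y := ⟨S.cc_mem_U hx hy (by rw [h]; exact S.t_lt_b hj), hj, h⟩


/-- the tiles at a point of the band: levels below -/
theorem cc3_low (hx : x ∈ Om) (hy : y ∈ S.T3.cc x) (hyB : y ∈ S.Bd c) {k : ℕ} (hk : k ≤ S.n c)
    (h : S.φ y < S.t c k) : x ∈ S.U c ∧ S.φ x < S.t c k := by
  obtain ⟨i, hi⟩ := T.cov x hx
  have hy1 := (S.mem_cc3.1 hy).1
  have hcut : S.Cut c i := S.cut_of_mem hyB (T.at_sub_of_mem_cc hy1 hi)
  have h1 := (S.mem_cc3.1 hy).2 i hi c hcut k hk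
  have h2 : S.φ x < S.t c k := by
    by_contra h3
    have := h1.2 (not_lt.1 h3)
    linarith
  exact ⟨hcut.mem_U hi (h2.trans (S.t_lt_b hk)), h2⟩

theorem cc3_high (hx : x ∈ Om) (hy : y ∈ S.T3.cc x) (hyB : y ∈ S.Bd c) {k : ℕ} (hk : k ≤ S.n c)
    (h : S.t c k < S.φ y) : S.t c k < S.φ x := by
  obtain ⟨i, hi⟩ := T.cov x hx
  have hy1 := (S.mem_cc3.1 hy).1
  have hcut : S.Cut c i := S.cut_of_mem hyB (T.at_sub_of_mem_cc hy1 hi)
  have h1 := (S.mem_cc3.1 hy).2 i hi c hcut k hk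
  by_contra h3
  have := h1.1 (not_lt.1 h3)
  linarith

/-! ### level points -/

/-- point of the level `j` in the open cell of `x` -/
noncomputable def hc (S : Slc T κ) (c : κ) (x : E) (j : ℕ) : E := S.lv c x (S.t c (min j (S.n c)))

/-- point of the layer `j` in the open cell of `x` -/
noncomputable def vc (S : Slc T κ) (c : κ) (x : E) (j : ℕ) : E :=
  S.lv c x (S.mid c (min j (S.n c - 1)))

theorem hc_onS' (hx : x ∈ S.Bd c) (j : ℕ) : S.OnS c (min j (S.n c)) (S.hc c x j) :=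
  onS_lv hx (min_le_right _ _)

theorem hc_onS (hx : x ∈ S.Bd c) (hj : j ≤ S.n c) : S.OnS c j (S.hc c x j) := by
  have := hc_onS' hx j
  rwa [min_eq_left hj] at this

theorem hc_oc (hx : x ∈ S.Bd c) (j : ℕ) : S.hc c x j ∈ T.oc x := lv_oc hx (min_le_right _ _)

theorem vc_inL' (hx : x ∈ S.Bd c) (j : ℕ) : S.InL c (min j (S.n c - 1)) (S.vc c x j) :=
  inL_lv hx (by have := S.npos c; omega)

theorem vc_inL (hx : x ∈ S.Bd c) (hj : j < S.n c) : S.InL c j (S.vc c x j) := by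
  have := vc_inL' hx j
  rwa [min_eq_left (by omega)] at this

theorem vc_oc (hx : x ∈ S.Bd c) (j : ℕ) : S.vc c x j ∈ T.oc x :=
  lvm_oc hx (by have := S.npos c; omega)

theorem hc_dim (hx : x ∈ S.Bd c) (j : ℕ) : T.dim (S.hc c x j) = T.dim x :=
  T.dim_eq_of_mem_oc (S.Bd_sub hx) (hc_oc hx j)

theorem vc_dim (hx : x ∈ S.Bd c) (j : ℕ) : T.dim (S.vc c x j) = T.dim x :=
  T.dim_eq_of_mem_oc (S.Bd_sub hx) (vc_oc hx j)

theorem hc_dim3 (hx : x ∈ S.Bd c) (j : ℕ) : S.T3.dim (S.hc c x j) + 1 = T.dim x := by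
  rw [S.dim3_on (hc_onS' hx j), hc_dim hx]

theorem vc_dim3 (hx : x ∈ S.Bd c) (j : ℕ) : S.T3.dim (S.vc c x j) = T.dim x := by
  rw [(vc_inL' hx j).dim3, vc_dim hx]

theorem mem_cc_hc (hx : x ∈ S.Bd c) (hj : j ≤ S.n c) :
    y ∈ S.T3.cc (S.hc c x j) ↔ y ∈ T.cc x ∧ S.φ y = S.t c j := by
  rw [(hc_onS hx hj).cc, T.cc_eq_of_mem_oc (S.Bd_sub hx) (hc_oc hx j)]

theorem mem_oc_hc (hx : x ∈ S.Bd c) (hj : j ≤ S.n c) :
    y ∈ S.T3.oc (S.hc c x j) ↔ y ∈ T.oc x ∧ S.φ y = S.t c j := by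
  rw [(hc_onS hx hj).oc, T.oc_eq_of_mem (S.Bd_sub hx) (hc_oc hx j)]

theorem mem_cc_vc (hx : x ∈ S.Bd c) (hj : j < S.n c) :
    y ∈ S.T3.cc (S.vc c x j) ↔ y ∈ T.cc x ∧ S.t c (j + 1) ≤ S.φ y ∧ S.φ y ≤ S.t c j := by
  rw [(vc_inL hx hj).cc, T.cc_eq_of_mem_oc (S.Bd_sub hx) (vc_oc hx j)]

theorem mem_oc_vc (hx : x ∈ S.Bd c) (hj : j < S.n c) :
    y ∈ S.T3.oc (S.vc c x j) ↔ y ∈ T.oc x ∧ S.t c (j + 1) < S.φ y ∧ S.φ y < S.t c j := by
  rw [(vc_inL hx hj).oc, T.oc_eq_of_mem (S.Bd_sub hx) (vc_oc hx j)]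

/-- the layers at a point between the slices -/
theorem layer_cases (hx : x ∈ S.Bd c) (hj : j < S.n c) (h : S.t c (j + 1) ≤ S.φ x)
    (h' : S.φ x ≤ S.t c j) : S.OnS c j x ∨ S.OnS c (j + 1) x ∨ S.InL c j x := by
  rcases eq_or_lt_of_le h with h1 | h1
  · exact Or.inr (Or.inl ⟨hx.1, hj, h1.symm⟩)
  · rcases eq_or_lt_of_le h' with h2 | h2
    · exact Or.inl ⟨hx.1, hj.le, h2⟩
    · exact Or.inr (Or.inr ⟨hx.1, hj, h1, h2⟩)


/-! ### the shells -/

theorem k0_le (S : Slc T κ) : ∀ c, (fun _ : κ => 0) c ≤ S.n c := fun _ => Nat.zero_le _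


/-- the outer cores -/
abbrev K0 (S : Slc T κ) : κ → Set E := S.KK fun _ => 0

theorem core_KK {k : κ → ℕ} (hk : ∀ c, k c ≤ S.n c) (c : κ) : Core (S.KK k c) :=
  (Sld_316.core_sub (T := T) (S.opn c) (S.subO c) (S.cpt c) S.cont (S.fr c)
    (fun i h => S.aff c i h) (S.vert c) (S.a_lt_t (hk c)) (S.t_lt_b (hk c))).2.2.2.1

theorem pc_KK (h3 : Module.finrank ℝ E = 3) {k : κ → ℕ} (hk : ∀ c, k c ≤ S.n c) (c : κ) :
    PC (frontier (S.KK k c)) :=
  (Sld_316.core_sub (T := T) (S.opn c) (S.subO c) (S.cpt c) S.cont (S.fr c)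
    (fun i h => S.aff c i h) (S.vert c) (S.a_lt_t (hk c)) (S.t_lt_b (hk c))).2.2.2.2 h3

theorem mem_fr0 : x ∈ frontier (S.K0 c) ↔ S.OnS c 0 x := by
  rw [frontier_KK S.k0_le c]; rfl

/-- edges of the shell -/
abbrev Ed (S : Slc T κ) (c : κ) : Type := EdK S.T3 S.K0 c

/-- vertices of the shell -/
abbrev Vx (S : Slc T κ) (c : κ) : Type := VxK S.T3 S.K0 c

theorem ed_onS (e : S.Ed c) : S.OnS c 0 e.1.pt := by
  have h : e.1.pt ∈ frontier (S.K0 c) := e.2.2 (e.1.opn_sub (S.T3.self_mem_oc _))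
  exact mem_fr0.1 h

theorem ed_dim3 (e : S.Ed c) : S.T3.dim e.1.pt = 1 := e.2.1

theorem ed_dim (e : S.Ed c) : T.dim e.1.pt = 2 := by
  have := S.dim3_on (ed_onS e)
  rw [ed_dim3 e] at this
  omega

theorem vx_onS (v : S.Vx c) : S.OnS c 0 v.1 := mem_fr0.1 v.2.2

theorem vx_dim (v : S.Vx c) : T.dim v.1 = 1 := by
  have h1 := S.dim3_on (vx_onS v)
  have h2 : S.T3.dim v.1 = 0 := v.2.1
  omega

theorem mem_set_ed (e : S.Ed c) : y ∈ e.1.set ↔ y ∈ T.cc e.1.pt ∧ S.φ y = S.t c 0 := by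
  rw [e.1.set_eq, (ed_onS e).cc]

theorem mem_opn_ed (e : S.Ed c) : y ∈ e.1.opn ↔ y ∈ T.oc e.1.pt ∧ S.φ y = S.t c 0 :=
  (ed_onS e).oc

theorem endp_onS (e : S.Ed c) (b : Bool) : S.OnS c 0 (endp e.1 b) :=
  mem_fr0.1 (e.2.2 (endp_mem e.2.1 b).1)

theorem endp_dim (e : S.Ed c) (b : Bool) : T.dim (endp e.1 b) = 1 := by
  have h1 := S.dim3_on (endp_onS e b)
  have h2 := (endp_mem e.2.1 b).2
  omega

theorem endp_cc (e : S.Ed c) (b : Bool) : endp e.1 b ∈ T.cc e.1.pt :=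
  ((mem_set_ed e).1 (endp_mem e.2.1 b).1).1

/-- equality of edges -/
theorem ed_eq {e e' : S.Ed c} (h : e'.1.pt ∈ T.oc e.1.pt) : e = e' := by
  apply Subtype.ext
  apply Tiling.Cell.ext
  rw [e.1.set_eq, e'.1.set_eq]
  refine (S.T3.cc_eq_of_mem_oc e.1.pt_mem ?_).symm
  exact (ed_onS e).oc.2 ⟨h, (ed_onS e').2.2⟩

/-- the edge of a point -/
noncomputable def edx (hx : S.OnS c 0 x) (hd : S.T3.dim x = 1) : S.Ed c :=
  edK S.T3 S.K0 (hs_KK S.k0_le) hx.mem (mem_fr0.2 hx) hd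

theorem edx_pt (hx : S.OnS c 0 x) (hd : S.T3.dim x = 1) : (edx hx hd).1.pt ∈ S.T3.oc x :=
  S.T3.pt_cl hx.mem

theorem edx_opn (hx : S.OnS c 0 x) (hd : S.T3.dim x = 1) : x ∈ (edx hx hd).1.opn := by
  show x ∈ (S.T3.cl hx.mem).opn
  rw [S.T3.opn_cl]; exact S.T3.self_mem_oc x

theorem edx_set (hx : S.OnS c 0 x) (hd : S.T3.dim x = 1) : (edx hx hd).1.set = S.T3.cc x := rfl

theorem edx_pt' (hx : S.OnS c 0 x) (hd : S.T3.dim x = 1) : (edx hx hd).1.pt ∈ T.oc x :=
  S.oc3_sub x (edx_pt hx hd)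


theorem vx_eq {v v' : S.Vx c} (h : v'.1 ∈ T.oc v.1) : v = v' := by
  apply Subtype.ext
  exact lv_unique (vx_onS v).bd (vx_dim v) (T.self_mem_cc _) (T.oc_sub_cc _ h)
    ((vx_onS v).2.2.trans (vx_onS v').2.2.symm)

/-- on a vertex the level 0 point is the vertex -/
theorem hc_zero_vx (hx : S.OnS c 0 x) (hd : T.dim x = 1) : S.hc c x 0 = x :=
  lv_unique hx.bd hd (T.oc_sub_cc _ (hc_oc hx.bd 0)) (T.self_mem_cc _)
    ((hc_onS hx.bd (Nat.zero_le _)).2.2.trans hx.2.2.symm)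

/-- corners -/
theorem cor_mem (e : S.Ed c) (b : Bool) (hj : j ≤ S.n c) :
    S.hc c (endp e.1 b) j ∈ S.T3.cc (S.hc c e.1.pt j) := by
  rw [mem_cc_hc (ed_onS e).bd hj]
  exact ⟨T.cc_sub_of_mem (endp_cc e b) (T.oc_sub_cc _ (hc_oc (endp_onS e b).bd j)),
    (hc_onS (endp_onS e b).bd hj).2.2⟩

theorem cor_dim3 (e : S.Ed c) (b : Bool) (j : ℕ) : S.T3.dim (S.hc c (endp e.1 b) j) = 0 := by
  have h1 := hc_dim3 (endp_onS e b).bd j
  have h2 := endp_dim e b
  omega

theorem endp_sep (e : S.Ed c) (h : endp e.1 true ∈ T.oc (endp e.1 false)) : False := by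
  have h1 := lv_unique (endp_onS e false).bd (endp_dim e false) (T.self_mem_cc _)
    (T.oc_sub_cc _ h) ((endp_onS e false).2.2.trans (endp_onS e true).2.2.symm)
  exact (lft_rgt e.2.1).1 h1

theorem cor_ne (e : S.Ed c) (j k : ℕ) :
    S.hc c (endp e.1 false) j ≠ S.hc c (endp e.1 true) k := by
  intro h
  have h1 := hc_oc (endp_onS e false).bd j
  have h2 := hc_oc (endp_onS e true).bd k
  rw [← h] at h2
  exact endp_sep e (oc_trans (endp_onS e false).mem h1 (oc_symm (endp_onS e true).mem h2))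

/-- the level edges -/
theorem lvl_edge (e : S.Ed c) (hj : j ≤ S.n c) :
    S.T3.cc (S.hc c e.1.pt j) = segment ℝ (S.hc c (endp e.1 false) j) (S.hc c (endp e.1 true) j) ∧
    S.T3.oc (S.hc c e.1.pt j) =
      openSegment ℝ (S.hc c (endp e.1 false) j) (S.hc c (endp e.1 true) j) := by
  have hO : S.hc c e.1.pt j ∈ Om := (hc_onS (ed_onS e).bd hj).mem
  have hd : S.T3.dim (S.hc c e.1.pt j) = 1 := by
    have h1 := hc_dim3 (ed_onS e).bd j
    have h2 := ed_dim e
    omega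
  obtain ⟨a, b, -, h1, h2, -, -, -, -⟩ := S.T3.edge_eq hO hd
  have hP := S.T3.vertex_of_edge hO hd h1 (cor_mem e false hj) (cor_dim3 e false j)
  have hQ := S.T3.vertex_of_edge hO hd h1 (cor_mem e true hj) (cor_dim3 e true j)
  have hne := cor_ne e j j
  rcases hP with hP | hP <;> rcases hQ with hQ | hQ
  · exact absurd (hP.trans hQ.symm) hne
  · rw [hP, hQ]; exact ⟨h1, h2⟩
  · rw [hP, hQ, segment_symm, openSegment_symm]; exact ⟨h1, h2⟩
  · exact absurd (hP.trans hQ.symm) hne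

/-! ### the copies of the points of the edges -/

/-- the copy of `w` on the level `j` -/
noncomputable def hp (S : Slc T κ) (c : κ) (j : ℕ) (w : E) : E :=
  if j = 0 then w else if h : w ∈ Om then
    S.hc c (lft (S.T3.cl h)) j +
      par S.T3 w • (S.hc c (rgt (S.T3.cl h)) j - S.hc c (lft (S.T3.cl h)) j)
  else w

theorem hp_zero (w : E) : S.hp c 0 w = w := if_pos rfl

theorem hp_eq (e : S.Ed c) (hw : w ∈ e.1.opn) (j : ℕ) :
    S.hp c j w = S.hc c (endp e.1 false) j +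
      par S.T3 w • (S.hc c (endp e.1 true) j - S.hc c (endp e.1 false) j) := by
  have hO : w ∈ Om := opn_sub_Om e.1 hw
  have he : S.T3.cl hO = e.1 := (S.T3.eq_cl hO hw).symm
  unfold hp
  by_cases hj : j = 0
  · rw [if_pos hj, hj, hc_zero_vx (endp_onS e false) (endp_dim e false),
      hc_zero_vx (endp_onS e true) (endp_dim e true)]
    obtain ⟨s, hs, e1⟩ := exists_par e.2.1 hw
    have h2 := (par_eq e.2.1 hs).2
    rw [← e1] at h2
    rw [h2]
    exact e1
  · rw [if_neg hj, dif_pos hO, he]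
    rfl

theorem par_mem (e : S.Ed c) (hw : w ∈ e.1.opn) : par S.T3 w ∈ Ioo (0 : ℝ) 1 := by
  obtain ⟨s, hs, e1⟩ := exists_par e.2.1 hw
  have h2 := (par_eq e.2.1 hs).2
  rw [← e1] at h2
  rw [h2]; exact hs

theorem hp_mem (e : S.Ed c) (hw : w ∈ e.1.opn) (hj : j ≤ S.n c) :
    S.hp c j w ∈ S.T3.oc (S.hc c e.1.pt j) := by
  rw [(lvl_edge e hj).2, hp_eq e hw, openSegment_eq_image']
  exact ⟨_, par_mem e hw, rfl⟩

theorem exists_hp (e : S.Ed c) (hj : j ≤ S.n c) (hx : x ∈ S.T3.oc (S.hc c e.1.pt j)) :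
    ∃ w ∈ e.1.opn, S.hp c j w = x := by
  rw [(lvl_edge e hj).2, openSegment_eq_image'] at hx
  obtain ⟨s, hs, rfl⟩ := hx
  obtain ⟨h1, h2⟩ := par_eq e.2.1 hs
  refine ⟨_, h1, ?_⟩
  rw [hp_eq e h1, h2]

theorem hp_oc (e : S.Ed c) (hw : w ∈ e.1.opn) (hj : j ≤ S.n c) : S.hp c j w ∈ T.oc e.1.pt :=
  ((mem_oc_hc (ed_onS e).bd hj).1 (hp_mem e hw hj)).1

theorem hp_onS (e : S.Ed c) (hw : w ∈ e.1.opn) (hj : j ≤ S.n c) : S.OnS c j (S.hp c j w) := by
  have h := (mem_oc_hc (ed_onS e).bd hj).1 (hp_mem e hw hj)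
  exact onS_of_cc (ed_onS e).bd (T.oc_sub_cc _ h.1) hj h.2

theorem hp_dim (e : S.Ed c) (hw : w ∈ e.1.opn) (hj : j ≤ S.n c) : T.dim (S.hp c j w) = 2 := by
  rw [T.dim_eq_of_mem_oc e.1.pt_mem (hp_oc e hw hj), ed_dim e]

theorem hp_dim3 (e : S.Ed c) (hw : w ∈ e.1.opn) (hj : j ≤ S.n c) :
    S.T3.dim (S.hp c j w) = 1 := by
  have h1 := S.dim3_on (hp_onS e hw hj)
  have h2 := hp_dim e hw hj
  omega

theorem hp_inj {e e' : S.Ed c} {w' : E} {j' : ℕ} (hj : j ≤ S.n c) (hj' : j' ≤ S.n c)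
    (hw : w ∈ e.1.opn) (hw' : w' ∈ e'.1.opn) (h : S.hp c j w = S.hp c j' w') :
    j = j' ∧ w = w' := by
  have h1 := hp_onS e hw hj
  have h2 := hp_onS e' hw' hj'
  rw [← h] at h2
  have hjj : j = j' := S.t_inj hj hj' (h1.2.2.symm.trans h2.2.2)
  subst hjj
  refine ⟨rfl, ?_⟩
  have h3 := hp_oc e hw hj
  have h4 := hp_oc e' hw' hj'
  rw [← h] at h4
  have h5 : e'.1.pt ∈ T.oc e.1.pt := oc_trans e.1.pt_mem h3 (oc_symm e'.1.pt_mem h4)
  have he : e = e' := ed_eq h5
  subst he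
  rw [hp_eq e hw, hp_eq e hw'] at h
  have h6 : (par S.T3 w - par S.T3 w') •
      (S.hc c (endp e.1 true) j - S.hc c (endp e.1 false) j) = 0 := by
    rw [sub_smul, sub_eq_zero]
    exact add_left_cancel h
  rcases smul_eq_zero.1 h6 with h7 | h7
  · obtain ⟨s, hs, e1⟩ := exists_par e.2.1 hw
    obtain ⟨s', hs', e1'⟩ := exists_par e.2.1 hw'
    have g1 := (par_eq e.2.1 hs).2
    have g2 := (par_eq e.2.1 hs').2
    rw [← e1] at g1
    rw [← e1'] at g2
    rw [g1, g2, sub_eq_zero] at h7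
    rw [e1, e1', h7]
  · exact absurd (sub_eq_zero.1 h7).symm (cor_ne e j j)

/-- the base point of a point of the band -/
theorem base_onS (hx : x ∈ S.Bd c) : S.OnS c 0 (S.hc c x 0) := hc_onS hx (Nat.zero_le _)

/-- every point of a level edge is a copy -/
theorem exists_hp_of (hx : S.OnS c j x) (hd : S.T3.dim x = 1) :
    ∃ e : S.Ed c, e.1.pt ∈ T.oc x ∧ x ∈ T.oc e.1.pt ∧ ∃ w ∈ e.1.opn, S.hp c j w = x := by
  have hj := hx.2.1
  have hd2 : T.dim x = 2 := by have := S.dim3_on hx; omega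
  have hd3 : S.T3.dim (S.hc c x 0) = 1 := by have := hc_dim3 hx.bd 0; omega
  set e : S.Ed c := edx (base_onS hx.bd) hd3 with he
  have h1 : e.1.pt ∈ T.oc x :=
    oc_trans hx.mem (hc_oc hx.bd 0) (edx_pt' (base_onS hx.bd) hd3)
  have h2 : x ∈ T.oc e.1.pt := oc_symm hx.mem h1
  refine ⟨e, h1, h2, exists_hp e hj ?_⟩
  rw [mem_oc_hc (ed_onS e).bd hj]
  exact ⟨h2, hx.2.2⟩

/-! ### the points of the vertical edges -/

theorem vp_inj {v v' : S.Vx c} {j' : ℕ} (hj : j < S.n c) (hj' : j' < S.n c)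
    (h : S.vc c v.1 j = S.vc c v'.1 j') : j = j' ∧ v = v' := by
  have h1 := vc_inL (vx_onS v).bd hj
  have h2 := vc_inL (vx_onS v').bd hj'
  rw [← h] at h2
  constructor
  · rcases lt_trichotomy j j' with h3 | h3 | h3
    · have := S.t_le (c := c) (show j + 1 ≤ j' by omega) hj'.le
      have := h1.2.2.1
      have := h2.2.2.2
      linarith
    · exact h3
    · have := S.t_le (c := c) (show j' + 1 ≤ j by omega) hj.le
      have := h2.2.2.1
      have := h1.2.2.2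
      linarith
  · have h3 := vc_oc (vx_onS v).bd j
    have h4 := vc_oc (vx_onS v').bd j'
    rw [← h] at h4
    exact vx_eq (oc_trans (vx_onS v).mem h3 (oc_symm (vx_onS v').mem h4))

end Slc

end Crest.Agent.R096.Slc_184
end

-- ▼ part R096/Sla1_184

/-!
# Row 96, DOORS, leaf SLC in the format of `Mbf_337.Tiny` (helper184), part 1

`Sla T κ` : cores `K c` of a tiling `T` whose frontier `{φ = t 0}` is a subcomplex, the cells of `T`
are products near the frontier (`tr`, `st`); levels `t 0 > t 1 > .. > t n > a` without vertices in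
between.  `T` is cut along the levels `t 1, .., t n`, nothing changes outside the cores.

This part: bands, the cell below a cell of the frontier, virtual cells `C`, `O`, `D`.
-/

set_option autoImplicit false
set_option linter.unusedSectionVars false

open Set Filter Topology Metric
open scoped Classical

namespace Crest.Agent.R096.Sla_184

open Crest.Agent.R096.Msh_715 Crest.Agent.R096.Agl5_543 Crest.Agent.R096.St_147
  Crest.Agent.R096.Slc_184

variable {E : Type} [NormedAddCommGroup E] [NormedSpace ℝ E] [FiniteDimensional ℝ E]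
variable {Om : Set E} {ι : Type}

/-- slices of a tiling inside the cores `K c` -/
structure Sla (T : Tiling Om ι) (κ : Type) where
  K : κ → Set E
  φ : κ → E → ℝ
  a : κ → ℝ
  n : κ → ℕ
  t : κ → ℕ → ℝ
  hH : ∀ c, CoreH T (K c)
  dis : ∀ c c', c ≠ c' → Disjoint (K c) (K c')
  cont : ∀ c, ContinuousOn (φ c) (K c)
  aff : ∀ c i, P (T.H i) ⊆ K c → AffOn (φ c) (P (T.H i))
  le : ∀ c, ∀ x ∈ K c, φ c x ≤ t c 0
  fr : ∀ c, ∀ x ∈ K c, (φ c x = t c 0 ↔ x ∈ frontier (K c))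
  vert : ∀ c, ∀ v ∈ K c, T.dim v = 0 → φ c v ≤ a c ∨ φ c v = t c 0
  tr : ∀ c, ∀ x ∈ K c, x ∉ frontier (K c) → (T.cc x ∩ frontier (K c)).Nonempty →
    ∃ y ∈ T.cc x, T.dim y + 1 = T.dim x ∧ T.cc x ∩ frontier (K c) = T.cc y
  st : ∀ c, ∀ z ∈ frontier (K c), ∃ x ∈ K c, x ∉ frontier (K c) ∧ z ∈ T.cc x ∧
    T.dim x = T.dim z + 1 ∧ ∀ y ∈ K c, y ∉ frontier (K c) → z ∈ T.cc y → x ∈ T.cc y
  npos : ∀ c, 0 < n c
  anti : ∀ c j, j < n c → t c (j + 1) < t c j
  gt : ∀ c, a c < t c (n c)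

namespace Sla

variable {T : Tiling Om ι} {κ : Type} (S : Sla T κ)

/-! ### levels -/

theorem t_le {c : κ} : ∀ {j k : ℕ}, j ≤ k → k ≤ S.n c → S.t c k ≤ S.t c j := by
  intro j k hjk
  induction hjk with
  | refl => intro _; exact le_rfl
  | step h ih => intro hk; exact (S.anti c _ hk).le.trans (ih (by omega))

theorem t_lt {c : κ} {j k : ℕ} (h : j < k) (hk : k ≤ S.n c) : S.t c k < S.t c j :=
  (S.t_le (c := c) (Nat.succ_le_of_lt h) hk).trans_lt (S.anti c j (by omega))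

theorem a_lt_t {c : κ} {j : ℕ} (hj : j ≤ S.n c) : S.a c < S.t c j :=
  (S.gt c).trans_le (S.t_le hj le_rfl)

theorem t_inj {c : κ} {j k : ℕ} (hj : j ≤ S.n c) (hk : k ≤ S.n c) (h : S.t c j = S.t c k) :
    j = k := by
  rcases lt_trichotomy j k with h1 | h1 | h1
  · exact absurd h (S.t_lt h1 hk).ne'
  · exact h1
  · exact absurd h (S.t_lt h1 hj).ne

/-- middle level of a layer -/
noncomputable def mid (c : κ) (j : ℕ) : ℝ := (S.t c j + S.t c (j + 1)) / 2

theorem mid_lt {c : κ} {j : ℕ} (hj : j < S.n c) : S.mid c j < S.t c j := by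
  have := S.anti c j hj
  unfold mid; linarith

theorem lt_mid {c : κ} {j : ℕ} (hj : j < S.n c) : S.t c (j + 1) < S.mid c j := by
  have := S.anti c j hj
  unfold mid; linarith

theorem mid_le {c : κ} {j : ℕ} (hj : j < S.n c) : S.mid c j ≤ S.t c 0 :=
  (S.mid_lt hj).le.trans (S.t_le (Nat.zero_le j) hj.le)

theorem a_lt_mid {c : κ} {j : ℕ} (hj : j < S.n c) : S.a c < S.mid c j :=
  (S.a_lt_t (Nat.succ_le_of_lt hj)).trans (S.lt_mid hj)

/-! ### the cores -/

theorem K_sub (c : κ) : S.K c ⊆ Om := (S.hH c).sub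

theorem closed (c : κ) : IsClosed (S.K c) := (S.hH c).core.closed

theorem fr_sub (c : κ) : frontier (S.K c) ⊆ S.K c := (S.closed c).frontier_subset

theorem core_unique {c c' : κ} {x : E} (h : x ∈ S.K c) (h' : x ∈ S.K c') : c = c' := by
  by_contra hne
  exact Set.disjoint_left.1 (S.dis c c' hne) h h'

/-- inner points -/
def In (c : κ) (x : E) : Prop := x ∈ S.K c ∧ x ∉ frontier (S.K c)

variable {S}
variable {c : κ} {x y z w : E} {j : ℕ}

theorem in_iff : S.In c x ↔ x ∈ interior (S.K c) := by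
  unfold In
  rw [(S.closed c).frontier_eq]
  constructor
  · rintro ⟨h1, h2⟩
    by_contra h
    exact h2 ⟨h1, h⟩
  · intro h
    exact ⟨interior_subset h, fun h' => h'.2 h⟩

theorem In.lt (h : S.In c x) : S.φ c x < S.t c 0 :=
  lt_of_le_of_ne (S.le c x h.1) fun e => h.2 ((S.fr c x h.1).1 e)

theorem in_of_lt (h : x ∈ S.K c) (h' : S.φ c x < S.t c 0) : S.In c x :=
  ⟨h, fun hf => h'.ne ((S.fr c x h).2 hf)⟩

theorem In.mem (h : S.In c x) : x ∈ Om := S.K_sub c h.1

theorem In.tile (h : S.In c x) {i : ι} (hi : x ∈ P (T.H i)) : P (T.H i) ⊆ S.K c :=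
  T.sub_of_mem_interior (S.closed c) (S.hH c).cc hi (in_iff.1 h)

theorem In.cc_sub (h : S.In c x) : T.cc x ⊆ S.K c := by
  obtain ⟨i, hi⟩ := T.cov x h.mem
  exact (T.cc_sub_tile hi).trans (h.tile hi)

theorem In.up (hx : x ∈ Om) (hy : y ∈ T.cc x) (h : S.In c y) : S.In c x :=
  in_iff.2 (mem_int_of_cc (S.closed c) (S.hH c).cc hx hy (in_iff.1 h))

theorem In.oc (h : S.In c x) (hy : y ∈ T.oc x) : S.In c y := by
  have hyO : y ∈ Om := T.cc_sub_Om h.mem (T.oc_sub_cc x hy)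
  exact In.up hyO (T.oc_sub_cc _ (oc_symm h.mem hy)) h

theorem In.aff (h : S.In c x) : AffOn (S.φ c) (T.cc x) := by
  obtain ⟨i, hi⟩ := T.cov x h.mem
  exact (S.aff c i (h.tile hi)).mono (T.cc_sub_tile hi)

/-- the open band -/
def Bo (S : Sla T κ) (c : κ) : Set E := {x | S.In c x ∧ S.a c < S.φ c x}

/-- the band -/
def Bd (S : Sla T κ) (c : κ) : Set E := {x | x ∈ S.K c ∧ S.a c < S.φ c x}

theorem Bo_sub : S.Bo c ⊆ S.Bd c := fun _ h => ⟨h.1.1, h.2⟩

theorem Bd_sub (hx : x ∈ S.Bd c) : x ∈ Om := S.K_sub c hx.1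

theorem fr_Bd (hx : x ∈ frontier (S.K c)) : x ∈ S.Bd c := by
  refine ⟨S.fr_sub c hx, ?_⟩
  rw [(S.fr c x (S.fr_sub c hx)).2 hx]
  exact S.a_lt_t (Nat.zero_le _)

theorem exists_low (hx : x ∈ S.Bo c) : ∃ v ∈ T.cc x, S.φ c v ≤ S.a c := by
  obtain ⟨v, hv, hv0, hmin⟩ := exists_min_vertex hx.1.mem hx.1.aff
  have h1 : S.φ c v < S.t c 0 := (hmin x (T.self_mem_cc x)).trans_lt hx.1.lt
  rcases S.vert c v (hx.1.cc_sub hv) hv0 with h | h
  · exact ⟨v, hv, h⟩
  · exact absurd h h1.ne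

theorem exists_high (hx : x ∈ S.Bo c) : ∃ v ∈ T.cc x, v ∈ frontier (S.K c) := by
  obtain ⟨v, hv, hv0, hmax⟩ := exists_max_vertex hx.1.mem hx.1.aff
  refine ⟨v, hv, ?_⟩
  rcases S.vert c v (hx.1.cc_sub hv) hv0 with h | h
  · have h1 := hmax x (T.self_mem_cc x)
    have h2 := hx.2
    linarith
  · exact (S.fr c v (hx.1.cc_sub hv)).1 h

/-- the top cell of a cell of the open band -/
theorem exists_tp (hx : x ∈ S.Bo c) : ∃ y ∈ T.cc x, T.dim y + 1 = T.dim x ∧
    T.cc x ∩ frontier (S.K c) = T.cc y := by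
  obtain ⟨v, hv, hvf⟩ := exists_high hx
  exact S.tr c x hx.1.1 hx.1.2 ⟨v, hv, hvf⟩

/-- the cell below a cell of the frontier -/
theorem exists_dn (hz : z ∈ frontier (S.K c)) : ∃ x, x ∈ S.Bo c ∧ z ∈ T.cc x ∧
    T.dim x = T.dim z + 1 ∧ (∀ y, S.In c y → z ∈ T.cc y → x ∈ T.cc y) ∧
    T.cc x ∩ frontier (S.K c) = T.cc z := by
  obtain ⟨x0, h0K, h0f, hzx, hd, hst⟩ := S.st c z hz
  have hI0 : S.In c x0 := ⟨h0K, h0f⟩
  have hφz : S.φ c z = S.t c 0 := (S.fr c z (S.fr_sub c hz)).2 hz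
  have ha : S.a c < S.t c 0 := S.a_lt_t (Nat.zero_le _)
  obtain ⟨s, hs0, hs1, hs⟩ : ∃ s : ℝ, 0 < s ∧ s ≤ 1 ∧ S.a c < S.t c 0 + s * (S.φ c x0 - S.t c 0) := by
    have hD : 0 < S.t c 0 - S.φ c x0 := by linarith [hI0.lt]
    refine ⟨min 1 ((S.t c 0 - S.a c) / (2 * (S.t c 0 - S.φ c x0))), ?_, min_le_left _ _, ?_⟩
    · have : 0 < S.t c 0 - S.a c := by linarith
      positivity
    · have h1 : min 1 ((S.t c 0 - S.a c) / (2 * (S.t c 0 - S.φ c x0))) * (S.t c 0 - S.φ c x0) ≤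
          (S.t c 0 - S.a c) / 2 := by
        calc _ ≤ (S.t c 0 - S.a c) / (2 * (S.t c 0 - S.φ c x0)) * (S.t c 0 - S.φ c x0) :=
              mul_le_mul_of_nonneg_right (min_le_right _ _) hD.le
          _ = _ := by field_simp
      nlinarith
  have hx := T.move_mem_oc hzx hs0 hs1
  have hI : S.In c (z + s • (x0 - z)) := hI0.oc hx
  have hφ : S.φ c (z + s • (x0 - z)) = S.t c 0 + s * (S.φ c x0 - S.t c 0) := by
    rw [hI0.aff.line hzx (T.self_mem_cc _) (T.oc_sub_cc _ hx), hφz]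
  have hB : z + s • (x0 - z) ∈ S.Bo c := ⟨hI, by rw [hφ]; exact hs⟩
  have hcc := T.cc_eq_of_mem_oc hI0.mem hx
  have hdim := T.dim_eq_of_mem_oc hI0.mem hx
  refine ⟨_, hB, by rw [hcc]; exact hzx, by rw [hdim, hd], ?_, ?_⟩
  · intro y hy hzy
    exact T.cc_sub_of_mem (hst y hy.1 hy.2 hzy) (T.oc_sub_cc _ hx)
  · obtain ⟨y, hy, hy1, hy2⟩ := exists_tp hB
    rw [hy2]
    have h1 : z ∈ T.cc y := by
      rw [← hy2, hcc]; exact ⟨hzx, hz⟩
    have h2 : T.dim y = T.dim z := by omega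
    have h3 : z ∈ T.oc y := mem_oc_of_dim h1 h2.le
    exact (T.cc_eq_of_mem_oc (T.cc_sub_Om hI.mem hy) h3).symm

/-- the representative of a point in the open band -/
noncomputable def dn (S : Sla T κ) (c : κ) (x : E) : E :=
  if h : x ∈ frontier (S.K c) then (exists_dn h).choose else x

theorem dn_fr (h : x ∈ frontier (S.K c)) : S.dn c x ∈ S.Bo c ∧ x ∈ T.cc (S.dn c x) ∧
    T.dim (S.dn c x) = T.dim x + 1 ∧ (∀ y, S.In c y → x ∈ T.cc y → S.dn c x ∈ T.cc y) ∧
    T.cc (S.dn c x) ∩ frontier (S.K c) = T.cc x := by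
  unfold dn
  rw [dif_pos h]
  exact (exists_dn h).choose_spec

theorem dn_in (h : S.In c x) : S.dn c x = x := dif_neg h.2

theorem cases_Bd (hx : x ∈ S.Bd c) : x ∈ frontier (S.K c) ∨ x ∈ S.Bo c := by
  by_cases h : x ∈ frontier (S.K c)
  · exact Or.inl h
  · exact Or.inr ⟨⟨hx.1, h⟩, hx.2⟩

theorem dn_Bo (hx : x ∈ S.Bd c) : S.dn c x ∈ S.Bo c := by
  rcases cases_Bd hx with h | h
  · exact (dn_fr h).1
  · rw [dn_in h.1]; exact h

theorem dn_mem (hx : x ∈ S.Bd c) : S.dn c x ∈ Om := (dn_Bo hx).1.mem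

/-- virtual closed cell -/
noncomputable def C (S : Sla T κ) (c : κ) (x : E) : Set E := T.cc (S.dn c x)

/-- virtual dimension -/
noncomputable def D (S : Sla T κ) (c : κ) (x : E) : ℕ := T.dim (S.dn c x)

/-- virtual open cell -/
noncomputable def O (S : Sla T κ) (c : κ) (x : E) : Set E :=
  {y | y ∈ S.Bd c ∧ S.dn c y ∈ T.oc (S.dn c x)}

theorem self_C (hx : x ∈ S.Bd c) : x ∈ S.C c x := by
  unfold C
  rcases cases_Bd hx with h | h
  · exact (dn_fr h).2.1
  · rw [dn_in h.1]; exact T.self_mem_cc x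


theorem C_K (hx : x ∈ S.Bd c) : S.C c x ⊆ S.K c := (dn_Bo hx).1.cc_sub

theorem C_aff (hx : x ∈ S.Bd c) : AffOn (S.φ c) (S.C c x) := (dn_Bo hx).1.aff

theorem C_convex (x : E) : Convex ℝ (S.C c x) := T.convex_cc _


theorem dn_cc (hx : x ∈ S.Bd c) (hy : S.In c y) (h : x ∈ T.cc y) : S.dn c x ∈ T.cc y := by
  rcases cases_Bd hx with h' | h'
  · exact (dn_fr h').2.2.2.1 y hy h
  · rw [dn_in h'.1]; exact h

theorem C_sub (hx : x ∈ S.Bd c) (hy : y ∈ S.Bd c) (h : y ∈ S.C c x) : S.C c y ⊆ S.C c x :=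
  T.cc_sub_of_mem (dn_cc hy (dn_Bo hx).1 h)


theorem O_symm (hx : x ∈ S.Bd c) (hy : y ∈ S.O c x) : x ∈ S.O c y :=
  ⟨hx, oc_symm (dn_mem hx) hy.2⟩

theorem O_trans (hx : x ∈ S.Bd c) (hy : y ∈ S.O c x) (hz : z ∈ S.O c y) : z ∈ S.O c x :=
  ⟨hz.1, oc_trans (dn_mem hx) hy.2 hz.2⟩

theorem C_eq (hx : x ∈ S.Bd c) (hy : y ∈ S.O c x) : S.C c y = S.C c x :=
  T.cc_eq_of_mem_oc (dn_mem hx) hy.2

theorem D_eq (hx : x ∈ S.Bd c) (hy : y ∈ S.O c x) : S.D c y = S.D c x :=
  T.dim_eq_of_mem_oc (dn_mem hx) hy.2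

theorem O_C (hx : x ∈ S.Bd c) (hy : y ∈ S.O c x) : y ∈ S.C c x := by
  rw [← C_eq hx hy]; exact self_C hy.1

theorem O_of_dim (hx : x ∈ S.Bd c) (hy : y ∈ S.Bd c) (h : y ∈ S.C c x)
    (hd : S.D c x ≤ S.D c y) : y ∈ S.O c x :=
  ⟨hy, mem_oc_of_dim (dn_cc hy (dn_Bo hx).1 h) hd⟩

theorem D_fr (h : x ∈ frontier (S.K c)) : S.D c x = T.dim x + 1 := (dn_fr h).2.2.1

theorem D_in (h : S.In c x) : S.D c x = T.dim x := by
  unfold D; rw [dn_in h]

/-- the frontier part of a virtual cell -/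
theorem C_fr (h : x ∈ frontier (S.K c)) : S.C c x ∩ frontier (S.K c) = T.cc x := (dn_fr h).2.2.2.2

theorem O_fr (hx : x ∈ frontier (S.K c)) (hy : y ∈ frontier (S.K c)) :
    y ∈ S.O c x ↔ y ∈ T.oc x := by
  have hxB := fr_Bd hx
  have hyB := fr_Bd hy
  constructor
  · intro h
    have h1 := C_eq hxB h
    have h2 := C_fr hx
    have h3 := C_fr hy
    rw [h1, h2] at h3
    exact (T.cc_eq_iff (Bd_sub hxB)).1 h3.symm
  · intro h
    refine O_of_dim hxB hyB ?_ ?_
    · have h1 : y ∈ T.cc x := T.oc_sub_cc _ h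
      rw [← C_fr hx] at h1
      exact h1.1
    · rw [D_fr hx, D_fr hy, T.dim_eq_of_mem_oc (Bd_sub hxB) h]

theorem O_in (hx : S.In c x) (hy : S.In c y) (ha : S.a c < S.φ c y) :
    y ∈ S.O c x ↔ y ∈ T.oc x := by
  unfold O
  rw [mem_ofPred_eq, dn_in hx, dn_in hy]
  exact ⟨fun h => h.2, fun h => ⟨⟨hy.1, ha⟩, h⟩⟩

/-- segments in virtual open cells -/
theorem O_seg (hx : x ∈ S.Bd c) (hy : y ∈ S.O c x) (hz : z ∈ S.O c x) {s : ℝ}
    (hs : s ∈ Icc (0 : ℝ) 1) : y + s • (z - y) ∈ S.O c x ∧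
      S.φ c (y + s • (z - y)) = S.φ c y + s * (S.φ c z - S.φ c y) := by
  have hyC := O_C hx hy
  have hzC := O_C hx hz
  have hp : y + s • (z - y) ∈ S.C c x := (C_convex x).add_smul_sub_mem hyC hzC hs
  have hφ := (C_aff hx).line hyC hzC hp
  refine ⟨?_, hφ⟩
  have hya := hy.1.2
  have hza := hz.1.2
  have hpa : S.a c < S.φ c (y + s • (z - y)) := by
    rw [hφ]
    obtain ⟨h0, h1⟩ := hs
    nlinarith [mul_nonneg h0 (sub_nonneg.2 hza.le), mul_nonneg (sub_nonneg.2 h1) (sub_nonneg.2 hya.le)]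
  rcases eq_or_lt_of_le hs.1 with h0 | h0
  · rw [← h0, zero_smul, add_zero]; exact hy
  rcases eq_or_lt_of_le hs.2 with h1 | h1
  · rw [h1, one_smul, add_sub_cancel]; exact hz
  have hpB : y + s • (z - y) ∈ S.Bd c := ⟨C_K hx hp, hpa⟩
  rcases cases_Bd hy.1 with h | h
  · rcases cases_Bd hz.1 with h' | h'
    · -- both on the frontier
      have h2 : z ∈ T.oc y := (O_fr h h').1 (O_trans hy.1 (O_symm hx hy) hz)
      have h3 : y + s • (z - y) ∈ T.oc y :=
        (T.convex_oc y).add_smul_sub_mem (T.self_mem_oc y) h2 hs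
      have h4 : y + s • (z - y) ∈ frontier (S.K c) := (S.hH c).cc y h (T.oc_sub_cc _ h3)
      exact O_trans hx hy ((O_fr h h4).2 h3)
    · have h2 : y ∈ T.cc z := by
        have : y ∈ S.C c z := by rw [C_eq hx hz]; exact hyC
        unfold C at this
        rwa [dn_in h'.1] at this
      have h3 := T.move_mem_oc h2 h0 hs.2
      have h4 : S.In c (y + s • (z - y)) := h'.1.oc h3
      exact O_trans hx hz ((O_in h'.1 h4 hpa).2 h3)
  · have h2 : z ∈ T.cc y := by
      have : z ∈ S.C c y := by rw [C_eq hx hy]; exact hzC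
      unfold C at this
      rwa [dn_in h.1] at this
    have h3 := T.move_mem_oc h2 (sub_pos.2 h1) (by linarith : 1 - s ≤ 1)
    have e : z + (1 - s) • (y - z) = y + s • (z - y) := by module
    rw [e] at h3
    have h4 : S.In c (y + s • (z - y)) := h.1.oc h3
    exact O_trans hx hy ((O_in h.1 h4 hpa).2 h3)

/-- every level of the band is attained on every virtual open cell -/
theorem exists_level (hx : x ∈ S.Bd c) {s : ℝ} (hs : S.a c < s) (hs' : s ≤ S.t c 0) :
    ∃ y ∈ S.O c x, S.φ c y = s := by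
  have hB := dn_Bo hx
  -- the top point
  obtain ⟨z, hz, hzd, hzc⟩ := exists_tp hB
  have hzf : z ∈ frontier (S.K c) := by
    have : z ∈ T.cc z := T.self_mem_cc z
    rw [← hzc] at this
    exact this.2
  have hzB := fr_Bd hzf
  have hzO : z ∈ S.O c x := by
    refine O_of_dim hx hzB hz ?_
    rw [D_fr hzf, hzd]; exact le_rfl
  have hφz : S.φ c z = S.t c 0 := (S.fr c z hzB.1).2 hzf
  -- a low point
  obtain ⟨v, hv, hva⟩ := exists_low hB
  have hA := C_aff hx
  have hlt := hB.1.lt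
  -- a point of the open cell just above the level `a`
  obtain ⟨y, hy, hya, hys⟩ : ∃ y ∈ S.O c x, S.a c < S.φ c y ∧ S.φ c y ≤ s := by
    by_cases h : S.φ c (S.dn c x) ≤ s
    · refine ⟨S.dn c x, ⟨Bo_sub hB, ?_⟩, hB.2, h⟩
      rw [dn_in hB.1]; exact T.self_mem_oc _
    · push Not at h
      set r := (s - S.φ c v) / (S.φ c (S.dn c x) - S.φ c v) with hr
      have hd : 0 < S.φ c (S.dn c x) - S.φ c v := by linarith
      have hr0 : 0 < r := div_pos (by linarith) hd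
      have hr1 : r ≤ 1 := by rw [hr, div_le_one hd]; linarith
      have hm := T.move_mem_oc hv hr0 hr1
      have hφ : S.φ c (v + r • (S.dn c x - v)) = s := by
        rw [hA.line hv (T.self_mem_cc _) (T.oc_sub_cc _ hm), hr]
        field_simp
        ring
      have hI := hB.1.oc hm
      refine ⟨_, ⟨⟨hI.1, by rw [hφ]; exact hs⟩, ?_⟩, by rw [hφ]; exact hs, hφ.le⟩
      rw [dn_in hI]; exact hm
  by_cases he : S.φ c y = s
  · exact ⟨y, hy, he⟩
  have hys' : S.φ c y < s := lt_of_le_of_ne hys he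
  have hd : 0 < S.φ c z - S.φ c y := by linarith
  have hr : (s - S.φ c y) / (S.φ c z - S.φ c y) ∈ Icc (0 : ℝ) 1 :=
    ⟨div_nonneg (by linarith) hd.le, by rw [div_le_one hd]; linarith⟩
  obtain ⟨h1, h2⟩ := O_seg hx hy hzO hr
  refine ⟨_, h1, ?_⟩
  rw [h2]
  field_simp
  ring

/-- points of a virtual edge at the same level are equal -/
theorem lv_unique (hx : x ∈ S.Bd c) (hd : S.D c x = 1) (hy : y ∈ S.C c x) (hz : z ∈ S.C c x)
    (h : S.φ c y = S.φ c z) : y = z := by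
  have hB := dn_Bo hx
  obtain ⟨L, hL⟩ := (C_aff hx).exists_lin
  obtain ⟨v, hv, hva⟩ := exists_low hB
  have hvV : v - S.dn c x ∈ T.V (S.dn c x) := T.sub_mem_V hv
  have hLv : L (v - S.dn c x) ≠ 0 := by
    intro h0
    have h1 := hL _ (T.self_mem_cc _) v hv
    rw [h0, add_zero] at h1
    have := hB.2
    linarith
  have h1 := hL y hy z hz
  have h2 : L (z - y) = 0 := by linarith
  have h3 : z - y ∈ T.V (S.dn c x) := T.sub_mem_V' hz hy
  have hv0 : (⟨v - S.dn c x, hvV⟩ : T.V (S.dn c x)) ≠ 0 := fun h => by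
    have h5 : v - S.dn c x = 0 := congrArg Subtype.val h
    rw [h5, map_zero] at hLv
    exact hLv rfl
  obtain ⟨s, hs⟩ := exists_smul_eq_of_finrank_eq_one (K := ℝ) (V := T.V (S.dn c x)) hd hv0
    ⟨z - y, h3⟩
  have hs' : s • (v - S.dn c x) = z - y := congrArg Subtype.val hs
  rw [← hs', map_smul, smul_eq_mul] at h2
  rcases mul_eq_zero.1 h2 with h | h
  · rw [h, zero_smul] at hs'
    exact (sub_eq_zero.1 hs'.symm).symm
  · exact absurd h hLv

/-- a point of the virtual open cell of `x` at the level `s` -/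
noncomputable def lv (S : Sla T κ) (c : κ) (x : E) (s : ℝ) : E :=
  if h : x ∈ S.Bd c ∧ S.a c < s ∧ s ≤ S.t c 0 then (exists_level h.1 h.2.1 h.2.2).choose else x

theorem lv_mem (hx : x ∈ S.Bd c) {s : ℝ} (hs : S.a c < s) (hs' : s ≤ S.t c 0) :
    S.lv c x s ∈ S.O c x ∧ S.φ c (S.lv c x s) = s := by
  unfold lv
  rw [dif_pos ⟨hx, hs, hs'⟩]
  exact (exists_level hx hs hs').choose_spec

end Sla

end Crest.Agent.R096.Sla_184
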