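import Crest.Agent.R096.Sla3_184

-- ▼ part R096/Sla4_184
section

/-!
# Row 96, DOORS, leaf SLC in the format of `Mbf_337.Tiny` (helper184), part 4: the inner cores, the
merged meshes, the cells and faces of the layers.
-/

set_option autoImplicit false
set_option linter.unusedSectionVars false

open Set Filter Topology Metric
open scoped Classical

namespace Crest.Agent.R096.Sla_184

open Crest.Agent.R096.Msh_715 Crest.Agent.R096.Agl5_543 Crest.Agent.R096.St_147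
  Crest.Agent.R096.Slc_184

variable {E : Type} [NormedAddCommGroup E] [NormedSpace ℝ E] [FiniteDimensional ℝ E]
variable {Om : Set E} {ι : Type}

namespace Sla

variable {T : Tiling Om ι} {κ : Type}

/-- sublevels of a core -/
def KL (S : Sla T κ) (c : κ) (s : ℝ) : Set E := {x | x ∈ interior (S.K c) ∧ S.φ c x ≤ s}

/-- all properties of the sublevels -/
theorem KL_all (S : Sla T κ) (c : κ) {s : ℝ} (hs : S.a c < s) (hs' : s < S.t c 0) :
    IsCompact (S.KL c s) ∧ frontier (S.KL c s) = {x | x ∈ S.K c ∧ S.φ c x = s} ∧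
      interior (S.KL c s) = {x | x ∈ S.K c ∧ S.φ c x < s} ∧ Core (S.KL c s) ∧
      (Module.finrank ℝ E = 3 → PC (frontier (S.KL c s))) := by
  set φ' : E → ℝ := (S.K c).piecewise (S.φ c) (fun _ => S.t c 0) with hφ'
  have hφK : ∀ x ∈ S.K c, φ' x = S.φ c x := fun x hx => Set.piecewise_eq_of_mem _ _ _ hx
  have hcont : Continuous φ' := by
    refine continuous_piecewise (fun x hx => (S.fr c x (S.fr_sub c hx)).2 hx) ?_
      continuousOn_const
    rw [(S.closed c).closure_eq]; exact S.cont c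
  have hcl : closure (interior (S.K c)) ⊆ S.K c :=
    closure_minimal interior_subset (S.closed c)
  have h := Sld_316.core_sub (T := T) (φ := φ') (U := interior (S.K c)) (a := S.a c)
    (b := S.t c 0) (t := s) isOpen_interior (hcl.trans (S.K_sub c))
    ((S.hH c).cpt.of_isClosed_subset isClosed_closure hcl) hcont.continuousOn
    (by
      intro x hx
      have hxK : x ∈ S.K c := hcl (frontier_subset_closure hx)
      have hxf : x ∈ frontier (S.K c) := by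
        rw [(S.closed c).frontier_eq]
        rw [isOpen_interior.frontier_eq] at hx
        exact ⟨hxK, hx.2⟩
      rw [hφK x hxK, (S.fr c x hxK).2 hxf])
    (by
      rintro i ⟨x, hx, hxi⟩
      have hi : P (T.H i) ⊆ S.K c := T.sub_of_mem_interior (S.closed c) (S.hH c).cc hx hxi
      obtain ⟨g, hg⟩ := S.aff c i hi
      exact ⟨g, fun y hy => (hφK y (hi hy)).trans (hg hy)⟩)
    (by
      intro v hv hd
      rw [hφK v (interior_subset hv)]
      rcases S.vert c v (interior_subset hv) hd with h | h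
      · exact Or.inl h
      · exact Or.inr h.ge) hs hs'
  have e0 : {x | x ∈ interior (S.K c) ∧ φ' x ≤ s} = S.KL c s := by
    ext x
    constructor
    · rintro ⟨h1, h2⟩
      exact ⟨h1, by rw [← hφK x (interior_subset h1)]; exact h2⟩
    · rintro ⟨h1, h2⟩
      exact ⟨h1, by rw [hφK x (interior_subset h1)]; exact h2⟩
  have e1 : {x | x ∈ interior (S.K c) ∧ φ' x = s} = {x | x ∈ S.K c ∧ S.φ c x = s} := by
    ext x
    constructor
    · rintro ⟨h1, h2⟩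
      exact ⟨interior_subset h1, by rw [← hφK x (interior_subset h1)]; exact h2⟩
    · rintro ⟨h1, h2⟩
      exact ⟨in_iff.1 (in_of_lt h1 (by rw [h2]; exact hs')), by rw [hφK x h1]; exact h2⟩
  have e2 : {x | x ∈ interior (S.K c) ∧ φ' x < s} = {x | x ∈ S.K c ∧ S.φ c x < s} := by
    ext x
    constructor
    · rintro ⟨h1, h2⟩
      exact ⟨interior_subset h1, by rw [← hφK x (interior_subset h1)]; exact h2⟩
    · rintro ⟨h1, h2⟩
      exact ⟨in_iff.1 (in_of_lt h1 (h2.trans hs')), by rw [hφK x h1]; exact h2⟩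
  rw [e0, e1, e2] at h
  exact h

/-- the inner cores -/
def KK (S : Sla T κ) (c : κ) : Set E := S.KL c (S.t c (S.n c))

variable {S : Sla T κ} {h3 : Module.finrank ℝ E = 3} {c : κ} {x y z w : E} {j : ℕ}

theorem tn_lt (S : Sla T κ) (c : κ) : S.t c (S.n c) < S.t c 0 := S.t_lt (S.npos c) le_rfl

theorem mem_KK : x ∈ S.KK c ↔ x ∈ S.K c ∧ S.φ c x ≤ S.t c (S.n c) := by
  constructor
  · rintro ⟨h1, h2⟩; exact ⟨interior_subset h1, h2⟩
  · rintro ⟨h1, h2⟩; exact ⟨in_iff.1 (in_of_lt h1 (h2.trans_lt (S.tn_lt c))), h2⟩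

theorem KK_K : S.KK c ⊆ S.K c := fun _ h => (mem_KK.1 h).1

theorem KK_sub (c : κ) : S.KK c ⊆ Om := KK_K.trans (S.K_sub c)

theorem core_KK (c : κ) : Core (S.KK c) := (S.KL_all c (S.gt c) (S.tn_lt c)).2.2.2.1

theorem closed_KK (c : κ) : IsClosed (S.KK c) := (core_KK c).closed

theorem pc_KK (h3 : Module.finrank ℝ E = 3) (c : κ) : PC (frontier (S.KK c)) :=
  (S.KL_all c (S.gt c) (S.tn_lt c)).2.2.2.2 h3

theorem mem_fr_KK : x ∈ frontier (S.KK c) ↔ S.OnS c (S.n c) x := by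
  unfold KK
  rw [(S.KL_all c (S.gt c) (S.tn_lt c)).2.1]
  exact ⟨fun h => ⟨h.1, le_rfl, h.2⟩, fun h => ⟨h.1, h.2.2⟩⟩

theorem mem_int_KK : x ∈ interior (S.KK c) ↔ x ∈ S.K c ∧ S.φ c x < S.t c (S.n c) := by
  unfold KK
  rw [(S.KL_all c (S.gt c) (S.tn_lt c)).2.2.1]
  rfl

theorem hs_KK (c : κ) : ∀ x ∈ frontier (S.KK c), S.T3.cc x ⊆ frontier (S.KK c) := by
  intro x hx y hy
  rw [mem_fr_KK] at hx ⊢
  have h1 := hx.cc.1 hy
  exact onS_of_C hx.bd h1.1 le_rfl h1.2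

theorem dis_KK (c c' : κ) (h : c ≠ c') : Disjoint (S.KK c) (S.KK c') :=
  (S.dis c c' h).mono KK_K KK_K

/-- faces of the outer mesh -/
abbrev F0 (S : Sla T κ) (h3 : Module.finrank ℝ E = 3) : Type :=
  {F : C2 T // ¬ (((meshC T h3).side F).map (piK T S.K)).IsDiag}

/-- faces of the inner mesh -/
abbrev Fn (S : Sla T κ) (h3 : Module.finrank ℝ E = 3) : Type :=
  {F : C2 S.T3 // ¬ (((meshC S.T3 h3).side F).map (piK S.T3 S.KK)).IsDiag}

/-- the outer mesh -/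
noncomputable abbrev m0 (S : Sla T κ) (h3 : Module.finrank ℝ E = 3) : MeshC (ι ⊕ κ) (S.F0 h3) E :=
  meshK T h3 S.K (fun c => (S.hH c).core) (fun c => (S.hH c).cc) S.dis

/-- the inner mesh -/
noncomputable abbrev mn (S : Sla T κ) (h3 : Module.finrank ℝ E = 3) :
    MeshC (T.RIdx S.HH ⊕ κ) (S.Fn h3) E :=
  meshK S.T3 h3 S.KK core_KK hs_KK dis_KK

/-- the shells of the cores -/
noncomputable abbrev sh (S : Sla T κ) (h3 : Module.finrank ℝ E = 3) (c : κ) :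
    Door_501.Shell (S.m0 h3) (Sum.inr c) (S.Vx c) (S.Ed c) := shellH h3 S.hH S.dis c

theorem mem_sideN {F : S.Fn h3} {q : T.RIdx S.HH ⊕ κ} :
    q ∈ (S.mn h3).side F ↔ ∃ p ∈ S.T3.at_ F.1.pt, piK S.T3 S.KK p = q := by
  show q ∈ ((meshC S.T3 h3).side F.1).map _ ↔ _
  rw [mem_map_iff]
  constructor
  · rintro ⟨p, hp, h⟩; exact ⟨p, (C2.mem_side (h3 := h3)).1 hp, h⟩
  · rintro ⟨p, hp, h⟩; exact ⟨p, (C2.mem_side (h3 := h3)).2 hp, h⟩

theorem mem_side0 {F : S.F0 h3} {q : ι ⊕ κ} :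
    q ∈ (S.m0 h3).side F ↔ ∃ p ∈ T.at_ F.1.pt, piK T S.K p = q := by
  show q ∈ ((meshC T h3).side F.1).map _ ↔ _
  rw [mem_map_iff]
  constructor
  · rintro ⟨p, hp, h⟩; exact ⟨p, (C2.mem_side (h3 := h3)).1 hp, h⟩
  · rintro ⟨p, hp, h⟩; exact ⟨p, (C2.mem_side (h3 := h3)).2 hp, h⟩

/-- the faces of the outer mesh -/
theorem nd0_iff {F : C2 T} : (¬ (((meshC T h3).side F).map (piK T S.K)).IsDiag) ↔ S.Out F.pt := by
  rw [diag_iff h3 (fun c => (S.hH c).core) (fun c => (S.hH c).sub) (fun c => (S.hH c).cc) S.dis F]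
  push Not
  constructor
  · intro h
    exact ⟨F.pt_mem, fun c hc => h c (in_iff.1 hc)⟩
  · rintro ⟨_, h⟩ c hc
    exact h c (in_iff.2 hc)

/-- when a cell is a face of the inner mesh -/
theorem nd_iff {F : C2 S.T3} (hx : x ∈ Om) (h : F.pt ∈ S.T3.oc x) :
    (¬ (((meshC S.T3 h3).side F).map (piK S.T3 S.KK)).IsDiag) ↔
      ∀ c, ¬ (x ∈ S.K c ∧ S.φ c x < S.t c (S.n c)) := by
  rw [diag_iff h3 core_KK KK_sub hs_KK dis_KK F]
  push Not
  refine forall_congr' fun c => ?_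
  have h1 : F.pt ∈ interior (S.KK c) ↔ x ∈ interior (S.KK c) := by
    constructor
    · intro h2
      exact mem_int_of_cc (closed_KK c) (hs_KK c) hx (S.T3.oc_sub_cc _ h) h2
    · intro h2
      exact mem_int_of_cc (closed_KK c) (hs_KK c) F.pt_mem
        (S.T3.oc_sub_cc _ (oc_symm hx h)) h2
  rw [h1, mem_int_KK, not_and, not_lt]

theorem nd_mk (hx : x ∈ Om) (hd : S.T3.dim x = 2)
    (h : ∀ c, ¬ (x ∈ S.K c ∧ S.φ c x < S.t c (S.n c))) :
    ¬ (((meshC S.T3 h3).side (mk2 S.T3 hx hd)).map (piK S.T3 S.KK)).IsDiag :=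
  (nd_iff hx (mk2_pt hx hd)).2 h

theorem nd_pt (F : S.Fn h3) (c : κ) (h1 : F.1.pt ∈ S.K c) : S.t c (S.n c) ≤ S.φ c F.1.pt := by
  by_contra h
  exact (nd_iff F.1.pt_mem (S.T3.self_mem_oc _)).1 F.2 c ⟨h1, not_le.1 h⟩

theorem OnS.not_int (h : S.OnS c j x) (c' : κ) :
    ¬ (x ∈ S.K c' ∧ S.φ c' x < S.t c' (S.n c')) := by
  rintro ⟨h1, h2⟩
  have h4 : c = c' := S.core_unique h.1 h1
  subst h4
  rw [h.2.2] at h2
  have := S.t_le h.2.1 le_rfl
  linarith

theorem InL.not_int (h : S.InL c j x) (c' : κ) :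
    ¬ (x ∈ S.K c' ∧ S.φ c' x < S.t c' (S.n c')) := by
  rintro ⟨h1, h2⟩
  have h4 : c = c' := S.core_unique h.1 h1
  subst h4
  have h5 := h.2.2.1
  have := S.t_le (c := c) (show j + 1 ≤ S.n c from h.2.1) le_rfl
  linarith

/-! ### faces of the shell -/

theorem fk_sub (G : (S.sh h3 c).Fk) : G.1.1.set ⊆ frontier (S.K c) :=
  (face_iff h3 (fun c => (S.hH c).core) (fun c => (S.hH c).sub) (fun c => (S.hH c).cc) S.dis
    G.1.1 c).2 ⟨G.1.2, G.2⟩

theorem fk_fr (G : (S.sh h3 c).Fk) : G.1.1.pt ∈ frontier (S.K c) := by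
  refine fk_sub G ?_
  rw [G.1.1.set_eq]; exact T.self_mem_cc _

theorem fk_onS (G : (S.sh h3 c).Fk) : S.OnS c 0 G.1.1.pt := onS_fr (fk_fr G)

theorem fk_bd (G : (S.sh h3 c).Fk) : G.1.1.pt ∈ S.Bd c := (fk_onS G).bd

theorem fk_D (G : (S.sh h3 c).Fk) : S.D c G.1.1.pt = 3 := by
  rw [D_fr (fk_fr G), G.1.1.dim_pt]

theorem mem_set_fk (G : (S.sh h3 c).Fk) :
    y ∈ G.1.1.set ↔ y ∈ S.C c G.1.1.pt ∧ S.φ c y = S.t c 0 := by
  rw [G.1.1.set_eq, ← (out_fr (fk_fr G)).cc, (fk_onS G).cc]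

theorem fk_eq {G G' : (S.sh h3 c).Fk} (h : G'.1.1.pt ∈ S.O c G.1.1.pt) : G = G' := by
  apply Subtype.ext
  apply Subtype.ext
  apply C2.ext
  rw [G.1.1.set_eq, G'.1.1.set_eq]
  exact (T.cc_eq_of_mem_oc G.1.1.pt_mem ((O_fr (fk_fr G) (fk_fr G')).1 h)).symm

/-- the face of a point -/
noncomputable def fx (h3 : Module.finrank ℝ E = 3) (hx : x ∈ frontier (S.K c))
    (hd : T.dim x = 2) : (S.sh h3 c).Fk :=
  ⟨⟨mk2 T (out_fr hx).1 hd, ((face_iff h3 (fun c => (S.hH c).core) (fun c => (S.hH c).sub)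
    (fun c => (S.hH c).cc) S.dis (mk2 T (out_fr hx).1 hd) c).1 ((S.hH c).cc x hx)).1⟩,
    ((face_iff h3 (fun c => (S.hH c).core) (fun c => (S.hH c).sub)
    (fun c => (S.hH c).cc) S.dis (mk2 T (out_fr hx).1 hd) c).1 ((S.hH c).cc x hx)).2⟩

theorem fx_O (hx : x ∈ frontier (S.K c)) (hd : T.dim x = 2) :
    (fx h3 hx hd).1.1.pt ∈ S.O c x :=
  (O_fr hx (fk_fr _)).2 (mk2_pt (out_fr hx).1 hd)

/-! ### the data -/

theorem hf_aux (G : (S.sh h3 c).Fk) (j : ℕ) : S.T3.dim (S.hc c G.1.1.pt j) = 2 := by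
  have h1 := hc_dim3 (fk_bd G) j
  have h2 := fk_D G
  omega

/-- the copy of the face `G` on the level `j` -/
noncomputable def hf (G : (S.sh h3 c).Fk) (j : ℕ) : S.Fn h3 :=
  ⟨mk2 S.T3 (hc_onS' (fk_bd G) j).mem (hf_aux G j),
    nd_mk _ _ fun c' => (hc_onS' (fk_bd G) j).not_int c'⟩

theorem vf_aux (e : S.Ed c) (j : ℕ) : S.T3.dim (S.vc c e.1.pt j) = 2 := by
  rw [vc_dim3 (ed_bd e) j, ed_D e]

/-- the vertical face over the edge `e` in the layer `j` -/
noncomputable def vf (h3 : Module.finrank ℝ E = 3) (e : S.Ed c) (j : ℕ) : S.Fn h3 :=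
  ⟨mk2 S.T3 (vc_inL' (ed_bd e) j).mem (vf_aux e j),
    nd_mk _ _ fun c' => (vc_inL' (ed_bd e) j).not_int c'⟩

theorem tg_aux (G : (S.sh h3 c).Fk) (j : ℕ) :
    S.T3.dim (S.vc c G.1.1.pt j) = Module.finrank ℝ E := by
  rw [vc_dim3 (fk_bd G) j, fk_D G, h3]

/-- the tile over the face `G` in the layer `j` -/
noncomputable def tg (G : (S.sh h3 c).Fk) (j : ℕ) : T.RIdx S.HH :=
  tl S.T3 (vc_inL' (fk_bd G) j).mem (tg_aux G j)

theorem hf_set (G : (S.sh h3 c).Fk) (hj : j ≤ S.n c) :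
    y ∈ (hf G j).1.set ↔ y ∈ S.C c G.1.1.pt ∧ S.φ c y = S.t c j :=
  mem_cc_hc (fk_bd G) hj

theorem vf_set (e : S.Ed c) (hj : j < S.n c) :
    y ∈ (vf h3 e j).1.set ↔ y ∈ S.C c e.1.pt ∧ S.t c (j + 1) ≤ S.φ c y ∧ S.φ c y ≤ S.t c j :=
  mem_cc_vc (ed_bd e) hj

theorem tg_P (G : (S.sh h3 c).Fk) (hj : j < S.n c) :
    y ∈ P (S.T3.H (tg G j)) ↔
      y ∈ S.C c G.1.1.pt ∧ S.t c (j + 1) ≤ S.φ c y ∧ S.φ c y ≤ S.t c j := by
  have h1 := tl_P (T := S.T3) (vc_inL' (fk_bd G) j).mem (tg_aux G j)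
  show y ∈ P (S.T3.H (tl S.T3 _ _)) ↔ _
  rw [h1]
  exact mem_cc_vc (fk_bd G) hj

theorem hf_pt (G : (S.sh h3 c).Fk) (hj : j ≤ S.n c) :
    (hf G j).1.pt ∈ S.O c G.1.1.pt ∧ S.φ c (hf G j).1.pt = S.t c j :=
  (mem_oc_hc (fk_bd G) hj).1 (mk2_pt (T := S.T3) (hc_onS' (fk_bd G) j).mem (hf_aux G j))

theorem vf_pt (e : S.Ed c) (hj : j < S.n c) :
    (vf h3 e j).1.pt ∈ S.O c e.1.pt ∧ S.t c (j + 1) < S.φ c (vf h3 e j).1.pt ∧
      S.φ c (vf h3 e j).1.pt < S.t c j :=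
  (mem_oc_vc (ed_bd e) hj).1 (mk2_pt (T := S.T3) (vc_inL' (ed_bd e) j).mem (vf_aux e j))

theorem hf_onS (G : (S.sh h3 c).Fk) (hj : j ≤ S.n c) : S.OnS c j (hf G j).1.pt :=
  onS_of_C (fk_bd G) (O_C (fk_bd G) (hf_pt G hj).1) hj (hf_pt G hj).2

theorem vf_inL (e : S.Ed c) (hj : j < S.n c) : S.InL c j (vf h3 e j).1.pt :=
  inL_of_C (ed_bd e) (O_C (ed_bd e) (vf_pt e hj).1) hj (vf_pt e hj).2.1 (vf_pt e hj).2.2

/-- recognition of the horizontal faces -/
theorem eq_hf {F : S.Fn h3} {G : (S.sh h3 c).Fk} (hj : j ≤ S.n c)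
    (h : F.1.pt ∈ S.O c G.1.1.pt) (h' : S.φ c F.1.pt = S.t c j) : F = hf G j := by
  apply Subtype.ext
  refine c2_eq_mk (hc_onS' (fk_bd G) j).mem (hf_aux G j) ?_
  rw [F.1.set_eq]
  refine S.T3.oc_sub_cc _ (oc_symm (hc_onS (fk_bd G) hj).mem ?_)
  exact (mem_oc_hc (fk_bd G) hj).2 ⟨h, h'⟩

theorem eq_vf {F : S.Fn h3} {e : S.Ed c} (hj : j < S.n c)
    (h : F.1.pt ∈ S.O c e.1.pt) (h1 : S.t c (j + 1) < S.φ c F.1.pt)
    (h2 : S.φ c F.1.pt < S.t c j) : F = vf h3 e j := by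
  apply Subtype.ext
  refine c2_eq_mk (vc_inL' (ed_bd e) j).mem (vf_aux e j) ?_
  rw [F.1.set_eq]
  refine S.T3.oc_sub_cc _ (oc_symm (vc_inL (ed_bd e) hj).mem ?_)
  exact (mem_oc_vc (ed_bd e) hj).2 ⟨h, h1, h2⟩

/-- every face on a slice is horizontal -/
theorem exists_hf {F : S.Fn h3} (h : S.OnS c j F.1.pt) :
    ∃ G : (S.sh h3 c).Fk, F = hf G j := by
  have hd : S.D c F.1.pt = 3 := by
    have h1 := h.dim3
    have h2 := F.1.dim_pt
    omega
  have hd3 : T.dim (S.hc c F.1.pt 0) = 2 := by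
    have := base_dim h.bd; omega
  refine ⟨fx h3 (base_fr h.bd) hd3, eq_hf h.2.1 ?_ h.2.2⟩
  exact O_symm h.bd (O_trans h.bd (hc_O h.bd 0) (fx_O (base_fr h.bd) hd3))

/-- every face in a layer is vertical -/
theorem exists_vf {F : S.Fn h3} (h : S.InL c j F.1.pt) :
    ∃ e : S.Ed c, e.1.pt ∈ S.O c F.1.pt ∧ F = vf h3 e j := by
  have hd : S.D c F.1.pt = 2 := by
    rw [← h.dim3]; exact F.1.dim_pt
  have hd3 : T.dim (S.hc c F.1.pt 0) = 1 := by
    have := base_dim h.bd; omega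
  have h1 : (edx (base_fr h.bd) hd3).1.pt ∈ S.O c F.1.pt :=
    O_trans h.bd (hc_O h.bd 0) (edx_O (base_fr h.bd) hd3)
  exact ⟨edx (base_fr h.bd) hd3, h1, eq_vf h.2.1 (O_symm h.bd h1) h.2.2.1 h.2.2.2⟩

theorem face_cases {F : S.Fn h3} (h : F.1.pt ∈ S.K c) :
    (∃ j, S.OnS c j F.1.pt) ∨ ∃ j, S.InL c j F.1.pt := onS_or_inL h (nd_pt F c h)

/-! ### sides -/

theorem piK_inl' {q : T.RIdx S.HH} (h : ∀ c, ¬ P (S.T3.H q) ⊆ S.KK c) :
    piK S.T3 S.KK q = Sum.inl q := piK_inl.2 ⟨rfl, h⟩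

theorem tg_not (G : (S.sh h3 c).Fk) (hj : j < S.n c) (c' : κ) :
    ¬ P (S.T3.H (tg G j)) ⊆ S.KK c' := by
  intro h
  have h1 := vc_inL (fk_bd G) hj
  have h2 : S.vc c G.1.1.pt j ∈ P (S.T3.H (tg G j)) := by
    rw [tg_P G hj]
    exact ⟨O_C (fk_bd G) (vc_O (fk_bd G) j), h1.2.2.1.le, h1.2.2.2.le⟩
  have h4 := mem_KK.1 (h h2)
  have h5 : c = c' := S.core_unique h1.1 h4.1
  subst h5
  have h6 := h4.2
  have h7 := h1.2.2.1
  have := S.t_le (c := c) (show j + 1 ≤ S.n c from hj) le_rfl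
  linarith

theorem tg_mem_side {F : S.Fn h3} (G : (S.sh h3 c).Fk) (hj : j < S.n c) :
    (Sum.inl (tg G j) : T.RIdx S.HH ⊕ κ) ∈ (S.mn h3).side F ↔
      F.1.pt ∈ S.C c G.1.1.pt ∧ S.t c (j + 1) ≤ S.φ c F.1.pt ∧ S.φ c F.1.pt ≤ S.t c j := by
  rw [mem_sideN, ← tg_P G hj]
  constructor
  · rintro ⟨p, hp, h⟩
    obtain ⟨h1, _⟩ := piK_inl.1 h
    rw [← h1]; exact hp
  · intro h
    exact ⟨tg G j, h, piK_inl' (tg_not G hj)⟩

theorem tg_inj {G G' : (S.sh h3 c).Fk} {j' : ℕ} (hj : j < S.n c) (hj' : j' < S.n c)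
    (h : tg G j = tg G' j') : G = G' ∧ j = j' := by
  have h1 := vc_inL (fk_bd G') hj'
  have h2 : S.vc c G'.1.1.pt j' ∈ P (S.T3.H (tg G j)) := by
    rw [h, tg_P G' hj']
    exact ⟨O_C (fk_bd G') (vc_O (fk_bd G') j'), h1.2.2.1.le, h1.2.2.2.le⟩
  rw [tg_P G hj] at h2
  obtain ⟨h3', h4, h5⟩ := h2
  constructor
  · have h6 : S.vc c G'.1.1.pt j' ∈ S.O c G.1.1.pt := by
      refine O_of_dim (fk_bd G) h1.bd h3' ?_
      rw [vc_D (fk_bd G') j', fk_D G, fk_D G']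
    exact fk_eq (O_trans (fk_bd G) h6 (O_symm (fk_bd G') (vc_O (fk_bd G') j')))
  · rcases lt_trichotomy j j' with h7 | h7 | h7
    · have := S.t_le (c := c) (show j + 1 ≤ j' by omega) hj'.le
      have := h1.2.2.2
      linarith
    · exact h7
    · have := S.t_le (c := c) (show j' + 1 ≤ j by omega) hj.le
      have := h1.2.2.1
      linarith

theorem hf_inj {G G' : (S.sh h3 c).Fk} {j' : ℕ} (hj : j ≤ S.n c) (hj' : j' ≤ S.n c)
    (h : hf G j = hf G' j') : G = G' ∧ j = j' := by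
  have h1 := hf_pt G hj
  have h2 := hf_pt G' hj'
  rw [← h] at h2
  exact ⟨fk_eq (O_trans (fk_bd G) h1.1 (O_symm (fk_bd G') h2.1)),
    S.t_inj hj hj' (h1.2.symm.trans h2.2)⟩

theorem vf_inj {e e' : S.Ed c} {j' : ℕ} (hj : j < S.n c) (hj' : j' < S.n c)
    (h : vf h3 e j = vf h3 e' j') : e = e' ∧ j = j' := by
  have h1 := vf_pt (h3 := h3) e hj
  have h2 := vf_pt (h3 := h3) e' hj'
  rw [← h] at h2
  refine ⟨ed_eq (O_trans (ed_bd e) h1.1 (O_symm (ed_bd e') h2.1)), ?_⟩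
  have h4 := vf_inL (h3 := h3) e hj
  have h5 := vf_inL (h3 := h3) e' hj'
  rw [← h] at h5
  exact layer_inj h4 h5

theorem side_top (G : (S.sh h3 c).Fk) :
    (Sum.inl (tg G 0) : T.RIdx S.HH ⊕ κ) ∈ (S.mn h3).side (hf G 0) := by
  rw [tg_mem_side G (S.npos c)]
  have h := hf_pt G (Nat.zero_le _)
  exact ⟨O_C (fk_bd G) h.1, by rw [h.2]; exact (S.anti c 0 (S.npos c)).le, h.2.le⟩

theorem side_mid (G : (S.sh h3 c).Fk) (hj : j + 1 < S.n c) :
    (S.mn h3).side (hf G (j + 1)) = s(Sum.inl (tg G j), Sum.inl (tg G (j + 1))) := by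
  have hne : (Sum.inl (tg G j) : T.RIdx S.HH ⊕ κ) ≠ Sum.inl (tg G (j + 1)) := by
    intro h
    have := (tg_inj (by omega) hj (Sum.inl_injective h)).2
    omega
  rw [← Sym2.mem_and_mem_iff hne, tg_mem_side G (by omega), tg_mem_side G hj]
  have h := hf_pt G hj.le
  have h1 := O_C (fk_bd G) h.1
  exact ⟨⟨h1, h.2.ge, by rw [h.2]; exact (S.anti c j (by omega)).le⟩,
    ⟨h1, by rw [h.2]; exact (S.anti c (j + 1) hj).le, h.2.le⟩⟩

theorem kk_mem_side {F : S.Fn h3} (h : S.OnS c (S.n c) F.1.pt) :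
    (Sum.inr c : T.RIdx S.HH ⊕ κ) ∈ (S.mn h3).side F := by
  have h1 : F.1.pt ∈ S.KK c := mem_KK.2 ⟨h.1, h.2.2.le⟩
  obtain ⟨q, hq, hqK⟩ := S.T3.exists_inner (core_KK c) (KK_sub c) (hs_KK c) h1
  rw [mem_sideN]
  exact ⟨q, hq, (piK_inr dis_KK).2 hqK⟩

theorem side_bot (G : (S.sh h3 c).Fk) (hj : j + 1 = S.n c) :
    (S.mn h3).side (hf G (S.n c)) = s(Sum.inl (tg G j), Sum.inr c) := by
  have hne : (Sum.inl (tg G j) : T.RIdx S.HH ⊕ κ) ≠ Sum.inr c := by simp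
  rw [← Sym2.mem_and_mem_iff hne, tg_mem_side G (by omega)]
  have h := hf_pt G (le_refl (S.n c))
  refine ⟨⟨O_C (fk_bd G) h.1, by rw [h.2, hj], ?_⟩, kk_mem_side (hf_onS G le_rfl)⟩
  rw [h.2]; exact S.t_le (by omega) le_rfl

/-- the faces of the shell at an edge -/
theorem fc_C (e : S.Ed c) (b : Bool) :
    e.1.pt ∈ S.C c
      ((⟨(S.sh h3 c).fc e b, (S.sh h3 c).fc_side e b⟩ : (S.sh h3 c).Fk).1.1.pt) := by
  have h := (fcK_sub (h3 := h3) (hK := fun c => (S.hH c).core) (hKO := fun c => (S.hH c).sub)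
    (hs := fun c => (S.hH c).cc) e b).2
  have h1 := h (e.1.opn_sub (T.self_mem_oc _))
  have h2 := (mem_set_fk (⟨(S.sh h3 c).fc e b, (S.sh h3 c).fc_side e b⟩ : (S.sh h3 c).Fk)).1 h1
  exact h2.1

theorem side_vf (e : S.Ed c) (hj : j < S.n c) : (S.mn h3).side (vf h3 e j) =
    s(Sum.inl (tg (⟨(S.sh h3 c).fc e false, (S.sh h3 c).fc_side e false⟩ : (S.sh h3 c).Fk) j),
      Sum.inl (tg (⟨(S.sh h3 c).fc e true, (S.sh h3 c).fc_side e true⟩ : (S.sh h3 c).Fk) j)) := by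
  have hne : (Sum.inl (tg (⟨(S.sh h3 c).fc e false, (S.sh h3 c).fc_side e false⟩ :
      (S.sh h3 c).Fk) j) : T.RIdx S.HH ⊕ κ) ≠
      Sum.inl (tg (⟨(S.sh h3 c).fc e true, (S.sh h3 c).fc_side e true⟩ : (S.sh h3 c).Fk) j) := by
    intro h
    have := (tg_inj hj hj (Sum.inl_injective h)).1
    exact (S.sh h3 c).fc_ne e (congrArg Subtype.val this)
  rw [← Sym2.mem_and_mem_iff hne, tg_mem_side _ hj, tg_mem_side _ hj]
  have h := vf_pt (h3 := h3) e hj
  have h1 := fun b => C_sub (fk_bd _) (ed_bd e) (fc_C (h3 := h3) e b) (O_C (ed_bd e) h.1)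
  exact ⟨⟨h1 false, h.2.1.le, h.2.2.le⟩, ⟨h1 true, h.2.1.le, h.2.2.le⟩⟩

theorem faces_cl {G : (S.sh h3 c).Fk} {F : S.Fn h3} (hj : j < S.n c)
    (h : (Sum.inl (tg G j) : T.RIdx S.HH ⊕ κ) ∈ (S.mn h3).side F) :
    F = hf G j ∨ F = hf G (j + 1) ∨ ∃ e, (∃ b, (S.sh h3 c).fc e b = G.1) ∧ F = vf h3 e j := by
  rw [tg_mem_side G hj] at h
  obtain ⟨h1, h2, h4⟩ := h
  have hB := bd_of_C (fk_bd G) h1 hj h2
  have key : ∀ {j'}, S.OnS c j' F.1.pt → F = hf G j' := by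
    intro j' h5
    have hd : S.D c F.1.pt = 3 := by
      have e1 := h5.dim3
      have e2 := F.1.dim_pt
      omega
    exact eq_hf h5.2.1 (O_of_dim (fk_bd G) hB h1 (by rw [hd, fk_D G])) h5.2.2
  rcases layer_cases hB hj h2 h4 with h5 | h5 | h5
  · exact Or.inl (key h5)
  · exact Or.inr (Or.inl (key h5))
  · refine Or.inr (Or.inr ?_)
    obtain ⟨e, he1, he2⟩ := exists_vf h5
    refine ⟨e, ?_, he2⟩
    have h6 : e.1.set ⊆ G.1.1.set := by
      intro y hy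
      rw [mem_set_ed] at hy
      rw [mem_set_fk]
      refine ⟨C_sub (fk_bd G) hB h1 ?_, hy.2⟩
      rw [← C_eq hB he1]
      exact hy.1
    obtain ⟨b, hb⟩ := (fcK_iff (h3 := h3) (hK := fun c => (S.hH c).core)
      (hKO := fun c => (S.hH c).sub) (hs := fun c => (S.hH c).cc) e G.1.1).1 ⟨fk_sub G, h6⟩
    exact ⟨b, Subtype.ext hb⟩

theorem faces_kk {F : S.Fn h3}
    (h : (Sum.inr c : T.RIdx S.HH ⊕ κ) ∈ (S.mn h3).side F) :
    ∃ G : (S.sh h3 c).Fk, F = hf G (S.n c) := by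
  have h1 : F.1.set ⊆ frontier (S.KK c) :=
    (face_iff h3 core_KK KK_sub hs_KK dis_KK F.1 c).2 ⟨F.2, h⟩
  have h2 : F.1.pt ∈ frontier (S.KK c) := h1 (by rw [F.1.set_eq]; exact S.T3.self_mem_cc _)
  exact exists_hf (mem_fr_KK.1 h2)

end Sla

end Crest.Agent.R096.Sla_184
end

-- ▼ part R096/Sla5_184
section

/-!
# Row 96, DOORS, leaf SLC in the format of `Mbf_337.Tiny` (helper184), part 5: the points on the
faces, cyclic orders, the collars.
-/

set_option autoImplicit false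
set_option linter.unusedSectionVars false

open Set Filter Topology Metric
open scoped Classical

namespace Crest.Agent.R096.Sla_184

open Crest.Agent.R096.Msh_715 Crest.Agent.R096.Agl5_543 Crest.Agent.R096.St_147
  Crest.Agent.R096.Lac_441 Crest.Agent.R096.Slc_184

variable {E : Type} [NormedAddCommGroup E] [NormedSpace ℝ E] [FiniteDimensional ℝ E]
variable {Om : Set E} {ι : Type}

namespace Sla

variable {T : Tiling Om ι} {κ : Type}
variable {S : Sla T κ} {h3 : Module.finrank ℝ E = 3} {c : κ} {x y z w : E} {j : ℕ}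

theorem mem_onK {F : S.Fn h3} : w ∈ (S.mn h3).On F ↔ w ∈ F.1.set ∧ S.T3.dim w = 1 := Iff.rfl

theorem mem_onK0 {F : S.F0 h3} : w ∈ (S.m0 h3).On F ↔ w ∈ F.1.set ∧ T.dim w = 1 := Iff.rfl


theorem ed_opn_fr (e : S.Ed c) (hw : w ∈ e.1.opn) : w ∈ frontier (S.K c) :=
  e.2.2 (e.1.opn_sub hw)

theorem ed_opn_onS (e : S.Ed c) (hw : w ∈ e.1.opn) : S.OnS c 0 w := onS_fr (ed_opn_fr e hw)

theorem ed_opn_bd (e : S.Ed c) (hw : w ∈ e.1.opn) : w ∈ S.Bd c := (ed_opn_onS e hw).bd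

theorem ed_opn_O (e : S.Ed c) (hw : w ∈ e.1.opn) : w ∈ S.O c e.1.pt := ((mem_opn_ed e).1 hw).1

theorem ed_opn_dim (e : S.Ed c) (hw : w ∈ e.1.opn) : T.dim w = 1 :=
  (T.dim_eq_of_mem_oc e.1.pt_mem hw).trans e.2.1

theorem hp_O' (e : S.Ed c) (hw : w ∈ e.1.opn) (hj : j ≤ S.n c) : S.hp c j w ∈ S.O c w :=
  O_trans (ed_opn_bd e hw) (O_symm (ed_bd e) (ed_opn_O e hw)) (hp_O e hw hj)

theorem on_hf {G : (S.sh h3 c).Fk} (hj : j ≤ S.n c) :
    x ∈ (S.mn h3).On (hf G j) ↔ ∃ w ∈ (S.m0 h3).On G.1, x = S.hp c j w := by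
  rw [mem_onK, hf_set G hj]
  constructor
  · rintro ⟨⟨h1, h2⟩, h4⟩
    have hS := onS_of_C (fk_bd G) h1 hj h2
    obtain ⟨e, he, -, w, hw, rfl⟩ := exists_hp_of hS h4
    refine ⟨w, ?_, rfl⟩
    rw [mem_onK0, mem_set_fk]
    refine ⟨⟨?_, (ed_opn_onS e hw).2.2⟩, ed_opn_dim e hw⟩
    exact C_sub (fk_bd G) hS.bd h1 (O_C hS.bd (O_trans hS.bd he (ed_opn_O e hw)))
  · rintro ⟨w, hw, rfl⟩
    rw [mem_onK0, mem_set_fk] at hw
    obtain ⟨⟨h1, h2⟩, h4⟩ := hw
    have hS := onS_of_C (fk_bd G) h1 (Nat.zero_le _) h2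
    have hw' := edx_opn hS.fr h4
    exact ⟨⟨C_sub (fk_bd G) hS.bd h1 (O_C hS.bd (hp_O' _ hw' hj)), (hp_onS _ hw' hj).2.2⟩,
      hp_dim3 _ hw' hj⟩

theorem on_vf_hp {e e' : S.Ed c} {i : ℕ} (hj : j ≤ S.n c) (hi : i < S.n c)
    (hw : w ∈ e.1.opn) : S.hp c j w ∈ (S.mn h3).On (vf h3 e' i) ↔ e' = e ∧ (j = i ∨ j = i + 1) := by
  rw [mem_onK, vf_set e' hi, (hp_onS e hw hj).2.2]
  constructor
  · rintro ⟨⟨h1, h2, h4⟩, _⟩
    constructor
    · have h5 : S.hp c j w ∈ S.O c e'.1.pt := by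
        refine O_of_dim (ed_bd e') (hp_onS e hw hj).bd h1 ?_
        rw [hp_D e hw hj, ed_D e']
      exact ed_eq (O_trans (ed_bd e') h5 (O_symm (ed_bd e) (hp_O e hw hj)))
    · by_contra hne
      push Not at hne
      rcases Nat.lt_or_ge j i with h | h
      · have := S.t_lt h hi.le
        linarith
      · have := S.t_lt (c := c) (show i + 1 < j by omega) hj
        linarith
  · rintro ⟨rfl, h⟩
    refine ⟨⟨O_C (ed_bd _) (hp_O _ hw hj), ?_⟩, hp_dim3 _ hw hj⟩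
    rcases h with rfl | rfl
    · exact ⟨(S.anti c j hi).le, le_rfl⟩
    · exact ⟨le_rfl, (S.anti c i hi).le⟩

theorem on_vf_vp {v : S.Vx c} {e : S.Ed c} {i : ℕ} (hj : j < S.n c) (hi : i < S.n c) :
    S.vc c v.1 j ∈ (S.mn h3).On (vf h3 e i) ↔ j = i ∧ ∃ b, (S.sh h3 c).en e b = v := by
  rw [mem_onK, vf_set e hi]
  have hL := vc_inL (vx_bd v) hj
  have hen : (∃ b, (S.sh h3 c).en e b = v) ↔ v.1 ∈ e.1.set := by
    rw [endp_iff e.2.1 v.2.1]
    exact ⟨fun ⟨b, hb⟩ => ⟨b, congrArg Subtype.val hb⟩, fun ⟨b, hb⟩ => ⟨b, Subtype.ext hb⟩⟩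
  rw [hen, mem_set_ed]
  constructor
  · rintro ⟨⟨h1, h2, h4⟩, _⟩
    constructor
    · rcases lt_trichotomy j i with h7 | h7 | h7
      · have := S.t_le (c := c) (show j + 1 ≤ i by omega) hi.le
        have := hL.2.2.1
        linarith
      · exact h7
      · have := S.t_le (c := c) (show i + 1 ≤ j by omega) hj.le
        have := hL.2.2.2
        linarith
    · refine ⟨?_, (vx_onS v).2.2⟩
      exact C_sub (ed_bd e) hL.bd h1 (O_C hL.bd (O_symm (vx_bd v) (vc_O (vx_bd v) j)))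
  · rintro ⟨rfl, h1, _⟩
    refine ⟨⟨C_sub (ed_bd e) (vx_bd v) h1 (O_C (vx_bd v) (vc_O (vx_bd v) j)), hL.2.2.1.le,
      hL.2.2.2.le⟩, ?_⟩
    rw [vc_dim3 (vx_bd v) j, vx_D v]

theorem faces_hp {e : S.Ed c} {F : S.Fn h3} (h0 : 0 < j) (hj : j ≤ S.n c)
    (hw : w ∈ e.1.opn) (h : S.hp c j w ∈ (S.mn h3).On F) :
    (∃ G : (S.sh h3 c).Fk, F = hf G j) ∨ ∃ e i, i < S.n c ∧ F = vf (c := c) h3 e i := by
  rw [mem_onK, F.1.set_eq] at h
  have hS := hp_onS e hw hj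
  obtain ⟨hU, hlt⟩ := cc3_low F.1.pt_mem h.1 (hS.bo h0) (Nat.zero_le _)
    (by rw [hS.2.2]; exact S.t_lt h0 hj)
  rcases face_cases hU.1 with ⟨i, hi⟩ | ⟨i, hi⟩
  · left
    have h1 := (hi.cc.1 h.1).2
    rw [hS.2.2] at h1
    have : j = i := S.t_inj hj hi.2.1 h1
    subst this
    exact exists_hf hi
  · right
    obtain ⟨e', _, he'⟩ := exists_vf hi
    exact ⟨e', i, hi.2.1, he'⟩

theorem faces_vp {v : S.Vx c} {F : S.Fn h3} (hj : j < S.n c)
    (h : S.vc c v.1 j ∈ (S.mn h3).On F) : ∃ e : S.Ed c, F = vf h3 e j := by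
  rw [mem_onK, F.1.set_eq] at h
  have hL := vc_inL (vx_bd v) hj
  obtain ⟨hU, hlt⟩ := cc3_low F.1.pt_mem h.1 hL.bo hj.le hL.2.2.2
  have hgt := cc3_high F.1.pt_mem h.1 hL.bo (Nat.succ_pos j) hj hL.2.2.1
  obtain ⟨e, _, he⟩ := exists_vf (h3 := h3) (c := c) (j := j) (F := F) ⟨hU.1, hj, hgt, hlt⟩
  exact ⟨e, he⟩

/-! ### the cyclic order on the horizontal faces -/

/-- the copy of the boundary of a face -/
noncomputable def eta (S : Sla T κ) (c : κ) (j : ℕ) (w : E) : E :=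
  if T.dim w = 0 then S.hc c w j else S.hp c j w

theorem eta_zero (h : T.dim w = 0) : S.eta c j w = S.hc c w j := if_pos h

theorem eta_one (h : T.dim w = 1) : S.eta c j w = S.hp c j w := by
  unfold eta
  rw [if_neg (by omega)]

theorem eta_O (hw : w ∈ frontier (S.K c)) (hd : T.dim w ≤ 1) (hj : j ≤ S.n c) :
    S.eta c j w ∈ S.O c w := by
  rcases Nat.lt_or_ge (T.dim w) 1 with h | h
  · rw [eta_zero (by omega)]; exact hc_O (fr_Bd hw) j
  · have h1 : T.dim w = 1 := by omega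
    rw [eta_one h1]
    exact hp_O' _ (edx_opn hw h1) hj

theorem eta_onS (hw : w ∈ frontier (S.K c)) (hd : T.dim w ≤ 1) (hj : j ≤ S.n c) :
    S.OnS c j (S.eta c j w) := by
  rcases Nat.lt_or_ge (T.dim w) 1 with h | h
  · rw [eta_zero (by omega)]; exact hc_onS (fr_Bd hw) hj
  · have h1 : T.dim w = 1 := by omega
    rw [eta_one h1]
    exact hp_onS _ (edx_opn hw h1) hj

theorem eta_dim3 (hw : w ∈ frontier (S.K c)) (hd : T.dim w ≤ 1) (hj : j ≤ S.n c) :
    S.T3.dim (S.eta c j w) = T.dim w := by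
  have h1 := (eta_onS hw hd hj).dim3
  have h4 := D_eq (fr_Bd hw) (eta_O hw hd hj)
  have h5 := D_fr hw
  omega

theorem eta_inj {w' : E} (hw : w ∈ frontier (S.K c)) (hd : T.dim w ≤ 1)
    (hw' : w' ∈ frontier (S.K c)) (hd' : T.dim w' ≤ 1) (hj : j ≤ S.n c)
    (h : S.eta c j w = S.eta c j w') : w = w' := by
  have h1 := eta_O hw hd hj
  have h2 := eta_O hw' hd' hj
  rw [← h] at h2
  have h4 : w' ∈ S.O c w := O_trans (fr_Bd hw) h1 (O_symm (fr_Bd hw') h2)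
  have h5 : T.dim w' = T.dim w := by
    rw [← eta_dim3 hw hd hj, h, eta_dim3 hw' hd' hj]
  rcases Nat.lt_or_ge (T.dim w) 1 with h6 | h6
  · have h7 : S.D c w = 1 := by rw [D_fr hw]; omega
    exact lv_unique (fr_Bd hw) h7 (self_C (fr_Bd hw)) (O_C (fr_Bd hw) h4)
      ((onS_fr hw).2.2.trans (onS_fr hw').2.2.symm)
  · have h7 : T.dim w = 1 := by omega
    have h8 : T.dim w' = 1 := by omega
    rw [eta_one h7, eta_one h8] at h
    exact (hp_inj hj hj (edx_opn hw h7) (edx_opn hw' h8) h).2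

/-- `eta` is affine on the closed edges -/
theorem eta_seg (e : S.Ed c) (j : ℕ) {s : ℝ} (hs : s ∈ Icc (0 : ℝ) 1) :
    S.eta c j (endp e.1 false + s • (endp e.1 true - endp e.1 false)) =
      S.hc c (endp e.1 false) j + s • (S.hc c (endp e.1 true) j - S.hc c (endp e.1 false) j) := by
  rcases eq_or_lt_of_le hs.1 with h | h
  · rw [← h, zero_smul, add_zero, zero_smul, add_zero, eta_zero (endp_mem e.2.1 false).2]
  · rcases eq_or_lt_of_le hs.2 with h' | h'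
    · rw [h', one_smul, one_smul, add_sub_cancel, add_sub_cancel,
        eta_zero (endp_mem e.2.1 true).2]
    · obtain ⟨h1, h2⟩ := par_eq e.2.1 (s := s) ⟨h, h'⟩
      have h4 := hp_eq e h1 j
      rw [h2] at h4
      show S.eta c j (lft e.1 + s • (rgt e.1 - lft e.1)) = _
      rw [eta_one (ed_opn_dim e h1), h4]

theorem eta_cont_ed (e : S.Ed c) (j : ℕ) : ContinuousOn (S.eta c j) e.1.set := by
  obtain ⟨h1, h2, -⟩ := lft_rgt e.2.1
  -- an affine retraction on the parameter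
  have hne : rgt e.1 - lft e.1 ≠ 0 := sub_ne_zero.2 h1.symm
  obtain ⟨l, -, hl⟩ := exists_dual_vector ℝ _ (norm_ne_zero_iff.2 hne)
  have hl' : l (rgt e.1 - lft e.1) = ‖rgt e.1 - lft e.1‖ := by simpa using hl
  set r := ‖rgt e.1 - lft e.1‖ with hr
  have hr0 : r ≠ 0 := norm_ne_zero_iff.2 hne
  have key : ∀ w ∈ e.1.set, S.eta c j w = S.hc c (endp e.1 false) j +
      (l (w - lft e.1) / r) • (S.hc c (endp e.1 true) j - S.hc c (endp e.1 false) j) := by
    intro w hw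
    rw [h2, segment_eq_image'] at hw
    obtain ⟨s, hs, rfl⟩ := hw
    have h4 : l (lft e.1 + s • (rgt e.1 - lft e.1) - lft e.1) / r = s := by
      rw [add_sub_cancel_left, map_smul, smul_eq_mul, hl', mul_div_assoc, div_self hr0, mul_one]
    rw [h4]
    exact eta_seg e j hs
  refine ContinuousOn.congr ?_ key
  apply Continuous.continuousOn
  have : Continuous fun w : E => l (w - lft e.1) / r := by fun_prop
  exact continuous_const.add (this.smul continuous_const)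

theorem mem_bd_fk {G : (S.sh h3 c).Fk} :
    y ∈ G.1.1.bd ↔ (y ∈ S.C c G.1.1.pt ∧ S.φ c y = S.t c 0) ∧ T.dim y ≤ 1 := by
  rw [← mem_set_fk]
  constructor
  · intro h
    exact ⟨h.1, (G.1.1.mem_bd_iff h.1).1 h⟩
  · rintro ⟨h1, h2⟩
    exact (G.1.1.mem_bd_iff h1).2 h2

theorem mem_bd_hf {G : (S.sh h3 c).Fk} (hj : j ≤ S.n c) :
    y ∈ (hf G j).1.bd ↔ (y ∈ S.C c G.1.1.pt ∧ S.φ c y = S.t c j) ∧ S.T3.dim y ≤ 1 := by
  rw [← hf_set G hj]
  constructor
  · intro h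
    exact ⟨h.1, ((hf G j).1.mem_bd_iff h.1).1 h⟩
  · rintro ⟨h1, h2⟩
    exact ((hf G j).1.mem_bd_iff h1).2 h2

theorem bd_fk_fr {G : (S.sh h3 c).Fk} (hy : y ∈ G.1.1.bd) :
    y ∈ frontier (S.K c) ∧ T.dim y ≤ 1 := by
  refine ⟨fk_sub G (G.1.1.bd_sub hy), ?_⟩
  exact (mem_bd_fk.1 hy).2

theorem eta_cont (G : (S.sh h3 c).Fk) (j : ℕ) : ContinuousOn (S.eta c j) G.1.1.bd := by
  -- the edges of the face
  let A := {e : S.Ed c // e.1.set ⊆ G.1.1.set}
  have hfin : Finite A := by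
    have h := T.finite_below G.1.1.pt_mem
    have h' : {e : S.Ed c | e.1.set ⊆ G.1.1.set}.Finite := by
      refine Set.Finite.of_finite_image (f := fun e : S.Ed c => e.1.set) (h.subset ?_) ?_
      · rintro _ ⟨e, he, rfl⟩
        exact ⟨⟨e.1.pt, e.1.pt_mem, e.1.set_eq⟩, by rw [← G.1.1.set_eq]; exact he⟩
      · intro e _ e' _ h
        exact Subtype.ext (Tiling.Cell.ext h)
    exact h'.to_subtype
  have h1 : ContinuousOn (S.eta c j) (⋃ a : A, a.1.1.set) := by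
    refine (locallyFinite_of_finite fun a : A => a.1.1.set).continuousOn_iUnion (fun a => ?_)
      fun a => eta_cont_ed a.1 j
    rw [a.1.1.set_eq]; exact T.isClosed_cc _
  refine h1.mono fun y hy => ?_
  obtain ⟨hf, hd⟩ := bd_fk_fr hy
  have hyG : y ∈ T.cc G.1.1.pt := by rw [← G.1.1.set_eq]; exact G.1.1.bd_sub hy
  rcases Nat.lt_or_ge (T.dim y) 1 with h6 | h6
  · -- a vertex is on an edge
    have h7 : T.dim y = 0 := by omega
    obtain ⟨f, hf⟩ : (T.edgesAt G.1.1.pt y).Nonempty := by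
      rw [← ncard_pos (by
        by_contra hcon
        have := Set.Infinite.ncard hcon
        rw [T.two_edges G.1.1.pt_mem G.1.1.dim_pt hyG h7] at this
        omega), T.two_edges G.1.1.pt_mem G.1.1.dim_pt hyG h7]
      omega
    obtain ⟨hf1, hf2, hf3⟩ := hf
    rw [← G.1.1.set_eq] at hf2
    exact mem_iUnion.2 ⟨⟨⟨f, hf1, hf2.trans (fk_sub G)⟩, hf2⟩, hf3⟩
  · have h7 : T.dim y = 1 := by omega
    refine mem_iUnion.2 ⟨⟨edx hf h7, ?_⟩, (edx hf h7).1.opn_sub (edx_opn hf h7)⟩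
    rw [edx_set hf h7, G.1.1.set_eq]
    exact T.cc_sub_of_mem hyG

theorem eta_image (G : (S.sh h3 c).Fk) (hj : j ≤ S.n c) :
    S.eta c j '' G.1.1.bd = (hf G j).1.bd := by
  apply Subset.antisymm
  · rintro _ ⟨w, hw, rfl⟩
    obtain ⟨hf, hd⟩ := bd_fk_fr hw
    rw [mem_bd_fk] at hw
    rw [mem_bd_hf hj]
    exact ⟨⟨C_sub (fk_bd G) (fr_Bd hf) hw.1.1 (O_C (fr_Bd hf) (eta_O hf hd hj)),
      (eta_onS hf hd hj).2.2⟩, (eta_dim3 hf hd hj).trans_le hd⟩
  · intro y hy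
    rw [mem_bd_hf hj] at hy
    obtain ⟨⟨h1, h2⟩, hd⟩ := hy
    have hS := onS_of_C (fk_bd G) h1 hj h2
    rcases Nat.lt_or_ge (S.T3.dim y) 1 with h6 | h6
    · have h7 : S.D c y = 1 := by have := hS.dim3; omega
      have h8 : T.dim (S.hc c y 0) = 0 := by have := base_dim hS.bd; omega
      have h9 := base_onS hS.bd
      refine ⟨S.hc c y 0, ?_, ?_⟩
      · rw [mem_bd_fk]
        exact ⟨⟨C_sub (fk_bd G) hS.bd h1 (O_C hS.bd (hc_O hS.bd 0)), h9.2.2⟩, by omega⟩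
      · rw [eta_zero h8]
        refine lv_unique hS.bd h7 (O_C hS.bd (O_trans hS.bd (hc_O hS.bd 0)
          (hc_O h9.bd j))) (self_C hS.bd) ?_
        rw [(hc_onS h9.bd hj).2.2, h2]
    · have h7 : S.T3.dim y = 1 := by omega
      have h8 : y ∈ (S.mn h3).On (hf G j) := by
        rw [mem_onK, hf_set G hj]; exact ⟨⟨h1, h2⟩, h7⟩
      obtain ⟨w, hw, rfl⟩ := (on_hf hj).1 h8
      rw [mem_onK0, mem_set_fk] at hw
      refine ⟨w, ?_, eta_one hw.2⟩
      rw [mem_bd_fk]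
      exact ⟨hw.1, hw.2.le⟩

theorem lace_hf {G : (S.sh h3 c).Fk} {u v x y : E} (hj : j ≤ S.n c)
    (hu : u ∈ (S.m0 h3).On G.1) (hv : v ∈ (S.m0 h3).On G.1) (hx : x ∈ (S.m0 h3).On G.1)
    (hy : y ∈ (S.m0 h3).On G.1) (hux : u ≠ x) (huy : u ≠ y) (hvx : v ≠ x) (hvy : v ≠ y) :
    (S.mn h3).Lace (hf G j) (S.hp c j u) (S.hp c j v) (S.hp c j x) (S.hp c j y) ↔
      (S.m0 h3).Lace G.1 u v x y := by
  have hb : ∀ {w : E}, w ∈ (S.m0 h3).On G.1 → w ∈ G.1.1.bd := fun hw => by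
    rw [mem_onK0] at hw
    exact (G.1.1.mem_bd_iff hw.1).2 hw.2.le
  have h := lace_homeo h3 h3 G.1.1 (hf G j).1 (eta_cont G j)
    (fun a ha b hb e => eta_inj (bd_fk_fr ha).1 (bd_fk_fr ha).2 (bd_fk_fr hb).1
      (bd_fk_fr hb).2 hj e)
    (eta_image G hj) (hb hu) (hb hv) (hb hx) (hb hy) hux huy hvx hvy
  rw [eta_one (mem_onK0.1 hu).2, eta_one (mem_onK0.1 hv).2, eta_one (mem_onK0.1 hx).2,
    eta_one (mem_onK0.1 hy).2] at h
  exact h

/-! ### the cyclic order on the vertical faces -/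

/-- vertical edge over the end point `b` -/
theorem vert_seg (e : S.Ed c) (b : Bool) (hj : j < S.n c) :
    y ∈ segment ℝ (S.hc c (endp e.1 b) (j + 1)) (S.hc c (endp e.1 b) j) ↔
      y ∈ S.O c (endp e.1 b) ∧ S.t c (j + 1) ≤ S.φ c y ∧ S.φ c y ≤ S.t c j := by
  have hE := endp_bd e b
  have hP := hc_onS hE hj.le
  have hQ := hc_onS hE hj
  have hPo := hc_O hE j
  have hQo := hc_O hE (j + 1)
  have hlt := S.anti c j hj
  have main : ∀ s ∈ Icc (0 : ℝ) 1,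
      S.hc c (endp e.1 b) (j + 1) + s • (S.hc c (endp e.1 b) j - S.hc c (endp e.1 b) (j + 1)) ∈
        S.O c (endp e.1 b) ∧ S.φ c (S.hc c (endp e.1 b) (j + 1) +
          s • (S.hc c (endp e.1 b) j - S.hc c (endp e.1 b) (j + 1))) =
          S.t c (j + 1) + s * (S.t c j - S.t c (j + 1)) := by
    intro s hs
    have h := O_seg hE hQo hPo hs
    rw [hP.2.2, hQ.2.2] at h
    exact h
  constructor
  · intro hy
    rw [segment_eq_image'] at hy
    obtain ⟨s, hs, rfl⟩ := hy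
    obtain ⟨h1, h2⟩ := main s hs
    refine ⟨h1, ?_, ?_⟩
    · show _ ≤ S.φ c (S.hc c (endp e.1 b) (j + 1) +
          s • (S.hc c (endp e.1 b) j - S.hc c (endp e.1 b) (j + 1)))
      rw [h2]; nlinarith [hs.1]
    · show S.φ c (S.hc c (endp e.1 b) (j + 1) +
          s • (S.hc c (endp e.1 b) j - S.hc c (endp e.1 b) (j + 1))) ≤ _
      rw [h2]; nlinarith [hs.2]
  · rintro ⟨h1, h2, h4⟩
    rw [segment_eq_image']
    have hd : 0 < S.t c j - S.t c (j + 1) := by linarith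
    have hs : (S.φ c y - S.t c (j + 1)) / (S.t c j - S.t c (j + 1)) ∈ Icc (0 : ℝ) 1 :=
      ⟨div_nonneg (by linarith) hd.le, by rw [div_le_one hd]; linarith⟩
    refine ⟨_, hs, ?_⟩
    obtain ⟨h5, h6⟩ := main _ hs
    refine lv_unique hE (endp_D e b) (O_C hE h5) (O_C hE h1) ?_
    rw [h6]
    field_simp
    ring

theorem vert_par (e : S.Ed c) (b : Bool) (hj : j < S.n c) {P Q : E}
    (hP : P ∈ S.O c (endp e.1 b)) (hQ : Q ∈ S.O c (endp e.1 b)) (h1 : S.φ c P < S.mid c j)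
    (h2 : S.mid c j < S.φ c Q) :
    ∃ s ∈ Ioo (0 : ℝ) 1, S.vc c (endp e.1 b) j = AffineMap.lineMap P Q s := by
  have hE := endp_bd e b
  have hd : 0 < S.φ c Q - S.φ c P := by linarith
  have hs : (S.mid c j - S.φ c P) / (S.φ c Q - S.φ c P) ∈ Ioo (0 : ℝ) 1 :=
    ⟨div_pos (by linarith) hd, by rw [div_lt_one hd]; linarith⟩
  refine ⟨_, hs, ?_⟩
  have e1 : (AffineMap.lineMap P Q ((S.mid c j - S.φ c P) / (S.φ c Q - S.φ c P)) : E) =
      P + ((S.mid c j - S.φ c P) / (S.φ c Q - S.φ c P)) • (Q - P) := by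
    rw [AffineMap.lineMap_apply, vsub_eq_sub, vadd_eq_add, add_comm]
  obtain ⟨hm, hφ⟩ := O_seg hE hP hQ ⟨hs.1.le, hs.2.le⟩
  rw [e1]
  refine lv_unique hE (endp_D e b) (O_C hE (vc_O hE j)) (O_C hE hm) ?_
  rw [hφ]
  have h4 : S.φ c (S.vc c (endp e.1 b) j) = S.mid c j := by
    rw [(vc_aux hE j).2, min_eq_left (by omega)]
  rw [h4]
  field_simp
  ring

theorem mem_bd_vf {e : S.Ed c} (hj : j < S.n c) :
    y ∈ (vf h3 e j).1.bd ↔
      (y ∈ S.C c e.1.pt ∧ S.t c (j + 1) ≤ S.φ c y ∧ S.φ c y ≤ S.t c j) ∧ S.T3.dim y ≤ 1 := by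
  rw [← vf_set (h3 := h3) e hj]
  constructor
  · intro h
    exact ⟨h.1, ((vf h3 e j).1.mem_bd_iff h.1).1 h⟩
  · rintro ⟨h1, h2⟩
    exact ((vf h3 e j).1.mem_bd_iff h1).2 h2

theorem lvl_seg (e : S.Ed c) (hj : j ≤ S.n c) :
    y ∈ segment ℝ (S.hc c (endp e.1 false) j) (S.hc c (endp e.1 true) j) ↔
      y ∈ S.C c e.1.pt ∧ S.φ c y = S.t c j := by
  rw [← (lvl_edge e hj).1, mem_cc_hc (ed_bd e) hj]

theorem lvl_dim (e : S.Ed c) (hj : j ≤ S.n c) (hy : y ∈ S.C c e.1.pt) (h : S.φ c y = S.t c j) :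
    S.T3.dim y ≤ 1 := by
  have h1 : y ∈ S.T3.cc (S.hc c e.1.pt j) := (mem_cc_hc (ed_bd e) hj).2 ⟨hy, h⟩
  have h2 := S.T3.dim_le h1
  have h4 := hc_dim3 (ed_bd e) j
  have h5 := ed_D e
  omega

/-- the vertical face is a quadrilateral -/
theorem trap (e : S.Ed c) (hj : j < S.n c) :
    Trap (vf h3 e j).1.bd (S.hc c (endp e.1 false) (j + 1)) (S.hc c (endp e.1 false) j)
      (S.hc c (endp e.1 true) j) (S.hc c (endp e.1 true) (j + 1)) := by
  have hj1 : j + 1 ≤ S.n c := hj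
  have hlt := S.anti c j hj
  have hφ : ∀ b, ∀ {k}, k ≤ S.n c → S.φ c (S.hc c (endp e.1 b) k) = S.t c k :=
    fun b k hk => (hc_onS (endp_bd e b) hk).2.2
  have hoc : ∀ b k, S.hc c (endp e.1 b) k ∈ S.O c (endp e.1 b) := fun b k =>
    hc_O (endp_bd e b) k
  have hv : ∀ b, ∀ {y}, y ∈ segment ℝ (S.hc c (endp e.1 b) (j + 1)) (S.hc c (endp e.1 b) j) ↔
      y ∈ S.O c (endp e.1 b) ∧ S.t c (j + 1) ≤ S.φ c y ∧ S.φ c y ≤ S.t c j :=
    fun b y => vert_seg e b hj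
  have corner : ∀ b, ∀ {k}, k ≤ S.n c → ∀ {y}, y ∈ S.O c (endp e.1 b) → S.φ c y = S.t c k →
      y = S.hc c (endp e.1 b) k := fun b k hk y hy h =>
    lv_unique (endp_bd e b) (endp_D e b) (O_C (endp_bd e b) hy) (O_C (endp_bd e b) (hoc b k))
      (h.trans (hφ b hk).symm)
  refine ⟨?_, ?_, cor_ne e j j, ?_, (cor_ne e (j + 1) (j + 1)).symm, ?_, ?_, ?_, ?_, ?_, ?_⟩
  · ext y
    rw [mem_bd_vf hj, mem_union, mem_union, mem_union, hv false, lvl_seg e hj.le,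
      segment_symm ℝ (S.hc c (endp e.1 true) j), hv true,
      segment_symm ℝ (S.hc c (endp e.1 true) (j + 1)), lvl_seg e hj1]
    constructor
    · rintro ⟨⟨h1, h2, h4⟩, hd⟩
      have hB := bd_of_C (ed_bd e) h1 hj h2
      rcases layer_cases hB hj h2 h4 with h5 | h5 | h5
      · exact Or.inl (Or.inl (Or.inr ⟨h1, h5.2.2⟩))
      · exact Or.inr ⟨h1, h5.2.2⟩
      · -- inside the layer: over a vertex
        have hd1 : S.D c y ≤ 1 := by rw [← h5.dim3]; exact hd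
        have hd' : S.D c y = 1 := by have := base_dim hB; omega
        have h6 : T.dim (S.hc c y 0) = 0 := by have := base_dim hB; omega
        have h7 : S.hc c y 0 ∈ e.1.set := by
          rw [mem_set_ed]
          exact ⟨C_sub (ed_bd e) hB h1 (O_C hB (hc_O hB 0)), (base_onS hB).2.2⟩
        obtain ⟨b, hb⟩ := (endp_iff e.2.1 h6).1 h7
        have h8 : y ∈ S.O c (endp e.1 b) := by
          rw [hb]; exact O_symm hB (hc_O hB 0)
        cases b
        · exact Or.inl (Or.inl (Or.inl ⟨h8, h2, h4⟩))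
        · exact Or.inl (Or.inr ⟨h8, h2, h4⟩)
    · have hvert : ∀ b, y ∈ S.O c (endp e.1 b) ∧ S.t c (j + 1) ≤ S.φ c y ∧ S.φ c y ≤ S.t c j →
          (y ∈ S.C c e.1.pt ∧ S.t c (j + 1) ≤ S.φ c y ∧ S.φ c y ≤ S.t c j) ∧
            S.T3.dim y ≤ 1 := by
        rintro b ⟨h1, h2, h4⟩
        refine ⟨⟨C_sub (ed_bd e) (endp_bd e b) (endp_C e b) (O_C (endp_bd e b) h1), h2, h4⟩, ?_⟩
        have h5 := dim3_le (S := S) h1.1
        rw [D_eq (endp_bd e b) h1, endp_D e b] at h5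
        exact h5
      rintro (((h | h) | h) | h)
      · exact hvert false h
      · exact ⟨⟨h.1, by rw [h.2]; exact hlt.le, h.2.le⟩, lvl_dim e hj.le h.1 h.2⟩
      · exact hvert true h
      · exact ⟨⟨h.1, h.2.ge, by rw [h.2]; exact hlt.le⟩, lvl_dim e hj1 h.1 h.2⟩
  · intro h
    have := congrArg (S.φ c) h
    rw [hφ false hj1, hφ false hj.le] at this
    linarith
  · intro h
    have := congrArg (S.φ c) h
    rw [hφ true hj1, hφ true hj.le] at this
    linarith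
  · intro x h1 h2
    rw [hv false] at h1
    rw [lvl_seg e hj.le] at h2
    exact corner false hj.le h1.1 h2.2
  · intro x h1 h2
    rw [segment_symm, hv true] at h2
    rw [lvl_seg e hj.le] at h1
    exact corner true hj.le h2.1 h1.2
  · intro x h1 h2
    rw [segment_symm, hv true] at h1
    rw [segment_symm, lvl_seg e hj1] at h2
    exact corner true hj1 h1.1 h2.2
  · intro x h1 h2
    rw [segment_symm, lvl_seg e hj1] at h1
    rw [hv false] at h2
    exact corner false hj1 h2.1 h1.2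
  · intro x h1 h2
    rw [hv false] at h1
    rw [segment_symm, hv true] at h2
    exact endp_sep e (O_trans (endp_bd e false) h1.1 (O_symm (endp_bd e true) h2.1))
  · intro x h1 h2
    rw [lvl_seg e hj.le] at h1
    rw [segment_symm, lvl_seg e hj1] at h2
    have := h1.2.symm.trans h2.2
    linarith

theorem lace_vf {e : S.Ed c} {a b p q : (S.sh h3 c).Pnt} (hj : j < S.n c)
    (ha : a ∈ (S.sh h3 c).On (Sum.inr (Sum.inr e))) (hb : b ∈ (S.sh h3 c).On (Sum.inr (Sum.inr e)))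
    (hp : p ∈ (S.sh h3 c).On (Sum.inr (Sum.inr e))) (hq : q ∈ (S.sh h3 c).On (Sum.inr (Sum.inr e)))
    (hap : a ≠ p) (haq : a ≠ q) (hbp : b ≠ p) (hbq : b ≠ q) :
    (S.mn h3).Lace (vf h3 e j)
      (Sum.elim (S.hp c j) (Sum.elim (S.hp c (j + 1)) fun v : S.Vx c => S.vc c v.1 j) a)
      (Sum.elim (S.hp c j) (Sum.elim (S.hp c (j + 1)) fun v : S.Vx c => S.vc c v.1 j) b)
      (Sum.elim (S.hp c j) (Sum.elim (S.hp c (j + 1)) fun v : S.Vx c => S.vc c v.1 j) p)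
      (Sum.elim (S.hp c j) (Sum.elim (S.hp c (j + 1)) fun v : S.Vx c => S.vc c v.1 j) q) ↔
      (S.sh h3 c).mesh.Lace (Sum.inr (Sum.inr e)) a b p q := by
  have hj1 : j + 1 ≤ S.n c := hj
  have hφ : ∀ b, ∀ {k}, k ≤ S.n c → S.φ c (S.hc c (endp e.1 b) k) = S.t c k :=
    fun b k hk => (hc_onS (endp_bd e b) hk).2.2
  have hoc : ∀ b k, S.hc c (endp e.1 b) k ∈ S.O c (endp e.1 b) := fun b k =>
    hc_O (endp_bd e b) k
  obtain ⟨s0, hs0, hv0⟩ := vert_par e false hj (hoc false (j + 1)) (hoc false j)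
    (by rw [hφ false hj1]; exact S.lt_mid hj) (by rw [hφ false hj.le]; exact S.mid_lt hj)
  -- on the right from the top
  obtain ⟨s1, hs1, hv1⟩ := vert_par e true hj (hoc true (j + 1)) (hoc true j)
    (by rw [hφ true hj1]; exact S.lt_mid hj) (by rw [hφ true hj.le]; exact S.mid_lt hj)
  have hv1' : S.vc c (endp e.1 true) j = AffineMap.lineMap (S.hc c (endp e.1 true) j)
      (S.hc c (endp e.1 true) (j + 1)) (1 - s1) := by
    rw [hv1, ← AffineMap.lineMap_apply_one_sub]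
  have hline : ∀ {k : ℕ} {w : E}, w ∈ e.1.opn → S.hp c k w =
      AffineMap.lineMap (S.hc c (endp e.1 false) k) (S.hc c (endp e.1 true) k) (par T w) := by
    intro k w hw
    rw [hp_eq e hw, AffineMap.lineMap_apply, vsub_eq_sub, vadd_eq_add, add_comm]
  have h := lace_vert h3 (vf h3 e j).1 (trap e hj) (S.sh h3 c) e (top := S.hp c j)
    (bot := S.hp c (j + 1)) (vt := fun v : S.Vx c => S.vc c v.1 j) (τ := par T)
    (τ' := par T) (σ := fun b => if b then 1 - s1 else s0)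
    (fun w hw => par_mem e hw) (fun w hw => par_mem e hw)
    (fun b => by
      cases b
      · exact hs0
      · show 0 < 1 - s1 ∧ 1 - s1 < 1
        constructor <;> linarith [hs1.1, hs1.2])
    (fun _ _ _ _ => Iff.rfl) (fun _ _ _ _ => Iff.rfl)
    (fun w hw => hline hw) (fun w hw => hline hw) hv0 hv1' ha hb hp hq hap haq hbp hbq
  exact h

end Sla

end Crest.Agent.R096.Sla_184
end

-- ▼ part R096/Sla6_184

/-!
# Row 96, DOORS, leaf SLC in the format of `Mbf_337.Tiny` (helper184), part 6: **the term `Cols`** of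
`Door6_501`.

* `S.col h3 c`  : the `n c` layers over the shell of the outer core `c`;
* `S.cols h3`   : the inner mesh (cores `S.KK c` of the sliced tiling `S.T3`) is obtained from the
  outer mesh (cores `S.K c` of the tiling `T`) by inserting the layers.
-/

set_option autoImplicit false
set_option linter.unusedSectionVars false

open Set Filter Topology Metric
open scoped Classical

namespace Crest.Agent.R096.Sla_184

open Crest.Agent.R096.Msh_715 Crest.Agent.R096.Agl5_543 Crest.Agent.R096.St_147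
  Crest.Agent.R096.Lac_441 Crest.Agent.R096.Slc_184

variable {E : Type} [NormedAddCommGroup E] [NormedSpace ℝ E] [FiniteDimensional ℝ E]
variable {Om : Set E} {ι : Type}

namespace Sla

variable {T : Tiling Om ι} {κ : Type}

/-- **the layers over the shell of the core `c`** -/
noncomputable def col (S : Sla T κ) (h3 : Module.finrank ℝ E = 3) (c : κ) :
    Door_501.Col (S.mn h3) (Sum.inr c) (S.sh h3 c) (S.n c) where
  cl G j := Sum.inl (tg G j)
  hf G j := hf G j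
  vf e j := vf h3 e j
  hp j w := S.hp c j w
  vp j v := S.vc c v.1 j
  npos := S.npos c
  cl_inj hj hj' h := tg_inj hj hj' (Sum.inl_injective h)
  cl_ne _ h := by cases h
  hf_inj hj hj' h := hf_inj hj hj' h
  vf_inj hj hj' h := vf_inj hj hj' h
  hf_ne_vf := by
    intro G e j j' hj hj' h
    have h1 := hf_onS G hj
    rw [h] at h1
    exact (vf_inL e hj').not_onS h1
  hp_zero w := hp_zero w
  hp_inj hj hj' hw hw' h := hp_inj hj hj' hw hw' h
  vp_inj hj hj' h := vp_inj hj hj' h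
  hp_ne_vp := by
    intro w e v j j' hj hj' hw h
    have h1 := hp_onS e hw hj
    rw [h] at h1
    exact (vc_inL (vx_bd v) hj').not_onS h1
  side_top G := side_top G
  side_mid G _ hj := side_mid G hj
  side_bot G _ hj := side_bot G hj
  side_vf e _ hj := side_vf e hj
  faces_cl hj h := faces_cl hj h
  faces_kk h := faces_kk h
  on_hf hj := on_hf hj
  on_vf_hp hj hi hw := on_vf_hp hj hi hw
  on_vf_vp hj hi := on_vf_vp hj hi
  faces_hp h0 hj hw h := faces_hp h0 hj hw h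
  faces_vp hj h := faces_vp hj h
  lace_hf hj hu hv hx hy _ _ hux huy hvx hvy := lace_hf hj hu hv hx hy hux huy hvx hvy
  lace_vf hj ha hb hc hd _ _ hac had hbc hbd := lace_vf hj ha hb hc hd hac had hbc hbd

variable {S : Sla T κ} {h3 : Module.finrank ℝ E = 3} {c : κ} {x y z w : E} {j : ℕ}

/-! ### the old faces -/

theorem Out.mono (h : S.Out x) (hy : y ∈ T.cc x) : S.Out y :=
  ⟨T.cc_sub_Om h.1 hy, fun c hc => h.2 c (hc.up h.1 hy)⟩

theorem Out.not_int (h : S.Out x) (c : κ) : ¬ (x ∈ S.K c ∧ S.φ c x < S.t c (S.n c)) := by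
  rintro ⟨h1, h2⟩
  exact h.2 c (in_of_lt h1 (h2.trans (S.tn_lt c)))

theorem F0.out (F : S.F0 h3) : S.Out F.1.pt := nd0_iff.1 F.2

/-- the outer faces are faces of the inner mesh -/
noncomputable def old (F : S.F0 h3) : S.Fn h3 :=
  ⟨mk2 S.T3 F.1.pt_mem ((F0.out F).dim.trans F.1.dim_pt), nd_mk _ _ fun c => (F0.out F).not_int c⟩

theorem old_set (F : S.F0 h3) : (old F).1.set = F.1.set := by
  show S.T3.cc F.1.pt = F.1.set
  rw [(F0.out F).cc, F.1.set_eq]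

theorem set_out (F : S.F0 h3) (hy : y ∈ F.1.set) : S.Out y := by
  rw [F.1.set_eq] at hy
  exact (F0.out F).mono hy

theorem old_pt (F : S.F0 h3) : (old F).1.pt ∈ F.1.set := by
  rw [← old_set, (old F).1.set_eq]
  exact S.T3.self_mem_cc _

theorem old_out (F : S.F0 h3) : S.Out (old F).1.pt := set_out F (old_pt F)

theorem on_old (F : S.F0 h3) : (S.mn h3).On (old F) = (S.m0 h3).On F := by
  ext w
  rw [mem_onK, mem_onK0, old_set]
  constructor
  · rintro ⟨h1, h2⟩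
    exact ⟨h1, by rw [← (set_out F h1).dim]; exact h2⟩
  · rintro ⟨h1, h2⟩
    exact ⟨h1, by rw [(set_out F h1).dim]; exact h2⟩

theorem bd_old (F : S.F0 h3) : (old F).1.bd = F.1.bd := by
  ext w
  constructor
  · intro h
    have h1 := (old F).1.bd_sub h
    have h2 := ((old F).1.mem_bd_iff h1).1 h
    rw [old_set] at h1
    refine (F.1.mem_bd_iff h1).2 ?_
    rw [← (set_out F h1).dim]; exact h2
  · intro h
    have h1 := F.1.bd_sub h
    have h2 := (F.1.mem_bd_iff h1).1 h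
    rw [← (set_out F h1).dim] at h2
    refine ((old F).1.mem_bd_iff ?_).2 h2
    rw [old_set]; exact h1

theorem lace_old {F : S.F0 h3} {u v x y : E} (hu : u ∈ (S.m0 h3).On F) (hv : v ∈ (S.m0 h3).On F)
    (hx : x ∈ (S.m0 h3).On F) (hy : y ∈ (S.m0 h3).On F) (hux : u ≠ x) (huy : u ≠ y)
    (hvx : v ≠ x) (hvy : v ≠ y) :
    (S.mn h3).Lace (old F) u v x y ↔ (S.m0 h3).Lace F u v x y := by
  have hb : ∀ {w : E}, w ∈ (S.m0 h3).On F → w ∈ F.1.bd := fun hw => by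
    rw [mem_onK0] at hw
    exact (F.1.mem_bd_iff hw.1).2 hw.2.le
  have h := lace_homeo h3 h3 F.1 (old F).1 (h := id) continuousOn_id (injOn_id _)
    (by rw [image_id, bd_old]) (hb hu) (hb hv) (hb hx) (hb hy) hux huy hvx hvy
  exact h

theorem old_inj {F G : S.F0 h3} (h : old F = old G) : F = G := by
  have h1 : (old F).1.set = (old G).1.set := by rw [h]
  rw [old_set, old_set] at h1
  exact Subtype.ext (C2.ext h1)

/-- the cells of `T` which are in no core -/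
theorem HH_empty {p : ι} (hp : ∀ c, ¬ P (T.H p) ⊆ S.K c) : S.HH p = ∅ := by
  rw [Finset.eq_empty_iff_forall_notMem]
  intro h hh
  obtain ⟨c, hc, -⟩ := S.mem_HH.1 hh
  exact hp c hc.sub

/-- **the inner mesh is obtained from the outer mesh by inserting the layers** -/
noncomputable def cols (S : Sla T κ) (h3 : Module.finrank ℝ E = 3) :
    Door_501.Cols (S.mn h3) (S.m0 h3) (fun c : κ => Sum.inr c) (fun c : κ => Sum.inr c)
      (S.sh h3) S.n where
  old := old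
  old_inj _ _ h := old_inj h
  on_old F := on_old F
  lace_old hu hv hx hy _ _ hux huy hvx hvy := lace_old hu hv hx hy hux huy hvx hvy
  cl c := S.col h3 c
  hf_zero := by
    intro c G
    have h1 : (old G.1).1.pt ∈ S.T3.oc G.1.1.pt :=
      mk2_pt (T := S.T3) G.1.1.pt_mem ((F0.out G.1).dim.trans G.1.1.dim_pt)
    have h2 := (fk_onS G).oc.1 h1
    exact (eq_hf (F := old G.1) (G := G) (Nat.zero_le _) h2.1 h2.2).symm
  cases := by
    intro F
    by_cases h : S.Out F.1.pt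
    · left
      have hd : T.dim F.1.pt = 2 := by rw [← h.dim]; exact F.1.dim_pt
      have ho : S.Out (mk2 T F.1.pt_mem hd).pt := h.mono (T.oc_sub_cc _ (mk2_pt F.1.pt_mem hd))
      refine ⟨⟨mk2 T F.1.pt_mem hd, nd0_iff.2 ho⟩, ?_⟩
      apply Subtype.ext
      apply C2.ext
      rw [old_set]
      show F.1.set = T.cc F.1.pt
      rw [F.1.set_eq, h.cc]
    · right
      have h0 : ∃ c, S.In c F.1.pt := by
        by_contra hc
        push Not at hc
        exact h ⟨F.1.pt_mem, hc⟩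
      obtain ⟨c, hc⟩ := h0
      rcases face_cases hc.1 with ⟨j, hj⟩ | ⟨j, hj⟩
      · left
        obtain ⟨G, hG⟩ := exists_hf (h3 := h3) hj
        refine ⟨c, G, j, ?_, hj.2.1, hG⟩
        rcases Nat.eq_zero_or_pos j with h4 | h4
        · subst h4
          exact absurd hj.fr hc.2
        · exact h4
      · right
        obtain ⟨e, -, he⟩ := exists_vf (h3 := h3) hj
        exact ⟨c, e, j, hj.2.1, he⟩
  hf_not_old := by
    intro c G j F0 h0 hj h
    have h1 := hf_onS G hj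
    have h2 : hf G j = old F0 := h
    rw [h2] at h1
    exact (old_out F0).2 c (h1.bo h0).1
  vf_not_old := by
    intro c e j F0 hj h
    have h1 := vf_inL (h3 := h3) e hj
    have h2 : vf h3 e j = old F0 := h
    rw [h2] at h1
    exact (old_out F0).2 c h1.bo.1
  hf_core := by
    intro c c' G G' j j' hj hj' h
    have h1 := hf_onS G hj
    have h2 : hf G j = hf G' j' := h
    rw [h2] at h1
    exact h1.core (hf_onS G' hj')
  vf_core := by
    intro c c' e e' j j' hj hj' h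
    have h1 := vf_inL (h3 := h3) e hj
    have h2 : vf h3 e j = vf h3 e' j' := h
    rw [h2] at h1
    exact S.core_unique h1.1 (vf_inL (h3 := h3) e' hj').1
  hf_ne_vf := by
    intro c c' G e j j' hj hj' h
    have h1 := hf_onS G hj
    have h2 : hf G j = vf h3 e j' := h
    rw [h2] at h1
    exact (vf_inL e hj').not_onS h1
  hp_new := by
    intro c w e j F0 h0 hj hw h
    rw [mem_onK0] at h
    exact (set_out F0 h.1).2 c ((hp_onS e hw hj).bo h0).1
  vp_new := by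
    intro c v j F0 hj h
    rw [mem_onK0] at h
    exact (set_out F0 h.1).2 c (vc_inL (vx_bd v) hj).bo.1
  hp_core := by
    intro c c' w w' e e' j j' hj hj' hw hw' h
    have h1 := hp_onS e hw hj
    have h2 := hp_onS e' hw' hj'
    have h4 : S.hp c j w = S.hp c' j' w' := h
    rw [h4] at h1
    exact h1.core h2
  vp_core := by
    intro c c' v v' j j' hj hj' h
    have h1 := vc_inL (vx_bd v) hj
    have h2 := vc_inL (vx_bd v') hj'
    have h4 : S.vc c v.1 j = S.vc c' v'.1 j' := h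
    rw [h4] at h1
    exact S.core_unique h1.1 h2.1
  hp_ne_vp := by
    intro c c' w e v j j' hj hj' hw h
    have h1 := hp_onS e hw hj
    have h4 : S.hp c j w = S.vc c' v.1 j' := h
    rw [h4] at h1
    exact (vc_inL (vx_bd v) hj').not_onS h1
  on_vf_core := by
    intro c c' w e e' j hne hw hj h
    rw [mem_onK] at h
    obtain ⟨h2, h4, h5⟩ := (vf_set (h3 := h3) e' hj).1 h.1
    exact hne (S.core_unique (ed_opn_onS e hw).1 (C_K (ed_bd e') h2))
  old_vf := by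
    intro c F0 w e j h1 h2 hj
    rw [mem_onK0] at h1
    rw [mem_onK] at h2
    obtain ⟨h4, h5, h6⟩ := (vf_set (h3 := h3) e hj).1 h2.1
    have h7 := set_out F0 h1.1
    have h8 : w ∈ frontier (S.K c) := by
      by_contra hf
      exact h7.2 c ⟨C_K (ed_bd e) h4, hf⟩
    exact ⟨edx h8 h1.2, edx_opn h8 h1.2⟩
  cells := by
    rintro (p | c)
    · right
      by_cases hp : ∀ c, ¬ P (T.H p) ⊆ S.K c
      · refine ⟨Sum.inl (Tiling.RIdx.of T (HH_empty hp)), fun F0 h => ?_⟩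
        obtain ⟨p', hp', hpq⟩ := mem_side0.1 h
        obtain ⟨rfl, -⟩ := piK_inl.1 hpq
        have he : P (S.T3.H (Tiling.RIdx.of T (HH_empty hp))) = P (T.H p') := by
          show P (Tiling.RIdx.HS _) = _
          rw [Tiling.RIdx.HS_of_eq T (HH_empty hp)]
          rfl
        refine mem_sideN.2 ⟨_, ?_, piK_inl' fun c' h' => hp c' ?_⟩
        · show (old F0).1.pt ∈ P (S.T3.H _)
          rw [he]
          have h2 := old_pt F0
          rw [F0.1.set_eq] at h2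
          exact T.cc_sub_tile hp' h2
        · rw [← he]
          exact h'.trans KK_K
      · push Not at hp
        obtain ⟨c, hc⟩ := hp
        refine ⟨Sum.inr c, fun F0 h => ?_⟩
        obtain ⟨p', hp', hpq⟩ := mem_side0.1 h
        obtain ⟨rfl, hn⟩ := piK_inl.1 hpq
        exact absurd hc (hn c)
    · exact Or.inl ⟨c, rfl⟩

end Sla

end Crest.Agent.R096.Sla_184
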