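import Crest.Agent.R096.Sph0_560
import Crest.Agent.R096.Sph2_560
import Crest.Agent.R096.Msh3_715

-- ▼ part R096/Spg1_560
section

/-!
# R096 (row 96), DOORS (D6) / SPH, (G2) part 1 (helper560): cutting a face of a cubic graph

`Cut G` : a face `x`, two edges `r i` of it, and sides of the nodes; `Cut.split : Cub _ _ _`
is the graph with the new edge between the middles of `r false` and `r true`.
-/

set_option autoImplicit false

namespace Crest.Agent.R096.Sph_560

variable {N R X : Type*}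

/-- two faces have at most one edge in common -/
def Cub.Share (G : Cub N R X) : Prop :=
  ∀ x y, x ≠ y → ∀ r r', r ∈ G.bd x → r ∈ G.bd y → r' ∈ G.bd x → r' ∈ G.bd y → r = r'

/-- the datum of a cut of the face `x` through its edges `r i` -/
structure Cut (G : Cub N R X) where
  x : X
  r : Bool → R
  ne : r false ≠ r true
  a : Bool → N
  b : Bool → N
  sg : N → Bool
  hends : ∀ i, G.ends (r i) = s(a i, b i)
  ha : ∀ i, sg (a i) = true
  hb : ∀ i, sg (b i) = false
  mem : ∀ i, r i ∈ G.bd x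
  cross : ∀ ρ ∈ G.bd x, (∀ i, ρ ≠ r i) → ∀ c ∈ G.ends ρ, ∀ d ∈ G.ends ρ, sg c = sg d

namespace Cut

variable {G : Cub N R X} (C : Cut G)

theorem rinj {i j : Bool} (h : C.r i = C.r j) : i = j := by
  rcases i with _ | _ <;> rcases j with _ | _
  · rfl
  · exact absurd h C.ne
  · exact absurd h.symm C.ne
  · rfl

theorem aM (i : Bool) : C.a i ∈ G.ends (C.r i) := by rw [C.hends i]; exact Sym2.mem_mk_left _ _

theorem bM (i : Bool) : C.b i ∈ G.ends (C.r i) := by rw [C.hends i]; exact Sym2.mem_mk_right _ _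

theorem a_ne_b (i j : Bool) : C.a i ≠ C.b j := by
  intro h
  have h1 := C.ha i
  rw [h, C.hb j] at h1
  exact Bool.noConfusion h1

open Classical in
/-- the ends of the new edges -/
noncomputable def ends' : R ⊕ Option Bool → Sym2 (N ⊕ Bool)
  | .inl ρ => if h : ∃ i, ρ = C.r i then s(.inl (C.a h.choose), .inr h.choose)
      else (G.ends ρ).map .inl
  | .inr (some i) => s(.inr i, .inl (C.b i))
  | .inr none => s(.inr false, .inr true)

theorem ends'_r (i : Bool) : C.ends' (.inl (C.r i)) = s(.inl (C.a i), .inr i) := by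
  have h : ∃ j, C.r i = C.r j := ⟨i, rfl⟩
  have hi : h.choose = i := (C.rinj h.choose_spec).symm
  simp only [ends', dif_pos h, hi]

theorem ends'_old {ρ : R} (h : ∀ i, ρ ≠ C.r i) : C.ends' (.inl ρ) = (G.ends ρ).map .inl := by
  have h' : ¬ ∃ i, ρ = C.r i := by
    rintro ⟨i, hi⟩; exact h i hi
  simp only [ends', dif_neg h']

theorem inl_mem_inl {c : N} {ρ : R} : Sum.inl c ∈ C.ends' (.inl ρ) ↔
    c ∈ G.ends ρ ∧ ∀ i, ρ = C.r i → c ≠ C.b i := by
  by_cases h : ∃ i, ρ = C.r i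
  · obtain ⟨i, rfl⟩ := h
    rw [C.ends'_r i, C.hends i, Sym2.mem_iff, Sym2.mem_iff]
    constructor
    · rintro (h | h)
      · have h' : c = C.a i := Sum.inl_injective h
        refine ⟨Or.inl h', fun j hj => ?_⟩
        rw [h']; exact C.a_ne_b i j
      · exact absurd h (by simp)
    · rintro ⟨h | h, h2⟩
      · left; rw [h]
      · exact absurd h (h2 i rfl)
  · have h' : ∀ i, ρ ≠ C.r i := fun i hi => h ⟨i, hi⟩
    rw [C.ends'_old h', Sym2.mem_map]
    constructor
    · rintro ⟨d, hd, hdc⟩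
      rw [← Sum.inl_injective hdc]
      exact ⟨hd, fun i hi => absurd hi (h' i)⟩
    · rintro ⟨hc, -⟩
      exact ⟨c, hc, rfl⟩

theorem inr_mem_inl {i : Bool} {ρ : R} : (Sum.inr i : N ⊕ Bool) ∈ C.ends' (.inl ρ) ↔
    ρ = C.r i := by
  by_cases h : ∃ i, ρ = C.r i
  · obtain ⟨j, rfl⟩ := h
    rw [C.ends'_r j, Sym2.mem_iff]
    constructor
    · rintro (h | h)
      · exact absurd h (by simp)
      · rw [Sum.inr_injective h]
    · intro h
      right; rw [C.rinj h]
  · have h' : ∀ i, ρ ≠ C.r i := fun i hi => h ⟨i, hi⟩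
    rw [C.ends'_old h', Sym2.mem_map]
    constructor
    · rintro ⟨d, -, hdc⟩
      exact absurd hdc (by simp)
    · intro hi; exact absurd hi (h' i)

theorem inl_mem_some {c : N} {i : Bool} : Sum.inl c ∈ C.ends' (.inr (some i)) ↔ c = C.b i := by
  show Sum.inl c ∈ (s(.inr i, .inl (C.b i)) : Sym2 (N ⊕ Bool)) ↔ c = C.b i
  rw [Sym2.mem_iff]
  simp

theorem inr_mem_some {j i : Bool} : (Sum.inr j : N ⊕ Bool) ∈ C.ends' (.inr (some i)) ↔ j = i := by
  show Sum.inr j ∈ (s(.inr i, .inl (C.b i)) : Sym2 (N ⊕ Bool)) ↔ j = i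
  rw [Sym2.mem_iff]
  simp

theorem inl_mem_none {c : N} : ¬ Sum.inl c ∈ C.ends' (.inr none) := by
  show ¬ Sum.inl c ∈ (s(.inr false, .inr true) : Sym2 (N ⊕ Bool))
  rw [Sym2.mem_iff]
  simp

theorem inr_mem_none {j : Bool} : (Sum.inr j : N ⊕ Bool) ∈ C.ends' (.inr none) := by
  show Sum.inr j ∈ (s(.inr false, .inr true) : Sym2 (N ⊕ Bool))
  rw [Sym2.mem_iff]
  rcases j with _ | _
  · left; rfl
  · right; rfl

open Classical in
/-- the new edge at the old node `c` which comes from `ρ` -/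
noncomputable def φ (c : N) (ρ : R) : R ⊕ Option Bool :=
  if h : ∃ i, ρ = C.r i ∧ c = C.b i then .inr (some h.choose) else .inl ρ

theorem φ_b (i : Bool) : C.φ (C.b i) (C.r i) = .inr (some i) := by
  have h : ∃ j, C.r i = C.r j ∧ C.b i = C.b j := ⟨i, rfl, rfl⟩
  have hi : h.choose = i := (C.rinj h.choose_spec.1).symm
  unfold φ
  rw [dif_pos h, hi]

theorem φ_old {c : N} {ρ : R} (h : ∀ i, ρ = C.r i → c ≠ C.b i) : C.φ c ρ = .inl ρ := by
  have h' : ¬ ∃ i, ρ = C.r i ∧ c = C.b i := by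
    rintro ⟨i, h1, h2⟩; exact h i h1 h2
  unfold φ
  rw [dif_neg h']

theorem φ_cases (c : N) (ρ : R) : (∃ i, ρ = C.r i ∧ c = C.b i ∧ C.φ c ρ = .inr (some i)) ∨
    ((∀ i, ρ = C.r i → c ≠ C.b i) ∧ C.φ c ρ = .inl ρ) := by
  by_cases h : ∃ i, ρ = C.r i ∧ c = C.b i
  · obtain ⟨i, rfl, rfl⟩ := h
    exact Or.inl ⟨i, rfl, rfl, C.φ_b i⟩
  · have h' : ∀ i, ρ = C.r i → c ≠ C.b i := fun i h1 h2 => h ⟨i, h1, h2⟩
    exact Or.inr ⟨h', C.φ_old h'⟩

theorem φ_inj (c : N) : Function.Injective (C.φ c) := by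
  intro ρ ρ' h
  rcases C.φ_cases c ρ with ⟨i, h1, h2, h3⟩ | ⟨h1, h3⟩ <;>
    rcases C.φ_cases c ρ' with ⟨j, h1', h2', h3'⟩ | ⟨h1', h3'⟩
  · rw [h3, h3'] at h
    have : i = j := by simpa using h
    rw [h1, h1', this]
  · rw [h3, h3'] at h; exact absurd h (by simp)
  · rw [h3, h3'] at h; exact absurd h (by simp)
  · rw [h3, h3'] at h; exact Sum.inl_injective h

/-- the edges at an old node -/
theorem inl_mem {c : N} {q : R ⊕ Option Bool} : Sum.inl c ∈ C.ends' q ↔
    ∃ ρ, c ∈ G.ends ρ ∧ C.φ c ρ = q := by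
  constructor
  · intro h
    rcases q with ρ | (_ | i)
    · have h' := C.inl_mem_inl.1 h
      exact ⟨ρ, h'.1, C.φ_old h'.2⟩
    · exact absurd h C.inl_mem_none
    · have h' := C.inl_mem_some.1 h
      refine ⟨C.r i, ?_, ?_⟩
      · rw [h']; exact C.bM i
      · rw [h']; exact C.φ_b i
  · rintro ⟨ρ, hc, rfl⟩
    rcases C.φ_cases c ρ with ⟨i, h1, h2, h3⟩ | ⟨h1, h3⟩
    · rw [h3, C.inl_mem_some]; exact h2
    · rw [h3, C.inl_mem_inl]; exact ⟨hc, h1⟩

/-- the edges at a new node -/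
theorem inr_mem {i : Bool} {q : R ⊕ Option Bool} : (Sum.inr i : N ⊕ Bool) ∈ C.ends' q ↔
    q = .inl (C.r i) ∨ q = .inr (some i) ∨ q = .inr none := by
  rcases q with ρ | (_ | j)
  · rw [C.inr_mem_inl]; simp
  · simp [C.inr_mem_none]
  · rw [C.inr_mem_some]; simp [eq_comm]

open Classical in
/-- the boundaries of the new faces: `some x` is the positive part, `none` the negative part -/
noncomputable def bd' : Option X → Finset (R ⊕ Option Bool)
  | some y => (if y = C.x then (G.bd y).filter (fun ρ => ∃ c ∈ G.ends ρ, C.sg c = true)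
      else G.bd y).disjSum (Finset.univ.filter fun o =>
        (o = none ∧ y = C.x) ∨ (y ≠ C.x ∧ ∃ i, o = some i ∧ C.r i ∈ G.bd y))
  | none => ((G.bd C.x).filter (fun ρ => ∀ c ∈ G.ends ρ, C.sg c = false)).disjSum Finset.univ

theorem inl_bd_x {ρ : R} : Sum.inl ρ ∈ C.bd' (some C.x) ↔
    ρ ∈ G.bd C.x ∧ ∃ c ∈ G.ends ρ, C.sg c = true := by
  classical
  simp only [bd', if_true, Finset.inl_mem_disjSum, Finset.mem_filter]

theorem inl_bd_some {y : X} (hy : y ≠ C.x) {ρ : R} : Sum.inl ρ ∈ C.bd' (some y) ↔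
    ρ ∈ G.bd y := by
  classical
  simp only [bd', if_neg hy, Finset.inl_mem_disjSum]

theorem inl_bd_none {ρ : R} : Sum.inl ρ ∈ C.bd' none ↔
    ρ ∈ G.bd C.x ∧ ∀ c ∈ G.ends ρ, C.sg c = false := by
  classical
  simp only [bd', Finset.inl_mem_disjSum, Finset.mem_filter]

theorem some_bd_x {i : Bool} : ¬ Sum.inr (some i) ∈ C.bd' (some C.x) := by
  classical
  simp [bd', Finset.inr_mem_disjSum]

theorem none_bd_x : Sum.inr none ∈ C.bd' (some C.x) := by
  classical
  simp [bd', Finset.inr_mem_disjSum]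

theorem some_bd_some {y : X} (hy : y ≠ C.x) {i : Bool} : Sum.inr (some i) ∈ C.bd' (some y) ↔
    C.r i ∈ G.bd y := by
  classical
  rcases i with _ | _ <;> simp [bd', Finset.inr_mem_disjSum, hy]

theorem none_bd_some {y : X} (hy : y ≠ C.x) : ¬ Sum.inr none ∈ C.bd' (some y) := by
  classical
  simp [bd', Finset.inr_mem_disjSum, hy]

theorem some_bd_none {o : Option Bool} : Sum.inr o ∈ C.bd' none := by
  classical
  simp [bd', Finset.inr_mem_disjSum]

/-- the old face of a new face -/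
def old : Option X → X
  | some y => y
  | none => C.x

/-- the edge `φ c ρ` on another face -/
theorem φ_bd {y : X} (hy : y ≠ C.x) (c : N) (ρ : R) :
    C.φ c ρ ∈ C.bd' (some y) ↔ ρ ∈ G.bd y := by
  rcases C.φ_cases c ρ with ⟨i, h1, h2, h3⟩ | ⟨h1, h3⟩
  · rw [h3, C.some_bd_some hy, h1]
  · rw [h3, C.inl_bd_some hy]

/-- the edge `φ c ρ` at a positive node -/
theorem φ_bd_x {c : N} (hc : C.sg c = true) {ρ : R} (hcρ : c ∈ G.ends ρ) :
    C.φ c ρ ∈ C.bd' (some C.x) ↔ ρ ∈ G.bd C.x := by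
  rcases C.φ_cases c ρ with ⟨i, h1, h2, h3⟩ | ⟨h1, h3⟩
  · rw [h2, C.hb] at hc; exact Bool.noConfusion hc
  · rw [h3, C.inl_bd_x]
    exact ⟨fun h => h.1, fun h => ⟨h, c, hcρ, hc⟩⟩

theorem φ_bd_x' {c : N} (hc : C.sg c = false) {ρ : R} (hcρ : c ∈ G.ends ρ) :
    ¬ C.φ c ρ ∈ C.bd' (some C.x) := by
  rcases C.φ_cases c ρ with ⟨i, h1, h2, h3⟩ | ⟨h1, h3⟩
  · rw [h3]; exact C.some_bd_x
  · rw [h3, C.inl_bd_x]
    rintro ⟨hρ, d, hd, hd'⟩
    by_cases h : ∃ i, ρ = C.r i
    · obtain ⟨i, rfl⟩ := h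
      rw [C.hends i, Sym2.mem_iff] at hcρ
      rcases hcρ with rfl | rfl
      · rw [C.ha] at hc; exact Bool.noConfusion hc
      · exact h1 i rfl rfl
    · have := C.cross ρ hρ (fun i hi => h ⟨i, hi⟩) c hcρ d hd
      rw [hc, hd'] at this
      exact Bool.noConfusion this

/-- the edge `φ c ρ` at a negative node -/
theorem φ_bd_none {c : N} (hc : C.sg c = false) {ρ : R} (hcρ : c ∈ G.ends ρ) :
    C.φ c ρ ∈ C.bd' none ↔ ρ ∈ G.bd C.x := by
  rcases C.φ_cases c ρ with ⟨i, h1, h2, h3⟩ | ⟨h1, h3⟩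
  · rw [h3, h1]
    exact ⟨fun _ => C.mem i, fun _ => C.some_bd_none⟩
  · rw [h3, C.inl_bd_none]
    refine ⟨fun h => h.1, fun h => ⟨h, fun d hd => ?_⟩⟩
    by_cases h' : ∃ i, ρ = C.r i
    · obtain ⟨i, rfl⟩ := h'
      rw [C.hends i, Sym2.mem_iff] at hcρ
      rcases hcρ with rfl | rfl
      · rw [C.ha] at hc; exact Bool.noConfusion hc
      · exact absurd rfl (h1 i rfl)
    · rw [← C.cross ρ h (fun i hi => h' ⟨i, hi⟩) c hcρ d hd]; exact hc

theorem φ_bd_none' {c : N} (hc : C.sg c = true) {ρ : R} (hcρ : c ∈ G.ends ρ) :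
    ¬ C.φ c ρ ∈ C.bd' none := by
  rcases C.φ_cases c ρ with ⟨i, h1, h2, h3⟩ | ⟨h1, h3⟩
  · rw [h2, C.hb] at hc; exact Bool.noConfusion hc
  · rw [h3, C.inl_bd_none]
    rintro ⟨-, h⟩
    rw [h c hcρ] at hc; exact Bool.noConfusion hc

/-! ### counting -/


/-- the edges of a set at an old node -/
theorem ncard_inl (c : N) (A : R → Prop) (A' : R ⊕ Option Bool → Prop)
    (h : ∀ ρ, c ∈ G.ends ρ → (A' (C.φ c ρ) ↔ A ρ)) :
    {q | A' q ∧ Sum.inl c ∈ C.ends' q}.ncard = {ρ | A ρ ∧ c ∈ G.ends ρ}.ncard := by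
  have : {q | A' q ∧ Sum.inl c ∈ C.ends' q} = C.φ c '' {ρ | A ρ ∧ c ∈ G.ends ρ} := by
    ext q
    constructor
    · rintro ⟨hq, hc⟩
      obtain ⟨ρ, hρ, rfl⟩ := C.inl_mem.1 hc
      exact ⟨ρ, ⟨(h ρ hρ).1 hq, hρ⟩, rfl⟩
    · rintro ⟨ρ, ⟨hρA, hρ⟩, rfl⟩
      exact ⟨(h ρ hρ).2 hρA, C.inl_mem.2 ⟨ρ, hρ, rfl⟩⟩
  rw [this, Set.ncard_image_of_injective _ (C.φ_inj c)]

theorem ncard_inl_empty (c : N) (A' : R ⊕ Option Bool → Prop)
    (h : ∀ ρ, c ∈ G.ends ρ → ¬ A' (C.φ c ρ)) :
    {q | A' q ∧ Sum.inl c ∈ C.ends' q}.ncard = 0 := by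
  have : {q | A' q ∧ Sum.inl c ∈ C.ends' q} = ∅ := by
    rw [Set.eq_empty_iff_forall_notMem]
    rintro q ⟨hq, hc⟩
    obtain ⟨ρ, hρ, rfl⟩ := C.inl_mem.1 hc
    exact h ρ hρ hq
  rw [this, Set.ncard_empty]

/-- the edges of a set at a new node -/
theorem inr_set (i : Bool) (A' : R ⊕ Option Bool → Prop) :
    {q | A' q ∧ (Sum.inr i : N ⊕ Bool) ∈ C.ends' q} =
      {q | A' q ∧ (q = .inl (C.r i) ∨ q = .inr (some i) ∨ q = .inr none)} := by
  ext q
  constructor
  · rintro ⟨h1, h2⟩; exact ⟨h1, C.inr_mem.1 h2⟩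
  · rintro ⟨h1, h2⟩; exact ⟨h1, C.inr_mem.2 h2⟩

theorem three' (v : N ⊕ Bool) : {q | v ∈ C.ends' q}.ncard = 3 := by
  rcases v with c | i
  · have := C.ncard_inl c (fun _ => True) (fun _ => True) (fun ρ _ => by simp)
    simp only [true_and] at this
    rw [this, G.three c]
  · have : {q | (Sum.inr i : N ⊕ Bool) ∈ C.ends' q} =
        {.inl (C.r i), .inr (some i), .inr none} := by
      ext q
      exact C.inr_mem
    rw [this, Set.ncard_insert_of_notMem (by simp), Set.ncard_pair (by simp)]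

theorem deg' (z : Option X) (v : N ⊕ Bool) :
    {q | q ∈ C.bd' z ∧ v ∈ C.ends' q}.ncard = 0 ∨ {q | q ∈ C.bd' z ∧ v ∈ C.ends' q}.ncard = 2 := by
  rcases v with c | i
  · rcases z with _ | y
    · rcases h : C.sg c with _ | _
      · rw [C.ncard_inl c (fun ρ => ρ ∈ G.bd C.x) (fun q => q ∈ C.bd' none)
          (fun ρ hρ => C.φ_bd_none h hρ)]
        exact G.deg C.x c
      · left
        exact C.ncard_inl_empty c (fun q => q ∈ C.bd' none) (fun ρ hρ => C.φ_bd_none' h hρ)
    · by_cases hy : y = C.x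
      · rw [hy]
        rcases h : C.sg c with _ | _
        · left
          exact C.ncard_inl_empty c (fun q => q ∈ C.bd' (some C.x)) (fun ρ hρ => C.φ_bd_x' h hρ)
        · rw [C.ncard_inl c (fun ρ => ρ ∈ G.bd C.x) (fun q => q ∈ C.bd' (some C.x))
            (fun ρ hρ => C.φ_bd_x h hρ)]
          exact G.deg C.x c
      · rw [C.ncard_inl c (fun ρ => ρ ∈ G.bd y) (fun q => q ∈ C.bd' (some y))
            (fun ρ _ => C.φ_bd hy c ρ)]
        exact G.deg y c
  · rw [C.inr_set i (fun q => q ∈ C.bd' z)]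
    rcases z with _ | y
    · right
      have : {q | q ∈ C.bd' none ∧ (q = .inl (C.r i) ∨ q = .inr (some i) ∨ q = .inr none)} =
          {.inr (some i), .inr none} := by
        ext q
        constructor
        · rintro ⟨h1, rfl | rfl | rfl⟩
          · exfalso
            have := (C.inl_bd_none.1 h1).2 _ (C.aM i)
            rw [C.ha] at this; exact Bool.noConfusion this
          · exact Or.inl rfl
          · exact Or.inr rfl
        · rintro (rfl | rfl)
          · exact ⟨C.some_bd_none, Or.inr (Or.inl rfl)⟩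
          · exact ⟨C.some_bd_none, Or.inr (Or.inr rfl)⟩
      rw [this, Set.ncard_pair (by simp)]
    · by_cases hy : y = C.x
      · right
        rw [hy]
        have : {q | q ∈ C.bd' (some C.x) ∧
            (q = .inl (C.r i) ∨ q = .inr (some i) ∨ q = .inr none)} =
            {.inl (C.r i), .inr none} := by
          ext q
          constructor
          · rintro ⟨h1, rfl | rfl | rfl⟩
            · exact Or.inl rfl
            · exact absurd h1 C.some_bd_x
            · exact Or.inr rfl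
          · rintro (rfl | rfl)
            · exact ⟨C.inl_bd_x.2 ⟨C.mem i, _, C.aM i, C.ha i⟩, Or.inl rfl⟩
            · exact ⟨C.none_bd_x, Or.inr (Or.inr rfl)⟩
        rw [this, Set.ncard_pair (by simp)]
      · by_cases hi : C.r i ∈ G.bd y
        · right
          have : {q | q ∈ C.bd' (some y) ∧
              (q = .inl (C.r i) ∨ q = .inr (some i) ∨ q = .inr none)} =
              {.inl (C.r i), .inr (some i)} := by
            ext q
            constructor
            · rintro ⟨h1, rfl | rfl | rfl⟩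
              · exact Or.inl rfl
              · exact Or.inr rfl
              · exact absurd h1 (C.none_bd_some hy)
            · rintro (rfl | rfl)
              · exact ⟨(C.inl_bd_some hy).2 hi, Or.inl rfl⟩
              · exact ⟨(C.some_bd_some hy).2 hi, Or.inr (Or.inl rfl)⟩
          rw [this, Set.ncard_pair (by simp)]
        · left
          have : {q | q ∈ C.bd' (some y) ∧
              (q = .inl (C.r i) ∨ q = .inr (some i) ∨ q = .inr none)} = ∅ := by
            rw [Set.eq_empty_iff_forall_notMem]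
            rintro q ⟨h1, rfl | rfl | rfl⟩
            · exact hi ((C.inl_bd_some hy).1 h1)
            · exact hi ((C.some_bd_some hy).1 h1)
            · exact C.none_bd_some hy h1
          rw [this, Set.ncard_empty]

/-! ### simple -/

theorem mem_of_even {α : Type*} {Q : Finset α} {p : α → Prop} {b : α}
    (h : Even {q | q ∈ Q ∧ p q}.ncard) (hb : b ∉ Q) {a : α} (hp : ∀ q, p q → q ∈ Q → q = a ∨ q = b)
    (ha : p a) : a ∉ Q := by
  intro haQ
  have : {q | q ∈ Q ∧ p q} = {a} := by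
    ext q
    constructor
    · rintro ⟨h1, h2⟩
      rcases hp q h2 h1 with rfl | rfl
      · rfl
      · exact absurd h1 hb
    · rintro rfl
      exact ⟨haQ, ha⟩
  rw [this, Set.ncard_singleton] at h
  exact absurd h (by decide)

theorem simple_aux {z : Option X} (hz : z = none ∨ z = some C.x)
    {Q' : Finset (R ⊕ Option Bool)} (hQ : Q' ⊆ C.bd' z)
    (he : ∀ v, Even {q | q ∈ Q' ∧ v ∈ C.ends' q}.ncard) (hn : Sum.inr none ∉ Q') : Q' = ∅ := by
  classical
  have hr : ∀ i, Sum.inl (C.r i) ∉ Q' ∧ Sum.inr (some i) ∉ Q' := by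
    intro i
    rcases hz with rfl | rfl
    · have h1 : Sum.inl (C.r i) ∉ Q' := by
        intro h
        have := (C.inl_bd_none.1 (hQ h)).2 _ (C.aM i)
        rw [C.ha] at this; exact Bool.noConfusion this
      refine ⟨h1, mem_of_even (he (.inr i)) hn (fun q hq hqQ => ?_) (C.inr_mem_some.2 rfl)⟩
      rcases C.inr_mem.1 hq with rfl | rfl | rfl
      · exact absurd hqQ h1
      · exact Or.inl rfl
      · exact Or.inr rfl
    · have h1 : Sum.inr (some i) ∉ Q' := fun h => C.some_bd_x (hQ h)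
      refine ⟨mem_of_even (he (.inr i)) hn (fun q hq hqQ => ?_) (C.inr_mem_inl.2 rfl), h1⟩
      rcases C.inr_mem.1 hq with rfl | rfl | rfl
      · exact Or.inl rfl
      · exact absurd hqQ h1
      · exact Or.inr rfl
  have hx : ∀ ρ, Sum.inl ρ ∈ Q' → ρ ∈ G.bd C.x := by
    intro ρ h
    rcases hz with rfl | rfl
    · exact (C.inl_bd_none.1 (hQ h)).1
    · exact (C.inl_bd_x.1 (hQ h)).1
  have key := G.simple C.x ((G.bd C.x).filter fun ρ => Sum.inl ρ ∈ Q') (Finset.filter_subset _ _)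
    (fun c => by
      have := C.ncard_inl c (fun ρ => ρ ∈ (G.bd C.x).filter fun ρ => Sum.inl ρ ∈ Q')
        (fun q => q ∈ Q') (fun ρ _ => by
          rw [Finset.mem_filter]
          rcases C.φ_cases c ρ with ⟨i, h1, h2, h3⟩ | ⟨h1, h3⟩
          · rw [h3, h1]
            exact ⟨fun h => absurd h (hr i).2, fun h => absurd h.2 (hr i).1⟩
          · rw [h3]
            exact ⟨fun h => ⟨hx ρ h, h⟩, fun h => h.2⟩)
      rw [← this]
      exact he (.inl c))
  rcases key with h | h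
  · rw [Finset.eq_empty_iff_forall_notMem]
    rintro (ρ | (_ | i)) hq
    · have : ρ ∈ (G.bd C.x).filter fun ρ => Sum.inl ρ ∈ Q' := Finset.mem_filter.2 ⟨hx ρ hq, hq⟩
      rw [h] at this
      exact absurd this (Finset.notMem_empty _)
    · exact hn hq
    · exact (hr i).2 hq
  · exfalso
    have : C.r false ∈ (G.bd C.x).filter fun ρ => Sum.inl ρ ∈ Q' := by
      rw [h]; exact C.mem false
    exact (hr false).1 (Finset.mem_filter.1 this).2

theorem even_bd' (z : Option X) (v : N ⊕ Bool) : Even {q | q ∈ C.bd' z ∧ v ∈ C.ends' q}.ncard := by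
  rcases C.deg' z v with h | h
  · rw [h]; exact ⟨0, rfl⟩
  · rw [h]; exact ⟨1, rfl⟩

theorem simple_aux2 {z : Option X} (hz : z = none ∨ z = some C.x)
    {Q' : Finset (R ⊕ Option Bool)} (hQ : Q' ⊆ C.bd' z)
    (he : ∀ v, Even {q | q ∈ Q' ∧ v ∈ C.ends' q}.ncard) : Q' = ∅ ∨ Q' = C.bd' z := by
  classical
  by_cases hn : Sum.inr none ∈ Q'
  · right
    have h1 : C.bd' z \ Q' = ∅ := by
      refine C.simple_aux hz Finset.sdiff_subset (fun v => ?_) (fun h => (Finset.mem_sdiff.1 h).2 hn)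
      have h2 : {q | q ∈ C.bd' z \ Q' ∧ v ∈ C.ends' q} =
          {q | q ∈ C.bd' z ∧ v ∈ C.ends' q} \ {q | q ∈ Q' ∧ v ∈ C.ends' q} := by
        ext q
        constructor
        · rintro ⟨h1, h2⟩
          rw [Finset.mem_sdiff] at h1
          exact ⟨⟨h1.1, h2⟩, fun h => h1.2 h.1⟩
        · rintro ⟨⟨h1, h2⟩, h3⟩
          exact ⟨Finset.mem_sdiff.2 ⟨h1, fun h => h3 ⟨h, h2⟩⟩, h2⟩
      have hfin : {q | q ∈ C.bd' z ∧ v ∈ C.ends' q}.Finite :=
        (C.bd' z).finite_toSet.subset fun q hq => hq.1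
      have h3 := Set.ncard_sdiff_add_ncard_of_subset
        (s := {q | q ∈ Q' ∧ v ∈ C.ends' q}) (t := {q | q ∈ C.bd' z ∧ v ∈ C.ends' q})
        (fun q hq => ⟨hQ hq.1, hq.2⟩) hfin
      rw [h2]
      have h4 := C.even_bd' z v
      rw [← h3] at h4
      exact (Nat.even_add.1 h4).2 (he v)
    exact Finset.Subset.antisymm hQ (Finset.sdiff_eq_empty_iff_subset.1 h1)
  · exact Or.inl (C.simple_aux hz hQ he hn)

theorem simple' (z : Option X) (Q' : Finset (R ⊕ Option Bool)) (hQ : Q' ⊆ C.bd' z)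
    (he : ∀ v, Even {q | q ∈ Q' ∧ v ∈ C.ends' q}.ncard) : Q' = ∅ ∨ Q' = C.bd' z := by
  classical
  rcases z with _ | y
  · exact C.simple_aux2 (Or.inl rfl) hQ he
  by_cases hy : y = C.x
  · rw [hy] at hQ ⊢
    exact C.simple_aux2 (Or.inr rfl) hQ he
  have hn : Sum.inr none ∉ Q' := fun h => C.none_bd_some hy (hQ h)
  have hpar : ∀ i, Sum.inl (C.r i) ∈ Q' ↔ Sum.inr (some i) ∈ Q' := by
    intro i
    constructor
    · intro h
      by_contra hcon
      refine mem_of_even (he (.inr i)) hcon (a := Sum.inl (C.r i)) (fun q hq hqQ => ?_)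
        (C.inr_mem_inl.2 rfl) h
      rcases C.inr_mem.1 hq with rfl | rfl | rfl
      · exact Or.inl rfl
      · exact Or.inr rfl
      · exact absurd hqQ hn
    · intro h
      by_contra hcon
      refine mem_of_even (he (.inr i)) hcon (a := Sum.inr (some i)) (fun q hq hqQ => ?_)
        (C.inr_mem_some.2 rfl) h
      rcases C.inr_mem.1 hq with rfl | rfl | rfl
      · exact Or.inr rfl
      · exact Or.inl rfl
      · exact absurd hqQ hn
  have hx : ∀ ρ, Sum.inl ρ ∈ Q' → ρ ∈ G.bd y := fun ρ h => (C.inl_bd_some hy).1 (hQ h)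
  have key := G.simple y ((G.bd y).filter fun ρ => Sum.inl ρ ∈ Q') (Finset.filter_subset _ _)
    (fun c => by
      have := C.ncard_inl c (fun ρ => ρ ∈ (G.bd y).filter fun ρ => Sum.inl ρ ∈ Q')
        (fun q => q ∈ Q') (fun ρ _ => by
          rw [Finset.mem_filter]
          rcases C.φ_cases c ρ with ⟨i, h1, h2, h3⟩ | ⟨h1, h3⟩
          · rw [h3, h1]
            exact ⟨fun h => ⟨hx _ ((hpar i).2 h), (hpar i).2 h⟩, fun h => (hpar i).1 h.2⟩
          · rw [h3]
            exact ⟨fun h => ⟨hx ρ h, h⟩, fun h => h.2⟩)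
      rw [← this]
      exact he (.inl c))
  rcases key with h | h
  · left
    have hno : ∀ ρ, Sum.inl ρ ∉ Q' := by
      intro ρ hq
      have : ρ ∈ (G.bd y).filter fun ρ => Sum.inl ρ ∈ Q' := Finset.mem_filter.2 ⟨hx ρ hq, hq⟩
      rw [h] at this
      exact absurd this (Finset.notMem_empty _)
    rw [Finset.eq_empty_iff_forall_notMem]
    rintro (ρ | (_ | i)) hq
    · exact hno ρ hq
    · exact hn hq
    · exact hno _ ((hpar i).2 hq)
  · right
    have hall : ∀ ρ ∈ G.bd y, Sum.inl ρ ∈ Q' := by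
      intro ρ hρ
      rw [← h] at hρ
      exact (Finset.mem_filter.1 hρ).2
    refine Finset.Subset.antisymm hQ ?_
    rintro (ρ | (_ | i)) hq
    · exact hall ρ ((C.inl_bd_some hy).1 hq)
    · exact absurd hq (C.none_bd_some hy)
    · exact (hpar i).1 (hall _ ((C.some_bd_some hy).1 hq))

/-! ### the remaining clauses -/

theorem twoF_x {ρ : R} (h : ρ ∈ G.bd C.x) : ∃ y, y ≠ C.x ∧ ∀ z, ρ ∈ G.bd z ↔ z = C.x ∨ z = y := by
  obtain ⟨u, v, huv, hall⟩ := G.twoF ρ
  rcases (hall C.x).1 h with h' | h'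
  · refine ⟨v, fun h => huv (by rw [← h', h]), fun z => ?_⟩
    rw [hall z, h']
  · refine ⟨u, fun h => huv (by rw [← h', h]), fun z => ?_⟩
    rw [hall z, h']; exact or_comm

theorem twoF' (q : R ⊕ Option Bool) : ∃ u v, u ≠ v ∧ ∀ z, q ∈ C.bd' z ↔ z = u ∨ z = v := by
  rcases q with ρ | (_ | i)
  · by_cases hρ : ρ ∈ G.bd C.x
    · obtain ⟨y, hy, hall⟩ := C.twoF_x hρ
      by_cases hc : ∃ c ∈ G.ends ρ, C.sg c = true
      · refine ⟨some C.x, some y, fun h => hy (Option.some_injective _ h).symm, ?_⟩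
        rintro (_ | z)
        · rw [C.inl_bd_none]
          constructor
          · rintro ⟨-, h⟩
            obtain ⟨c, h1, h2⟩ := hc
            rw [h c h1] at h2; exact Bool.noConfusion h2
          · rintro (h | h) <;> exact absurd h (by simp)
        · by_cases hz : z = C.x
          · rw [hz, C.inl_bd_x]
            exact ⟨fun _ => Or.inl rfl, fun _ => ⟨hρ, hc⟩⟩
          · rw [C.inl_bd_some hz, hall z]
            constructor
            · rintro (h | h)
              · exact absurd h hz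
              · exact Or.inr (by rw [h])
            · rintro (h | h)
              · exact absurd (Option.some_injective _ h) hz
              · exact Or.inr (Option.some_injective _ h)
      · have hc' : ∀ c ∈ G.ends ρ, C.sg c = false := by
          intro c h1
          rcases h2 : C.sg c with _ | _
          · rfl
          · exact absurd ⟨c, h1, h2⟩ hc
        refine ⟨none, some y, by simp, ?_⟩
        rintro (_ | z)
        · rw [C.inl_bd_none]
          exact ⟨fun _ => Or.inl rfl, fun _ => ⟨hρ, hc'⟩⟩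
        · by_cases hz : z = C.x
          · rw [hz, C.inl_bd_x]
            constructor
            · rintro ⟨-, h⟩; exact absurd h hc
            · rintro (h | h)
              · exact absurd h (by simp)
              · exact absurd (Option.some_injective _ h).symm hy
          · rw [C.inl_bd_some hz, hall z]
            constructor
            · rintro (h | h)
              · exact absurd h hz
              · exact Or.inr (by rw [h])
            · rintro (h | h)
              · exact absurd h (by simp)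
              · exact Or.inr (Option.some_injective _ h)
    · obtain ⟨u, v, huv, hall⟩ := G.twoF ρ
      refine ⟨some u, some v, fun h => huv (Option.some_injective _ h), ?_⟩
      rintro (_ | z)
      · rw [C.inl_bd_none]
        constructor
        · rintro ⟨h, -⟩; exact absurd h hρ
        · rintro (h | h) <;> exact absurd h (by simp)
      · by_cases hz : z = C.x
        · rw [hz, C.inl_bd_x]
          constructor
          · rintro ⟨h, -⟩; exact absurd h hρ
          · rintro (h | h)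
            · exact absurd ((hall C.x).2 (Or.inl (Option.some_injective _ h))) hρ
            · exact absurd ((hall C.x).2 (Or.inr (Option.some_injective _ h))) hρ
        · rw [C.inl_bd_some hz, hall z]
          simp
  · refine ⟨some C.x, none, by simp, ?_⟩
    rintro (_ | z)
    · exact ⟨fun _ => Or.inr rfl, fun _ => C.some_bd_none⟩
    · by_cases hz : z = C.x
      · rw [hz]; exact ⟨fun _ => Or.inl rfl, fun _ => C.none_bd_x⟩
      · constructor
        · intro h; exact absurd h (C.none_bd_some hz)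
        · rintro (h | h)
          · exact absurd (Option.some_injective _ h) hz
          · exact absurd h (by simp)
  · obtain ⟨y, hy, hall⟩ := C.twoF_x (C.mem i)
    refine ⟨none, some y, by simp, ?_⟩
    rintro (_ | z)
    · exact ⟨fun _ => Or.inl rfl, fun _ => C.some_bd_none⟩
    · by_cases hz : z = C.x
      · rw [hz]
        constructor
        · intro h; exact absurd h C.some_bd_x
        · rintro (h | h)
          · exact absurd h (by simp)
          · exact absurd (Option.some_injective _ h).symm hy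
      · rw [C.some_bd_some hz, hall z]
        constructor
        · rintro (h | h)
          · exact absurd h hz
          · exact Or.inr (by rw [h])
        · rintro (h | h)
          · exact absurd h (by simp)
          · exact Or.inr (Option.some_injective _ h)

theorem nd' (q : R ⊕ Option Bool) : ¬ (C.ends' q).IsDiag := by
  rcases q with ρ | (_ | i)
  · by_cases h : ∃ i, ρ = C.r i
    · obtain ⟨i, rfl⟩ := h
      rw [C.ends'_r i, Sym2.mk_isDiag_iff]; simp
    · rw [C.ends'_old fun i hi => h ⟨i, hi⟩]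
      have := G.nd ρ
      revert this
      induction G.ends ρ using Sym2.ind with
      | _ u v =>
        rw [Sym2.map_mk, Sym2.mk_isDiag_iff, Sym2.mk_isDiag_iff]
        exact fun h1 h2 => h1 (Sum.inl_injective h2)
  · show ¬ (s(.inr false, .inr true) : Sym2 (N ⊕ Bool)).IsDiag
    rw [Sym2.mk_isDiag_iff]; simp
  · show ¬ (s(.inr i, .inl (C.b i)) : Sym2 (N ⊕ Bool)).IsDiag
    rw [Sym2.mk_isDiag_iff]; simp

theorem multi_aux {ρ : R} {o : Option Bool} (h : C.ends' (.inl ρ) = C.ends' (.inr o)) : False := by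
  rcases o with _ | i
  · have h0 : ∀ j, ρ = C.r j := by
      intro j
      have : (Sum.inr j : N ⊕ Bool) ∈ C.ends' (.inl ρ) := by rw [h]; exact C.inr_mem_none
      exact C.inr_mem_inl.1 this
    exact C.ne ((h0 false).symm.trans (h0 true))
  · have h0 : ρ = C.r i := by
      have : (Sum.inr i : N ⊕ Bool) ∈ C.ends' (.inl ρ) := by rw [h]; exact C.inr_mem_some.2 rfl
      exact C.inr_mem_inl.1 this
    have h1 : Sum.inl (C.a i) ∈ C.ends' (.inl ρ) := by
      rw [C.inl_mem_inl, h0]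
      exact ⟨C.aM i, fun j _ => C.a_ne_b i j⟩
    rw [h, C.inl_mem_some] at h1
    exact C.a_ne_b i i h1

theorem multi' (q q' : R ⊕ Option Bool) (h : C.ends' q = C.ends' q') : q = q' := by
  rcases q with ρ | o
  · rcases q' with ρ' | o'
    · by_cases h1 : ∃ i, ρ = C.r i
      · obtain ⟨i, rfl⟩ := h1
        have : (Sum.inr i : N ⊕ Bool) ∈ C.ends' (.inl ρ') := by
          rw [← h]; exact C.inr_mem_inl.2 rfl
        rw [C.inr_mem_inl.1 this]
      · by_cases h2 : ∃ i, ρ' = C.r i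
        · obtain ⟨i, rfl⟩ := h2
          have : (Sum.inr i : N ⊕ Bool) ∈ C.ends' (.inl ρ) := by
            rw [h]; exact C.inr_mem_inl.2 rfl
          rw [C.inr_mem_inl.1 this]
        · rw [C.ends'_old fun i hi => h1 ⟨i, hi⟩, C.ends'_old fun i hi => h2 ⟨i, hi⟩] at h
          rw [G.multi _ _ (Sym2.map.injective Sum.inl_injective h)]
    · exact (C.multi_aux h).elim
  · rcases q' with ρ' | o'
    · exact (C.multi_aux h.symm).elim
    · rcases o with _ | i <;> rcases o' with _ | j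
      · rfl
      · have : Sum.inl (C.b j) ∈ C.ends' (.inr none) := by rw [h]; exact C.inl_mem_some.2 rfl
        exact (C.inl_mem_none this).elim
      · have : Sum.inl (C.b i) ∈ C.ends' (.inr none) := by rw [← h]; exact C.inl_mem_some.2 rfl
        exact (C.inl_mem_none this).elim
      · have : (Sum.inr i : N ⊕ Bool) ∈ C.ends' (.inr (some j)) := by
          rw [← h]; exact C.inr_mem_some.2 rfl
        rw [C.inr_mem_some.1 this]

theorem out' (z : Option X) : ∃ q, q ∉ C.bd' z := by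
  rcases z with _ | y
  · obtain ⟨ρ, hρ⟩ := G.out C.x
    exact ⟨.inl ρ, fun h => hρ (C.inl_bd_none.1 h).1⟩
  · obtain ⟨ρ, hρ⟩ := G.out y
    refine ⟨.inl ρ, fun h => ?_⟩
    by_cases hy : y = C.x
    · rw [hy] at h hρ
      exact hρ (C.inl_bd_x.1 h).1
    · exact hρ ((C.inl_bd_some hy).1 h)

theorem bd_ne' (z : Option X) : (C.bd' z).Nonempty := by
  rcases z with _ | y
  · exact ⟨.inr none, C.some_bd_none⟩
  · by_cases hy : y = C.x
    · rw [hy]; exact ⟨.inr none, C.none_bd_x⟩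
    · obtain ⟨ρ, hρ⟩ := G.bd_ne y
      exact ⟨.inl ρ, (C.inl_bd_some hy).2 hρ⟩

/-! ### connectedness of the rest -/

/-- the third edge at a node of `bd x` -/
theorem exists_third (x : X) (c : N) : ∃ ρ, c ∈ G.ends ρ ∧ ρ ∉ G.bd x := by
  by_contra hcon
  push Not at hcon
  have : {r | r ∈ G.bd x ∧ c ∈ G.ends r} = {r | c ∈ G.ends r} := by
    ext r
    exact ⟨fun h => h.2, fun h => ⟨hcon r h, h⟩⟩
  have h2 := G.deg x c
  rw [this, G.three c] at h2
  omega

/-- closure at an old node -/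
theorem conn_inl {z : Option X} {A' : Set (R ⊕ Option Bool)}
    (hA : ∀ v, (∀ q ∈ C.bd' z, v ∉ C.ends' q) → ∀ q q', v ∈ C.ends' q → v ∈ C.ends' q' →
      q ∈ A' → q' ∈ A') {c : N} (hc : ∀ ρ, c ∈ G.ends ρ → C.φ c ρ ∉ C.bd' z) {ρ ρ' : R}
    (h : c ∈ G.ends ρ) (h' : c ∈ G.ends ρ') : C.φ c ρ ∈ A' → C.φ c ρ' ∈ A' := by
  refine hA (.inl c) (fun q hq hcq => ?_) _ _ (C.inl_mem.2 ⟨ρ, h, rfl⟩) (C.inl_mem.2 ⟨ρ', h', rfl⟩)
  obtain ⟨ρ0, h0, rfl⟩ := C.inl_mem.1 hcq
  exact hc ρ0 h0 hq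

/-- closure at a new node -/
theorem conn_inr {y : X} (hy : y ≠ C.x) {A' : Set (R ⊕ Option Bool)}
    (hA : ∀ v, (∀ q ∈ C.bd' (some y), v ∉ C.ends' q) → ∀ q q', v ∈ C.ends' q → v ∈ C.ends' q' →
      q ∈ A' → q' ∈ A') {i : Bool} (hi : C.r i ∉ G.bd y) {q q' : R ⊕ Option Bool}
    (h : (Sum.inr i : N ⊕ Bool) ∈ C.ends' q) (h' : (Sum.inr i : N ⊕ Bool) ∈ C.ends' q') :
    q ∈ A' → q' ∈ A' := by
  refine hA (.inr i) (fun q hq hcq => ?_) _ _ h h'
  rcases C.inr_mem.1 hcq with rfl | rfl | rfl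
  · exact hi ((C.inl_bd_some hy).1 hq)
  · exact hi ((C.some_bd_some hy).1 hq)
  · exact C.none_bd_some hy hq

theorem conn_y (hS : G.Share) {y : X} (hy : y ≠ C.x) (A' : Set (R ⊕ Option Bool))
    (hA : ∀ v, (∀ q ∈ C.bd' (some y), v ∉ C.ends' q) → ∀ q q', v ∈ C.ends' q → v ∈ C.ends' q' →
      q ∈ A' → q' ∈ A') (q q' : R ⊕ Option Bool) (hq : q ∉ C.bd' (some y))
    (hq' : q' ∉ C.bd' (some y)) (h : q ∈ A') : q' ∈ A' := by
  -- every edge outside has an old edge outside with the same status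
  have hrep : ∀ q, q ∉ C.bd' (some y) → ∃ ρ, ρ ∉ G.bd y ∧ (q ∈ A' ↔ Sum.inl ρ ∈ A') := by
    rintro (ρ | (_ | i)) hq
    · exact ⟨ρ, fun h => hq ((C.inl_bd_some hy).2 h), Iff.rfl⟩
    · obtain ⟨i, hi⟩ : ∃ i, C.r i ∉ G.bd y := by
        by_contra hcon
        push Not at hcon
        exact C.ne (hS C.x y (Ne.symm hy) _ _ (C.mem false) (hcon false) (C.mem true) (hcon true))
      exact ⟨C.r i, hi, C.conn_inr hy hA hi C.inr_mem_none (C.inr_mem_inl.2 rfl),
        C.conn_inr hy hA hi (C.inr_mem_inl.2 rfl) C.inr_mem_none⟩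
    · have hi : C.r i ∉ G.bd y := fun h => hq ((C.some_bd_some hy).2 h)
      exact ⟨C.r i, hi, C.conn_inr hy hA hi (C.inr_mem_some.2 rfl) (C.inr_mem_inl.2 rfl),
        C.conn_inr hy hA hi (C.inr_mem_inl.2 rfl) (C.inr_mem_some.2 rfl)⟩
  have hcl := G.conn y {ρ | Sum.inl ρ ∈ A'} (fun c hc ρ ρ' h1 h2 h3 => by
    have hc' : ∀ ρ, c ∈ G.ends ρ → C.φ c ρ ∉ C.bd' (some y) := fun ρ0 h0 h =>
      hc ρ0 ((C.φ_bd hy c ρ0).1 h) h0
    have hst : ∀ ρ, c ∈ G.ends ρ → (C.φ c ρ ∈ A' ↔ Sum.inl ρ ∈ A') := by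
      intro ρ0 h0
      rcases C.φ_cases c ρ0 with ⟨i, e1, e2, e3⟩ | ⟨e1, e3⟩
      · rw [e3]
        have hi : C.r i ∉ G.bd y := fun h => hc _ h (by rw [e2]; exact C.bM i)
        rw [e1]
        exact ⟨C.conn_inr hy hA hi (C.inr_mem_some.2 rfl) (C.inr_mem_inl.2 rfl),
          C.conn_inr hy hA hi (C.inr_mem_inl.2 rfl) (C.inr_mem_some.2 rfl)⟩
      · rw [e3]
    exact (hst ρ' h2).1 (C.conn_inl hA hc' h1 h2 ((hst ρ h1).2 h3)))
  obtain ⟨ρ, hρ, hst⟩ := hrep q hq
  obtain ⟨ρ', hρ', hst'⟩ := hrep q' hq'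
  exact hst'.2 (hcl ρ ρ' hρ hρ' (hst.1 h))

/-- the two parts of `x` together -/
theorem conn_aux {z : Option X} {s : Bool}
    (hsub : ∀ ρ, Sum.inl ρ ∈ C.bd' z → ρ ∈ G.bd C.x)
    (hsome : ∀ i, Sum.inr (some i) ∈ C.bd' z ∨ s = false)
    (hnone : Sum.inr none ∈ C.bd' z)
    (hside : ∀ c, C.sg c = s → ∀ ρ, c ∈ G.ends ρ → C.φ c ρ ∉ C.bd' z)
    (hout : ∀ ρ ∈ G.bd C.x, Sum.inl ρ ∉ C.bd' z → ∃ c ∈ G.ends ρ, C.sg c = s ∧
      C.φ c ρ = .inl ρ)
    (A' : Set (R ⊕ Option Bool))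
    (hA : ∀ v, (∀ q ∈ C.bd' z, v ∉ C.ends' q) → ∀ q q', v ∈ C.ends' q → v ∈ C.ends' q' →
      q ∈ A' → q' ∈ A') (q q' : R ⊕ Option Bool) (hq : q ∉ C.bd' z)
    (hq' : q' ∉ C.bd' z) (h : q ∈ A') : q' ∈ A' := by
  have hthird : ∀ c, C.sg c = s → ∀ ρ0, c ∈ G.ends ρ0 →
      ∃ ρ, ρ ∉ G.bd C.x ∧ (C.φ c ρ0 ∈ A' ↔ Sum.inl ρ ∈ A') := by
    intro c hc ρ0 h0
    obtain ⟨ρ, h1, h2⟩ := exists_third (G := G) C.x c
    have h3 : C.φ c ρ = .inl ρ := C.φ_old fun i hi => absurd (C.mem i) (by rw [← hi]; exact h2)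
    refine ⟨ρ, h2, ?_, ?_⟩
    · intro h; rw [← h3]; exact C.conn_inl hA (hside c hc) h0 h1 h
    · intro h; rw [← h3] at h; exact C.conn_inl hA (hside c hc) h1 h0 h
  have hrep : ∀ q, q ∉ C.bd' z → ∃ ρ, ρ ∉ G.bd C.x ∧ (q ∈ A' ↔ Sum.inl ρ ∈ A') := by
    rintro (ρ | (_ | i)) hq
    · by_cases hρ : ρ ∈ G.bd C.x
      · obtain ⟨c, h1, h2, h3⟩ := hout ρ hρ hq
        rw [← h3]
        exact hthird c h2 ρ h1
      · exact ⟨ρ, hρ, Iff.rfl⟩
    · exact absurd hnone hq
    · rcases hsome i with h' | h'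
      · exact absurd h' hq
      · rw [← C.φ_b i]
        exact hthird (C.b i) (by rw [C.hb, h']) _ (C.bM i)
  have hcl := G.conn C.x {ρ | Sum.inl ρ ∈ A'} (fun c hc ρ ρ' h1 h2 h3 => by
    have hφ : ∀ ρ, C.φ c ρ = .inl ρ := fun ρ0 => C.φ_old fun i _ e2 =>
      hc _ (C.mem i) (by rw [e2]; exact C.bM i)
    have hc' : ∀ ρ, c ∈ G.ends ρ → C.φ c ρ ∉ C.bd' z := fun ρ0 h0 h => by
      rw [hφ] at h
      exact hc ρ0 (hsub ρ0 h) h0
    have := C.conn_inl hA hc' h1 h2
    rw [hφ, hφ] at this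
    exact this h3)
  obtain ⟨ρ, hρ, hst⟩ := hrep q hq
  obtain ⟨ρ', hρ', hst'⟩ := hrep q' hq'
  exact hst'.2 (hcl ρ ρ' hρ hρ' (hst.1 h))

theorem conn' (hS : G.Share) (z : Option X) (A' : Set (R ⊕ Option Bool))
    (hA : ∀ v, (∀ q ∈ C.bd' z, v ∉ C.ends' q) → ∀ q q', v ∈ C.ends' q → v ∈ C.ends' q' →
      q ∈ A' → q' ∈ A') (q q' : R ⊕ Option Bool) (hq : q ∉ C.bd' z)
    (hq' : q' ∉ C.bd' z) (h : q ∈ A') : q' ∈ A' := by
  rcases z with _ | y
  · refine C.conn_aux (s := true) (fun ρ h => (C.inl_bd_none.1 h).1)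
      (fun i => Or.inl C.some_bd_none) C.some_bd_none
      (fun c hc ρ h => C.φ_bd_none' hc h) (fun ρ hρ hn => ?_) A' hA q q' hq hq' h
    have : ∃ c ∈ G.ends ρ, C.sg c = true := by
      by_contra hcon
      push Not at hcon
      refine hn (C.inl_bd_none.2 ⟨hρ, fun c hc => ?_⟩)
      rcases h : C.sg c with _ | _
      · rfl
      · exact absurd h (hcon c hc)
    obtain ⟨c, hc, hsc⟩ := this
    refine ⟨c, hc, hsc, C.φ_old fun i _ e2 => ?_⟩
    rw [e2, C.hb] at hsc; exact Bool.noConfusion hsc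
  · by_cases hy : y = C.x
    · rw [hy] at hA hq hq'
      refine C.conn_aux (s := false) (fun ρ h => (C.inl_bd_x.1 h).1)
        (fun i => Or.inr rfl) C.none_bd_x
        (fun c hc ρ h => C.φ_bd_x' hc h) (fun ρ hρ hn => ?_) A' hA q q' hq hq' h
      have hr : ∀ i, ρ ≠ C.r i := by
        rintro i rfl
        exact hn (C.inl_bd_x.2 ⟨hρ, _, C.aM i, C.ha i⟩)
      obtain ⟨u, v, huv⟩ : ∃ u v, G.ends ρ = s(u, v) := by
        induction h : G.ends ρ using Sym2.ind with
        | _ a b => exact ⟨a, b, rfl⟩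
      have hu : u ∈ G.ends ρ := by rw [huv]; exact Sym2.mem_mk_left _ _
      refine ⟨u, hu, ?_, C.φ_old fun i e1 _ => absurd e1 (hr i)⟩
      rcases h : C.sg u with _ | _
      · rfl
      · exact absurd (C.inl_bd_x.2 ⟨hρ, u, hu, h⟩) hn
    · exact C.conn_y hS hy A' hA q q' hq hq' h

/-- **the cut graph** -/
noncomputable def split (hS : G.Share) : Cub (N ⊕ Bool) (R ⊕ Option Bool) (Option X) where
  ends := C.ends'
  nd := C.nd'
  multi := C.multi'
  three := C.three'
  bd := C.bd'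
  bd_ne := C.bd_ne'
  twoF := C.twoF'
  deg := C.deg'
  simple := C.simple'
  out := C.out'
  conn := fun z A hA q q' hq hq' h => C.conn' hS z A hA q q' hq hq' h

/-! ### two faces of the new graph have at most one common edge -/

theorem inl_old {z : Option X} {ρ : R} (h : Sum.inl ρ ∈ C.bd' z) : ρ ∈ G.bd (C.old z) := by
  rcases z with _ | y
  · exact (C.inl_bd_none.1 h).1
  · by_cases hy : y = C.x
    · show ρ ∈ G.bd y
      rw [hy] at h ⊢
      exact (C.inl_bd_x.1 h).1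
    · exact (C.inl_bd_some hy).1 h

theorem some_old {z : Option X} {i : Bool} (h : Sum.inr (some i) ∈ C.bd' z) :
    C.r i ∈ G.bd (C.old z) := by
  rcases z with _ | y
  · exact C.mem i
  · by_cases hy : y = C.x
    · rw [hy] at h
      exact absurd h C.some_bd_x
    · exact (C.some_bd_some hy).1 h

theorem none_old {z : Option X} (h : Sum.inr none ∈ C.bd' z) : C.old z = C.x := by
  rcases z with _ | y
  · rfl
  · by_contra hy
    exact C.none_bd_some hy h

theorem mixed {z z' : Option X} (hz : C.old z ≠ C.old z') {i : Bool}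
    (h1 : Sum.inl (C.r i) ∈ C.bd' z) (h2 : Sum.inl (C.r i) ∈ C.bd' z')
    (h3 : Sum.inr (some i) ∈ C.bd' z) (h4 : Sum.inr (some i) ∈ C.bd' z') : False := by
  have aux : ∀ z, C.old z = C.x → Sum.inl (C.r i) ∈ C.bd' z → Sum.inr (some i) ∈ C.bd' z →
      False := by
    rintro (_ | y) h h1 h2
    · have := (C.inl_bd_none.1 h1).2 _ (C.aM i)
      rw [C.ha] at this; exact Bool.noConfusion this
    · have hy : y = C.x := h
      rw [hy] at h2
      exact C.some_bd_x h2
  obtain ⟨y, hy, hall⟩ := C.twoF_x (C.mem i)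
  rcases (hall _).1 (C.inl_old h1) with h | h
  · exact aux z h h1 h3
  · rcases (hall _).1 (C.inl_old h2) with h' | h'
    · exact aux z' h' h2 h4
    · exact hz (h.trans h'.symm)

theorem common_x {q : R ⊕ Option Bool} (h1 : q ∈ C.bd' none) (h2 : q ∈ C.bd' (some C.x)) :
    q = .inr none := by
  rcases q with ρ | (_ | i)
  · obtain ⟨c, h3, h4⟩ := (C.inl_bd_x.1 h2).2
    rw [(C.inl_bd_none.1 h1).2 c h3] at h4; exact Bool.noConfusion h4
  · rfl
  · exact absurd h2 C.some_bd_x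

theorem split_share (hS : G.Share) : (C.split hS).Share := by
  intro z z' hzz q q' h1 h2 h3 h4
  have h1 : q ∈ C.bd' z := h1
  have h2 : q ∈ C.bd' z' := h2
  have h3 : q' ∈ C.bd' z := h3
  have h4 : q' ∈ C.bd' z' := h4
  by_cases hold : C.old z = C.old z'
  · rcases z with _ | y
    · rcases z' with _ | y'
      · exact absurd rfl hzz
      · have hy : C.x = y' := hold
        rw [← hy] at h2 h4
        rw [C.common_x h1 h2, C.common_x h3 h4]
    · rcases z' with _ | y'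
      · have hy : y = C.x := hold
        rw [hy] at h1 h3
        rw [C.common_x h2 h1, C.common_x h4 h3]
      · have hy : y = y' := hold
        exact absurd (by rw [hy]) hzz
  · rcases q with ρ | (_ | i)
    · rcases q' with ρ' | (_ | j)
      · rw [hS _ _ hold ρ ρ' (C.inl_old h1) (C.inl_old h2) (C.inl_old h3) (C.inl_old h4)]
      · exact absurd ((C.none_old h3).trans (C.none_old h4).symm) hold
      · have := hS _ _ hold ρ (C.r j) (C.inl_old h1) (C.inl_old h2) (C.some_old h3) (C.some_old h4)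
        rw [this] at h1 h2
        exact (C.mixed hold h1 h2 h3 h4).elim
    · exact absurd ((C.none_old h1).trans (C.none_old h2).symm) hold
    · rcases q' with ρ' | (_ | j)
      · have := hS _ _ hold ρ' (C.r i) (C.inl_old h3) (C.inl_old h4) (C.some_old h1) (C.some_old h2)
        rw [this] at h3 h4
        exact (C.mixed hold h3 h4 h1 h2).elim
      · exact absurd ((C.none_old h3).trans (C.none_old h4).symm) hold
      · rw [C.rinj (hS _ _ hold _ _ (C.some_old h1) (C.some_old h2) (C.some_old h3)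
          (C.some_old h4))]

end Cut

end Crest.Agent.R096.Sph_560
private theorem rz_5411b19af8 : type_of% @_root_.Crest.Agent.R096.Sph_560.Cut.bd'.eq_1 := @_root_.Crest.Agent.R096.Sph_560.Cut.bd'.eq_1 -- L200
private theorem rz_81d140bbbc : type_of% @_root_.Crest.Agent.R096.Sph_560.Cut.ends'.eq_1 := @_root_.Crest.Agent.R096.Sph_560.Cut.ends'.eq_1 -- L57
end

-- ▼ part R096/Spg2_560
section

/-!
# R096 (row 96), DOORS (D6) / SPH, (G2) part 2 (helper560): straight drawings and cuts by lines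

`Drw G x0 T0 T0'` : straight line drawing of the cubic graph `G` in the plane: all faces but `x0`
are compact convex polygons; `Drw.cut` : cut of one polygon by a line.
-/

set_option autoImplicit false

open Set Metric

namespace Crest.Agent.R096.Sph_560

open Msh_715

variable {F : Type*} [NormedAddCommGroup F] [NormedSpace ℝ F] {N R X : Type*}

/-- the segment of an edge -/
def seg (ends : R → Sym2 N) (pt : N → F) (r : R) : Set F := convexHull ℝ (pt '' {a | a ∈ ends r})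

theorem seg_eq {ends : R → Sym2 N} {pt : N → F} {r : R} {a b : N} (h : ends r = s(a, b)) :
    seg ends pt r = segment ℝ (pt a) (pt b) := by
  have : pt '' {v | v ∈ ends r} = {pt a, pt b} := by
    ext y
    constructor
    · rintro ⟨v, hv, rfl⟩
      have hv : v ∈ ends r := hv
      rw [h, Sym2.mem_iff] at hv
      rcases hv with rfl | rfl
      · exact Or.inl rfl
      · exact Or.inr rfl
    · rintro (rfl | rfl)
      · exact ⟨a, by rw [mem_ofPred_eq, h]; exact Sym2.mem_mk_left _ _, rfl⟩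
      · exact ⟨b, by rw [mem_ofPred_eq, h]; exact Sym2.mem_mk_right _ _, rfl⟩
  rw [seg, this, convexHull_pair]

theorem pt_mem_seg {ends : R → Sym2 N} {pt : N → F} {r : R} {a : N} (h : a ∈ ends r) :
    pt a ∈ seg ends pt r := subset_convexHull _ _ ⟨a, h, rfl⟩

/-! ### halves of a segment -/

/-- the upper half of a segment -/
theorem seg_upper (lam : F →L[ℝ] ℝ) {c : ℝ} {A B p y : F} (hA : c < lam A) (hB : lam B < c)
    (hp : p ∈ segment ℝ A B) (hpc : lam p = c) :
    y ∈ segment ℝ A p ↔ y ∈ segment ℝ A B ∧ c ≤ lam y := by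
  constructor
  · intro hy
    refine ⟨(convex_segment A B).segment_subset (left_mem_segment ℝ A B) hp hy, ?_⟩
    obtain ⟨s, t, hs, ht, hst, rfl⟩ := hy
    rw [map_add, map_smul, map_smul, smul_eq_mul, smul_eq_mul, hpc]
    have e1 : t = 1 - s := by linarith
    rw [e1]
    nlinarith [mul_nonneg hs (sub_nonneg.2 hA.le)]
  · rintro ⟨⟨s, t, hs, ht, hst, rfl⟩, hy⟩
    obtain ⟨s', t', hs', ht', hst', rfl⟩ := hp
    rw [map_add, map_smul, map_smul, smul_eq_mul, smul_eq_mul] at hpc hy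
    have ht0 : 0 < t' := by
      rcases ht'.lt_or_eq with h | h
      · exact h
      · exfalso
        rw [← h] at hpc
        have : s' = 1 := by linarith
        rw [this] at hpc
        linarith
    have htt : t ≤ t' := by
      by_contra hcon
      push Not at hcon
      have e1 : s = 1 - t := by linarith
      have e2 : s' = 1 - t' := by linarith
      rw [e1] at hy
      rw [e2] at hpc
      nlinarith
    refine ⟨1 - t / t', t / t', ?_, by positivity, by ring, ?_⟩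
    · rw [sub_nonneg]; exact (div_le_one ht0).2 htt
    · have e1 : s = 1 - t := by linarith
      have e2 : s' = 1 - t' := by linarith
      rw [e1, e2, smul_add, smul_smul, smul_smul, ← add_assoc, ← add_smul]
      congr 1
      · congr 1
        field_simp
        ring
      · congr 1
        field_simp

/-- the lower half of a segment -/
theorem seg_lower (lam : F →L[ℝ] ℝ) {c : ℝ} {A B p y : F} (hA : c < lam A) (hB : lam B < c)
    (hp : p ∈ segment ℝ A B) (hpc : lam p = c) :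
    y ∈ segment ℝ p B ↔ y ∈ segment ℝ A B ∧ lam y ≤ c := by
  have h := seg_upper (-lam) (c := -c) (A := B) (B := A) (p := p) (y := y)
    (by rw [_root_.neg_apply]; linarith)
    (by rw [_root_.neg_apply]; linarith)
    (by rw [segment_symm]; exact hp) (by rw [_root_.neg_apply, hpc])
  rw [segment_symm, h, segment_symm, _root_.neg_apply]
  constructor
  · rintro ⟨h1, h2⟩; exact ⟨h1, by linarith⟩
  · rintro ⟨h1, h2⟩; exact ⟨h1, by linarith⟩

/-- two points of a segment on the same level -/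
theorem seg_inj (lam : F →L[ℝ] ℝ) {A B p q : F} (hAB : lam A ≠ lam B)
    (hp : p ∈ segment ℝ A B) (hq : q ∈ segment ℝ A B) (h : lam p = lam q) : p = q := by
  obtain ⟨s, t, hs, ht, hst, rfl⟩ := hp
  obtain ⟨s', t', hs', ht', hst', rfl⟩ := hq
  rw [map_add, map_smul, map_smul, smul_eq_mul, smul_eq_mul, map_add, map_smul, map_smul,
    smul_eq_mul, smul_eq_mul] at h
  have e1 : s = 1 - t := by linarith
  have e2 : s' = 1 - t' := by linarith
  rw [e1, e2] at h
  have h3 : (t - t') * (lam B - lam A) = 0 := by linarith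
  rcases mul_eq_zero.1 h3 with h4 | h4
  · have : t = t' := by linarith
    rw [e1, e2, this]
  · exact absurd (by linarith) hAB

/-- a point of given level on a segment -/
theorem seg_level (lam : F →L[ℝ] ℝ) {c : ℝ} {A B : F} (hA : c ≤ lam A) (hB : lam B < c) :
    ∃ t : ℝ, 0 < t ∧ t ≤ 1 ∧ lam (t • A + (1 - t) • B) = c := by
  have h : 0 < lam A - lam B := by linarith
  refine ⟨(c - lam B) / (lam A - lam B), div_pos (by linarith) h, (div_le_one h).2 (by linarith), ?_⟩
  rw [map_add, map_smul, map_smul, smul_eq_mul, smul_eq_mul]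
  field_simp
  ring

/-! ### polygons -/

theorem I_comb {H : Finset ((F →L[ℝ] ℝ) × ℝ)} {z y : F} (hz : z ∈ I H) (hy : y ∈ P H) {t : ℝ}
    (h0 : 0 < t) (h1 : t ≤ 1) : t • z + (1 - t) • y ∈ I H := by
  intro h hh
  have e1 := hz h hh
  have e2 := hy h hh
  rw [map_add, map_smul, map_smul, smul_eq_mul, smul_eq_mul]
  nlinarith

theorem convex_P (H : Finset ((F →L[ℝ] ℝ) × ℝ)) : Convex ℝ (P H) := by
  intro x hx y hy s t hs ht hst h hh
  have e1 := hx h hh
  have e2 := hy h hh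
  rw [map_add, map_smul, map_smul, smul_eq_mul, smul_eq_mul]
  have : t = 1 - s := by linarith
  subst this
  nlinarith

theorem isClosed_P (H : Finset ((F →L[ℝ] ℝ) × ℝ)) : IsClosed (P H) := by
  have : P H = ⋂ h ∈ H, {x | h.1 x ≤ h.2} := by
    ext x
    simp only [P, mem_iInter, mem_ofPred_eq]
  rw [this]
  exact isClosed_biInter fun h _ => isClosed_le h.1.continuous continuous_const

open Classical in
theorem mem_P_insert {H : Finset ((F →L[ℝ] ℝ) × ℝ)} {h : (F →L[ℝ] ℝ) × ℝ} {y : F} :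
    y ∈ P (insert h H) ↔ h.1 y ≤ h.2 ∧ y ∈ P H := by
  simp only [P, mem_ofPred_eq, Finset.forall_mem_insert]

open Classical in
theorem mem_I_insert {H : Finset ((F →L[ℝ] ℝ) × ℝ)} {h : (F →L[ℝ] ℝ) × ℝ} {y : F} :
    y ∈ I (insert h H) ↔ h.1 y < h.2 ∧ y ∈ I H := by
  simp only [I, mem_ofPred_eq, Finset.forall_mem_insert]

/-- a line through the inside of a compact polygon: the two end points -/
theorem exists_ends {H : Finset ((F →L[ℝ] ℝ) × ℝ)} (hc : IsCompact (P H)) {lam : F →L[ℝ] ℝ} {c : ℝ}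
    {v : F} (hv : v ≠ 0) (hv0 : lam v = 0) (hker : ∀ y, lam y = 0 → ∃ t : ℝ, y = t • v) {z : F}
    (hz : z ∈ I H) (hzc : lam z = c) :
    ∃ p : Bool → F, p false ≠ p true ∧ (∀ i, lam (p i) = c) ∧ (∀ i, p i ∈ P H \ I H) ∧
      (∀ y, lam y = c → (y ∈ P H ↔ y ∈ segment ℝ (p false) (p true))) ∧
      ∀ y, lam y = c → y ∈ P H \ I H → ∃ i, y = p i := by
  have hcont : Continuous fun t : ℝ => z + t • v := by fun_prop
  set T : Set ℝ := (fun t : ℝ => z + t • v) ⁻¹' P H with hT
  have h0T : (0 : ℝ) ∈ T := by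
    show z + (0 : ℝ) • v ∈ P H
    rw [zero_smul, add_zero]; exact I_sub_P H hz
  have hTc : IsCompact T := by
    refine Metric.isCompact_of_isClosed_isBounded ((isClosed_P H).preimage hcont) ?_
    obtain ⟨M, hM⟩ := hc.isBounded.exists_norm_le
    refine (Metric.isBounded_iff_subset_closedBall (0 : ℝ)).2 ⟨(M + ‖z‖) / ‖v‖, fun t ht => ?_⟩
    rw [mem_closedBall_zero_iff]
    have h1 : ‖z + t • v‖ ≤ M := hM _ ht
    have h2 : ‖t • v‖ ≤ M + ‖z‖ := by
      calc ‖t • v‖ = ‖(z + t • v) - z‖ := by rw [add_sub_cancel_left]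
        _ ≤ ‖z + t • v‖ + ‖z‖ := norm_sub_le _ _
        _ ≤ M + ‖z‖ := by linarith
    rw [norm_smul] at h2
    exact (le_div_iff₀ (norm_pos_iff.2 hv)).2 h2
  obtain ⟨t1, ht1, hmax⟩ := hTc.exists_isGreatest ⟨0, h0T⟩
  obtain ⟨t0, ht0, hmin⟩ := hTc.exists_isLeast ⟨0, h0T⟩
  have hopen : IsOpen ((fun t : ℝ => z + t • v) ⁻¹' I H) := (isOpen_I H).preimage hcont
  have hn1 : z + t1 • v ∉ I H := by
    intro h
    obtain ⟨ε, hε, hsub⟩ := Metric.isOpen_iff.1 hopen t1 h
    have : t1 + ε / 2 ∈ ball t1 ε := by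
      rw [mem_ball, Real.dist_eq, add_sub_cancel_left, abs_of_pos (by positivity)]; linarith
    have h2 := hmax (I_sub_P H (hsub this))
    linarith
  have hn0 : z + t0 • v ∉ I H := by
    intro h
    obtain ⟨ε, hε, hsub⟩ := Metric.isOpen_iff.1 hopen t0 h
    have : t0 - ε / 2 ∈ ball t0 ε := by
      rw [mem_ball, Real.dist_eq, sub_sub_cancel_left, abs_neg, abs_of_pos (by positivity)]
      linarith
    have h2 := hmin (I_sub_P H (hsub this))
    linarith
  have h1pos : 0 < t1 := by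
    rcases (hmax h0T).lt_or_eq with h | h
    · exact h
    · exfalso; apply hn1; rw [← h, zero_smul, add_zero]; exact hz
  have h0neg : t0 < 0 := by
    rcases (hmin h0T).lt_or_eq with h | h
    · exact h
    · exfalso; apply hn0; rw [h, zero_smul, add_zero]; exact hz
  have hlev : ∀ t : ℝ, lam (z + t • v) = c := by
    intro t; rw [map_add, map_smul, hv0, smul_zero, add_zero, hzc]
  have hpar : ∀ y, lam y = c → ∃ t : ℝ, y = z + t • v := by
    intro y hy
    obtain ⟨t, ht⟩ := hker (y - z) (by rw [map_sub, hy, hzc, sub_self])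
    exact ⟨t, by rw [← ht]; abel⟩
  refine ⟨fun i => if i then z + t1 • v else z + t0 • v, ?_, ?_, ?_, ?_, ?_⟩
  · simp only [Bool.false_eq_true, if_false, if_true, ne_eq, add_right_inj]
    intro h
    have : (t0 - t1) • v = 0 := by rw [sub_smul, h, sub_self]
    rcases smul_eq_zero.1 this with h' | h'
    · linarith
    · exact hv h'
  · rintro (_ | _)
    · simpa using hlev t0
    · simpa using hlev t1
  · rintro (_ | _)
    · simpa using ⟨ht0, hn0⟩
    · simpa using ⟨ht1, hn1⟩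
  · intro y hy
    simp only [Bool.false_eq_true, if_false, if_true]
    constructor
    · intro hyP
      obtain ⟨t, rfl⟩ := hpar y hy
      have ha := hmax (show t ∈ T from hyP)
      have hb := hmin (show t ∈ T from hyP)
      have hd : 0 < t1 - t0 := by linarith
      refine ⟨(t1 - t) / (t1 - t0), (t - t0) / (t1 - t0), div_nonneg (by linarith) hd.le,
        div_nonneg (by linarith) hd.le, by field_simp; ring, ?_⟩
      rw [smul_add, smul_add, smul_smul, smul_smul, add_add_add_comm, ← add_smul, ← add_smul]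
      have e1 : (t1 - t) / (t1 - t0) + (t - t0) / (t1 - t0) = 1 := by field_simp; ring
      have e2 : (t1 - t) / (t1 - t0) * t0 + (t - t0) / (t1 - t0) * t1 = t := by
        field_simp; ring
      rw [e1, e2, one_smul]
    · intro hyS
      exact (convex_P H).segment_subset ht0 ht1 hyS
  · intro y hy hyF
    obtain ⟨t, rfl⟩ := hpar y hy
    have ha := hmax (show t ∈ T from hyF.1)
    have hb := hmin (show t ∈ T from hyF.1)
    rcases le_or_gt 0 t with h | h
    · refine ⟨true, ?_⟩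
      simp only [if_true]
      by_contra hne
      have hlt : t < t1 := lt_of_le_of_ne ha fun h => hne (by rw [h])
      apply hyF.2
      have h5 := I_comb hz (show z + t1 • v ∈ P H from ht1) (t := 1 - t / t1)
        (by rw [sub_pos]; exact (div_lt_one h1pos).2 hlt)
        (by have : 0 ≤ t / t1 := by positivity
            linarith)
      have h6 : (1 - t / t1) • z + (1 - (1 - t / t1)) • (z + t1 • v) = z + t • v := by
        rw [smul_add, ← add_assoc, ← add_smul, smul_smul]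
        have e1 : 1 - t / t1 + (1 - (1 - t / t1)) = 1 := by ring
        have e2 : (1 - (1 - t / t1)) * t1 = t := by field_simp; ring
        rw [e1, e2, one_smul]
      rw [h6] at h5
      exact h5
    · refine ⟨false, ?_⟩
      simp only [Bool.false_eq_true, if_false]
      by_contra hne
      have hlt : t0 < t := lt_of_le_of_ne hb fun h => hne (by rw [h])
      apply hyF.2
      have hq : 0 ≤ t / t0 := div_nonneg_of_nonpos h.le h0neg.le
      have h5 := I_comb hz (show z + t0 • v ∈ P H from ht0) (t := 1 - t / t0)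
        (by rw [sub_pos]; exact (div_lt_one_of_neg h0neg).2 hlt)
        (by linarith)
      have h6 : (1 - t / t0) • z + (1 - (1 - t / t0)) • (z + t0 • v) = z + t • v := by
        rw [smul_add, ← add_assoc, ← add_smul, smul_smul]
        have e1 : 1 - t / t0 + (1 - (1 - t / t0)) = 1 := by ring
        have ht00 : t0 ≠ 0 := h0neg.ne
        have e2 : (1 - (1 - t / t0)) * t0 = t := by
          field_simp; ring
        rw [e1, e2, one_smul]
      rw [h6] at h5
      exact h5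

end Crest.Agent.R096.Sph_560
end

-- ▼ part R096/Spg3_560
section

/-!
# R096 (row 96), DOORS (D6) / SPH, (G2) part 3 (helper560): straight drawings, cut by a line
-/

set_option autoImplicit false

open Set Metric

namespace Crest.Agent.R096.Sph_560

open Msh_715

variable {F : Type*} [NormedAddCommGroup F] [NormedSpace ℝ F] {N R X : Type*}

/-- straight line drawing of `G`: all faces but `x0` are compact convex polygons, `T0` is the
union of these faces, `T1` the union of the segments of `x0` -/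
structure Drw (G : Cub N R X) (x0 : X) (T0 T1 : Set F) where
  pt : N → F
  H : X → Finset ((F →L[ℝ] ℝ) × ℝ)
  inj : Function.Injective pt
  pt_seg : ∀ a r, pt a ∈ seg G.ends pt r → a ∈ G.ends r
  seg_seg : ∀ r r', r ≠ r' → ∀ y ∈ seg G.ends pt r, y ∈ seg G.ends pt r' → ∃ a, y = pt a
  cpt : ∀ x, x ≠ x0 → IsCompact (P (H x))
  int : ∀ x, x ≠ x0 → (I (H x)).Nonempty
  fr : ∀ x, x ≠ x0 → P (H x) \ I (H x) = ⋃ r ∈ G.bd x, seg G.ends pt r
  fr0 : T1 = ⋃ r ∈ G.bd x0, seg G.ends pt r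
  disj : ∀ x, x ≠ x0 → ∀ y, y ≠ x0 → x ≠ y → Disjoint (I (H x)) (P (H y))
  cov : T0 = ⋃ x ∈ {x | x ≠ x0}, P (H x)

namespace Drw

variable {G : Cub N R X} {x0 : X} {T0 T1 : Set F} (D : Drw G x0 T0 T1)

/-- the segments of the drawing -/
abbrev sg (r : R) : Set F := seg G.ends D.pt r

theorem sg_sub {x : X} (hx : x ≠ x0) {r : R} (hr : r ∈ G.bd x) :
    D.sg r ⊆ P (D.H x) \ I (D.H x) := by
  rw [D.fr x hx]
  exact subset_biUnion_of_mem (u := fun r => D.sg r) hr

/-- a point of a face on a segment is on the boundary of the face -/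
theorem mem_fr {x : X} (hx : x ≠ x0) {r : R} {y : F} (hy : y ∈ P (D.H x)) (hr : y ∈ D.sg r) :
    y ∈ P (D.H x) \ I (D.H x) := by
  by_cases h : r ∈ G.bd x
  · exact D.sg_sub hx h hr
  · obtain ⟨u, v, huv, hall⟩ := G.twoF r
    have : ∃ w, w ≠ x0 ∧ r ∈ G.bd w := by
      by_cases hu : u = x0
      · exact ⟨v, fun hv => huv (hu.trans hv.symm), (hall v).2 (Or.inr rfl)⟩
      · exact ⟨u, hu, (hall u).2 (Or.inl rfl)⟩
    obtain ⟨w, hw0, hw⟩ := this
    have hxw : x ≠ w := by rintro rfl; exact h hw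
    refine ⟨hy, fun hI => ?_⟩
    exact (Set.disjoint_left.1 (D.disj x hx w hw0 hxw)) hI (D.sg_sub hw0 hw hr).1

/-- existence of the cut: the face `x` and the line `lam = c` through its inside -/
theorem exists_cut {x : X} (hx : x ≠ x0) {lam : F →L[ℝ] ℝ} {c : ℝ} {v : F} (hv : v ≠ 0)
    (hv0 : lam v = 0) (hker : ∀ y, lam y = 0 → ∃ t : ℝ, y = t • v) {z : F} (hz : z ∈ I (D.H x))
    (hzc : lam z = c) (hgen : ∀ a, lam (D.pt a) ≠ c) :
    ∃ (C : Cut G) (p : Bool → F), C.x = x ∧ (∀ n, C.sg n = decide (c < lam (D.pt n))) ∧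
      p false ≠ p true ∧ (∀ i, lam (p i) = c) ∧ (∀ i, p i ∈ D.sg (C.r i)) ∧
      (∀ y, lam y = c → (y ∈ P (D.H x) ↔ y ∈ segment ℝ (p false) (p true))) ∧
      (∀ y, lam y = c → y ∈ P (D.H x) \ I (D.H x) → ∃ i, y = p i) := by
  obtain ⟨p, hne, hpc, hpF, hseg, huniq⟩ := exists_ends (D.cpt x hx) hv hv0 hker hz hzc
  have hr : ∀ i, ∃ r, r ∈ G.bd x ∧ p i ∈ D.sg r := by
    intro i
    have h1 := hpF i
    rw [D.fr x hx] at h1
    obtain ⟨r, hr, hpr⟩ := mem_iUnion₂.1 h1
    exact ⟨r, hr, hpr⟩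
  choose r hrb hpr using hr
  have hends : ∀ r, ∃ a b, G.ends r = s(a, b) := by
    intro r
    induction h : G.ends r using Sym2.ind with
    | _ a b => exact ⟨a, b, rfl⟩
  -- the ends of a segment with a point of level `c` are on different sides
  have hab : ∀ (r : R) (y : F), y ∈ D.sg r → lam y = c →
      ∃ a b, G.ends r = s(a, b) ∧ c < lam (D.pt a) ∧ lam (D.pt b) < c := by
    intro r y hy hyc
    obtain ⟨a, b, hab⟩ := hends r
    rw [Drw.sg, seg_eq hab] at hy
    obtain ⟨s, t, hs, ht, hst, hy'⟩ := hy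
    have h1 : s * lam (D.pt a) + t * lam (D.pt b) = c := by
      rw [← hyc, ← hy', map_add, map_smul, map_smul, smul_eq_mul, smul_eq_mul]
    rcases lt_or_gt_of_ne (hgen a) with ha | ha
    · rcases lt_or_gt_of_ne (hgen b) with hb | hb
      · exfalso
        have e1 : t = 1 - s := by linarith
        rw [e1] at h1 ht
        nlinarith [mul_nonneg hs (sub_nonneg.2 ha.le), mul_nonneg ht (sub_nonneg.2 hb.le),
          mul_pos (sub_pos.2 ha) (sub_pos.2 hb)]
      · exact ⟨b, a, by rw [hab]; exact Sym2.eq_swap, hb, ha⟩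
    · rcases lt_or_gt_of_ne (hgen b) with hb | hb
      · exact ⟨a, b, hab, ha, hb⟩
      · exfalso
        have e1 : t = 1 - s := by linarith
        rw [e1] at h1 ht
        nlinarith [mul_nonneg hs (sub_nonneg.2 ha.le), mul_nonneg ht (sub_nonneg.2 hb.le),
          mul_pos (sub_pos.2 ha) (sub_pos.2 hb)]
  have hex : ∀ i, ∃ a b, G.ends (r i) = s(a, b) ∧ c < lam (D.pt a) ∧ lam (D.pt b) < c :=
    fun i => hab (r i) (p i) (hpr i) (hpc i)
  choose a b hends' ha hb using hex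
  have hrne : r false ≠ r true := by
    intro h
    have h1 := hpr false
    have h2 := hpr true
    rw [← h] at h2
    rw [Drw.sg, seg_eq (hends' false)] at h1 h2
    exact hne (seg_inj lam (by have := ha false; have := hb false; linarith) h1 h2
      ((hpc false).trans (hpc true).symm))
  refine ⟨{ x := x, r := r, ne := hrne, a := a, b := b, sg := fun n => decide (c < lam (D.pt n)),
            hends := hends', ha := fun i => by simpa using ha i,
            hb := fun i => by simpa using (hb i).le, mem := hrb, cross := ?_ },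
    p, rfl, fun _ => rfl, hne, hpc, hpr, hseg, huniq⟩
  intro ρ hρ hρr u hu w hw
  by_contra hcon
  -- then `seg ρ` has a point of level `c`
  have key : ∃ y ∈ D.sg ρ, lam y = c := by
    have aux : ∀ u w, u ∈ G.ends ρ → w ∈ G.ends ρ → c < lam (D.pt u) → lam (D.pt w) < c →
        ∃ y ∈ D.sg ρ, lam y = c := by
      intro u w hu hw h1 h2
      obtain ⟨t, ht0, ht1, hlev⟩ := seg_level lam (A := D.pt u) (B := D.pt w) h1.le h2
      refine ⟨_, (convex_convexHull ℝ _) (pt_mem_seg hu) (pt_mem_seg hw) ht0.le (by linarith)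
        (by ring), hlev⟩
    rcases lt_or_gt_of_ne (hgen u) with h1 | h1 <;> rcases lt_or_gt_of_ne (hgen w) with h2 | h2
    · exact absurd (by simp [not_lt.2 h1.le, not_lt.2 h2.le]) hcon
    · exact aux w u hw hu h2 h1
    · exact aux u w hu hw h1 h2
    · exact absurd (by simp [h1, h2]) hcon
  obtain ⟨y, hy, hyc⟩ := key
  obtain ⟨i, rfl⟩ := huniq y hyc (D.sg_sub hx hρ hy)
  obtain ⟨n, hn⟩ := D.seg_seg ρ (r i) (hρr i) _ hy (hpr i)
  exact hgen n (by rw [← hn]; exact hyc)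

/-- the new points -/
def npt (p : Bool → F) : N ⊕ Bool → F
  | .inl a => D.pt a
  | .inr i => p i

open Classical in
/-- the new polygons -/
noncomputable def nH (x : X) (lam : F →L[ℝ] ℝ) (c : ℝ) : Option X → Finset ((F →L[ℝ] ℝ) × ℝ)
  | some y => if y = x then insert (-lam, -c) (D.H x) else D.H y
  | none => insert (lam, c) (D.H x)

section step

variable {C : Cut G} {lam : F →L[ℝ] ℝ} {c : ℝ} {p : Bool → F}
  (hsg : ∀ n, C.sg n = decide (c < lam (D.pt n))) (hgen : ∀ a, lam (D.pt a) ≠ c)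
  (hpc : ∀ i, lam (p i) = c) (hpr : ∀ i, p i ∈ D.sg (C.r i))

theorem nH_x (x : X) : D.nH x lam c (some x) = (by classical exact insert (-lam, -c) (D.H x)) := by
  simp only [nH, if_true]

theorem nH_y {x y : X} (h : y ≠ x) : D.nH x lam c (some y) = D.H y := by
  simp only [nH, if_neg h]

theorem mem_Px {x : X} {y : F} : y ∈ P (D.nH x lam c (some x)) ↔ c ≤ lam y ∧ y ∈ P (D.H x) := by
  classical
  rw [nH_x]
  have := mem_P_insert (H := D.H x) (h := (-lam, -c)) (y := y)
  rw [this]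
  simp

theorem mem_Ix {x : X} {y : F} : y ∈ I (D.nH x lam c (some x)) ↔ c < lam y ∧ y ∈ I (D.H x) := by
  classical
  rw [nH_x]
  have := mem_I_insert (H := D.H x) (h := (-lam, -c)) (y := y)
  rw [this]
  simp

theorem mem_Pn {x : X} {y : F} : y ∈ P (D.nH x lam c none) ↔ lam y ≤ c ∧ y ∈ P (D.H x) :=
  mem_P_insert

theorem mem_In {x : X} {y : F} : y ∈ I (D.nH x lam c none) ↔ lam y < c ∧ y ∈ I (D.H x) :=
  mem_I_insert

include hsg in
theorem lam_a (i : Bool) : c < lam (D.pt (C.a i)) := by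
  have := C.ha i
  rw [hsg] at this
  simpa using this

include hsg hgen in
theorem lam_b (i : Bool) : lam (D.pt (C.b i)) < c := by
  have := C.hb i
  rw [hsg] at this
  have h : ¬ c < lam (D.pt (C.b i)) := by simpa using this
  exact lt_of_le_of_ne (not_lt.1 h) (hgen _)

/-- the new segments -/
abbrev ns (C : Cut G) (p : Bool → F) (q : R ⊕ Option Bool) : Set F := seg C.ends' (D.npt p) q

include hsg hgen hpc hpr in
theorem ns_a (i : Bool) (y : F) : y ∈ D.ns C p (.inl (C.r i)) ↔ y ∈ D.sg (C.r i) ∧ c ≤ lam y := by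
  have h1 : D.ns C p (.inl (C.r i)) = segment ℝ (D.pt (C.a i)) (p i) := seg_eq (C.ends'_r i)
  rw [h1, Drw.sg, seg_eq (C.hends i)]
  have h2 := hpr i
  rw [Drw.sg, seg_eq (C.hends i)] at h2
  exact seg_upper lam (D.lam_a hsg i) (D.lam_b hsg hgen i) h2 (hpc i)

include hsg hgen hpc hpr in
theorem ns_b (i : Bool) (y : F) :
    y ∈ D.ns C p (.inr (some i)) ↔ y ∈ D.sg (C.r i) ∧ lam y ≤ c := by
  have h1 : D.ns C p (.inr (some i)) = segment ℝ (p i) (D.pt (C.b i)) :=
    seg_eq (ends := C.ends') (pt := D.npt p) (r := .inr (some i)) (a := .inr i) (b := .inl (C.b i)) rfl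
  rw [h1, Drw.sg, seg_eq (C.hends i)]
  have h2 := hpr i
  rw [Drw.sg, seg_eq (C.hends i)] at h2
  exact seg_lower lam (D.lam_a hsg i) (D.lam_b hsg hgen i) h2 (hpc i)

theorem ns_none : D.ns C p (.inr none) = segment ℝ (p false) (p true) :=
  seg_eq (ends := C.ends') (pt := D.npt p) (r := .inr none) (a := .inr false) (b := .inr true) rfl

theorem ns_old {ρ : R} (h : ∀ i, ρ ≠ C.r i) : D.ns C p (.inl ρ) = D.sg ρ := by
  obtain ⟨a, b, hab⟩ : ∃ a b, G.ends ρ = s(a, b) := by
    induction h : G.ends ρ using Sym2.ind with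
    | _ a b => exact ⟨a, b, rfl⟩
  rw [Drw.sg, seg_eq hab]
  refine seg_eq (ends := C.ends') (pt := D.npt p) (a := Sum.inl a) (b := Sum.inl b) ?_
  rw [C.ends'_old h, hab, Sym2.map_mk]

include hsg hgen hpc hpr in
theorem ns_sub (ρ : R) : D.ns C p (.inl ρ) ⊆ D.sg ρ := by
  by_cases h : ∃ i, ρ = C.r i
  · obtain ⟨i, rfl⟩ := h
    intro y hy
    exact ((D.ns_a hsg hgen hpc hpr i y).1 hy).1
  · rw [D.ns_old fun i hi => h ⟨i, hi⟩]

include hpc in
theorem lam_none {y : F} (hy : y ∈ segment ℝ (p false) (p true)) : lam y = c := by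
  obtain ⟨s, t, hs, ht, hst, rfl⟩ := hy
  rw [map_add, map_smul, map_smul, smul_eq_mul, smul_eq_mul, hpc, hpc, ← add_mul, hst, one_mul]

include hsg hgen hpc hpr in
theorem npt_seg (v : N ⊕ Bool) (q : R ⊕ Option Bool) (h : D.npt p v ∈ D.ns C p q) :
    v ∈ C.ends' q := by
  rcases v with n | i
  · have h : D.pt n ∈ D.ns C p q := h
    rcases q with ρ | (_ | j)
    · rw [C.inl_mem_inl]
      refine ⟨D.pt_seg n ρ (D.ns_sub hsg hgen hpc hpr ρ h), ?_⟩
      rintro i rfl rfl
      have := ((D.ns_a hsg hgen hpc hpr i _).1 h).2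
      have h2 := D.lam_b hsg hgen i
      linarith
    · rw [D.ns_none] at h
      exact absurd (lam_none hpc h) (hgen n)
    · have h1 := (D.ns_b hsg hgen hpc hpr j _).1 h
      rw [C.inl_mem_some]
      have h2 := D.pt_seg n _ h1.1
      rw [C.hends j, Sym2.mem_iff] at h2
      rcases h2 with rfl | rfl
      · have := D.lam_a hsg j
        linarith [h1.2]
      · rfl
  · have h : p i ∈ D.ns C p q := h
    have hnode : ∀ ρ, ρ ≠ C.r i → p i ∉ D.sg ρ := by
      intro ρ hρ hp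
      obtain ⟨n, hn⟩ := D.seg_seg ρ (C.r i) hρ _ hp (hpr i)
      exact hgen n (by rw [← hn]; exact hpc i)
    rcases q with ρ | (_ | j)
    · rw [C.inr_mem_inl]
      by_contra hρ
      exact hnode ρ hρ (D.ns_sub hsg hgen hpc hpr ρ h)
    · exact C.inr_mem_none
    · have h1 := (D.ns_b hsg hgen hpc hpr j _).1 h
      rw [C.inr_mem_some]
      by_contra hij
      exact hnode (C.r j) (fun h => hij (C.rinj h).symm) h1.1

include hsg hgen hpc hpr in
theorem ns_ns (hx : C.x ≠ x0)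
    (hseg : ∀ y, lam y = c → (y ∈ P (D.H C.x) ↔ y ∈ segment ℝ (p false) (p true)))
    (huniq : ∀ y, lam y = c → y ∈ P (D.H C.x) \ I (D.H C.x) → ∃ i, y = p i)
    (q q' : R ⊕ Option Bool) (hqq : q ≠ q') (y : F) (hy : y ∈ D.ns C p q)
    (hy' : y ∈ D.ns C p q') : ∃ v, y = D.npt p v := by
  -- a point of a segment of level `c` on the new edge
  have aux : ∀ ρ, y ∈ D.sg ρ → y ∈ D.ns C p (.inr none) → ∃ v, y = D.npt p v := by
    intro ρ h1 h2
    rw [D.ns_none] at h2
    have h3 := lam_none hpc h2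
    obtain ⟨i, hi⟩ := huniq y h3 (D.mem_fr hx ((hseg y h3).2 h2) h1)
    exact ⟨.inr i, hi⟩
  have aux2 : ∀ ρ i, y ∈ D.ns C p (.inl ρ) → y ∈ D.ns C p (.inr (some i)) →
      ∃ v, y = D.npt p v := by
    intro ρ i h1 h2
    by_cases h : ρ = C.r i
    · rw [h] at h1
      have h3 := (D.ns_a hsg hgen hpc hpr i y).1 h1
      have h4 := (D.ns_b hsg hgen hpc hpr i y).1 h2
      refine ⟨.inr i, ?_⟩
      have h5 := hpr i
      have h6 := h3.1
      rw [Drw.sg, seg_eq (C.hends i)] at h5 h6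
      refine seg_inj lam ?_ h6 h5 ?_
      · have := D.lam_a hsg i
        have := D.lam_b hsg hgen i
        linarith
      · show lam y = lam (p i)
        rw [hpc i]; linarith [h3.2, h4.2]
    · obtain ⟨n, hn⟩ := D.seg_seg ρ (C.r i) h y (D.ns_sub hsg hgen hpc hpr ρ h1)
        ((D.ns_b hsg hgen hpc hpr i y).1 h2).1
      exact ⟨.inl n, hn⟩
  rcases q with ρ | (_ | i) <;> rcases q' with ρ' | (_ | j)
  · obtain ⟨n, hn⟩ := D.seg_seg ρ ρ' (fun h => hqq (by rw [h])) y
      (D.ns_sub hsg hgen hpc hpr ρ hy) (D.ns_sub hsg hgen hpc hpr ρ' hy')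
    exact ⟨.inl n, hn⟩
  · exact aux ρ (D.ns_sub hsg hgen hpc hpr ρ hy) hy'
  · exact aux2 ρ j hy hy'
  · exact aux ρ' (D.ns_sub hsg hgen hpc hpr ρ' hy') hy
  · exact absurd rfl hqq
  · exact aux (C.r j) ((D.ns_b hsg hgen hpc hpr j y).1 hy').1 hy
  · exact aux2 ρ' i hy' hy
  · exact aux (C.r i) ((D.ns_b hsg hgen hpc hpr i y).1 hy).1 hy'
  · obtain ⟨n, hn⟩ := D.seg_seg (C.r i) (C.r j) (fun h => hqq (by rw [C.rinj h])) y
      ((D.ns_b hsg hgen hpc hpr i y).1 hy).1 ((D.ns_b hsg hgen hpc hpr j y).1 hy').1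
    exact ⟨.inl n, hn⟩

include hsg hgen hpc hpr in
/-- the union of the segments of an old face -/
theorem union_y {y : X} (hy : y ≠ C.x) :
    (⋃ q ∈ C.bd' (some y), D.ns C p q) = ⋃ r ∈ G.bd y, D.sg r := by
  ext w
  constructor
  · intro hw
    obtain ⟨q, hq, hwq⟩ := mem_iUnion₂.1 hw
    rcases q with ρ | (_ | i)
    · exact mem_biUnion (x := ρ) ((C.inl_bd_some hy).1 hq) (D.ns_sub hsg hgen hpc hpr ρ hwq)
    · exact absurd hq (C.none_bd_some hy)
    · exact mem_biUnion (x := C.r i) ((C.some_bd_some hy).1 hq)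
        ((D.ns_b hsg hgen hpc hpr i w).1 hwq).1
  · intro hw
    obtain ⟨ρ, hρ, hwρ⟩ := mem_iUnion₂.1 hw
    by_cases h : ∃ i, ρ = C.r i
    · obtain ⟨i, rfl⟩ := h
      rcases le_total c (lam w) with h1 | h1
      · exact mem_biUnion (x := Sum.inl (C.r i)) ((C.inl_bd_some hy).2 hρ)
          ((D.ns_a hsg hgen hpc hpr i w).2 ⟨hwρ, h1⟩)
      · exact mem_biUnion (x := Sum.inr (some i)) ((C.some_bd_some hy).2 hρ)
          ((D.ns_b hsg hgen hpc hpr i w).2 ⟨hwρ, h1⟩)
    · refine mem_biUnion (x := Sum.inl ρ) ((C.inl_bd_some hy).2 hρ) ?_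
      rw [D.ns_old fun i hi => h ⟨i, hi⟩]
      exact hwρ

/-- a segment with an end in the upper part and no crossing is in the upper part -/
theorem sg_le {ρ : R} (hup : ∀ n ∈ G.ends ρ, c ≤ lam (D.pt n)) {w : F} (hw : w ∈ D.sg ρ) :
    c ≤ lam w := by
  have : D.sg ρ ⊆ {w | c ≤ lam w} := by
    refine convexHull_min ?_ ?_
    · rintro _ ⟨n, hn, rfl⟩
      exact hup n hn
    · exact convex_halfSpace_ge lam.isLinear c
  exact this hw

theorem sg_ge {ρ : R} (hup : ∀ n ∈ G.ends ρ, lam (D.pt n) ≤ c) {w : F} (hw : w ∈ D.sg ρ) :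
    lam w ≤ c := by
  have : D.sg ρ ⊆ {w | lam w ≤ c} := by
    refine convexHull_min ?_ ?_
    · rintro _ ⟨n, hn, rfl⟩
      exact hup n hn
    · exact convex_halfSpace_le lam.isLinear c
  exact this hw

include hsg hgen in
/-- an edge of the cut face without crossing which has a point (strictly) above is above -/
theorem side_up {ρ : R} {w : F} (hw : w ∈ D.sg ρ)
    (hcw : c ≤ lam w) : ∃ n ∈ G.ends ρ, C.sg n = true := by
  by_contra hcon
  push Not at hcon
  obtain ⟨a, b, hab⟩ : ∃ a b, G.ends ρ = s(a, b) := by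
    induction h : G.ends ρ using Sym2.ind with
    | _ a b => exact ⟨a, b, rfl⟩
  have hlt : ∀ n ∈ G.ends ρ, lam (D.pt n) < c := by
    intro n hn
    have := hcon n hn
    rw [hsg] at this
    have h : ¬ c < lam (D.pt n) := by simpa using this
    exact lt_of_le_of_ne (not_lt.1 h) (hgen _)
  have ha := hlt a (by rw [hab]; exact Sym2.mem_mk_left _ _)
  have hb := hlt b (by rw [hab]; exact Sym2.mem_mk_right _ _)
  rw [Drw.sg, seg_eq hab] at hw
  obtain ⟨s, t, hs, ht, hst, rfl⟩ := hw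
  rw [map_add, map_smul, map_smul, smul_eq_mul, smul_eq_mul] at hcw
  have e1 : t = 1 - s := by linarith
  rw [e1] at hcw ht
  nlinarith [mul_nonneg hs (sub_nonneg.2 ha.le), mul_nonneg ht (sub_nonneg.2 hb.le)]

include hsg in
theorem side_down {ρ : R} (hρ : ρ ∈ G.bd C.x) (hr : ∀ i, ρ ≠ C.r i) {w : F} (hw : w ∈ D.sg ρ)
    (hcw : lam w ≤ c) : ∀ n ∈ G.ends ρ, C.sg n = false := by
  intro n hn
  rcases h : C.sg n with _ | _
  · rfl
  exfalso
  have hgt : ∀ n ∈ G.ends ρ, c < lam (D.pt n) := by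
    intro m hm
    have h1 := C.cross ρ hρ hr n hn m hm
    rw [h, hsg] at h1
    simpa using h1.symm
  obtain ⟨a, b, hab⟩ : ∃ a b, G.ends ρ = s(a, b) := by
    induction h : G.ends ρ using Sym2.ind with
    | _ a b => exact ⟨a, b, rfl⟩
  have ha := hgt a (by rw [hab]; exact Sym2.mem_mk_left _ _)
  have hb := hgt b (by rw [hab]; exact Sym2.mem_mk_right _ _)
  rw [Drw.sg, seg_eq hab] at hw
  obtain ⟨s, t, hs, ht, hst, rfl⟩ := hw
  rw [map_add, map_smul, map_smul, smul_eq_mul, smul_eq_mul] at hcw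
  have e1 : t = 1 - s := by linarith
  rw [e1] at hcw ht
  nlinarith [mul_nonneg hs (sub_nonneg.2 ha.le), mul_nonneg ht (sub_nonneg.2 hb.le)]

include hsg hgen hpc hpr in
theorem fr_x (hx : C.x ≠ x0)
    (hseg : ∀ y, lam y = c → (y ∈ P (D.H C.x) ↔ y ∈ segment ℝ (p false) (p true))) :
    P (D.nH C.x lam c (some C.x)) \ I (D.nH C.x lam c (some C.x)) =
      ⋃ q ∈ C.bd' (some C.x), D.ns C p q := by
  ext w
  constructor
  · rintro ⟨h1, h2⟩
    rw [mem_Px] at h1
    rw [mem_Ix] at h2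
    by_cases hI : w ∈ I (D.H C.x)
    · have hcw : lam w = c := le_antisymm (not_lt.1 fun h => h2 ⟨h, hI⟩) h1.1
      refine mem_biUnion (x := Sum.inr none) C.none_bd_x ?_
      rw [D.ns_none]
      exact (hseg w hcw).1 h1.2
    · have h3 : w ∈ P (D.H C.x) \ I (D.H C.x) := ⟨h1.2, hI⟩
      rw [D.fr _ hx] at h3
      obtain ⟨ρ, hρ, hwρ⟩ := mem_iUnion₂.1 h3
      by_cases h : ∃ i, ρ = C.r i
      · obtain ⟨i, rfl⟩ := h
        exact mem_biUnion (x := Sum.inl (C.r i)) (C.inl_bd_x.2 ⟨hρ, _, C.aM i, C.ha i⟩)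
          ((D.ns_a hsg hgen hpc hpr i w).2 ⟨hwρ, h1.1⟩)
      · have hr : ∀ i, ρ ≠ C.r i := fun i hi => h ⟨i, hi⟩
        refine mem_biUnion (x := Sum.inl ρ) (C.inl_bd_x.2 ⟨hρ, D.side_up hsg hgen hwρ h1.1⟩) ?_
        rw [D.ns_old hr]
        exact hwρ
  · intro hw
    obtain ⟨q, hq, hwq⟩ := mem_iUnion₂.1 hw
    rcases q with ρ | (_ | i)
    · have hq' := C.inl_bd_x.1 hq
      have h3 := D.sg_sub hx hq'.1 (D.ns_sub hsg hgen hpc hpr ρ hwq)
      have h4 : c ≤ lam w := by
        by_cases h : ∃ i, ρ = C.r i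
        · obtain ⟨i, rfl⟩ := h
          exact ((D.ns_a hsg hgen hpc hpr i w).1 hwq).2
        · have hr : ∀ i, ρ ≠ C.r i := fun i hi => h ⟨i, hi⟩
          refine D.sg_le (ρ := ρ) (fun n hn => ?_) (D.ns_sub hsg hgen hpc hpr ρ hwq)
          obtain ⟨m, hm, hms⟩ := hq'.2
          have h5 := C.cross ρ hq'.1 hr m hm n hn
          rw [hms, hsg] at h5
          have : c < lam (D.pt n) := by simpa using h5.symm
          exact this.le
      exact ⟨D.mem_Px.2 ⟨h4, h3.1⟩, fun h => h3.2 (D.mem_Ix.1 h).2⟩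
    · rw [D.ns_none] at hwq
      have h3 := lam_none hpc hwq
      refine ⟨D.mem_Px.2 ⟨h3.ge, (hseg w h3).2 hwq⟩, fun h => ?_⟩
      exact absurd (D.mem_Ix.1 h).1 (by rw [h3]; exact lt_irrefl _)
    · exact absurd hq C.some_bd_x

include hsg hgen hpc hpr in
theorem fr_none (hx : C.x ≠ x0)
    (hseg : ∀ y, lam y = c → (y ∈ P (D.H C.x) ↔ y ∈ segment ℝ (p false) (p true))) :
    P (D.nH C.x lam c none) \ I (D.nH C.x lam c none) = ⋃ q ∈ C.bd' none, D.ns C p q := by
  ext w
  constructor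
  · rintro ⟨h1, h2⟩
    rw [mem_Pn] at h1
    rw [mem_In] at h2
    by_cases hI : w ∈ I (D.H C.x)
    · have hcw : lam w = c := le_antisymm h1.1 (not_lt.1 fun h => h2 ⟨h, hI⟩)
      refine mem_biUnion (x := Sum.inr none) C.some_bd_none ?_
      rw [D.ns_none]
      exact (hseg w hcw).1 h1.2
    · have h3 : w ∈ P (D.H C.x) \ I (D.H C.x) := ⟨h1.2, hI⟩
      rw [D.fr _ hx] at h3
      obtain ⟨ρ, hρ, hwρ⟩ := mem_iUnion₂.1 h3
      by_cases h : ∃ i, ρ = C.r i
      · obtain ⟨i, rfl⟩ := h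
        exact mem_biUnion (x := Sum.inr (some i)) C.some_bd_none
          ((D.ns_b hsg hgen hpc hpr i w).2 ⟨hwρ, h1.1⟩)
      · have hr : ∀ i, ρ ≠ C.r i := fun i hi => h ⟨i, hi⟩
        refine mem_biUnion (x := Sum.inl ρ) (C.inl_bd_none.2 ⟨hρ, D.side_down hsg hρ hr hwρ h1.1⟩) ?_
        rw [D.ns_old hr]
        exact hwρ
  · intro hw
    obtain ⟨q, hq, hwq⟩ := mem_iUnion₂.1 hw
    rcases q with ρ | (_ | i)
    · have hq' := C.inl_bd_none.1 hq
      have h3 := D.sg_sub hx hq'.1 (D.ns_sub hsg hgen hpc hpr ρ hwq)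
      have h4 : lam w ≤ c := by
        refine D.sg_ge (ρ := ρ) (fun n hn => ?_) (D.ns_sub hsg hgen hpc hpr ρ hwq)
        have h5 := hq'.2 n hn
        rw [hsg] at h5
        exact not_lt.1 (by simpa using h5)
      exact ⟨D.mem_Pn.2 ⟨h4, h3.1⟩, fun h => h3.2 (D.mem_In.1 h).2⟩
    · rw [D.ns_none] at hwq
      have h3 := lam_none hpc hwq
      refine ⟨D.mem_Pn.2 ⟨h3.le, (hseg w h3).2 hwq⟩, fun h => ?_⟩
      exact absurd (D.mem_In.1 h).1 (by rw [h3]; exact lt_irrefl _)
    · have h1 := (D.ns_b hsg hgen hpc hpr i w).1 hwq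
      have h3 := D.sg_sub hx (C.mem i) h1.1
      exact ⟨D.mem_Pn.2 ⟨h1.2, h3.1⟩, fun h => h3.2 (D.mem_In.1 h).2⟩

end step

/-- **one cut** -/
theorem step (hS : G.Share) {x : X} (hx : x ≠ x0) {lam : F →L[ℝ] ℝ} {c : ℝ} {v : F} (hv : v ≠ 0)
    (hv0 : lam v = 0) (hker : ∀ y, lam y = 0 → ∃ t : ℝ, y = t • v)
    (hgen : ∀ a, lam (D.pt a) ≠ c) (hup : ∃ y ∈ P (D.H x), c < lam y)
    (hdn : ∃ y ∈ P (D.H x), lam y < c) :
    ∃ (C : Cut G) (D' : Drw (C.split hS) (some x0) T0 T1), C.x = x ∧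
      (∀ y, y ≠ x → D'.H (some y) = D.H y) ∧
      (∀ w, w ∈ P (D'.H (some x)) ↔ c ≤ lam w ∧ w ∈ P (D.H x)) ∧
      (∀ w, w ∈ P (D'.H none) ↔ lam w ≤ c ∧ w ∈ P (D.H x)) := by
  obtain ⟨yu, hyu, hyu'⟩ := hup
  obtain ⟨yd, hyd, hyd'⟩ := hdn
  obtain ⟨z, hz, hzc⟩ : ∃ z ∈ I (D.H x), lam z = c := by
    obtain ⟨z', hz'⟩ := D.int x hx
    rcases le_or_gt c (lam z') with h | h
    · obtain ⟨t, ht0, ht1, hlev⟩ := seg_level lam h hyd'
      exact ⟨_, I_comb hz' hyd ht0 ht1, hlev⟩
    · obtain ⟨t, ht0, ht1, hlev⟩ := seg_level (-lam) (c := -c) (A := z') (B := yu)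
        (by rw [_root_.neg_apply]; linarith) (by rw [_root_.neg_apply]; linarith)
      refine ⟨_, I_comb hz' hyu ht0 ht1, ?_⟩
      rw [_root_.neg_apply] at hlev
      linarith
  obtain ⟨C, p, rfl, hsg, hpne, hpc, hpr, hseg, huniq⟩ :=
    D.exists_cut hx hv hv0 hker hz hzc hgen
  have hnode : ∀ i n, p i ≠ D.pt n := fun i n h => hgen n (by rw [← h]; exact hpc i)
  refine ⟨C, ⟨D.npt p, D.nH C.x lam c, ?_, ?_, ?_, ?_, ?_, ?_, ?_, ?_, ?_⟩, rfl,
    fun y hy => D.nH_y hy, fun w => D.mem_Px, fun w => D.mem_Pn⟩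
  · rintro (a | i) (b | j) h
    · rw [D.inj (show D.pt a = D.pt b from h)]
    · exact absurd (show D.pt a = p j from h).symm (hnode j a)
    · exact absurd (show p i = D.pt b from h) (hnode i b)
    · have h : p i = p j := h
      rcases i with _ | _ <;> rcases j with _ | _
      · rfl
      · exact absurd h hpne
      · exact absurd h.symm hpne
      · rfl
  · exact fun v q h => D.npt_seg hsg hgen hpc hpr v q h
  · exact fun q q' hqq y hy hy' => D.ns_ns hsg hgen hpc hpr hx hseg huniq q q' hqq y hy hy'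
  · rintro (_ | y) hy
    · refine (D.cpt _ hx).of_isClosed_subset (isClosed_P _) fun w hw => (D.mem_Pn.1 hw).2
    · by_cases hyx : y = C.x
      · rw [hyx]
        refine (D.cpt _ hx).of_isClosed_subset (isClosed_P _) fun w hw => (D.mem_Px.1 hw).2
      · rw [D.nH_y hyx]
        exact D.cpt y fun h => hy (by rw [h])
  · have hmid : ∀ y ∈ P (D.H C.x), ((1 / 2 : ℝ) • z + (1 - 1 / 2 : ℝ) • y) ∈ I (D.H C.x) ∧
        lam ((1 / 2 : ℝ) • z + (1 - 1 / 2 : ℝ) • y) = (c + lam y) / 2 := by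
      intro y hy
      refine ⟨I_comb hz hy (by norm_num) (by norm_num), ?_⟩
      rw [map_add, map_smul, map_smul, smul_eq_mul, smul_eq_mul, hzc]
      ring
    rintro (_ | y) hy
    · exact ⟨_, D.mem_In.2 ⟨by rw [(hmid yd hyd).2]; linarith, (hmid yd hyd).1⟩⟩
    · by_cases hyx : y = C.x
      · rw [hyx]
        exact ⟨_, D.mem_Ix.2 ⟨by rw [(hmid yu hyu).2]; linarith, (hmid yu hyu).1⟩⟩
      · rw [D.nH_y hyx]
        exact D.int y fun h => hy (by rw [h])
  · rintro (_ | y) hy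
    · exact D.fr_none hsg hgen hpc hpr hx hseg
    · by_cases hyx : y = C.x
      · rw [hyx]
        exact D.fr_x hsg hgen hpc hpr hx hseg
      · rw [D.nH_y hyx, D.fr y fun h => hy (by rw [h])]
        exact (D.union_y hsg hgen hpc hpr hyx).symm
  · exact D.fr0.trans (D.union_y hsg hgen hpc hpr (Ne.symm hx)).symm
  · have hd : ∀ y, y ≠ x0 → y ≠ C.x → Disjoint (I (D.H y)) (P (D.H C.x)) ∧
        Disjoint (I (D.H C.x)) (P (D.H y)) := fun y h1 h2 =>
      ⟨D.disj y h1 _ hx h2, D.disj _ hx y h1 (Ne.symm h2)⟩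
    rintro (_ | y) hy (_ | y') hy' hne
    · exact absurd rfl hne
    · by_cases hyx : y' = C.x
      · rw [hyx, Set.disjoint_left]
        intro w h1 h2
        exact absurd (D.mem_In.1 h1).1 (not_lt.2 (D.mem_Px.1 h2).1)
      · rw [D.nH_y hyx, Set.disjoint_left]
        intro w h1 h2
        exact Set.disjoint_left.1 (hd y' (fun h => hy' (by rw [h])) hyx).2 (D.mem_In.1 h1).2 h2
    · by_cases hyx : y = C.x
      · rw [hyx, Set.disjoint_left]
        intro w h1 h2
        exact absurd (D.mem_Ix.1 h1).1 (not_lt.2 (D.mem_Pn.1 h2).1)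
      · rw [D.nH_y hyx, Set.disjoint_left]
        intro w h1 h2
        exact Set.disjoint_left.1 (hd y (fun h => hy (by rw [h])) hyx).1 h1 (D.mem_Pn.1 h2).2
    · by_cases hyx : y = C.x
      · have hyx' : y' ≠ C.x := fun h => hne (by rw [hyx, h])
        rw [hyx, D.nH_y hyx', Set.disjoint_left]
        intro w h1 h2
        exact Set.disjoint_left.1 (hd y' (fun h => hy' (by rw [h])) hyx').2 (D.mem_Ix.1 h1).2 h2
      · by_cases hyx' : y' = C.x
        · rw [hyx', D.nH_y hyx, Set.disjoint_left]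
          intro w h1 h2
          exact Set.disjoint_left.1 (hd y (fun h => hy (by rw [h])) hyx).1 h1 (D.mem_Px.1 h2).2
        · rw [D.nH_y hyx, D.nH_y hyx']
          exact D.disj y (fun h => hy (by rw [h])) y' (fun h => hy' (by rw [h]))
            fun h => hne (by rw [h])
  · refine D.cov.trans ?_
    ext w
    constructor
    · intro hw
      obtain ⟨y, hy, hwy⟩ := mem_iUnion₂.1 hw
      have hy : y ≠ x0 := hy
      by_cases hyx : y = C.x
      · rw [hyx] at hwy
        rcases le_total c (lam w) with h | h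
        · exact mem_biUnion (x := some C.x) (show some C.x ≠ some x0 from
            fun h => hx (Option.some_injective _ h)) (D.mem_Px.2 ⟨h, hwy⟩)
        · exact mem_biUnion (x := none) (show none ≠ some x0 by simp) (D.mem_Pn.2 ⟨h, hwy⟩)
      · refine mem_biUnion (x := some y) (show some y ≠ some x0 from
            fun h => hy (Option.some_injective _ h)) ?_
        rw [D.nH_y hyx]; exact hwy
    · intro hw
      obtain ⟨z, hz, hwz⟩ := mem_iUnion₂.1 hw
      have hz : z ≠ some x0 := hz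
      rcases z with _ | y
      · exact mem_biUnion (x := C.x) hx (D.mem_Pn.1 hwz).2
      · by_cases hyx : y = C.x
        · rw [hyx] at hwz
          exact mem_biUnion (x := C.x) hx (D.mem_Px.1 hwz).2
        · rw [D.nH_y hyx] at hwz
          exact mem_biUnion (x := y) (show y ≠ x0 from fun h => hz (by rw [h])) hwz

end Drw

end Crest.Agent.R096.Sph_560
private theorem rz_2ae8a05e47 : type_of% @_root_.Crest.Agent.R096.Sph_560.Drw.nH.eq_1 := @_root_.Crest.Agent.R096.Sph_560.Drw.nH.eq_1 -- L145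
end

-- ▼ part R096/Spg4_560

/-!
# R096 (row 96), DOORS (D6) / SPH, (G2) part 4 (helper560): fine drawings by halving
-/

set_option autoImplicit false

open Set Metric

namespace Crest.Agent.R096.Sph_560

open Msh_715

variable {F : Type*} [NormedAddCommGroup F] [NormedSpace ℝ F]

/-- a finite cubic graph with a straight drawing -/
structure Msh (T0 T1 : Set F) where
  N : Type
  R : Type
  X : Type
  fN : Finite N
  fR : Finite R
  fX : Finite X
  G : Cub N R X
  share : G.Share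
  x0 : X
  D : Drw G x0 T0 T1

/-- width of a set in the direction `lam` at most `w` -/
def Wd (lam : F →L[ℝ] ℝ) (w : ℝ) (A : Set F) : Prop := ∀ y ∈ A, ∀ z ∈ A, lam y - lam z ≤ w

theorem Wd.mono {lam : F →L[ℝ] ℝ} {w w' : ℝ} {A B : Set F} (h : Wd lam w A) (hB : B ⊆ A)
    (hw : w ≤ w') : Wd lam w' B := fun y hy z hz => (h y (hB hy) z (hB hz)).trans hw

namespace Msh

variable {T0 T1 : Set F}

/-- the level of a good cut -/
theorem exists_level (M : Msh T0 T1) {lam : F →L[ℝ] ℝ} {w : ℝ} (hw : 0 < w) {x : M.X}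
    (hx : x ≠ M.x0) (h1 : Wd lam w (P (M.D.H x))) (h2 : ¬ Wd lam (3 / 4 * w) (P (M.D.H x))) :
    ∃ c, (∀ a, lam (M.D.pt a) ≠ c) ∧ (∃ y ∈ P (M.D.H x), c < lam y) ∧
      (∃ y ∈ P (M.D.H x), lam y < c) ∧ (∀ y ∈ P (M.D.H x), lam y ≤ c + 3 / 4 * w) ∧
      ∀ y ∈ P (M.D.H x), c - 3 / 4 * w ≤ lam y := by
  have := M.fN
  have hc := M.D.cpt x hx
  have hne : (P (M.D.H x)).Nonempty := (M.D.int x hx).mono (I_sub_P _)
  obtain ⟨yM, hyM, hmax⟩ := hc.exists_isMaxOn hne lam.continuous.continuousOn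
  obtain ⟨ym, hym, hmin⟩ := hc.exists_isMinOn hne lam.continuous.continuousOn
  have hmax : ∀ y ∈ P (M.D.H x), lam y ≤ lam yM := hmax
  have hmin : ∀ y ∈ P (M.D.H x), lam ym ≤ lam y := hmin
  have hgap : 3 / 4 * w < lam yM - lam ym := by
    unfold Wd at h2
    push Not at h2
    obtain ⟨y, hy, z, hz, h⟩ := h2
    have := hmax y hy
    have := hmin z hz
    linarith
  have hle := h1 yM hyM ym hym
  have hlt : max (lam ym) (lam yM - 3 / 4 * w) < min (lam yM) (lam ym + 3 / 4 * w) := by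
    rw [max_lt_iff, lt_min_iff, lt_min_iff]
    exact ⟨⟨by linarith, by linarith⟩, by linarith, by linarith⟩
  obtain ⟨c, hc, hcn⟩ := (Set.Ioo_infinite hlt).exists_notMem_finite
    (Set.finite_range fun a => lam (M.D.pt a))
  obtain ⟨hc1, hc2⟩ := hc
  rw [max_lt_iff] at hc1
  rw [lt_min_iff] at hc2
  refine ⟨c, fun a h => hcn ⟨a, h⟩, ⟨yM, hyM, hc2.1⟩, ⟨ym, hym, hc1.1⟩, fun y hy => ?_,
    fun y hy => ?_⟩
  · have := hmax y hy
    linarith
  · have := hmin y hy
    linarith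

theorem halve_aux {lam : F →L[ℝ] ℝ} {v : F} (hv : v ≠ 0) (hv0 : lam v = 0)
    (hker : ∀ y, lam y = 0 → ∃ t : ℝ, y = t • v) {w : ℝ} (hw : 0 < w)
    (Q : Set F → Prop) (hQ : ∀ A B, A ⊆ B → Q B → Q A) :
    ∀ (n : ℕ) (M : Msh T0 T1), (∀ x, x ≠ M.x0 → Wd lam w (P (M.D.H x))) →
      (∀ x, x ≠ M.x0 → Q (P (M.D.H x))) →
      {x | x ≠ M.x0 ∧ ¬ Wd lam (3 / 4 * w) (P (M.D.H x))}.ncard ≤ n →
      ∃ M' : Msh T0 T1, (∀ x, x ≠ M'.x0 → Wd lam (3 / 4 * w) (P (M'.D.H x))) ∧
        (∀ x, x ≠ M'.x0 → Q (P (M'.D.H x))) := by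
  intro n
  induction n with
  | zero =>
    intro M h1 h2 h3
    have := M.fX
    refine ⟨M, fun x hx => ?_, h2⟩
    by_contra hcon
    have : {x | x ≠ M.x0 ∧ ¬ Wd lam (3 / 4 * w) (P (M.D.H x))} = ∅ :=
      (Set.ncard_eq_zero (toFinite _)).1 (Nat.le_zero.1 h3)
    rw [Set.eq_empty_iff_forall_notMem] at this
    exact this x ⟨hx, hcon⟩
  | succ n ih =>
    intro M h1 h2 h3
    have := M.fX
    have := M.fR
    have := M.fN
    by_cases hex : ∃ x, x ≠ M.x0 ∧ ¬ Wd lam (3 / 4 * w) (P (M.D.H x))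
    swap
    · push Not at hex
      exact ⟨M, hex, h2⟩
    obtain ⟨x, hx, hbad⟩ := hex
    obtain ⟨c, hgen, hup, hdn, hu, hd⟩ := M.exists_level hw hx (h1 x hx) hbad
    obtain ⟨C, D', hCx, hy, hP, hN⟩ := M.D.step M.share hx hv hv0 hker hgen hup hdn
    have hgoodP : Wd lam (3 / 4 * w) (P (D'.H (some x))) := by
      intro y hy z hz
      have e1 := (hP y).1 hy
      have e2 := (hP z).1 hz
      have := hu y e1.2
      linarith [e2.1]
    have hgoodN : Wd lam (3 / 4 * w) (P (D'.H none)) := by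
      intro y hy z hz
      have e1 := (hN y).1 hy
      have e2 := (hN z).1 hz
      have := hd z e2.2
      linarith [e1.1]
    have hsub : ∀ z, z ≠ some M.x0 → ∃ y, y ≠ M.x0 ∧ P (D'.H z) ⊆ P (M.D.H y) := by
      rintro (_ | y) hz
      · exact ⟨x, hx, fun w hw => ((hN w).1 hw).2⟩
      · by_cases hyx : y = x
        · rw [hyx]
          exact ⟨x, hx, fun w hw => ((hP w).1 hw).2⟩
        · rw [hy y hyx]
          exact ⟨y, fun h => hz (by rw [h]), Subset.rfl⟩
    refine ih ⟨M.N ⊕ Bool, M.R ⊕ Option Bool, Option M.X, inferInstance, inferInstance,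
      inferInstance, C.split M.share, C.split_share M.share, some M.x0, D'⟩ ?_ ?_ ?_
    · intro z hz
      obtain ⟨y, hy1, hy2⟩ := hsub z hz
      exact (h1 y hy1).mono hy2 le_rfl
    · intro z hz
      obtain ⟨y, hy1, hy2⟩ := hsub z hz
      exact hQ _ _ hy2 (h2 y hy1)
    · have hle : {z | z ≠ some M.x0 ∧ ¬ Wd lam (3 / 4 * w) (P (D'.H z))} ⊆
          some '' ({y | y ≠ M.x0 ∧ ¬ Wd lam (3 / 4 * w) (P (M.D.H y))} \ {x}) := by
        rintro (_ | y) ⟨hz, hb⟩
        · exact absurd hgoodN hb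
        · by_cases hyx : y = x
          · rw [hyx] at hb
            exact absurd hgoodP hb
          · rw [hy y hyx] at hb
            exact ⟨y, ⟨⟨fun h => hz (by rw [h]), hb⟩, hyx⟩, rfl⟩
      have h4 := Set.ncard_le_ncard hle (toFinite _)
      have h5 := Set.ncard_image_of_injective
        ({y | y ≠ M.x0 ∧ ¬ Wd lam (3 / 4 * w) (P (M.D.H y))} \ {x}) (Option.some_injective M.X)
      have h6 := Set.ncard_sdiff_singleton_of_mem
        (show x ∈ {y | y ≠ M.x0 ∧ ¬ Wd lam (3 / 4 * w) (P (M.D.H y))} from ⟨hx, hbad⟩)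
      show {z | z ≠ some M.x0 ∧ ¬ Wd lam (3 / 4 * w) (P (D'.H z))}.ncard ≤ n
      omega

theorem halve {lam : F →L[ℝ] ℝ} {v : F} (hv : v ≠ 0) (hv0 : lam v = 0)
    (hker : ∀ y, lam y = 0 → ∃ t : ℝ, y = t • v) {w : ℝ} (hw : 0 < w)
    (Q : Set F → Prop) (hQ : ∀ A B, A ⊆ B → Q B → Q A) (k : ℕ) (M : Msh T0 T1)
    (h1 : ∀ x, x ≠ M.x0 → Wd lam w (P (M.D.H x))) (h2 : ∀ x, x ≠ M.x0 → Q (P (M.D.H x))) :
    ∃ M' : Msh T0 T1, (∀ x, x ≠ M'.x0 → Wd lam ((3 / 4) ^ k * w) (P (M'.D.H x))) ∧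
      (∀ x, x ≠ M'.x0 → Q (P (M'.D.H x))) := by
  induction k with
  | zero => exact ⟨M, by simpa using h1, h2⟩
  | succ k ih =>
    obtain ⟨M', h1', h2'⟩ := ih
    obtain ⟨M'', h1'', h2''⟩ := halve_aux hv hv0 hker (w := (3 / 4) ^ k * w) (by positivity) Q hQ _
      M' h1' h2' le_rfl
    refine ⟨M'', fun x hx => (h1'' x hx).mono Subset.rfl (le_of_eq ?_), h2''⟩
    rw [pow_succ]; ring

theorem fine {lam : F →L[ℝ] ℝ} {v : F} (hv : v ≠ 0) (hv0 : lam v = 0)
    (hker : ∀ y, lam y = 0 → ∃ t : ℝ, y = t • v) {ε : ℝ} (hε : 0 < ε)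
    (Q : Set F → Prop) (hQ : ∀ A B, A ⊆ B → Q B → Q A) (hT : IsCompact T0) (M : Msh T0 T1)
    (h2 : ∀ x, x ≠ M.x0 → Q (P (M.D.H x))) :
    ∃ M' : Msh T0 T1, (∀ x, x ≠ M'.x0 → Wd lam ε (P (M'.D.H x))) ∧
      (∀ x, x ≠ M'.x0 → Q (P (M'.D.H x))) := by
  obtain ⟨B, hB⟩ := (hT.image lam.continuous).isBounded.exists_norm_le
  have hsub : ∀ x, x ≠ M.x0 → P (M.D.H x) ⊆ T0 := by
    intro x hx
    refine Subset.trans ?_ M.D.cov.symm.subset
    exact subset_biUnion_of_mem (u := fun x => P (M.D.H x)) (show x ∈ {x | x ≠ M.x0} from hx)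
  set w : ℝ := 2 * |B| + 1 with hwd
  have hw : 0 < w := by positivity
  have h1 : ∀ x, x ≠ M.x0 → Wd lam w (P (M.D.H x)) := by
    intro x hx y hy z hz
    have e1 := hB _ ⟨y, hsub x hx hy, rfl⟩
    have e2 := hB _ ⟨z, hsub x hx hz, rfl⟩
    rw [Real.norm_eq_abs] at e1 e2
    have := le_abs_self (lam y)
    have := neg_abs_le (lam z)
    have := le_abs_self B
    rw [hwd]
    linarith
  obtain ⟨k, hk⟩ := exists_pow_lt_of_lt_one (div_pos hε hw) (show (3 / 4 : ℝ) < 1 by norm_num)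
  obtain ⟨M', h1', h2'⟩ := halve hv hv0 hker hw Q hQ k M h1 h2
  refine ⟨M', fun x hx => (h1' x hx).mono Subset.rfl ?_, h2'⟩
  rw [lt_div_iff₀ hw] at hk
  exact hk.le

/-- **fine drawings in the plane** -/
theorem exists_fine {T0 T1 : Set (ℝ × ℝ)} (hT : IsCompact T0) (M : Msh T0 T1) {ε : ℝ}
    (hε : 0 < ε) : ∃ M' : Msh T0 T1, ∀ x, x ≠ M'.x0 → ∀ y ∈ P (M'.D.H x), ∀ z ∈ P (M'.D.H x),
      dist y z ≤ ε := by
  obtain ⟨M1, h1, -⟩ := fine (lam := ContinuousLinearMap.fst ℝ ℝ ℝ) (v := ((0, 1) : ℝ × ℝ))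
    (by simp) (by simp) (fun y hy => ⟨y.2, by
      have : y.1 = 0 := hy
      ext <;> simp [this]⟩) hε (fun _ => True) (fun _ _ _ _ => trivial) hT M (fun _ _ => trivial)
  obtain ⟨M2, h2, h3⟩ := fine (lam := ContinuousLinearMap.snd ℝ ℝ ℝ) (v := ((1, 0) : ℝ × ℝ))
    (by simp) (by simp) (fun y hy => ⟨y.1, by
      have : y.2 = 0 := hy
      ext <;> simp [this]⟩) hε (fun A => Wd (ContinuousLinearMap.fst ℝ ℝ ℝ) ε A)
      (fun A B hAB hB => hB.mono hAB le_rfl) hT M1 h1
  refine ⟨M2, fun x hx y hy z hz => ?_⟩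
  rw [Prod.dist_eq, Real.dist_eq, Real.dist_eq]
  refine max_le (abs_le.2 ⟨?_, ?_⟩) (abs_le.2 ⟨?_, ?_⟩)
  · have : z.1 - y.1 ≤ ε := h3 x hx z hz y hy
    linarith
  · exact h3 x hx y hy z hz
  · have : z.2 - y.2 ≤ ε := h2 x hx z hz y hy
    linarith
  · exact h2 x hx y hy z hz

end Msh

end Crest.Agent.R096.Sph_560
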