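import Crest.Agent.R096.Sph3_560

-- ▼ part R096/Spp1_333
section

/-!
# R096 (row 96), DOORS / SPH (helper333), part 1: abstract closeness of the faces

* `Cub.exists_out_edge` : a face has an edge which is not on a given other face;
* `Cub.exists_free_end` : an edge outside `bd x` has an end which is not on `bd x`;
* `Emb.w_path`          : a vertex joined to a path of an edge outside `bd x` off the boundary of
  the face `x` is not in the face `x`.
-/

set_option autoImplicit false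

open Set

namespace Crest.Agent.R096.Spp_333

open Crest.Agent.R096.Sph_560

variable {V E T N R X : Type*} [Fintype E]

/-! ### the cubic graph -/

section cub

variable (G : Cub N R X)

theorem exists_ends (r : R) : ∃ a b, G.ends r = s(a, b) ∧ a ≠ b := by
  obtain ⟨a, b, h⟩ : ∃ a b, G.ends r = s(a, b) := by
    induction h : G.ends r using Sym2.ind with
    | _ a b => exact ⟨a, b, rfl⟩
  refine ⟨a, b, h, ?_⟩
  rintro rfl
  exact G.nd r (by rw [h]; exact Sym2.mk_isDiag_iff.2 rfl)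

/-- three edges at a node -/
theorem finite_at (a : N) : {r | a ∈ G.ends r}.Finite := by
  apply Set.finite_of_ncard_ne_zero
  rw [G.three a]; decide

/-- at a node of the face there are exactly two edges of the face -/
theorem deg_two {x : X} {r : R} (hr : r ∈ G.bd x) {a : N} (ha : a ∈ G.ends r) :
    {r | r ∈ G.bd x ∧ a ∈ G.ends r}.ncard = 2 := by
  rcases G.deg x a with h | h
  · rw [Set.ncard_eq_zero ((finite_at G a).subset fun _ h => h.2)] at h
    exact absurd (show r ∈ ({r | r ∈ G.bd x ∧ a ∈ G.ends r} : Set R) from ⟨hr, ha⟩)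
      (by rw [h]; exact notMem_empty r)
  · exact h

/-- at a node of the face there is an edge outside -/
theorem exists_third {x : X} (a : N) : ∃ r, r ∉ G.bd x ∧ a ∈ G.ends r := by
  by_contra hcon
  push Not at hcon
  have h1 : {r | r ∈ G.bd x ∧ a ∈ G.ends r} = {r | a ∈ G.ends r} := by
    ext r
    constructor
    · exact fun h => h.2
    · intro h
      refine ⟨?_, h⟩
      by_contra h'
      exact hcon r h' h
  have h2 := G.deg x a
  rw [h1, G.three a] at h2
  rcases h2 with h | h <;> omega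

/-- a face has an edge which is not on a given other face -/
theorem exists_out_edge {x y : X} (hxy : x ≠ y) : ∃ r ∈ G.bd x, r ∉ G.bd y := by
  by_contra hcon
  push Not at hcon
  -- then the boundaries are equal
  have hsub : G.bd x ⊆ G.bd y := fun r hr => hcon r hr
  have heq : G.bd x = G.bd y := by
    rcases G.simple y (G.bd x) hsub (fun a => by
      rcases G.deg x a with h | h <;> rw [h]
      · exact Even.zero
      · exact even_two) with h | h
    · exact absurd h (G.bd_ne x).ne_empty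
    · exact h
  obtain ⟨r, hr⟩ := G.bd_ne x
  obtain ⟨a, b, hab, -⟩ := exists_ends G r
  have ha : a ∈ G.ends r := by rw [hab]; exact Sym2.mem_mk_left _ _
  -- the third edge at `a`
  obtain ⟨r3, h3, ha3⟩ := exists_third G (x := x) a
  obtain ⟨u, v, huv, hall⟩ := G.twoF r3
  have hu3 : r3 ∈ G.bd u := (hall u).2 (Or.inl rfl)
  have hux : u ≠ x := by rintro rfl; exact h3 hu3
  have huy : u ≠ y := by
    rintro rfl
    rw [← heq] at hu3
    exact h3 hu3
  -- a second edge of `u` at `a`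
  have h2 := deg_two G hu3 ha3
  obtain ⟨r4, ⟨h4, ha4⟩, h43⟩ : ∃ r4, r4 ∈ {r | r ∈ G.bd u ∧ a ∈ G.ends r} ∧ r4 ≠ r3 := by
    by_contra hc
    push Not at hc
    have : {r | r ∈ G.bd u ∧ a ∈ G.ends r} ⊆ {r3} := fun r hr => hc r hr
    have := Set.ncard_le_ncard this
    rw [h2, Set.ncard_singleton] at this
    omega
  -- `r4` is on `x`
  have h4x : r4 ∈ G.bd x := by
    by_contra hc
    have hsub2 : {r | r ∈ G.bd x ∧ a ∈ G.ends r} ∪ {r3, r4} ⊆ {r | a ∈ G.ends r} := by
      rintro s (hs | hs)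
      · exact hs.2
      · rcases hs with rfl | rfl
        · exact ha3
        · exact ha4
    have hle := Set.ncard_le_ncard hsub2 (finite_at G a)
    rw [Set.ncard_union_eq ?_ ((finite_at G a).subset fun _ h => h.2) (by simp),
      deg_two G hr ha, Set.ncard_pair h43.symm, G.three a] at hle
    · omega
    · rw [Set.disjoint_left]
      rintro s hs hs'
      rcases hs' with rfl | rfl
      · exact h3 hs.1
      · exact hc hs.1
  obtain ⟨p, q, hpq, hall4⟩ := G.twoF r4
  have e1 := (hall4 u).1 h4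
  have e2 := (hall4 x).1 h4x
  have e3 := (hall4 y).1 (hsub h4x)
  rcases e1 with rfl | rfl <;> rcases e2 with rfl | rfl <;> rcases e3 with rfl | rfl <;>
    first | exact hux rfl | exact huy rfl | exact hxy rfl

/-- an edge outside `bd x` has an end which is not on `bd x` -/
theorem exists_free_end {x : X} {r : R} (hr : r ∉ G.bd x) :
    ∃ b ∈ G.ends r, ∀ r' ∈ G.bd x, b ∉ G.ends r' := by
  by_contra hcon
  push Not at hcon
  -- all edges outside are `r`
  have hall : ∀ r', r' ∉ G.bd x → r' = r := by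
    intro r' hr'
    have := G.conn x {r} (by
      intro a ha s s' hs hs' hsr
      have hs2 : s = r := hsr
      subst hs2
      obtain ⟨t, ht, hat⟩ := hcon a hs
      exact absurd hat (ha t ht)) r r' hr hr' rfl
    exact this
  obtain ⟨a, b, hab, hne⟩ := exists_ends G r
  have ha : a ∈ G.ends r := by rw [hab]; exact Sym2.mem_mk_left _ _
  have hb : b ∈ G.ends r := by rw [hab]; exact Sym2.mem_mk_right _ _
  -- every node is an end of `r`
  have hnode : ∀ c, c ∈ G.ends r := by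
    intro c
    obtain ⟨s, hs, hc⟩ := exists_third G (x := x) c
    rw [hall s hs] at hc
    exact hc
  -- all edges have the ends `a`, `b`
  have hedge : ∀ s, s = r := by
    intro s
    apply G.multi
    obtain ⟨c, d, hcd, hcd'⟩ := exists_ends G s
    have hc := hnode c
    have hd := hnode d
    rw [hab, Sym2.mem_iff] at hc hd
    rw [hcd, hab]
    rcases hc with rfl | rfl <;> rcases hd with rfl | rfl
    · exact absurd rfl hcd'
    · rfl
    · exact Sym2.eq_swap
    · exact absurd rfl hcd'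
  obtain ⟨s, hs⟩ := G.bd_ne x
  rw [hedge s] at hs
  exact hr hs

end cub

/-! ### closeness -/

section close

variable {S : Surf V E T} {G : Cub N R X} (M : Emb S G)

/-- all tiles at `v` have `w x = 0` -/
def Zero (x : X) (v : V) : Prop := ∀ e, v ∈ S.ends e → ∀ f, S.On f e → M.w x f = 0

/-- one tile at a vertex which is not on the boundary of the face decides -/
theorem zero_of_one {x : X} {v : V} (hv : ∀ r ∈ G.bd x, v ∉ M.vs r) {e : E} (he : v ∈ S.ends e)
    {f : T} (hf : S.On f e) (h0 : M.w x f = 0) : Zero M x v := by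
  intro e' he' g hg
  refine S.link v {f | M.w x f = 0} ?_ e he f hf h0 e' he' g hg
  intro e1 he1 f1 g1 hf1 hg1 h1
  by_cases hfg : f1 = g1
  · rw [← hfg]; exact h1
  · have h2 := M.w_bd x e1 f1 g1 hfg hf1 hg1
    beta_reduce at h2
    rw [if_neg] at h2
    · have h3 : M.w x f1 = 0 := h1
      rw [h3, zero_add] at h2
      exact h2.symm
    · rintro ⟨r, hr, her⟩
      exact hv r hr ((M.vs_iff r v).2 ⟨e1, her, he1⟩)

/-- **closeness, abstract**: `B` is a set of vertices off the boundary of the face `x`; a vertex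
which is joined inside `B` to the path of an edge outside `bd x` is not in the face `x`. -/
theorem w_path {x : X} {B : Set V} (hB : ∀ v ∈ B, ∀ r ∈ G.bd x, v ∉ M.vs r) {u v : V}
    (h : S.ConnIn {u, v} B) (hv : v ∈ B) {r : R} (hr : r ∉ G.bd x) (hvr : v ∈ M.vs r) :
    Zero M x u := by
  have h1 : Zero M x v := by
    obtain ⟨e, he, hve⟩ := (M.vs_iff r v).1 hvr
    obtain ⟨f, g, -, hall⟩ := S.two e
    have hf := (hall f).2 (Or.inl rfl)
    exact zero_of_one M (hB v hv) hve hf (M.w_out x r hr e he f hf)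
  refine h {v | Zero M x v} ?_ v (by simp) h1 u (by simp)
  intro e a b hab ha hb hZ
  have hae : a ∈ S.ends e := by rw [hab]; exact Sym2.mem_mk_left _ _
  have hbe : b ∈ S.ends e := by rw [hab]; exact Sym2.mem_mk_right _ _
  obtain ⟨f, g, -, hall⟩ := S.two e
  have hf := (hall f).2 (Or.inl rfl)
  exact zero_of_one M (hB b hb) hbe hf (hZ e hae f hf)

end close

end Crest.Agent.R096.Spp_333
end

-- ▼ part R096/Spp2_333
section

/-!
# R096 (row 96), DOORS / SPH (helper333), part 2: topology of a realisation `Lay G Sg`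

Local connectedness of `Sg`, separation constants, connected sets off a face.
-/

set_option autoImplicit false

open Set Metric

namespace Crest.Agent.R096.Spp_333

open Crest.Agent.R096.Sph_560 Crest.Agent.R096.Ce_537

variable {F : Type*} [NormedAddCommGroup F] [NormedSpace ℝ F]
variable {N R X : Type*} {G : Cub N R X} {Sg : Set F}

/-! ### balls -/

/-- local connectedness of a PL ball -/
theorem ball_lc {k : ℕ} {K dK : Set F} (h : IsBall k K dK) {x : F} (hx : x ∈ K) {r : ℝ}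
    (hr : 0 < r) : ∃ r1 > 0, ∃ C ⊆ K ∩ closedBall x r, IsPreconnected C ∧
      K ∩ closedBall x r1 ⊆ C ∧ x ∈ C := by
  obtain ⟨e, -⟩ := h
  set x0 := e.g x with hx0
  have hx0c : x0 ∈ cube k := e.mg hx
  have hfx : e.f x0 = x := e.ri x hx
  have c1 : ContinuousWithinAt e.f (cube k) x0 := e.pf.1 x0 hx0c
  have c2 : ContinuousWithinAt e.g K x := e.pg.1 x hx
  rw [Metric.continuousWithinAt_iff] at c1 c2
  obtain ⟨ρ, hρ, h1⟩ := c1 r hr
  obtain ⟨r1, hr1, h2⟩ := c2 ρ hρ
  refine ⟨r1 / 2, by positivity, e.f '' (cube k ∩ ball x0 ρ), ?_, ?_, ?_, ?_⟩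
  · rintro _ ⟨y, ⟨hy, hyb⟩, rfl⟩
    refine ⟨e.mf hy, ?_⟩
    have := h1 hy hyb
    rw [hfx] at this
    exact mem_closedBall.2 this.le
  · apply IsPreconnected.image
    · exact ((convex_closedBall (0 : Fin k → ℝ) 1).inter (convex_ball x0 ρ)).isPreconnected
    · exact e.pf.1.mono inter_subset_left
  · rintro y ⟨hy, hyb⟩
    refine ⟨e.g y, ⟨e.mg hy, ?_⟩, e.ri y hy⟩
    exact h2 hy (lt_of_le_of_lt (mem_closedBall.1 hyb) (by linarith))
  · exact ⟨x0, ⟨hx0c, mem_ball_self hρ⟩, hfx⟩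

theorem ball_preconnected {k : ℕ} {K dK : Set F} (h : IsBall k K dK) : IsPreconnected K := by
  obtain ⟨e, -⟩ := h
  have : K = e.f '' (cube k) := by
    ext y
    exact ⟨fun hy => ⟨e.g y, e.mg hy, e.ri y hy⟩, fun ⟨x, hx, h⟩ => h ▸ e.mf hx⟩
  rw [this]
  exact (convex_closedBall (0 : Fin k → ℝ) 1).isPreconnected.image _ e.pf.1

/-! ### the sphere -/

section lay

variable (L : Lay G Sg)

include L in
theorem isCompact_Sg [Finite X] : IsCompact Sg := by
  rw [L.cov]
  exact isCompact_iUnion fun x => (L.disc_ball x).isCompact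

theorem disc_sub (x : X) : L.disc x ⊆ Sg := by
  conv_rhs => rw [L.cov]
  exact subset_iUnion _ x

theorem exists_face (G : Cub N R X) (r : R) : ∃ x, r ∈ G.bd x := by
  obtain ⟨x, y, -, h⟩ := G.twoF r
  exact ⟨x, (h x).2 (Or.inl rfl)⟩

theorem arc_sub (r : R) : L.arc r ⊆ Sg := by
  obtain ⟨x, hx⟩ := exists_face G r
  exact (L.arc_sub_disc hx).trans (disc_sub L x)

theorem pt_mem_Sg (a : N) : L.pt a ∈ Sg := by
  obtain ⟨r, hr⟩ := Lay.exists_edge G a
  exact arc_sub L r (L.pt_mem_arc hr)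

include L in
/-- **local connectedness** -/
theorem lc [Finite X] {p : F} (hp : p ∈ Sg) {r : ℝ} (hr : 0 < r) :
    ∃ r1 > 0, ∃ C ⊆ Sg ∩ closedBall p r, IsPreconnected C ∧ Sg ∩ closedBall p r1 ⊆ C ∧
      p ∈ C := by
  have key : ∀ x : X, ∃ r1 > 0, ∃ C ⊆ L.disc x ∩ closedBall p r, IsPreconnected C ∧
      L.disc x ∩ closedBall p r1 ⊆ C ∧ (C.Nonempty → p ∈ C) := by
    intro x
    by_cases hx : p ∈ L.disc x
    · obtain ⟨r1, h1, C, h2, h3, h4, h5⟩ := ball_lc (L.disc_ball x) hx hr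
      exact ⟨r1, h1, C, h2, h3, h4, fun _ => h5⟩
    · have hc : IsClosed (L.disc x) := (L.disc_ball x).isCompact.isClosed
      obtain ⟨ρ, hρ, h⟩ := Metric.isOpen_iff.1 hc.isOpen_compl p hx
      refine ⟨ρ / 2, by positivity, ∅, empty_subset _, isPreconnected_empty, ?_, fun h => ?_⟩
      · rintro y ⟨hy, hyb⟩
        exact absurd hy (h (lt_of_le_of_lt (mem_closedBall.1 hyb) (by linarith)))
      · exact absurd h not_nonempty_empty
  choose r1 h1 C h2 h3 h4 h5 using key
  obtain ⟨x0, hx0⟩ : ∃ x, p ∈ L.disc x := by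
    rw [L.cov] at hp
    exact mem_iUnion.1 hp
  have : Nonempty X := ⟨x0⟩
  obtain ⟨m, hm⟩ := Finite.exists_min r1
  refine ⟨r1 m, h1 m, ⋃ x, C x, ?_, ?_, ?_, ?_⟩
  · intro y hy
    obtain ⟨x, hx⟩ := mem_iUnion.1 hy
    exact ⟨disc_sub L x (h2 x hx).1, (h2 x hx).2⟩
  · refine isPreconnected_of_forall p fun y hy => ?_
    obtain ⟨x, hx⟩ := mem_iUnion.1 hy
    exact ⟨C x, subset_iUnion _ x, h5 x ⟨y, hx⟩, hx, h3 x⟩
  · rintro y ⟨hy, hyb⟩
    rw [L.cov] at hy
    obtain ⟨x, hx⟩ := mem_iUnion.1 hy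
    exact mem_iUnion.2 ⟨x, h4 x ⟨hx, closedBall_subset_closedBall (hm x) hyb⟩⟩
  · exact mem_iUnion.2 ⟨x0, h4 x0 ⟨hx0, mem_closedBall_self (h1 x0).le⟩⟩

omit [NormedSpace ℝ F] in
/-- compactness: near two closed sets means near the intersection -/
theorem near_inter {S A B U : Set F} (hS : IsCompact S) (hA : IsClosed A) (hB : IsClosed B)
    (hU : IsOpen U) (h : A ∩ B ⊆ U) :
    ∃ δ > 0, ∀ y ∈ S, (∃ z ∈ A, dist y z ≤ δ) → (∃ z ∈ B, dist y z ≤ δ) → y ∈ U := by
  rcases A.eq_empty_or_nonempty with rfl | hAne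
  · exact ⟨1, one_pos, fun y _ ⟨z, hz, _⟩ => absurd hz (notMem_empty z)⟩
  rcases B.eq_empty_or_nonempty with rfl | hBne
  · exact ⟨1, one_pos, fun y _ _ ⟨z, hz, _⟩ => absurd hz (notMem_empty z)⟩
  rcases (S \ U).eq_empty_or_nonempty with he | hne
  · exact ⟨1, one_pos, fun y hy _ _ => by
      by_contra hc
      exact absurd (show y ∈ S \ U from ⟨hy, hc⟩) (by rw [he]; exact notMem_empty y)⟩
  · have hc : ContinuousOn (fun y => max (infDist y A) (infDist y B)) (S \ U) :=
      ((continuous_infDist_pt A).max (continuous_infDist_pt B)).continuousOn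
    obtain ⟨y0, hy0, hmin⟩ := (hS.diff hU).exists_isMinOn hne hc
    set δ := max (infDist y0 A) (infDist y0 B) with hδ
    have hpos : 0 < δ := by
      by_contra hcon
      have h1 : infDist y0 A ≤ 0 := (le_max_left _ _).trans (not_lt.1 hcon)
      have h2 : infDist y0 B ≤ 0 := (le_max_right _ _).trans (not_lt.1 hcon)
      have h3 : y0 ∈ A := (hA.mem_iff_infDist_zero hAne).2 (le_antisymm h1 infDist_nonneg)
      have h4 : y0 ∈ B := (hB.mem_iff_infDist_zero hBne).2 (le_antisymm h2 infDist_nonneg)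
      exact hy0.2 (h ⟨h3, h4⟩)
    refine ⟨δ / 2, by positivity, ?_⟩
    rintro y hy ⟨z, hz, hyz⟩ ⟨w, hw, hyw⟩
    by_contra hcon
    have h5 : δ ≤ max (infDist y A) (infDist y B) := hmin ⟨hy, hcon⟩
    have h6 : infDist y A ≤ δ / 2 := (infDist_le_dist_of_mem hz).trans hyz
    have h7 : infDist y B ≤ δ / 2 := (infDist_le_dist_of_mem hw).trans hyw
    have := max_le h6 h7
    linarith

omit [NormedSpace ℝ F] in
/-- two disjoint sets, one compact and one closed, have a positive distance -/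
theorem pos_dist {A B : Set F} (hA : IsCompact A) (hB : IsClosed B) (h : Disjoint A B) :
    ∃ δ > 0, ∀ a ∈ A, ∀ b ∈ B, δ ≤ dist a b := by
  obtain ⟨δ, hδ, h'⟩ := h.exists_thickenings hA hB
  refine ⟨δ, hδ, fun a ha b hb => ?_⟩
  by_contra hcon
  exact (Set.disjoint_left.1 h') (mem_thickening_iff.2 ⟨a, ha, by rw [dist_comm]; exact not_le.1 hcon⟩)
    (self_subset_thickening hδ B hb)

/-- a positive lower bound of a positive function on a finite type -/
theorem exists_pos_le {ι : Type*} [Finite ι] (f : ι → ℝ) (hf : ∀ i, 0 < f i) :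
    ∃ δ > 0, ∀ i, δ ≤ f i := by
  rcases isEmpty_or_nonempty ι with h | h
  · exact ⟨1, one_pos, fun i => h.elim i⟩
  · obtain ⟨m, hm⟩ := Finite.exists_min f
    exact ⟨f m, hf m, hm⟩

/-- **connected sets off a face** -/
theorem star_set {x x' : X} (hne : x' ≠ x) {A : Set F} (hA : IsCompact A)
    (hA1 : A ⊆ L.disc x') (hA2 : Disjoint A (L.disc x)) :
    ∃ C, A ⊆ C ∧ C ⊆ L.disc x' ∧ IsPreconnected C ∧ IsCompact C ∧ Disjoint C (L.disc x) := by
  obtain ⟨e, he⟩ := L.disc_ball x'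
  set B := e.g '' A with hB
  have hBc : IsCompact B := hA.image_of_continuousOn (e.pg.1.mono hA1)
  have hBcube : B ⊆ cube 2 := by
    rintro _ ⟨y, hy, rfl⟩
    exact e.mg (hA1 hy)
  set m : ℝ × (Fin 2 → ℝ) → (Fin 2 → ℝ) := fun q => q.1 • q.2 with hm
  have hmc : Continuous m := continuous_fst.smul continuous_snd
  set D := m '' (Icc (0 : ℝ) 1 ×ˢ B) with hD
  have hDc : IsCompact D := (isCompact_Icc.prod hBc).image hmc
  have hDcube : D ⊆ cube 2 := by
    rintro _ ⟨⟨t, z⟩, ⟨ht, hz⟩, rfl⟩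
    have h1 : ‖z‖ ≤ 1 := mem_closedBall_zero_iff.1 (hBcube hz)
    refine mem_closedBall_zero_iff.2 ?_
    show ‖t • z‖ ≤ 1
    rw [norm_smul, Real.norm_of_nonneg ht.1]
    exact mul_le_one₀ ht.2 (norm_nonneg _) h1
  have hDpre : IsPreconnected D := by
    rcases B.eq_empty_or_nonempty with hBe | ⟨z0, hz0⟩
    · rw [hD, hBe, prod_empty, image_empty]; exact isPreconnected_empty
    · refine isPreconnected_of_forall 0 ?_
      rintro _ ⟨⟨t, z⟩, ⟨ht, hz⟩, rfl⟩
      refine ⟨segment ℝ 0 z, ?_, left_mem_segment ℝ 0 z, ?_,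
        (convex_segment 0 z).isPreconnected⟩
      · rintro _ ⟨a, b, ha, hb, hab, rfl⟩
        refine ⟨(b, z), ⟨⟨hb, by linarith⟩, hz⟩, ?_⟩
        simp [hm]
      · refine ⟨1 - t, t, by linarith [ht.2], ht.1, by ring, ?_⟩
        simp [hm]
  refine ⟨e.f '' D, ?_, ?_, hDpre.image _ (e.pf.1.mono hDcube),
    hDc.image_of_continuousOn (e.pf.1.mono hDcube), ?_⟩
  · intro y hy
    refine ⟨e.g y, ⟨(1, e.g y), ⟨⟨zero_le_one, le_rfl⟩, mem_image_of_mem _ hy⟩, ?_⟩,
      e.ri y (hA1 hy)⟩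
    simp [hm]
  · rintro _ ⟨y, hy, rfl⟩
    exact e.mf (hDcube hy)
  · rw [Set.disjoint_left]
    rintro _ ⟨_, ⟨⟨t, z⟩, ⟨ht, hz⟩, rfl⟩, rfl⟩ hx
    have hmem : m (t, z) ∈ D := ⟨(t, z), ⟨ht, hz⟩, rfl⟩
    have hcube := hDcube hmem
    have hbd := L.disc_disc x' x hne _ (e.mf hcube) hx
    rw [← he] at hbd
    obtain ⟨s, hs, hse⟩ := hbd
    have hs1 : ‖s‖ = 1 := mem_sphere_zero_iff_norm.1 hs
    have hsc : s ∈ cube 2 := sphere_subset_closedBall hs
    have heq : s = m (t, z) := by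
      rw [← e.li s hsc, hse, e.li _ hcube]
    have hz1 : ‖z‖ ≤ 1 := mem_closedBall_zero_iff.1 (hBcube hz)
    have h1 : t * ‖z‖ = 1 := by
      have : ‖m (t, z)‖ = t * ‖z‖ := by
        show ‖t • z‖ = _
        rw [norm_smul, Real.norm_of_nonneg ht.1]
      rw [← this, ← heq, hs1]
    have ht1 : t = 1 := by
      apply le_antisymm ht.2
      nlinarith [ht.1, ht.2, norm_nonneg z]
    obtain ⟨y, hy, rfl⟩ := hz
    have h2 : m (t, e.g y) = e.g y := by simp [hm, ht1]
    rw [h2, e.ri y (hA1 hy)] at hx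
    exact (Set.disjoint_left.1 hA2) hy hx

/-- a node which is not on the face is off the face -/
theorem pt_notMem_disc {a : N} {x : X} (h : ∀ r ∈ G.bd x, a ∉ G.ends r) : L.pt a ∉ L.disc x := by
  intro hx
  obtain ⟨r, hr⟩ := Lay.exists_edge G a
  obtain ⟨x', hx'⟩ := exists_face G r
  have hne : x ≠ x' := by
    rintro rfl
    exact h r hx' hr
  have := L.disc_disc x x' hne _ hx (L.arc_sub_disc hx' (L.pt_mem_arc hr))
  obtain ⟨s, hs, hps⟩ := mem_iUnion₂.1 this
  exact h s hs (L.pt_arc a s hps)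

end lay

end Crest.Agent.R096.Spp_333
end

-- ▼ part R096/Spp3_333
section

/-!
# R096 (row 96), DOORS / SPH (helper333), part 3: CARRY gives a placing of the graph

* `Carry S gv Sg δ`      : the vertices of `S` are spread over `Sg`, chord paths follow connected
  sets (890's CARRY).
* `exists_place`         : a placing `Place S G` close to a realisation `L : Lay G Sg`.
-/

set_option autoImplicit false

open Set Metric

namespace Crest.Agent.R096.Spp_333

open Crest.Agent.R096.Sph_560 Crest.Agent.R096.Ce_537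

variable {V E T : Type*} [Fintype E]

/-! ### `ConnIn` -/

section connIn

variable {S : Surf V E T}

theorem connIn_mono {A A' B B' : Set V} (hA : A' ⊆ A) (hB : B ⊆ B') (h : S.ConnIn A B) :
    S.ConnIn A' B' := by
  intro X hX u hu huX v hv
  exact h X (fun e a b hab ha hb => hX e a b hab (hB ha) (hB hb)) u (hA hu) huX v (hA hv)

theorem connIn_symm {u v : V} {B : Set V} (h : S.ConnIn {u, v} B) : S.ConnIn {v, u} B := by
  rw [pair_comm]; exact h

theorem connIn_self (u : V) (B : Set V) : S.ConnIn {u, u} B := by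
  intro X _ a ha haX b hb
  have h1 : a = u := by simpa using ha
  have h2 : b = u := by simpa using hb
  rw [h2, ← h1]; exact haX

theorem connIn_trans {u v w : V} {B : Set V} (h : S.ConnIn {u, v} B) (h' : S.ConnIn {v, w} B) :
    S.ConnIn {u, w} B := by
  intro X hX a ha haX b hb
  have hu : u ∈ ({u, v} : Set V) := by simp
  have hv : v ∈ ({u, v} : Set V) := by simp
  have hv' : v ∈ ({v, w} : Set V) := by simp
  have hw' : w ∈ ({v, w} : Set V) := by simp
  rcases ha with rfl | rfl <;> rcases hb with rfl | rfl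
  · exact haX
  · exact h' X hX v hv' (h X hX _ hu haX v hv) _ hw'
  · exact h X hX v hv (h' X hX _ hw' haX v hv') _ hu
  · exact haX

theorem connIn_of_pairs {A B : Set V} (h : ∀ u ∈ A, ∀ v ∈ A, S.ConnIn {u, v} B) :
    S.ConnIn A B := by
  intro X hX u hu huX v hv
  exact h u hu v hv X hX u (by simp) huX v (by simp)

theorem connIn_edge {e : E} {u v : V} {B : Set V} (h : S.ends e = s(u, v)) (hu : u ∈ B)
    (hv : v ∈ B) : S.ConnIn {u, v} B := by
  intro X hX a ha haX b hb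
  have h' : S.ends e = s(v, u) := by rw [h]; exact Sym2.eq_swap
  rcases ha with rfl | rfl <;> rcases hb with rfl | rfl
  · exact haX
  · exact hX e _ _ h hu hv haX
  · exact hX e _ _ h' hv hu haX
  · exact haX

/-- the component of `v0` in `B` -/
def Comp (S : Surf V E T) (B : Set V) (v0 : V) : Set V := {v | v ∈ B ∧ S.ConnIn {v0, v} B}

theorem comp_conn (B : Set V) (v0 : V) : S.ConnIn (Comp S B v0) (Comp S B v0) := by
  apply connIn_of_pairs
  rintro u ⟨hu, hu'⟩ v ⟨hv, hv'⟩ X hX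
  have huv : S.ConnIn {u, v} B := connIn_trans (connIn_symm hu') hv'
  have key := huv (X ∩ Comp S B v0) (by
    rintro e a b hab ha hb ⟨haX, haC⟩
    have hbC : b ∈ Comp S B v0 := ⟨hb, connIn_trans haC.2 (connIn_edge hab ha hb)⟩
    exact ⟨hX e a b hab haC hbC haX, hbC⟩)
  intro a ha haX b hb
  have haC : a ∈ Comp S B v0 := by
    rcases ha with rfl | rfl
    · exact ⟨hu, hu'⟩
    · exact ⟨hv, hv'⟩
  exact (key a ha ⟨haX, haC⟩ b hb).1

end connIn

/-! ### CARRY -/

variable {F : Type*} [NormedAddCommGroup F] [NormedSpace ℝ F]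

/-- the vertices of `S` lie over `Sg`, are `δ`-dense there, and chord paths follow connected
sets. -/
structure Carry (S : Surf V E T) (gv : V → F) (Sg : Set F) (δ : ℝ) : Prop where
  mem : ∀ v, gv v ∈ Sg
  dense : ∀ y ∈ Sg, ∃ v, dist (gv v) y ≤ δ
  carry : ∀ C ⊆ Sg, IsPreconnected C → ∀ u v, gv u ∈ C → gv v ∈ C →
    S.ConnIn {u, v} {w | ∃ y ∈ C, dist (gv w) y ≤ δ}

omit [NormedSpace ℝ F] in
theorem Carry.mono {S : Surf V E T} {gv : V → F} {Sg : Set F} {δ δ' : ℝ} (h : Carry S gv Sg δ)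
    (hδ : δ ≤ δ') : Carry S gv Sg δ' where
  mem := h.mem
  dense := fun y hy => by
    obtain ⟨v, hv⟩ := h.dense y hy
    exact ⟨v, hv.trans hδ⟩
  carry := fun C hC hCp u v hu hv => by
    refine connIn_mono subset_rfl ?_ (h.carry C hC hCp u v hu hv)
    rintro w ⟨y, hy, hwy⟩
    exact ⟨y, hy, hwy.trans hδ⟩

variable {N R X : Type*} {G : Cub N R X} {Sg : Set F}

/-- **PLACE**: a placing of the graph near its realisation -/
theorem exists_place [Finite N] [Finite R] [Finite X] (L : Lay G Sg) {ρ : ℝ} (hρ : 0 < ρ) :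
    ∃ δ₀ > 0, ∀ {V E T : Type*} [Fintype E] (S : Surf V E T) (gv : V → F),
      Carry S gv Sg δ₀ → ∃ P : Place S G,
        (∀ r, ∀ v ∈ P.Y r, ∃ z ∈ L.arc r, dist (gv v) z ≤ ρ) ∧
        (∀ a, ∀ v ∈ P.Z' a, dist (gv v) (L.pt a) ≤ ρ) := by
  classical
  have hSgc := isCompact_Sg L
  -- `r2`
  obtain ⟨d1, hd1, h1⟩ : ∃ d1 > 0, ∀ a b, a ≠ b → d1 ≤ dist (L.pt a) (L.pt b) := by
    obtain ⟨d, hd, h⟩ := exists_pos_le (fun q : N × N =>
      if q.1 = q.2 then 1 else dist (L.pt q.1) (L.pt q.2)) (fun q => by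
        split_ifs with h
        · exact one_pos
        · exact dist_pos.2 fun h' => h (L.inj h'))
    refine ⟨d, hd, fun a b hab => ?_⟩
    have := h (a, b)
    dsimp only at this
    rwa [if_neg hab] at this
  obtain ⟨d2, hd2, h2⟩ : ∃ d2 > 0, ∀ a r, a ∉ G.ends r → ∀ z ∈ L.arc r,
      d2 ≤ dist (L.pt a) z := by
    have key : ∀ q : N × R, ∃ d > 0, q.1 ∉ G.ends q.2 → ∀ z ∈ L.arc q.2,
        d ≤ dist (L.pt q.1) z := by
      rintro ⟨a, r⟩
      by_cases h : a ∈ G.ends r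
      · exact ⟨1, one_pos, fun h' => absurd h h'⟩
      · obtain ⟨d, hd, h'⟩ := pos_dist (A := {L.pt a}) isCompact_singleton
          (L.arc_ball r).isCompact.isClosed (by
            rw [Set.disjoint_singleton_left]
            exact fun h' => h (L.pt_arc a r h'))
        exact ⟨d, hd, fun _ z hz => h' _ rfl z hz⟩
    choose d hd h using key
    obtain ⟨d0, hd0, h0⟩ := exists_pos_le d hd
    exact ⟨d0, hd0, fun a r har z hz => (h0 (a, r)).trans (h (a, r) har z hz)⟩
  obtain ⟨r2, hr2, hr2ρ, hr2d1, hr2d2⟩ : ∃ r2 > 0, r2 ≤ ρ ∧ 2 * r2 < d1 ∧ 2 * r2 < d2 := by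
    refine ⟨min ρ (min (d1 / 3) (d2 / 3)), by positivity, min_le_left _ _, ?_, ?_⟩
    · have := (min_le_right ρ (min (d1 / 3) (d2 / 3))).trans (min_le_left _ _)
      linarith
    · have := (min_le_right ρ (min (d1 / 3) (d2 / 3))).trans (min_le_right _ _)
      linarith
  -- `r1`
  have key1 := fun a => lc L (pt_mem_Sg L a) (show (0 : ℝ) < r2 / 2 by positivity)
  choose s1 hs1 C1 hC1 hC1p hC1s hC1a using key1
  obtain ⟨s0, hs0, hs0'⟩ := exists_pos_le s1 hs1
  set r1 := min s0 r2 with hr1def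
  have hr1 : 0 < r1 := by positivity
  -- `δ1`
  obtain ⟨δ1, hδ1, hyy⟩ : ∃ δ1 > 0, ∀ r r', r ≠ r' → ∀ y ∈ Sg,
      (∃ z ∈ L.arc r, dist y z ≤ δ1) → (∃ z ∈ L.arc r', dist y z ≤ δ1) →
      ∃ a, a ∈ G.ends r ∧ a ∈ G.ends r' ∧ dist y (L.pt a) ≤ r1 := by
    have key : ∀ q : R × R, ∃ d > 0, q.1 ≠ q.2 → ∀ y ∈ Sg,
        (∃ z ∈ L.arc q.1, dist y z ≤ d) → (∃ z ∈ L.arc q.2, dist y z ≤ d) →
        ∃ a, a ∈ G.ends q.1 ∧ a ∈ G.ends q.2 ∧ dist y (L.pt a) ≤ r1 := by
      rintro ⟨r, r'⟩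
      by_cases h : r = r'
      · exact ⟨1, one_pos, fun h' => absurd h h'⟩
      · obtain ⟨d, hd, h'⟩ := near_inter hSgc (L.arc_ball r).isCompact.isClosed
          (L.arc_ball r').isCompact.isClosed
          (U := ⋃ a ∈ {a | a ∈ G.ends r ∧ a ∈ G.ends r'}, ball (L.pt a) r1)
          (isOpen_biUnion fun _ _ => isOpen_ball) (by
            rintro y ⟨hy, hy'⟩
            obtain ⟨a, ha, rfl⟩ := L.arc_arc r r' h y hy hy'
            exact mem_biUnion (show a ∈ {a | a ∈ G.ends r ∧ a ∈ G.ends r'} from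
              ⟨ha, L.pt_arc a r' hy'⟩) (mem_ball_self hr1))
        refine ⟨d, hd, fun _ y hy h1 h2 => ?_⟩
        obtain ⟨a, ha, hya⟩ := mem_iUnion₂.1 (h' y hy h1 h2)
        exact ⟨a, ha.1, ha.2, (mem_ball.1 hya).le⟩
    choose d hd h using key
    obtain ⟨d0, hd0, h0⟩ := exists_pos_le d hd
    exact ⟨d0, hd0, fun r r' hrr y hy ⟨z, hz, hyz⟩ ⟨z', hz', hyz'⟩ =>
      h (r, r') hrr y hy ⟨z, hz, hyz.trans (h0 _)⟩ ⟨z', hz', hyz'.trans (h0 _)⟩⟩
  -- `η`
  set η := min δ1 r2 / 2 with hη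
  have hηpos : 0 < η := by positivity
  have key2 := fun a => lc L (pt_mem_Sg L a) hηpos
  choose t1 ht1 C2 hC2 hC2p hC2s hC2a using key2
  obtain ⟨t0, ht0, ht0'⟩ := exists_pos_le t1 ht1
  refine ⟨min (min t0 η) r1, by positivity, ?_⟩
  intro V E T _ S gv hC
  set δ := min (min t0 η) r1 with hδ
  have hδt : δ ≤ t0 := (min_le_left _ _).trans (min_le_left _ _)
  have hδη : δ ≤ η := (min_le_left _ _).trans (min_le_right _ _)
  have hδr1 : δ ≤ r1 := min_le_right _ _
  have hr1r2 : r1 ≤ r2 := min_le_right _ _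
  have hηr2 : η ≤ r2 / 2 := by
    rw [hη]; have := min_le_right δ1 r2; linarith
  have hηδ1 : η ≤ δ1 / 2 := by
    rw [hη]; have := min_le_left δ1 r2; linarith
  -- the points of the nodes
  choose vn hvn using fun a => hC.dense (L.pt a) (pt_mem_Sg L a)
  have hvnC : ∀ a, gv (vn a) ∈ C2 a := fun a =>
    hC2s a ⟨hC.mem _, mem_closedBall.2 ((hvn a).trans (hδt.trans (ht0' a)))⟩
  -- the connected sets of the edges
  let W : R → Set F := fun r => L.arc r ∪ ⋃ a ∈ {a | a ∈ G.ends r}, C2 a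
  have hWS : ∀ r, W r ⊆ Sg := by
    rintro r y (hy | hy)
    · exact arc_sub L r hy
    · obtain ⟨a, -, hya⟩ := mem_iUnion₂.1 hy
      exact (hC2 a hya).1
  have hWp : ∀ r, IsPreconnected (W r) := by
    intro r
    obtain ⟨a0, b0, hab, -⟩ := exists_ends G r
    have ha0 : a0 ∈ G.ends r := by rw [hab]; exact Sym2.mem_mk_left _ _
    have hA := ball_preconnected (L.arc_ball r)
    refine isPreconnected_of_forall (L.pt a0) ?_
    rintro y (hy | hy)
    · exact ⟨L.arc r, subset_union_left, L.pt_mem_arc ha0, hy, hA⟩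
    · obtain ⟨a, ha, hya⟩ := mem_iUnion₂.1 hy
      refine ⟨L.arc r ∪ C2 a, ?_, Or.inl (L.pt_mem_arc ha0), Or.inr hya, ?_⟩
      · exact union_subset_union subset_rfl (subset_biUnion_of_mem (u := C2) ha)
      · exact IsPreconnected.union (L.pt a) (L.pt_mem_arc ha) (hC2a a) hA (hC2p a)
  have hWnear : ∀ r, ∀ y ∈ W r, ∃ z ∈ L.arc r, dist y z ≤ η := by
    rintro r y (hy | hy)
    · exact ⟨y, hy, by rw [dist_self]; exact hηpos.le⟩
    · obtain ⟨a, ha, hya⟩ := mem_iUnion₂.1 hy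
      exact ⟨L.pt a, L.pt_mem_arc ha, mem_closedBall.1 (hC2 a hya).2⟩
  let B : R → Set V := fun r => {w | ∃ y ∈ W r, dist (gv w) y ≤ δ}
  have hBnear : ∀ r, ∀ w ∈ B r, ∃ z ∈ L.arc r, dist (gv w) z ≤ min δ1 r2 := by
    rintro r w ⟨y, hy, hwy⟩
    obtain ⟨z, hz, hyz⟩ := hWnear r y hy
    refine ⟨z, hz, (dist_triangle _ y _).trans ?_⟩
    have : η + η = min δ1 r2 := by rw [hη]; ring
    linarith
  choose nd hnd using fun r : R => (exists_ends G r)
  have hndm : ∀ r, nd r ∈ G.ends r := fun r => by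
    obtain ⟨b, hb, -⟩ := hnd r
    rw [hb]; exact Sym2.mem_mk_left _ _
  have hvnW : ∀ r, ∀ a ∈ G.ends r, gv (vn a) ∈ W r := fun r a ha =>
    Or.inr (mem_biUnion (show a ∈ {a | a ∈ G.ends r} from ha) (hvnC a))
  have hδ0 : 0 ≤ δ := by positivity
  have hvnB : ∀ r, ∀ a ∈ G.ends r, vn a ∈ B r := fun r a ha =>
    ⟨_, hvnW r a ha, by rw [dist_self]; exact hδ0⟩
  refine ⟨{
    Z := fun a => {v | dist (gv v) (L.pt a) ≤ r1}
    Z' := fun a => {v | dist (gv v) (L.pt a) ≤ r2}
    Y := fun r => Comp S (B r) (vn (nd r))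
    sub := fun a v hv => le_trans hv hr1r2
    zc := ?_
    yc := fun r => comp_conn _ _
    meet := ?_
    zd := ?_
    yz := ?_
    yy := ?_ }, ?_, ?_⟩
  · intro a
    apply connIn_of_pairs
    intro u hu v hv
    have hu' : gv u ∈ C1 a := hC1s a ⟨hC.mem u, mem_closedBall.2
      (le_trans hu ((min_le_left _ _).trans (hs0' a)))⟩
    have hv' : gv v ∈ C1 a := hC1s a ⟨hC.mem v, mem_closedBall.2
      (le_trans hv ((min_le_left _ _).trans (hs0' a)))⟩
    refine connIn_mono subset_rfl ?_ (hC.carry (C1 a) (fun y hy => (hC1 a hy).1) (hC1p a) u v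
      hu' hv')
    rintro w ⟨y, hy, hwy⟩
    have h3 := mem_closedBall.1 (hC1 a hy).2
    show dist (gv w) (L.pt a) ≤ r2
    refine (dist_triangle _ y _).trans ?_
    linarith
  · intro r a ha
    refine ⟨vn a, ⟨hvnB r a ha, ?_⟩, (hvn a).trans hδr1⟩
    exact hC.carry (W r) (hWS r) (hWp r) _ _ (hvnW r _ (hndm r)) (hvnW r a ha)
  · intro a b hab
    rw [Set.disjoint_left]
    intro v hv hv'
    have h3 : dist (gv v) (L.pt a) ≤ r2 := hv
    have h4 : dist (gv v) (L.pt b) ≤ r2 := hv'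
    have h5 := dist_triangle_left (L.pt a) (L.pt b) (gv v)
    linarith [h1 a b hab]
  · intro r a har
    rw [Set.disjoint_left]
    rintro v ⟨hv, -⟩ hv'
    obtain ⟨z, hz, hvz⟩ := hBnear r v hv
    have h4 : dist (gv v) (L.pt a) ≤ r2 := hv'
    have h5 := dist_triangle_left (L.pt a) z (gv v)
    have h6 := min_le_right δ1 r2
    linarith [h2 a r har z hz]
  · rintro r r' hrr v ⟨hv, -⟩ ⟨hv', -⟩
    obtain ⟨z, hz, hvz⟩ := hBnear r v hv
    obtain ⟨z', hz', hvz'⟩ := hBnear r' v hv'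
    exact hyy r r' hrr (gv v) (hC.mem v) ⟨z, hz, hvz.trans (min_le_left _ _)⟩
      ⟨z', hz', hvz'.trans (min_le_left _ _)⟩
  · rintro r v ⟨hv, -⟩
    obtain ⟨z, hz, hvz⟩ := hBnear r v hv
    exact ⟨z, hz, hvz.trans ((min_le_right _ _).trans hr2ρ)⟩
  · intro a v hv
    exact le_trans hv hr2ρ

end Crest.Agent.R096.Spp_333
end

-- ▼ part R096/Spp4_333
section

/-!
# R096 (row 96), DOORS / SPH (helper333), part 4: closeness of the faces

`exists_close`: if the embedded graph is near the realisation `L`, then every vertex of the region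
of the face `x` lies near the disc of `x`.
-/

set_option autoImplicit false

open Set Metric

namespace Crest.Agent.R096.Spp_333

open Crest.Agent.R096.Sph_560 Crest.Agent.R096.Ce_537

variable {F : Type*} [NormedAddCommGroup F] [NormedSpace ℝ F]
variable {N R X : Type*} {G : Cub N R X} {Sg : Set F}

/-- a point near all the edges of a node is near the node -/
theorem near_node [Finite N] [Finite R] [Finite X] (L : Lay G Sg) {σ : ℝ} (hσ : 0 < σ) :
    ∃ ρ > 0, ∀ b, ∀ y ∈ Sg, (∀ r, b ∈ G.ends r → ∃ z ∈ L.arc r, dist y z ≤ ρ) →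
      dist y (L.pt b) ≤ σ := by
  have hSgc := isCompact_Sg L
  have key : ∀ b, ∃ ρ > 0, ∀ y ∈ Sg, (∀ r, b ∈ G.ends r → ∃ z ∈ L.arc r, dist y z ≤ ρ) →
      dist y (L.pt b) ≤ σ := by
    intro b
    obtain ⟨r, r', hr, hr', hrr⟩ : ∃ r r', b ∈ G.ends r ∧ b ∈ G.ends r' ∧ r ≠ r' := by
      have h3 := G.three b
      have : 1 < {r | b ∈ G.ends r}.ncard := by rw [h3]; decide
      obtain ⟨r, hr, r', hr', h⟩ := (Set.one_lt_ncard (finite_at G b)).1 this
      exact ⟨r, r', hr, hr', h⟩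
    obtain ⟨ρ, hρ, h⟩ := near_inter hSgc (L.arc_ball r).isCompact.isClosed
      (L.arc_ball r').isCompact.isClosed (U := ball (L.pt b) σ) isOpen_ball (by
        rintro y ⟨hy, hy'⟩
        obtain ⟨a, ha, rfl⟩ := L.arc_arc r r' hrr y hy hy'
        have ha' := L.pt_arc a r' hy'
        by_cases hab : a = b
        · rw [hab]; exact mem_ball_self hσ
        · exfalso
          apply hrr
          apply G.multi
          rw [(Sym2.mem_and_mem_iff hab).1 ⟨ha, hr⟩, (Sym2.mem_and_mem_iff hab).1 ⟨ha', hr'⟩])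
    exact ⟨ρ, hρ, fun y hy h' => (mem_ball.1 (h y hy (h' r hr) (h' r' hr'))).le⟩
  choose ρ hρ h using key
  obtain ⟨ρ0, hρ0, h0⟩ := exists_pos_le ρ hρ
  refine ⟨ρ0, hρ0, fun b y hy h' => h b y hy fun r hr => ?_⟩
  obtain ⟨z, hz, hyz⟩ := h' r hr
  exact ⟨z, hz, hyz.trans (h0 b)⟩

/-- **CLOSE** -/
theorem exists_close [Finite N] [Finite R] [Finite X] (L : Lay G Sg) {η : ℝ} (hη : 0 < η) :
    ∃ ρ > 0, ∃ δ₀ > 0, ∀ {V E T : Type*} [Fintype E] (S : Surf V E T) (gv : V → F),
      Carry S gv Sg δ₀ → ∀ M : Emb S G, (∀ r, ∀ v ∈ M.vs r, ∃ z ∈ L.arc r, dist (gv v) z ≤ ρ) →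
      ∀ x f, M.w x f = 1 → ∀ e, S.On f e → ∀ v ∈ S.ends e, ∃ z ∈ L.disc x, dist (gv v) z ≤ η := by
  classical
  -- nodes off a face
  obtain ⟨η1, hη1, h1⟩ : ∃ η1 > 0, ∀ b x, (∀ r ∈ G.bd x, b ∉ G.ends r) →
      ∀ z ∈ L.disc x, η1 ≤ dist (L.pt b) z := by
    have key : ∀ q : N × X, ∃ d > 0, (∀ r ∈ G.bd q.2, q.1 ∉ G.ends r) →
        ∀ z ∈ L.disc q.2, d ≤ dist (L.pt q.1) z := by
      rintro ⟨b, x⟩
      by_cases h : ∀ r ∈ G.bd x, b ∉ G.ends r
      · obtain ⟨d, hd, h'⟩ := pos_dist (A := {L.pt b}) isCompact_singleton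
          (L.disc_ball x).isCompact.isClosed (by
            rw [Set.disjoint_singleton_left]
            exact pt_notMem_disc L h)
        exact ⟨d, hd, fun _ z hz => h' _ rfl z hz⟩
      · exact ⟨1, one_pos, fun h' => absurd h' h⟩
    choose d hd h using key
    obtain ⟨d0, hd0, h0⟩ := exists_pos_le d hd
    exact ⟨d0, hd0, fun b x hb z hz => (h0 (b, x)).trans (h (b, x) hb z hz)⟩
  set η' := min η η1 with hη'
  have hη'pos : 0 < η' := by positivity
  -- connected sets off the faces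
  have key : ∀ q : X × X, ∃ C : Set F, ∃ d > 0, q.2 ≠ q.1 →
      (∀ y ∈ L.disc q.2, (∀ z ∈ L.disc q.1, η' ≤ dist y z) → y ∈ C) ∧ C ⊆ L.disc q.2 ∧
      IsPreconnected C ∧ ∀ y ∈ C, ∀ z ∈ L.disc q.1, d ≤ dist y z := by
    rintro ⟨x, x'⟩
    by_cases hne : x' = x
    · exact ⟨∅, 1, one_pos, fun h => absurd hne h⟩
    · set A := {y | y ∈ L.disc x' ∧ ∀ z ∈ L.disc x, η' ≤ dist y z} with hA
      have hAc : IsCompact A := by
        have hcl : IsClosed {y : F | ∀ z ∈ L.disc x, η' ≤ dist y z} := by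
          have : {y : F | ∀ z ∈ L.disc x, η' ≤ dist y z} =
              ⋂ z ∈ L.disc x, {y | η' ≤ dist y z} := by ext; simp
          rw [this]
          exact isClosed_biInter fun z _ =>
            isClosed_le continuous_const (continuous_id.dist continuous_const)
        exact (L.disc_ball x').isCompact.inter_right hcl
      have hAd : Disjoint A (L.disc x) := by
        rw [Set.disjoint_left]
        rintro y ⟨-, hy⟩ hy'
        have := hy y hy'
        rw [dist_self] at this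
        linarith
      obtain ⟨C, hC1, hC2, hC3, hC4, hC5⟩ := star_set L hne hAc (fun y hy => hy.1) hAd
      obtain ⟨d, hd, h⟩ := pos_dist hC4 (L.disc_ball x).isCompact.isClosed hC5
      exact ⟨C, d, hd, fun _ => ⟨fun y hy hy' => hC1 ⟨hy, hy'⟩, hC2, hC3, h⟩⟩
  choose C d hd hCd using key
  obtain ⟨d0, hd0, hd0'⟩ := exists_pos_le d hd
  have key2 := fun b => lc L (pt_mem_Sg L b) (show (0 : ℝ) < η' / 2 by positivity)
  choose t1 ht1 C2 hC2 hC2p hC2s hC2a using key2
  obtain ⟨σ, hσ, hσ'⟩ := exists_pos_le t1 ht1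
  obtain ⟨ρ1, hρ1, hnode⟩ := near_node L hσ
  set m := min d0 (η' / 2) with hm
  have hmpos : 0 < m := by positivity
  refine ⟨min ρ1 (m / 3), by positivity, m / 3, by positivity, ?_⟩
  intro V E T _ S gv hC M hM x f hf e hfe v hv
  by_contra hcon
  push Not at hcon
  -- the face of `gv v`
  obtain ⟨x', hx'⟩ : ∃ x', gv v ∈ L.disc x' := by
    have h := hC.mem v
    rw [L.cov] at h
    exact mem_iUnion.1 h
  have hne : x' ≠ x := by
    rintro rfl
    have := hcon _ hx'
    rw [dist_self] at this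
    linarith
  obtain ⟨r0, hr0, hr0'⟩ := exists_out_edge G hne
  obtain ⟨b, hb, hbx⟩ := exists_free_end G hr0'
  obtain ⟨hA, hCsub, hCp, hCdist⟩ := hCd (x, x') hne
  -- the connected set
  have hvC : gv v ∈ C (x, x') := hA _ hx' fun z hz =>
    (min_le_left _ _).trans (hcon z hz).le
  have hbC : L.pt b ∈ C (x, x') := hA _ (L.arc_sub_disc hr0 (L.pt_mem_arc hb)) fun z hz =>
    (min_le_right _ _).trans (h1 b x hbx z hz)
  have hMb : gv (M.pt b) ∈ C2 b := by
    refine hC2s b ⟨hC.mem _, mem_closedBall.2 (le_trans ?_ (hσ' b))⟩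
    refine hnode b _ (hC.mem _) fun r hr => ?_
    obtain ⟨z, hz, hyz⟩ := hM r _ (M.ends_mem r b hr)
    exact ⟨z, hz, hyz.trans (min_le_left _ _)⟩
  have hpre : IsPreconnected (C (x, x') ∪ C2 b) :=
    IsPreconnected.union (L.pt b) hbC (hC2a b) hCp (hC2p b)
  have hsub : C (x, x') ∪ C2 b ⊆ Sg :=
    union_subset (hCsub.trans (disc_sub L x')) fun y hy => (hC2 b hy).1
  have hcar := hC.carry _ hsub hpre v (M.pt b) (Or.inl hvC) (Or.inr hMb)
  have hm3 : (0 : ℝ) ≤ m / 3 := by positivity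
  have hz := w_path M (x := x) ?_ hcar ⟨_, Or.inr hMb, by rw [dist_self]; exact hm3⟩ hr0'
    (M.ends_mem r0 b hb)
  · have := hz e hv f hfe
    rw [this] at hf
    exact absurd hf (by decide)
  · rintro w ⟨y, hy, hwy⟩ r hr hwr
    obtain ⟨z, hz, hwz⟩ := hM r w hwr
    have hzx : z ∈ L.disc x := L.arc_sub_disc hr hz
    have hwz' : dist (gv w) z ≤ m / 3 := hwz.trans (min_le_right _ _)
    have hyz : dist y z ≤ m / 3 + m / 3 := by
      refine (dist_triangle_left y z (gv w)).trans ?_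
      linarith
    rcases hy with hy | hy
    · have h3 := hCdist y hy z hzx
      have h4 := hd0' (x, x')
      have h5 : m ≤ d0 := min_le_left _ _
      linarith
    · have h3 := h1 b x hbx z hzx
      have h4 := mem_closedBall.1 (hC2 b hy).2
      have h5 : m ≤ η' / 2 := min_le_right _ _
      have h6 : η' ≤ η1 := min_le_right _ _
      have h7 := dist_triangle_left (L.pt b) z y
      linarith

end Crest.Agent.R096.Spp_333
end

-- ▼ part R096/Spp5_333

/-!
# R096 (row 96), DOORS / SPH (helper333), part 5: the sphere lemma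

`sph_of_lay` : `θ : Sg → Sg'` near `g` from CARRY and a realisation of a fine cubic graph on `Sg'`;
`sph`        : the same for any PL sphere `Sg'` (with 560's `exists_fine`).

The inputs which are typed by others are the Props `ABS1` (881: paths), `ABS2` (923: faces) and
`FINE` (560: fine cubic structures).
-/

set_option autoImplicit false

open Set Metric

namespace Crest.Agent.R096.Spp_333

open Crest.Agent.R096.Sph_560 Crest.Agent.R096.Ce_537

/-- 881: paths -/
def ABS1 : Prop := ∀ {V E T N R X : Type} [Fintype E] [Finite V] (S : Surf V E T)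
  (G : Cub N R X) (P : Place S G),
  ∃ M : PEmb S G, ∀ r, ∀ v ∈ M.vs r, v ∈ P.Y r ∨ ∃ a ∈ G.ends r, v ∈ P.Z' a

/-- every tile has an even number of edges at every vertex (923) -/
def EvenT {V E T : Type*} [Fintype E] (S : Surf V E T) : Prop :=
  ∀ (f : T) (v : V), Even {e | S.On f e ∧ v ∈ S.ends e}.ncard

/-- 923: faces -/
def ABS2 : Prop := ∀ {V E T N R X : Type} [Fintype E] [Finite T] [Finite R] [Finite X]
  [Nonempty X] (S : Surf V E T) (G : Cub N R X) (M : PEmb S G), EvenT S →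
  ∃ M' : Emb S G, M'.toPEmb = M

/-- 560: fine cubic structures -/
def FINE (F : Type*) [NormedAddCommGroup F] [NormedSpace ℝ F] : Prop :=
  ∀ {K' Sg' : Set F}, IsBall 3 K' Sg' → ∀ {ε : ℝ}, 0 < ε →
    ∃ (N R X : Type) (_ : Finite N) (_ : Finite R) (_ : Finite X) (G : Cub N R X)
      (L : Lay G Sg'), ∀ x, ∀ y ∈ L.disc x, ∀ z ∈ L.disc x, dist y z ≤ ε

variable {F : Type*} [NormedAddCommGroup F] [NormedSpace ℝ F]
  {Em : Type*} [NormedAddCommGroup Em] [NormedSpace ℝ Em]

/-- a tile has an edge -/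
theorem exists_on {V E T : Type*} [Fintype E] (S : Surf V E T) [Nonempty E] (f : T) :
    ∃ e, S.On f e := by
  classical
  by_contra hcon
  push Not at hcon
  obtain ⟨e0⟩ := ‹Nonempty E›
  obtain ⟨f', g', hfg, hall⟩ := S.two e0
  obtain ⟨h, hh⟩ : ∃ h, h ≠ f := by
    by_cases h : f' = f
    · exact ⟨g', fun h' => hfg (h.trans h'.symm)⟩
    · exact ⟨f', h⟩
  have := S.conn (fun h => if h = f then 1 else 0) (by
    intro e a b ha hb
    have h1 : a ≠ f := by rintro rfl; exact hcon e ha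
    have h2 : b ≠ f := by rintro rfl; exact hcon e hb
    rw [if_neg h1, if_neg h2]) f h
  rw [if_pos rfl, if_neg hh] at this
  exact absurd this (by decide)

/-- **SPH over a given fine structure** -/
theorem sph_of_lay (hA1 : ABS1) (hA2 : ABS2) {N R X : Type} [Finite N] [Finite R] [Finite X]
    [Nonempty X] {G : Cub N R X} {Sg' : Set F} (L : Lay G Sg') {ε : ℝ} (hε : 0 < ε)
    (hL : ∀ x, ∀ y ∈ L.disc x, ∀ z ∈ L.disc x, dist y z ≤ ε / 2) :
    ∃ δ₀ > 0, ∀ {V E T : Type} [Fintype E] [Finite V] [Finite T] (S : Surf V E T), EvenT S →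
      ∀ {K Sg : Set Em} (A : Real S Sg), IsBall 3 K Sg → ∀ (gv : V → F), Carry S gv Sg' δ₀ →
      ∀ (g : Em → F), (∀ f e, S.On f e → ∀ v ∈ S.ends e, ∀ p ∈ A.tile f,
        dist (gv v) (g p) ≤ δ₀) →
      ∃ θ : PLEquiv Sg Sg', ∀ p ∈ Sg, dist (θ.f p) (g p) ≤ ε := by
  obtain ⟨ρ, hρ, δ1, hδ1, hclose⟩ := exists_close L (show (0 : ℝ) < ε / 4 by positivity)
  obtain ⟨δ2, hδ2, hplace⟩ := exists_place L hρ
  refine ⟨min (min δ1 δ2) (ε / 4), by positivity, ?_⟩
  intro V E T _ _ _ S hev K Sg A hK gv hC g hg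
  obtain ⟨P, hY, hZ⟩ := hplace S gv (hC.mono ((min_le_left _ _).trans (min_le_right _ _)))
  obtain ⟨M0, hM0⟩ := hA1 S G P
  obtain ⟨M, hM⟩ := hA2 S G M0 hev
  subst hM
  have hvs : ∀ r, ∀ v ∈ M.vs r, ∃ z ∈ L.arc r, dist (gv v) z ≤ ρ := by
    intro r v hv
    rcases hM0 r v hv with h | ⟨a, ha, h⟩
    · exact hY r v h
    · exact ⟨L.pt a, L.pt_mem_arc ha, hZ a v h⟩
  have hcl := hclose S gv (hC.mono ((min_le_left _ _).trans (min_le_left _ _))) M hvs
  obtain ⟨θ, -, -, -, hθ⟩ := M.exists_theta A hK L (g := g) (ε := ε) (by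
    intro x f hf p hp y hy
    obtain ⟨r, hr⟩ := G.bd_ne x
    obtain ⟨e0, -⟩ := M.P_ne r
    have : Nonempty E := ⟨e0⟩
    obtain ⟨e, he⟩ := exists_on S f
    obtain ⟨v, v', hvv⟩ : ∃ u v, S.ends e = s(u, v) := by
      induction h : S.ends e using Sym2.ind with
      | _ a b => exact ⟨a, b, rfl⟩
    have hv : v ∈ S.ends e := by rw [hvv]; exact Sym2.mem_mk_left _ _
    obtain ⟨z, hz, hvz⟩ := hcl x f hf e he v hv
    have h1 := hg f e he v hv p hp
    have h2 := hL x y hy z hz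
    have h3 : dist y (g p) ≤ dist y z + dist z (gv v) + dist (gv v) (g p) :=
      dist_triangle4 _ _ _ _
    have h4 : dist z (gv v) ≤ ε / 4 := by rw [dist_comm]; exact hvz
    have h5 : dist (gv v) (g p) ≤ ε / 4 := h1.trans (min_le_right _ _)
    linarith)
  exact ⟨θ, hθ⟩

/-- **SPH, the sphere lemma** -/
theorem sph_of (hA1 : ABS1) (hA2 : ABS2) (hF : FINE F) {K' Sg' : Set F} (hK' : IsBall 3 K' Sg')
    {ε : ℝ} (hε : 0 < ε) :
    ∃ δ₀ > 0, ∀ {V E T : Type} [Fintype E] [Finite V] [Finite T] (S : Surf V E T), EvenT S →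
      ∀ {K Sg : Set Em} (A : Real S Sg), IsBall 3 K Sg → ∀ (gv : V → F), Carry S gv Sg' δ₀ →
      ∀ (g : Em → F), (∀ f e, S.On f e → ∀ v ∈ S.ends e, ∀ p ∈ A.tile f,
        dist (gv v) (g p) ≤ δ₀) →
      ∃ θ : PLEquiv Sg Sg', ∀ p ∈ Sg, dist (θ.f p) (g p) ≤ ε := by
  obtain ⟨N, R, X, _, _, _, G, L, hL⟩ := hF hK' (show (0 : ℝ) < ε / 2 by positivity)
  have : Nonempty X := by
    -- the sphere is not empty
    have hne : Sg'.Nonempty := by
      obtain ⟨e, he⟩ := hK'
      rw [← he]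
      refine ⟨_, mem_image_of_mem _ (show (fun _ => 1 : Fin 3 → ℝ) ∈ sph 3 from ?_)⟩
      rw [mem_sphere_zero_iff_norm, pi_norm_const]
      exact norm_one
    obtain ⟨y, hy⟩ := hne
    rw [L.cov] at hy
    obtain ⟨x, -⟩ := mem_iUnion.1 hy
    exact ⟨x⟩
  exact sph_of_lay hA1 hA2 L hε hL

end Crest.Agent.R096.Spp_333
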