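import Crest.Agent.R096.Spp0_333
import Crest.Agent.R096.Spp5_333
import Crest.Agent.R096.Shp2_334
import Crest.Agent.R096.Shp3_334

-- ▼ part R096/Sps1_333
section

/-!
# R096 (row 96), DOORS / SPH (helper333), part s1: a constructor for `Surf`

`mkSurf`: a finite cell structure with polygonal tiles (every vertex of a tile is on exactly two of
its edges, the boundary of a tile is connected), vertex links connected, tile free `H¹ = 0`
(helper147's form) and connected is a `Surf` (560), and it satisfies `EvenT` (923).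
-/

set_option autoImplicit false

open Set

namespace Crest.Agent.R096.Spp_333

open Crest.Agent.R096.Sph_560

variable {V E T : Type*} [Fintype E]

omit [Fintype E] in
theorem exists_pair (ends : E → Sym2 V) (e : E) : ∃ u v, ends e = s(u, v) := by
  induction h : ends e using Sym2.ind with
  | _ a b => exact ⟨a, b, rfl⟩

/-- **exactness on a graph from orthogonality to the cycles** -/
theorem exact_of_orth {ends : E → Sym2 V} (nd : ∀ e, ¬ (ends e).IsDiag) (D : Set E)
    (κ : E → ZMod 2)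
    (h : ∀ z : E → ZMod 2, (∀ e, e ∉ D → z e = 0) →
      (∀ v, (∑ e, open Classical in if v ∈ ends e then z e else 0) = 0) →
      ∑ e, z e * κ e = 0) :
    ∃ ψ : V → ZMod 2, ∀ e ∈ D, ∀ u v, ends e = s(u, v) → κ e = ψ u + ψ v := by
  classical
  have hch := exists_pair ends
  choose a b hab using hch
  have hne : ∀ e, a e ≠ b e := fun e h => nd e (by
    rw [hab e, h]; exact Sym2.mk_isDiag_iff.2 rfl)
  let D1 : (V → ZMod 2) →ₗ[ZMod 2] (E → ZMod 2) :=
    { toFun := fun ψ e => if e ∈ D then ψ (a e) + ψ (b e) else 0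
      map_add' := by
        intro ψ ψ'
        ext e
        simp only [Pi.add_apply]
        split_ifs
        · ring
        · simp
      map_smul' := by
        intro c ψ
        ext e
        simp only [Pi.smul_apply, smul_eq_mul, RingHom.id_apply]
        split_ifs
        · ring
        · simp }
  let κ' : E → ZMod 2 := fun e => if e ∈ D then κ e else 0
  by_cases hmem : κ' ∈ LinearMap.range D1
  · obtain ⟨ψ, hψ⟩ := hmem
    refine ⟨ψ, fun e he u v huv => ?_⟩
    have h1 := congrFun hψ e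
    have h2 : (if e ∈ D then ψ (a e) + ψ (b e) else 0) = (if e ∈ D then κ e else 0) := h1
    rw [if_pos he, if_pos he] at h2
    rw [← h2]
    rw [hab e, Sym2.eq_iff] at huv
    rcases huv with ⟨rfl, rfl⟩ | ⟨rfl, rfl⟩
    · rfl
    · exact add_comm _ _
  · exfalso
    obtain ⟨φ, hφ0, hφ⟩ := Submodule.exists_le_ker_of_notMem hmem
    -- the chain of the functional
    let z : E → ZMod 2 := fun e => if e ∈ D then φ (Pi.single e 1) else 0
    have hexp : ∀ x : E → ZMod 2, φ x = ∑ e, x e * φ (Pi.single e 1) := by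
      intro x
      conv_lhs => rw [← Finset.univ_sum_single x]
      rw [map_sum]
      refine Finset.sum_congr rfl fun e _ => ?_
      have : (Pi.single e (x e) : E → ZMod 2) = x e • Pi.single e 1 := by
        rw [← Pi.single_smul, smul_eq_mul, mul_one]
      simp only [this, map_smul, smul_eq_mul]
    have hsum := h z (fun e he => if_neg he) (by
      intro v
      have h1 : φ (D1 (Pi.single v 1)) = 0 := hφ ⟨_, rfl⟩
      rw [hexp] at h1
      refine Eq.trans ?_ h1
      refine Finset.sum_congr rfl fun e _ => ?_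
      show (if v ∈ ends e then (if e ∈ D then φ (Pi.single e 1) else 0) else 0) =
        (if e ∈ D then (Pi.single v (1 : ZMod 2) : V → ZMod 2) (a e) +
          (Pi.single v (1 : ZMod 2) : V → ZMod 2) (b e) else 0) * φ (Pi.single e 1)
      by_cases he : e ∈ D
      · rw [if_pos he, if_pos he]
        by_cases hv : v ∈ ends e
        · rw [if_pos hv]
          rw [hab e, Sym2.mem_iff] at hv
          rcases hv with rfl | rfl
          · rw [Pi.single_eq_same, Pi.single_eq_of_ne (hne e).symm]; ring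
          · rw [Pi.single_eq_same, Pi.single_eq_of_ne (hne e)]; ring
        · rw [if_neg hv]
          rw [hab e, Sym2.mem_iff, not_or] at hv
          rw [Pi.single_eq_of_ne (Ne.symm hv.1), Pi.single_eq_of_ne (Ne.symm hv.2)]
          ring
      · rw [if_neg he, if_neg he]
        simp)
    apply hφ0
    rw [hexp, ← hsum]
    refine Finset.sum_congr rfl fun e _ => ?_
    show (if e ∈ D then κ e else 0) * _ = (if e ∈ D then φ (Pi.single e 1) else 0) * κ e
    split_ifs
    · ring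
    · ring

/-- cell structure with polygonal tiles -/
structure Poly (V E T : Type*) [Fintype E] where
  ends : E → Sym2 V
  nd : ∀ e, ¬ (ends e).IsDiag
  On : T → E → Prop
  two : ∀ e, ∃ f g, f ≠ g ∧ ∀ h, On h e ↔ h = f ∨ h = g
  link : ∀ (v : V) (A : Set T),
    (∀ e, v ∈ ends e → ∀ f g, On f e → On g e → f ∈ A → g ∈ A) →
    ∀ e, v ∈ ends e → ∀ f, On f e → f ∈ A → ∀ e', v ∈ ends e' → ∀ g, On g e' → g ∈ A
  /-- a vertex of a tile is on exactly two edges of the tile -/
  deg2 : ∀ f e v, On f e → v ∈ ends e → ∃ e', e' ≠ e ∧ On f e' ∧ v ∈ ends e' ∧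
    ∀ e'', On f e'' → v ∈ ends e'' → e'' = e ∨ e'' = e'
  /-- the boundary of a tile is connected -/
  bdc : ∀ f (Z : Set V), (∀ e, On f e → ∀ u v, ends e = s(u, v) → u ∈ Z → v ∈ Z) →
    ∀ e e', On f e → On f e' → ∀ v ∈ ends e, ∀ v' ∈ ends e', v ∈ Z → v' ∈ Z
  /-- tile free `H¹ = 0` -/
  h1 : ∀ κ : E → ZMod 2, (∀ f, ∃ ψ : V → ZMod 2, ∀ e, On f e → ∀ u v, ends e = s(u, v) →
      κ e = ψ u + ψ v) → ∃ Ψ : V → ZMod 2, ∀ e u v, ends e = s(u, v) → κ e = Ψ u + Ψ v
  /-- connected -/
  vconn : ∀ Z : Set V, (∀ e u v, ends e = s(u, v) → u ∈ Z → v ∈ Z) → ∀ u v, u ∈ Z → v ∈ Z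
  /-- a tile has an edge -/
  ex_on : ∀ f, ∃ e, On f e

namespace Poly

variable (S : Poly V E T)

/-- a cochain with sum zero on a tile is exact on the tile -/
theorem exact_tile (f : T) (κ : E → ZMod 2)
    (h : (∑ e, open Classical in if S.On f e then κ e else 0) = 0) :
    ∃ ψ : V → ZMod 2, ∀ e, S.On f e → ∀ u v, S.ends e = s(u, v) → κ e = ψ u + ψ v := by
  classical
  refine exact_of_orth S.nd {e | S.On f e} κ ?_
  intro z hz0 hzv
  -- `z` is constant on the edges at a vertex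
  have hloc : ∀ e e' v, S.On f e → S.On f e' → v ∈ S.ends e → v ∈ S.ends e' → z e = z e' := by
    intro e e' v he he' hv hv'
    by_cases hee : e' = e
    · rw [hee]
    · obtain ⟨e1, h1, h2, h3, h4⟩ := S.deg2 f e v he hv
      have h5 := h4 e' he' hv'
      rcases h5 with h5 | h5
      · exact absurd h5 hee
      · subst h5
        have h6 := hzv v
        rw [← Finset.sum_subset (Finset.subset_univ {e, e'}), Finset.sum_pair (Ne.symm hee),
          if_pos hv, if_pos hv'] at h6
        · have h7 : z e = - z e' := by linear_combination h6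
          rw [h7, CharTwo.neg_eq]
        · intro e2 _ h7
          split_ifs with h8
          · apply hz0
            intro h9
            apply h7
            rw [Finset.mem_insert, Finset.mem_singleton]
            exact h4 e2 h9 h8
          · rfl
  -- so it is constant
  have hconst : ∀ e e', S.On f e → S.On f e' → z e = 1 → z e' = 1 := by
    intro e e' he he' h1
    obtain ⟨u, v, huv⟩ := exists_pair S.ends e
    obtain ⟨u', v', huv'⟩ := exists_pair S.ends e'
    have hu : u ∈ S.ends e := by rw [huv]; exact Sym2.mem_mk_left _ _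
    have hu' : u' ∈ S.ends e' := by rw [huv']; exact Sym2.mem_mk_left _ _
    have := S.bdc f {w | ∃ e2, S.On f e2 ∧ w ∈ S.ends e2 ∧ z e2 = 1} (by
      rintro e3 he3 a b hab ⟨e2, h2, h3, h4⟩
      have ha : a ∈ S.ends e3 := by rw [hab]; exact Sym2.mem_mk_left _ _
      have hb : b ∈ S.ends e3 := by rw [hab]; exact Sym2.mem_mk_right _ _
      exact ⟨e3, he3, hb, by rw [← hloc e2 e3 a h2 he3 h3 ha]; exact h4⟩)
      e e' he he' u hu u' hu' ⟨e, he, hu, h1⟩
    obtain ⟨e2, h2, h3, h4⟩ := this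
    rw [← hloc e2 e' u' h2 he' h3 hu']
    exact h4
  by_cases hex : ∃ e, S.On f e ∧ z e = 1
  · obtain ⟨e0, he0, h0⟩ := hex
    rw [← h]
    refine Finset.sum_congr rfl fun e _ => ?_
    by_cases he : S.On f e
    · rw [if_pos he, hconst e0 e he0 he h0, one_mul]
    · rw [if_neg he, hz0 e he, zero_mul]
  · push Not at hex
    apply Finset.sum_eq_zero
    intro e _
    by_cases he : S.On f e
    · rcases Real.two' (z e) with h5 | h5
      · rw [h5, zero_mul]
      · exact absurd h5 (hex e he)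
    · rw [hz0 e he, zero_mul]

/-- **the surface** -/
def surf : Surf V E T where
  ends := S.ends
  nd := S.nd
  On := S.On
  two := S.two
  link := S.link
  sep z hz := sep_of_h1 S.nd S.two (fun κ hκ => S.h1 κ fun f => S.exact_tile f κ (hκ f)) z hz
  conn w hw := by
    have key : ∀ (v : V) e e', v ∈ S.ends e → v ∈ S.ends e' → ∀ f g, S.On f e → S.On g e' →
        w f = w g := by
      intro v e e' he he' f g hf hg
      exact (S.link v {h | w f = w h} (fun e1 _ f1 g1 hf1 hg1 h1 =>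
        (show w f = w f1 from h1).trans (hw e1 f1 g1 hf1 hg1)) e he f hf rfl e' he' g hg)
    intro f g
    obtain ⟨e, he⟩ := S.ex_on f
    obtain ⟨e', he'⟩ := S.ex_on g
    obtain ⟨u, v, huv⟩ := exists_pair S.ends e
    obtain ⟨u', v', huv'⟩ := exists_pair S.ends e'
    have hu : u ∈ S.ends e := by rw [huv]; exact Sym2.mem_mk_left _ _
    have hu' : u' ∈ S.ends e' := by rw [huv']; exact Sym2.mem_mk_left _ _
    have := S.vconn {x | ∀ e, x ∈ S.ends e → ∀ h, S.On h e → w f = w h} (by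
      intro e1 a b hab ha e2 hb h hh
      have ha1 : a ∈ S.ends e1 := by rw [hab]; exact Sym2.mem_mk_left _ _
      have hb1 : b ∈ S.ends e1 := by rw [hab]; exact Sym2.mem_mk_right _ _
      obtain ⟨k, k', -, hall⟩ := S.two e1
      have hk : S.On k e1 := (hall k).2 (Or.inl rfl)
      exact (ha e1 ha1 k hk).trans (key b e1 e2 hb1 hb k h hk hh)) u u'
      (fun e2 he2 h hh => key u e e2 hu he2 f h he hh)
    exact this e' hu' g he'

theorem evenT : EvenT S.surf := by
  intro f v
  rcases Set.eq_empty_or_nonempty {e | S.surf.On f e ∧ v ∈ S.surf.ends e} with h | ⟨e, he, hv⟩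
  · rw [h, Set.ncard_empty]; exact Even.zero
  · obtain ⟨e', h1, h2, h3, h4⟩ := S.deg2 f e v he hv
    have : {e | S.surf.On f e ∧ v ∈ S.surf.ends e} = {e, e'} := by
      ext e''
      constructor
      · rintro ⟨h5, h6⟩
        exact h4 e'' h5 h6
      · rintro (rfl | rfl)
        · exact ⟨he, hv⟩
        · exact ⟨h2, h3⟩
    rw [this, Set.ncard_pair h1.symm]
    exact even_two

end Poly

end Crest.Agent.R096.Spp_333
end

-- ▼ part R096/Sps2_333
section

/-!
# R096 (row 96), DOORS / SPH (helper333), part s2: a sheet of 416's band structure as `Surf` + `Real`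

* `Mfd Q dim`      : the poset of the mesh is a 3-manifold near the 1-cells;
* `sheetPoly`      : the combinatorial surface of the sheet `j` (points, chords, tiles);
* `sheetReal`      : its geometric realisation (560's `Real`) on `{z ∈ Ω | G_j z = 1/2}`.
-/

set_option autoImplicit false

open Set Metric

namespace Crest.Agent.R096.Spp_333

open Crest.Agent.R096.Sph_560 Crest.Agent.R096.Ce_537 Crest.Agent.R096.Bd_416
  Crest.Agent.R096.Shp_334

/-- the mesh is a manifold near its 1-cells -/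
structure Mfd (Q : Type) [PartialOrder Q] (dim : Q → ℕ) : Prop where
  /-- a 2-cell is in exactly two 3-cells -/
  two : ∀ F, dim F = 2 → ∃ q q', q ≠ q' ∧ ∀ r, (F < r ∧ dim r = 3) ↔ r = q ∨ r = q'
  /-- the 3-cells at a 1-cell are connected through the 2-cells at it -/
  link : ∀ e, dim e = 1 → ∀ A : Set Q,
    (∀ F, dim F = 2 → e < F → ∀ q q', dim q = 3 → dim q' = 3 → F < q → F < q' →
      q ∈ A → q' ∈ A) →
    ∀ q q', dim q = 3 → dim q' = 3 → e < q → e < q' → q ∈ A → q' ∈ A
  /-- a 1-cell of a 3-cell is in exactly two 2-cells of it -/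
  dia : ∀ e q, dim e = 1 → dim q = 3 → e < q →
    ∃ F F', F ≠ F' ∧ ∀ G, (dim G = 2 ∧ e < G ∧ G < q) ↔ G = F ∨ G = F'

section comb

variable {Q : Type} [PartialOrder Q] {dim : Q → ℕ} {J Fam : Type}
variable {C : Cmb Q dim J Fam} {j : J}

/-- the piece of a bigger cell over a piece -/
def upP {k l : ℕ} (y : Pce C j k) {q : Q} (h : y.1.1 < q) (hd : dim q = l) : Pce C j l :=
  ⟨⟨q, C.up h y.1.2⟩, hd, by
    show C.col q _ = j
    rw [C.col_up, y.2.2]⟩

theorem sub_upP {k l : ℕ} (y : Pce C j k) {q : Q} (h : y.1.1 < q) (hd : dim q = l) :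
    Sub C y (upP y h hd) := ⟨h, rfl⟩

theorem eq_upP {k l : ℕ} {y : Pce C j k} {t : Pce C j l} (h : Sub C y t) :
    ∃ h' : y.1.1 < t.1.1, t = upP y h' t.2.1 := by
  obtain ⟨h', e⟩ := h
  refine ⟨h', ?_⟩
  apply Subtype.ext
  show t.1 = ⟨t.1.1, C.up h' y.1.2⟩
  rw [e]

theorem upP_congr {k l : ℕ} {y : Pce C j k} {q q' : Q} {h : y.1.1 < q} {hd : dim q = l}
    {h' : y.1.1 < q'} {hd' : dim q' = l} (e : q = q') : upP y h hd = upP y h' hd' := by
  subst e; rfl

/-- two tiles at a chord -/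
theorem two_tiles (hM : Mfd Q dim) (y : Pce C j 2) :
    ∃ f g : Pce C j 3, f ≠ g ∧ ∀ h, Sub C y h ↔ h = f ∨ h = g := by
  obtain ⟨q, q', hqq, hall⟩ := hM.two y.1.1 y.2.1
  obtain ⟨h1, h2⟩ := (hall q).2 (Or.inl rfl)
  obtain ⟨h3, h4⟩ := (hall q').2 (Or.inr rfl)
  refine ⟨upP y h1 h2, upP y h3 h4, fun h => hqq (congrArg (fun t => t.1.1) h), fun t => ?_⟩
  constructor
  · intro ht
    obtain ⟨h', e⟩ := eq_upP ht
    rcases (hall t.1.1).1 ⟨h', t.2.1⟩ with h | h
    · left; rw [e]; exact upP_congr h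
    · right; rw [e]; exact upP_congr h
  · rintro (rfl | rfl)
    · exact sub_upP y h1 h2
    · exact sub_upP y h3 h4

/-- the link of a point -/
theorem link_pt (hM : Mfd Q dim) (v : Pce C j 1) (A : Set (Pce C j 3))
    (hA : ∀ y : Pce C j 2, Sub C v y → ∀ f g, Sub C y f → Sub C y g → f ∈ A → g ∈ A)
    {f g : Pce C j 3} (hf : Sub C v f) (hg : Sub C v g) (hfA : f ∈ A) : g ∈ A := by
  obtain ⟨h1, e1⟩ := eq_upP hf
  obtain ⟨h2, e2⟩ := eq_upP hg
  have := hM.link v.1.1 v.2.1 {q | ∀ (h : v.1.1 < q) (hd : dim q = 3), upP v h hd ∈ A} (by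
    intro F hF heF q q' hq hq' hFq hFq' hqA h' hd'
    have hy := sub_upP v heF hF
    have e3 : ∀ {r : Q} (hFr : F < r) (hr : dim r = 3),
        upP (upP v heF hF) hFr hr = upP v (heF.trans hFr) hr := by
      intro r hFr hr
      apply Subtype.ext
      show (⟨r, C.up hFr (C.up heF v.1.2)⟩ : Σ e, C.I e) = ⟨r, C.up (heF.trans hFr) v.1.2⟩
      rw [C.up_up heF hFr]
    have h5 := hA (upP v heF hF) hy (upP v (heF.trans hFq) hq) (upP v (heF.trans hFq') hq')
      (by rw [← e3 hFq hq]; exact sub_upP _ _ _) (by rw [← e3 hFq' hq']; exact sub_upP _ _ _)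
      (hqA _ _)
    exact h5) f.1.1 g.1.1 f.2.1 g.2.1 h1 h2 (by
      intro h hd
      rw [e1] at hfA
      exact hfA)
  rw [e2]
  exact this h2 g.2.1

/-- the two chords of a tile at a point -/
theorem two_chords (hM : Mfd Q dim) {t : Pce C j 3} {y : Pce C j 2} {v : Pce C j 1}
    (hy : Sub C y t) (hv : Sub C v y) : ∃ y' : Pce C j 2, y' ≠ y ∧ Sub C y' t ∧ Sub C v y' ∧
      ∀ y'', Sub C y'' t → Sub C v y'' → y'' = y ∨ y'' = y' := by
  obtain ⟨hyt, ey⟩ := eq_upP hy
  obtain ⟨hvy, ev⟩ := eq_upP hv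
  obtain ⟨F1, F2, hne, hall⟩ := hM.dia v.1.1 t.1.1 v.2.1 t.2.1 (hvy.trans hyt)
  have key : ∀ F, (dim F = 2 ∧ v.1.1 < F ∧ F < t.1.1) → F ≠ y.1.1 →
      (∀ G, (dim G = 2 ∧ v.1.1 < G ∧ G < t.1.1) → G = y.1.1 ∨ G = F) →
      ∃ y' : Pce C j 2, y' ≠ y ∧ Sub C y' t ∧ Sub C v y' ∧
      ∀ y'', Sub C y'' t → Sub C v y'' → y'' = y ∨ y'' = y' := by
    rintro F ⟨hF, hvF, hFt⟩ hFy hG
    refine ⟨upP v hvF hF, fun h => hFy (congrArg (fun t => t.1.1) h), ?_, sub_upP _ _ _, ?_⟩
    · refine ⟨hFt, ?_⟩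
      show C.up hFt (C.up hvF v.1.2) = t.1.2
      obtain ⟨h1, e1⟩ := hv.trans hy
      rw [← C.up_up hvF hFt]
      exact e1
    · intro y'' h1 h2
      obtain ⟨h3, e3⟩ := eq_upP h2
      obtain ⟨h4, -⟩ := h1
      rcases hG y''.1.1 ⟨y''.2.1, h3, h4⟩ with h5 | h5
      · left
        rw [e3, ev]
        exact upP_congr h5
      · right
        rw [e3]
        exact upP_congr h5
  rcases (hall y.1.1).1 ⟨y.2.1, hvy, hyt⟩ with h | h
  · refine key F2 ((hall F2).2 (Or.inr rfl)) (fun h' => hne (h.symm.trans h'.symm)) ?_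
    intro G hG
    rcases (hall G).1 hG with h' | h'
    · left; rw [h', h]
    · right; exact h'
  · refine key F1 ((hall F1).2 (Or.inl rfl)) (fun h' => hne (h'.trans h)) ?_
    intro G hG
    rcases (hall G).1 hG with h' | h'
    · right; exact h'
    · left; rw [h', h]

/-- a chord of a tile at a point of it -/
theorem exists_chord (hM : Mfd Q dim) {t : Pce C j 3} {v : Pce C j 1} (hv : Sub C v t) :
    ∃ y : Pce C j 2, Sub C v y ∧ Sub C y t := by
  obtain ⟨h, e⟩ := hv
  obtain ⟨F, F', -, hall⟩ := hM.dia v.1.1 t.1.1 v.2.1 t.2.1 h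
  obtain ⟨h1, h2, h3⟩ := (hall F).2 (Or.inl rfl)
  refine ⟨upP v h2 h1, sub_upP _ _ _, h3, ?_⟩
  show C.up h3 (C.up h2 v.1.2) = t.1.2
  rw [← C.up_up h2 h3]
  exact e

end comb

section geo

variable {Q : Type} [PartialOrder Q] {dim : Q → ℕ} {J Fam : Type}
variable {E : Type*} [NormedAddCommGroup E] [NormedSpace ℝ E]
variable {C : Cmb Q dim J Fam} {K : Q → Set E} {g : Gd E J}
  {P : ∀ q, C.I q → Set E} {c : ∀ q, C.I q → E → ℝ} {Ω : Set E}
variable (H : Inv C K univ g P c) (X : Cplx Ω Q dim K) {j : J} (hB : Bls C K c j)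
variable (hM : Mfd Q dim)

/-- the ends of a chord -/
noncomputable def cends (H : Inv C K univ g P c) (X : Cplx Ω Q dim K) (hB : Bls C K c j)
    (y : Pce C j 2) : Sym2 (Pce C j 1) := s(ea H X hB y, eb H X hB y)

theorem mem_cends {y : Pce C j 2} {v : Pce C j 1} : v ∈ cends H X hB y ↔ Sub C v y := by
  rw [cends, Sym2.mem_iff]
  obtain ⟨-, h1, h2, h3⟩ := ends_spec H X hB y
  constructor
  · rintro (rfl | rfl)
    · exact h1
    · exact h2
  · exact h3 v

theorem cends_eq {y : Pce C j 2} {a b : Pce C j 1} (ha : Sub C a y) (hb : Sub C b y)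
    (hab : a ≠ b) : cends H X hB y = s(a, b) := by
  rw [cends]
  obtain ⟨-, h1, h2, h3⟩ := ends_spec H X hB y
  rcases h3 a ha with rfl | rfl <;> rcases h3 b hb with rfl | rfl
  · exact absurd rfl hab
  · rfl
  · exact Sym2.eq_swap
  · exact absurd rfl hab

theorem cends_ne {y : Pce C j 2} {a b : Pce C j 1} (h : cends H X hB y = s(a, b)) : a ≠ b := by
  rintro rfl
  rw [cends, Sym2.eq_iff] at h
  obtain ⟨h0, -⟩ := ends_spec H X hB y
  rcases h with ⟨h1, h2⟩ | ⟨h1, h2⟩ <;> exact h0 (h1.trans h2.symm)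

/-- **the combinatorial surface of a sheet** -/
noncomputable def sheetPoly [Fintype (Pce C j 2)] (h1 : SH1 C j) (hc : SConn C j) :
    Poly (Pce C j 1) (Pce C j 2) (Pce C j 3) where
  ends := cends H X hB
  nd y h := (ends_spec H X hB y).1 (Sym2.mk_isDiag_iff.1 h)
  On t y := Sub C y t
  two y := two_tiles hM y
  link v A hA y hvy f hyf hfA y' hvy' g hyg := by
    have h2 := (mem_cends H X hB).1 hvy
    have h3 := (mem_cends H X hB).1 hvy'
    refine link_pt hM v A (fun y'' h4 f' g' h5 h6 h7 => ?_) (h2.trans hyf) (h3.trans hyg) hfA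
    exact hA y'' ((mem_cends H X hB).2 h4) f' g' h5 h6 h7
  deg2 t y v hyt hv := by
    obtain ⟨y', h2, h3, h4, h5⟩ := two_chords hM hyt ((mem_cends H X hB).1 hv)
    exact ⟨y', h2, h3, (mem_cends H X hB).2 h4,
      fun y'' h6 h7 => h5 y'' h6 ((mem_cends H X hB).1 h7)⟩
  bdc t Z hZ y y' hy hy' v hv v' hv' hvZ := by
    refine tile_bdc H X hB t Z (fun y'' h2 => ?_) (((mem_cends H X hB).1 hv).trans hy)
      (((mem_cends H X hB).1 hv').trans hy') hvZ
    exact ⟨hZ y'' h2 _ _ rfl, hZ y'' h2 _ _ Sym2.eq_swap⟩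
  h1 κ hκ := by
    obtain ⟨Ψ, hΨ⟩ := h1 κ (fun t => by
      obtain ⟨ψ, hψ⟩ := hκ t
      exact ⟨ψ, fun y hy a b ha hb hab => hψ y hy a b (cends_eq H X hB ha hb hab)⟩)
    refine ⟨Ψ, fun y u v huv => ?_⟩
    have hu : u ∈ cends H X hB y := by rw [huv]; exact Sym2.mem_mk_left _ _
    have hv : v ∈ cends H X hB y := by rw [huv]; exact Sym2.mem_mk_right _ _
    exact hΨ y u v ((mem_cends H X hB).1 hu) ((mem_cends H X hB).1 hv) (cends_ne H X hB huv)
  vconn Z hZ u v hu := by
    refine hc.2 Z (fun y a b ha hb haZ => ?_) u v hu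
    by_cases hab : a = b
    · rw [← hab]; exact haZ
    · exact hZ y a b (cends_eq H X hB ha hb hab) haZ
  ex_on t := by
    obtain ⟨v, hv⟩ := exists_sub_pt H X hB t
    obtain ⟨y, -, hy⟩ := exists_chord hM hv
    exact ⟨y, hy⟩

include H X in
/-- a point of the sheet on a chord is an end of it -/
theorem sub_of_pt {k : ℕ} (hk : 1 < k) {y : Pce C j k} {v : Pce C j 1} (h : pt hB v ∈ Zs' c K y) :
    Sub C v y := by
  obtain ⟨m, w, hw, hd, hm, hc, h1, h1'⟩ := Zr_inter H X h (pt_mem hB v)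
  rcases h1' with ⟨e', h'⟩ | ⟨hlt', h'⟩
  · rcases h1 with ⟨e, h2⟩ | ⟨hlt, h2⟩
    · exfalso
      have h3 := y.2.1
      rw [← e, e', v.2.1] at h3
      omega
    · subst e'
      simp only at h'
      subst h'
      exact ⟨hlt, h2⟩
  · have h3 := X.mono _ _ hlt'
    rw [v.2.1] at h3
    omega

/-- **the realisation of a sheet** -/
noncomputable def sheetReal [Fintype (Pce C j 2)] (h1 : SH1 C j) (hc : SConn C j)
    (htop : Top3 Q dim) :
    Real (sheetPoly H X hB hM h1 hc).surf {z | z ∈ Ω ∧ g.G j z = 1/2} where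
  pt := pt hB
  arc := Zs' c K
  tile := Zs' c K
  inj _ _ h := pt_inj H X hB h
  arc_ball y := by
    have h2 : IsBall 1 (Zs' c K y) (Zs' c K y ∩ bdS K y.1.1) := by
      have := hB y.1.1 (by rw [y.2.1]; norm_num) y.1.2 y.2.2
      rwa [y.2.1] at this
    have h3 : Zs' c K y ∩ bdS K y.1.1 = pt hB '' {v | v ∈ cends H X hB y} := by
      ext z
      constructor
      · rintro ⟨hz, hb⟩
        obtain ⟨l, hl, hl', v, hv, hzv⟩ := Zr_bd H X hz hb
        obtain rfl : l = 1 := by omega
        rw [pt_eq hB v] at hzv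
        exact ⟨v, (mem_cends H X hB).2 hv, hzv.symm⟩
      · rintro ⟨v, hv, rfl⟩
        have hv' := (mem_cends H X hB).1 hv
        exact ⟨Zs'_mono H X hv' (pt_mem hB v), sub_bd X hv' (pt_mem hB v)⟩
    rw [h3] at h2
    exact h2
  pt_arc v y h := (mem_cends H X hB).2 (sub_of_pt H X hB (by norm_num) h)
  arc_arc y y' hne z hz hz' := by
    obtain ⟨l, hl, hl', w, hw, hw', hzw⟩ := Zr_inter_ne H X hne hz hz'
    obtain rfl : l = 1 := by omega
    rw [pt_eq hB w] at hzw
    exact ⟨w, (mem_cends H X hB).2 hw, hzw⟩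
  tile_closed t := (hB t.1.1 (by rw [t.2.1]; norm_num) t.1.2 t.2.2).isClosed
  arc_tile t y h := Zs'_mono H X h
  tile_arc t y z hz hz' := by
    obtain ⟨m, w, hw, hd, hm, hcm, h2, h3⟩ := Zr_inter H X hz hz'
    rcases h3 with ⟨e', h'⟩ | ⟨hlt', h'⟩
    · -- `m` is the cell of the chord
      left
      rcases h2 with ⟨e, h4⟩ | ⟨hlt, h4⟩
      · exfalso
        have h5 := t.2.1
        rw [← e, e', y.2.1] at h5
        omega
      · subst e'
        simp only at h'
        subst h'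
        exact ⟨hlt, h4⟩
    · -- `m` is a 1-cell
      right
      have h5 := X.mono _ _ hlt'
      rw [y.2.1] at h5
      have hm1 : dim m = 1 := by omega
      let v : Pce C j 1 := ⟨⟨m, w⟩, hm1, hcm⟩
      refine ⟨v, ?_⟩
      have h6 : z ∈ Zs' c K v := hw
      rw [pt_eq hB v] at h6
      exact h6
  tile_pt t v h := by
    obtain ⟨y, hy, hyt⟩ := exists_chord hM (sub_of_pt H X hB (by norm_num) h)
    exact ⟨y, (mem_cends H X hB).2 hy, hyt⟩
  tile_tile t t' hne z hz hz' := by
    obtain ⟨l, hl, hl', w, hw, hw', hzw⟩ := Zr_inter_ne H X hne hz hz'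
    have hl2 : l = 1 ∨ l = 2 := by omega
    rcases hl2 with rfl | rfl
    · obtain ⟨y, hy, hyt⟩ := exists_chord hM hw
      exact ⟨y, hyt, Zs'_mono H X hy hzw⟩
    · exact ⟨w, hw, hzw⟩
  tile_ne t := by
    have h2 : IsBall 2 (Zs' c K t) (Zs' c K t ∩ bdS K t.1.1) := by
      have := hB t.1.1 (by rw [t.2.1]; norm_num) t.1.2 t.2.2
      rwa [t.2.1] at this
    obtain ⟨e, he⟩ := h2
    have h0 : (0 : Fin 2 → ℝ) ∈ cube 2 := by simp [cube]
    refine ⟨e.f 0, e.mf h0, fun y hy => ?_⟩
    -- the point is on the boundary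
    have hyb : e.f 0 ∈ bdS K t.1.1 := by
      obtain ⟨m, w, hw, hd, hm, hcm, h3, h4⟩ := Zr_inter H X (e.mf h0) hy
      rcases h3 with ⟨e1, -⟩ | ⟨hlt, -⟩
      · exfalso
        have hle : dim m ≤ dim y.1.1 := by
          rcases h4 with ⟨e2, -⟩ | ⟨hlt, -⟩
          · rw [e2]
          · exact (X.mono _ _ hlt).le
        rw [e1, t.2.1, y.2.1] at hle
        omega
      · exact mem_biUnion (show m ∈ {i | i < t.1.1} from hlt) hw.1
    have h5 : e.f 0 ∈ e.f '' sph 2 := by rw [he]; exact ⟨e.mf h0, hyb⟩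
    obtain ⟨s, hs, hse⟩ := h5
    have h6 : s = 0 := by
      rw [← e.li s (sph_subset_cube hs), hse, e.li 0 h0]
    rw [h6] at hs
    have h7 : ‖(0 : Fin 2 → ℝ)‖ = 1 := mem_sphere_zero_iff_norm.1 hs
    rw [norm_zero] at h7
    exact zero_ne_one h7
  cov := by
    rw [← sheet_eq H X htop hB]
    rfl

end geo

end Crest.Agent.R096.Spp_333
end

-- ▼ part R096/Sps3_333

/-!
# R096 (row 96), DOORS / SPH (helper333), part s3: the cells of a 3-dimensional tiling are a manifold

`mfd_cell : Mfd T.Cell dim`, `top3_cell : Top3 T.Cell dim`.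
-/

set_option autoImplicit false

open Set Metric

namespace Crest.Agent.R096.Spp_333

open Crest.Agent.R096.Msh_715 Crest.Agent.R096.Agl3_543 Crest.Agent.R096.Agl5_543
  Crest.Agent.R096.Shp_334 Crest.Agent.R096.Cm_117

variable {E : Type} [NormedAddCommGroup E] [NormedSpace ℝ E] [FiniteDimensional ℝ E]
variable {Om : Set E} {ι : Type} {T : Tiling Om ι}

theorem tcell_inj {q q' : ι} (h : tcell T q = tcell T q') : q = q' := by
  have h1 : Msh_715.P (T.H q) = Msh_715.P (T.H q') := by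
    rw [← tcell_set, ← tcell_set, h]
  obtain ⟨z, hz⟩ := T.ne q
  have h2 := T.at_eq_singleton hz
  have h3 : q' ∈ T.at_ z := by
    rw [Tiling.mem_at, ← h1]
    exact I_sub_P _ hz
  rw [h2] at h3
  exact (mem_singleton_iff.1 h3).symm

/-- a 3-cell is a tile -/
theorem exists_tcell (h3 : Module.finrank ℝ E = 3) {c : T.Cell} (hc : c.dim = 3) :
    ∃ q, c = tcell T q := by
  have h1 : T.V c.pt = ⊤ := by
    apply Submodule.eq_top_of_finrank_eq
    rw [h3]
    exact hc
  obtain ⟨q, hq⟩ := (T.V_eq_top_iff c.pt_mem).1 h1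
  refine ⟨q, Tiling.Cell.ext ?_⟩
  rw [tcell_set, c.set_eq, T.cc_eq_tile hq]

/-- a cell is in a tile iff its point is -/
theorem lt_tcell_iff (h3 : Module.finrank ℝ E = 3) {c : T.Cell} (hc : c.dim < 3) {q : ι} :
    c < tcell T q ↔ q ∈ T.at_ c.pt := by
  constructor
  · intro h
    have h1 := Tiling.Cell.le_def.1 h.le
    rw [tcell_set] at h1
    exact h1 (by rw [c.set_eq]; exact T.self_mem_cc _)
  · intro h
    refine lt_of_le_of_ne ?_ ?_
    · rw [Tiling.Cell.le_def, tcell_set, c.set_eq]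
      exact T.cc_sub_tile h
    · intro h'
      rw [h', tcell_dim (h3 := h3)] at hc
      omega

/-- **the cells of a tiling of dimension three are a manifold near the 1-cells** -/
theorem mfd_cell (h3 : Module.finrank ℝ E = 3) : Mfd T.Cell (fun c => c.dim) where
  two F hF := by
    obtain ⟨i, j, h1, h2, -⟩ := T.two_tiles F.pt_mem (by
      show F.dim + 1 = _
      rw [hF, h3])
    refine ⟨tcell T i, tcell T j, fun h => h1 (tcell_inj h), fun r => ?_⟩
    constructor
    · rintro ⟨hr, hr3⟩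
      obtain ⟨q, rfl⟩ := exists_tcell h3 hr3
      have h4 := (lt_tcell_iff h3 (by rw [hF]; norm_num)).1 hr
      rw [h2] at h4
      rcases h4 with rfl | h4
      · exact Or.inl rfl
      · rw [mem_singleton_iff.1 h4]; exact Or.inr rfl
    · rintro (rfl | rfl)
      · refine ⟨(lt_tcell_iff h3 (by rw [hF]; norm_num)).2 ?_, tcell_dim (h3 := h3) i⟩
        rw [h2]; exact Or.inl rfl
      · refine ⟨(lt_tcell_iff h3 (by rw [hF]; norm_num)).2 ?_, tcell_dim (h3 := h3) j⟩
        rw [h2]; exact Or.inr rfl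
  link e he A hA q q' hq hq' heq heq' hqA := by
    obtain ⟨i, rfl⟩ := exists_tcell h3 hq
    obtain ⟨i', rfl⟩ := exists_tcell h3 hq'
    have hlt : e.dim < 3 := by rw [he]; norm_num
    have h1 := (lt_tcell_iff h3 hlt).1 heq
    have h2 := (lt_tcell_iff h3 hlt).1 heq'
    refine link T h3 e.pt_mem he (A := {i | tcell T i ∈ A}) hqA h1 ?_ i' h2
    intro k hk l x hx hd hpx hat
    have hF : (T.cl hx).dim = 2 := by rw [T.dim_cl hx, hd]
    have heF : e < T.cl hx := by
      refine lt_of_le_of_ne ?_ ?_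
      · rw [Tiling.Cell.le_def, e.set_eq, T.cl_set]
        exact T.cc_sub_of_mem hpx
      · rintro h4
        rw [h4] at he
        rw [hF] at he
        norm_num at he
    have hat' : T.at_ (T.cl hx).pt = {k, l} := by
      rw [T.at_eq_of_mem_oc hx (T.pt_cl hx), hat]
    exact hA (T.cl hx) hF heF (tcell T k) (tcell T l) (tcell_dim (h3 := h3) k)
      (tcell_dim (h3 := h3) l)
      ((lt_tcell_iff h3 (by rw [hF]; norm_num)).2 (by rw [hat']; exact Or.inl rfl))
      ((lt_tcell_iff h3 (by rw [hF]; norm_num)).2 (by rw [hat']; exact Or.inr rfl)) hk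
  dia e q he hq heq := by
    obtain ⟨i, rfl⟩ := exists_tcell h3 hq
    have hlt : e.dim < 3 := by rw [he]; norm_num
    have h1 := (lt_tcell_iff h3 hlt).1 heq
    obtain ⟨x₁, hx1, x₂, hx2, hd1, hd2, hq1, hq2, hp1, hp2, hne, huniq⟩ :=
      two_cells T h3 e.pt_mem he h1
    refine ⟨T.cl hx1, T.cl hx2, fun h => hne (congrArg Tiling.Cell.set h), fun G => ?_⟩
    have key : ∀ x (hx : x ∈ Om), T.dim x = 2 → i ∈ T.at_ x → e.pt ∈ T.cc x →
        (T.cl hx).dim = 2 ∧ e < T.cl hx ∧ T.cl hx < tcell T i := by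
      intro x hx hd hix hex
      have hF : (T.cl hx).dim = 2 := by rw [T.dim_cl hx, hd]
      refine ⟨hF, lt_of_le_of_ne ?_ ?_, ?_⟩
      · rw [Tiling.Cell.le_def, e.set_eq, T.cl_set]
        exact T.cc_sub_of_mem hex
      · rintro h4
        rw [h4] at he
        rw [hF] at he
        norm_num at he
      · refine (lt_tcell_iff h3 (by rw [hF]; norm_num)).2 ?_
        rw [T.at_eq_of_mem_oc hx (T.pt_cl hx)]
        exact hix
    constructor
    · rintro ⟨hG, heG, hGq⟩
      have h4 := (lt_tcell_iff h3 (by rw [hG]; norm_num)).1 hGq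
      have h5 : e.pt ∈ T.cc G.pt := by
        rw [← G.set_eq]
        exact Tiling.Cell.le_def.1 heG.le (by rw [e.set_eq]; exact T.self_mem_cc _)
      rcases huniq G.pt G.pt_mem hG h4 h5 with h | h
      · left; exact Tiling.Cell.ext (by rw [G.set_eq, h]; rfl)
      · right; exact Tiling.Cell.ext (by rw [G.set_eq, h]; rfl)
    · rintro (rfl | rfl)
      · exact key x₁ hx1 hd1 hq1 hp1
      · exact key x₂ hx2 hd2 hq2 hp2

/-- every cell lies in a 3-cell -/
theorem top3_cell (h3 : Module.finrank ℝ E = 3) : Top3 T.Cell (fun c => c.dim) := by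
  intro c
  obtain ⟨i, hi⟩ := T.at_nonempty c.pt_mem
  refine ⟨tcell T i, ?_, tcell_dim (h3 := h3) i⟩
  rw [Tiling.Cell.le_def, tcell_set, c.set_eq]
  exact T.cc_sub_tile hi

end Crest.Agent.R096.Spp_333
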