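import Crest.Agent.R096.Sphs1_4
import Crest.Agent.R096.Shp4_334
import Crest.Agent.R096.Sps3_333
import Crest.Agent.R096.Bd19_416
import Crest.Agent.R096.Cm3_117
import Crest.Agent.R096.Arc9_778

-- ▼ part R096/Sphs2_4
section

/-! # Row 96, SPHERE (helper4), part 2: the realised sheet of the main class bounds a ball which
contains the core point and stays inside `f⁻¹ (int D)`. -/

set_option autoImplicit false

open Set Filter Topology Metric Module

namespace Crest.Agent.R096.Sphs_4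

open Crest.Agent.R096.Msh_715 Crest.Agent.R096.Agl4_543 Crest.Agent.R096.Agl5_543
  Crest.Agent.R096.Coh_184 Crest.Agent.R096.Main_4 Crest.Agent.R096.Ginv_543
  Crest.Agent.R096.Lab_184 Crest.Agent.R096.Seq_213 Crest.Agent.R096.Cm_117
  Crest.Agent.R096.Bd_416 Crest.Agent.R096.Shp_334 Crest.Agent.R096.Ce_537

open scoped Classical

section cells

variable {E : Type} [NormedAddCommGroup E] [NormedSpace ℝ E] [FiniteDimensional ℝ E]
variable {Om : Set E} {ι : Type} {T : Tiling Om ι} {h3 : finrank ℝ E = 3}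
variable {s : GSt (meshC T h3) (fun _ : Unit => ())}
variable {h : LF s} {hon : ∀ w ∈ s.P, w ∈ Om ∧ T.dim w = 1} {Lam : Unit → E → ZMod 2}
  {hLam : ∀ j, ∀ e ∈ Om, T.dim e = 1 → ∀ a b, T.cc e = segment ℝ a b →
      Lam j a + Lam j b = (((gPts s j : Set E) ∩ T.cc e).ncard : ZMod 2)}
variable {g : Gd E Unit} {P : ∀ q, (cmb h hon Lam hLam).I q → Set E}
  {c : ∀ q, (cmb h hon Lam hLam).I q → E → ℝ}

/-- `G` is continuous -/
theorem continuousOn_G (H : Inv (cmb h hon Lam hLam) (fun c : T.Cell => c.set) univ g P c) :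
    ContinuousOn (g.G ()) Om := by
  have X := T.cplx
  have := Tw_458.continuousOn_of_cover (K := fun c : T.Cell => c.set) (Ω := Om) X.cover X.lf
    (D := univ) (f := g.G ())
    (fun q => by rw [inter_univ]; exact ((H.is q (mem_univ q)).pG ()).1)
    (fun q => by rw [inter_univ]; exact X.isClosed q)
  rwa [inter_univ] at this

/-- `G` on a tile without points of the sheet: the label of any vertex -/
theorem G_of_empty (H : Inv (cmb h hon Lam hLam) (fun c : T.Cell => c.set) univ g P c) {q : ι}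
    (hq : ∀ w ∈ s.P, w ∉ Msh_715.P (T.H q)) {z : E} (hz : z ∈ Msh_715.P (T.H q)) :
    g.G () z = 1/2 - sg (Lam () (bv (tcell T q))) / 2 := by
  have hz' : z ∈ (tcell T q).set := by rw [tcell_set]; exact hz
  have h1 := H.PF (tcell T q) (mem_univ _) () z hz'
  have h2 : IsEmpty ((cmb h hon Lam hLam).I (tcell T q)) := by
    refine ⟨fun x => ?_⟩
    obtain ⟨w, -⟩ := Quot.exists_rep (x : Pc s (tcell T q))
    have h4 : (w.1 : E) ∈ Msh_715.P (T.H q) := tcell_set (T := T) q ▸ w.2.2.1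
    exact hq w.1 w.2.1 h4
  rw [h1, Finset.prod_eq_one (fun x _ => (h2.false x).elim), mul_one]
  rfl

end cells

section homeo

open Crest.AnalysisR.VecCalc3 Crest.AnalysisR.Sobolev

variable {f : R3 → R3} {Om La : Set R3} {ι : Type} {T : Tiling Om ι} {h3 : finrank ℝ R3 = 3}
variable {s : GSt (meshC T h3) (fun _ : Unit => ())}
variable {h : LF s} {hon : ∀ w ∈ s.P, w ∈ Om ∧ T.dim w = 1} {lam : R3 → ZMod 2}
  {hLam : ∀ j : Unit, ∀ e ∈ Om, T.dim e = 1 → ∀ a b, T.cc e = segment ℝ a b →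
      (fun _ : Unit => lam) j a + (fun _ : Unit => lam) j b =
        (((gPts s j : Set R3) ∩ T.cc e).ncard : ZMod 2)}
variable {g : Gd R3 Unit} {P : ∀ q, (cmb h hon (fun _ => lam) hLam).I q → Set R3}
  {c : ∀ q, (cmb h hon (fun _ => lam) hLam).I q → R3 → ℝ}

/-- `G = 0` on the far tiles -/
theorem G_far (H : Inv (cmb h hon (fun _ => lam) hLam) (fun c : T.Cell => c.set) univ g P c)
    {D : Set R3} (hl : FarLab T f D (gPts s ()) lam)
    (hsupp : ∀ w ∈ s.P, ∀ q, w ∈ Msh_715.P (T.H q) → Msh_715.P (T.H q) ⊆ f ⁻¹' interior D)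
    {q : ι} (hq : ¬ Msh_715.P (T.H q) ⊆ f ⁻¹' interior D) {z : R3}
    (hz : z ∈ Msh_715.P (T.H q)) : g.G () z = 0 := by
  rw [G_of_empty H (fun w hw hwq => hq (hsupp w hw q hwq)) hz]
  have h1 : lam (bv (tcell T q)) = 0 := by
    refine hl.far q hq _ ?_
    have := bv_mem (tcell T q)
    rwa [tcell_set] at this
  show 1/2 - sg (lam (bv (tcell T q))) / 2 = 0
  rw [h1, sg_zero]; norm_num

/-- `G = 1` on a tile without points which has a vertex with label `1` -/
theorem G_core (H : Inv (cmb h hon (fun _ => lam) hLam) (fun c : T.Cell => c.set) univ g P c)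
    (hl : IsLab T (gPts s ()) lam) {q : ι} (hq : ∀ w ∈ s.P, w ∉ Msh_715.P (T.H q)) {v₀ : R3}
    (hv₀ : v₀ ∈ Msh_715.P (T.H q)) (hd₀ : T.dim v₀ = 0) (h0 : lam v₀ = 1) {z : R3}
    (hz : z ∈ Msh_715.P (T.H q)) : g.G () z = 1 := by
  rw [G_of_empty H hq hz]
  have hbq : bv (tcell T q) ∈ Msh_715.P (T.H q) := by
    have := bv_mem (tcell T q)
    rwa [tcell_set] at this
  -- the label is constant on the tile: use an interior point
  obtain ⟨y, hy⟩ := T.ne q
  have hyP := I_sub_P _ hy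
  have h1 : lam (bv (tcell T q)) = lam v₀ := by
    refine hl.const_geom (K := {y}) isPreconnected_singleton
      (singleton_subset_iff.2 (T.sub q hyP)) ?_
      (mem_VM hyP (mem_singleton y) hbq (bv_dim _)) (mem_VM hyP (mem_singleton y) hv₀ hd₀)
    rintro i ⟨y', hy', rfl⟩ u hu huP
    have hi : i ∈ T.at_ y' := hy'
    rw [T.at_eq_singleton hy, mem_singleton_iff] at hi
    rw [hi] at huP
    exact hq u (mem_gPts.1 hu).1 huP
  show 1/2 - sg (lam (bv (tcell T q))) / 2 = 1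
  rw [h1, h0, sg_one]; norm_num

end homeo

/-- (B) of the split (helper458): the side of a PL sphere given by a level function is a ball -/
def BallLvl (E : Type) [NormedAddCommGroup E] [NormedSpace ℝ E] : Prop :=
  ∀ {Om : Set E}, IsOpen Om → ∀ {G : E → ℝ}, ContinuousOn G Om → ∀ {B : Set E}, IsCompact B →
    B ⊆ Om → (∀ z ∈ Om, z ∉ B → G z = 0) →
    Nonempty (PLEquiv (sph 3) {z | z ∈ Om ∧ G z = 1/2}) → (∃ x₀ ∈ Om, 1/2 < G x₀) →
    IsBall 3 {z | z ∈ Om ∧ 1/2 ≤ G z} {z | z ∈ Om ∧ G z = 1/2} ∧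
      frontier {z | z ∈ Om ∧ 1/2 ≤ G z} = {z | z ∈ Om ∧ G z = 1/2} ∧
      interior {z | z ∈ Om ∧ 1/2 ≤ G z} = {z | z ∈ Om ∧ 1/2 < G z}

section ball

open Crest.AnalysisR.VecCalc3 Crest.AnalysisR.Sobolev

variable {f : R3 → R3} {Om La : Set R3} {ι : Type} {T : Tiling Om ι} {h3 : finrank ℝ R3 = 3}
variable {s : GSt (meshC T h3) (fun _ : Unit => ())}
variable {h : LF s} {hon : ∀ w ∈ s.P, w ∈ Om ∧ T.dim w = 1} {lam : R3 → ZMod 2}
  {hLam : ∀ j : Unit, ∀ e ∈ Om, T.dim e = 1 → ∀ a b, T.cc e = segment ℝ a b →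
      (fun _ : Unit => lam) j a + (fun _ : Unit => lam) j b =
        (((gPts s j : Set R3) ∩ T.cc e).ncard : ZMod 2)}
variable {g : Gd R3 Unit} {P : ∀ q, (cmb h hon (fun _ => lam) hLam).I q → Set R3}
  {c : ∀ q, (cmb h hon (fun _ => lam) hLam).I q → R3 → ℝ}

/-- **THE BALL OF THE MAIN CLASS** -/
theorem ball_of_state (hBL : BallLvl R3) (hOm : IsOpen Om) (hf : IsHomeomorphOn f Om La)
    (hE : Gp_702.ExistStmt) (hN : Gp_702.NormStmt)
    (H : Inv (cmb h hon (fun _ => lam) hLam) (fun c : T.Cell => c.set) univ g P c)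
    (hB : Bls (cmb h hon (fun _ => lam) hLam) (fun c : T.Cell => c.set) c ())
    (h1 : s.H1 ()) (hc : s.Conn ()) {D : Set R3} (hD : IsCompact D) (hDL : D ⊆ La)
    (hl : FarLab T f D (gPts s ()) lam)
    (hsupp : ∀ w ∈ s.P, ∀ q, w ∈ Msh_715.P (T.H q) → Msh_715.P (T.H q) ⊆ f ⁻¹' interior D)
    {q : ι} (hq : ∀ w ∈ s.P, w ∉ Msh_715.P (T.H q)) {v₀ : R3}
    (hv₀ : v₀ ∈ Msh_715.P (T.H q)) (hd₀ : T.dim v₀ = 0) (h0 : lam v₀ = 1) :
    ∃ K : Set R3, K = {z | z ∈ Om ∧ 1/2 ≤ g.G () z} ∧ IsBall 3 K (frontier K) ∧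
      frontier K = {z | z ∈ Om ∧ g.G () z = 1/2} ∧ Msh_715.P (T.H q) ⊆ interior K ∧
      (∀ z ∈ K, ∀ i, z ∈ Msh_715.P (T.H i) → Msh_715.P (T.H i) ⊆ f ⁻¹' interior D) ∧
      K ⊆ Om := by
  have X := T.cplx
  have Dc : Dic (cmb h hon (fun _ => lam) hLam) s () := cmb_dic h hon (fun _ => lam) hLam ()
  have hfar : ∀ z ∈ Om, ∀ i, z ∈ Msh_715.P (T.H i) → g.G () z ≠ 0 →
      Msh_715.P (T.H i) ⊆ f ⁻¹' interior D := by
    intro z _ i hzi hG
    by_contra hcon
    exact hG (G_far H hl hsupp hcon hzi)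
  have f1 : Finite (Pce (cmb h hon (fun _ => lam) hLam) () 1) := Dc.finite1
  have f3 : Finite (Pce (cmb h hon (fun _ => lam) hLam) () 3) := finite3 H X hB
  have hS := sheet_sphere hE hN h3 hOm H X hB (Spp_333.top3_cell h3) (Dc.sh1 h1) (Dc.sconn hc)
  obtain ⟨fi, a1, a2, a3, a4, a5, a6⟩ := hf
  have hBc : IsCompact (fi '' D) := hD.image_of_continuousOn (a6.mono hDL)
  have hBO : fi '' D ⊆ Om := by
    rintro _ ⟨y, hy, rfl⟩; exact a2 (hDL hy)
  have hG1 : ∀ z ∈ Msh_715.P (T.H q), g.G () z = 1 := fun z hz =>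
    G_core H hl.lab hq hv₀ hd₀ h0 hz
  obtain ⟨b1, b2, b3⟩ := hBL hOm (continuousOn_G H) hBc hBO (by
    intro z hz hzB
    by_contra hG
    obtain ⟨i, hi⟩ := T.cov z hz
    have h4 := hfar z hz i hi hG hi
    exact hzB ⟨f z, interior_subset h4, a3 z hz⟩) hS
    ⟨v₀, T.sub q hv₀, by rw [hG1 v₀ hv₀]; norm_num⟩
  refine ⟨_, rfl, ?_, b2, ?_, ?_, fun z hz => hz.1⟩
  · rw [b2]; exact b1
  · rw [b3]
    intro z hz
    exact ⟨T.sub q hz, by rw [hG1 z hz]; norm_num⟩
  · intro z hz i hi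
    refine hfar z hz.1 i hi ?_
    have := hz.2
    intro h4
    rw [h4] at this
    norm_num at this

end ball

end Crest.Agent.R096.Sphs_4
end

-- ▼ part R096/Bd20_416
section

/-!
# R096 (row 96), P4-MESH, part 13: the order of the crossing points of an edge for 117's `cmb`
(helper416)
-/

set_option autoImplicit false
set_option linter.unusedSectionVars false

open Set Topology Filter Metric Module

namespace Crest.Agent.R096.Bd_416

open Crest.Agent.R096.Msh_715 Crest.Agent.R096.Lab_184 Crest.Agent.R096.Agl5_543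
  Crest.Agent.R096.Seq_213 Crest.Agent.R096.St_147 Crest.Agent.R096.Cm_117

variable {E : Type} [NormedAddCommGroup E] [NormedSpace ℝ E]

/-! ### points of a segment -/

lemma mem_seg_iff {p q w w' : E} (hw : w ∈ segment ℝ p q) (hw' : w' ∈ segment ℝ p q) :
    w' ∈ segment ℝ p w ↔ dist p w' ≤ dist p w := by
  rw [segment_eq_image_lineMap] at hw hw'
  obtain ⟨t, ht, rfl⟩ := hw
  obtain ⟨t', ht', rfl⟩ := hw'
  by_cases hpq : p = q
  · subst hpq
    simp
  have hd : 0 < dist p q := dist_pos.2 hpq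
  have d1 : ∀ r : ℝ, 0 ≤ r → dist p (AffineMap.lineMap p q r) = r * dist p q := by
    intro r hr
    rw [dist_left_lineMap, Real.norm_of_nonneg hr]
  rw [d1 t ht.1, d1 t' ht'.1]
  constructor
  · intro h
    rw [segment_eq_image_lineMap] at h
    obtain ⟨r, hr, he⟩ := h
    have h1 : dist p (AffineMap.lineMap p (AffineMap.lineMap p q t) r) = r * (t * dist p q) := by
      rw [dist_left_lineMap, Real.norm_of_nonneg hr.1, d1 t ht.1]
    rw [he, d1 t' ht'.1] at h1
    rw [h1]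
    have h2 : 0 ≤ t * dist p q := mul_nonneg ht.1 hd.le
    nlinarith [hr.2]
  · intro h
    have htt : t' ≤ t := le_of_mul_le_mul_right h hd
    rw [segment_eq_image_lineMap]
    by_cases h0 : t = 0
    · have : t' = 0 := le_antisymm (h0 ▸ htt) ht'.1
      refine ⟨0, ⟨le_rfl, zero_le_one⟩, ?_⟩
      rw [this]; simp
    · have htp : 0 < t := lt_of_le_of_ne ht.1 (Ne.symm h0)
      refine ⟨t' / t, ⟨div_nonneg ht'.1 ht.1, (div_le_one htp).2 htt⟩, ?_⟩
      simp only [AffineMap.lineMap_apply, vsub_eq_sub, vadd_eq_add]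
      rw [add_sub_cancel_right, smul_smul, div_mul_cancel₀ _ h0]

lemma eq_of_dist {p q w w' : E} (hw : w ∈ segment ℝ p q) (hw' : w' ∈ segment ℝ p q)
    (h : dist p w = dist p w') : w = w' := by
  rw [segment_eq_image_lineMap] at hw hw'
  obtain ⟨t, ht, rfl⟩ := hw
  obtain ⟨t', ht', rfl⟩ := hw'
  by_cases hpq : p = q
  · subst hpq; simp
  have hd : 0 < dist p q := dist_pos.2 hpq
  rw [dist_left_lineMap, dist_left_lineMap, Real.norm_of_nonneg ht.1,
    Real.norm_of_nonneg ht'.1] at h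
  rw [mul_right_cancel₀ hd.ne' h]

/-! ### the order numbers -/

variable {Om : Set E} {ι : Type} {T : Tiling Om ι}
variable [FiniteDimensional ℝ E] {h3 : finrank ℝ E = 3} {J C : Type} {fam : J → C}
variable {s : GSt (meshC T h3) fam}

/-- order number of a crossing point of an edge, seen from the base vertex -/
noncomputable def ek (h : LF s) (c : T.Cell) (x : Pc s c) : ℕ :=
  Set.ncard {y : Pc s c | dist (bv c) (rep h y) < dist (bv c) (rep h x)}

lemma edge_seg (c : T.Cell) (hc : c.dim = 1) : ∃ q, c.set = segment ℝ (bv c) q := by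
  obtain ⟨a, b, hab, e1, e2, ha0, hb0, ha, hb⟩ := T.edge_eq c.pt_mem hc
  have hm := bv_mem c
  rw [c.set_eq] at hm ⊢
  rcases T.vertex_of_edge c.pt_mem hc e1 hm (bv_dim c) with h | h
  · exact ⟨b, by rw [h, e1]⟩
  · exact ⟨a, by rw [h, e1, segment_symm]⟩

lemma rep_in (h : LF s) (c : T.Cell) (x : Pc s c) : rep h x ∈ c.set := (mem_pts.1 (rep_mem h x)).1.2.1

lemma ek_lt (h : LF s) (c : T.Cell) {x x' : Pc s c}
    (hd : dist (bv c) (rep h x') < dist (bv c) (rep h x)) : ek h c x' < ek h c x := by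
  have := h.pc c
  refine Set.ncard_lt_ncard ?_ (Set.toFinite _)
  refine ⟨fun y hy => lt_trans hy hd, fun hc => ?_⟩
  have h1 : dist (bv c) (rep h x') < dist (bv c) (rep h x') := hc hd
  exact lt_irrefl _ h1

lemma rep_inj (h : LF s) (c : T.Cell) {x x' : Pc s c} (he : rep h x = rep h x') : x = x' :=
  pts_disj (rep_mem h x) (he ▸ rep_mem h x')

lemma ek_lt_iff (h : LF s) (c : T.Cell) (hc : c.dim = 1) {x x' : Pc s c} :
    ek h c x' < ek h c x ↔ dist (bv c) (rep h x') < dist (bv c) (rep h x) := by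
  refine ⟨fun hk => ?_, ek_lt h c⟩
  by_contra hd
  rcases (not_lt.1 hd).lt_or_eq with h1 | h1
  · exact absurd (ek_lt h c h1) (not_lt.2 hk.le)
  · obtain ⟨q, hq⟩ := edge_seg c hc
    have h2 := eq_of_dist (hq ▸ rep_in h c x) (hq ▸ rep_in h c x') h1
    rw [rep_inj h c h2] at hk
    exact lt_irrefl _ hk

/-- **the order numbers are injective** -/
theorem ek_inj (h : LF s) (c : T.Cell) (hc : c.dim = 1) : Function.Injective (ek h c) := by
  intro x x' he
  by_contra hne
  obtain ⟨q, hq⟩ := edge_seg c hc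
  have h1 : dist (bv c) (rep h x) ≠ dist (bv c) (rep h x') := fun hd =>
    hne (rep_inj h c (eq_of_dist (hq ▸ rep_in h c x) (hq ▸ rep_in h c x') hd))
  rcases lt_or_gt_of_ne h1 with h2 | h2
  · exact absurd he (ek_lt h c h2).ne
  · exact absurd he (ek_lt h c h2).ne'

/-- **sides on an edge = order** (for all pairs of crossing points) -/
theorem nl_edge (h : LF s) (c : T.Cell) (hc : c.dim = 1) {x x' : Pc s c} (hne : x ≠ x') :
    nl h c x' (rep h x) = if ek h c x' < ek h c x then 1 else 0 := by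
  obtain ⟨q, hq⟩ := edge_seg c hc
  have hx : rep h x ∉ pts h c x' := fun hm => hne (pts_disj (rep_mem h x) hm)
  have h1 := nl_xl h c x' c.pt (by rw [c.set_eq]; exact T.self_mem_cc _) hc (rep h x)
    (by rw [← c.set_eq]; exact rep_in h c x) (bv c) (by rw [← c.set_eq]; exact bv_mem c) hx
    (not_pts_of_dim (bv_dim c))
  rw [nl_bv, add_zero] at h1
  have h2 : pts h c x' = {rep h x'} := by
    ext u
    rw [Finset.mem_singleton]
    exact ⟨fun hu => pts_edge hc x' hu (rep_mem h x'), fun hu => hu ▸ rep_mem h x'⟩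
  rw [h1]
  unfold nQ
  rw [h2, Finset.sum_singleton, segment_symm]
  have hwx : rep h x ∈ segment ℝ (bv c) q := hq ▸ rep_in h c x
  have hwx' : rep h x' ∈ segment ℝ (bv c) q := hq ▸ rep_in h c x'
  rw [mem_seg_iff hwx hwx']
  have hne' : dist (bv c) (rep h x') ≠ dist (bv c) (rep h x) := fun hd =>
    hne (rep_inj h c (eq_of_dist hwx hwx' hd.symm))
  by_cases hlt : dist (bv c) (rep h x') < dist (bv c) (rep h x)
  · rw [if_pos hlt.le, if_pos ((ek_lt_iff h c hc).2 hlt)]
  · rw [if_neg fun hle => hlt (lt_of_le_of_ne hle hne'),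
      if_neg fun hk => hlt ((ek_lt_iff h c hc).1 hk)]

section cmb

variable (h : LF s) (hon : ∀ w ∈ s.P, w ∈ Om ∧ T.dim w = 1) (Lam : J → E → ZMod 2)
    (hLam : ∀ j, ∀ e ∈ Om, T.dim e = 1 → ∀ a b, T.cc e = segment ℝ a b →
      Lam j a + Lam j b = (((gPts s j : Set E) ∩ T.cc e).ncard : ZMod 2))

/-- the hypothesis `ord` of `mesh_cone` for `cmb` -/
theorem cmb_ord (c : T.Cell) (hc : c.dim = 1) (x x' : Pc s c) (hne : x ≠ x') :
    (ek h c x' < ek h c x → (cmb h hon Lam hLam).side c x x' = 1) ∧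
      (ek h c x < ek h c x' → (cmb h hon Lam hLam).side c x x' = 0) := by
  have h1 : (cmb h hon Lam hLam).side c x x' = nl h c x' (rep h x) := rfl
  rw [h1, nl_edge h c hc hne]
  exact ⟨fun hk => if_pos hk, fun hk => if_neg (not_lt.2 hk.le)⟩

end cmb

end Crest.Agent.R096.Bd_416
end

-- ▼ part R096/Sphs3_4

/-! # Row 96, SPHERE (helper4), part 3: the band structure with `Bls` for every `cmb` without given
part; sheets of the one-class state. -/

set_option autoImplicit false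

open Set Filter Topology Metric Module

namespace Crest.Agent.R096.Sphs_4

open Crest.Agent.R096.Ce_537 Crest.Agent.R096.Bd_416 Crest.Agent.R096.Arc_778
  Crest.Agent.R096.Shp_334

open scoped Classical

section gen

variable {Q : Type} [PartialOrder Q] {dim : Q → ℕ} {J Fam : Type}
variable {E : Type} [NormedAddCommGroup E] [NormedSpace ℝ E] [FiniteDimensional ℝ E]
variable {C : Cmb Q dim J Fam} {K : Q → Set E} {Ω : Set E}

/-- the empty `Gd` -/
noncomputable def gd0 (E : Type) [NormedAddCommGroup E] [NormedSpace ℝ E] (J : Type) : Gd E J where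
  G := fun _ _ => 0
  B := fun _ => ∅
  lev := fun _ _ => 0
  tr := fun _ _ => 0

/-- **the band structure of a `Cmb` with no given part, and its sheets are made of balls** -/
theorem exists_inv_bls (X : Cplx Ω Q dim K) (hdim : ∀ q, dim q ≤ 3) {k : ∀ q, C.I q → ℕ}
    (L : CmbG C ∅ k)
    (ord : ∀ τ, dim τ = 1 → ∀ x x', x ≠ x' → C.fam (C.col τ x) = C.fam (C.col τ x') →
      (k τ x' < k τ x → C.side τ x x' = 1) ∧ (k τ x < k τ x' → C.side τ x x' = 0)) :
    ∃ g P c, Inv C K univ g P c ∧ ∀ j, Bls C K c j := by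
  have hch : ∀ τ, ∀ _ : 1 ≤ dim τ, ∃ e : PLEquiv (cube (dim τ)) (K τ),
      e.f '' sph (dim τ) = bdS K τ := fun τ _ => (X.isBall τ)
  choose e he using hch
  obtain ⟨g, P, c, H, hT⟩ := mesh_cone (C := C) (K := K) (Y := ℝ) X (R := ∅)
    (fun q hq => hq.elim) (g0 := gd0 E J) (P0 := fun _ _ => ∅) (c0 := fun _ _ _ => 0) Inv.empty
    (b := fun _ => 1/4) (fun _ => by norm_num) (fun _ => by norm_num)
    (wt := fun _ => 1) (fun _ => one_pos) (Λ := fun _ _ _ => 0) (fun _ => ∅)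
    (fun _ _ _ h => h.elim) (fun _ _ _ h => h.elim) (fun _ _ h => h) (fun _ h => h.elim)
    (ε := 1/2) (by norm_num) (by norm_num)
    (fun τ => 1 / (2 * ((Fintype.card (C.I τ) : ℝ) + 1))) (fun τ => by positivity)
    (fun τ _ => by
      simp only [Finset.sum_const, Finset.card_univ, nsmul_eq_mul, mul_one]
      rw [div_mul_eq_mul_div, one_mul, div_le_div_iff₀ (by positivity) (by norm_num)]
      nlinarith)
    (fun _ _ => 0) (fun _ _ => 0) (fun _ _ _ => le_rfl) e (fun τ _ hd => he τ hd)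
    (fun _ _ _ _ h => h.elim) (fun _ _ _ _ h => h.elim) k (fun τ h hd => L.inj τ h hd)
    (fun τ _ hd => ord τ hd) (fun _ _ _ _ h => h.elim) (fun _ _ => 0)
    (fun _ _ _ _ h => h.elim) (fun _ _ _ _ h => h.elim)
    (RlG C K) (fun D g P c H τ hd hτ => rlG_rank X D g P c H τ hd hτ)
    (fun c τ x x' h => rlG_ins c τ x x' h)
    (SpecG C K k) (fun τ _ hd M => specG0 hd M)
    (fun τ _ hd e he hb p hE hord => specG1 X hd e he hb hE hord)
    (fun D g P c H τ hd _ _ hτ κ ρ Dp hρ => specG2 H X hd hτ Dp hρ _ _) 4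
  have hu : (∅ : Set Q) ∪ {q | dim q < 4} = univ := by
    rw [empty_union]
    exact eq_univ_of_forall fun q => by have := hdim q; show dim q < 4; omega
  rw [hu] at H hT
  refine ⟨g, P, c, H, fun j => ?_⟩
  have hG : Geo C K c ∅ k := Geo.of_trk (fun _ _ h => h) fun q _ => hT q (mem_univ q)
  have hR : GeoR C K c (∅ : Set Q) := ⟨fun _ h => h.elim, fun _ h => h.elim, fun _ h => h.elim⟩
  exact bls H X hG hR L j

end gen

end Crest.Agent.R096.Sphs_4
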