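import Crest.Agent.R096.Sq11_55

-- ▼ part R096/Sq12_55
section

/-!
# R096 (row 96), SOBSQ, part 12 (helper55): energies; one composition step; products; null sets
-/

set_option autoImplicit false

open Set Metric Filter Topology MeasureTheory

namespace Crest.Agent.R096.Sq_55

open Crest.Agent.R096.Ce_537 Crest.Agent.R096.Bd_416 Crest.Agent.R96.Hole_348
open Crest.AnalysisR.VecCalc3 Crest.AnalysisR.Sobolev Crest.Agent.R096.Sk_962
open scoped ENNReal NNReal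

/-! ### null sets -/

lemma null_pre {χ : E3 ≃ₜ E3} (h : PLOn χ.symm univ) {P : E3 → Prop} (hP : ∀ᵐ y, P y) :
    ∀ᵐ x, P (χ x) := by
  obtain ⟨h1, S, h2⟩ := h
  obtain ⟨C, hC⟩ := Crest.Agent.R96.Sob7_199.lip_of_sel (s := univ) convex_univ h1 h2
  have h3 := null_image (A := univ) hC (ae_iff.1 hP)
  refine measure_mono_null ?_ h3
  intro x hx
  exact ⟨χ x, ⟨mem_univ _, hx⟩, χ.symm_apply_apply x⟩

lemma wid_smul {a : ℝ} (ha : 0 ≤ a) (z : E3) : wid (a • z) = a * wid z := by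
  have : (fun j : Fin 2 => (a • z) j.succ : Fin 2 → ℝ) = a • (fun j : Fin 2 => z j.succ) := rfl
  rw [wid, this, norm_smul, Real.norm_eq_abs, abs_of_nonneg ha]
  rfl

lemma wid_add_le (z w : E3) : wid (z + w) ≤ wid z + wid w := by
  have : (fun j : Fin 2 => (z + w) j.succ : Fin 2 → ℝ) =
    (fun j : Fin 2 => z j.succ) + (fun j : Fin 2 => w j.succ) := rfl
  rw [wid, this]
  exact norm_add_le _ _

lemma convex_Dc : Convex ℝ Dc := by
  intro z hz w hw a b ha hb hab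
  have h1 : |z 0| + wid z ≤ 1 := hz
  have h2 : |w 0| + wid w ≤ 1 := hw
  show |(a • z + b • w) 0| + wid (a • z + b • w) ≤ 1
  have h3 := wid_add_le (a • z) (b • w)
  rw [wid_smul ha, wid_smul hb] at h3
  have h4 : |(a • z + b • w) 0| ≤ a * |z 0| + b * |w 0| := by
    have : (a • z + b • w) 0 = a * z 0 + b * w 0 := rfl
    rw [this]
    refine (abs_add_le _ _).trans ?_
    rw [abs_mul, abs_mul, abs_of_nonneg ha, abs_of_nonneg hb]
  nlinarith

lemma null_Dc : volume (Dc \ Do) = 0 := by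
  refine measure_mono_null ?_ (convex_Dc.addHaar_frontier volume)
  rintro z ⟨hz, hz2⟩
  have h1 : |z 0| + wid z ≤ 1 := hz
  have h2 : ¬ (|z 0| + wid z < 1) := hz2
  have h3 : |z 0| + wid z = 1 := le_antisymm h1 (not_lt.1 h2)
  refine ⟨subset_closure hz, fun hi => ?_⟩
  have h4 : Tendsto (fun t : ℝ => (1 + t) • z) (𝓝[>] 0) (𝓝 z) := by
    have : Tendsto (fun t : ℝ => (1 + t) • z) (𝓝 0) (𝓝 ((1 + 0 : ℝ) • z)) := by
      apply Continuous.tendsto
      fun_prop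
    rw [add_zero, one_smul] at this
    exact this.mono_left nhdsWithin_le_nhds
  have h5 := h4.eventually (mem_interior_iff_mem_nhds.1 hi)
  obtain ⟨t, ht, ht0⟩ := (h5.and self_mem_nhdsWithin).exists
  have ht0 : (0:ℝ) < t := ht0
  have h6 : |((1 + t) • z) 0| + wid ((1 + t) • z) ≤ 1 := ht
  have h7 : ((1 + t) • z) 0 = (1 + t) * z 0 := rfl
  rw [wid_smul (by linarith), h7, abs_mul, abs_of_pos (by linarith : 0 < 1 + t), ← mul_add, h3]
    at h6
  linarith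

lemma Cht.null {K U K' U' : Set E3} {e e' : E3 → E3} {L L' : ℝ≥0} (c : Cht K U K' U' e e' L L')
    (h : volume (K' \ U') = 0) : volume (K \ U) = 0 := by
  refine measure_mono_null ?_ (null_image (A := K') c.lip' h)
  rintro x ⟨hx, hx2⟩
  exact ⟨e x, ⟨c.maps hx, c.maps hx, fun h1 => hx2 ((c.mem x hx).1 h1)⟩, c.inv x hx⟩

lemma Cell.null (C : Cell) : volume (C.P \ C.U) = 0 := by
  refine C.cht.null ?_
  rw [closedBall_sdiff_ball]
  exact Measure.addHaar_sphere _ _ _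

lemma Face.null (F : Face) : volume (F.K \ F.V) = 0 := F.cht.null null_Dc

/-! ### energies -/

/-- a measurable version of the energy density -/
structure IsEn (p : ℝ) (Om : Set R3) (G : Fin 3 → R3 → R3) (u : E3 → ℝ≥0∞) : Prop where
  meas : Measurable u
  int : ∫⁻ z, u z ≠ ∞
  eq : ∀ᵐ z, w2 z ∈ Om → u z = En p G (w2 z)

lemma IsEn.fin {p : ℝ} {Om : Set R3} {G : Fin 3 → R3 → R3} {u : E3 → ℝ≥0∞}
    (h : IsEn p Om G u) : ∀ᵐ z, u z ≠ ∞ := by
  filter_upwards [ae_lt_top h.meas h.int] with z hz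
  exact hz.ne

lemma IsEn.setInt {p : ℝ} {Om : Set R3} {G : Fin 3 → R3 → R3} {u : E3 → ℝ≥0∞}
    (h : IsEn p Om G u) (hOm : IsOpen Om) {S : Set E3} (hS : ∀ z ∈ S, w2 z ∈ Om) :
    ∫⁻ z in S, u z = ∫⁻ z in S, En p G (w2 z) := by
  have m : MeasurableSet (w2 ⁻¹' Om) := (hOm.preimage w2.continuous).measurableSet
  have h1 : ∀ᵐ z ∂(volume.restrict (w2 ⁻¹' Om)), u z = En p G (w2 z) :=
    (ae_restrict_iff' m).2 h.eq
  exact lintegral_congr_ae (ae_mono (Measure.restrict_mono hS le_rfl) h1)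

lemma exists_isEn {p : ℝ} (hp : 0 < p) {Om La : Set R3} {f : R3 → R3} {G : Fin 3 → R3 → R3}
    (hOm : IsOpen Om) (h : SH p Om La f G) : ∃ u, IsEn p Om G u := by
  have hm := fun j => (h.memG j).1
  have m : MeasurableSet Om := hOm.measurableSet
  set g : Fin 3 → R3 → R3 := fun j => (hm j).mk (G j) with hg
  have mg : ∀ j, Measurable (g j) := fun j => (hm j).stronglyMeasurable_mk.measurable
  have eg : ∀ j, ∀ᵐ x ∂(volume.restrict Om), G j x = g j x := fun j => (hm j).ae_eq_mk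
  set v : R3 → ℝ≥0∞ := Om.indicator fun x => ∑ j : Fin 3, ‖g j x‖ₑ ^ p with hv
  have mv : Measurable v := by
    refine Measurable.indicator ?_ m
    exact Finset.measurable_sum _ fun j _ => ((mg j).enorm).pow_const p
  refine ⟨fun z => v (w2 z), mv.comp w2.continuous.measurable, ?_, ?_⟩
  · have e1 : ∫⁻ z, v (w2 z) = ∫⁻ x, v x := mp_w2.lintegral_comp mv
    rw [e1, hv, lintegral_indicator m, lintegral_finsetSum _ fun j _ => ((mg j).enorm).pow_const p]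
    refine (ENNReal.sum_lt_top.2 fun j _ => ?_).ne
    have h1 : ∫⁻ x in Om, ‖g j x‖ₑ ^ p = ∫⁻ x in Om, ‖G j x‖ₑ ^ p := by
      refine lintegral_congr_ae ?_
      filter_upwards [eg j] with x hx
      rw [hx]
    rw [h1]
    have h2 := lintegral_rpow_enorm_lt_top_of_eLpNorm_lt_top (μ := volume.restrict Om)
      (p := ENNReal.ofReal p) (f := G j) (by rw [Ne, ENNReal.ofReal_eq_zero]; linarith)
      ENNReal.ofReal_ne_top (h.memG j).2
    rwa [ENNReal.toReal_ofReal hp.le] at h2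
  · have h1 : ∀ᵐ x, ∀ j, x ∈ Om → G j x = g j x := by
      rw [ae_all_iff]
      intro j
      exact (ae_restrict_iff' m).1 (eg j)
    filter_upwards [ae_w2.1 h1] with z hz hzO
    show v (w2 z) = _
    rw [hv, indicator_of_mem hzO, En]
    exact Finset.sum_congr rfl fun j _ => by rw [hz j hzO]

/-- one composition step, with measurable energies -/
theorem comp_step {p : ℝ} (hp : 0 < p) (hS : SobChain p) {Om La : Set R3} {f : R3 → R3}
    {G : Fin 3 → R3 → R3} (hOm : IsOpen Om) (h : SH p Om La f G) {u : E3 → ℝ≥0∞}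
    (hu : IsEn p Om G u) (χ : E3 ≃ₜ E3) (h1 : PLOn χ univ) (h2 : PLOn χ.symm univ)
    (hΨ : ∀ z, w2 (χ z) ∈ Om ↔ w2 z ∈ Om) :
    ∃ (G' : Fin 3 → R3 → R3) (u' : E3 → ℝ≥0∞), SH p Om La (fun x => f (toR χ x)) G' ∧
      IsEn p Om G' u' ∧
      ∀ᵐ z, w2 z ∈ Om → ∀ c : ℝ, 1 ≤ c → LLV c χ z →
        ENNReal.ofReal ((6:ℝ)^(-p)) * u' z ≤ ENNReal.ofReal (c^p) * u (χ z) := by
  obtain ⟨G', k1, k2⟩ := step hp hS hOm h χ h1 h2 hΨ
  obtain ⟨u', hu'⟩ := exists_isEn hp hOm k1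
  refine ⟨G', u', k1, hu', ?_⟩
  filter_upwards [k2, hu'.eq, null_pre h2 hu.eq] with z z1 z2 z3 hz c hc hcz
  rw [z2 hz, z3 ((hΨ z).2 hz)]
  exact z1 hz c hc hcz

/-- the energy on an open set where the map has an estimate -/
lemma Est.energy {p : ℝ} {Om : Set R3} {χ : E3 ≃ₜ E3} {u u' : E3 → ℝ≥0∞}
    (hu : Measurable u) (hfin : ∀ᵐ z, u z ≠ ∞)
    (hstep : ∀ᵐ z, w2 z ∈ Om → ∀ c : ℝ, 1 ≤ c → LLV c χ z →
        ENNReal.ofReal ((6:ℝ)^(-p)) * u' z ≤ ENNReal.ofReal (c^p) * u (χ z))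
    {U A B : Set E3} {a b : ℝ≥0∞} (H : Est p χ U A B a b) (hU : ∀ z ∈ U, w2 z ∈ Om)
    {S : Set E3} (mS : MeasurableSet S) (hS : ∀ x ∈ U, x ∈ S → χ x ∈ S) :
    ∫⁻ x in U ∩ S, u' x ≤
      ENNReal.ofReal ((6:ℝ)^p) * (a * (∫⁻ x in A ∩ S, u x) + b * ∫⁻ x in B ∩ S, u x) := by
  have key := H.inter mS hS (F := fun z => ENNReal.ofReal ((6:ℝ)^(-p)) * u' z) hu hfin (by
    filter_upwards [hstep] with z hz hzU c hc hcz
    exact hz (hU z hzU) c hc hcz)
  rw [lintegral_const_mul' _ _ ENNReal.ofReal_ne_top] at key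
  rw [six_cancel p (∫⁻ x in U ∩ S, u' x)]
  exact mul_le_mul' le_rfl key

/-- products -/
lemma Est.prod {p : ℝ} {h H : E3 → E3} {O A B : Set E3} {a b : ℝ≥0∞} (hO : IsOpen O)
    (h3 : ∀ x ∈ O, H x = h x) (E : Est p h O A B a b) : Est p H O A B a b := by
  intro u F hu hfin hF
  refine E u F hu hfin ?_
  filter_upwards [hF] with x hx hxO c hc hcx
  rw [← h3 x hxO]
  refine hx hxO c hc ?_
  filter_upwards [hcx, hO.mem_nhds hxO] with y hy hyO
  rw [h3 y hyO, h3 x hxO]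
  exact hy

end Crest.Agent.R096.Sq_55
end

-- ▼ part R096/Sq13_55
section

/-!
# R096 (row 96), SOBSQ, part 13 (helper55): geometry of the charts
-/

set_option autoImplicit false

open Set Metric Filter Topology MeasureTheory

namespace Crest.Agent.R096.Sq_55

open Crest.Agent.R096.Ce_537 Crest.Agent.R096.Bd_416 Crest.Agent.R96.Hole_348
open scoped ENNReal NNReal

/-- closed neighbourhoods -/
def nb (δ : ℝ) (S : Set E3) : Set E3 := {x | ∃ y ∈ S, ‖x - y‖ ≤ δ}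

lemma nb_mono {δ δ' : ℝ} (h : δ ≤ δ') {S S' : Set E3} (hS : S ⊆ S') : nb δ S ⊆ nb δ' S' := by
  rintro x ⟨y, hy, hxy⟩
  exact ⟨y, hS hy, hxy.trans h⟩

lemma abs_zero_le (z : E3) : |z 0| ≤ ‖z‖ := by
  rw [← Real.norm_eq_abs]; exact norm_le_pi_norm z 0

lemma wid_le (z : E3) : wid z ≤ ‖z‖ := by
  rw [wid, pi_norm_le_iff_of_nonneg (norm_nonneg _)]
  intro j
  exact norm_le_pi_norm z j.succ

lemma wid_sub_le (z w : E3) : wid z - wid w ≤ ‖z - w‖ := by
  have h1 := wid_add_le (z - w) w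
  rw [sub_add_cancel] at h1
  have h2 := wid_le (z - w)
  linarith

lemma norm_le_max {z : E3} {a : ℝ} (h0 : |z 0| ≤ a) (h1 : wid z ≤ a) : ‖z‖ ≤ a := by
  have ha : 0 ≤ a := (abs_nonneg _).trans h0
  rw [pi_norm_le_iff_of_nonneg ha]
  intro j
  refine Fin.cases ?_ (fun i => ?_) j
  · exact h0
  · exact (norm_le_pi_norm (fun j : Fin 2 => z j.succ) i).trans h1

lemma exists_rim_pt (z : E3) (h : wid z ≤ 1) :
    ∃ r : E3, r 0 = 0 ∧ wid r = 1 ∧ ‖z - r‖ ≤ max |z 0| (1 - wid z) := by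
  set w : Fin 2 → ℝ := fun j => z j.succ with hw
  have hwz : wid z = ‖w‖ := rfl
  by_cases h0 : w = 0
  · refine ⟨Fin.cons (α := fun _ => ℝ) 0 (fun _ => 1), rfl, ?_, ?_⟩
    · show ‖(fun j : Fin 2 => (Fin.cons (α := fun _ => ℝ) 0 (fun _ => 1) : E3) j.succ)‖ = 1
      simp only [Fin.cons_succ]
      rw [pi_norm_const, norm_one]
    · apply norm_le_max
      · refine le_trans (le_of_eq ?_) (le_max_left _ _)
        show |z 0 - 0| = _
        rw [sub_zero]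
      · refine le_trans ?_ (le_max_right _ _)
        rw [hwz, h0, norm_zero, sub_zero, wid, pi_norm_le_iff_of_nonneg zero_le_one]
        intro j
        have : z j.succ = 0 := congrFun h0 j
        show ‖z j.succ - 1‖ ≤ 1
        rw [this]; norm_num
  · have hn : 0 < ‖w‖ := norm_pos_iff.2 h0
    refine ⟨Fin.cons (α := fun _ => ℝ) 0 (‖w‖⁻¹ • w), rfl, ?_, ?_⟩
    · show ‖(fun j : Fin 2 => (Fin.cons (α := fun _ => ℝ) 0 (‖w‖⁻¹ • w) : E3) j.succ)‖ = 1
      simp only [Fin.cons_succ]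
      rw [show (fun j => (‖w‖⁻¹ • w) j) = ‖w‖⁻¹ • w from rfl, norm_smul, norm_inv, norm_norm,
        inv_mul_cancel₀ hn.ne']
    · apply norm_le_max
      · refine le_trans (le_of_eq ?_) (le_max_left _ _)
        show |z 0 - 0| = _
        rw [sub_zero]
      · refine le_trans ?_ (le_max_right _ _)
        have e1 : (fun j : Fin 2 => (z - Fin.cons (α := fun _ => ℝ) 0 (‖w‖⁻¹ • w)) j.succ) =
            (1 - ‖w‖⁻¹) • w := by
          funext j
          show z j.succ - ‖w‖⁻¹ * w j = (1 - ‖w‖⁻¹) * w j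
          rw [sub_mul, one_mul]
        rw [wid, e1, norm_smul, hwz, Real.norm_eq_abs, abs_sub_comm, abs_of_nonneg]
        · rw [sub_mul, inv_mul_cancel₀ hn.ne', one_mul]
        · rw [hwz] at h
          have := (one_le_inv₀ hn).2 h
          linarith

lemma inter_frontier {s V : Set E3} (hs : IsPreconnected s) (hV : IsOpen V)
    (h1 : (s ∩ V).Nonempty) (h2 : (s ∩ Vᶜ).Nonempty) : (s ∩ frontier V).Nonempty := by
  by_contra h
  rw [not_nonempty_iff_eq_empty] at h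
  have key : ∀ x ∈ s, x ∉ V → x ∈ (closure V)ᶜ := by
    intro x hx hxV hxc
    have : x ∈ s ∩ frontier V := ⟨hx, hxc, by rwa [hV.interior_eq]⟩
    rw [h] at this
    exact this
  obtain ⟨x, hx, hxV⟩ := h2
  obtain ⟨y, -, hy1, hy2⟩ := hs V (closure V)ᶜ hV isClosed_closure.isOpen_compl
    (fun x hx => by
      by_cases hxV : x ∈ V
      · exact Or.inl hxV
      · exact Or.inr (key x hx hxV)) h1 ⟨x, hx, key x hx hxV⟩
  exact hy2 (subset_closure hy1)

/-! ### cells -/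

namespace Cell

variable (C : Cell)

lemma M_pos : (0:ℝ) < C.M := by
  have : (1:ℝ) ≤ C.M := by exact_mod_cast C.one
  linarith

lemma M_one : (1:ℝ) ≤ C.M := by exact_mod_cast C.one

lemma R_pos : (0:ℝ) < C.R := by exact_mod_cast C.pos

/-- points of the chart layer are near the boundary -/
lemma layer {η : ℝ} (h0 : η ≤ 1) {x : E3} (hx : x ∈ C.P) (h : 1 - η < ‖C.e x‖) :
    ∃ y ∈ C.P \ C.U, ‖x - y‖ ≤ C.M * C.R * η := by
  set z := C.e x with hz
  have hz1 : ‖z‖ ≤ 1 := mem_closedBall_zero_iff.1 (C.cht.maps hx)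
  have hz0 : 0 < ‖z‖ := by linarith
  set z' := ‖z‖⁻¹ • z with hz'
  have n1 : ‖z'‖ = 1 := by rw [hz', norm_smul, norm_inv, norm_norm, inv_mul_cancel₀ hz0.ne']
  have n2 : ‖z - z'‖ ≤ η := by
    have : z - z' = (1 - ‖z‖⁻¹) • z := by rw [hz', sub_smul, one_smul]
    rw [this, norm_smul, Real.norm_eq_abs, abs_sub_comm, abs_of_nonneg, sub_mul,
      inv_mul_cancel₀ hz0.ne', one_mul]
    · linarith
    · have := (one_le_inv₀ hz0).2 hz1
      linarith
  have m1 : z' ∈ closedBall (0 : E3) 1 := by rw [mem_closedBall_zero_iff, n1]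
  have m2 : z ∈ closedBall (0 : E3) 1 := C.cht.maps hx
  refine ⟨C.e' z', ⟨C.cht.maps' m1, fun h1 => ?_⟩, ?_⟩
  · have := (C.cht.mem' m1).1 h1
    rw [mem_ball_zero_iff, n1] at this
    exact lt_irrefl _ this
  · have h1 := C.cht.lip'.dist_le_mul _ m2 _ m1
    rw [C.cht.inv x hx, dist_eq_norm, dist_eq_norm] at h1
    refine h1.trans ?_
    push_cast
    exact mul_le_mul_of_nonneg_left n2 (by positivity)

/-- the cell is contained in the closure of its open part -/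
lemma sub_closure : C.P ⊆ closure C.U := by
  intro x hx
  have hz : C.e x ∈ closedBall (0 : E3) 1 := C.cht.maps hx
  have h1 : C.e x ∈ closure (ball (0 : E3) 1) := by
    rw [closure_ball _ one_ne_zero]; exact hz
  have h2 : ContinuousWithinAt C.e' (ball 0 1) (C.e x) :=
    (C.cht.pl'.1 _ hz).mono ball_subset_closedBall
  have h3 := h2.mem_closure_image h1
  rw [C.cht.inv x hx] at h3
  refine closure_mono ?_ h3
  rintro _ ⟨z, hz, rfl⟩
  exact C.cht.eU' hz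

lemma disjoint_P {C D : Cell} (h : Disjoint C.U D.U) : Disjoint C.P D.U := by
  have h1 : Disjoint (closure C.U) D.U := h.closure_left D.cht.opU
  exact h1.mono_left C.sub_closure

end Cell

/-! ### faces -/

namespace Face

variable (F : Face)

lemma M_pos : (0:ℝ) < F.M := by
  have : (1:ℝ) ≤ F.M := by exact_mod_cast F.one
  linarith

lemma M_one : (1:ℝ) ≤ F.M := by exact_mod_cast F.one

lemma ρ_pos : (0:ℝ) < F.ρ := by exact_mod_cast F.pos

lemma rim_mem {r : E3} (h0 : r 0 = 0) (h1 : wid r = 1) : r ∈ Dc := by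
  show |r 0| + wid r ≤ 1
  rw [h0, h1]; norm_num

lemma near_aux {x : E3} (hx : x ∈ F.K) {d : ℝ} (h0 : |F.e x 0| ≤ d) (h1 : 1 - wid (F.e x) ≤ d) :
    ∃ r ∈ F.rim, ‖x - r‖ ≤ F.M * F.ρ * d := by
  have hz : |F.e x 0| + wid (F.e x) ≤ 1 := F.cht.maps hx
  obtain ⟨r, r0, r1, r2⟩ := exists_rim_pt (F.e x) (by
    have := abs_nonneg (F.e x 0)
    linarith)
  refine ⟨F.e' r, ⟨r, ⟨r0, r1⟩, rfl⟩, ?_⟩
  have h3 := F.cht.lip'.dist_le_mul _ (F.cht.maps hx) _ (rim_mem r0 r1)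
  rw [F.cht.inv x hx, dist_eq_norm, dist_eq_norm] at h3
  refine h3.trans ?_
  push_cast
  exact mul_le_mul_of_nonneg_left (r2.trans (max_le h0 h1)) (by positivity)

/-- points of the lateral layer at small height are near the rim -/
lemma near {x : E3} (hx : x ∈ F.K) {σ η : ℝ} (hη : 0 ≤ η) (h0 : |F.e x 0| ≤ σ)
    (h1 : (1 - η) * (1 - |F.e x 0|) ≤ wid (F.e x)) :
    ∃ r ∈ F.rim, ‖x - r‖ ≤ F.M * F.ρ * (σ + η) := by
  have := abs_nonneg (F.e x 0)
  refine F.near_aux hx (by linarith) ?_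
  nlinarith

/-- a point of the face near the complement of `V` is near the rim -/
lemma exit {x y : E3} (hy : y ∈ F.V) (hy0 : F.e y 0 = 0) (hx : x ∉ F.V) {d : ℝ}
    (hd : ‖x - y‖ ≤ d) : ∃ r ∈ F.rim, ‖y - r‖ ≤ 2 * (F.M * F.M) * d := by
  have hMρ := F.ρ_pos
  have hM := F.M_pos
  obtain ⟨x', hx1, hx2⟩ := inter_frontier ((convex_segment y x).isPreconnected) F.cht.opU
    ⟨y, left_mem_segment ℝ y x, hy⟩ ⟨x, right_mem_segment ℝ y x, hx⟩
  have hxK : x' ∈ F.K := closure_minimal F.cht.sub F.cht.clK hx2.1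
  have hxV : x' ∉ F.V := by
    have := hx2.2
    rwa [F.cht.opU.interior_eq] at this
  have hyK : y ∈ F.K := F.cht.sub hy
  have h1 : ‖x' - y‖ ≤ d := by
    have h2 : x' ∈ closedBall y d := by
      refine (convex_closedBall y d).segment_subset ?_ ?_ hx1
      · rw [mem_closedBall, dist_self]; exact (norm_nonneg _).trans hd
      · rw [mem_closedBall, dist_eq_norm]; exact hd
    rwa [mem_closedBall, dist_eq_norm] at h2
  have h2 := F.cht.lip.dist_le_mul _ hxK _ hyK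
  rw [dist_eq_norm, dist_eq_norm] at h2
  have h3 : ‖F.e x' - F.e y‖ ≤ F.M / F.ρ * d := by
    refine h2.trans ?_
    push_cast
    exact mul_le_mul_of_nonneg_left h1 (by positivity)
  have h4 : |F.e x' 0| + wid (F.e x') = 1 := by
    have a1 : |F.e x' 0| + wid (F.e x') ≤ 1 := F.cht.maps hxK
    have a2 : ¬ (|F.e x' 0| + wid (F.e x') < 1) := fun h => hxV ((F.cht.mem x' hxK).1 h)
    exact le_antisymm a1 (not_lt.1 a2)
  have h5 : |F.e x' 0| ≤ F.M / F.ρ * d := by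
    have := abs_zero_le (F.e x' - F.e y)
    have e : (F.e x' - F.e y) 0 = F.e x' 0 := by
      show F.e x' 0 - F.e y 0 = _
      rw [hy0, sub_zero]
    rw [e] at this
    exact this.trans h3
  have h6 : wid (F.e x') - wid (F.e y) ≤ F.M / F.ρ * d := (wid_sub_le _ _).trans h3
  obtain ⟨r, hr, hr2⟩ := F.near_aux hyK (d := 2 * (F.M / F.ρ * d)) (by
      rw [hy0, abs_zero]
      have := (norm_nonneg _).trans h3
      linarith) (by linarith)
  refine ⟨r, hr, hr2.trans (le_of_eq ?_)⟩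
  field_simp

end Face

end Crest.Agent.R096.Sq_55
end

-- ▼ part R096/Sq14_55

/-!
# R096 (row 96), SOBSQ, part 14 (helper55): **the main theorem** `sobsq`
-/

set_option autoImplicit false

open Set Metric Filter Topology MeasureTheory

namespace Crest.Agent.R096.Sq_55

open Crest.Agent.R096.Ce_537 Crest.Agent.R096.Bd_416 Crest.Agent.R96.Hole_348
open Crest.AnalysisR.VecCalc3 Crest.AnalysisR.Sobolev Crest.Agent.R096.Sk_962
open scoped ENNReal NNReal

/-- the data: finitely many cells and finitely many faces -/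
structure Sys (κ ι : Type*) where
  C : κ → Cell
  F : ι → Face
  m : κ → ℝ≥0
  Z : Set E3
  disC : ∀ k l, k ≠ l → Disjoint (C k).U (C l).U
  disF : ∀ i j, i ≠ j → Disjoint (F i).V (F j).V
  side : ∀ j k, ∀ x ∈ (F j).V, ∀ y ∈ (F j).V, (F j).e x 0 = (F j).e y 0 →
    x ∈ (C k).P → y ∈ (C k).P
  slab : ∀ j k, ∀ x ∈ (F j).V, x ∈ (C k).P → ∀ y ∈ (C k).P \ (C k).U,
    (F j).ρ * |(F j).e x 0| ≤ (F j).M * ‖x - y‖
  hZ : ∀ k, ∀ y ∈ (C k).P \ (C k).U, y ∈ Z ∨ ∃ j, y ∈ (F j).V ∧ (F j).e y 0 = 0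
  mC : ∀ k, (C k).M ≤ m k
  mF : ∀ k j, ((F j).V ∩ (C k).P).Nonempty → (F j).M ≤ m k

/-- constant of a face -/
noncomputable def T2 (p : ℝ) (m : ℝ≥0) : ℝ := mc p m * |c2 p| * (2 * m)
/-- constant of a cell -/
noncomputable def T3 (p : ℝ) (m : ℝ≥0) : ℝ := mc p m * |c3 p| * (3 * (m:ℝ)^3)
/-- **the constant** -/
noncomputable def CC (p : ℝ) (m : ℝ≥0) : ℝ := (6:ℝ)^p * (6:ℝ)^p * T3 p m * (1 + T2 p m)

lemma mc_nonneg (p : ℝ) (M : ℝ≥0) : 0 ≤ mc p M := by unfold mc; positivity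
lemma T2_nonneg (p : ℝ) (M : ℝ≥0) : 0 ≤ T2 p M := by
  have := mc_nonneg p M
  unfold T2; positivity
lemma T3_nonneg (p : ℝ) (M : ℝ≥0) : 0 ≤ T3 p M := by
  have := mc_nonneg p M
  unfold T3; positivity

lemma mc_mono {p : ℝ} (hp : 0 ≤ p) {M m : ℝ≥0} (h : M ≤ m) : mc p M ≤ mc p m := by
  have h' : (M:ℝ) ≤ m := by exact_mod_cast h
  have h2 : (M:ℝ) * M ≤ (m:ℝ) * m := mul_le_mul h' h' M.coe_nonneg m.coe_nonneg
  have h3 := Real.rpow_le_rpow (by positivity) h2 hp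
  unfold mc
  gcongr

lemma aF_le {p : ℝ} (hp : 0 ≤ p) {M m ρ : ℝ≥0} (h1 : 1 ≤ M) (hρ : 0 < ρ) (hm : M ≤ m) {δ : ℝ}
    (hδ : 0 < δ) : ENNReal.ofReal (mc p M * (c2 p / (δ / (2 * M * ρ)))) ≤
      ENNReal.ofReal (T2 p m) * ENNReal.ofReal (ρ / δ) := by
  have hM : (1:ℝ) ≤ M := by exact_mod_cast h1
  have hρ' : (0:ℝ) < ρ := by exact_mod_cast hρ
  have hm' : (M:ℝ) ≤ m := by exact_mod_cast hm
  rw [← ENNReal.ofReal_mul (T2_nonneg p m)]
  apply ENNReal.ofReal_le_ofReal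
  have e1 : mc p M * (c2 p / (δ / (2 * M * ρ))) = mc p M * c2 p * (2 * M) * (ρ / δ) := by
    field_simp
  rw [e1]
  refine mul_le_mul_of_nonneg_right ?_ (by positivity)
  unfold T2
  have a1 := mc_mono hp hm
  have a2 := mc_nonneg p M
  have a3 := le_abs_self (c2 p)
  have a4 := abs_nonneg (c2 p)
  have a5 := mul_nonneg (mc_nonneg p m) a4
  calc mc p M * c2 p * (2 * M) ≤ mc p M * |c2 p| * (2 * M) := by gcongr
    _ ≤ mc p m * |c2 p| * (2 * m) := by gcongr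

lemma aC_le {p : ℝ} (hp : 0 ≤ p) {M m R : ℝ≥0} (h1 : 1 ≤ M) (hR : 0 < R) (hm : M ≤ m) {δ : ℝ}
    (hδ : 0 < δ) : ENNReal.ofReal (mc p M * (c3 p / (δ / (3 * (m:ℝ)^3 * R)))) ≤
      ENNReal.ofReal (T3 p m) * ENNReal.ofReal (R / δ) := by
  have hM : (1:ℝ) ≤ M := by exact_mod_cast h1
  have hR' : (0:ℝ) < R := by exact_mod_cast hR
  have hm' : (M:ℝ) ≤ m := by exact_mod_cast hm
  rw [← ENNReal.ofReal_mul (T3_nonneg p m)]
  apply ENNReal.ofReal_le_ofReal
  have hm0 : (0:ℝ) < m := by linarith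
  have e1 : mc p M * (c3 p / (δ / (3 * (m:ℝ)^3 * R))) =
      mc p M * c3 p * (3 * (m:ℝ)^3) * (R / δ) := by
    field_simp
  rw [e1]
  refine mul_le_mul_of_nonneg_right ?_ (by positivity)
  unfold T3
  have a1 := mc_mono hp hm
  have a2 := mc_nonneg p M
  have a3 := le_abs_self (c3 p)
  have a4 := abs_nonneg (c3 p)
  have a5 := mul_nonneg (mc_nonneg p m) a4
  calc mc p M * c3 p * (3 * (m:ℝ)^3) ≤ mc p M * |c3 p| * (3 * (m:ℝ)^3) := by gcongr
    _ ≤ mc p m * |c3 p| * (3 * (m:ℝ)^3) := by gcongr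

lemma exists_small {X ε : ℝ≥0∞} (hX : X ≠ ∞) (hε : ε ≠ 0) : ∃ β : ℝ≥0∞, β ≠ 0 ∧ X * β ≤ ε := by
  refine ⟨ε / (X + 1), ?_, ?_⟩
  · rw [Ne, ENNReal.div_eq_zero_iff]
    push Not
    exact ⟨hε, ENNReal.add_ne_top.2 ⟨hX, ENNReal.one_ne_top⟩⟩
  · calc X * (ε / (X + 1)) ≤ (X + 1) * (ε / (X + 1)) := mul_le_mul' le_self_add le_rfl
      _ ≤ ε := ENNReal.mul_div_le



end Crest.Agent.R096.Sq_55
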