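import Crest.Agent.R096.St1_147
import Crest.Agent.R096.Wk3_689

-- ▼ part R096/St2_147
section

/-!
# R096 / P3: `P3` from the exchange step (strong induction on the number of double points)
-/

set_option autoImplicit false

namespace Crest.Agent.R096.St_147

variable {ι Φ W I : Type} {M : MeshC ι Φ W} {col : I → Bool}

open St

theorem St.Dbl.ext' {s : St M col} {z z' : s.Dbl} (hF : z.F = z'.F) (he : ∀ x, z.e x = z'.e x) :
    z = z' := by
  cases z; cases z'
  simp only [St.Dbl.mk.injEq]
  exact ⟨hF, funext he⟩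

instance St.finite_dbl (s : St M col) : Finite s.Dbl := by
  classical
  have hfin : (⋃ w ∈ s.P, {F | w ∈ M.On F}).Finite :=
    Set.Finite.biUnion s.P.finite_toSet (fun w _ => M.fin w)
  have : Finite ((⋃ w ∈ s.P, {F | w ∈ M.On F}) : Set Φ) := hfin
  have : Finite {w // w ∈ s.P} := inferInstance
  refine Finite.of_injective
    (fun z : s.Dbl => ((⟨z.F, ?_⟩, fun x => ⟨z.e x, (z.at_ x).1⟩) :
      ((⋃ w ∈ s.P, {F | w ∈ M.On F}) : Set Φ) × (Bool → {w // w ∈ s.P}))) ?_
  · exact Set.mem_biUnion (z.at_ true).1 (z.at_ true).2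
  · intro z z' h
    simp only [Prod.mk.injEq, Subtype.mk.injEq] at h
    refine St.Dbl.ext' h.1 (fun x => ?_)
    have := congrFun h.2 x
    simpa using this

/-- the relation between a state and a simpler state -/
structure St.Le (Act : Set ι) (far : I → Set W) (s' s : St M col) : Prop where
  P_sub : s'.P ⊆ s.P
  frozen_P : ∀ F w, Frozen M Act F → w ∈ M.On F → (w ∈ s'.P ↔ w ∈ s.P)
  frozen_mu : ∀ F w, Frozen M Act F → s.At F w → s'.mu F w = s.mu F w
  free : ∀ F w, s.At F w → w ∈ far (s.lab w) → s.mu F w ∈ far (s.lab w) → s.Free F w →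
    s'.mu F w = s.mu F w ∧ s'.Free F w
  dbl : ∀ z : s'.Dbl, ∃ z₀ : s.Dbl, z₀.F = z.F ∧ ∀ x, s.lab (z₀.e x) = s'.lab (z.e x)

theorem St.Le.refl (Act : Set ι) (far : I → Set W) (s : St M col) : St.Le Act far s s where
  P_sub := Finset.Subset.refl _
  frozen_P := fun _ _ _ _ => Iff.rfl
  frozen_mu := fun _ _ _ _ => rfl
  free := fun _ _ _ _ _ h => ⟨rfl, h⟩
  dbl := fun z => ⟨z, rfl, fun _ => rfl⟩

theorem St.Le.trans {Act : Set ι} {far : I → Set W} {s'' s' s : St M col}
    (hg : s'.Good Act far) (h : St.Le Act far s'' s') (h' : St.Le Act far s' s) :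
    St.Le Act far s'' s where
  P_sub := h.P_sub.trans h'.P_sub
  frozen_P := fun F w hF hw => (h.frozen_P F w hF hw).trans (h'.frozen_P F w hF hw)
  frozen_mu := fun F w hF hw => by
    rw [h.frozen_mu F w hF ⟨(h'.frozen_P F w hF hw.2).2 hw.1, hw.2⟩, h'.frozen_mu F w hF hw]
  free := fun F w hw h1 h2 h3 => by
    obtain ⟨h4, h5⟩ := h'.free F w hw h1 h2 h3
    obtain ⟨h6, h7⟩ := hg.far_mem h1
    have h8 := h.free F w ⟨h6, hw.2⟩ (by rw [h7]; exact h1) (by rw [h7, h4]; exact h2) h5
    exact ⟨h8.1.trans h4, h8.2⟩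
  dbl := fun z => by
    obtain ⟨z₁, h1, h2⟩ := h.dbl z
    obtain ⟨z₂, h3, h4⟩ := h'.dbl z₁
    exact ⟨z₂, h3.trans h1, fun x => (h4 x).trans (h2 x)⟩

/-- **The exchange step**: a good state with a nonempty closed set of double arcs can be replaced
by a good state with fewer double points. -/
def StepStmt : Prop :=
  ∀ (ι Φ W I : Type) (M : MeshC ι Φ W) (col : I → Bool) (Act : Set ι), Act.Finite →
    ∀ (s : St M col) (far : I → Set W), s.Good Act far →
    ∀ (A : s.Arcs Act) (G : Set s.Dbl), A.Closed G → G.Nonempty →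
    ∃ s' : St M col, s'.Good Act far ∧ St.Le Act far s' s ∧ Nat.card s'.Dbl < Nat.card s.Dbl

theorem P3_of_step (hstep : StepStmt) : P3 := by
  intro ι Φ W I M col Act hAct s₀ far hg₀
  have key : ∀ n : ℕ, ∀ s : St M col, s.Good Act far → St.Le Act far s s₀ →
      Nat.card s.Dbl = n → ∃ s' : St M col, s'.Good Act far ∧ St.Le Act far s' s₀ ∧
        ∀ (A : s'.Arcs Act) (G : Set s'.Dbl), A.Closed G → G = ∅ := by
    intro n
    induction n using Nat.strong_induction_on with
    | _ n ih =>
      intro s hg hle hn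
      by_cases h : ∃ (A : s.Arcs Act) (G : Set s.Dbl), A.Closed G ∧ G.Nonempty
      · obtain ⟨A, G, hcl, hne⟩ := h
        obtain ⟨s', hg', hle', hlt⟩ := hstep ι Φ W I M col Act hAct s far hg A G hcl hne
        exact ih _ (hn ▸ hlt) s' hg' (hle'.trans hg hle) rfl
      · refine ⟨s, hg, hle, fun A G hcl => ?_⟩
        by_contra hG
        exact h ⟨A, G, hcl, Set.nonempty_iff_ne_empty.2 hG⟩
  obtain ⟨s', hg', hle', hcl⟩ := key _ s₀ hg₀ (St.Le.refl Act far s₀) rfl
  exact ⟨s', hg', hle'.P_sub, hle'.frozen_P, hle'.frozen_mu, hle'.free, hle'.dbl,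
    hcl⟩

end Crest.Agent.R096.St_147
end

-- ▼ part R096/St3_147
section

/-!
# R096 / P3: the exchange step by functions on darts: definitions and the four intermediate Props

`SepOf`   : `H1 → Sep` and `Sep → H1` (File B)
`Ref`     : refined Sep (File C)
`DD`      : inner discs (File D)
`Nms`     : names of the new sheets and Sep for them (File E)
-/

set_option autoImplicit false

namespace Crest.Agent.R096.St_147

open Wk_689

variable {ι Φ W I : Type} {M : MeshC ι Φ W} {col : I → Bool}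

/-- faces at a point -/
noncomputable def MeshC.fs (M : MeshC ι Φ W) (w : W) : Finset Φ := (M.fin w).toFinset

theorem MeshC.mem_fs {w : W} {F : Φ} : F ∈ M.fs w ↔ w ∈ M.On F := by
  simp [MeshC.fs]

/-- dual (tile) form of `H1`: a set of chords of sheet `i` (as a function `θ`), even at every point,
is the boundary of a function `c` on the tiles (`c q w` = value of the tile of `w` in the cell `q`). -/
def St.Sep (s : St M col) (i : I) : Prop :=
  ∀ θ : Φ → W → ZMod 2,
    (∀ F w, s.At F w → s.lab w = i → θ F (s.mu F w) = θ F w) →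
    (∀ w ∈ s.P, s.lab w = i → ∑ F ∈ M.fs w, θ F w = 0) →
    ∃ c : ι → W → ZMod 2,
      (∀ q F w, q ∈ M.side F → s.At F w → s.lab w = i → c q (s.mu F w) = c q w) ∧
      ∀ F w q q', M.side F = s(q, q') → s.At F w → s.lab w = i → θ F w = c q w + c q' w

variable {s : St M col}

open Classical in
/-- value of a function on darts at the end dart of `w` on `F` -/
noncomputable def edv (f : Dart s → ZMod 2) (F : Φ) (w : W) : ZMod 2 :=
  if h : s.At F w then f (ed h) else 0

theorem edv_eq {f : Dart s → ZMod 2} {F : Φ} {w : W} (h : s.At F w) : edv f F w = f (ed h) := by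
  unfold edv
  rw [dif_pos h]

/-- functions on pieces which are even at the points of `P` -/
structure Even (t : Dart s → ZMod 2) : Prop where
  fl : ∀ d, t (flip d) = t d
  ev : ∀ w ∈ s.P, ∑ F ∈ M.fs w, edv t F w = 0

/-- a jump function on the double arcs of the active cells -/
structure ArcFn {Act : Set ι} (A : s.Arcs Act) (a : Bool → ι → s.Dbl → ZMod 2) : Prop where
  off : ∀ x q z, q ∉ Act → a x q z = 0
  inv : ∀ x q z, q ∈ Act → q ∈ M.side z.F → a x q (A.arc q z) = a x q z

/-- `c` = tile functions of the complex refined along the arcs, with jump `a` at the arcs and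
boundary `t` -/
structure Ref {Act : Set ι} (A : s.Arcs Act) (τ : Bool → ι → s.Dbl → ZMod 2)
    (t : Dart s → ZMod 2) (a : Bool → ι → s.Dbl → ZMod 2) (c : ι → Dart s → ZMod 2) : Prop where
  fl : ∀ q d, c q (flip d) = c q d
  cont : ∀ (q : ι) (F F' : Φ) (w : W) (h : s.At F w) (h' : s.At F' w), q ∈ M.side F →
    q ∈ M.side F' → c q (ed h) = c q (ed h')
  jump : ∀ q x (z : s.Dbl), q ∈ M.side z.F → c q (dz z x true) + c q (dz z x false) = a x q z
  bd : ∀ d q q', M.side (fc d) = s(q, q') → t d = c q d + c q' d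
  arc : ∀ q x (z : s.Dbl), q ∈ Act → q ∈ M.side z.F →
    c q (dz z x false) + c q (dz (A.arc q z) x false) = a x q z * τ x q z

/-- **refined Sep** (File C) -/
def RefStmt {Act : Set ι} (A : s.Arcs Act) (τ : Bool → ι → s.Dbl → ZMod 2) : Prop :=
  ∀ (t : Dart s → ZMod 2) (a : Bool → ι → s.Dbl → ZMod 2), Even t → ArcFn A a →
    (∀ x (z : s.Dbl) q q', M.side z.F = s(q, q') →
      t (dz z x true) + t (dz z x false) = a x q z + a x q' z) →
    ∃ c, Ref A τ t a c

/-- the largest closed set of double points -/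
def St.Arcs.mx {Act : Set ι} (A : s.Arcs Act) : Set s.Dbl := ⋃₀ {G | A.Closed G}

theorem St.Arcs.mx_closed {Act : Set ι} (A : s.Arcs Act) : A.Closed A.mx := by
  rintro z ⟨G, hG, hz⟩ q hq
  obtain ⟨h1, h2⟩ := hG z hz q hq
  exact ⟨h1, G, hG, h2⟩

theorem St.Arcs.sub_mx {Act : Set ι} (A : s.Arcs Act) {G : Set s.Dbl} (h : A.Closed G) :
    G ⊆ A.mx := fun _ hz => ⟨G, h, hz⟩

/-- the double curve of `z` -/
def St.Arcs.cv {Act : Set ι} (A : s.Arcs Act) (z : s.Dbl) : Set s.Dbl :=
  {z' | Relation.ReflTransGen (fun u v : s.Dbl => ∃ q ∈ M.side u.F, v = A.arc q u) z z'}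

/-- inner discs of the closed double curves in `G` (curves are named by any of their points) -/
structure DD {Act : Set ι} (A : s.Arcs Act) (τ : Bool → ι → s.Dbl → ZMod 2) (G : Set s.Dbl)
    (far : I → Set W) (D : s.Dbl → Bool → Dart s → ZMod 2) : Prop where
  congr : ∀ z ∈ G, ∀ z' ∈ A.cv z, D z' = D z
  supp : ∀ z ∈ G, ∀ x d, D z x d ≠ 0 → d.x = x ∧ s.lab (pt d) = s.lab (z.e x)
  fl : ∀ z ∈ G, ∀ x d, D z x (flip d) = D z x d
  cont : ∀ z ∈ G, ∀ x (F F' : Φ) (w : W) (h : s.At F w) (h' : s.At F' w),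
    D z x (ed h) = D z x (ed h')
  jump_in : ∀ z ∈ G, ∀ u ∈ A.cv z, ∀ x, D z x (dz u x true) + D z x (dz u x false) = 1
  jump_out : ∀ z ∈ G, ∀ u ∉ A.cv z, ∀ x, D z x (dz u x true) = D z x (dz u x false)
  along : ∀ z ∈ G, ∀ u ∉ A.cv z, ∀ x q, q ∈ Act → q ∈ M.side u.F →
    D z x (dz u x false) = D z x (dz (A.arc q u) x false)
  tau : ∀ z ∈ G, ∀ u ∈ A.cv z, ∀ x q, q ∈ M.side u.F →
    D z x (dz u x false) + D z x (dz (A.arc q u) x false) = τ x q u
  far0 : ∀ z ∈ G, ∀ x i (F : Φ) (w : W) (h : s.At F w), w ∈ far i → D z x (ed h) = 0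
  out : ∀ z ∈ G, ∀ u ∉ G, ∀ x b, D z x (dz u x b) = 0
  lam : ∀ z ∈ G, ∀ z' ∈ G, ∀ x d, D z x d = 1 → D z' x d = 1 →
    (∀ d', D z x d' = 1 → D z' x d' = 1) ∨ (∀ d', D z' x d' = 1 → D z x d' = 1)

/-- names of the new sheets (`none` = discarded) and Sep for them -/
structure Nms (s : St M col) (G : Set s.Dbl) (far : I → Set W) (inn : s.Dbl → Bool → Bool)
    (nm : Dart s → Option I) : Prop where
  fl : ∀ d, nm (flip d) = nm d
  tt : ∀ d, nm (tt G inn d) = nm d
  cont : ∀ (F F' : Φ) (w : W) (h : s.At F w) (h' : s.At F' w), nm (ed h) = nm (ed h')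
  out : ∀ z ∉ G, ∀ x b, nm (dz z x b) = some (s.lab (z.e x))
  far : ∀ i (F : Φ) (w : W) (h : s.At F w), w ∈ far i → nm (ed h) = some i
  sep : ∀ t : Dart s → ZMod 2, Even t → (∀ d, t (Wk_689.tt G inn d) = t d) →
    (∀ d, nm d = none → t d = 0) →
    ∃ c : ι → Dart s → ZMod 2, (∀ q d, c q (flip d) = c q d) ∧
      (∀ q d, nm d ≠ none → q ∈ M.side (fc d) → c q (Wk_689.tt G inn d) = c q d) ∧
      (∀ (q : ι) (F F' : Φ) (w : W) (h : s.At F w) (h' : s.At F' w), q ∈ M.side F →
        q ∈ M.side F' → c q (ed h) = c q (ed h')) ∧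
      ∀ d q q', M.side (fc d) = s(q, q') → t d = c q d + c q' d

end Crest.Agent.R096.St_147
end

-- ▼ part R096/St4_147

/-!
# R096 / P3: refined Sep (`RefStmt`) from `Sep` of every sheet and the side functions of `Arcs`
-/

set_option autoImplicit false

namespace Crest.Agent.R096.St_147

open Wk_689

variable {ι Φ W I : Type} {M : MeshC ι Φ W} {col : I → Bool} {s : St M col}

theorem add_self2 (a : ZMod 2) : a + a = 0 := CharTwo.add_self_eq_zero a

theorem eq_of_add2 {a b : ZMod 2} (h : a + b = 0) : a = b := by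
  have := congrArg (· + b) h
  simpa [add_assoc, add_self2] using this

theorem add_of_eq2 {a b : ZMod 2} (h : a = b) : a + b = 0 := by rw [h, add_self2]

/-- sum over the two sides of a face -/
def ss (e : Sym2 ι) (f : ι → ZMod 2) : ZMod 2 :=
  Sym2.lift ⟨fun a b => f a + f b, fun _ _ => add_comm _ _⟩ e

theorem ss_mk (a b : ι) (f : ι → ZMod 2) : ss s(a, b) f = f a + f b := rfl

theorem ss_add (e : Sym2 ι) (f g : ι → ZMod 2) : ss e (fun q => f q + g q) = ss e f + ss e g := by
  induction e with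
  | _ a b => simp only [ss_mk]; ring

theorem ss_congr {e : Sym2 ι} {f g : ι → ZMod 2} (h : ∀ q ∈ e, f q = g q) : ss e f = ss e g := by
  induction e with
  | _ a b => simp only [ss_mk]; rw [h a (Sym2.mem_mk_left a b), h b (Sym2.mem_mk_right a b)]

open Classical in
theorem ss_eq_sum {e : Sym2 ι} (he : ¬ e.IsDiag) (f : ι → ZMod 2) (Q : Finset ι)
    (hQ : ∀ q ∈ e, q ∈ Q) : ss e f = ∑ q ∈ Q, if q ∈ e then f q else 0 := by
  induction e with
  | _ a b =>
    have hab : a ≠ b := by simpa using he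
    rw [ss_mk, ← Finset.sum_filter]
    have : Q.filter (fun q => q ∈ s(a, b)) = {a, b} := by
      ext q
      simp only [Finset.mem_filter, Sym2.mem_iff, Finset.mem_insert, Finset.mem_singleton]
      constructor
      · exact fun h => h.2
      · rintro (rfl | rfl)
        · exact ⟨hQ _ (Sym2.mem_mk_left _ _), Or.inl rfl⟩
        · exact ⟨hQ _ (Sym2.mem_mk_right _ _), Or.inr rfl⟩
    rw [this, Finset.sum_pair hab]

/-- telescoping around a point -/
theorem sum_link (M : MeshC ι Φ W) (w : W) (β : ι → Φ → ZMod 2)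
    (hβ : ∀ q F F', q ∈ M.side F → q ∈ M.side F' → w ∈ M.On F → w ∈ M.On F' → β q F = β q F') :
    ∑ F ∈ M.fs w, ss (M.side F) (fun q => β q F) = 0 := by
  classical
  let Q : Finset ι := (M.fs w).biUnion (fun F => (M.side F).toFinset)
  have hQ : ∀ F ∈ M.fs w, ∀ q ∈ M.side F, q ∈ Q := by
    intro F hF q hq
    exact Finset.mem_biUnion.2 ⟨F, hF, Sym2.mem_toFinset.2 hq⟩
  rw [Finset.sum_congr rfl (fun F hF => ss_eq_sum (M.side_nd F) (fun q => β q F) Q (hQ F hF))]
  rw [Finset.sum_comm]
  apply Finset.sum_eq_zero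
  intro q _
  rw [← Finset.sum_filter]
  have hcard : ((M.fs w).filter (fun F => q ∈ M.side F)).card = 0 ∨
      ((M.fs w).filter (fun F => q ∈ M.side F)).card = 2 := by
    have h := M.deg q w
    have e : {F | q ∈ M.side F ∧ w ∈ M.On F} = ↑((M.fs w).filter (fun F => q ∈ M.side F)) := by
      ext F
      simp only [Set.mem_ofPred_eq, Finset.coe_filter, MeshC.mem_fs]
      tauto
    rwa [e, Set.ncard_coe_finset] at h
  rcases hcard with h | h
  · rw [Finset.card_eq_zero.1 h, Finset.sum_empty]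
  · obtain ⟨F, F', hne, hFF⟩ := Finset.card_eq_two.1 h
    have h1 : F ∈ (M.fs w).filter (fun F => q ∈ M.side F) := by rw [hFF]; simp
    have h2 : F' ∈ (M.fs w).filter (fun F => q ∈ M.side F) := by rw [hFF]; simp
    rw [hFF, Finset.sum_pair hne]
    rw [Finset.mem_filter, MeshC.mem_fs] at h1 h2
    rw [hβ q F F' h1.2 h2.2 h1.1 h2.1, add_self2]

/-! ### darts -/

theorem lo_pt (d : Dart s) : s.lo (fc d) (pt d) = (chd d.p).2 := by
  obtain ⟨x, p, b⟩ := d
  cases b
  · exact lo_eq_of_lt (chd_low p)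
  · exact lo_mu_of_lt (chd_at p) (chd_low p)

theorem lab_pt (d : Dart s) : s.lab (pt d) = s.lab (chd d.p).2 := by
  obtain ⟨x, p, b⟩ := d
  cases b
  · rfl
  · exact s.mu_lab (chd_at p).1 (chd_at p).2

theorem pt_flip (d : Dart s) : pt (flip d) = s.mu (fc d) (pt d) := by
  obtain ⟨x, p, b⟩ := d
  cases b
  · rfl
  · exact (s.mu_mu (chd_at p).1 (chd_at p).2).symm

theorem x_eq (d : Dart s) : d.x = col (s.lab (pt d)) := by
  rw [lab_pt]
  exact (chd_col d.p).symm

theorem chd_ed {F : Φ} {w : W} (h : s.At F w) : chd (ed h).p = (F, s.lo F w) := by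
  apply Prod.ext
  · exact fc_ed h
  · have := lo_pt (ed h)
    rw [fc_ed, pt_ed] at this
    exact this.symm

/-- the end dart of `w` on `F`, with its colour and the `End` property -/
theorem ed_form {F : Φ} {w : W} (h : s.At F w) :
    ∃ (p : s.Sub (col (s.lab w))) (b : Bool), ed h = ⟨col (s.lab w), p, b⟩ ∧ p.End F w := by
  have hx := x_ed h
  have hn := node_ed h
  have hf := fc_ed h
  have hp := pt_ed h
  generalize ed h = d0 at hx hn hf hp
  obtain ⟨x, p, b⟩ := d0
  simp only at hx
  subst hx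
  refine ⟨p, b, rfl, h, ?_⟩
  cases b
  · -- lower end
    left
    have h1 : (chd p).2 = w := hp
    have h2 : (chd p).1 = F := hf
    have h3 := chd_low p
    rw [h1, h2] at h3
    refine ⟨h3, ?_⟩
    cases p with
    | inl a => exact ⟨a, rfl, Prod.ext h2 h1⟩
    | inr z => exact absurd hn (by simp [node, prv])
  · right
    have h1 : s.mu (chd p).1 (chd p).2 = w := hp
    have h2 : (chd p).1 = F := hf
    have h3 := chd_low p
    have h1' : s.mu F (chd p).2 = w := by rw [← h2]; exact h1
    have hat : s.At F (chd p).2 := by rw [← h2]; exact chd_at p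
    have h4 : (chd p).2 = s.mu F w := by
      calc (chd p).2 = s.mu F (s.mu F (chd p).2) := (s.mu_mu hat.1 hat.2).symm
        _ = s.mu F w := congrArg (s.mu F) h1'
    have h3' : M.pos F (s.mu F w) < M.pos F w := by
      calc M.pos F (s.mu F w) = M.pos F (chd p).2 := by rw [h4]
        _ = M.pos (chd p).1 (chd p).2 := by rw [h2]
        _ < M.pos (chd p).1 (s.mu (chd p).1 (chd p).2) := h3
        _ = M.pos F (s.mu (chd p).1 (chd p).2) := by rw [h2]
        _ = M.pos F w := congrArg (M.pos F) h1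
    refine ⟨h3', ?_⟩
    have ht : IsTop p := nxt_none.1 hn
    cases p with
    | inl a =>
      refine ⟨Prod.ext h2 h4, ?_⟩
      intro u hu hu2
      have h5 := top_iff.1 ht (Sum.inr u) (Prod.ext (hu.trans h2.symm) (hu2.trans h4.symm))
      have h6 := (key_mem u (col (s.lab w))).1
      simp only [start] at h5
      have e1 : a.1.1 = u.F := h2.trans hu.symm
      have e2 : a.1.2 = u.e (col (s.lab w)) := h4.trans hu2.symm
      rw [e1, e2] at h5
      exact absurd h6 (not_lt.2 h5)
    | inr z =>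
      refine ⟨h2, h4, ?_⟩
      intro u hu hu2 hlt
      have h5 := top_iff.1 ht (Sum.inr u) (Prod.ext (hu.trans h2.symm) (hu2.trans h4.symm))
      simp only [start] at h5
      exact absurd hlt (not_lt.2 h5)

/-- a function on pieces without jumps is constant along chords -/
theorem chord_const {α : Type} {g : Dart s → α} (hfl : ∀ d, g (flip d) = g d) {F : Φ} {x : Bool}
    {a : W} (hj : ∀ z : s.Dbl, z.F = F → z.e x = a → g (dz z x true) = g (dz z x false))
    {d d' : Dart s} (hd : chd d.p = (F, a)) (hd' : chd d'.p = (F, a)) (hx : d.x = x)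
    (hx' : d'.x = x) : g d = g d' := by
  have wf : WellFounded (fun u v : s.Dbl => u.key x < v.key x) := by
    have : IsTrans s.Dbl (fun u v : s.Dbl => u.key x < v.key x) := ⟨fun _ _ _ h h' => h.trans h'⟩
    have : Std.Irrefl (fun u v : s.Dbl => u.key x < v.key x) := ⟨fun _ h => lt_irrefl _ h⟩
    exact Finite.wellFounded_of_trans_of_irrefl _
  have hb : ∀ (p : s.Sub x) (b b' : Bool), g ⟨x, p, b⟩ = g ⟨x, p, b'⟩ := by
    intro p b b'
    by_cases h : b = b'
    · rw [h]
    · have h1 : b' = !b := by cases b <;> cases b' <;> simp_all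
      rw [h1]
      exact (hfl ⟨x, p, b⟩).symm
  have key : ∀ z : s.Dbl, z.F = F → z.e x = a → g ⟨x, Sum.inr z, false⟩ = g ⟨x, fst z x, false⟩ := by
    intro z
    induction z using wf.induction with
    | _ z ih =>
      intro hF ha
      have h1 : g ⟨x, Sum.inr z, false⟩ = g ⟨x, bel z x, true⟩ := (hj z hF ha).symm
      rw [h1, hb _ true false]
      have h2 := bel_spec z x
      rcases hbel : bel z x with c | y
      · rw [hbel] at h2
        congr 1
        have : (Sum.inl c : s.Sub x) = fst z x := by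
          unfold fst
          congr 1
          exact Subtype.ext (Prod.ext h2.1 h2.2.1)
        rw [this]
      · rw [hbel] at h2
        have h3 := ih y h2.2.2.1 (h2.1.symm.trans hF) (h2.2.1.symm.trans ha)
        rw [h3]
        have : fst y x = fst z x := by
          unfold fst
          congr 1
          exact Subtype.ext (Prod.ext h2.1.symm h2.2.1.symm)
        rw [this]
  have main : ∀ d : Dart s, chd d.p = (F, a) → d.x = x → ∀ f : s.Sub x, (∃ c, f = Sum.inl c) →
      chd f = (F, a) → g d = g ⟨x, f, false⟩ := by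
    rintro ⟨x', p, b⟩ hd hx f ⟨c, hc⟩ hf
    simp only at hx
    subst hx
    rw [hb p b false]
    rcases p with c' | z
    · have : (Sum.inl c' : s.Sub x') = f := by
        rw [hc]
        congr 1
        apply Subtype.ext
        rw [hc] at hf
        exact hd.trans hf.symm
      rw [this]
    · have h1 : z.F = F := congrArg Prod.fst hd
      have h2 : z.e x' = a := congrArg Prod.snd hd
      rw [key z h1 h2]
      have : fst z x' = f := by
        rw [hc]
        unfold fst
        congr 1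
        apply Subtype.ext
        rw [hc] at hf
        exact hd.trans hf.symm
      rw [this]
  have hat : s.At F a := by
    have := chd_at d.p
    rw [hd] at this
    exact this
  have hlow : M.pos F a < M.pos F (s.mu F a) := by
    have := chd_low d.p
    rw [hd] at this
    exact this
  have hcol : col (s.lab a) = x := by
    have := chd_col d.p
    rw [hd] at this
    exact this.trans hx
  rw [main d hd hx (Sum.inl ⟨(F, a), hat, hlow, hcol⟩) ⟨_, rfl⟩ rfl,
    main d' hd' hx' (Sum.inl ⟨(F, a), hat, hlow, hcol⟩) ⟨_, rfl⟩ rfl]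

/-- the two end darts of a chord -/
theorem ed_mu_eq {α : Type} {g : Dart s → α} (hfl : ∀ d, g (flip d) = g d) {F : Φ} {w : W}
    (h : s.At F w) (h' : s.At F (s.mu F w))
    (hj : ∀ z : s.Dbl, z.F = F → z.e (col (s.lab w)) = s.lo F w →
      g (dz z (col (s.lab w)) true) = g (dz z (col (s.lab w)) false)) :
    g (ed h) = g (ed h') := by
  have hlo : s.lo F (s.mu F w) = s.lo F w := by
    have h1 := lo_pt (ed h)
    have h2 := lo_pt (flip (ed h))
    rw [pt_flip, fc_flip, fc_ed, pt_ed] at h2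
    rw [fc_ed, pt_ed] at h1
    rw [h1, h2]
    rfl
  refine chord_const hfl hj (chd_ed h) ?_ (x_ed h) ?_
  · rw [chd_ed h', hlo]
  · rw [x_ed h', s.mu_lab h.1 h.2]

end Crest.Agent.R096.St_147
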