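import Mathlib
import Crest.Agent.R096.P5Spec_205
import Crest.Agent.R096.Fp1_812
import Crest.Agent.R096.Mo3_119

-- ▼ part R096/StE1_816
section

/-!
Row 96, P5, `StageEdge` (205's P5Spec), part 1: conical radius, lines, selection of the edge data.
-/

set_option autoImplicit false
set_option linter.unusedSectionVars false
open Set Metric MeasureTheory Filter Topology
open scoped NNReal
open Crest.Agent.R096.P5Spec_205

namespace Crest.Agent.R096.StE_816

variable {E : Type*} [NormedAddCommGroup E] [InnerProductSpace ℝ E] [MeasureSpace E]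

/-- the conical radius `r` is admissible at `p` -/
def Good (h : E → E) (Om : Set E) (G : E → E → E) (p : E) (r : ℝ) : Prop :=
  0 < r ∧ ball p r ⊆ Om ∧ ∀ v, ‖v‖ < r → h (p + v) = h p + G p v

/-- the conical radius (at most one) -/
noncomputable def rho (h : E → E) (Om : Set E) (G : E → E → E) (p : E) : ℝ :=
  sSup {r | r ≤ 1 ∧ Good h Om G p r}

section radius

variable {h : E → E} {Om V Z : Set E} {G : E → E → E} {e : E → E}

theorem Good.mono {p : E} {r r' : ℝ} (hr : Good h Om G p r) (h0 : 0 < r') (hle : r' ≤ r) :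
    Good h Om G p r' :=
  ⟨h0, (ball_subset_ball hle).trans hr.2.1, fun v hv => hr.2.2 v (hv.trans_le hle)⟩

theorem bdd (p : E) : BddAbove {r | r ≤ 1 ∧ Good h Om G p r} := ⟨1, fun _ hr => hr.1⟩

theorem le_rho {p : E} {r : ℝ} (hr : Good h Om G p r) (h1 : r ≤ 1) : r ≤ rho h Om G p :=
  le_csSup (bdd p) ⟨h1, hr⟩

theorem rho_good (H : Germs h Om V Z G e) {p : E} (hp : p ∈ Om) :
    Good h Om G p (rho h Om G p) := by
  obtain ⟨r, hr0, hrO, hr⟩ := H.germ p hp
  have hne : ({r | r ≤ 1 ∧ Good h Om G p r} : Set ℝ).Nonempty :=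
    ⟨min r 1, min_le_right _ _, Good.mono (h := h) (G := G) ⟨hr0, hrO, hr⟩
      (lt_min hr0 one_pos) (min_le_left _ _)⟩
  have hpos : 0 < rho h Om G p :=
    lt_of_lt_of_le (lt_min hr0 one_pos) (le_rho (Good.mono (h := h) (G := G) ⟨hr0, hrO, hr⟩
      (lt_min hr0 one_pos) (min_le_left _ _)) (min_le_right _ _))
  refine ⟨hpos, ?_, ?_⟩
  · intro y hy
    obtain ⟨s, hs, hys⟩ := exists_lt_of_lt_csSup hne (mem_ball.1 hy)
    exact hs.2.2.1 (mem_ball.2 hys)
  · intro v hv
    obtain ⟨s, hs, hys⟩ := exists_lt_of_lt_csSup hne hv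
    exact hs.2.2.2 v hys

theorem rho_pos (H : Germs h Om V Z G e) {p : E} (hp : p ∈ Om) : 0 < rho h Om G p :=
  (rho_good H hp).1

theorem rho_le_one (H : Germs h Om V Z G e) {p : E} (hp : p ∈ Om) : rho h Om G p ≤ 1 := by
  obtain ⟨r, hr0, hrO, hr⟩ := H.germ p hp
  have hne : ({r | r ≤ 1 ∧ Good h Om G p r} : Set ℝ).Nonempty :=
    ⟨min r 1, min_le_right _ _, Good.mono (h := h) (G := G) ⟨hr0, hrO, hr⟩
      (lt_min hr0 one_pos) (min_le_left _ _)⟩
  exact csSup_le hne fun _ hr => hr.1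

/-- edge points -/
def EP (V Z : Set E) (p : E) : Prop := p ∈ Z ∧ p ∉ V

theorem EP.om (H : Germs h Om V Z G e) {p : E} (hp : EP V Z p) : p ∈ Om := H.Z_sub hp.1

theorem EP.germ (H : Germs h Om V Z G e) {p : E} (hp : EP V Z p) : EdgeGerm (G p) (e p) :=
  H.edge p hp.1 hp.2

theorem conic_zero {K : E → E} (hK : Conic K) : K 0 = 0 := by
  have := hK 0 le_rfl 0
  rwa [zero_smul, zero_smul] at this

theorem eg_line {K : E → E} {u : E} (hK : EdgeGerm K u) (s : ℝ) : K (s • u) = s • K u := by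
  have := hK.inv 0 s
  rwa [zero_add, conic_zero hK.conic, zero_add] at this

theorem norm_smul_e {K : E → E} {u : E} (hK : EdgeGerm K u) (s : ℝ) : ‖s • u‖ = |s| := by
  rw [norm_smul, hK.unit, mul_one, Real.norm_eq_abs]

theorem edge_shift (H : Germs h Om V Z G e) {p : E} (hp : EP V Z p) {r : ℝ}
    (hr : Good h Om G p r) {s : ℝ} (hs : |s| < r) :
    EP V Z (p + s • e p) ∧ G (p + s • e p) = G p ∧ e (p + s • e p) = e p ∧
      Good h Om G (p + s • e p) (r - |s|) := by
  have hg := EP.germ H hp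
  have h1 := H.edge_line p hp.1 hp.2 r hr.1 hr.2.1 hr.2.2 (s • e p)
    (by rw [norm_smul_e hg]; exact hs)
  have h2 := H.edge_const p hp.1 hp.2 r hr.1 hr.2.1 hr.2.2 s hs
  refine ⟨⟨h1.1.2 ⟨s, rfl⟩, h1.2⟩, h2.1, h2.2, sub_pos.2 hs, ?_, ?_⟩
  · intro y hy
    refine hr.2.1 ?_
    rw [mem_ball, dist_eq_norm] at hy ⊢
    have e1 : y - p = (y - (p + s • e p)) + s • e p := by abel
    rw [e1]
    refine (norm_add_le _ _).trans_lt ?_
    rw [norm_smul_e hg]
    linarith
  · intro v hv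
    have e1 : p + s • e p + v = p + (v + s • e p) := by abel
    have hn : ‖v + s • e p‖ < r := by
      refine (norm_add_le _ _).trans_lt ?_
      rw [norm_smul_e hg]
      linarith
    rw [e1, hr.2.2 _ hn, hg.inv, hr.2.2 _ (by rw [norm_smul_e hg]; exact hs), eg_line hg, h2.1]
    abel

theorem rho_shift (H : Germs h Om V Z G e) {p : E} (hp : EP V Z p) {s : ℝ}
    (hs : |s| < rho h Om G p) :
    EP V Z (p + s • e p) ∧ G (p + s • e p) = G p ∧ e (p + s • e p) = e p ∧
      rho h Om G p - |s| ≤ rho h Om G (p + s • e p) := by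
  obtain ⟨h1, h2, h3, h4⟩ := edge_shift H hp (rho_good H (EP.om H hp)) hs
  refine ⟨h1, h2, h3, le_rho h4 ?_⟩
  have := rho_le_one H (EP.om H hp)
  have := abs_nonneg s
  linarith

theorem rho_lip_aux (H : Germs h Om V Z G e) {p : E} (hp : EP V Z p) {s s' : ℝ}
    (hs : |s| ≤ rho h Om G p / 4) (hs' : |s'| ≤ rho h Om G p / 4) :
    rho h Om G (p + s • e p) ≤ rho h Om G (p + s' • e p) + |s - s'| := by
  have hpos := rho_pos H (EP.om H hp)
  obtain ⟨h1, h2, h3, h4⟩ := rho_shift H hp (s := s) (by linarith)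
  have h5 : |s' - s| ≤ rho h Om G p / 2 := by
    have := abs_sub s' s
    linarith
  have h6 := rho_shift H h1 (s := s' - s) (by linarith)
  rw [h3] at h6
  have e1 : p + s • e p + (s' - s) • e p = p + s' • e p := by
    rw [add_assoc, ← add_smul]; congr 2; ring
  rw [e1] at h6
  have h7 := h6.2.2.2
  rw [abs_sub_comm s' s] at h7
  linarith

theorem rho_lip (H : Germs h Om V Z G e) {p : E} (hp : EP V Z p) {s s' : ℝ}
    (hs : |s| ≤ rho h Om G p / 4) (hs' : |s'| ≤ rho h Om G p / 4) :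
    |rho h Om G (p + s • e p) - rho h Om G (p + s' • e p)| ≤ |s - s'| := by
  rw [abs_le]
  have h1 := rho_lip_aux H hp hs hs'
  have h2 := rho_lip_aux H hp hs' hs
  rw [abs_sub_comm] at h2
  constructor <;> linarith

theorem rho_upper (H : Germs h Om V Z G e) {p : E} (hp : EP V Z p) {s : ℝ}
    (hs : |s| ≤ rho h Om G p / 4) : rho h Om G (p + s • e p) ≤ 5 / 4 * rho h Om G p := by
  have hpos := rho_pos H (EP.om H hp)
  have := rho_lip_aux H hp hs (s' := 0) (by rw [abs_zero]; linarith)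
  rw [zero_smul, add_zero, sub_zero] at this
  linarith

theorem same_line (H : Germs h Om V Z G e) {p p' : E} (hp : EP V Z p) (hp' : EP V Z p')
    (hd : ‖p' - p‖ < max (rho h Om G p) (rho h Om G p')) :
    ∃ s : ℝ, p' = p + s • e p ∧ e p' = e p ∧ G p' = G p := by
  rcases lt_max_iff.1 hd with h1 | h1
  · have hg := rho_good H (EP.om H hp)
    have h2 := H.edge_line p hp.1 hp.2 _ hg.1 hg.2.1 hg.2.2 (p' - p) h1
    have e1 : p + (p' - p) = p' := by abel
    rw [e1] at h2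
    obtain ⟨s, hs⟩ := h2.1.1 hp'.1
    have h3 : |s| < rho h Om G p := by rw [← norm_smul_e (EP.germ H hp), ← hs]; exact h1
    have h4 := rho_shift H hp h3
    rw [← hs, e1] at h4
    exact ⟨s, by rw [← hs, e1], h4.2.2.1, h4.2.1⟩
  · have hg := rho_good H (EP.om H hp')
    have h1' : ‖p - p'‖ < rho h Om G p' := by rwa [norm_sub_rev]
    have h2 := H.edge_line p' hp'.1 hp'.2 _ hg.1 hg.2.1 hg.2.2 (p - p') h1'
    have e1 : p' + (p - p') = p := by abel
    rw [e1] at h2
    obtain ⟨s, hs⟩ := h2.1.1 hp.1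
    have h3 : |s| < rho h Om G p' := by rw [← norm_smul_e (EP.germ H hp'), ← hs]; exact h1'
    have h4 := rho_shift H hp' h3
    rw [← hs, e1] at h4
    refine ⟨-s, ?_, h4.2.2.1.symm, h4.2.1.symm⟩
    rw [h4.2.2.1, neg_smul, ← hs]
    abel

theorem no_vertex (H : Germs h Om V Z G e) {p v : E} (hp : EP V Z p) (hv : v ∈ V) :
    rho h Om G p ≤ ‖p - v‖ := by
  by_contra hcon
  rw [not_le, norm_sub_rev] at hcon
  have hg := rho_good H (EP.om H hp)
  have h2 := (H.edge_line p hp.1 hp.2 _ hg.1 hg.2.1 hg.2.2 (v - p) hcon).2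
  have e1 : p + (v - p) = v := by abel
  rw [e1] at h2
  exact h2 hv

end radius

/-! ## selection of the edge data -/

/-- the properties of the chosen data of an edge germ -/
structure EProp (H : E → E) (e : E) (C : ℝ≥0) (Q Hi : E → E) (B sg : ℝ) : Prop where
  Q_eq : ∀ y, inner ℝ e y = (0 : ℝ) → 1 ≤ ‖y‖ → Q y = H y
  left : ∀ x, Hi (H x) = x
  right : ∀ x, H (Hi x) = x
  Hi_homeo : IsHomeomorph Hi
  sg_pos : 0 < sg
  sg_le : sg ≤ 1 / 16
  B_nonneg : 0 ≤ B
  sgB : sg * B ≤ 1 / 32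
  dispH : ∀ y, inner ℝ e y = (0 : ℝ) → ‖y‖ ≤ 1 → ‖Hi (Q y) - y‖ ≤ B
  dispQ : ∀ y, inner ℝ e y = (0 : ℝ) → ‖y‖ ≤ 1 → ‖Q y - H y‖ ≤ B
  tube : ∀ R : ℝ → ℝ, (∀ s, 0 ≤ R s) → (∀ s t, |R s - R t| ≤ sg * |s - t|) →
      IsHomeomorph (tubeMap H Q e R) ∧ LipschitzWith C (tubeMap H Q e R) ∧
      ∀ x, 0 < R (inner ℝ e x) → MollAt (tubeMap H Q e R) x

variable (E) in
/-- a selection of the data for all germs -/
structure Sel where
  C : (E → E) → E → ℝ≥0
  Q : (E → E) → E → E → E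
  Hi : (E → E) → E → E → E
  B : (E → E) → E → ℝ
  sg : (E → E) → E → ℝ
  spec : ∀ H e, EdgeGerm H e → EProp H e (C H e) (Q H e) (Hi H e) (B H e) (sg H e)

theorem exists_eprop [FiniteDimensional ℝ E] (hB : EdgeB E) {H : E → E} {e : E}
    (hg : EdgeGerm H e) : ∃ (C : ℝ≥0) (Q Hi : E → E) (B sg : ℝ), EProp H e C Q Hi B sg := by
  obtain ⟨ε₀, hε, C, Q, hQ, hT⟩ := hB H e hg
  have : ProperSpace E := FiniteDimensional.proper_real E
  obtain ⟨Hh, hHh⟩ : ∃ f : E ≃ₜ E, ∀ x, f x = H x := ⟨hg.homeo.homeomorph H, fun x => rfl⟩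
  -- the model with `R = 1`
  have hM := (hT (fun _ => 1) (fun _ => zero_le_one) (fun s t => by
    rw [sub_self, abs_zero]; positivity)).1.continuous
  set M := tubeMap H Q e (fun _ => 1) with hMdef
  have hMQ : ∀ y, inner ℝ e y = (0 : ℝ) → M y = Q y := by
    intro y hy
    simp only [hMdef, tubeMap, hy, zero_smul, sub_zero, inv_one, one_smul, zero_add,
      one_ne_zero, if_false]
  have hc1 : Continuous fun y => ‖Hh.symm (M y) - y‖ := by
    exact ((Hh.symm.continuous.comp hM).sub continuous_id).norm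
  have hc2 : Continuous fun y => ‖M y - H y‖ := (hM.sub hg.homeo.continuous).norm
  obtain ⟨B1, hB1⟩ := (isCompact_closedBall (0 : E) 1).exists_bound_of_continuousOn
    hc1.continuousOn
  obtain ⟨B2, hB2⟩ := (isCompact_closedBall (0 : E) 1).exists_bound_of_continuousOn
    hc2.continuousOn
  have hB1n : 0 ≤ B1 := (norm_nonneg _).trans (hB1 0 (by simp))
  have hpos : 0 < 1 / (32 * (max B1 B2 + 1)) := by
    have : 0 ≤ max B1 B2 := hB1n.trans (le_max_left _ _)
    positivity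
  refine ⟨C, Q, Hh.symm, max B1 B2, min (1 / 16) (min ε₀ (1 / (32 * (max B1 B2 + 1)))),
    hQ, fun x => ?_, fun x => ?_, Hh.symm.isHomeomorph, ?_, min_le_left _ _,
    hB1n.trans (le_max_left _ _), ?_, fun y hy hy1 => ?_, fun y hy hy1 => ?_, fun R hR0 hR => ?_⟩
  · rw [← hHh]; exact Hh.symm_apply_apply x
  · rw [← hHh]; exact Hh.apply_symm_apply x
  · exact lt_min (by norm_num) (lt_min hε hpos)
  · have h0 : 0 ≤ max B1 B2 := hB1n.trans (le_max_left _ _)
    calc min (1 / 16) (min ε₀ (1 / (32 * (max B1 B2 + 1)))) * max B1 B2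
        ≤ 1 / (32 * (max B1 B2 + 1)) * max B1 B2 :=
          mul_le_mul_of_nonneg_right ((min_le_right _ _).trans (min_le_right _ _)) h0
      _ ≤ 1 / 32 := by
          rw [one_div, inv_mul_eq_div, div_le_iff₀ (by positivity)]
          linarith
  · have := hB1 y (by rwa [mem_closedBall_zero_iff])
    rw [norm_norm, hMQ y hy] at this
    exact this.trans (le_max_left _ _)
  · have := hB2 y (by rwa [mem_closedBall_zero_iff])
    rw [norm_norm, hMQ y hy] at this
    exact this.trans (le_max_right _ _)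
  · exact hT R hR0 fun s t => (hR s t).trans
      (mul_le_mul_of_nonneg_right ((min_le_right _ _).trans (min_le_left _ _)) (abs_nonneg _))

theorem exists_sel [FiniteDimensional ℝ E] (hB : EdgeB E) : Nonempty (Sel E) := by
  have key : ∀ (H : E → E) (e : E), ∃ (C : ℝ≥0) (Q Hi : E → E) (B sg : ℝ),
      EdgeGerm H e → EProp H e C Q Hi B sg := by
    intro H e
    by_cases hg : EdgeGerm H e
    · obtain ⟨C, Q, Hi, B, sg, hh⟩ := exists_eprop hB hg
      exact ⟨C, Q, Hi, B, sg, fun _ => hh⟩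
    · exact ⟨0, id, id, 0, 0, fun h => absurd h hg⟩
  choose C Q Hi B sg hspec using key
  exact ⟨⟨C, Q, Hi, B, sg, hspec⟩⟩

end Crest.Agent.R096.StE_816
end

-- ▼ part R096/StE2_816
section

/-!
Row 96, P5, `StageEdge`, part 2: the push `W` of the domain, its local model.
-/

set_option autoImplicit false
set_option linter.unusedSectionVars false
open Set Metric MeasureTheory Filter Topology
open scoped NNReal
open Crest.Agent.R096.P5Spec_205

namespace Crest.Agent.R096.StE_816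

/-- admissible sizes of the tubes -/
structure MOK {E : Type*} [NormedAddCommGroup E] [InnerProductSpace ℝ E] [MeasureSpace E]
    (h : E → E) (Om V Z : Set E) (G : E → E → E) (e : E → E) (m : E → ℝ) : Prop where
  pos : ∀ p, EP V Z p → 0 < m p
  le : ∀ p, EP V Z p → m p ≤ rho h Om G p
  lip : ∀ p, EP V Z p → ∀ s s' : ℝ, |s| ≤ rho h Om G p / 4 → |s'| ≤ rho h Om G p / 4 →
    |m (p + s • e p) - m (p + s' • e p)| ≤ |s - s'|

/-- all the data -/
structure Dat (E : Type*) [NormedAddCommGroup E] [InnerProductSpace ℝ E] [MeasureSpace E] where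
  h : E → E
  Om : Set E
  V : Set E
  Z : Set E
  G : E → E → E
  e : E → E
  m : E → ℝ
  S : Sel E
  H : Germs h Om V Z G e
  mok : MOK h Om V Z G e m
  hOm : IsOpen Om
  hZ : ∀ x ∈ Om, x ∉ Z → ∃ r > 0, ∀ y ∈ ball x r, y ∉ Z

variable {E : Type*} [NormedAddCommGroup E] [InnerProductSpace ℝ E] [MeasureSpace E]

namespace Dat

variable (D : Dat E)

/-- edge point -/
def ep (p : E) : Prop := EP D.V D.Z p
/-- conical radius -/
noncomputable def ro (p : E) : ℝ := rho D.h D.Om D.G p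
/-- slope -/
def sg (p : E) : ℝ := D.S.sg (D.G p) (D.e p)
/-- displacement -/
def B (p : E) : ℝ := D.S.B (D.G p) (D.e p)
/-- Lipschitz bound -/
def C (p : E) : ℝ≥0 := D.S.C (D.G p) (D.e p)
/-- the rounded map on the normal disc -/
def Q (p : E) : E → E := D.S.Q (D.G p) (D.e p)
/-- the inverse of the germ -/
def Hi (p : E) : E → E := D.S.Hi (D.G p) (D.e p)
/-- radius of the tube -/
def rad (p : E) : ℝ := D.sg p * D.m p
/-- `x` lies in the normal disc of the tube at `p` -/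
def InT (p x : E) : Prop :=
  D.ep p ∧ inner ℝ (D.e p) (x - p) = (0 : ℝ) ∧ ‖x - p‖ ≤ D.rad p

variable {D}

theorem spec {p : E} (hp : D.ep p) :
    EProp (D.G p) (D.e p) (D.C p) (D.Q p) (D.Hi p) (D.B p) (D.sg p) :=
  D.S.spec _ _ (EP.germ D.H hp)

theorem eg {p : E} (hp : D.ep p) : EdgeGerm (D.G p) (D.e p) := EP.germ D.H hp

theorem om {p : E} (hp : D.ep p) : p ∈ D.Om := EP.om D.H hp

theorem ro_pos {p : E} (hp : D.ep p) : 0 < D.ro p := rho_pos D.H (om hp)

theorem m_pos {p : E} (hp : D.ep p) : 0 < D.m p := D.mok.pos p hp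

theorem m_le {p : E} (hp : D.ep p) : D.m p ≤ D.ro p := D.mok.le p hp

theorem rad_pos {p : E} (hp : D.ep p) : 0 < D.rad p := mul_pos (spec hp).sg_pos (m_pos hp)

theorem rad_le_m {p : E} (hp : D.ep p) : D.rad p ≤ D.m p / 16 := by
  have h1 := (spec hp).sg_le
  have h2 := m_pos hp
  have : D.sg p * D.m p ≤ 1 / 16 * D.m p := mul_le_mul_of_nonneg_right h1 h2.le
  unfold rad
  linarith

theorem rad_le {p : E} (hp : D.ep p) : D.rad p ≤ D.ro p / 16 := by
  have := rad_le_m hp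
  have := m_le hp
  linarith

theorem radB_le_m {p : E} (hp : D.ep p) : D.rad p * D.B p ≤ D.m p / 32 := by
  have h1 := (spec hp).sgB
  have h2 := m_pos hp
  have : D.sg p * D.B p * D.m p ≤ 1 / 32 * D.m p := mul_le_mul_of_nonneg_right h1 h2.le
  unfold rad
  calc D.sg p * D.m p * D.B p = D.sg p * D.B p * D.m p := by ring
    _ ≤ D.m p / 32 := by linarith

theorem radB_le {p : E} (hp : D.ep p) : D.rad p * D.B p ≤ D.ro p / 32 := by
  have := radB_le_m hp
  have := m_le hp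
  linarith

theorem inner_e_self {p : E} (hp : D.ep p) : inner ℝ (D.e p) (D.e p) = (1 : ℝ) := by
  rw [real_inner_self_eq_norm_sq, (eg hp).unit, one_pow]

theorem inT_line {p0 p x : E} (hp0 : D.ep p0) (hx : D.InT p x)
    (hd : ‖x - p0‖ < 15 / 16 * max (D.ro p0) (D.ro p)) :
    p = p0 + (inner ℝ (D.e p0) (x - p0) : ℝ) • D.e p0 ∧ D.e p = D.e p0 ∧ D.G p = D.G p0 := by
  have h1 : ‖p - p0‖ < max (D.ro p0) (D.ro p) := by
    have e1 : p - p0 = (x - p0) - (x - p) := by abel
    rw [e1]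
    refine (norm_sub_le _ _).trans_lt ?_
    have h2 := hx.2.2
    have h3 := rad_le hx.1
    have h4 := le_max_right (D.ro p0) (D.ro p)
    linarith
  obtain ⟨s, hs1, hs2, hs3⟩ := same_line D.H hp0 hx.1 h1
  refine ⟨?_, hs2, hs3⟩
  have h5 := hx.2.1
  rw [hs2, hs1] at h5
  have e2 : x - (p0 + s • D.e p0) = (x - p0) - s • D.e p0 := by abel
  rw [e2, inner_sub_right, inner_smul_right, inner_e_self hp0, mul_one, sub_eq_zero] at h5
  rw [hs1, h5]

theorem inT_unique {p p' x : E} (hx : D.InT p x) (hx' : D.InT p' x) : p' = p := by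
  have h1 := inT_line hx.1 hx' ?_
  · rw [h1.1, hx.2.1, zero_smul, add_zero]
  · have := hx.2.2
    have := rad_le hx.1
    have := ro_pos hx.1
    have := le_max_left (D.ro p) (D.ro p')
    linarith

variable (D) in
open Classical in
/-- the push in the domain -/
noncomputable def W (x : E) : E :=
  if hx : ∃ p, D.InT p x then
    hx.choose + D.rad hx.choose • D.Hi hx.choose
      (D.Q hx.choose ((D.rad hx.choose)⁻¹ • (x - hx.choose)))
  else x

theorem W_of_inT {p x : E} (hx : D.InT p x) :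
    D.W x = p + D.rad p • D.Hi p (D.Q p ((D.rad p)⁻¹ • (x - p))) := by
  have hex : ∃ p, D.InT p x := ⟨p, hx⟩
  have h1 : hex.choose = p := inT_unique hx hex.choose_spec
  rw [W, dif_pos hex, h1]

theorem W_of_not {x : E} (hx : ¬ ∃ p, D.InT p x) : D.W x = x := dif_neg hx

theorem disp {p x : E} (hx : D.InT p x) : ‖D.W x - x‖ ≤ D.rad p * D.B p := by
  have hr := rad_pos hx.1
  set y := (D.rad p)⁻¹ • (x - p) with hy
  have hxy : x - p = D.rad p • y := by
    rw [hy, smul_smul, mul_inv_cancel₀ hr.ne', one_smul]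
  have h1 : inner ℝ (D.e p) y = (0 : ℝ) := by
    rw [hy, inner_smul_right, hx.2.1, mul_zero]
  have h2 : ‖y‖ ≤ 1 := by
    rw [hy, norm_smul, norm_inv, Real.norm_of_nonneg hr.le, inv_mul_le_iff₀ hr, mul_one]
    exact hx.2.2
  have h3 : D.W x - x = D.rad p • (D.Hi p (D.Q p y) - y) := by
    rw [W_of_inT hx, ← hy, smul_sub, ← hxy]
    abel
  rw [h3, norm_smul, Real.norm_of_nonneg hr.le]
  exact mul_le_mul_of_nonneg_left ((spec hx.1).dispH y h1 h2) hr.le

theorem disp_ro {p x : E} (hx : D.InT p x) : ‖D.W x - x‖ ≤ D.ro p / 32 :=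
  (disp hx).trans (radB_le hx.1)

/-! ### the local model -/

/-- clamp -/
noncomputable def cl (r s : ℝ) : ℝ := max (-(r / 4)) (min s (r / 4))

theorem abs_cl_le {r : ℝ} (hr : 0 ≤ r) (s : ℝ) : |cl r s| ≤ r / 4 := by
  rw [abs_le, cl]
  exact ⟨le_max_left _ _, max_le (by linarith) (min_le_right _ _)⟩

theorem cl_of_abs_le {r s : ℝ} (hs : |s| ≤ r / 4) : cl r s = s := by
  rw [abs_le] at hs
  rw [cl, min_eq_left hs.2, max_eq_right hs.1]

theorem cl_lip (r s t : ℝ) : |cl r s - cl r t| ≤ |s - t| := by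
  rw [cl, cl]
  refine (abs_max_sub_max_le_max _ _ _ _).trans ?_
  refine max_le (by rw [sub_self, abs_zero]; positivity) ?_
  refine (abs_min_sub_min_le_max _ _ _ _).trans ?_
  exact max_le le_rfl (by rw [sub_self, abs_zero]; positivity)

variable (D) in
/-- radius of the model tube at `p0` -/
noncomputable def Rt (p0 : E) (s : ℝ) : ℝ := D.sg p0 * D.m (p0 + cl (D.ro p0) s • D.e p0)

theorem shift {p0 : E} (hp : D.ep p0) {s : ℝ} (hs : |s| ≤ D.ro p0 / 4) :
    D.ep (p0 + s • D.e p0) ∧ D.G (p0 + s • D.e p0) = D.G p0 ∧ D.e (p0 + s • D.e p0) = D.e p0 ∧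
      D.ro (p0 + s • D.e p0) ≤ 5 / 4 * D.ro p0 := by
  have h1 := ro_pos hp
  have h2 := rho_shift D.H hp (s := s) (by unfold ro at *; linarith)
  exact ⟨h2.1, h2.2.1, h2.2.2.1, rho_upper D.H hp hs⟩

theorem Rt_pos {p0 : E} (hp : D.ep p0) (s : ℝ) : 0 < D.Rt p0 s :=
  mul_pos (spec hp).sg_pos (m_pos (shift hp (abs_cl_le (ro_pos hp).le s)).1)

theorem Rt_lip {p0 : E} (hp : D.ep p0) (s t : ℝ) :
    |D.Rt p0 s - D.Rt p0 t| ≤ D.sg p0 * |s - t| := by
  rw [Rt, Rt, ← mul_sub, abs_mul, abs_of_pos (spec hp).sg_pos]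
  refine mul_le_mul_of_nonneg_left ?_ (spec hp).sg_pos.le
  exact (D.mok.lip p0 hp _ _ (abs_cl_le (ro_pos hp).le s) (abs_cl_le (ro_pos hp).le t)).trans
    (cl_lip _ _ _)

theorem Rt_le {p0 : E} (hp : D.ep p0) (s : ℝ) : D.Rt p0 s ≤ D.sg p0 * (5 / 4 * D.ro p0) := by
  have h1 := shift hp (abs_cl_le (ro_pos hp).le s)
  exact mul_le_mul_of_nonneg_left ((m_le h1.1).trans h1.2.2.2) (spec hp).sg_pos.le

variable (D) in
/-- the model tube map -/
noncomputable def T (p0 : E) : E → E := tubeMap (D.G p0) (D.Q p0) (D.e p0) (D.Rt p0)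

variable (D) in
/-- the model push -/
noncomputable def N (p0 : E) (x : E) : E := D.Hi p0 (D.T p0 x)

theorem T_spec {p0 : E} (hp : D.ep p0) : IsHomeomorph (D.T p0) ∧ LipschitzWith (D.C p0) (D.T p0) ∧
    ∀ x, MollAt (D.T p0) x := by
  have h1 := (spec hp).tube (D.Rt p0) (fun s => (Rt_pos hp s).le) (Rt_lip hp)
  exact ⟨h1.1, h1.2.1, fun x => h1.2.2 x (Rt_pos hp _)⟩

theorem N_homeo {p0 : E} (hp : D.ep p0) : IsHomeomorph (D.N p0) :=
  (spec hp).Hi_homeo.comp (T_spec hp).1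

theorem G_N {p0 : E} (hp : D.ep p0) (x : E) : D.G p0 (D.N p0 x) = D.T p0 x := (spec hp).right _

theorem N_eq {p0 : E} (hp : D.ep p0) (x : E) :
    D.N p0 x = (inner ℝ (D.e p0) x : ℝ) • D.e p0 + D.Rt p0 (inner ℝ (D.e p0) x) •
      D.Hi p0 (D.Q p0 ((D.Rt p0 (inner ℝ (D.e p0) x))⁻¹ •
        (x - (inner ℝ (D.e p0) x : ℝ) • D.e p0))) := by
  set s : ℝ := inner ℝ (D.e p0) x
  set w := D.Hi p0 (D.Q p0 ((D.Rt p0 s)⁻¹ • (x - s • D.e p0))) with hw
  have hR := Rt_pos hp s
  have h1 : D.T p0 x = D.G p0 (s • D.e p0 + D.Rt p0 s • w) := by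
    rw [T, tubeMap, if_neg hR.ne', add_comm (s • D.e p0), (eg hp).inv, (eg hp).conic _ hR.le, hw,
      (spec hp).right, add_comm]
  rw [N, h1, (spec hp).left]

theorem perp {p0 : E} (hp : D.ep p0) (x : E) :
    inner ℝ (D.e p0) (x - (inner ℝ (D.e p0) x : ℝ) • D.e p0) = (0 : ℝ) := by
  rw [inner_sub_right, inner_smul_right, inner_e_self hp, mul_one, sub_self]

theorem N_out {p0 : E} (hp : D.ep p0) {x : E}
    (hx : D.Rt p0 (inner ℝ (D.e p0) x) ≤ ‖x - (inner ℝ (D.e p0) x : ℝ) • D.e p0‖) :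
    D.N p0 x = x := by
  rw [N_eq hp]
  have h1 := perp hp x
  set s : ℝ := inner ℝ (D.e p0) x
  have hR := Rt_pos hp s
  rw [(spec hp).Q_eq, (spec hp).left, smul_smul, mul_inv_cancel₀ hR.ne', one_smul]
  · abel
  · rw [inner_smul_right, h1, mul_zero]
  · rw [norm_smul, norm_inv, Real.norm_of_nonneg hR.le, ← div_eq_inv_mul, le_div_iff₀ hR, one_mul]
    exact hx

theorem N_disp {p0 : E} (hp : D.ep p0) (x : E) : ‖D.N p0 x - x‖ ≤ D.ro p0 / 16 := by
  have h0 := ro_pos hp
  have hle := Rt_le hp (inner ℝ (D.e p0) x)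
  rcases le_or_gt (D.Rt p0 (inner ℝ (D.e p0) x)) ‖x - (inner ℝ (D.e p0) x : ℝ) • D.e p0‖ with hx | hx
  · rw [N_out hp hx, sub_self, norm_zero]; linarith
  · have h1 := perp hp x
    rw [N_eq hp]
    set s : ℝ := inner ℝ (D.e p0) x
    have hR := Rt_pos hp s
    set y := (D.Rt p0 s)⁻¹ • (x - s • D.e p0) with hy
    have hxy : D.Rt p0 s • y = x - s • D.e p0 := by
      rw [hy, smul_smul, mul_inv_cancel₀ hR.ne', one_smul]
    have h2 : inner ℝ (D.e p0) y = (0 : ℝ) := by rw [hy, inner_smul_right, h1, mul_zero]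
    have h3 : ‖y‖ ≤ 1 := by
      rw [hy, norm_smul, norm_inv, Real.norm_of_nonneg hR.le, inv_mul_le_iff₀ hR, mul_one]
      exact hx.le
    have h4 : s • D.e p0 + D.Rt p0 s • D.Hi p0 (D.Q p0 y) - x =
        D.Rt p0 s • (D.Hi p0 (D.Q p0 y) - y) := by
      rw [smul_sub, hxy]; abel
    rw [h4, norm_smul, Real.norm_of_nonneg hR.le]
    have h5 := (spec hp).dispH y h2 h3
    have h6 := (spec hp).sgB
    have h7 := (spec hp).B_nonneg
    calc D.Rt p0 s * ‖D.Hi p0 (D.Q p0 y) - y‖ ≤ D.Rt p0 s * D.B p0 :=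
          mul_le_mul_of_nonneg_left h5 hR.le
      _ ≤ D.sg p0 * (5 / 4 * D.ro p0) * D.B p0 := mul_le_mul_of_nonneg_right hle h7
      _ = D.sg p0 * D.B p0 * (5 / 4 * D.ro p0) := by ring
      _ ≤ 1 / 32 * (5 / 4 * D.ro p0) := mul_le_mul_of_nonneg_right h6 (by positivity)
      _ ≤ D.ro p0 / 16 := by linarith

theorem W_model {p0 x : E} (hp : D.ep p0) (hx : ‖x - p0‖ < D.ro p0 / 4) :
    D.W x = p0 + D.N p0 (x - p0) := by
  set s : ℝ := inner ℝ (D.e p0) (x - p0) with hs
  have hs1 : |s| ≤ D.ro p0 / 4 := by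
    have := abs_real_inner_le_norm (D.e p0) (x - p0)
    rw [(eg hp).unit, one_mul] at this
    exact this.trans hx.le
  obtain ⟨h1, h2, h3, h4⟩ := shift hp hs1
  have hrad : D.rad (p0 + s • D.e p0) = D.Rt p0 s := by
    rw [rad, Rt, sg, sg, h2, h3, cl_of_abs_le hs1]
  have e1 : x - (p0 + s • D.e p0) = (x - p0) - s • D.e p0 := by abel
  rcases le_or_gt (‖x - (p0 + s • D.e p0)‖) (D.rad (p0 + s • D.e p0)) with hc | hc
  · have hin : D.InT (p0 + s • D.e p0) x := by
      refine ⟨h1, ?_, hc⟩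
      rw [h3, e1]; exact perp hp _
    rw [W_of_inT hin, N_eq hp, ← hs, hrad]
    have h5 : D.Hi (p0 + s • D.e p0) = D.Hi p0 := by rw [Hi, Hi, h2, h3]
    have h6 : D.Q (p0 + s • D.e p0) = D.Q p0 := by rw [Q, Q, h2, h3]
    rw [h5, h6, e1]
    abel
  · have hnot : ¬ ∃ p, D.InT p x := by
      rintro ⟨p, hpx⟩
      have h0 := ro_pos hp
      have := inT_line hp hpx (by
        have := le_max_left (D.ro p0) (D.ro p)
        linarith)
      rw [← hs] at this
      rw [this.1] at hpx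
      exact absurd hpx.2.2 (not_le.2 hc)
    rw [W_of_not hnot, N_out hp]
    · abel
    · rw [← hs, ← hrad, ← e1]; exact hc.le

theorem h2_model {p0 x : E} (hp : D.ep p0) (hx : ‖x - p0‖ < D.ro p0 / 4) :
    D.h (D.W x) = D.h p0 + D.T p0 (x - p0) := by
  rw [W_model hp hx, ← G_N hp]
  refine (rho_good D.H (om hp)).2.2 _ ?_
  have h1 := N_disp hp (x - p0)
  have h2 : D.N p0 (x - p0) = (D.N p0 (x - p0) - (x - p0)) + (x - p0) := by abel
  rw [h2]
  refine (norm_add_le _ _).trans_lt ?_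
  have := ro_pos hp
  change _ < D.ro p0
  linarith

end Dat

end Crest.Agent.R096.StE_816
end

-- ▼ part R096/StE3_816
section

/-!
Row 96, P5, `StageEdge`, part 3: the push `W` is a homeomorphism of `Om`.
-/

set_option autoImplicit false
set_option linter.unusedSectionVars false
open Set Metric MeasureTheory Filter Topology
open scoped NNReal
open Crest.Agent.R096.P5Spec_205

namespace Crest.Agent.R096.StE_816

section general

variable {E : Type*} [NormedAddCommGroup E] [NormedSpace ℝ E]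

/-- `f` maps the neighbourhoods of `x` to the neighbourhoods of `f x` -/
def LH (f : E → E) (x : E) : Prop := map f (𝓝 x) = 𝓝 (f x)

theorem LH.comp {f g : E → E} {x : E} (hg : LH g (f x)) (hf : LH f x) :
    LH (fun y => g (f y)) x := by
  unfold LH at *
  have : (fun y => g (f y)) = g ∘ f := rfl
  rw [this, ← map_map, hf, hg]
  rfl

theorem LH.congr {f g : E → E} {x : E} (hf : LH f x) (h : g =ᶠ[𝓝 x] f) : LH g x := by
  unfold LH at *
  rw [map_congr h, hf, h.self_of_nhds]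

theorem lh_homeo {f : E → E} (hf : IsHomeomorph f) (x : E) : LH f x :=
  (hf.homeomorph f).map_nhds_eq x

theorem lh_add (a x : E) : LH (fun y => a + y) x := (Homeomorph.addLeft a).map_nhds_eq x

theorem lh_sub (a x : E) : LH (fun y => y - a) x := (Homeomorph.subRight a).map_nhds_eq x

theorem lh_smul {c : ℝ} (hc : c ≠ 0) (x : E) : LH (fun y => c • y) x :=
  (Homeomorph.smulOfNeZero c hc).map_nhds_eq x

end general

section homeoOn

variable {E : Type*} [NormedAddCommGroup E]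

theorem homeoOn_of_nhds {f : E → E} {A B : Set E} (hA : IsOpen A) (hf : BijOn f A B)
    (hn : ∀ x ∈ A, map f (𝓝 x) = 𝓝 (f x)) : HomeoOn f A B := by
  classical
  refine ⟨hf, fun x hx => (tendsto_iff_comap.2 ?_ : Tendsto f _ _), Function.invFunOn f A, ?_, ?_⟩
  · rw [← tendsto_iff_comap]
    exact (show Tendsto f (𝓝 x) (𝓝 (f x)) from (hn x hx).le).mono_left inf_le_left
  · intro y hy
    obtain ⟨x, hx, rfl⟩ := hf.surjOn hy
    have h1 : ∀ z ∈ A, Function.invFunOn f A (f z) = z := fun z hz =>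
      hf.injOn.leftInvOn_invFunOn hz
    have h2 : Tendsto (Function.invFunOn f A) (𝓝 (f x)) (𝓝 (Function.invFunOn f A (f x))) := by
      rw [← hn x hx, tendsto_map'_iff, h1 x hx]
      refine Tendsto.congr' ?_ tendsto_id
      filter_upwards [hA.mem_nhds hx] with z hz using (h1 z hz).symm
    exact h2.mono_left inf_le_left
  · exact fun z hz => hf.injOn.leftInvOn_invFunOn hz

theorem nhds_of_homeoOn {f : E → E} {A B : Set E} (hA : IsOpen A) (hB : IsOpen B)
    (hf : HomeoOn f A B) {x : E} (hx : x ∈ A) : map f (𝓝 x) = 𝓝 (f x) := by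
  refine le_antisymm (hf.cont.continuousAt (hA.mem_nhds hx)) ?_
  obtain ⟨k, hk, hkf⟩ := hf.inv
  have hfx : f x ∈ B := hf.bij.mapsTo hx
  have hkc : ContinuousAt k (f x) := hk.continuousAt (hB.mem_nhds hfx)
  intro s hs
  rw [mem_map] at hs
  have h1 : k ⁻¹' (f ⁻¹' s) ∈ 𝓝 (f x) := by
    refine hkc.preimage_mem_nhds ?_
    rwa [hkf x hx]
  filter_upwards [h1, hB.mem_nhds hfx] with y hy hyB
  obtain ⟨z, hz, rfl⟩ := hf.bij.surjOn hyB
  have h2 : f (k (f z)) ∈ s := hy
  rwa [hkf z hz] at h2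

theorem HomeoOn.comp' {f g : E → E} {A B C : Set E} (hg : HomeoOn g B C) (hf : HomeoOn f A B) :
    HomeoOn (fun x => g (f x)) A C := by
  obtain ⟨k, hk, hkf⟩ := hf.inv
  obtain ⟨l, hl, hlg⟩ := hg.inv
  refine ⟨hg.bij.comp hf.bij, hg.cont.comp hf.cont hf.bij.mapsTo, fun y => k (l y), ?_, ?_⟩
  · refine hk.comp hl ?_
    intro y hy
    obtain ⟨z, hz, rfl⟩ := hg.bij.surjOn hy

    rwa [hlg z hz]
  · intro x hx
    change k (l (g (f x))) = x
    rw [hlg _ (hf.bij.mapsTo hx), hkf x hx]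

end homeoOn

variable {E : Type*} [NormedAddCommGroup E] [InnerProductSpace ℝ E] [MeasureSpace E]

namespace Dat

variable {D : Dat E}

theorem near_open {p x : E} (hx : ‖x - p‖ < D.ro p / 4) : ∀ᶠ y in 𝓝 x, ‖y - p‖ < D.ro p / 4 := by
  have h1 : Continuous fun y : E => ‖y - p‖ := by fun_prop
  exact h1.continuousAt.eventually_lt_const hx

theorem W_near {p x : E} (hp : D.ep p) (hx : ‖x - p‖ < D.ro p / 4) :
    D.W =ᶠ[𝓝 x] fun y => p + D.N p (y - p) :=
  (near_open hx).mono fun _ hy => W_model hp hy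

theorem h2_near {p x : E} (hp : D.ep p) (hx : ‖x - p‖ < D.ro p / 4) :
    (fun y => D.h (D.W y)) =ᶠ[𝓝 x] fun y => D.h p + D.T p (y - p) :=
  (near_open hx).mono fun _ hy => h2_model hp hy

theorem not_Z {x : E} (hV : x ∉ D.V) (hfar : ∀ p, D.ep p → D.ro p / 4 ≤ ‖x - p‖) : x ∉ D.Z := by
  intro hZ
  have h1 : D.ep x := ⟨hZ, hV⟩
  have h2 := hfar x h1
  rw [sub_self, norm_zero] at h2
  have := ro_pos h1
  linarith

theorem W_id_near {x : E} (hx : x ∈ D.Om) (hV : x ∉ D.V)
    (hfar : ∀ p, D.ep p → D.ro p / 4 ≤ ‖x - p‖) : D.W =ᶠ[𝓝 x] fun y => y := by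
  obtain ⟨r, hr, hrZ⟩ := D.hZ x hx (not_Z hV hfar)
  have h1 : ball x (3 / 4 * r) ∈ 𝓝 x := ball_mem_nhds _ (by positivity)
  filter_upwards [h1] with y hy
  refine W_of_not ?_
  rintro ⟨p, hp⟩
  have h2 := hfar p hp.1
  have h3 := hp.2.2
  have h4 := rad_le hp.1
  have h5 : r ≤ ‖x - p‖ := by
    by_contra hcon
    rw [not_le, ← dist_eq_norm, dist_comm] at hcon
    exact hrZ p (mem_ball.2 hcon) hp.1.1
  have h6 : ‖x - p‖ ≤ ‖y - x‖ + ‖y - p‖ := by
    rw [norm_sub_rev y x]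
    have : x - p = (x - y) + (y - p) := by abel
    rw [this]; exact norm_add_le _ _
  rw [mem_ball, dist_eq_norm] at hy
  have h7 := ro_pos hp.1
  linarith

theorem vertex_close {v p x : E} (hv : v ∈ D.V) (hx : D.InT p x) :
    D.ro p ≤ ‖p - v‖ ∧ ‖p - v‖ ≤ 16 / 15 * ‖x - v‖ := by
  have h1 : D.ro p ≤ ‖p - v‖ := no_vertex D.H hx.1 hv
  refine ⟨h1, ?_⟩
  have h2 := hx.2.2
  have h3 := rad_le hx.1
  have h4 : ‖p - v‖ ≤ ‖x - v‖ + ‖x - p‖ := by
    rw [norm_sub_rev x p, add_comm]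
    have : p - v = (p - x) + (x - v) := by abel
    rw [this]; exact norm_add_le _ _
  linarith

theorem disp_vertex {v : E} (hv : v ∈ D.V) (x : E) : ‖D.W x - x‖ ≤ ‖x - v‖ / 30 := by
  by_cases hx : ∃ p, D.InT p x
  · obtain ⟨p, hp⟩ := hx
    have h1 := vertex_close hv hp
    have h2 := disp_ro hp
    linarith
  · rw [W_of_not hx, sub_self, norm_zero]; positivity

theorem W_vertex {v : E} (hv : v ∈ D.V) : D.W v = v := by
  have := disp_vertex hv v
  rw [sub_self, norm_zero, zero_div] at this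
  rw [← sub_eq_zero, ← norm_eq_zero]
  exact le_antisymm this (norm_nonneg _)

theorem W_mapsTo : MapsTo D.W D.Om D.Om := by
  intro x hx
  by_cases hex : ∃ p, D.InT p x
  · obtain ⟨p, hp⟩ := hex
    refine (rho_good D.H (om hp.1)).2.1 ?_
    rw [mem_ball, dist_eq_norm]
    have h1 := disp_ro hp
    have h2 := hp.2.2
    have h3 := rad_le hp.1
    have h4 := ro_pos hp.1
    have e1 : D.W x - p = (D.W x - x) + (x - p) := by abel
    rw [e1]
    refine (norm_add_le _ _).trans_lt ?_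
    change _ < D.ro p
    linarith
  · rwa [W_of_not hex]

theorem W_inj_aux {p x y : E} (hx : D.InT p x) (hxy : D.W x = D.W y)
    (hy : ‖D.W y - y‖ ≤ D.ro p / 32) : x = y := by
  have h1 := disp_ro hx
  have h2 := hx.2.2
  have h3 := rad_le hx.1
  have h4 := ro_pos hx.1
  have h5 : ‖x - p‖ < D.ro p / 4 := by linarith
  have h6 : ‖y - p‖ < D.ro p / 4 := by
    have e1 : y - p = (D.W x - x) + (x - p) - (D.W y - y) := by rw [hxy]; abel
    rw [e1]
    refine (norm_sub_le _ _).trans_lt ?_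
    have := norm_add_le (D.W x - x) (x - p)
    linarith
  have h7 := hxy
  rw [W_model hx.1 h5, W_model hx.1 h6] at h7
  have h8 := (N_homeo hx.1).injective (add_left_cancel h7)
  exact sub_left_injective h8

theorem W_inj : Function.Injective D.W := by
  intro x y hxy
  by_cases hx : ∃ p, D.InT p x
  · obtain ⟨p, hp⟩ := hx
    by_cases hy : ∃ q, D.InT q y
    · obtain ⟨q, hq⟩ := hy
      rcases le_total (D.ro q) (D.ro p) with hle | hle
      · exact W_inj_aux hp hxy ((disp_ro hq).trans (by linarith))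
      · exact (W_inj_aux hq hxy.symm ((disp_ro hp).trans (by linarith))).symm
    · have h4 := ro_pos hp.1
      exact W_inj_aux hp hxy (by rw [W_of_not hy, sub_self, norm_zero]; positivity)
  · by_cases hy : ∃ q, D.InT q y
    · obtain ⟨q, hq⟩ := hy
      have h4 := ro_pos hq.1
      exact (W_inj_aux hq hxy.symm (by rw [W_of_not hx, sub_self, norm_zero]; positivity)).symm
    · rwa [W_of_not hx, W_of_not hy] at hxy

theorem W_surjOn : SurjOn D.W D.Om D.Om := by
  intro y hy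
  by_cases hex : ∃ p, D.ep p ∧ ‖y - p‖ < 3 / 16 * D.ro p
  · obtain ⟨p, hp, hyp⟩ := hex
    obtain ⟨z, hz⟩ := (N_homeo hp).surjective (y - p)
    have h1 := N_disp hp z
    have h4 := ro_pos hp
    have h2 : ‖z‖ < D.ro p / 4 := by
      have e1 : z = (y - p) - (D.N p z - z) := by rw [hz]; abel
      rw [e1]
      refine (norm_sub_le _ _).trans_lt ?_
      linarith
    refine ⟨p + z, ?_, ?_⟩
    · refine (rho_good D.H (om hp)).2.1 ?_
      rw [mem_ball, dist_eq_norm, add_sub_cancel_left]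
      change _ < D.ro p
      linarith
    · rw [W_model hp (by rwa [add_sub_cancel_left]), add_sub_cancel_left, hz]
      abel
  · refine ⟨y, hy, W_of_not ?_⟩
    rintro ⟨p, hp⟩
    refine hex ⟨p, hp.1, ?_⟩
    have h2 := hp.2.2
    have h3 := rad_le hp.1
    have h4 := ro_pos hp.1
    linarith

theorem W_bijOn : BijOn D.W D.Om D.Om := ⟨W_mapsTo, W_inj.injOn, W_surjOn⟩

theorem W_nhds {x : E} (hx : x ∈ D.Om) : LH D.W x := by
  by_cases hex : ∃ p, D.ep p ∧ ‖x - p‖ < D.ro p / 4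
  · obtain ⟨p, hp, hxp⟩ := hex
    refine LH.congr ?_ (W_near hp hxp)
    exact LH.comp (lh_add _ _) (LH.comp (lh_homeo (N_homeo hp) _) (lh_sub _ _))
  · have hfar : ∀ p, D.ep p → D.ro p / 4 ≤ ‖x - p‖ := fun p hp =>
      not_lt.1 fun h => hex ⟨p, hp, h⟩
    by_cases hV : x ∈ D.V
    · unfold LH
      rw [W_vertex hV]
      refine le_antisymm ?_ ?_
      · rw [← Tendsto, tendsto_iff_norm_sub_tendsto_zero]
        have h1 : Tendsto (fun y => ‖y - x‖ * (31 / 30)) (𝓝 x) (𝓝 0) := by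
          have h2 : Continuous fun y : E => ‖y - x‖ * (31 / 30) := by fun_prop
          have h3 := h2.tendsto x
          simpa using h3
        refine squeeze_zero (fun y => norm_nonneg _) (fun y => ?_) h1
        have h3 := disp_vertex hV y
        have e1 : D.W y - x = (D.W y - y) + (y - x) := by abel
        rw [e1]
        refine (norm_add_le _ _).trans ?_
        linarith
      · intro s hs
        rw [mem_map] at hs
        obtain ⟨r, hr, hrs⟩ := Metric.mem_nhds_iff.1 hs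
        have h1 : ball x (r / 2) ∈ 𝓝 x := ball_mem_nhds _ (by positivity)
        filter_upwards [h1, D.hOm.mem_nhds hx] with y hy hyO
        obtain ⟨z, hz, rfl⟩ := W_surjOn hyO
        refine hrs ?_
        rw [mem_ball, dist_eq_norm] at *
        have h3 := disp_vertex hV z
        have e1 : z - x = (D.W z - x) - (D.W z - z) := by abel
        have h4 := norm_sub_le (D.W z - x) (D.W z - z)
        rw [← e1] at h4
        linarith
    · refine LH.congr ?_ (W_id_near hx hV hfar)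
      exact Filter.map_id

theorem W_homeoOn : HomeoOn D.W D.Om D.Om :=
  homeoOn_of_nhds D.hOm W_bijOn fun _ hx => W_nhds hx

variable (D) in
/-- the new map -/
noncomputable def h2 (x : E) : E := D.h (D.W x)

theorem h2_homeoOn {La : Set E} (hh : HomeoOn D.h D.Om La) : HomeoOn D.h2 D.Om La :=
  HomeoOn.comp' (f := D.W) (g := D.h) hh W_homeoOn

end Dat

end Crest.Agent.R096.StE_816
end

-- ▼ part R096/StE4_816
section

/-!
Row 96, P5, `StageEdge`, part 4: `MollAt` under affine changes, `h2` is Moll off the vertices,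
error estimates.
-/

set_option autoImplicit false
set_option linter.unusedSectionVars false
open Set Metric MeasureTheory Filter Topology
open scoped NNReal
open Crest.Agent.R096.P5Spec_205

namespace Crest.Agent.R096.StE_816

section moll

variable {E : Type*} [NormedAddCommGroup E] [InnerProductSpace ℝ E] [MeasureSpace E]

theorem MollAt.congr {f g : E → E} {x : E} (hf : MollAt f x) (h : g =ᶠ[𝓝 x] f) : MollAt g x := by
  obtain ⟨r, hr, K, hK1, hK2, hK3, ⟨L, hL⟩, hae⟩ := hf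
  obtain ⟨r', hr', hr's⟩ := Metric.mem_nhds_iff.1 h
  have hs1 : ball x (min r r') ⊆ ball x r := ball_subset_ball (min_le_left _ _)
  have hs2 : ball x (min r r') ⊆ ball x r' := ball_subset_ball (min_le_right _ _)
  refine ⟨min r r', lt_min hr hr', K, hK1, hK2, hK3, ⟨L, ?_⟩, ?_⟩
  · intro y hy z hz
    have e1 : g y = f y := hr's (hs2 hy)
    have e2 : g z = f z := hr's (hs2 hz)
    rw [e1, e2]
    exact hL (hs1 hy) (hs1 hz)
  · filter_upwards [hae] with y hy hyb
    have e1 : g =ᶠ[𝓝 y] f := by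
      filter_upwards [isOpen_ball.mem_nhds (hs2 hyb)] with z hz using hr's hz
    rw [e1.fderiv_eq]
    exact hy (hs1 hyb)

variable [BorelSpace E] [FiniteDimensional ℝ E] [(volume : Measure E).IsAddHaarMeasure]

theorem ae_affine {P : E → Prop} (hP : ∀ᵐ z ∂(volume : Measure E), P z) (a : E) {c : ℝ}
    (hc : c ≠ 0) : ∀ᵐ y ∂(volume : Measure E), P (a + c • y) := by
  have h1 : ∀ᵐ y ∂(volume : Measure E), P (a + y) := by
    have hq : Measure.QuasiMeasurePreserving (fun y : E => a + y) volume volume :=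
      (measurePreserving_add_left volume a).quasiMeasurePreserving
    exact hq.ae hP
  have hq2 : Measure.QuasiMeasurePreserving (fun y : E => c • y) volume volume := by
    refine ⟨measurable_const_smul c, ?_⟩
    rw [Measure.map_addHaar_smul volume hc]
    exact Measure.smul_absolutelyContinuous
  exact hq2.ae h1

theorem MollAt.affine {f : E → E} {x a b : E} {c : ℝ} (hc : 0 < c) (hf : MollAt f (a + c • x)) :
    MollAt (fun y => c⁻¹ • (f (a + c • y) - b)) x := by
  obtain ⟨r, hr, K, hK1, hK2, hK3, ⟨L, hL⟩, hae⟩ := hf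
  have hmem : ∀ y ∈ ball x (r / c), a + c • y ∈ ball (a + c • x) r := by
    intro y hy
    rw [mem_ball, dist_eq_norm] at *
    have e1 : a + c • y - (a + c • x) = c • (y - x) := by rw [smul_sub]; abel
    rw [e1, norm_smul, Real.norm_of_nonneg hc.le]
    rwa [lt_div_iff₀' hc] at hy
  refine ⟨r / c, div_pos hr hc, K, hK1, hK2, hK3, ⟨L, ?_⟩, ?_⟩
  · refine LipschitzOnWith.of_dist_le_mul fun y hy z hz => ?_
    have h1 := hL.dist_le_mul _ (hmem y hy) _ (hmem z hz)
    rw [dist_eq_norm, dist_eq_norm] at *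
    have e1 : c⁻¹ • (f (a + c • y) - b) - c⁻¹ • (f (a + c • z) - b) =
        c⁻¹ • (f (a + c • y) - f (a + c • z)) := by
      rw [← smul_sub]; congr 1; abel
    have e2 : a + c • y - (a + c • z) = c • (y - z) := by rw [smul_sub]; abel
    rw [e2, norm_smul, Real.norm_of_nonneg hc.le] at h1
    rw [e1, norm_smul, norm_inv, Real.norm_of_nonneg hc.le, inv_mul_le_iff₀ hc]
    linarith
  · have h1 := ae_affine hae a hc.ne'
    filter_upwards [h1] with y hy hyb
    have h2 : fderiv ℝ (fun y => c⁻¹ • (f (a + c • y) - b)) y = fderiv ℝ f (a + c • y) := by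
      have e0 : (fun y => c⁻¹ • (f (a + c • y) - b)) = c⁻¹ • (fun y => f (a + c • y) - b) := rfl
      rw [e0, fderiv_const_smul_field, Pi.smul_apply]
      have e1 : fderiv ℝ (fun y => f (a + c • y) - b) y = c • fderiv ℝ f (a + c • y) := by
        rw [fderiv_sub_const]
        have e2 : (fun y => f (a + c • y)) = (fun y => (fun z => f (a + z)) (c • y)) := rfl
        rw [e2, fderiv_comp_smul (f := fun z => f (a + z)), fderiv_comp_add_left]
      rw [e1, smul_smul, inv_mul_cancel₀ hc.ne', one_smul]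
    rw [h2]
    exact hy (hmem y hyb)

theorem MollAt.shift {f : E → E} {x p b : E} (hf : MollAt f (x - p)) :
    MollAt (fun y => b + f (y - p)) x := by
  have h1 : MollAt f (-p + (1 : ℝ) • x) := by
    have : -p + (1 : ℝ) • x = x - p := by rw [one_smul]; abel
    rwa [this]
  have h2 := MollAt.affine (b := -b) one_pos h1
  have e1 : (fun y => (1 : ℝ)⁻¹ • (f (-p + (1 : ℝ) • y) - -b)) = fun y => b + f (y - p) := by
    funext y
    rw [inv_one, one_smul, one_smul]
    have : -p + y = y - p := by abel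
    rw [this]; abel
  rwa [e1] at h2

end moll

variable {E : Type*} [NormedAddCommGroup E] [InnerProductSpace ℝ E] [MeasureSpace E]

namespace Dat

variable {D : Dat E}

theorem h2_id_near {x : E} (hx : x ∈ D.Om) (hV : x ∉ D.V)
    (hfar : ∀ p, D.ep p → D.ro p / 4 ≤ ‖x - p‖) : D.h2 =ᶠ[𝓝 x] D.h :=
  (W_id_near hx hV hfar).mono fun y hy => by
    change D.h (D.W y) = D.h y
    rw [hy]

theorem h2_moll [BorelSpace E] [FiniteDimensional ℝ E] [(volume : Measure E).IsAddHaarMeasure]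
    {x : E} (hx : x ∈ D.Om) (hV : x ∉ D.V) : MollAt D.h2 x := by
  by_cases hex : ∃ p, D.ep p ∧ ‖x - p‖ < D.ro p / 4
  · obtain ⟨p, hp, hxp⟩ := hex
    exact MollAt.congr (MollAt.shift ((T_spec hp).2.2 _)) (h2_near hp hxp)
  · have hfar : ∀ p, D.ep p → D.ro p / 4 ≤ ‖x - p‖ := fun p hp =>
      not_lt.1 fun h => hex ⟨p, hp, h⟩
    exact MollAt.congr (D.H.moll x hx (not_Z hV hfar)) (h2_id_near hx hV hfar)

theorem h2_inT {p x : E} (hx : D.InT p x) :
    ‖D.h2 x - D.h x‖ ≤ D.m p / 32 ∧ ‖x - p‖ ≤ D.m p / 16 := by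
  refine ⟨?_, hx.2.2.trans (rad_le_m hx.1)⟩
  have hr := rad_pos hx.1
  have h0 := ro_pos hx.1
  have hle := rad_le hx.1
  set y := (D.rad p)⁻¹ • (x - p) with hy
  have hxy : x - p = D.rad p • y := by
    rw [hy, smul_smul, mul_inv_cancel₀ hr.ne', one_smul]
  have h1 : inner ℝ (D.e p) y = (0 : ℝ) := by
    rw [hy, inner_smul_right, hx.2.1, mul_zero]
  have h2 : ‖y‖ ≤ 1 := by
    rw [hy, norm_smul, norm_inv, Real.norm_of_nonneg hr.le, inv_mul_le_iff₀ hr, mul_one]
    exact hx.2.2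
  have hg := rho_good D.H (om hx.1)
  have h3 : D.h x = D.h p + D.rad p • D.G p y := by
    have e1 : x = p + (x - p) := by abel
    rw [e1, hg.2.2 (x - p) (by have := hx.2.2; change _ < D.ro p; linarith), hxy,
      (eg hx.1).conic _ hr.le]
  have h4 : D.h2 x = D.h p + D.rad p • D.Q p y := by
    have h5 := disp_ro hx
    change D.h (D.W x) = _
    rw [W_of_inT hx, ← hy, hg.2.2, (eg hx.1).conic _ hr.le, (spec hx.1).right]
    have e1 : D.rad p • D.Hi p (D.Q p y) = (D.W x - x) + (x - p) := by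
      rw [W_of_inT hx, ← hy]; abel
    rw [e1]
    refine (norm_add_le _ _).trans_lt ?_
    have := hx.2.2
    change _ < D.ro p
    linarith
  have h5 : D.h2 x - D.h x = D.rad p • (D.Q p y - D.G p y) := by
    rw [h3, h4, smul_sub]; abel
  rw [h5, norm_smul, Real.norm_of_nonneg hr.le]
  exact (mul_le_mul_of_nonneg_left ((spec hx.1).dispQ y h1 h2) hr.le).trans (radB_le_m hx.1)

theorem h2_of_not {x : E} (hx : ¬ ∃ p, D.InT p x) : D.h2 x = D.h x := by
  change D.h (D.W x) = D.h x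
  rw [W_of_not hx]

end Dat

end Crest.Agent.R096.StE_816
end

-- ▼ part R096/StE5_816
section

/-!
Row 96, P5, `StageEdge`, part 5: the size functions; conical extension `K` at a vertex.
-/

set_option autoImplicit false
set_option linter.unusedSectionVars false
open Set Metric MeasureTheory Filter Topology
open scoped NNReal
open Crest.Agent.R096.P5Spec_205

namespace Crest.Agent.R096.StE_816

/-! ## infimal convolution -/

section infconv

variable {E : Type*} [NormedAddCommGroup E]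

/-- the largest 1-Lipschitz function below `η` -/
noncomputable def ic (Om : Set E) (η : E → ℝ) (p : E) : ℝ := sInf ((fun z => η z + ‖z - p‖) '' Om)

variable {Om : Set E} {η : E → ℝ}

theorem ic_le (hη : ∀ x ∈ Om, 0 < η x) {z : E} (hz : z ∈ Om) (p : E) :
    ic Om η p ≤ η z + ‖z - p‖ := by
  refine csInf_le ⟨0, ?_⟩ ⟨z, hz, rfl⟩
  rintro _ ⟨w, hw, rfl⟩
  have := hη w hw
  have := norm_nonneg (w - p)
  change 0 ≤ η w + ‖w - p‖
  linarith

theorem ic_lip (hη : ∀ x ∈ Om, 0 < η x) (hne : Om.Nonempty) (p q : E) :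
    ic Om η p ≤ ic Om η q + ‖p - q‖ := by
  rw [← sub_le_iff_le_add]
  refine le_csInf (hne.image _) ?_
  rintro _ ⟨w, hw, rfl⟩
  have h1 := ic_le hη hw p
  have h2 : ‖w - p‖ ≤ ‖w - q‖ + ‖p - q‖ := by
    rw [norm_sub_rev p q]
    have : w - p = (w - q) + (q - p) := by abel
    rw [this]; exact norm_add_le _ _
  change _ ≤ η w + ‖w - q‖
  linarith

theorem abs_ic_sub (hη : ∀ x ∈ Om, 0 < η x) (hne : Om.Nonempty) (p q : E) :
    |ic Om η p - ic Om η q| ≤ ‖p - q‖ := by
  have h1 := ic_lip hη hne p q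
  have h2 := ic_lip hη hne q p
  rw [norm_sub_rev] at h2
  rw [abs_le]; constructor <;> linarith

theorem ic_pos (hO : IsOpen Om) (hη : ∀ x ∈ Om, 0 < η x) (hc : ContinuousOn η Om) {p : E}
    (hp : p ∈ Om) : 0 < ic Om η p := by
  have h1 : ∀ᶠ z in 𝓝 p, η p / 2 < η z := by
    refine (hc.continuousAt (hO.mem_nhds hp)).eventually_const_lt ?_
    have := hη p hp
    linarith
  obtain ⟨δ, hδ, hs⟩ := Metric.eventually_nhds_iff.1 h1
  have h2 : min (η p / 2) δ ≤ ic Om η p := by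
    refine le_csInf ⟨_, p, hp, rfl⟩ ?_
    rintro _ ⟨w, hw, rfl⟩
    change _ ≤ η w + ‖w - p‖
    rcases lt_or_ge (dist w p) δ with hd | hd
    · have := hs hd
      have := norm_nonneg (w - p)
      have := min_le_left (η p / 2) δ
      linarith
    · rw [dist_eq_norm] at hd
      have := hη w hw
      have := min_le_right (η p / 2) δ
      linarith
  exact lt_of_lt_of_le (lt_min (by have := hη p hp; linarith) hδ) h2

end infconv

/-! ## conical extension -/

section ext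

variable {E : Type*} [NormedAddCommGroup E] [InnerProductSpace ℝ E] [MeasureSpace E]

/-- extension of a locally conical map to a conic one -/
noncomputable def ext (f : E → E) (v : E) (r : ℝ) (u : E) : E :=
  ((r / 2) / (1 + ‖u‖))⁻¹ • (f (v + ((r / 2) / (1 + ‖u‖)) • u) - f v)

variable {f : E → E} {v : E} {r : ℝ}

theorem conic_two (hf : ConicOn f v r) {u : E} {c c' : ℝ} (hc' : 0 < c') (hcc : c' ≤ c)
    (hcu : ‖c • u‖ < r) : c'⁻¹ • (f (v + c' • u) - f v) = c⁻¹ • (f (v + c • u) - f v) := by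
  have hc : 0 < c := hc'.trans_le hcc
  have h1 := hf (c • u) hcu (c' / c) (by positivity) (by rw [div_le_one hc]; exact hcc)
  rw [smul_smul, div_mul_cancel₀ _ hc.ne'] at h1
  rw [h1, add_sub_cancel_left, smul_smul]
  congr 1
  field_simp

theorem cnorm {u : E} (hr : 0 < r) {M : ℝ} (hM : ‖u‖ ≤ M) :
    0 < (r / 2) / (1 + M) ∧ ‖((r / 2) / (1 + M)) • u‖ < r := by
  have h0 := norm_nonneg u
  have h1 : 0 < 1 + M := by linarith
  have h2 : 0 < (r / 2) / (1 + M) := by positivity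
  refine ⟨h2, ?_⟩
  rw [norm_smul, Real.norm_of_nonneg h2.le, div_mul_eq_mul_div, div_lt_iff₀ h1]
  nlinarith

theorem ext_eq (hr : 0 < r) (hf : ConicOn f v r) {u : E} {c : ℝ} (hc : 0 < c)
    (hcu : ‖c • u‖ < r) : ext f v r u = c⁻¹ • (f (v + c • u) - f v) := by
  obtain ⟨h1, h2⟩ := cnorm (u := u) hr le_rfl
  unfold ext
  rcases le_total ((r / 2) / (1 + ‖u‖)) c with h | h
  · exact conic_two hf h1 h hcu
  · exact (conic_two hf hc h h2).symm

theorem ext_apply (hr : 0 < r) (hf : ConicOn f v r) {u : E} (hu : ‖u‖ < r) :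
    f (v + u) = f v + ext f v r u := by
  rw [ext_eq hr hf one_pos (by rwa [one_smul]), inv_one, one_smul, one_smul]
  abel

theorem ext_conic (hr : 0 < r) (hf : ConicOn f v r) : Conic (ext f v r) := by
  intro c hc x
  rcases hc.eq_or_lt with rfl | hc
  · rw [zero_smul, zero_smul, ext, smul_zero, add_zero, sub_self, smul_zero]
  · obtain ⟨h1, h2⟩ := cnorm (u := c • x) hr le_rfl
    rw [ext_eq hr hf h1 h2]
    rw [smul_smul] at h2
    rw [ext_eq hr hf (mul_pos h1 hc) h2, smul_smul, smul_smul]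
    congr 1
    field_simp

theorem ext_near (hr : 0 < r) (hf : ConicOn f v r) (u : E) :
    ∃ c : ℝ, 0 < c ∧ ‖c • u‖ < r ∧ ext f v r =ᶠ[𝓝 u] fun y => c⁻¹ • (f (v + c • y) - f v) := by
  obtain ⟨h1, h2⟩ := cnorm (u := u) hr le_rfl
  refine ⟨_, h1, h2, ?_⟩
  have h3 : Continuous fun y : E => ‖((r / 2) / (1 + ‖u‖)) • y‖ := by fun_prop
  filter_upwards [h3.continuousAt.eventually_lt_const h2] with y hy
  exact ext_eq hr hf h1 hy

theorem ext_lh (hr : 0 < r) (hf : ConicOn f v r) (hl : ∀ u, ‖u‖ < r → LH f (v + u)) (u : E) :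
    LH (ext f v r) u := by
  obtain ⟨c, hc, hcu, hn⟩ := ext_near hr hf u
  refine LH.congr ?_ hn
  refine LH.comp (lh_smul (inv_ne_zero hc.ne') _) (LH.comp (lh_sub _ _) ?_)
  exact LH.comp (f := fun y => v + c • y) (hl _ hcu) (LH.comp (lh_add _ _) (lh_smul hc.ne' _))

theorem ext_inj (hr : 0 < r) (hf : ConicOn f v r) (hi : InjOn f (ball v r)) :
    Function.Injective (ext f v r) := by
  intro u u' huu
  obtain ⟨h1, h2⟩ := cnorm (u := u) hr (le_max_left ‖u‖ ‖u'‖)
  obtain ⟨-, h3⟩ := cnorm (u := u') hr (le_max_right ‖u‖ ‖u'‖)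
  set c := (r / 2) / (1 + max ‖u‖ ‖u'‖)
  rw [ext_eq hr hf h1 h2, ext_eq hr hf h1 h3] at huu
  have h4 := smul_right_injective E (inv_ne_zero h1.ne') huu
  have h5 : f (v + c • u) = f (v + c • u') := sub_left_injective h4
  have h6 := hi (by rwa [mem_ball, dist_eq_norm, add_sub_cancel_left])
    (by rwa [mem_ball, dist_eq_norm, add_sub_cancel_left]) h5
  exact smul_right_injective E h1.ne' (add_left_cancel h6)

theorem ext_surj (hr : 0 < r) (hf : ConicOn f v r) (hl : LH f v) :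
    Function.Surjective (ext f v r) := by
  intro y
  have h1 : f '' ball v r ∈ 𝓝 (f v) := by
    rw [← show map f (𝓝 v) = 𝓝 (f v) from hl]
    exact image_mem_map (ball_mem_nhds v hr)
  have h2 : Tendsto (fun t : ℝ => f v + t • y) (𝓝[>] 0) (𝓝 (f v)) := by
    have : Continuous fun t : ℝ => f v + t • y := by fun_prop
    have h3 := this.tendsto 0
    rw [zero_smul, add_zero] at h3
    exact h3.mono_left nhdsWithin_le_nhds
  obtain ⟨t, ⟨x, hx, hxt⟩, ht⟩ := ((h2.eventually h1).and self_mem_nhdsWithin).exists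
  have ht : 0 < t := ht
  refine ⟨t⁻¹ • (x - v), ?_⟩
  have h4 := ext_apply hr hf (u := x - v) (by rwa [mem_ball, dist_eq_norm] at hx)
  rw [add_sub_cancel, hxt] at h4
  rw [ext_conic hr hf _ (inv_nonneg.2 ht.le), ← add_left_cancel h4, smul_smul,
    inv_mul_cancel₀ ht.ne', one_smul]

theorem ext_homeo (hr : 0 < r) (hf : ConicOn f v r) (hi : InjOn f (ball v r))
    (hl : ∀ u, ‖u‖ < r → LH f (v + u)) : IsHomeomorph (ext f v r) := by
  refine ⟨?_, ?_, ext_inj hr hf hi, ext_surj hr hf ?_⟩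
  · rw [continuous_iff_continuousAt]
    exact fun u => (ext_lh hr hf hl u).le
  · exact IsOpenMap.of_nhds_le fun u => (ext_lh hr hf hl u).ge
  · have := hl 0 (by rwa [norm_zero])
    rwa [add_zero] at this

theorem ext_moll [BorelSpace E] [FiniteDimensional ℝ E] [(volume : Measure E).IsAddHaarMeasure]
    (hr : 0 < r) (hf : ConicOn f v r) (hm : ∀ u, u ≠ 0 → ‖u‖ < r → MollAt f (v + u)) {u : E}
    (hu : u ≠ 0) : MollAt (ext f v r) u := by
  obtain ⟨c, hc, hcu, hn⟩ := ext_near hr hf u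
  refine MollAt.congr ?_ hn
  exact MollAt.affine hc (hm _ (smul_ne_zero hc.ne' hu) hcu)

end ext

variable {E : Type*} [NormedAddCommGroup E] [InnerProductSpace ℝ E] [MeasureSpace E]

/-! ## the two size functions -/

theorem mok_rho {h : E → E} {Om V Z : Set E} {G : E → E → E} {e : E → E}
    (H : Germs h Om V Z G e) : MOK h Om V Z G e (rho h Om G) :=
  ⟨fun _ hp => rho_pos H (EP.om H hp), fun _ _ => le_rfl, fun _ hp _ _ hs hs' =>
    rho_lip H hp hs hs'⟩

theorem mok_min {h : E → E} {Om V Z : Set E} {G : E → E → E} {e : E → E}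
    (H : Germs h Om V Z G e) (hO : IsOpen Om) {η : E → ℝ} (hη : ∀ x ∈ Om, 0 < η x)
    (hc : ContinuousOn η Om) : MOK h Om V Z G e (fun p => min (rho h Om G p) (ic Om η p)) := by
  refine ⟨fun p hp => lt_min (rho_pos H (EP.om H hp)) (ic_pos hO hη hc (EP.om H hp)),
    fun p _ => min_le_left _ _, fun p hp s s' hs hs' => ?_⟩
  refine (abs_min_sub_min_le_max _ _ _ _).trans (max_le (rho_lip H hp hs hs') ?_)
  refine (abs_ic_sub hη ⟨p, EP.om H hp⟩ _ _).trans_eq ?_
  have e1 : p + s • e p - (p + s' • e p) = (s - s') • e p := by rw [sub_smul]; abel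
  rw [e1, norm_smul_e (EP.germ H hp)]

/-! ## vertices -/

namespace Dat

variable {D : Dat E}

theorem v_om {v : E} (hv : v ∈ D.V) : v ∈ D.Om := D.H.Z_sub (D.H.V_sub hv)

theorem ep_scale {v : E} (hv : v ∈ D.V) {u : E} (hu0 : u ≠ 0) (hu : ‖u‖ < D.ro v) {t : ℝ}
    (ht0 : 0 < t) (ht1 : t ≤ 1) : (D.ep (v + t • u) ↔ D.ep (v + u)) ∧
      D.G (v + t • u) = D.G (v + u) ∧ D.e (v + t • u) = D.e (v + u) := by
  have hg := rho_good D.H (v_om hv)
  have h1 := D.H.cone v (v_om hv) _ hg.1 hg.2.1 hg.2.2 u hu0 hu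
  have h2 := h1.2 t ht0 ht1
  have hn : ‖t • u‖ < D.ro v := by
    rw [norm_smul, Real.norm_of_nonneg ht0.le]
    exact (mul_le_of_le_one_left (norm_nonneg _) ht1).trans_lt hu
  have h3 := D.H.cone v (v_om hv) _ hg.1 hg.2.1 hg.2.2 (t • u) (smul_ne_zero ht0.ne' hu0) hn
  refine ⟨⟨fun h => ⟨h2.1.1 h.1, h1.1⟩, fun h => ⟨h2.1.2 h.1, h3.1⟩⟩, h2.2⟩

theorem ep_ne {v : E} (hv : v ∈ D.V) {u : E} (hu : D.ep (v + u)) : u ≠ 0 := by
  rintro rfl
  rw [add_zero] at hu
  exact hu.2 hv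

theorem ro_le_norm {v : E} (hv : v ∈ D.V) {u : E} (hu : D.ep (v + u)) : D.ro (v + u) ≤ ‖u‖ := by
  have := no_vertex D.H hu hv
  rwa [add_sub_cancel_left] at this

theorem ro_scale {v : E} (hv : v ∈ D.V) {u : E} (hep : D.ep (v + u)) (hu : ‖u‖ < D.ro v / 2)
    {t : ℝ} (ht0 : 0 < t) (ht1 : t ≤ 1) : D.ro (v + t • u) = t * D.ro (v + u) := by
  have hu0 := ep_ne hv hep
  have hun := norm_nonneg u
  have hro : 0 < D.ro v := rho_pos D.H (v_om hv)
  have hro1 : D.ro v ≤ 1 := rho_le_one D.H (v_om hv)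
  obtain ⟨h1, h2, h3⟩ := ep_scale hv hu0 (by linarith) ht0 ht1
  have hep' := h1.2 hep
  have hg := rho_good D.H (v_om hv)
  have hgu := rho_good D.H (om hep)
  have hgt := rho_good D.H (om hep')
  have hle := ro_le_norm hv hep
  have hlet := ro_le_norm hv hep'
  rw [norm_smul, Real.norm_of_nonneg ht0.le] at hlet
  have hcon : Conic (D.G v) := D.H.conic v (v_om hv)
  have hcon' : Conic (D.G (v + u)) := D.H.conic _ (om hep)
  have hhu : D.h (v + u) = D.h v + D.G v u := hg.2.2 _ (by change _ < D.ro v; linarith)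
  have hht : D.h (v + t • u) = D.h v + t • D.G v u := by
    rw [hg.2.2 _ (by
      rw [norm_smul, Real.norm_of_nonneg ht0.le]
      change _ < D.ro v
      have := mul_le_of_le_one_left hun ht1
      linarith), hcon _ ht0.le]
  apply le_antisymm
  · -- `ro (v + t u) / t` is admissible at `v + u`
    have key : Good D.h D.Om D.G (v + u) (D.ro (v + t • u) / t) := by
      refine ⟨div_pos hgt.1 ht0, ?_, ?_⟩
      · intro y hy
        refine hg.2.1 ?_
        rw [mem_ball, dist_eq_norm] at *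
        have e1 : y - v = (y - (v + u)) + u := by abel
        rw [e1]
        refine (norm_add_le _ _).trans_lt ?_
        change _ < D.ro v
        have : D.ro (v + t • u) / t ≤ ‖u‖ := by rw [div_le_iff₀ ht0]; linarith
        linarith
      · intro w hw
        rw [lt_div_iff₀' ht0] at hw
        have hw' : ‖w‖ ≤ ‖u‖ := by
          have : t * ‖w‖ ≤ t * ‖u‖ := by linarith
          exact le_of_mul_le_mul_left this ht0
        have huw : ‖u + w‖ < D.ro v := (norm_add_le _ _).trans_lt (by linarith)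
        have e1 : v + u + w = v + (u + w) := by abel
        rw [e1, hg.2.2 _ huw, hhu]
        have h5 := hgt.2.2 (t • w) (by rw [norm_smul, Real.norm_of_nonneg ht0.le]; exact hw)
        have e2 : v + t • u + t • w = v + t • (u + w) := by rw [smul_add]; abel
        rw [e2, hg.2.2 _ (by
          rw [norm_smul, Real.norm_of_nonneg ht0.le]
          exact (mul_le_of_le_one_left (norm_nonneg _) ht1).trans_lt huw), hcon _ ht0.le, hht, h2,
          hcon' _ ht0.le, add_assoc, ← smul_add] at h5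
        have h6 := smul_right_injective E ht0.ne' (add_left_cancel h5)
        have h7 : D.G v (u + w) = D.G v u + D.G (v + u) w := h6
        rw [h7]; abel
    have h8 := le_rho key (by
      rw [div_le_one ht0]
      nlinarith)
    rw [div_le_iff₀' ht0] at h8
    exact h8
  · have key : Good D.h D.Om D.G (v + t • u) (t * D.ro (v + u)) := by
      refine ⟨mul_pos ht0 hgu.1, ?_, ?_⟩
      · intro y hy
        refine hg.2.1 ?_
        rw [mem_ball, dist_eq_norm] at *
        have e1 : y - v = (y - (v + t • u)) + t • u := by abel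
        rw [e1]
        refine (norm_add_le _ _).trans_lt ?_
        rw [norm_smul, Real.norm_of_nonneg ht0.le]
        change _ < D.ro v
        have h4 := mul_le_of_le_one_left hun ht1
        have h5 : t * D.ro (v + u) ≤ 1 * D.ro (v + u) := mul_le_mul_of_nonneg_right ht1 hgu.1.le
        linarith
      · intro w hw
        have e0 : w = t • (t⁻¹ • w) := by rw [smul_smul, mul_inv_cancel₀ ht0.ne', one_smul]
        set w' := t⁻¹ • w with hw'
        have hwn : ‖w'‖ < D.ro (v + u) := by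
          rw [hw', norm_smul, norm_inv, Real.norm_of_nonneg ht0.le, inv_mul_lt_iff₀ ht0]
          exact hw
        have huw : ‖u + w'‖ < D.ro v := (norm_add_le _ _).trans_lt (by linarith)
        have h5 := hgu.2.2 w' hwn
        have e1 : v + u + w' = v + (u + w') := by abel
        rw [e1, hg.2.2 _ huw, hhu, add_assoc] at h5
        have h6 : D.G v (u + w') = D.G v u + D.G (v + u) w' := add_left_cancel h5
        rw [e0, h2]
        have e2 : v + t • u + t • w' = v + t • (u + w') := by rw [smul_add]; abel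
        rw [e2, hg.2.2 _ (by
          rw [norm_smul, Real.norm_of_nonneg ht0.le]
          exact (mul_le_of_le_one_left (norm_nonneg _) ht1).trans_lt huw), hcon _ ht0.le, hht, h6,
          hcon' _ ht0.le, smul_add]
        abel
    refine le_rho key ?_
    have : t * D.ro (v + u) ≤ 1 * D.ro (v + u) := mul_le_mul_of_nonneg_right ht1 hgu.1.le
    have := rho_le_one D.H (om hep)
    change D.ro (v + u) ≤ 1 at this
    linarith

end Dat

end Crest.Agent.R096.StE_816
end

-- ▼ part R096/StE6_816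
section

/-!
Row 96, P5, `StageEdge`, part 6: `h2` is conical at the vertices; comparison with the size `rho`.
-/

set_option autoImplicit false
set_option linter.unusedSectionVars false
open Set Metric MeasureTheory Filter Topology
open scoped NNReal
open Crest.Agent.R096.P5Spec_205

namespace Crest.Agent.R096.StE_816

variable {E : Type*} [NormedAddCommGroup E] [InnerProductSpace ℝ E] [MeasureSpace E]

namespace Dat

variable {D : Dat E}

theorem inT_scale {v : E} (hv : v ∈ D.V) {δ : ℝ} (hδ : δ ≤ D.ro v)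
    (hm : ∀ u, ‖u‖ < δ → D.ep (v + u) → ∀ t : ℝ, 0 < t → t ≤ 1 →
      D.m (v + t • u) = t * D.m (v + u))
    {u w : E} (hu : ‖u‖ < δ) {t : ℝ} (ht0 : 0 < t) (ht1 : t ≤ 1) (hu0 : u ≠ 0) :
    D.InT (v + t • u) (v + t • w) ↔ D.InT (v + u) (v + w) := by
  obtain ⟨h1, h2, h3⟩ := ep_scale hv hu0 (hu.trans_le hδ) ht0 ht1
  have e1 : v + t • w - (v + t • u) = t • (w - u) := by rw [smul_sub]; abel
  have e2 : v + w - (v + u) = w - u := by abel
  unfold InT
  rw [e1, e2, h3, inner_smul_right, norm_smul, Real.norm_of_nonneg ht0.le]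
  constructor
  · rintro ⟨ha, hb, hc⟩
    have ha' := h1.1 ha
    refine ⟨ha', ?_, ?_⟩
    · rcases mul_eq_zero.1 hb with h | h
      · exact absurd h ht0.ne'
      · exact h
    · have h4 : D.rad (v + t • u) = t * D.rad (v + u) := by
        rw [rad, rad, sg, sg, h2, h3, hm u hu ha' t ht0 ht1]; ring
      rw [h4] at hc
      exact le_of_mul_le_mul_left hc ht0
  · rintro ⟨ha, hb, hc⟩
    refine ⟨h1.2 ha, by rw [hb, mul_zero], ?_⟩
    have h4 : D.rad (v + t • u) = t * D.rad (v + u) := by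
      rw [rad, rad, sg, sg, h2, h3, hm u hu ha t ht0 ht1]; ring
    rw [h4]
    exact mul_le_mul_of_nonneg_left hc ht0.le

theorem W_scale {v : E} (hv : v ∈ D.V) {δ : ℝ} (hδ : δ ≤ D.ro v)
    (hm : ∀ u, ‖u‖ < δ → D.ep (v + u) → ∀ t : ℝ, 0 < t → t ≤ 1 →
      D.m (v + t • u) = t * D.m (v + u))
    {w : E} (hw : ‖w‖ < 15 / 16 * δ) {t : ℝ} (ht0 : 0 < t) (ht1 : t ≤ 1) :
    D.W (v + t • w) = v + t • (D.W (v + w) - v) := by
  by_cases hex : ∃ p, D.InT p (v + w)
  · obtain ⟨p, hp⟩ := hex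
    obtain ⟨u, rfl⟩ : ∃ u, p = v + u := ⟨p - v, by abel⟩
    have hu0 := ep_ne hv hp.1
    have h1 := (vertex_close hv hp).2
    rw [add_sub_cancel_left, add_sub_cancel_left] at h1
    have hu : ‖u‖ < δ := by linarith
    have hp' := (inT_scale hv hδ hm (w := w) hu ht0 ht1 hu0).2 hp
    obtain ⟨-, h2, h3⟩ := ep_scale hv hu0 (hu.trans_le hδ) ht0 ht1
    rw [W_of_inT hp, W_of_inT hp']
    have h4 : D.rad (v + t • u) = t * D.rad (v + u) := by
      rw [rad, rad, sg, sg, h2, h3, hm u hu hp.1 t ht0 ht1]; ring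
    have h5 : D.Hi (v + t • u) = D.Hi (v + u) := by rw [Hi, Hi, h2, h3]
    have h6 : D.Q (v + t • u) = D.Q (v + u) := by rw [Q, Q, h2, h3]
    have e1 : v + t • w - (v + t • u) = t • (w - u) := by rw [smul_sub]; abel
    have e2 : v + w - (v + u) = w - u := by abel
    have hr := rad_pos hp.1
    rw [h4, h5, h6, e1, e2, smul_smul, mul_inv_rev, mul_assoc, inv_mul_cancel₀ ht0.ne', mul_one]
    have e3 : ∀ x : E, v + u + x - v = u + x := fun x => by abel
    rw [e3, smul_add, smul_smul, add_assoc]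
  · rw [W_of_not hex, add_sub_cancel_left, W_of_not]
    rintro ⟨p, hp⟩
    obtain ⟨u', rfl⟩ : ∃ u, p = v + u := ⟨p - v, by abel⟩
    obtain ⟨u, rfl⟩ : ∃ u, u' = t • u :=
      ⟨t⁻¹ • u', by rw [smul_smul, mul_inv_cancel₀ ht0.ne', one_smul]⟩
    have hu0' := ep_ne hv hp.1
    have hu0 : u ≠ 0 := fun h => hu0' (by rw [h, smul_zero])
    have h1 := (vertex_close hv hp).2
    rw [add_sub_cancel_left, add_sub_cancel_left, norm_smul, norm_smul,
      Real.norm_of_nonneg ht0.le] at h1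
    have h1' : ‖u‖ ≤ 16 / 15 * ‖w‖ := by
      have : t * ‖u‖ ≤ t * (16 / 15 * ‖w‖) := by linarith
      exact le_of_mul_le_mul_left this ht0
    have hu : ‖u‖ < δ := by linarith
    exact hex ⟨v + u, (inT_scale hv hδ hm (w := w) hu ht0 ht1 hu0).1 hp⟩

theorem h2_vertex {v : E} (hv : v ∈ D.V) : D.h2 v = D.h v := by
  change D.h (D.W v) = D.h v
  rw [W_vertex hv]

theorem h2_conicOn {v : E} (hv : v ∈ D.V) {δ : ℝ} (hδ : δ ≤ D.ro v / 2)
    (hm : ∀ u, ‖u‖ < δ → D.ep (v + u) → ∀ t : ℝ, 0 < t → t ≤ 1 →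
      D.m (v + t • u) = t * D.m (v + u)) : ConicOn D.h2 v (15 / 16 * δ) := by
  intro w hw t ht0 ht1
  have hro : 0 < D.ro v := rho_pos D.H (v_om hv)
  rcases ht0.eq_or_lt with rfl | ht0
  · rw [zero_smul, zero_smul, add_zero, add_zero]
  · have hg := rho_good D.H (v_om hv)
    have h1 := W_scale hv (by linarith) hm hw ht0 ht1
    have h2 := disp_vertex hv (v + w)
    rw [add_sub_cancel_left] at h2
    have h3 : ‖D.W (v + w) - v‖ < D.ro v := by
      have e1 : D.W (v + w) - v = (D.W (v + w) - (v + w)) + w := by abel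
      rw [e1]
      refine (norm_add_le _ _).trans_lt ?_
      have := norm_nonneg w
      linarith
    have h4 : D.h2 (v + w) = D.h v + D.G v (D.W (v + w) - v) := by
      change D.h (D.W (v + w)) = _
      rw [← hg.2.2 _ h3]
      congr 1; abel
    rw [h2_vertex hv, h4]
    change D.h (D.W (v + t • w)) = _
    rw [h1, hg.2.2, D.H.conic v (v_om hv) _ ht0.le, add_sub_cancel_left]
    rw [norm_smul, Real.norm_of_nonneg ht0.le]
    exact (mul_le_of_le_one_left (norm_nonneg _) ht1).trans_lt h3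

variable (D) in
/-- the same data with the largest size function -/
noncomputable def base : Dat E :=
  { D with m := rho D.h D.Om D.G, mok := mok_rho D.H }

theorem base_scale {v : E} (hv : v ∈ D.V) (u : E) (hu : ‖u‖ < D.ro v / 2)
    (hep : D.base.ep (v + u)) (t : ℝ) (ht0 : 0 < t) (ht1 : t ≤ 1) :
    D.base.m (v + t • u) = t * D.base.m (v + u) :=
  ro_scale (D := D) hv hep hu ht0 ht1

theorem base_conicOn {v : E} (hv : v ∈ D.V) :
    ConicOn D.base.h2 v (15 / 16 * (D.ro v / 2)) :=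
  h2_conicOn (D := D.base) hv (δ := D.ro v / 2) le_rfl (base_scale hv)

theorem W_base {v : E} (hv : v ∈ D.V) {δ : ℝ}
    (hm : ∀ p, D.ep p → ‖p - v‖ < δ → D.m p = D.ro p) {x : E} (hx : ‖x - v‖ < 15 / 16 * δ) :
    D.W x = D.base.W x := by
  have key : ∀ p, D.ep p → ‖p - v‖ < δ → D.base.rad p = D.rad p := by
    intro p hp hpv
    have := hm p hp hpv
    change D.sg p * D.ro p = D.sg p * D.m p
    rw [this]
  by_cases hex : ∃ p, D.InT p x
  · obtain ⟨p, hp⟩ := hex
    have h1 := (vertex_close hv hp).2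
    have h2 := key p hp.1 (by linarith)
    have hp' : D.base.InT p x := ⟨hp.1, hp.2.1, by rw [h2]; exact hp.2.2⟩
    rw [W_of_inT hp, W_of_inT hp', h2]
    rfl
  · rw [W_of_not hex, W_of_not]
    rintro ⟨p, hp⟩
    have h1 := (vertex_close (D := D.base) hv hp).2
    have h2 := key p hp.1 (by linarith)
    exact hex ⟨p, hp.1, hp.2.1, by rw [← h2]; exact hp.2.2⟩

theorem h2_base {v : E} (hv : v ∈ D.V) {δ : ℝ}
    (hm : ∀ p, D.ep p → ‖p - v‖ < δ → D.m p = D.ro p) {x : E} (hx : ‖x - v‖ < 15 / 16 * δ) :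
    D.h2 x = D.base.h2 x := by
  change D.h (D.W x) = D.h (D.base.W x)
  rw [W_base hv hm hx]

variable (D) in
/-- the conic germ of the new map at a vertex -/
noncomputable def K (v : E) : E → E := ext D.base.h2 v (15 / 16 * (D.ro v / 2))

theorem K_apply {v : E} (hv : v ∈ D.V) {δ : ℝ} (hδ : δ ≤ D.ro v / 2)
    (hm : ∀ p, D.ep p → ‖p - v‖ < δ → D.m p = D.ro p) {u : E} (hu : ‖u‖ < 15 / 16 * δ) :
    D.h2 (v + u) = D.h2 v + D.K v u := by
  have hro : 0 < D.ro v := rho_pos D.H (v_om hv)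
  have h1 : D.base.h2 v = D.h v := h2_vertex (D := D.base) hv
  rw [h2_base hv hm (by rwa [add_sub_cancel_left]), h2_vertex hv, ← h1]
  exact ext_apply (by positivity) (base_conicOn hv) (by linarith)

theorem K_conic {v : E} (hv : v ∈ D.V) : Conic (D.K v) := by
  have hro : 0 < D.ro v := rho_pos D.H (v_om hv)
  exact ext_conic (by positivity) (base_conicOn hv)

theorem h2_lh {La : Set E} (hh : HomeoOn D.h D.Om La) (hLa : IsOpen La) {x : E}
    (hx : x ∈ D.Om) : LH D.h2 x :=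
  LH.comp (f := D.W) (g := D.h) (nhds_of_homeoOn D.hOm hLa hh (W_mapsTo hx)) (W_nhds hx)

theorem ball_om {v : E} (hv : v ∈ D.V) {u : E} (hu : ‖u‖ < 15 / 16 * (D.ro v / 2)) :
    v + u ∈ D.Om := by
  have hro : 0 < D.ro v := rho_pos D.H (v_om hv)
  refine (rho_good D.H (v_om hv)).2.1 ?_
  rw [mem_ball, dist_eq_norm, add_sub_cancel_left]
  change _ < D.ro v
  linarith

theorem K_homeo {La : Set E} (hh : HomeoOn D.h D.Om La) (hLa : IsOpen La) {v : E}
    (hv : v ∈ D.V) : IsHomeomorph (D.K v) := by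
  have hro : 0 < D.ro v := rho_pos D.H (v_om hv)
  refine ext_homeo (by positivity) (base_conicOn hv) ?_ ?_
  · have h1 : HomeoOn D.base.h2 D.Om La := h2_homeoOn (D := D.base) hh
    refine h1.bij.injOn.mono ?_
    intro y hy
    rw [mem_ball, dist_eq_norm] at hy
    have := ball_om hv hy
    rwa [add_sub_cancel] at this
  · intro u hu
    exact h2_lh (D := D.base) hh hLa (ball_om hv hu)

theorem K_moll [BorelSpace E] [FiniteDimensional ℝ E] [(volume : Measure E).IsAddHaarMeasure]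
    {v : E} (hv : v ∈ D.V) {u : E} (hu : u ≠ 0) : MollAt (D.K v) u := by
  have hro : 0 < D.ro v := rho_pos D.H (v_om hv)
  refine ext_moll (by positivity) (base_conicOn hv) ?_ hu
  intro w hw0 hw
  refine h2_moll (D := D.base) (ball_om hv hw) ?_
  have hg := rho_good D.H (v_om hv)
  exact (D.H.cone v (v_om hv) _ hg.1 hg.2.1 hg.2.2 w hw0 (by change _ < D.ro v; linarith)).1

end Dat

end Crest.Agent.R096.StE_816
end

-- ▼ part R096/StE7_816
section

/-!
Row 96, P5, `StageEdge`, part 7: the local Lipschitz bound and the final theorem.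
-/

set_option autoImplicit false
set_option linter.unusedSectionVars false
open Set Metric MeasureTheory Filter Topology
open scoped NNReal
open Crest.Agent.R096.P5Spec_205

namespace Crest.Agent.R096.StE_816

section seg

variable {E F : Type*} [NormedAddCommGroup E] [NormedSpace ℝ E] [NormedAddCommGroup F]

/-- locally `L`-Lipschitz at `x` -/
def LipAt (f : E → F) (x : E) (L : ℝ) : Prop :=
  ∃ r > 0, ∀ y ∈ ball x r, ∀ z ∈ ball x r, ‖f y - f z‖ ≤ L * ‖y - z‖

theorem LipAt.near {f : E → F} {x : E} {L : ℝ} (h : LipAt f x L) :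
    ∀ᶠ y in 𝓝 x, LipAt f y L := by
  obtain ⟨r, hr, hf⟩ := h
  filter_upwards [ball_mem_nhds x hr] with y hy
  obtain ⟨s, hs, hsub⟩ := Metric.isOpen_iff.1 isOpen_ball y hy
  exact ⟨s, hs, fun a ha b hb => hf a (hsub ha) b (hsub hb)⟩

theorem LipAt.mono {f : E → F} {x : E} {L L' : ℝ} (h : LipAt f x L) (hL : L ≤ L') :
    LipAt f x L' := by
  obtain ⟨r, hr, hf⟩ := h
  exact ⟨r, hr, fun a ha b hb => (hf a ha b hb).trans
    (mul_le_mul_of_nonneg_right hL (norm_nonneg _))⟩

theorem LipAt.congr {f g : E → F} {x : E} {L : ℝ} (h : LipAt f x L) (hg : g =ᶠ[𝓝 x] f) :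
    LipAt g x L := by
  obtain ⟨r, hr, hf⟩ := h
  obtain ⟨r', hr', hs⟩ := Metric.mem_nhds_iff.1 hg
  refine ⟨min r r', lt_min hr hr', fun a ha b hb => ?_⟩
  have e1 : g a = f a := hs (ball_subset_ball (min_le_right _ _) ha)
  have e2 : g b = f b := hs (ball_subset_ball (min_le_right _ _) hb)
  rw [e1, e2]
  exact hf a (ball_subset_ball (min_le_left _ _) ha) b (ball_subset_ball (min_le_left _ _) hb)

/-- one dimensional version: locally Lipschitz on `[a, b]`, no exceptional point -/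
theorem lip_Icc {g : ℝ → F} {a b L : ℝ} (hg : ContinuousOn g (Icc a b)) (hab : a ≤ b)
    (hl : ∀ t ∈ Icc a b, ∃ r > 0, ∀ s ∈ Ioo t (t + r), s ≤ b → ‖g s - g t‖ ≤ L * (s - t)) :
    ‖g b - g a‖ ≤ L * (b - a) := by
  have key : Icc a b ⊆ {t | ‖g t - g a‖ ≤ L * (t - a)} := by
    refine IsClosed.Icc_subset_of_forall_mem_nhdsWithin ?_ ?_ ?_
    · have h1 : ContinuousOn (fun t => L * (t - a) - ‖g t - g a‖) (Icc a b) := by
        exact (by fun_prop : ContinuousOn (fun t : ℝ => L * (t - a)) (Icc a b)).sub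
          (hg.sub continuousOn_const).norm
      have h2 := h1.preimage_isClosed_of_isClosed isClosed_Icc (isClosed_Ici (a := (0 : ℝ)))
      convert h2 using 1
      ext t
      simp only [mem_inter_iff, mem_ofPred_eq, mem_preimage, mem_Ici, sub_nonneg]
      exact And.comm
    · simp
    · rintro t ⟨ht, ht2⟩
      obtain ⟨r, hr, hrs⟩ := hl t ⟨ht2.1, ht2.2.le⟩
      have h1 : Ioo t (min (t + r) b) ∈ 𝓝[>] t :=
        Ioo_mem_nhdsGT (lt_min (by linarith) ht2.2)
      filter_upwards [h1] with s hs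
      have h3 := hrs s ⟨hs.1, hs.2.trans_le (min_le_left _ _)⟩ (hs.2.le.trans (min_le_right _ _))
      have h4 : ‖g s - g a‖ ≤ ‖g s - g t‖ + ‖g t - g a‖ := by
        have : g s - g a = (g s - g t) + (g t - g a) := by abel
        rw [this]; exact norm_add_le _ _
      have h5 : ‖g t - g a‖ ≤ L * (t - a) := ht
      change ‖g s - g a‖ ≤ L * (s - a)
      linarith
  exact key ⟨hab, le_rfl⟩

/-- a continuous map which is locally `L`-Lipschitz off one point is `L`-Lipschitz on balls -/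
theorem lip_ball {f : E → F} {x : E} {r L : ℝ} (hc : ContinuousOn f (ball x r))
    (hl : ∀ q ∈ ball x r, q ≠ x → LipAt f q L) :
    ∀ y ∈ ball x r, ∀ z ∈ ball x r, ‖f y - f z‖ ≤ L * ‖y - z‖ := by
  -- segments avoiding `x`
  have h1 : ∀ y ∈ ball x r, ∀ z ∈ ball x r, (∀ t ∈ Icc (0 : ℝ) 1, z + t • (y - z) ≠ x) →
      ‖f y - f z‖ ≤ L * ‖y - z‖ := by
    intro y hy z hz hne
    have hmem : ∀ t ∈ Icc (0 : ℝ) 1, z + t • (y - z) ∈ ball x r := by
      intro t ht
      have := (convex_ball x r) hz hy (sub_nonneg.2 ht.2) ht.1 (by ring : 1 - t + t = 1)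
      convert this using 1
      rw [smul_sub, sub_smul, one_smul]; abel
    have h2 := lip_Icc (g := fun t => f (z + t • (y - z))) (a := 0) (b := 1)
      (L := L * ‖y - z‖) (hc.comp (by fun_prop) fun t ht => hmem t ht) zero_le_one ?_
    · simpa using h2
    · intro t ht
      obtain ⟨s, hs, hf⟩ := hl _ (hmem t ht) (hne t ht)
      have h3 : ∀ᶠ t' in 𝓝 t, z + t' • (y - z) ∈ ball (z + t • (y - z)) s := by
        have : Continuous fun t' : ℝ => z + t' • (y - z) := by fun_prop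
        exact this.continuousAt.preimage_mem_nhds (ball_mem_nhds _ hs)
      obtain ⟨ρ, hρ, hρs⟩ := Metric.eventually_nhds_iff.1 h3
      refine ⟨ρ, hρ, fun t' ht' _ => ?_⟩
      have h4 := hf _ (hρs (y := t') (by
        rw [Real.dist_eq, abs_of_pos (sub_pos.2 ht'.1)]
        have := ht'.2; linarith)) _ (mem_ball_self hs)
      refine h4.trans_eq ?_
      have e1 : z + t' • (y - z) - (z + t • (y - z)) = (t' - t) • (y - z) := by
        rw [sub_smul]; abel
      rw [e1, norm_smul, Real.norm_of_nonneg (sub_nonneg.2 ht'.1.le)]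
      ring
  -- from the centre
  have h2 : ∀ y ∈ ball x r, ‖f y - f x‖ ≤ L * ‖y - x‖ := by
    intro y hy
    by_cases hyx : y = x
    · rw [hyx]; simp
    have hr : 0 < r := pos_of_mem_ball hy
    have hcx : Tendsto (fun t : ℝ => f (x + t • (y - x))) (𝓝[>] 0) (𝓝 (f x)) := by
      have h3 : ContinuousAt f x := hc.continuousAt (ball_mem_nhds x hr)
      have h4 : Tendsto (fun t : ℝ => x + t • (y - x)) (𝓝[>] 0) (𝓝 x) := by
        have : Continuous fun t : ℝ => x + t • (y - x) := by fun_prop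
        have h5 := this.tendsto 0
        rw [zero_smul, add_zero] at h5
        exact h5.mono_left nhdsWithin_le_nhds
      exact h3.tendsto.comp h4
    have h6 : Tendsto (fun t : ℝ => ‖f y - f (x + t • (y - x))‖) (𝓝[>] 0) (𝓝 ‖f y - f x‖) :=
      (tendsto_const_nhds.sub hcx).norm
    refine le_of_tendsto h6 ?_
    filter_upwards [Ioo_mem_nhdsGT (show (0 : ℝ) < 1 by norm_num)] with t ht
    have hmem : x + t • (y - x) ∈ ball x r := by
      rw [mem_ball, dist_eq_norm] at *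
      rw [add_sub_cancel_left, norm_smul, Real.norm_of_nonneg ht.1.le]
      exact (mul_le_of_le_one_left (norm_nonneg _) ht.2.le).trans_lt hy
    have h7 := h1 y hy _ hmem ?_
    · refine h7.trans ?_
      have e1 : y - (x + t • (y - x)) = (1 - t) • (y - x) := by rw [sub_smul, one_smul]; abel
      rw [e1, norm_smul, Real.norm_of_nonneg (by linarith [ht.2])]
      have h8 : 0 ≤ L * ‖y - x‖ := by
        have h9 := (norm_nonneg _).trans h7
        rw [e1, norm_smul, Real.norm_of_nonneg (by linarith [ht.2])] at h9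
        have h10 : 0 < 1 - t := by linarith [ht.2]
        have h11 : 0 ≤ (1 - t) * (L * ‖y - x‖) := by linarith
        exact nonneg_of_mul_nonneg_right h11 h10
      calc L * ((1 - t) * ‖y - x‖) = (1 - t) * (L * ‖y - x‖) := by ring
        _ ≤ 1 * (L * ‖y - x‖) := mul_le_mul_of_nonneg_right (by linarith [ht.1]) h8
        _ = L * ‖y - x‖ := one_mul _
    · intro s hs heq
      have e1 : x + t • (y - x) + s • (y - (x + t • (y - x))) = x + (t + s * (1 - t)) • (y - x) := by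
        have : y - (x + t • (y - x)) = (1 - t) • (y - x) := by rw [sub_smul, one_smul]; abel
        rw [this, smul_smul, add_smul]; abel
      rw [e1, add_eq_left, smul_eq_zero] at heq
      rcases heq with h | h
      · have : 0 ≤ s * (1 - t) := mul_nonneg hs.1 (by linarith [ht.2])
        linarith [ht.1]
      · exact hyx (sub_eq_zero.1 h)
  intro y hy z hz
  by_cases hex : ∃ t ∈ Icc (0 : ℝ) 1, z + t • (y - z) = x
  · obtain ⟨t, ht, htx⟩ := hex
    have h3 : y - x = (1 - t) • (y - z) := by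
      rw [← htx, sub_smul, one_smul]; abel
    have h4 : z - x = -(t • (y - z)) := by rw [← htx]; abel
    have h5 := h2 y hy
    have h6 := h2 z hz
    rw [h3, norm_smul, Real.norm_of_nonneg (by linarith [ht.2])] at h5
    rw [h4, norm_neg, norm_smul, Real.norm_of_nonneg ht.1] at h6
    have h7 : ‖f y - f z‖ ≤ ‖f y - f x‖ + ‖f z - f x‖ := by
      have : f y - f z = (f y - f x) - (f z - f x) := by abel
      rw [this]; exact norm_sub_le _ _
    calc ‖f y - f z‖ ≤ L * ((1 - t) * ‖y - z‖) + L * (t * ‖y - z‖) := by linarith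
      _ = L * ‖y - z‖ := by ring
  · exact h1 y hy z hz fun t ht htx => hex ⟨t, ht, htx⟩

end seg

variable {E : Type*} [NormedAddCommGroup E] [InnerProductSpace ℝ E] [MeasureSpace E]

/-- a continuous selection of finitely many linear maps is Lipschitz -/
theorem pl_lip {K : E → E} (hK : Continuous K) {S : Finset (E →L[ℝ] E)}
    (hS : ∀ x, ∃ A ∈ S, K x = A x) : ∃ L : ℝ, ∀ x y, ‖K x - K y‖ ≤ L * ‖x - y‖ := by
  refine ⟨∑ A ∈ S, ‖A‖, ?_⟩
  have h1 := Fp_812.dist_le_of_cover (ι := S) (fun A => {x | K x = A.1 x})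
    (fun A => isClosed_eq hK A.1.continuous) (fun x => by
      obtain ⟨A, hA, hx⟩ := hS x
      exact ⟨⟨A, hA⟩, hx⟩) K (∑ A ∈ S, ‖A‖) (by
      rintro ⟨A, hA⟩ x hx y hy
      have hx' : K x = A x := hx
      have hy' : K y = A y := hy
      rw [hx', hy', dist_eq_norm, dist_eq_norm, ← map_sub]
      refine (A.le_opNorm _).trans (mul_le_mul_of_nonneg_right ?_ (norm_nonneg _))
      exact Finset.single_le_sum (f := fun A : E →L[ℝ] E => ‖A‖) (fun _ _ => norm_nonneg _) hA)
  intro x y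
  have := h1 x y
  rwa [dist_eq_norm, dist_eq_norm] at this

namespace Dat

variable {D : Dat E}

theorem h_lipAt {x : E} (hx : x ∈ D.Om) : ∃ L, LipAt D.h x L := by
  obtain ⟨S, hS⟩ := D.H.pl x hx
  obtain ⟨L, hL⟩ := pl_lip (D.H.homeo x hx).continuous hS
  have hg := rho_good D.H hx
  refine ⟨L, _, hg.1, fun y hy z hz => ?_⟩
  rw [mem_ball, dist_eq_norm] at hy hz
  have e1 := hg.2.2 _ hy
  have e2 := hg.2.2 _ hz
  rw [add_sub_cancel] at e1 e2
  have h1 := hL (y - x) (z - x)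
  rw [sub_sub_sub_cancel_right] at h1
  rw [e1, e2, add_sub_add_left_eq_sub]
  exact h1

variable (D) in
/-- bound for the Lipschitz constants near `x` -/
def Bd (x : E) (L : ℝ) : Prop :=
  ∃ r > 0, ball x r ⊆ D.Om ∧ ∀ q ∈ ball x r, LipAt D.h q L ∧
    ∀ p, D.ep p → ‖q - p‖ < D.ro p / 4 → (D.C p : ℝ) ≤ L

theorem Bd.mono {x : E} {L L' : ℝ} (h : D.Bd x L) (hL : L ≤ L') : D.Bd x L' := by
  obtain ⟨r, hr, h1, h2⟩ := h
  exact ⟨r, hr, h1, fun q hq => ⟨(h2 q hq).1.mono hL, fun p hp hqp =>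
    ((h2 q hq).2 p hp hqp).trans hL⟩⟩

theorem bd_of {x : E} (hx : x ∈ D.Om) (h : ∃ L : ℝ, ∃ r > 0, ∀ q ∈ ball x r,
    ∀ p, D.ep p → ‖q - p‖ < D.ro p / 4 → (D.C p : ℝ) ≤ L) : ∃ L, D.Bd x L := by
  obtain ⟨L1, hL1⟩ := h_lipAt hx
  obtain ⟨r1, hr1, h1⟩ := Metric.eventually_nhds_iff.1 hL1.near
  obtain ⟨L2, r2, hr2, h2⟩ := h
  obtain ⟨r3, hr3, h3⟩ := Metric.isOpen_iff.1 D.hOm x hx
  refine ⟨max L1 L2, min (min r1 r2) r3, lt_min (lt_min hr1 hr2) hr3,
    (ball_subset_ball (min_le_right _ _)).trans h3, fun q hq => ⟨?_, fun p hp hqp => ?_⟩⟩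
  · refine LipAt.mono (h1 ?_) (le_max_left _ _)
    exact (mem_ball.1 hq).trans_le ((min_le_left _ _).trans (min_le_left _ _))
  · refine (h2 q ?_ p hp hqp).trans (le_max_right _ _)
    exact (mem_ball.1 hq).trans_le ((min_le_left _ _).trans (min_le_right _ _))

theorem C_eq {p p' : E} (hp : D.ep p) (hp' : D.ep p')
    (hd : ‖p' - p‖ < max (D.ro p) (D.ro p')) : D.C p' = D.C p := by
  obtain ⟨s, -, h2, h3⟩ := same_line D.H hp hp' hd
  rw [C, C, h2, h3]

theorem bd_aux {x : E} (hx : x ∈ D.Om) (hV : x ∉ D.V) : ∃ L : ℝ, ∃ r > 0, ∀ q ∈ ball x r,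
    ∀ p, D.ep p → ‖q - p‖ < D.ro p / 4 → (D.C p : ℝ) ≤ L := by
  by_cases hZ : x ∈ D.Z
  · have hep : D.ep x := ⟨hZ, hV⟩
    have hro := ro_pos hep
    refine ⟨D.C x, D.ro x / 4, by positivity, fun q hq p hp hqp => ?_⟩
    rw [mem_ball, dist_eq_norm] at hq
    rw [C_eq hep hp]
    have e1 : p - x = (q - x) - (q - p) := by abel
    rw [e1]
    refine (norm_sub_le _ _).trans_lt ?_
    have := le_max_left (D.ro x) (D.ro p)
    have := le_max_right (D.ro x) (D.ro p)
    linarith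
  · obtain ⟨d, hd, hdZ⟩ := D.hZ x hx hZ
    have hd' : ∀ p, D.ep p → d ≤ ‖x - p‖ := by
      intro p hp
      by_contra hcon
      rw [not_le, norm_sub_rev, ← dist_eq_norm] at hcon
      exact hdZ p (mem_ball.2 hcon) hp.1
    by_cases hex : ∃ q ∈ ball x (d / 4), ∃ p, D.ep p ∧ ‖q - p‖ < D.ro p / 4
    · obtain ⟨q, hq, p, hp, hqp⟩ := hex
      refine ⟨D.C p, d / 4, by positivity, fun q' hq' p' hp' hqp' => ?_⟩
      rw [mem_ball, dist_eq_norm] at hq hq'
      rw [C_eq hp hp']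
      have h1 := hd' p hp
      have h1' := hd' p' hp'
      have h2 : ‖x - p‖ ≤ ‖q - p‖ + ‖q - x‖ := by
        have : x - p = (q - p) - (q - x) := by abel
        rw [this]; exact norm_sub_le _ _
      have h3 : ‖p' - p‖ ≤ ‖q - p‖ + ‖q - x‖ + ‖q' - x‖ + ‖q' - p'‖ := by
        have : p' - p = ((q - p) - (q - x)) + (q' - x) - (q' - p') := by abel
        rw [this]
        refine (norm_sub_le _ _).trans ?_
        have := norm_add_le ((q - p) - (q - x)) (q' - x)
        have := norm_sub_le (q - p) (q - x)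
        linarith
      have := le_max_left (D.ro p) (D.ro p')
      have := le_max_right (D.ro p) (D.ro p')
      linarith
    · refine ⟨0, d / 4, by positivity, fun q hq p hp hqp => ?_⟩
      exact absurd ⟨q, hq, p, hp, hqp⟩ hex

theorem bd_vertex [FiniteDimensional ℝ E] {v : E} (hv : v ∈ D.V) : ∃ L : ℝ, ∃ r > 0,
    ∀ q ∈ ball v r, ∀ p, D.ep p → ‖q - p‖ < D.ro p / 4 → (D.C p : ℝ) ≤ L := by
  have : ProperSpace E := FiniteDimensional.proper_real E
  have hro : 0 < D.ro v := rho_pos D.H (v_om hv)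
  have hg := rho_good D.H (v_om hv)
  set c := D.ro v / 4 with hc
  have hc0 : 0 < c := by positivity
  -- bound on the sphere
  have key : ∃ L : ℝ, ∀ θ ∈ sphere (0 : E) 1, D.ep (v + c • θ) → (D.C (v + c • θ) : ℝ) ≤ L := by
    refine (isCompact_sphere (0 : E) 1).induction_on (p := fun s => ∃ L : ℝ, ∀ θ ∈ s,
      D.ep (v + c • θ) → (D.C (v + c • θ) : ℝ) ≤ L) ⟨0, fun θ h => absurd h (by simp)⟩ ?_ ?_ ?_
    · rintro s t hst ⟨L, hL⟩
      exact ⟨L, fun θ h => hL θ (hst h)⟩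
    · rintro s t ⟨L, hL⟩ ⟨L', hL'⟩
      refine ⟨max L L', fun θ h hep => ?_⟩
      rcases h with h | h
      · exact (hL θ h hep).trans (le_max_left _ _)
      · exact (hL' θ h hep).trans (le_max_right _ _)
    · intro θ hθ
      rw [mem_sphere_zero_iff_norm] at hθ
      have hn : ‖c • θ‖ < D.ro v := by
        rw [norm_smul, hθ, mul_one, Real.norm_of_nonneg hc0.le]; linarith
      have hθ0 : θ ≠ 0 := by rintro rfl; simp at hθ
      have hV := (D.H.cone v (v_om hv) _ hg.1 hg.2.1 hg.2.2 (c • θ)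
        (smul_ne_zero hc0.ne' hθ0) hn).1
      have hO : v + c • θ ∈ D.Om := by
        refine hg.2.1 ?_
        rw [mem_ball, dist_eq_norm, add_sub_cancel_left]
        exact hn
      obtain ⟨L, r, hr, hL⟩ := bd_aux hO hV
      have h1 : ∀ᶠ θ' in 𝓝 θ, v + c • θ' ∈ ball (v + c • θ) r := by
        have : Continuous fun θ' : E => v + c • θ' := by fun_prop
        exact this.continuousAt.preimage_mem_nhds (ball_mem_nhds _ hr)
      refine ⟨_, mem_nhdsWithin_of_mem_nhds h1, L, fun θ' hθ' hep => ?_⟩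
      refine hL _ hθ' _ hep ?_
      rw [sub_self, norm_zero]
      have := ro_pos hep
      positivity
  obtain ⟨L, hL⟩ := key
  refine ⟨L, 3 / 16 * D.ro v, by positivity, fun q hq p hp hqp => ?_⟩
  obtain ⟨u, rfl⟩ : ∃ u, p = v + u := ⟨p - v, by abel⟩
  have hu0 := ep_ne hv hp
  have hun : 0 < ‖u‖ := norm_pos_iff.2 hu0
  have h1 := ro_le_norm hv hp
  rw [mem_ball, dist_eq_norm] at hq
  have h2 : ‖u‖ ≤ ‖q - v‖ + ‖q - (v + u)‖ := by
    have : u = (q - v) - (q - (v + u)) := by abel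
    nth_rewrite 1 [this]
    exact norm_sub_le _ _
  have h3 : ‖u‖ < D.ro v / 4 := by linarith
  -- `v + u` and `v + c θ` are on the same ray
  set θ := ‖u‖⁻¹ • u with hθ
  have hθn : ‖θ‖ = 1 := by rw [hθ, norm_smul, norm_inv, norm_norm, inv_mul_cancel₀ hun.ne']
  have e1 : u = (‖u‖ / c) • (c • θ) := by
    rw [smul_smul, div_mul_cancel₀ _ hc0.ne', hθ, smul_smul, mul_inv_cancel₀ hun.ne', one_smul]
  have hn : ‖c • θ‖ < D.ro v := by
    rw [norm_smul, hθn, mul_one, Real.norm_of_nonneg hc0.le]; linarith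
  have hθ0 : θ ≠ 0 := by
    intro h
    rw [h, norm_zero] at hθn
    exact zero_ne_one hθn
  obtain ⟨h4, h5, h6⟩ := ep_scale hv (smul_ne_zero hc0.ne' hθ0) hn (t := ‖u‖ / c)
    (by positivity) (by rw [div_le_one hc0]; exact h3.le)
  rw [← e1] at h4 h5 h6
  have h7 := hL θ (mem_sphere_zero_iff_norm.2 hθn) (h4.1 hp)
  have h8 : D.C (v + u) = D.C (v + c • θ) := by rw [C, C, h5, h6]
  rw [h8]
  exact h7

theorem exists_bd [FiniteDimensional ℝ E] {x : E} (hx : x ∈ D.Om) : ∃ L, D.Bd x L := by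
  by_cases hV : x ∈ D.V
  · exact bd_of hx (bd_vertex hV)
  · exact bd_of hx (bd_aux hx hV)

theorem h2_lipAt {q : E} (hq : q ∈ D.Om) (hV : q ∉ D.V) {L : ℝ} (h1 : LipAt D.h q L)
    (h2 : ∀ p, D.ep p → ‖q - p‖ < D.ro p / 4 → (D.C p : ℝ) ≤ L) : LipAt D.h2 q L := by
  by_cases hex : ∃ p, D.ep p ∧ ‖q - p‖ < D.ro p / 4
  · obtain ⟨p, hp, hqp⟩ := hex
    refine LipAt.congr ?_ (h2_near hp hqp)
    refine ⟨1, one_pos, fun y _ z _ => ?_⟩
    have h3 := (T_spec hp).2.1.dist_le_mul (y - p) (z - p)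
    rw [dist_eq_norm, dist_eq_norm, sub_sub_sub_cancel_right] at h3
    rw [add_sub_add_left_eq_sub]
    exact h3.trans (mul_le_mul_of_nonneg_right (h2 p hp hqp) (norm_nonneg _))
  · have hfar : ∀ p, D.ep p → D.ro p / 4 ≤ ‖q - p‖ := fun p hp =>
      not_lt.1 fun h => hex ⟨p, hp, h⟩
    exact LipAt.congr h1 (h2_id_near hq hV hfar)

theorem h2_lip {La : Set E} (hh : HomeoOn D.h D.Om La) {x : E} (hx : x ∈ D.Om) {L : ℝ}
    (hL : D.Bd x L) : ∃ r > 0, ∀ y ∈ ball x r, ∀ z ∈ ball x r, ‖D.h2 y - D.h2 z‖ ≤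
      L * ‖y - z‖ := by
  obtain ⟨r, hr, hO, hb⟩ := hL
  have hro : 0 < D.ro x := rho_pos D.H hx
  have hg := rho_good D.H hx
  refine ⟨min r (D.ro x), lt_min hr hro, lip_ball ?_ ?_⟩
  · exact (h2_homeoOn hh).cont.mono ((ball_subset_ball (min_le_left _ _)).trans hO)
  · intro q hq hqx
    have hq1 : q ∈ ball x r := ball_subset_ball (min_le_left _ _) hq
    have hq2 : ‖q - x‖ < D.ro x := by
      rw [← dist_eq_norm]; exact (mem_ball.1 hq).trans_le (min_le_right _ _)
    have hV := (D.H.cone x hx _ hg.1 hg.2.1 hg.2.2 (q - x) (sub_ne_zero.2 hqx) hq2).1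
    rw [add_sub_cancel] at hV
    exact h2_lipAt (hO hq1) hV (hb q hq1).1 (hb q hq1).2

end Dat

end Crest.Agent.R096.StE_816
end

-- ▼ part R096/StE8_816
section

/-!
Row 96, P5, `StageEdge`, part 8: the theorem.
-/

set_option autoImplicit false
set_option linter.unusedSectionVars false
open Set Metric MeasureTheory Filter Topology
open scoped NNReal
open Crest.Agent.R096.P5Spec_205

namespace Crest.Agent.R096.StE_816

variable {E : Type*} [NormedAddCommGroup E] [InnerProductSpace ℝ E] [MeasureSpace E]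
  [BorelSpace E] [FiniteDimensional ℝ E] [(volume : Measure E).IsAddHaarMeasure]

/-- **StageEdge from EdgeB** -/
theorem stageEdge (hB : EdgeB E) {h : E → E} {Om La V Z : Set E} {G : E → E → E} {e : E → E}
    (hOm : IsOpen Om) (hLa : IsOpen La) (hh : HomeoOn h Om La) (H : Germs h Om V Z G e)
    (hZ : ∀ x ∈ Om, x ∉ Z → ∃ r > 0, ∀ y ∈ ball x r, y ∉ Z) :
    ∃ (C : E → ℝ) (K : E → E → E), (∀ x ∈ Om, ∃ r > 0, ∃ M, ∀ y ∈ ball x r ∩ Om, C y ≤ M) ∧
    ∀ η : E → ℝ, ContinuousOn η Om → (∀ x ∈ Om, 0 < η x) →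
      ∃ h₂ : E → E, HomeoOn h₂ Om La ∧
        (∀ x ∈ Om, x ∉ V → MollAt h₂ x) ∧
        (∀ v ∈ V, ∃ r > 0, ball v r ⊆ Om ∧ ∀ u, ‖u‖ < r → h₂ (v + u) = h₂ v + K v u) ∧
        (∀ v ∈ V, IsHomeomorph (K v) ∧ Conic (K v) ∧ ∀ x, x ≠ 0 → MollAt (K v) x) ∧
        (∀ x ∈ Om, ‖h₂ x - h x‖ ≤ η x) ∧
        (∀ x ∈ Om, h₂ x ≠ h x → infDist x Z ≤ η x) ∧
        (∀ x ∈ Om, ∃ r > 0, ∀ y ∈ ball x r, ∀ z ∈ ball x r, ‖h₂ y - h₂ z‖ ≤ C x * ‖y - z‖) := by
  obtain ⟨S⟩ := exists_sel hB
  let D₀ : Dat E := ⟨h, Om, V, Z, G, e, rho h Om G, S, H, mok_rho H, hOm, hZ⟩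
  have hset : ∀ x ∈ Om, ({L | 0 ≤ L ∧ D₀.Bd x L} : Set ℝ).Nonempty := by
    intro x hx
    obtain ⟨L, hL⟩ := Dat.exists_bd (D := D₀) hx
    exact ⟨max L 0, le_max_right _ _, hL.mono (le_max_left _ _)⟩
  have hbdd : ∀ x, BddBelow ({L | 0 ≤ L ∧ D₀.Bd x L} : Set ℝ) := fun x => ⟨0, fun L hL => hL.1⟩
  have hCbd : ∀ x ∈ Om, D₀.Bd x (sInf {L | 0 ≤ L ∧ D₀.Bd x L} + 1) := by
    intro x hx
    obtain ⟨L, hL, hlt⟩ := exists_lt_of_csInf_lt (hset x hx) (lt_add_one _)
    exact hL.2.mono hlt.le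
  refine ⟨fun x => sInf {L | 0 ≤ L ∧ D₀.Bd x L} + 1, D₀.K, ?_, fun η hη hpos => ?_⟩
  · intro x hx
    obtain ⟨L, hL0, r, hr, hrO, hb⟩ := hset x hx
    refine ⟨r / 2, by positivity, L + 1, fun y hy => ?_⟩
    refine add_le_add_left (csInf_le (hbdd y) ⟨hL0, r / 2, by positivity, ?_, ?_⟩) 1
    · intro z hz
      refine hrO ?_
      rw [mem_ball] at *
      have := dist_triangle z y x
      have := mem_ball.1 hy.1
      linarith
    · intro q hq
      refine hb q ?_
      rw [mem_ball] at *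
      have := dist_triangle q y x
      have := mem_ball.1 hy.1
      linarith
  · let D : Dat E := ⟨h, Om, V, Z, G, e, fun p => min (rho h Om G p) (ic Om η p), S, H,
      mok_min H hOm hpos hη, hOm, hZ⟩
    have hDm : ∀ p, D.m p = min (D.ro p) (ic Om η p) := fun p => rfl
    have hmη : ∀ p x, D.InT p x → x ∈ Om → D.m p ≤ 16 / 15 * η x := by
      intro p x hp hx
      have h1 := (Dat.h2_inT hp).2
      have h2 := ic_le hpos hx p
      have h3 : D.m p ≤ ic Om η p := min_le_right _ _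
      linarith
    refine ⟨D.h2, Dat.h2_homeoOn (D := D) hh, fun x hx hV => Dat.h2_moll (D := D) hx hV,
      fun v hv => ?_, fun v hv => ⟨Dat.K_homeo (D := D₀) hh hLa hv, Dat.K_conic (D := D₀) hv,
        fun u hu => Dat.K_moll (D := D₀) hv hu⟩, fun x hx => ?_, fun x hx hne => ?_,
      fun x hx => Dat.h2_lip (D := D) hh hx (hCbd x hx)⟩
    · have hvO : v ∈ Om := H.Z_sub (H.V_sub hv)
      have hro : 0 < D.ro v := rho_pos H hvO
      have hic := ic_pos hOm hpos hη hvO
      set δ := min (D.ro v / 2) (ic Om η v / 2) with hδ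
      have hδ0 : 0 < δ := lt_min (by positivity) (by positivity)
      have hm : ∀ p, D.ep p → ‖p - v‖ < δ → D.m p = D.ro p := by
        intro p hp hpv
        rw [hDm, min_eq_left]
        have h1 : D.ro p ≤ ‖p - v‖ := no_vertex H hp hv
        have h2 : ‖p - v‖ < ic Om η v / 2 := hpv.trans_le (min_le_right _ _)
        have h3 := ic_lip hpos ⟨v, hvO⟩ v p
        rw [norm_sub_rev] at h3
        linarith
      refine ⟨15 / 16 * δ, by positivity, ?_, fun u hu => ?_⟩
      · refine (ball_subset_ball ?_).trans (rho_good H hvO).2.1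
        have h1 : δ ≤ D.ro v / 2 := min_le_left _ _
        change _ ≤ D.ro v
        linarith
      · exact Dat.K_apply (D := D) hv (min_le_left _ _) hm hu
    · by_cases hex : ∃ p, D.InT p x
      · obtain ⟨p, hp⟩ := hex
        have h1 : ‖D.h2 x - h x‖ ≤ D.m p / 32 := (Dat.h2_inT hp).1
        have h2 := hmη p x hp hx
        have h3 := hpos x hx
        linarith
      · have h1 : D.h2 x = h x := Dat.h2_of_not hex
        rw [h1, sub_self, norm_zero]
        exact (hpos x hx).le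
    · by_cases hex : ∃ p, D.InT p x
      · obtain ⟨p, hp⟩ := hex
        have h1 := (Dat.h2_inT hp).2
        have h2 := hmη p x hp hx
        have h3 := hpos x hx
        have h4 : infDist x Z ≤ dist x p := infDist_le_dist_of_mem hp.1.1
        rw [dist_eq_norm] at h4
        linarith
      · exact absurd (Dat.h2_of_not hex) hne

/-- `StageEdge` with the hypothesis that `Z` is closed in `Om` -/
def StageEdgeZ (E : Type*) [NormedAddCommGroup E] [InnerProductSpace ℝ E] [MeasureSpace E] :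
    Prop :=
  ∀ (h : E → E) (Om La V Z : Set E) (G : E → E → E) (e : E → E),
    IsOpen Om → IsOpen La → HomeoOn h Om La → Germs h Om V Z G e →
    (∀ x ∈ Om, x ∉ Z → ∃ r > 0, ∀ y ∈ ball x r, y ∉ Z) →
    ∃ (C : E → ℝ) (K : E → E → E), (∀ x ∈ Om, ∃ r > 0, ∃ M, ∀ y ∈ ball x r ∩ Om, C y ≤ M) ∧
    ∀ η : E → ℝ, ContinuousOn η Om → (∀ x ∈ Om, 0 < η x) →
      ∃ h₂ : E → E, HomeoOn h₂ Om La ∧
        (∀ x ∈ Om, x ∉ V → MollAt h₂ x) ∧
        (∀ v ∈ V, ∃ r > 0, ball v r ⊆ Om ∧ ∀ u, ‖u‖ < r → h₂ (v + u) = h₂ v + K v u) ∧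
        (∀ v ∈ V, IsHomeomorph (K v) ∧ Conic (K v) ∧ ∀ x, x ≠ 0 → MollAt (K v) x) ∧
        (∀ x ∈ Om, ‖h₂ x - h x‖ ≤ η x) ∧
        (∀ x ∈ Om, h₂ x ≠ h x → infDist x Z ≤ η x) ∧
        (∀ x ∈ Om, ∃ r > 0, ∀ y ∈ ball x r, ∀ z ∈ ball x r, ‖h₂ y - h₂ z‖ ≤ C x * ‖y - z‖)

/-- **EdgeB implies StageEdgeZ** -/
theorem stageEdgeZ (hB : EdgeB E) : StageEdgeZ E :=
  fun _ _ _ _ _ _ _ hOm hLa hh H hZ => stageEdge hB hOm hLa hh H hZ

/-- `StageEdge` in 205's form, if `Z` is closed in `Om` for all germ data -/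
theorem stageEdge' (hB : EdgeB E)
    (hZ : ∀ (h : E → E) (Om V Z : Set E) (G : E → E → E) (e : E → E), Germs h Om V Z G e →
      ∀ x ∈ Om, x ∉ Z → ∃ r > 0, ∀ y ∈ ball x r, y ∉ Z) : StageEdge E :=
  fun h Om _ V Z G e hOm hLa hh H => stageEdge hB hOm hLa hh H (hZ h Om V Z G e H)

end Crest.Agent.R096.StE_816
end

-- ▼ part R096/StV1_119
section

/-!
# P5 StageVertex, part 1 (helper119, row 96): radii and the inserted models
-/

set_option autoImplicit false
set_option linter.unusedSectionVars false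

open Set Metric MeasureTheory Filter Topology
open scoped NNReal ContDiff
open Crest.Agent.R096.P5Spec_205
open Crest.Agent.R096.Mo_119 (LBB exists_radius)

namespace Crest.Agent.R096.StV_119

section radii
variable {E : Type*} [NormedAddCommGroup E]

/-- prescribing an upper bound at the points of a discrete set -/
theorem lbb_pts {Om V : Set E} (hVd : ∀ x ∈ Om, ∃ r > 0, ball x r ∩ V ⊆ {x}) {t : E → ℝ}
    (ht : ∀ v ∈ V, 0 < t v) : ∃ b : E → ℝ, LBB Om b ∧ ∀ v ∈ V, b v ≤ t v := by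
  classical
  refine ⟨fun x => if x ∈ V then t x else 1, ?_, fun v hv => by simp [hv]⟩
  intro x hx
  obtain ⟨r, hr, hrV⟩ := hVd x hx
  refine ⟨if x ∈ V then min (t x) 1 else 1, ?_, ?_⟩
  · split_ifs with h
    · exact lt_min (ht _ h) one_pos
    · exact one_pos
  · filter_upwards [ball_mem_nhds x hr] with y hy _
    by_cases hyV : y ∈ V
    · have hyx : y = x := hrV ⟨hy, hyV⟩
      subst hyx
      simp only [hyV, if_true]
      exact min_le_left _ _
    · simp only [hyV, if_false]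
      split_ifs with h
      · exact min_le_right _ _
      · exact le_rfl

/-- a locally bounded below function `s` with at most one point of `V` in `ball x (s x)` -/
theorem lbb_sub {Om V : Set E} (hVd : ∀ x ∈ Om, ∃ r > 0, ball x r ∩ V ⊆ {x}) :
    ∃ s : E → ℝ, LBB Om s ∧ ∀ x ∈ Om, (ball x (s x) ∩ V).Subsingleton := by
  have key : ∀ x ∈ Om, ∃ m : ℕ, ∀ᶠ y in 𝓝 x, (ball y (1 / ((m : ℝ) + 1)) ∩ V).Subsingleton := by
    intro x hx
    obtain ⟨r, hr, hrV⟩ := hVd x hx
    obtain ⟨m, hm⟩ := exists_nat_gt (1 / (r / 2))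
    refine ⟨m, ?_⟩
    filter_upwards [ball_mem_nhds x (half_pos hr)] with y hy
    have h1 : 1 / ((m : ℝ) + 1) ≤ r / 2 := by
      rw [div_le_iff₀ (by positivity)]
      rw [div_lt_iff₀ (by positivity)] at hm
      nlinarith
    have hsub : ball y (1 / ((m : ℝ) + 1)) ⊆ ball x r := by
      refine ball_subset_ball' ?_
      rw [mem_ball] at hy
      linarith
    intro a ha b hb
    have h2 : a = x := hrV ⟨hsub ha.1, ha.2⟩
    have h3 : b = x := hrV ⟨hsub hb.1, hb.2⟩
    rw [h2, h3]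
  obtain ⟨m, hm, hmb⟩ := LBB.of_nat (Ω := Om)
    (P := fun x n => (ball x (1 / ((n : ℝ) + 1)) ∩ V).Subsingleton)
    (fun x hx => by
      obtain ⟨m, hm⟩ := key x hx
      exact ⟨m, hm.self_of_nhds⟩) (fun x hx _ _ => by
      obtain ⟨m, hm⟩ := key x hx
      exact ⟨m, hm.mono fun y hy _ => hy⟩)
  exact ⟨fun x => 1 / ((m x : ℝ) + 1), hmb, hm⟩

end radii

section radii2
variable {E : Type*} [NormedAddCommGroup E] [NormedSpace ℝ E] [FiniteDimensional ℝ E]

/-- the radii: `ρ` is positive on `Om`, `1/4`-Lipschitz, small at the points of `V`, and the balls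
`closedBall v (ρ v)` are disjoint and locally finite. -/
theorem exists_rho {Om V : Set E} (hOm : IsOpen Om)
    (hVd : ∀ x ∈ Om, ∃ r > 0, ball x r ∩ V ⊆ {x}) {t : E → ℝ} (ht : ∀ v ∈ V, 0 < t v) :
    ∃ ρ : E → ℝ, (∀ x ∈ Om, 0 < ρ x) ∧ (∀ x y, |ρ x - ρ y| ≤ 1/4 * ‖x - y‖) ∧
      (∀ v ∈ V, v ∈ Om → ρ v ≤ t v) ∧ ∀ x ∈ Om, (ball x (4 * ρ x) ∩ V).Subsingleton := by
  obtain ⟨b, hb, hbt⟩ := lbb_pts hVd ht
  obtain ⟨s, hs, hsV⟩ := lbb_sub hVd
  have hs4 : LBB Om (fun x => s x / 4) := by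
    intro x hx
    obtain ⟨c, hc, h⟩ := hs x hx
    exact ⟨c / 4, by positivity, h.mono fun y hy hyO => by have := hy hyO; linarith⟩
  obtain ⟨ρ, hρ, -, hpos, hle, -, hD⟩ := exists_radius hOm (hb.inf_min hs4)
  have hLip : LipschitzWith (1/4 : ℝ≥0) ρ := by
    refine lipschitzWith_of_nnnorm_fderiv_le (𝕜 := ℝ) (hρ.differentiable (by simp)) fun x => ?_
    rw [← NNReal.coe_le_coe, coe_nnnorm]
    refine (hD x).trans ?_
    norm_num
  refine ⟨ρ, hpos, fun x y => ?_, fun v hv hvO => (hle v hvO).trans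
    ((min_le_left _ _).trans (hbt v hv)), fun x hx => ?_⟩
  · have := hLip.dist_le_mul x y
    rw [Real.dist_eq, dist_eq_norm] at this
    refine this.trans (le_of_eq ?_)
    norm_num
  · refine (hsV x hx).anti (inter_subset_inter_left _ (ball_subset_ball ?_))
    have := (hle x hx).trans (min_le_right _ _)
    linarith

end radii2

end Crest.Agent.R096.StV_119
end

-- ▼ part R096/StV2_119
section

/-!
# P5 StageVertex, part 2 (helper119, row 96): the pasted map
-/

set_option autoImplicit false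
set_option linter.unusedSectionVars false

open Set Metric MeasureTheory Filter Topology
open scoped NNReal ContDiff
open Crest.Agent.R096.P5Spec_205
open Crest.Agent.R096.StE_816 (LH lh_homeo lh_add lh_sub lh_smul homeoOn_of_nhds nhds_of_homeoOn)

namespace Crest.Agent.R096.StV_119

variable {E : Type*} [NormedAddCommGroup E] [InnerProductSpace ℝ E] [MeasureSpace E]

/-- the data of the vertex insertion -/
structure Ins (h : E → E) (Om La V : Set E) (K : E → E → E) (Φ : E → E → E) (r ρ : E → ℝ) :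
    Prop where
  openOm : IsOpen Om
  openLa : IsOpen La
  hh : HomeoOn h Om La
  sub : V ⊆ Om
  r_ball : ∀ v ∈ V, ball v (r v) ⊆ Om
  germ : ∀ v ∈ V, ∀ u, ‖u‖ < r v → h (v + u) = h v + K v u
  Kh : ∀ v ∈ V, IsHomeomorph (K v)
  conic : ∀ v ∈ V, Conic (K v)
  Φh : ∀ v ∈ V, IsHomeomorph (Φ v)
  Φout : ∀ v ∈ V, ∀ x, 1 ≤ ‖x‖ → Φ v x = K v x
  ρ_pos : ∀ x ∈ Om, 0 < ρ x
  ρ_lip : ∀ x y, |ρ x - ρ y| ≤ 1/4 * ‖x - y‖
  ρ_lt : ∀ v ∈ V, ρ v < r v
  ρ_sub : ∀ x ∈ Om, (ball x (4 * ρ x) ∩ V).Subsingleton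

/-- the scaled model -/
noncomputable def mdl (Φ : E → E → E) (ρ : E → ℝ) (v u : E) : E := ρ v • Φ v ((ρ v)⁻¹ • u)

open Classical in
/-- the pasted map -/
noncomputable def h3 (h : E → E) (V : Set E) (Φ : E → E → E) (ρ : E → ℝ) (x : E) : E :=
  if hx : ∃ v ∈ V, ‖x - v‖ < ρ v then h hx.choose + mdl Φ ρ hx.choose (x - hx.choose) else h x

variable {h : E → E} {Om La V : Set E} {K Φ : E → E → E} {r ρ : E → ℝ}

namespace Ins

theorem pos (I : Ins h Om La V K Φ r ρ) {v : E} (hv : v ∈ V) : 0 < ρ v := I.ρ_pos v (I.sub hv)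

theorem mdl_out (I : Ins h Om La V K Φ r ρ) {v : E} (hv : v ∈ V) {u : E} (hu : ρ v ≤ ‖u‖) :
    mdl Φ ρ v u = K v u := by
  have h0 := I.pos hv
  unfold mdl
  rw [I.Φout v hv, ← I.conic v hv (ρ v) h0.le, smul_smul, mul_inv_cancel₀ h0.ne', one_smul]
  rw [norm_smul, norm_inv, Real.norm_of_nonneg h0.le, le_inv_mul_iff₀ h0, mul_one]
  exact hu

theorem mdl_homeo (I : Ins h Om La V K Φ r ρ) {v : E} (hv : v ∈ V) : IsHomeomorph (mdl Φ ρ v) := by
  have h0 := I.pos hv
  have h1 : IsHomeomorph (fun u : E => (ρ v)⁻¹ • u) :=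
    (Homeomorph.smulOfNeZero (ρ v)⁻¹ (inv_ne_zero h0.ne')).isHomeomorph
  have h2 : IsHomeomorph (fun u : E => ρ v • u) :=
    (Homeomorph.smulOfNeZero (ρ v) h0.ne').isHomeomorph
  exact h2.comp ((I.Φh v hv).comp h1)

/-- inside the small ball the model and the cone have the same image -/
theorem mdl_image (I : Ins h Om La V K Φ r ρ) {v : E} (hv : v ∈ V) {u : E} (hu : ‖u‖ < ρ v) :
    ∃ u', ‖u'‖ < ρ v ∧ mdl Φ ρ v u = K v u' := by
  obtain ⟨u', hu'⟩ := (I.Kh v hv).surjective (mdl Φ ρ v u)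
  refine ⟨u', ?_, hu'.symm⟩
  by_contra hcon
  push Not at hcon
  rw [← I.mdl_out hv hcon] at hu'
  have := (I.mdl_homeo hv).injective hu'
  rw [this] at hcon
  linarith

theorem K_image (I : Ins h Om La V K Φ r ρ) {v : E} (hv : v ∈ V) {u : E} (hu : ‖u‖ < ρ v) :
    ∃ u', ‖u'‖ < ρ v ∧ mdl Φ ρ v u' = K v u := by
  obtain ⟨u', hu'⟩ := (I.mdl_homeo hv).surjective (K v u)
  refine ⟨u', ?_, hu'⟩
  by_contra hcon
  push Not at hcon
  rw [I.mdl_out hv hcon] at hu'
  have := (I.Kh v hv).injective hu'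
  rw [this] at hcon
  linarith

/-- **uniqueness near a point** -/
theorem near (I : Ins h Om La V K Φ r ρ) {x y z v w : E} (hx : x ∈ Om) (hv : v ∈ V) (hw : w ∈ V)
    (hy : ‖y - x‖ < ρ x) (hz : ‖z - x‖ < ρ x) (hyv : ‖y - v‖ ≤ ρ v) (hzw : ‖z - w‖ ≤ ρ w) :
    v = w := by
  have key : ∀ {y v : E}, v ∈ V → ‖y - x‖ < ρ x → ‖y - v‖ ≤ ρ v → v ∈ ball x (4 * ρ x) ∩ V := by
    intro y v hv hy hyv
    refine ⟨?_, hv⟩
    have h1 : ‖v - x‖ ≤ ‖y - v‖ + ‖y - x‖ := by
      calc ‖v - x‖ = ‖(y - x) - (y - v)‖ := by congr 1; abel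
        _ ≤ ‖y - x‖ + ‖y - v‖ := norm_sub_le _ _
        _ = _ := add_comm _ _
    have h2 := abs_le.1 (I.ρ_lip v x)
    have h3 := I.ρ_pos x hx
    rw [mem_ball, dist_eq_norm]
    linarith [h2.1, h2.2]
  exact I.ρ_sub x hx (key hv hy hyv) (key hw hz hzw)

theorem ball_sub (I : Ins h Om La V K Φ r ρ) {x v : E} (hv : v ∈ V) (hx : ‖x - v‖ ≤ ρ v) :
    x ∈ Om := I.r_ball v hv (by
      rw [mem_ball, dist_eq_norm]
      exact hx.trans_lt (I.ρ_lt v hv))

theorem unique (I : Ins h Om La V K Φ r ρ) {x v w : E} (hv : v ∈ V) (hw : w ∈ V)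
    (hxv : ‖x - v‖ ≤ ρ v) (hxw : ‖x - w‖ ≤ ρ w) : v = w := by
  have hx := I.ball_sub hv hxv
  have h0 := I.ρ_pos x hx
  exact I.near hx hv hw (y := x) (z := x) (by simpa using h0) (by simpa using h0) hxv hxw

theorem h3_in (I : Ins h Om La V K Φ r ρ) {x v : E} (hv : v ∈ V) (hx : ‖x - v‖ < ρ v) :
    h3 h V Φ ρ x = h v + mdl Φ ρ v (x - v) := by
  have hex : ∃ v ∈ V, ‖x - v‖ < ρ v := ⟨v, hv, hx⟩
  unfold h3
  rw [dif_pos hex]
  have := I.unique hex.choose_spec.1 hv hex.choose_spec.2.le hx.le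
  rw [this]

theorem h3_out {x : E} (hx : ¬ ∃ v ∈ V, ‖x - v‖ < ρ v) : h3 h V Φ ρ x = h x := dif_neg hx

/-- near a point of the closed ball the pasted map is the model -/
theorem h3_model (I : Ins h Om La V K Φ r ρ) {x v : E} (hv : v ∈ V) (hx : ‖x - v‖ ≤ ρ v) :
    h3 h V Φ ρ =ᶠ[𝓝 x] fun y => h v + mdl Φ ρ v (y - v) := by
  have hxO := I.ball_sub hv hx
  have h0 := I.ρ_pos x hxO
  have h1 : ball v (r v) ∈ 𝓝 x := isOpen_ball.mem_nhds (by
    rw [mem_ball, dist_eq_norm]; exact hx.trans_lt (I.ρ_lt v hv))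
  filter_upwards [h1, ball_mem_nhds x h0] with y hy1 hy2
  rw [mem_ball, dist_eq_norm] at hy1 hy2
  by_cases hex : ∃ w ∈ V, ‖y - w‖ < ρ w
  · obtain ⟨w, hw, hyw⟩ := hex
    have : v = w := I.near hxO hv hw (y := x) (z := y) (by simpa using h0) hy2 hx hyw.le
    subst this
    exact I.h3_in hv hyw
  · rw [h3_out hex]
    push Not at hex
    rw [I.mdl_out hv (hex v hv), ← I.germ v hv _ hy1, add_sub_cancel]

/-- away from the closed balls the pasted map is locally `h` -/
theorem h3_far (I : Ins h Om La V K Φ r ρ) {x : E} (hx : x ∈ Om)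
    (hfar : ∀ v ∈ V, ρ v < ‖x - v‖) : h3 h V Φ ρ =ᶠ[𝓝 x] h := by
  have h0 := I.ρ_pos x hx
  by_cases hex : ∃ y ∈ ball x (ρ x), ∃ w ∈ V, ‖y - w‖ < ρ w
  · obtain ⟨y, hy, w, hw, hyw⟩ := hex
    have hopen : IsOpen {z : E | ρ w < ‖z - w‖} := isOpen_lt continuous_const (by fun_prop)
    filter_upwards [ball_mem_nhds x h0, hopen.mem_nhds (hfar w hw)] with z hz1 hz2
    refine h3_out ?_
    rintro ⟨w', hw', hzw'⟩
    rw [mem_ball, dist_eq_norm] at hy hz1
    have : w = w' := I.near hx hw hw' hy hz1 hyw.le hzw'.le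
    subst this
    have hz3 : ρ w < ‖z - w‖ := hz2
    linarith
  · filter_upwards [ball_mem_nhds x h0] with z hz
    refine h3_out ?_
    rintro ⟨w', hw', hzw'⟩
    exact hex ⟨z, hz, w', hw', hzw'⟩

/-- comparison point -/
theorem exists_cmp (I : Ins h Om La V K Φ r ρ) {x : E} (hx : x ∈ Om) :
    ∃ x' ∈ Om, h3 h V Φ ρ x = h x' ∧ ∀ v ∈ V, (‖x - v‖ < ρ v ↔ ‖x' - v‖ < ρ v) := by
  by_cases hex : ∃ w ∈ V, ‖x - w‖ < ρ w
  · obtain ⟨v, hv, hxv⟩ := hex
    obtain ⟨u', hu', hmu⟩ := I.mdl_image hv hxv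
    have h1 : ‖v + u' - v‖ < ρ v := by rwa [add_sub_cancel_left]
    refine ⟨v + u', I.ball_sub hv h1.le, ?_, fun w hw => ⟨fun hxw => ?_, fun hxw => ?_⟩⟩
    · rw [I.h3_in hv hxv, hmu, I.germ v hv u' (hu'.trans (I.ρ_lt v hv))]
    · have := I.unique hv hw hxv.le hxw.le
      subst this; exact h1
    · have := I.unique hv hw h1.le hxw.le
      subst this; exact hxv
  · exact ⟨x, hx, h3_out hex, fun v _ => Iff.rfl⟩

theorem bijOn (I : Ins h Om La V K Φ r ρ) : BijOn (h3 h V Φ ρ) Om La := by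
  refine ⟨fun x hx => ?_, fun x hx y hy hxy => ?_, fun z hz => ?_⟩
  · obtain ⟨x', hx', he, -⟩ := I.exists_cmp hx
    rw [he]; exact I.hh.bij.mapsTo hx'
  · obtain ⟨x', hx', hex, hxv⟩ := I.exists_cmp hx
    obtain ⟨y', hy', hey, hyv⟩ := I.exists_cmp hy
    have hxy' : x' = y' := I.hh.bij.injOn hx' hy' (by rw [← hex, ← hey, hxy])
    subst hxy'
    by_cases hc : ∃ w ∈ V, ‖x - w‖ < ρ w
    · obtain ⟨v, hv, hxv'⟩ := hc
      have hyv' : ‖y - v‖ < ρ v := (hyv v hv).2 ((hxv v hv).1 hxv')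
      rw [I.h3_in hv hxv', I.h3_in hv hyv'] at hxy
      have := (I.mdl_homeo hv).injective (add_left_cancel hxy)
      exact sub_left_injective this
    · have hc' : ¬ ∃ w ∈ V, ‖y - w‖ < ρ w := by
        rintro ⟨v, hv, hyv'⟩
        exact hc ⟨v, hv, (hxv v hv).2 ((hyv v hv).1 hyv')⟩
      rw [h3_out hc, h3_out hc'] at hxy
      exact I.hh.bij.injOn hx hy hxy
  · obtain ⟨x', hx', rfl⟩ := I.hh.bij.surjOn hz
    by_cases hc : ∃ w ∈ V, ‖x' - w‖ < ρ w
    · obtain ⟨v, hv, hxv'⟩ := hc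
      obtain ⟨u', hu', hmu⟩ := I.K_image hv hxv'
      have h1 : ‖v + u' - v‖ < ρ v := by rwa [add_sub_cancel_left]
      refine ⟨v + u', I.ball_sub hv h1.le, ?_⟩
      rw [I.h3_in hv h1, add_sub_cancel_left, hmu,
        ← I.germ v hv _ (hxv'.trans (I.ρ_lt v hv)), add_sub_cancel]
    · exact ⟨x', hx', h3_out hc⟩

theorem lh_model (I : Ins h Om La V K Φ r ρ) {v : E} (hv : v ∈ V) (x : E) :
    LH (fun y => h v + mdl Φ ρ v (y - v)) x :=
  LH.comp (g := fun y => h v + y) (lh_add _ _)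
    (LH.comp (g := mdl Φ ρ v) (f := fun y => y - v) (lh_homeo (I.mdl_homeo hv) _) (lh_sub _ _))

theorem homeoOn (I : Ins h Om La V K Φ r ρ) : HomeoOn (h3 h V Φ ρ) Om La := by
  refine homeoOn_of_nhds I.openOm I.bijOn fun x hx => ?_
  by_cases hc : ∃ w ∈ V, ‖x - w‖ ≤ ρ w
  · obtain ⟨v, hv, hxv⟩ := hc
    exact (I.lh_model hv x).congr (I.h3_model hv hxv)
  · push Not at hc
    exact LH.congr (nhds_of_homeoOn I.openOm I.openLa I.hh hx) (I.h3_far hx hc)

end Ins

end Crest.Agent.R096.StV_119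
end

-- ▼ part R096/StV3_119

/-!
# P5 StageVertex, part 3 (helper119, row 96): `Core E → StageVertex E`
-/

set_option autoImplicit false
set_option linter.unusedSectionVars false

open Set Metric MeasureTheory Filter Topology
open scoped NNReal ContDiff
open Crest.Agent.R096.P5Spec_205

namespace Crest.Agent.R096.StV_119

variable {E : Type*} [NormedAddCommGroup E] [InnerProductSpace ℝ E] [MeasureSpace E]
  [BorelSpace E] [FiniteDimensional ℝ E] [(volume : Measure E).IsAddHaarMeasure]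

variable {h : E → E} {Om La V : Set E} {K Φ : E → E → E} {r ρ : E → ℝ}

namespace Ins

theorem moll_model (I : Ins h Om La V K Φ r ρ) {v : E} (hv : v ∈ V) (hm : ∀ x, MollAt (Φ v) x)
    (x : E) : MollAt (fun y => h v + mdl Φ ρ v (y - v)) x := by
  have h0 := I.pos hv
  have h1 : MollAt (mdl Φ ρ v) (x - v) := by
    have h2 : MollAt (Φ v) (0 + (ρ v)⁻¹ • (x - v)) := hm _
    have h3 := StE_816.MollAt.affine (b := 0) (inv_pos.2 h0) h2
    have e1 : (fun y : E => ((ρ v)⁻¹)⁻¹ • (Φ v (0 + (ρ v)⁻¹ • y) - 0)) = mdl Φ ρ v := by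
      funext y
      simp only [inv_inv, zero_add, sub_zero]
      rfl
    rwa [e1] at h3
  exact StE_816.MollAt.shift h1

theorem moll (I : Ins h Om La V K Φ r ρ) (hm : ∀ v ∈ V, ∀ x, MollAt (Φ v) x)
    (hh : ∀ x ∈ Om, x ∉ V → MollAt h x) : ∀ x ∈ Om, MollAt (h3 h V Φ ρ) x := by
  intro x hx
  by_cases hc : ∃ w ∈ V, ‖x - w‖ ≤ ρ w
  · obtain ⟨v, hv, hxv⟩ := hc
    exact StE_816.MollAt.congr (I.moll_model hv (hm v hv) x) (I.h3_model hv hxv)
  · push Not at hc
    have hxV : x ∉ V := fun hxV => by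
      have h1 := hc x hxV
      have h2 := I.ρ_pos x hx
      rw [sub_self, norm_zero] at h1
      linarith
    exact StE_816.MollAt.congr (hh x hx hxV) (I.h3_far hx hc)

/-- Lipschitz bound of the model -/
theorem lip_model (I : Ins h Om La V K Φ r ρ) {v : E} (hv : v ∈ V) {C : ℝ≥0}
    (hC : LipschitzWith C (Φ v)) (y z : E) :
    ‖(h v + mdl Φ ρ v (y - v)) - (h v + mdl Φ ρ v (z - v))‖ ≤ C * ‖y - z‖ := by
  have h0 := I.pos hv
  have h1 := hC.dist_le_mul ((ρ v)⁻¹ • (y - v)) ((ρ v)⁻¹ • (z - v))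
  rw [dist_eq_norm, dist_eq_norm, ← smul_sub, sub_sub_sub_cancel_right, norm_smul, norm_inv,
    Real.norm_of_nonneg h0.le] at h1
  rw [add_sub_add_left_eq_sub]
  unfold mdl
  rw [← smul_sub, norm_smul, Real.norm_of_nonneg h0.le]
  calc ρ v * ‖Φ v ((ρ v)⁻¹ • (y - v)) - Φ v ((ρ v)⁻¹ • (z - v))‖
      ≤ ρ v * (C * ((ρ v)⁻¹ * ‖y - z‖)) := by gcongr
    _ = C * ‖y - z‖ * (ρ v * (ρ v)⁻¹) := by ring
    _ = C * ‖y - z‖ := by rw [mul_inv_cancel₀ h0.ne', mul_one]

/-- `C⁰` bound inside a ball -/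
theorem sub_le (I : Ins h Om La V K Φ r ρ) {v : E} (hv : v ∈ V) {M : ℝ}
    (hM : ∀ w, ‖w‖ ≤ 1 → ‖Φ v w - K v w‖ ≤ M) {x : E} (hx : ‖x - v‖ < ρ v) :
    ‖h3 h V Φ ρ x - h x‖ ≤ ρ v * M := by
  have h0 := I.pos hv
  have e1 : h x = h v + K v (x - v) := by
    rw [← I.germ v hv _ (hx.trans (I.ρ_lt v hv)), add_sub_cancel]
  have e2 : K v (x - v) = ρ v • K v ((ρ v)⁻¹ • (x - v)) := by
    rw [← I.conic v hv (ρ v) h0.le, smul_smul, mul_inv_cancel₀ h0.ne', one_smul]
  rw [I.h3_in hv hx, e1, e2, add_sub_add_left_eq_sub]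
  unfold mdl
  rw [← smul_sub, norm_smul, Real.norm_of_nonneg h0.le]
  gcongr
  refine hM _ ?_
  rw [norm_smul, norm_inv, Real.norm_of_nonneg h0.le, inv_mul_le_iff₀ h0, mul_one]
  exact hx.le

end Ins

/-- **StageVertex from Core.** -/
theorem stageVertex (hCore : Core E) : StageVertex E := by
  intro h Om La V K hOm hLa hh hVO hVd hmoll hgerm hK
  have hprop : ProperSpace E := FiniteDimensional.proper_real E
  choose! r hr hrball hrgerm using hgerm
  have hC : ∀ v ∈ V, ∃ Φ : E → E, IsHomeomorph Φ ∧ (∀ x, 1 ≤ ‖x‖ → Φ x = K v x) ∧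
      (∀ x, MollAt Φ x) ∧ ∃ C : ℝ≥0, LipschitzWith C Φ := fun v hv =>
    hCore (K v) (hK v hv).1 (hK v hv).2.1 (hK v hv).2.2
  choose! Φ hΦh hΦout hΦm C hΦC using hC
  have hM : ∀ v ∈ V, ∃ M : ℝ, 0 ≤ M ∧ ∀ w, ‖w‖ ≤ 1 → ‖Φ v w - K v w‖ ≤ M := by
    intro v hv
    have hcont : Continuous fun w => ‖Φ v w - K v w‖ :=
      ((hΦh v hv).continuous.sub (hK v hv).1.continuous).norm
    obtain ⟨M, hM⟩ := (isCompact_closedBall (0 : E) 1).bddAbove_image hcont.continuousOn
    refine ⟨max M 0, le_max_right _ _, fun w hw => (hM ⟨w, ?_, rfl⟩).trans (le_max_left _ _)⟩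
    rwa [mem_closedBall, dist_zero_right]
  choose! M hM0 hM using hM
  refine ⟨fun v => C v, fun η hη hηpos => ?_⟩
  have ht : ∀ v ∈ V, ∃ t > 0, ∀ x, ‖x - v‖ < t → η v / 2 < η x := by
    intro v hv
    have h1 : ContinuousAt η v := hη.continuousAt (hOm.mem_nhds (hVO hv))
    have h2 : η v / 2 < η v := by have := hηpos v (hVO hv); linarith
    obtain ⟨t, ht, h3⟩ := Metric.eventually_nhds_iff.1 (h1.eventually_const_lt h2)
    exact ⟨t, ht, fun x hx => h3 (by rwa [dist_eq_norm])⟩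
  choose! t ht htη using ht
  set T : E → ℝ := fun v => min (min (r v / 2) (t v)) (min (η v / 2) (η v / (2 * (M v + 1))))
    with hT
  have hT0 : ∀ v ∈ V, 0 < T v := by
    intro v hv
    have h1 := hr v hv
    have h2 := ht v hv
    have h3 := hηpos v (hVO hv)
    have h4 := hM0 v hv
    exact lt_min (lt_min (by positivity) h2) (lt_min (by positivity) (by positivity))
  obtain ⟨ρ, hρpos, hρlip, hρT, hρsub⟩ := exists_rho hOm hVd hT0
  have hρT' : ∀ v ∈ V, ρ v ≤ T v := fun v hv => hρT v hv (hVO hv)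
  have I : Ins h Om La V K Φ r ρ :=
    { openOm := hOm
      openLa := hLa
      hh := hh
      sub := hVO
      r_ball := hrball
      germ := hrgerm
      Kh := fun v hv => (hK v hv).1
      conic := fun v hv => (hK v hv).2.1
      Φh := hΦh
      Φout := hΦout
      ρ_pos := hρpos
      ρ_lip := hρlip
      ρ_lt := fun v hv => by
        have h1 := hr v hv
        have h2 : ρ v ≤ r v / 2 := (hρT' v hv).trans ((min_le_left _ _).trans (min_le_left _ _))
        linarith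
      ρ_sub := hρsub }
  refine ⟨h3 h V Φ ρ, I.homeoOn, I.moll hΦm hmoll, fun x hx => ?_, fun x hx hne => ?_⟩
  · by_cases hc : ∃ w ∈ V, ‖x - w‖ < ρ w
    · obtain ⟨v, hv, hxv⟩ := hc
      have h1 := I.sub_le hv (hM v hv) hxv
      have h2 : ρ v ≤ t v := (hρT' v hv).trans ((min_le_left _ _).trans (min_le_right _ _))
      have h3 := htη v hv x (hxv.trans_le h2)
      have h4 : ρ v ≤ η v / (2 * (M v + 1)) :=
        (hρT' v hv).trans ((min_le_right _ _).trans (min_le_right _ _))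
      have h5 := hM0 v hv
      have h6 := hηpos v (hVO hv)
      have h7 : ρ v * M v ≤ η v / 2 := by
        calc ρ v * M v ≤ η v / (2 * (M v + 1)) * (M v + 1) := by
              gcongr
              linarith
          _ = η v / 2 := by field_simp
      linarith
    · rw [Ins.h3_out hc, sub_self, norm_zero]
      exact (hηpos x hx).le
  · by_cases hc : ∃ w ∈ V, ‖x - w‖ < ρ w
    · obtain ⟨v, hv, hxv⟩ := hc
      have h2 : ρ v ≤ t v := (hρT' v hv).trans ((min_le_left _ _).trans (min_le_right _ _))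
      have h3' := htη v hv x (hxv.trans_le h2)
      have h4 : ρ v ≤ η v / 2 := (hρT' v hv).trans ((min_le_right _ _).trans (min_le_left _ _))
      have h6 := hηpos v (hVO hv)
      refine ⟨v, hv, by linarith, by linarith, ?_⟩
      obtain ⟨s, hs, hse⟩ := Metric.eventually_nhds_iff_ball.1 (I.h3_model hv hxv.le)
      refine ⟨s, hs, fun y hy z hz => ?_⟩
      rw [hse y hy, hse z hz]
      exact I.lip_model hv (hΦC v hv) y z
    · exact absurd (Ins.h3_out hc) hne

end Crest.Agent.R096.StV_119
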