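import Crest.Agent.R096.Gp0_702
import Crest.Agent.R096.Ex0_914
import Crest.Agent.R096.GpK1_702

-- ▼ part R096/Exl1_161
section

/-! # R096 (row 96), P2-GEN, (EXIST): the field `con` of `Adapted` follows from `cen` and
`TwoSidedAt` at the apex. -/

set_option autoImplicit false

open Set Metric Topology Filter

namespace Crest.Agent.R096.Exl1_161

open Msh_715 Gp_702

/-- radial projection of a two-sided neighbourhood of the apex onto the boundary -/
theorem con_of_apex {E : Type*} [NormedAddCommGroup E] [NormedSpace ℝ E] [FiniteDimensional ℝ E]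
    {K O S : Set E} (hK : IsCompact K) (hO : IsOpen O) (hKO : closure O = K)
    (hOc : Convex ℝ O) {z : E} (hz : z ∈ O) (hzS : z ∈ S)
    (hcone : ∀ y ∈ K \ O, ∀ t : ℝ, 0 < t → t ≤ 1 → (z + t • (y - z) ∈ S ↔ y ∈ S))
    (h2 : Ax_914.TwoSidedAt S z) :
    ∃ P N : Set E, (K \ O) \ S = P ∪ N ∧ IsPreconnected P ∧ IsPreconnected N := by
  -- the translated body
  set s : Set E := (fun v => z + v) ⁻¹' K with hs
  have hcont : Continuous fun v : E => z + v := continuous_const.add continuous_id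
  have hKc : Convex ℝ K := hKO ▸ hOc.closure
  have hsc : Convex ℝ s := by
    have := hKc.translate_preimage_right z
    exact this
  have hOo : (fun v => z + v) ⁻¹' O ∈ 𝓝 (0 : E) :=
    (hO.preimage hcont).mem_nhds (by simpa using hz)
  have hOK : O ⊆ K := hKO ▸ subset_closure
  have hs0 : s ∈ 𝓝 (0 : E) := mem_of_superset hOo (preimage_mono hOK)
  have hscl : IsClosed s := hK.isClosed.preimage hcont
  have hint : interior s = (fun v => z + v) ⁻¹' O := by
    have h1 : interior s = (fun v => z + v) ⁻¹' interior K :=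
      ((Homeomorph.addLeft z).preimage_interior K).symm
    have h2 : interior K = O := by
      rw [← hKO, hOc.interior_closure_eq_interior_of_nonempty_interior
        (by rw [hO.interior_eq]; exact ⟨z, hz⟩), hO.interior_eq]
    rw [h1, h2]
  have hbdd : Bornology.IsVonNBounded ℝ s := by
    rw [NormedSpace.isVonNBounded_iff]
    obtain ⟨R, hR⟩ := hK.isBounded.exists_norm_le
    refine isBounded_iff_forall_norm_le.2 ⟨R + ‖z‖, fun v hv => ?_⟩
    have h1 := hR _ hv
    have h3 : v = (z + v) - z := by abel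
    calc ‖v‖ = ‖(z + v) - z‖ := by rw [← h3]
      _ ≤ ‖z + v‖ + ‖z‖ := norm_sub_le _ _
      _ ≤ R + ‖z‖ := by linarith
  have habs : Absorbent ℝ s := absorbent_nhds_zero hs0
  have hgc : Continuous (gauge s) := continuous_gauge hsc hs0
  have hgpos : ∀ v : E, v ≠ 0 → 0 < gauge s v := fun v hv => (gauge_pos habs hbdd).2 hv
  have hfr : ∀ v : E, gauge s v = 1 → z + v ∈ K \ O := by
    intro v hv
    have h1 : v ∈ frontier s := (gauge_eq_one_iff_mem_frontier hsc hs0).1 hv
    rw [hscl.frontier_eq, hint] at h1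
    exact h1
  have hfr' : ∀ w ∈ K \ O, gauge s (w - z) = 1 := by
    intro w hw
    refine (gauge_eq_one_iff_mem_frontier hsc hs0).2 ?_
    rw [hscl.frontier_eq, hint]
    refine ⟨?_, ?_⟩
    · show z + (w - z) ∈ K
      rw [add_sub_cancel]; exact hw.1
    · show ¬ z + (w - z) ∈ O
      rw [add_sub_cancel]; exact hw.2
  -- the projection
  let π : E → E := fun p => z + (gauge s (p - z))⁻¹ • (p - z)
  have hπc : ContinuousOn π {z}ᶜ := by
    have h1 : ContinuousOn (fun p : E => (gauge s (p - z))⁻¹) {z}ᶜ :=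
      (hgc.comp (continuous_id.sub continuous_const)).continuousOn.inv₀
        fun p hp => (hgpos _ (sub_ne_zero.2 hp)).ne'
    exact continuousOn_const.add (h1.smul (continuous_id.sub continuous_const).continuousOn)
  have hπK : ∀ p, p ≠ z → π p ∈ K \ O := by
    intro p hp
    apply hfr
    rw [gauge_smul_of_nonneg (inv_nonneg.2 (gauge_nonneg _)), smul_eq_mul,
      inv_mul_cancel₀ (hgpos _ (sub_ne_zero.2 hp)).ne']
  have hπz : ∀ p ∈ O, p ≠ z → ∃ t : ℝ, 0 < t ∧ t ≤ 1 ∧ p = z + t • (π p - z) := by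
    intro p hp hpz
    have h1 := hgpos _ (sub_ne_zero.2 hpz)
    refine ⟨gauge s (p - z), h1, ?_, ?_⟩
    · exact gauge_le_one_of_mem (show z + (p - z) ∈ K by rw [add_sub_cancel]; exact hOK hp)
    · show p = z + gauge s (p - z) • (z + (gauge s (p - z))⁻¹ • (p - z) - z)
      rw [add_sub_cancel_left, smul_smul, mul_inv_cancel₀ h1.ne', one_smul, add_sub_cancel]
  have hπray : ∀ w ∈ K \ O, ∀ t : ℝ, 0 < t → π (z + t • (w - z)) = w := by
    intro w hw t ht
    have h1 : z + t • (w - z) - z = t • (w - z) := add_sub_cancel_left _ _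
    show z + (gauge s (z + t • (w - z) - z))⁻¹ • (z + t • (w - z) - z) = w
    rw [h1, gauge_smul_of_nonneg ht.le, hfr' w hw, smul_eq_mul, mul_one, smul_smul,
      inv_mul_cancel₀ ht.ne', one_smul, add_sub_cancel]
  -- the two sides
  obtain ⟨r, hr, hrO⟩ := Metric.isOpen_iff.1 hO z hz
  obtain ⟨U, P, N, hU, -, -, hzU, hUr, hPc, hNc, -, hUPN, -, -⟩ := h2 r hr
  have hPN : P ∪ N ⊆ O \ S := by
    rw [← hUPN]
    exact fun p hp => ⟨hrO (hUr hp.1), hp.2⟩
  have hne : ∀ p ∈ P ∪ N, p ≠ z := fun p hp h => (hPN hp).2 (h ▸ hzS)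
  have hcon : ContinuousOn π (P ∪ N) := hπc.mono hne
  refine ⟨π '' P, π '' N, ?_, hPc.image _ (hcon.mono subset_union_left),
    hNc.image _ (hcon.mono subset_union_right)⟩
  rw [← image_union]
  apply Subset.antisymm
  · rintro w ⟨hw, hwS⟩
    have h1 : Tendsto (fun t : ℝ => z + t • (w - z)) (𝓝[>] 0) (𝓝 z) := by
      have h3 : Continuous fun t : ℝ => z + t • (w - z) := by fun_prop
      have h4 := h3.tendsto 0
      rw [zero_smul, add_zero] at h4
      exact h4.mono_left nhdsWithin_le_nhds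
    have h5 : ∀ᶠ t in 𝓝[>] (0 : ℝ), t < 1 :=
      (gt_mem_nhds (zero_lt_one' ℝ)).filter_mono nhdsWithin_le_nhds
    obtain ⟨t, ht1, ht2, ht0⟩ := ((h1.eventually (hU.mem_nhds hzU)).and
      (h5.and self_mem_nhdsWithin)).exists
    have ht0' : (0 : ℝ) < t := ht0
    refine ⟨z + t • (w - z), ?_, hπray w hw t ht0'⟩
    rw [← hUPN]
    exact ⟨ht1, fun h => hwS ((hcone w hw t ht0' ht2.le).1 h)⟩
  · rintro _ ⟨p, hp, rfl⟩
    have hpz := hne p hp
    obtain ⟨t, ht0, ht1, ht⟩ := hπz p (hPN hp).1 hpz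
    refine ⟨hπK p hpz, fun h => (hPN hp).2 ?_⟩
    rw [ht]
    exact (hcone _ (hπK p hpz) t ht0 ht1).2 h

variable {ι : Type} {T : Tiling (univ : Set E3) ι} {S : Set E3}

/-- **(con)** is a consequence of (cen) and `TwoSidedAt` -/
theorem con_of_cen (hcen : ∀ x, (T.cc x ∩ S).Nonempty → ∃ z ∈ T.oc x, z ∈ S ∧
    ∀ y ∈ T.cc x \ T.oc x, ∀ t : ℝ, 0 < t → t ≤ 1 → (z + t • (y - z) ∈ S ↔ y ∈ S))
    (hS : ∀ x ∈ S, Ax_914.TwoSidedAt S x) :
    ∀ x ∈ S, T.dim x = 3 → ∃ P N : Set E3, (T.cc x \ T.oc x) \ S = P ∪ N ∧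
      IsPreconnected P ∧ IsPreconnected N := by
  intro x hx hd
  have hV : T.V x = ⊤ := by
    apply Submodule.eq_top_of_finrank_eq
    rw [show Module.finrank ℝ (T.V x) = T.dim x from rfl, hd]
    simp
  obtain ⟨i, hi⟩ := (T.V_eq_top_iff (mem_univ x)).1 hV
  obtain ⟨z, hz, hzS, hcone⟩ := hcen x ⟨x, T.self_mem_cc x, hx⟩
  refine con_of_apex (T.isCompact_cc (mem_univ x)) ?_ (T.closure_oc x) (T.convex_oc x) hz hzS
    hcone (hS z hzS)
  rw [T.oc_eq_tile hi]
  exact isOpen_I _

/-- `Adapted` without the field `con` -/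
theorem adapted_of (cpt : IsCompact S) (vert : ∀ x ∈ S, T.dim x ≠ 0)
    (cen : ∀ x, (T.cc x ∩ S).Nonempty → ∃ z ∈ T.oc x, z ∈ S ∧
      ∀ y ∈ T.cc x \ T.oc x, ∀ t : ℝ, 0 < t → t ≤ 1 → (z + t • (y - z) ∈ S ↔ y ∈ S))
    (two : ∀ x ∈ S, T.dim x = 2 → ((T.cc x \ T.oc x) ∩ S).ncard = 2)
    (hS : ∀ x ∈ S, Ax_914.TwoSidedAt S x) : Adapted T S :=
  ⟨cpt, vert, cen, two, con_of_cen cen hS⟩

end Crest.Agent.R096.Exl1_161
end

-- ▼ part R096/Exl2_161
section

/-! # R096 (row 96), P2-GEN, (EXIST): verification of `cen` and `two` on one cell: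
two rays from the apex; plane without corners; half planes. -/

set_option autoImplicit false

open Set Metric Topology Filter

namespace Crest.Agent.R096.Exl2_161

open Msh_715 Gp_702

variable {ι : Type} {T : Tiling (univ : Set E3) ι} {S : Set E3}

/-- radial decomposition of a cell -/
theorem exists_rad {z y : E3} (hy : y ∈ T.cc z) (hne : y ≠ z) :
    ∃ w ∈ T.cc z \ T.oc z, ∃ t : ℝ, 0 < t ∧ t ≤ 1 ∧ y = z + t • (w - z) := by
  have hv : y - z ∈ T.V z := T.sub_mem_V hy
  obtain ⟨t, ht, h1, h2, -⟩ := T.exists_exit (mem_univ z) hv (sub_ne_zero.2 hne)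
  have h1t : 1 ≤ t := by
    by_contra h
    push Not at h
    apply h2
    have h3 := T.move_mem_oc hy (s := 1 - t) (by linarith) (by linarith)
    have e : y + (1 - t) • (z - y) = z + t • (y - z) := by module
    rwa [e] at h3
  refine ⟨z + t • (y - z), ⟨h1, h2⟩, t⁻¹, by positivity, inv_le_one_of_one_le₀ h1t, ?_⟩
  have e : z + t⁻¹ • (z + t • (y - z) - z) = z + (t⁻¹ * t) • (y - z) := by module
  rw [e, inv_mul_cancel₀ ht.ne']; module

theorem rad_unique {z w w' : E3} (hw : w ∈ T.cc z \ T.oc z) (hw' : w' ∈ T.cc z \ T.oc z)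
    {t t' : ℝ} (ht : 0 < t) (ht' : 0 < t') (h : z + t • (w - z) = z + t' • (w' - z)) :
    w = w' := by
  have key : ∀ {w w' : E3} {t t' : ℝ}, w ∈ T.cc z → w' ∉ T.oc z → 0 < t → 0 < t' → t ≤ t' →
      z + t • (w - z) = z + t' • (w' - z) → w = w' := by
    intro w w' t t' hw hw' ht ht' htt h
    have e1 : t • (w - z) = t' • (w' - z) := add_left_cancel h
    have e2 : w' = z + (t / t') • (w - z) := by
      have : w' - z = (t / t') • (w - z) := by
        rw [div_eq_inv_mul, mul_smul, e1, smul_smul, inv_mul_cancel₀ ht'.ne', one_smul]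
      rw [← this]; abel
    rcases eq_or_lt_of_le htt with e | e
    · rw [e, div_self ht'.ne', one_smul] at e2
      rw [e2]; abel
    · exfalso
      apply hw'
      have h3 : t / t' < 1 := (div_lt_one ht').2 e
      have h4 : 0 < t / t' := by positivity
      have h5 := T.move_mem_oc hw (s := 1 - t / t') (by linarith) (by linarith)
      rw [e2]
      have e3 : z + (t / t') • (w - z) = w + (1 - t / t') • (z - w) := by module
      rw [e3]; exact h5
  rcases le_total t t' with h1 | h1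
  · exact key hw.1 hw'.2 ht ht' h1 h
  · exact (key hw'.1 hw.2 ht' ht h1 h.symm).symm

/-- the boundary points on a ray are unique -/
theorem ray_unique {z u : E3} {s t : ℝ} (hs : 0 ≤ s) (ht : 0 < t)
    (h1 : z + s • u ∈ T.cc z \ T.oc z) (h2 : z + t • u ∈ T.cc z \ T.oc z) : s = t ∨ u = 0 := by
  rcases eq_or_lt_of_le hs with e | e
  · exfalso
    rw [← e, zero_smul, add_zero] at h1
    exact h1.2 (T.self_mem_oc z)
  by_cases hu : u = 0
  · exact Or.inr hu
  left
  have h3 := rad_unique h1 h2 (t := s⁻¹) (t' := t⁻¹) (by positivity) (by positivity) (by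
    rw [add_sub_cancel_left, add_sub_cancel_left, smul_smul, smul_smul,
      inv_mul_cancel₀ e.ne', inv_mul_cancel₀ ht.ne'])
  have h4 : (s - t) • u = 0 := by
    rw [sub_smul, sub_eq_zero]; exact add_left_cancel h3
  rcases smul_eq_zero.1 h4 with h5 | h5
  · linarith
  · exact absurd h5 hu

/-- **two rays**: a cell which meets `S` in two rays from a point of the open cell -/
theorem two_of_rays {x z u₁ u₂ : E3} (hz : z ∈ T.oc x) (h1 : u₁ ∈ T.V x) (h2 : u₂ ∈ T.V x)
    (h10 : u₁ ≠ 0) (h20 : u₂ ≠ 0) (hne : ∀ s : ℝ, 0 < s → u₁ ≠ s • u₂)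
    (hS : ∀ y ∈ T.cc x, y ∈ S ↔ ∃ s : ℝ, 0 ≤ s ∧ (y = z + s • u₁ ∨ y = z + s • u₂)) :
    ((T.cc x \ T.oc x) ∩ S).ncard = 2 := by
  have hc := T.cc_eq_of_mem_oc (mem_univ x) hz
  have ho := T.oc_eq_of_mem (mem_univ x) hz
  have hV := T.V_eq_of_mem_oc (mem_univ x) hz
  rw [← hV] at h1 h2
  rw [← hc] at hS
  rw [← hc, ← ho]
  obtain ⟨t₁, ht₁, a1, a2, -⟩ := T.exists_exit (mem_univ z) h1 h10
  obtain ⟨t₂, ht₂, b1, b2, -⟩ := T.exists_exit (mem_univ z) h2 h20
  have hw : z + t₁ • u₁ ≠ z + t₂ • u₂ := by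
    intro h
    have h3 : t₁ • u₁ = t₂ • u₂ := add_left_cancel h
    refine hne (t₁⁻¹ * t₂) (by positivity) ?_
    rw [mul_smul, ← h3, smul_smul, inv_mul_cancel₀ ht₁.ne', one_smul]
  have e : (T.cc z \ T.oc z) ∩ S = {z + t₁ • u₁, z + t₂ • u₂} := by
    apply Subset.antisymm
    · rintro y ⟨hy, hyS⟩
      obtain ⟨s, hs, rfl | rfl⟩ := (hS y hy.1).1 hyS
      · rcases ray_unique hs ht₁ hy ⟨a1, a2⟩ with h | h
        · left; rw [h]
        · exact absurd h h10
      · rcases ray_unique hs ht₂ hy ⟨b1, b2⟩ with h | h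
        · right; rw [h]; rfl
        · exact absurd h h20
    · rintro y (rfl | rfl)
      · exact ⟨⟨a1, a2⟩, (hS _ a1).2 ⟨t₁, ht₁.le, Or.inl rfl⟩⟩
      · exact ⟨⟨b1, b2⟩, (hS _ b1).2 ⟨t₂, ht₂.le, Or.inr rfl⟩⟩
  rw [e]
  exact Set.ncard_pair hw

/-- **conical from rays**: `S` is a cone with vertex `z` on the cell -/
theorem cen_of_cone {x z : E3} (hz : z ∈ T.oc x) {C : Set E3}
    (hC : ∀ u ∈ C, ∀ s : ℝ, 0 < s → s • u ∈ C)
    (hS : ∀ y ∈ T.cc x, y ∈ S ↔ y - z ∈ C) :
    ∀ y ∈ T.cc x \ T.oc x, ∀ t : ℝ, 0 < t → t ≤ 1 → (z + t • (y - z) ∈ S ↔ y ∈ S) := by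
  intro y hy t ht ht1
  have h1 : z + t • (y - z) ∈ T.cc x :=
    (T.convex_cc x).add_smul_sub_mem (T.oc_sub_cc x hz) hy.1 ⟨ht.le, ht1⟩
  rw [hS _ h1, hS _ hy.1, add_sub_cancel_left]
  constructor
  · intro h
    have := hC _ h t⁻¹ (by positivity)
    rwa [smul_smul, inv_mul_cancel₀ ht.ne', one_smul] at this
  · intro h; exact hC _ h t ht

/-- the open cell contains a point of the plane if no vertex is on the plane -/
theorem exists_apex_plane {x : E3} (φ : E3 →L[ℝ] ℝ) (c : ℝ)
    (hv : ∀ v ∈ T.cc x, T.dim v = 0 → φ v ≠ c) (hne : ∃ y ∈ T.cc x, φ y = c) :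
    ∃ z ∈ T.oc x, φ z = c := by
  -- a cell on one side of the plane has a vertex on the plane
  have key : ∀ (ψ : E3 →L[ℝ] ℝ) (d : ℝ), (∀ v ∈ T.cc x, T.dim v = 0 → ψ v ≠ d) →
      (∃ y ∈ T.cc x, ψ y = d) → ∃ z ∈ T.oc x, ψ z < d := by
    intro ψ d hv hne
    by_contra hcon
    push Not at hcon
    have hcc : ∀ y ∈ T.cc x, d ≤ ψ y := by
      intro y hy
      rw [← T.closure_oc x] at hy
      have : closure (T.oc x) ⊆ {y | d ≤ ψ y} :=
        closure_minimal hcon (isClosed_le continuous_const ψ.continuous)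
      exact this hy
    obtain ⟨y, hy, hyd⟩ := hne
    -- descend to a vertex
    have hdesc : ∀ n : ℕ, ∀ y ∈ T.cc x, T.dim y = n → ψ y = d → False := by
      intro n
      induction n using Nat.strong_induction_on with
      | _ n ih =>
        intro y hy hdy hyd
        rcases Nat.eq_zero_or_pos n with h0 | h0
        · exact hv y hy (hdy.trans h0) hyd
        have hne : T.V y ≠ ⊥ := fun h => by
          have := T.dim_eq_zero_iff.2 h
          omega
        obtain ⟨v, hvm, hv0⟩ := Submodule.exists_mem_ne_zero_of_ne_bot hne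
        -- ψ vanishes on v
        obtain ⟨r, hr, hb⟩ := T.exists_ball_oc (mem_univ y)
        have hvn : 0 < ‖v‖ := norm_pos_iff.2 hv0
        have hsm : ∀ s : ℝ, |s| = r / (2 * ‖v‖) → d ≤ ψ (y + s • v) := by
          intro s hs
          apply hcc
          apply T.cc_sub_of_mem hy
          apply T.oc_sub_cc
          apply hb _ ((T.V y).smul_mem _ hvm)
          rw [norm_smul, Real.norm_eq_abs, hs]
          field_simp
          linarith
        have hpos : 0 < r / (2 * ‖v‖) := by positivity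
        have e1 := hsm (r / (2 * ‖v‖)) (abs_of_pos hpos)
        have e2 := hsm (-(r / (2 * ‖v‖))) (by rw [abs_neg, abs_of_pos hpos])
        rw [map_add, map_smul, hyd, smul_eq_mul] at e1 e2
        have hψv : ψ v = 0 := by
          have h3 : 0 ≤ (r / (2 * ‖v‖)) * ψ v := by linarith
          have h4 : (r / (2 * ‖v‖)) * ψ v ≤ 0 := by linarith
          have h5 : (r / (2 * ‖v‖)) * ψ v = 0 := le_antisymm h4 h3
          exact (mul_eq_zero.1 h5).resolve_left hpos.ne'
        obtain ⟨t, ht, h6, h7, -⟩ := T.exists_exit (mem_univ y) hvm hv0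
        have h8 := T.dim_lt h6 h7
        exact ih _ (hdy ▸ h8) _ (T.cc_sub_of_mem hy h6) rfl (by
          rw [map_add, map_smul, hyd, hψv, smul_zero, add_zero])
    exact hdesc _ y hy rfl hyd
  obtain ⟨z1, hz1, h1⟩ := key φ c hv hne
  obtain ⟨z2, hz2, h2⟩ := key (-φ) (-c) (fun v hv1 hv2 h => hv v hv1 hv2 (by simpa using h))
    (by obtain ⟨y, hy, hyc⟩ := hne; exact ⟨y, hy, by simpa using hyc⟩)
  have h2' : c < φ z2 := by simpa using h2
  have hpre : IsPreconnected (T.oc x) := (T.convex_oc x).isPreconnected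
  obtain ⟨z, hz, hzc⟩ := hpre.intermediate_value hz1 hz2 φ.continuous.continuousOn
    ⟨h1.le, h2'.le⟩
  exact ⟨z, hz, hzc⟩

/-- **(P)** plane without vertices of the cell: `cen` -/
theorem cen_of_plane {x : E3} (φ : E3 →L[ℝ] ℝ) (c : ℝ) (hS : ∀ y ∈ T.cc x, y ∈ S ↔ φ y = c)
    (hv : ∀ v ∈ T.cc x, T.dim v = 0 → v ∉ S) (hne : (T.cc x ∩ S).Nonempty) :
    ∃ z ∈ T.oc x, z ∈ S ∧
      ∀ y ∈ T.cc x \ T.oc x, ∀ t : ℝ, 0 < t → t ≤ 1 → (z + t • (y - z) ∈ S ↔ y ∈ S) := by
  obtain ⟨z, hz, hzc⟩ := exists_apex_plane (T := T) (x := x) φ c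
    (fun v hv1 hv2 h => hv v hv1 hv2 ((hS v hv1).2 h))
    (by obtain ⟨y, hy, hyS⟩ := hne; exact ⟨y, hy, (hS y hy).1 hyS⟩)
  refine ⟨z, hz, (hS z (T.oc_sub_cc x hz)).2 hzc, ?_⟩
  refine cen_of_cone hz (C := {u | φ u = 0}) (fun u hu s hs => ?_) (fun y hy => ?_)
  · show φ (s • u) = 0
    rw [map_smul, show φ u = 0 from hu, smul_zero]
  · rw [hS y hy, mem_ofPred_eq, map_sub, hzc, sub_eq_zero]

/-- **(P)** plane without vertices of the cell: `two` -/
theorem two_of_plane {x : E3} (φ : E3 →L[ℝ] ℝ) (c : ℝ) (hS : ∀ y ∈ T.cc x, y ∈ S ↔ φ y = c)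
    (hv : ∀ v ∈ T.cc x, T.dim v = 0 → v ∉ S) (hne : (T.cc x ∩ S).Nonempty)
    (hd : T.dim x = 2) : ((T.cc x \ T.oc x) ∩ S).ncard = 2 := by
  obtain ⟨z, hz, hzc⟩ := exists_apex_plane (T := T) (x := x) φ c
    (fun v hv1 hv2 h => hv v hv1 hv2 ((hS v hv1).2 h))
    (by obtain ⟨y, hy, hyS⟩ := hne; exact ⟨y, hy, (hS y hy).1 hyS⟩)
  -- the restriction of `φ` to the direction space
  let f : T.V x →ₗ[ℝ] ℝ := φ.toLinearMap.comp (T.V x).subtype
  have hf0 : f ≠ 0 := by
    intro h
    obtain ⟨v, hv1, hv2⟩ := T.exists_vertex (mem_univ x)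
    refine hv v hv1 hv2 ((hS v hv1).2 ?_)
    have h1 : v - z ∈ T.V x := T.sub_mem_V' hv1 (T.oc_sub_cc x hz)
    have h2 : f ⟨v - z, h1⟩ = 0 := by rw [h]; rfl
    have h3 : φ (v - z) = 0 := h2
    rw [map_sub, hzc, sub_eq_zero] at h3
    exact h3
  have hker : Module.finrank ℝ (LinearMap.ker f) = 1 := by
    have h1 := f.finrank_range_add_finrank_ker
    have h2 : Module.finrank ℝ (LinearMap.range f) = 1 := by
      rw [LinearMap.range_eq_top.2 (LinearMap.surjective hf0)]
      simp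
    have h3 : Module.finrank ℝ (T.V x) = 2 := hd
    omega
  obtain ⟨u, hu0, hu⟩ := finrank_eq_one_iff'.1 hker
  have huV : (u : T.V x).1 ∈ T.V x := (u : T.V x).2
  have hu0' : ((u : T.V x) : E3) ≠ 0 := by
    intro h
    apply hu0
    ext1; ext1; exact h
  have hφu : φ ((u : T.V x) : E3) = 0 := u.2
  refine two_of_rays (u₁ := ((u : T.V x) : E3)) (u₂ := -((u : T.V x) : E3)) hz huV
    ((T.V x).neg_mem huV) hu0' (neg_ne_zero.2 hu0') (fun s hs h => hu0' ?_) (fun y hy => ?_)
  · have h1 : (1 + s) • ((u : T.V x) : E3) = 0 := by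
      rw [add_smul, one_smul]
      nth_rewrite 1 [h]
      rw [smul_neg]; abel
    exact (smul_eq_zero.1 h1).resolve_left (by linarith)
  · rw [hS y hy]
    constructor
    · intro h
      have h1 : y - z ∈ T.V x := T.sub_mem_V' hy (T.oc_sub_cc x hz)
      have h2 : (⟨y - z, h1⟩ : T.V x) ∈ LinearMap.ker f := by
        show φ (y - z) = 0
        rw [map_sub, h, hzc, sub_self]
      obtain ⟨a, ha⟩ := hu ⟨_, h2⟩
      have h3 : y - z = a • ((u : T.V x) : E3) := by
        have := congrArg (fun w : LinearMap.ker f => ((w : T.V x) : E3)) ha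
        exact this.symm
      rcases le_total 0 a with h4 | h4
      · exact ⟨a, h4, Or.inl (by rw [← h3]; abel)⟩
      · refine ⟨-a, by linarith, Or.inr ?_⟩
        rw [smul_neg, neg_smul, neg_neg, ← h3]; abel
    · rintro ⟨s, -, rfl | rfl⟩
      · rw [map_add, map_smul, hφu, hzc, smul_zero, add_zero]
      · rw [map_add, map_smul, map_neg, hφu, hzc, neg_zero, smul_zero, add_zero]

end Crest.Agent.R096.Exl2_161
end

-- ▼ part R096/Til1_324
section

/-!
# R096 (row 96), P2-GEN (X45), part 1 (helper324): tilings by integer boxes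

`boxTiling B` : the tiling of `Fin 3 → ℝ` by a locally finite family of integer boxes with disjoint
interiors; `bxs` : all its cells are integer boxes.
-/

set_option autoImplicit false

open Set Metric Topology

namespace Crest.Agent.R096.Til_324

open Msh_715 Gp_702 Ex_914

/-- the half spaces of a box -/
noncomputable def HB (b : Bx) : Finset ((E3 →L[ℝ] ℝ) × ℝ) := by
  classical
  exact (Finset.univ.image fun j : Fin 3 =>
      ((ContinuousLinearMap.proj j : E3 →L[ℝ] ℝ), (b.2 j : ℝ))) ∪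
    (Finset.univ.image fun j : Fin 3 =>
      (-(ContinuousLinearMap.proj j : E3 →L[ℝ] ℝ), -(b.1 j : ℝ)))

theorem forall_HB {b : Bx} {Q : (E3 →L[ℝ] ℝ) × ℝ → Prop} :
    (∀ p ∈ HB b, Q p) ↔ ∀ j : Fin 3, Q (ContinuousLinearMap.proj j, (b.2 j : ℝ)) ∧
      Q (-ContinuousLinearMap.proj j, -(b.1 j : ℝ)) := by
  classical
  constructor
  · intro h j
    refine ⟨h _ ?_, h _ ?_⟩
    · unfold HB
      exact Finset.mem_union_left _ (Finset.mem_image_of_mem _ (Finset.mem_univ j))
    · unfold HB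
      exact Finset.mem_union_right _ (Finset.mem_image_of_mem _ (Finset.mem_univ j))
  · intro h p hp
    unfold HB at hp
    rcases Finset.mem_union.1 hp with hp | hp
    · obtain ⟨j, -, rfl⟩ := Finset.mem_image.1 hp
      exact (h j).1
    · obtain ⟨j, -, rfl⟩ := Finset.mem_image.1 hp
      exact (h j).2

theorem P_HB (b : Bx) : P (HB b) = zcl b.1 b.2 := by
  ext x
  show (∀ p ∈ HB b, p.1 x ≤ p.2) ↔ _
  rw [forall_HB (Q := fun p => p.1 x ≤ p.2)]
  refine forall_congr' fun j => ?_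
  show (x j ≤ (b.2 j : ℝ) ∧ -x j ≤ -(b.1 j : ℝ)) ↔ _
  rw [neg_le_neg_iff, and_comm]

theorem mem_I_HB {b : Bx} {x : E3} : x ∈ I (HB b) ↔ ∀ j, (b.1 j : ℝ) < x j ∧ x j < (b.2 j : ℝ) := by
  show (∀ p ∈ HB b, p.1 x < p.2) ↔ _
  rw [forall_HB (Q := fun p => p.1 x < p.2)]
  refine forall_congr' fun j => ?_
  show (x j < (b.2 j : ℝ) ∧ -x j < -(b.1 j : ℝ)) ↔ _
  rw [neg_lt_neg_iff, and_comm]

theorem isCompact_zcl (l h : Fin 3 → ℤ) : IsCompact (zcl l h) := by
  have : zcl l h = Icc (fun j => (l j : ℝ)) (fun j => (h j : ℝ)) := by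
    ext x
    exact ⟨fun hx => ⟨fun j => (hx j).1, fun j => (hx j).2⟩, fun hx j => ⟨hx.1 j, hx.2 j⟩⟩
  rw [this]
  exact isCompact_Icc

/-- locally finite families of integer boxes with disjoint interiors -/
structure Fam (B : Set Bx) : Prop where
  nd : ∀ b ∈ B, ∀ j, b.1 j < b.2 j
  dis : ∀ b ∈ B, ∀ b' ∈ B, b ≠ b' → ∃ j, b.2 j ≤ b'.1 j ∨ b'.2 j ≤ b.1 j
  cov : ∀ x : E3, ∃ b ∈ B, x ∈ zcl b.1 b.2
  lf : ∀ x : E3, ∃ r > 0, {b | b ∈ B ∧ (zcl b.1 b.2 ∩ ball x r).Nonempty}.Finite

/-- the tiling -/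
noncomputable def boxTiling {B : Set Bx} (h : Fam B) : Tiling (univ : Set E3) B where
  H := fun b => HB b.1
  cpt := fun b => by rw [P_HB]; exact isCompact_zcl _ _
  ne := fun b => by
    refine ⟨fun j => ((b.1.1 j : ℝ) + b.1.2 j) / 2, mem_I_HB.2 fun j => ?_⟩
    have h1 : (b.1.1 j : ℝ) < b.1.2 j := by exact_mod_cast h.nd b.1 b.2 j
    constructor <;> linarith
  sub := fun b => subset_univ _
  cov := fun x _ => by
    obtain ⟨b, hb, hx⟩ := h.cov x
    exact ⟨⟨b, hb⟩, by rw [P_HB]; exact hx⟩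
  dis := fun b b' hne => by
    rw [Set.disjoint_left]
    intro x hx hx'
    rw [mem_I_HB] at hx hx'
    obtain ⟨j, hj⟩ := h.dis b.1 b.2 b'.1 b'.2 fun e => hne (Subtype.ext e)
    rcases hj with hj | hj
    · have h1 : (b.1.2 j : ℝ) ≤ b'.1.1 j := by exact_mod_cast hj
      linarith [(hx j).2, (hx' j).1]
    · have h1 : (b'.1.2 j : ℝ) ≤ b.1.1 j := by exact_mod_cast hj
      linarith [(hx j).1, (hx' j).2]
  lf := fun x _ => by
    obtain ⟨r, hr, hf⟩ := h.lf x
    refine ⟨r, hr, ?_⟩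
    refine (hf.preimage (f := (Subtype.val : B → Bx)) Subtype.val_injective.injOn).subset ?_
    intro b hb
    have hb' : (P (HB b.1) ∩ ball x r).Nonempty := hb
    rw [P_HB] at hb'
    exact ⟨b.2, hb'⟩
  op := isOpen_univ

section

variable {B : Set Bx} (h : Fam B)

theorem mem_at' {x : E3} {b : B} : b ∈ (boxTiling h).at_ x ↔ x ∈ zcl b.1.1 b.1.2 := by
  show x ∈ P (HB b.1) ↔ _
  rw [P_HB]

theorem mem_cc' {x y : E3} : y ∈ (boxTiling h).cc x ↔ ∀ b ∈ (boxTiling h).at_ x, ∀ j,
    (y j ≤ (b.1.2 j : ℝ) ∧ (x j = (b.1.2 j : ℝ) → y j = (b.1.2 j : ℝ))) ∧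
    ((b.1.1 j : ℝ) ≤ y j ∧ (x j = (b.1.1 j : ℝ) → y j = (b.1.1 j : ℝ))) := by
  show (∀ b ∈ (boxTiling h).at_ x, ∀ p ∈ HB b.1, p.1 y ≤ p.2 ∧ (p.1 x = p.2 → p.1 y = p.2)) ↔ _
  refine forall_congr' fun b => forall_congr' fun _ => ?_
  rw [forall_HB (Q := fun p => p.1 y ≤ p.2 ∧ (p.1 x = p.2 → p.1 y = p.2))]
  refine forall_congr' fun j => ?_
  show ((y j ≤ (b.1.2 j : ℝ) ∧ (x j = (b.1.2 j : ℝ) → y j = (b.1.2 j : ℝ))) ∧
    (-y j ≤ -(b.1.1 j : ℝ) ∧ (-x j = -(b.1.1 j : ℝ) → -y j = -(b.1.1 j : ℝ)))) ↔ _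
  rw [neg_le_neg_iff, neg_inj, neg_inj]

theorem mem_oc' {x y : E3} : y ∈ (boxTiling h).oc x ↔ ∀ b ∈ (boxTiling h).at_ x, ∀ j,
    (y j ≤ (b.1.2 j : ℝ) ∧ (y j = (b.1.2 j : ℝ) ↔ x j = (b.1.2 j : ℝ))) ∧
    ((b.1.1 j : ℝ) ≤ y j ∧ (y j = (b.1.1 j : ℝ) ↔ x j = (b.1.1 j : ℝ))) := by
  show (∀ b ∈ (boxTiling h).at_ x, ∀ p ∈ HB b.1, p.1 y ≤ p.2 ∧ (p.1 y = p.2 ↔ p.1 x = p.2)) ↔ _
  refine forall_congr' fun b => forall_congr' fun _ => ?_
  rw [forall_HB (Q := fun p => p.1 y ≤ p.2 ∧ (p.1 y = p.2 ↔ p.1 x = p.2))]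
  refine forall_congr' fun j => ?_
  show ((y j ≤ (b.1.2 j : ℝ) ∧ (y j = (b.1.2 j : ℝ) ↔ x j = (b.1.2 j : ℝ))) ∧
    (-y j ≤ -(b.1.1 j : ℝ) ∧ (-y j = -(b.1.1 j : ℝ) ↔ -x j = -(b.1.1 j : ℝ)))) ↔ _
  rw [neg_le_neg_iff, neg_inj, neg_inj]

/-- **all cells are integer boxes** -/
theorem bxs : Bxs (boxTiling h) := by
  classical
  intro x
  have hA := (boxTiling h).at_finite (mem_univ x)
  have hne := (boxTiling h).at_nonempty (mem_univ x)
  have h1 : ∀ j : Fin 3, ∃ b ∈ (boxTiling h).at_ x, ∀ b' ∈ (boxTiling h).at_ x,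
      b'.1.1 j ≤ b.1.1 j := fun j => Set.exists_max_image _ (fun b : B => b.1.1 j) hA hne
  have h2 : ∀ j : Fin 3, ∃ b ∈ (boxTiling h).at_ x, ∀ b' ∈ (boxTiling h).at_ x,
      b.1.2 j ≤ b'.1.2 j := fun j => Set.exists_min_image _ (fun b : B => b.1.2 j) hA hne
  choose bm hbm hbm' using h1
  choose bn hbn hbn' using h2
  have hxm : ∀ j, ((bm j).1.1 j : ℝ) ≤ x j := fun j => ((mem_at' h).1 (hbm j) j).1
  have hxn : ∀ j, x j ≤ ((bn j).1.2 j : ℝ) := fun j => ((mem_at' h).1 (hbn j) j).2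
  -- the two corners
  let l : Fin 3 → ℤ := fun j => if x j = ((bm j).1.1 j : ℝ) then (bm j).1.1 j else
    if x j = ((bn j).1.2 j : ℝ) then (bn j).1.2 j else (bm j).1.1 j
  let u : Fin 3 → ℤ := fun j => if x j = ((bm j).1.1 j : ℝ) then (bm j).1.1 j else
    if x j = ((bn j).1.2 j : ℝ) then (bn j).1.2 j else (bn j).1.2 j
  -- three cases in every direction
  have hcase : ∀ j, (l j = u j ∧ x j = (l j : ℝ)) ∨
      (l j = (bm j).1.1 j ∧ u j = (bn j).1.2 j ∧ ((bm j).1.1 j : ℝ) < x j ∧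
        x j < ((bn j).1.2 j : ℝ)) := by
    intro j
    by_cases e1 : x j = ((bm j).1.1 j : ℝ)
    · left
      refine ⟨by simp only [l, u, if_pos e1], ?_⟩
      simp only [l, if_pos e1]
      exact e1
    · by_cases e2 : x j = ((bn j).1.2 j : ℝ)
      · left
        refine ⟨by simp only [l, u, if_neg e1, if_pos e2], ?_⟩
        simp only [l, if_neg e1, if_pos e2]
        exact e2
      · right
        exact ⟨by simp only [l, if_neg e1, if_neg e2], by simp only [u, if_neg e1, if_neg e2],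
          lt_of_le_of_ne (hxm j) (Ne.symm e1), lt_of_le_of_ne (hxn j) e2⟩
  -- in the first case every point of the closed cell has the coordinate of `x`
  have hfix : ∀ j, l j = u j → x j = (l j : ℝ) → ∃ b ∈ (boxTiling h).at_ x,
      x j = (b.1.1 j : ℝ) ∨ x j = (b.1.2 j : ℝ) := by
    intro j e e'
    by_cases e1 : x j = ((bm j).1.1 j : ℝ)
    · exact ⟨bm j, hbm j, Or.inl e1⟩
    · by_cases e2 : x j = ((bn j).1.2 j : ℝ)
      · exact ⟨bn j, hbn j, Or.inr e2⟩
      · exfalso
        simp only [l, u, if_neg e1, if_neg e2] at e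
        have h3 := lt_of_le_of_ne (hxm j) (Ne.symm e1)
        have h4 := lt_of_le_of_ne (hxn j) e2
        rw [e] at h3
        linarith
  refine ⟨l, u, ?_, ?_, ?_⟩
  · intro j
    rcases hcase j with ⟨e, -⟩ | ⟨e1, e2, e3, e4⟩
    · exact e.le
    · rw [e1, e2]
      have : ((bm j).1.1 j : ℝ) < ((bn j).1.2 j : ℝ) := e3.trans e4
      exact_mod_cast this.le
  · ext y
    rw [mem_cc']
    constructor
    · intro hy j
      rcases hcase j with ⟨e, e'⟩ | ⟨e1, e2, e3, e4⟩
      · obtain ⟨b, hb, hxb⟩ := hfix j e e'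
        have hyj : y j = (l j : ℝ) := by
          rcases hxb with hxb | hxb
          · rw [(hy b hb j).2.2 hxb, ← hxb, e']
          · rw [(hy b hb j).1.2 hxb, ← hxb, e']
        exact ⟨hyj.ge, by rw [← e]; exact hyj.le⟩
      · rw [e1, e2]
        exact ⟨(hy (bm j) (hbm j) j).2.1, (hy (bn j) (hbn j) j).1.1⟩
    · intro hy b hb j
      have hb' := (mem_at' h).1 hb j
      rcases hcase j with ⟨e, e'⟩ | ⟨e1, e2, e3, e4⟩
      · have hyj : y j = x j := by
          have := hy j
          rw [← e, ← e'] at this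
          exact le_antisymm this.2 this.1
        rw [hyj]
        exact ⟨⟨hb'.2, fun t => t⟩, hb'.1, fun t => t⟩
      · have hyj := hy j
        rw [e1, e2] at hyj
        have h5 : (b.1.1 j : ℝ) ≤ (bm j).1.1 j := by exact_mod_cast hbm' j b hb
        have h6 : ((bn j).1.2 j : ℝ) ≤ b.1.2 j := by exact_mod_cast hbn' j b hb
        refine ⟨⟨hyj.2.trans h6, fun t => ?_⟩, h5.trans hyj.1, fun t => ?_⟩
        · linarith
        · linarith
  · ext y
    rw [mem_oc']
    constructor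
    · intro hy j
      rcases hcase j with ⟨e, e'⟩ | ⟨e1, e2, e3, e4⟩
      · left
        obtain ⟨b, hb, hxb⟩ := hfix j e e'
        refine ⟨e, ?_⟩
        rcases hxb with hxb | hxb
        · rw [(hy b hb j).2.2.2 hxb, ← hxb, e']
        · rw [(hy b hb j).1.2.2 hxb, ← hxb, e']
      · right
        rw [e1, e2]
        refine ⟨lt_of_le_of_ne (hy (bm j) (hbm j) j).2.1 fun t => ?_,
          lt_of_le_of_ne (hy (bn j) (hbn j) j).1.1 fun t => ?_⟩
        · exact e3.ne' ((hy (bm j) (hbm j) j).2.2.1 t.symm)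
        · exact e4.ne ((hy (bn j) (hbn j) j).1.2.1 t)
    · intro hy b hb j
      have hb' := (mem_at' h).1 hb j
      rcases hcase j with ⟨e, e'⟩ | ⟨e1, e2, e3, e4⟩
      · have hyj : y j = x j := by
          rcases hy j with ⟨-, t⟩ | ⟨t1, t2⟩
          · rw [t, e']
          · rw [← e] at t2
            linarith
        rw [hyj]
        exact ⟨⟨hb'.2, Iff.rfl⟩, hb'.1, Iff.rfl⟩
      · have hyj : ((bm j).1.1 j : ℝ) < y j ∧ y j < ((bn j).1.2 j : ℝ) := by
          rcases hy j with ⟨t, -⟩ | t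
          · rw [e1, e2] at t
            rw [t] at e3
            linarith
          · rwa [e1, e2] at t
        have h5 : (b.1.1 j : ℝ) ≤ (bm j).1.1 j := by exact_mod_cast hbm' j b hb
        have h6 : ((bn j).1.2 j : ℝ) ≤ b.1.2 j := by exact_mod_cast hbn' j b hb
        refine ⟨⟨by linarith [hyj.2], ?_⟩, by linarith [hyj.1], ?_⟩
        · constructor
          · intro t; linarith [hyj.2]
          · intro t; linarith
        · constructor
          · intro t; linarith [hyj.1]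
          · intro t; linarith

end

end Crest.Agent.R096.Til_324
end

-- ▼ part R096/Til2_324

/-!
# R096 (row 96), P2-GEN (X45), part 2 (helper324): the tiling of the macros is adapted

`til : RayStmt → TilStmt`.
-/

set_option autoImplicit false

open Set Metric Topology

namespace Crest.Agent.R096.Til_324

open Msh_715 Gp_702 Ex_914

/-- the macros and all unit cubes which are not contained in a macro -/
def fam (M : Finset Bx) : Set Bx :=
  {b | b ∈ M ∨ ((b.2 = fun j => b.1 j + 1) ∧ ∀ c ∈ M, ¬ Sub1 b.1 c)}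

theorem fam_fam {M : Finset Bx} (nd : ∀ b ∈ M, ∀ j, b.1 j < b.2 j)
    (dis : ∀ b ∈ M, ∀ b' ∈ M, b ≠ b' → ∃ j, b.2 j ≤ b'.1 j ∨ b'.2 j ≤ b.1 j) : Fam (fam M) where
  nd := by
    rintro b (hb | ⟨hb, -⟩) j
    · exact nd b hb j
    · rw [hb]; simp
  dis := by
    have key : ∀ b c : Bx, (b.2 = fun j => b.1 j + 1) → ¬ Sub1 b.1 c →
        ∃ j, b.2 j ≤ c.1 j ∨ c.2 j ≤ b.1 j := by
      intro b c hb hbc
      unfold Sub1 at hbc
      push Not at hbc
      obtain ⟨j, hj⟩ := hbc
      refine ⟨j, ?_⟩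
      rw [hb]
      by_cases h1 : c.1 j ≤ b.1 j
      · right
        have := hj h1
        omega
      · left
        show b.1 j + 1 ≤ c.1 j
        omega
    rintro b (hb | ⟨hb, hb'⟩) c (hc | ⟨hc, hc'⟩) hne
    · exact dis b hb c hc hne
    · obtain ⟨j, hj⟩ := key c b hc (hc' b hb)
      exact ⟨j, hj.symm⟩
    · exact key b c hb (hb' c hc)
    · have h1 : b.1 ≠ c.1 := by
        intro h
        apply hne
        refine Prod.ext h ?_
        rw [hb, hc, h]
      obtain ⟨j, hj⟩ := Function.ne_iff.1 h1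
      refine ⟨j, ?_⟩
      rw [hb, hc]
      show b.1 j + 1 ≤ c.1 j ∨ c.1 j + 1 ≤ b.1 j
      omega
  cov := by
    intro x
    by_cases h : ∃ c ∈ M, Sub1 (fun j => ⌊x j⌋) c
    · obtain ⟨c, hc, hs⟩ := h
      refine ⟨c, Or.inl hc, fun j => ?_⟩
      have h1 := (hs j).1
      have h2 := (hs j).2
      constructor
      · have : (c.1 j : ℝ) ≤ ⌊x j⌋ := by exact_mod_cast h1
        exact this.trans (Int.floor_le _)
      · have : ((⌊x j⌋ + 1 : ℤ) : ℝ) ≤ c.2 j := by exact_mod_cast h2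
        push_cast at this
        exact (Int.lt_floor_add_one (x j)).le.trans this
    · push Not at h
      refine ⟨(fun j => ⌊x j⌋, fun j => ⌊x j⌋ + 1), Or.inr ⟨rfl, h⟩, fun j => ⟨Int.floor_le _, ?_⟩⟩
      have := (Int.lt_floor_add_one (x j)).le
      push_cast
      exact this
  lf := by
    intro x
    refine ⟨1, one_pos, ?_⟩
    refine (M.finite_toSet.union ((Set.finite_Icc (fun j => ⌊x j⌋ - 2)
      (fun j => ⌊x j⌋ + 2)).image (fun l : Fin 3 → ℤ => ((l, fun j => l j + 1) : Bx)))).subset ?_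
    rintro b ⟨hb | ⟨hb, -⟩, y, hy, hyx⟩
    · exact Or.inl hb
    · right
      refine ⟨b.1, ⟨fun j => ?_, fun j => ?_⟩, Prod.ext rfl hb.symm⟩
      · show ⌊x j⌋ - 2 ≤ b.1 j
        have h1 : |y j - x j| < 1 := by
          rw [mem_ball, dist_eq_norm] at hyx
          exact (norm_le_pi_norm (y - x) j).trans_lt hyx
        have h2 := (hy j).2
        rw [hb] at h2
        push_cast at h2
        have h3 := Int.floor_le (x j)
        have h4 := (abs_lt.1 h1).1
        have h5 : ((⌊x j⌋ - 2 : ℤ) : ℝ) ≤ b.1 j := by push_cast; linarith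
        exact_mod_cast h5
      · show b.1 j ≤ ⌊x j⌋ + 2
        have h1 : |y j - x j| < 1 := by
          rw [mem_ball, dist_eq_norm] at hyx
          exact (norm_le_pi_norm (y - x) j).trans_lt hyx
        have h2 := (hy j).1
        have h3 := Int.lt_floor_add_one (x j)
        have h4 := (abs_lt.1 h1).2
        have h5 : (b.1 j : ℝ) ≤ ((⌊x j⌋ + 2 : ℤ) : ℝ) := by push_cast; linarith
        exact_mod_cast h5

theorem continuous_ev (f : Af) : Continuous (ev f) := f.1.continuous.add continuous_const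

/-- points off all planes are not in `S` -/
theorem rank0 {F : Finset Af} {S : Set E3} (hD : Det F S)
    (hT : ∀ x ∈ S, Ax_914.TwoSidedAt S x) {x : E3} (hx : ∀ f ∈ F, ev f x ≠ 0) : x ∉ S := by
  intro hxS
  have hev : ∀ f ∈ F, ∀ᶠ y in 𝓝 x, SignType.sign (ev f x) = SignType.sign (ev f y) := by
    intro f hf
    rcases lt_or_gt_of_ne (hx f hf) with h | h
    · have := (continuous_ev f).continuousAt.eventually (gt_mem_nhds h)
      filter_upwards [this] with y hy
      rw [sign_neg h, sign_neg hy]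
    · have := (continuous_ev f).continuousAt.eventually (lt_mem_nhds h)
      filter_upwards [this] with y hy
      rw [sign_pos h, sign_pos hy]
  have h1 := (Filter.eventually_all_finset F).2 hev
  obtain ⟨U, hUs, hUo, hxU⟩ := _root_.mem_nhds_iff.1 h1
  exact not_open_of_twoSided (hT x hxS) hUo hxU fun y hy => hD x y (hUs hy) hxS

/-- a function without zero on a convex set has constant sign there -/
theorem sign_const {C : Set E3} (hC : Convex ℝ C) {f : Af} (hf : ¬ ∃ y ∈ C, ev f y = 0) {x y : E3}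
    (hx : x ∈ C) (hy : y ∈ C) : SignType.sign (ev f x) = SignType.sign (ev f y) := by
  by_contra hne
  have h0 : ∀ y ∈ C, ev f y ≠ 0 := fun y hy h => hf ⟨y, hy, h⟩
  have hpc : IsPreconnected C := hC.isPreconnected
  have hx0 := h0 x hx
  have hy0 := h0 y hy
  rcases lt_or_gt_of_ne hx0 with h1 | h1 <;> rcases lt_or_gt_of_ne hy0 with h2 | h2
  · exact hne (by rw [sign_neg h1, sign_neg h2])
  · obtain ⟨w, hw, hw0⟩ := hpc.intermediate_value hx hy (continuous_ev f).continuousOn
      ⟨h1.le, h2.le⟩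
    exact h0 w hw hw0
  · obtain ⟨w, hw, hw0⟩ := hpc.intermediate_value hy hx (continuous_ev f).continuousOn
      ⟨h2.le, h1.le⟩
    exact h0 w hw hw0
  · exact hne (by rw [sign_pos h1, sign_pos h2])

theorem ev_cone (f : Af) (z y : E3) (t : ℝ) :
    ev f (z + t • (y - z)) = (1 - t) * ev f z + t * ev f y := by
  simp only [ev, map_add, map_smul, map_sub, smul_eq_mul]; ring

/-- the cone property from a common zero -/
theorem cone_of {F : Finset Af} {S C : Set E3} (hD : Det F S) (hC : Convex ℝ C) {z : E3}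
    (hz : z ∈ C) (hzF : ∀ f ∈ F, (∃ y ∈ C, ev f y = 0) → ev f z = 0) {y : E3} (hy : y ∈ C) {t : ℝ}
    (ht : 0 < t) (ht1 : t ≤ 1) : (z + t • (y - z) ∈ S ↔ y ∈ S) := by
  have hs : ∀ f ∈ F, SignType.sign (ev f (z + t • (y - z))) = SignType.sign (ev f y) := by
    intro f hf
    by_cases h : ∃ y ∈ C, ev f y = 0
    · rw [ev_cone, hzF f hf h, mul_zero, zero_add, sign_mul, sign_pos ht, one_mul]
    · exact sign_const hC h (hC.add_smul_sub_mem hz hy ⟨ht.le, ht1⟩) hy
  exact ⟨fun h => hD _ _ hs h, fun h => hD _ _ (fun f hf => (hs f hf).symm) h⟩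

/-- the common zero is in `S` -/
theorem zero_mem {F : Finset Af} {S C : Set E3} (hD : Det F S) (hSc : IsClosed S)
    (hC : Convex ℝ C) {z : E3} (hz : z ∈ C) (hzF : ∀ f ∈ F, (∃ y ∈ C, ev f y = 0) → ev f z = 0)
    (hne : (C ∩ S).Nonempty) : z ∈ S := by
  obtain ⟨y, hyC, hyS⟩ := hne
  have h1 : ∀ t : ℝ, 0 < t → t ≤ 1 → z + t • (y - z) ∈ S := fun t ht ht1 =>
    (cone_of hD hC hz hzF hyC ht ht1).2 hyS
  have hc : Filter.Tendsto (fun t : ℝ => z + t • (y - z)) (𝓝[>] 0) (𝓝 z) := by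
    have : Filter.Tendsto (fun t : ℝ => z + t • (y - z)) (𝓝 0) (𝓝 (z + (0 : ℝ) • (y - z))) := by
      apply Continuous.tendsto
      fun_prop
    rw [zero_smul, add_zero] at this
    exact this.mono_left nhdsWithin_le_nhds
  refine hSc.mem_of_tendsto hc ?_
  have h2 : ∀ᶠ t : ℝ in 𝓝[>] 0, t < 1 :=
    (gt_mem_nhds (zero_lt_one' ℝ)).filter_mono nhdsWithin_le_nhds
  filter_upwards [h2, self_mem_nhdsWithin] with t ht ht0
  exact h1 t ht0 ht.le

section

variable {F : Finset Af} {M : Finset Bx} {K : ℝ} {S : Set E3}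

/-- the three kinds of cells that meet `S` -/
theorem kinds (hM : Mac F M K) (hK : ∀ x ∈ S, ∀ j, |x j| ≤ K - 1) {x : E3}
    (hx : ((boxTiling (fam_fam hM.nd hM.dis)).cc x ∩ S).Nonempty) :
    -- a cell of a unit cube
    (∀ f ∈ F, ∀ g ∈ F, (∃ y ∈ (boxTiling (fam_fam hM.nd hM.dis)).cc x, ev f y = 0) →
      (∃ y ∈ (boxTiling (fam_fam hM.nd hM.dis)).cc x, ev g y = 0) →
      ∃ c : ℝ, c ≠ 0 ∧ g.1 = c • f.1 ∧ g.2 = c * f.2) ∨
    -- the interior of a macro
    ((∃ i, x ∈ I ((boxTiling (fam_fam hM.nd hM.dis)).H i)) ∧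
      ∃ z ∈ (boxTiling (fam_fam hM.nd hM.dis)).oc x,
      ∀ f ∈ F, (∃ y ∈ (boxTiling (fam_fam hM.nd hM.dis)).cc x, ev f y = 0) → ev f z = 0) ∨
    -- the common face of two macros
    (∃ j, ∃ z d : E3, z ∈ (boxTiling (fam_fam hM.nd hM.dis)).oc x ∧ d j ≠ 0 ∧
      (∀ y ∈ (boxTiling (fam_fam hM.nd hM.dis)).cc x, y j = z j) ∧
      ∀ f ∈ F, (∃ y ∈ (boxTiling (fam_fam hM.nd hM.dis)).cc x, ev f y = 0) →
        ev f z = 0 ∧ f.1 d = 0) := by
  classical
  set hF := fam_fam hM.nd hM.dis with hFdef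
  set T := boxTiling hF with hT
  obtain ⟨y0, hy0, hy0S⟩ := hx
  by_cases hu : ∃ i ∈ T.at_ x, i.1 ∉ M
  · -- a unit cube
    left
    obtain ⟨i, hi, hiM⟩ := hu
    rcases i.2 with hb | ⟨hb, hb'⟩
    · exact absurd hb hiM
    have hsub : T.cc x ⊆ zcl i.1.1 (fun j => i.1.1 j + 1) := by
      have h1 := T.cc_sub_tile hi
      have h2 : P (T.H i) = zcl i.1.1 i.1.2 := P_HB i.1
      rw [h2, hb] at h1
      exact h1
    have hl : ∀ j, |(i.1.1 j : ℝ)| ≤ K := by
      intro j
      have h1 := hsub hy0 j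
      have h2 := abs_le.1 (hK y0 hy0S j)
      push_cast at h1
      rw [abs_le]
      constructor <;> linarith [h1.1, h1.2, h2.1, h2.2]
    intro f hf g hg ⟨y, hy, hyf⟩ ⟨y', hy', hyg⟩
    exact hM.small i.1.1 hb' hl f hf g hg ⟨y, hsub hy, hyf⟩ ⟨y', hsub hy', hyg⟩
  · push Not at hu
    right
    -- every tile at `x` is a macro
    obtain ⟨b, hb⟩ := T.at_nonempty (mem_univ x)
    have hbM := hu b hb
    have hxb : x ∈ zcl b.1.1 b.1.2 := (mem_at' hF).1 hb
    obtain ⟨r, hr, -, hball⟩ := T.exists_ball (mem_univ x)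
    by_cases h1 : ∀ b' ∈ T.at_ x, b' = b
    · -- only one macro
      left
      have hin : ∀ j, x j ≠ (b.1.1 j : ℝ) ∧ x j ≠ (b.1.2 j : ℝ) := by
        intro j
        constructor
        · intro e
          -- move down a little
          have hy : Function.update x j (x j - r / 2) ∈ ball x r := by
            rw [mem_ball, dist_pi_lt_iff hr]
            intro k
            by_cases hk : k = j
            · subst hk
              rw [Function.update_self, Real.dist_eq]
              rw [show x k - r / 2 - x k = -(r / 2) by ring, abs_neg, abs_of_pos (by linarith)]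
              linarith
            · rw [Function.update_of_ne hk, dist_self]; exact hr
          obtain ⟨i, hi⟩ := T.cov _ (mem_univ (Function.update x j (x j - r / 2)))
          have hib := h1 i (hball _ hy hi)
          subst hib
          have h2 := ((mem_at' hF).1 hi j).1
          rw [Function.update_self, e] at h2
          linarith
        · intro e
          have hy : Function.update x j (x j + r / 2) ∈ ball x r := by
            rw [mem_ball, dist_pi_lt_iff hr]
            intro k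
            by_cases hk : k = j
            · subst hk
              rw [Function.update_self, Real.dist_eq]
              rw [show x k + r / 2 - x k = r / 2 by ring, abs_of_pos (by linarith)]
              linarith
            · rw [Function.update_of_ne hk, dist_self]; exact hr
          obtain ⟨i, hi⟩ := T.cov _ (mem_univ (Function.update x j (x j + r / 2)))
          have hib := h1 i (hball _ hy hi)
          subst hib
          have h2 := ((mem_at' hF).1 hi j).2
          rw [Function.update_self, e] at h2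
          linarith
      obtain ⟨z, hz, hzF⟩ := hM.big b.1 hbM
      refine ⟨⟨b, ?_⟩, z, ?_, ?_⟩
      · show x ∈ I (HB b.1)
        rw [mem_I_HB]
        exact fun j => ⟨lt_of_le_of_ne (hxb j).1 (hin j).1.symm, lt_of_le_of_ne (hxb j).2 (hin j).2⟩
      · rw [mem_oc']
        intro b' hb' j
        rw [h1 b' hb']
        refine ⟨⟨(hz j).2.le, ?_⟩, (hz j).1.le, ?_⟩
        · exact ⟨fun e => absurd e (hz j).2.ne, fun e => absurd e (hin j).2⟩
        · exact ⟨fun e => absurd e (hz j).1.ne', fun e => absurd e (hin j).1⟩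
      · rintro f hf ⟨y, hy, hyf⟩
        have hsub : T.cc x ⊆ zcl b.1.1 b.1.2 := by
          have h2 := T.cc_sub_tile hb
          rwa [show P (T.H b) = zcl b.1.1 b.1.2 from P_HB b.1] at h2
        exact hzF f hf ⟨y, hsub hy, hyf⟩
    · -- two macros
      right
      push Not at h1
      obtain ⟨b', hb', hne⟩ := h1
      have hb'M := hu b' hb'
      have hxb' : x ∈ zcl b'.1.1 b'.1.2 := (mem_at' hF).1 hb'
      have hnev : b.1 ≠ b'.1 := fun e => hne (Subtype.ext e.symm)
      have hall : ∀ c ∈ T.at_ x, c = b ∨ c = b' := by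
        intro c hc
        by_contra hcon
        push Not at hcon
        have h2 := hM.triple b.1 hbM b'.1 hb'M c.1 (hu c hc) hnev
          (fun e => hcon.2 (Subtype.ext e.symm)) (fun e => hcon.1 (Subtype.ext e.symm))
        have h3 : x ∈ zcl b.1.1 b.1.2 ∩ zcl b'.1.1 b'.1.2 ∩ zcl c.1.1 c.1.2 :=
          ⟨⟨hxb, hxb'⟩, (mem_at' hF).1 hc⟩
        rw [h2] at h3
        exact h3
      obtain ⟨j, z, d, hzi, hzj, hdj, hzF⟩ := hM.pair b.1 hbM b'.1 hb'M hnev ⟨x, hxb, hxb'⟩
      have hcc : T.cc x ⊆ zcl b.1.1 b.1.2 ∩ zcl b'.1.1 b'.1.2 := by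
        have h2 := T.cc_sub_tile hb
        have h3 := T.cc_sub_tile hb'
        rw [show P (T.H b) = zcl b.1.1 b.1.2 from P_HB b.1] at h2
        rw [show P (T.H b') = zcl b'.1.1 b'.1.2 from P_HB b'.1] at h3
        exact subset_inter h2 h3
      have hxj : x j = z j := by
        have h2 := hxb j
        have h3 := hxb' j
        rcases hzj with ⟨e1, e2⟩ | ⟨e1, e2⟩
        · have e3 : (b.1.2 j : ℝ) = b'.1.1 j := by exact_mod_cast e1
          linarith [h2.2, h3.1]
        · have e3 : (b'.1.2 j : ℝ) = b.1.1 j := by exact_mod_cast e1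
          linarith [h2.1, h3.2]
      have hyj : ∀ y ∈ T.cc x, y j = z j := by
        intro y hy
        have h2 := (hcc hy).1 j
        have h3 := (hcc hy).2 j
        rcases hzj with ⟨e1, e2⟩ | ⟨e1, e2⟩
        · have e3 : (b.1.2 j : ℝ) = b'.1.1 j := by exact_mod_cast e1
          linarith [h2.2, h3.1]
        · have e3 : (b'.1.2 j : ℝ) = b.1.1 j := by exact_mod_cast e1
          linarith [h2.1, h3.2]
      -- the other coordinates of `x` are interior for both
      have hcov : ∀ y ∈ ball x r, y ∈ zcl b.1.1 b.1.2 ∨ y ∈ zcl b'.1.1 b'.1.2 := by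
        intro y hy
        obtain ⟨i, hi⟩ := T.cov y (mem_univ y)
        rcases hall i (hball y hy hi) with rfl | rfl
        · exact Or.inl ((mem_at' hF).1 hi)
        · exact Or.inr ((mem_at' hF).1 hi)
      -- a point which is moved in the directions `i` and `j`
      have hmv : ∀ (i : Fin 3), i ≠ j → ∀ s t : ℝ, |s| ≤ r / 2 → |t| ≤ r / 2 →
          ∃ y ∈ ball x r, y i = x i + s ∧ y j = x j + t ∧ ∀ k, k ≠ i → k ≠ j → y k = x k := by
        intro i hij s t hs ht
        refine ⟨fun k => if k = i then x i + s else if k = j then x j + t else x k, ?_, by simp,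
          by simp [hij.symm], fun k hk hk' => by simp [hk, hk']⟩
        rw [mem_ball, dist_pi_lt_iff hr]
        intro k
        rw [Real.dist_eq]
        by_cases hk : k = i
        · subst hk
          simp only [if_true]
          rw [add_sub_cancel_left]; linarith
        · by_cases hk' : k = j
          · subst hk'
            simp only [hk, if_false, if_true]
            rw [add_sub_cancel_left]; linarith
          · simp only [hk, hk', if_false, sub_self, abs_zero]; exact hr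
      have hint : ∀ i, i ≠ j → (x i ≠ (b.1.1 i : ℝ) ∧ x i ≠ (b.1.2 i : ℝ)) ∧
          (x i ≠ (b'.1.1 i : ℝ) ∧ x i ≠ (b'.1.2 i : ℝ)) := by
        intro i hij
        have h5 : |r / 2| ≤ r / 2 := by rw [abs_of_pos (by linarith)]
        have h6 : |-(r / 2)| ≤ r / 2 := by rw [abs_neg]; exact h5
        -- sign of the move in direction `j` towards `b`, resp. `b'`
        rcases hzj with ⟨e1, e2⟩ | ⟨e1, e2⟩
        · have e3 : (b.1.2 j : ℝ) = b'.1.1 j := by exact_mod_cast e1
          refine ⟨⟨?_, ?_⟩, ?_, ?_⟩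
          · intro e
            obtain ⟨y, hy, hy1, hy2, -⟩ := hmv i hij (-(r / 2)) (-(r / 2)) h6 h6
            rcases hcov y hy with h7 | h7
            · have := (h7 i).1; linarith
            · have := (h7 j).1; linarith
          · intro e
            obtain ⟨y, hy, hy1, hy2, -⟩ := hmv i hij (r / 2) (-(r / 2)) h5 h6
            rcases hcov y hy with h7 | h7
            · have := (h7 i).2; linarith
            · have := (h7 j).1; linarith
          · intro e
            obtain ⟨y, hy, hy1, hy2, -⟩ := hmv i hij (-(r / 2)) (r / 2) h6 h5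
            rcases hcov y hy with h7 | h7
            · have := (h7 j).2; linarith
            · have := (h7 i).1; linarith
          · intro e
            obtain ⟨y, hy, hy1, hy2, -⟩ := hmv i hij (r / 2) (r / 2) h5 h5
            rcases hcov y hy with h7 | h7
            · have := (h7 j).2; linarith
            · have := (h7 i).2; linarith
        · have e3 : (b'.1.2 j : ℝ) = b.1.1 j := by exact_mod_cast e1
          refine ⟨⟨?_, ?_⟩, ?_, ?_⟩
          · intro e
            obtain ⟨y, hy, hy1, hy2, -⟩ := hmv i hij (-(r / 2)) (r / 2) h6 h5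
            rcases hcov y hy with h7 | h7
            · have := (h7 i).1; linarith
            · have := (h7 j).2; linarith
          · intro e
            obtain ⟨y, hy, hy1, hy2, -⟩ := hmv i hij (r / 2) (r / 2) h5 h5
            rcases hcov y hy with h7 | h7
            · have := (h7 i).2; linarith
            · have := (h7 j).2; linarith
          · intro e
            obtain ⟨y, hy, hy1, hy2, -⟩ := hmv i hij (-(r / 2)) (-(r / 2)) h6 h6
            rcases hcov y hy with h7 | h7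
            · have := (h7 j).1; linarith
            · have := (h7 i).1; linarith
          · intro e
            obtain ⟨y, hy, hy1, hy2, -⟩ := hmv i hij (r / 2) (-(r / 2)) h5 h6
            rcases hcov y hy with h7 | h7
            · have := (h7 j).1; linarith
            · have := (h7 i).2; linarith
      refine ⟨j, z, d, ?_, hdj, hyj, ?_⟩
      · rw [mem_oc']
        intro c hc k
        have hcx := (mem_at' hF).1 hc k
        by_cases hk : k = j
        · rw [hk] at hcx ⊢
          rw [← hxj]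
          exact ⟨⟨hcx.2, Iff.rfl⟩, hcx.1, Iff.rfl⟩
        · have h7 := hint k hk
          have h8 := hzi k hk
          rcases hall c hc with rfl | rfl
          · refine ⟨⟨h8.1.2.le, ?_⟩, h8.1.1.le, ?_⟩
            · exact ⟨fun e => absurd e h8.1.2.ne, fun e => absurd e h7.1.2⟩
            · exact ⟨fun e => absurd e h8.1.1.ne', fun e => absurd e h7.1.1⟩
          · refine ⟨⟨h8.2.2.le, ?_⟩, h8.2.1.le, ?_⟩
            · exact ⟨fun e => absurd e h8.2.2.ne, fun e => absurd e h7.2.2⟩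
            · exact ⟨fun e => absurd e h8.2.1.ne', fun e => absurd e h7.2.1⟩
      · rintro f hf ⟨y, hy, hyf⟩
        exact hzF f hf ⟨y, hcc hy, hyf⟩

end

end Crest.Agent.R096.Til_324
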