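import Crest.Agent.R096.Mbf_337
import Crest.Agent.R096.Pse3_316
import Crest.Agent.R096.Nr1_527
import Crest.Agent.R096.Vb9_965
import Crest.Agent.R096.Dic2_582
import Crest.Agent.R096.Ce1_537
import Crest.Agent.R096.Tlo1_715
import Crest.Agent.R096.Brk2_582
import Crest.Agent.R096.Sphf2_316

-- ▼ part R096/Tl1_4
section

/-! # Row 96, TINY-LOC (helper4), part 1: `Psi ∘ f`, the levels and the gauge are uniformly
continuous off a ball round the preimage of a point hole. -/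

set_option autoImplicit false
set_option linter.unusedSectionVars false

open Set Filter Topology Metric MeasureTheory

namespace Crest.Agent.R096.Tl_4

open Crest.Agent.R096.Brk1_582 Crest.Agent.R096.Brk2_582 Crest.Agent.R096.Brk3_582
open Crest.Agent.R096.Brk5_582 Crest.Agent.R096.Bsp_628
open Crest.Agent.R096.SkC1_961 (E3 Hom3 FoamD)
open Crest.Agent.R096.Msh_715 Crest.Agent.R096.Vb_965
open Crest.Agent.R096.Mbf_337 (gau KJ)
open Crest.Agent.R096.Sphg_316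
open Crest.Agent.R96.Push_899

variable {δ κ0 Rc c0 : ℝ} {La Om : Set E3} (Φ : FoamD δ κ0 Rc c0 La)

/-- finitely many cells touch `c` -/
theorem finite_N (hLa : IsOpen La) (c : Φ.F) :
    {c' : Φ.F | (Pc Φ.F c' ∩ Pc Φ.F c).Nonempty}.Finite := by
  have FF := foam Φ.bf hLa
  exact Nr_527.finite_meet Φ.bf hLa (FF.cpt c) (FF.sub c)

/-- the interior of the cell `c` -/
def inn (c : Φ.F) : Set E3 := {y | ∀ k, c.1.lo k < y k ∧ y k < c.1.hi k}

theorem inn_sub {c : Φ.F} : inn Φ c ⊆ Pc Φ.F c := fun _ hy =>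
  Bx.mem_set.2 fun k => ⟨(hy k).1.le, (hy k).2.le⟩

/-- the cell of a point of the interior -/
theorem inn_only (hLa : IsOpen La) {c c' : Φ.F} {y : E3} (hy : y ∈ inn Φ c) (hy' : y ∈ c'.1.set) :
    c' = c := by
  by_contra hne
  exact (wall_iff Φ hLa (inn_sub Φ hy)).1 ⟨c', hne, hy'⟩ (fun k => hy k)

/-- the hole is in the interior of the brick -/
theorem hole_inn {c : Φ.F} {y : E3} (hy : y ∈ (Φ.B c).S) : y ∈ inn Φ c := by
  intro i
  rcases Φ.push c with ⟨P, κ, ρ, hS, -⟩ | ⟨P, κ, ρ, C, hS, hI, -⟩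
  · have h1 := hS.nest.lo i
    have h2 := hS.nest.hi i
    have h3 := hy i
    exact ⟨lt_of_lt_of_le h1 h3.1, lt_of_le_of_lt h3.2 h2⟩
  · have h1 := hS.nest.lo i
    have h2 := hS.nest.hi i
    have h4 := hI.nest.lo i
    have h5 := hI.nest.hi i
    have h3 := hy i
    exact ⟨(h1.trans h4).trans_le h3.1, (h3.2.trans_lt h5).trans h2⟩

/-- off the point hole of `c` there are no holes in the interior of `c` -/
theorem not_hole (hLa : IsOpen La) {c : Φ.F} (hpt : (Φ.B c).lo = (Φ.B c).hi) {y : E3}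
    (hy : y ∈ inn Φ c) (hne : y ≠ (Φ.B c).lo) (c' : Φ.F) : y ∉ (Φ.B c').S := by
  intro h
  have h1 := inn_only Φ hLa hy (inn_sub Φ (hole_inn Φ h))
  subst h1
  apply hne
  funext k
  have h2 := h k
  rw [← hpt] at h2
  exact le_antisymm h2.2 h2.1

/-- **uniform continuity** -/
theorem exists_osc (hLa : IsOpen La) {f : E3 → E3} {c : Φ.F} (hpt : (Φ.B c).lo = (Φ.B c).hi)
    {A : Set E3} (hA : IsCompact A) (hf : ContinuousOn f A) (hin : ∀ x ∈ A, f x ∈ inn Φ c)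
    (hne : ∀ x ∈ A, f x ≠ (Φ.B c).lo) {e : ℝ} (he : 0 < e) :
    ∃ μ > 0, ∀ x ∈ A, ∀ y ∈ A, ‖x - y‖ ≤ μ →
      |gau c.1 (Φ.B c).lo (f x) - gau c.1 (Φ.B c).lo (f y)| ≤ e ∧
      ‖Φ.Psi (f x) - Φ.Psi (f y)‖ ≤ e ∧ ∀ c' : Φ.F, |Φ.lev c' (f x) - Φ.lev c' (f y)| ≤ e ∧
        (Φ.Psi (f x) ∈ c'.1.set → ‖Φ.Psi (f y) - Φ.Psi (f x)‖ ≤ e * c'.1.sz) := by
  have FF := foam Φ.bf hLa
  have hb := Pse_316.bod_brick Φ c hpt
  have hLaf : ∀ x ∈ A, f x ∈ {y | y ∈ La ∧ ∀ c, y ∉ (Φ.B c).S} := fun x hx =>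
    ⟨FF.sub c (inn_sub Φ (hin x hx)), not_hole Φ hLa hpt (hin x hx) (hne x hx)⟩
  have hPm : ∀ x ∈ A, Φ.Psi (f x) ∈ Pc Φ.F c := fun x hx =>
    ((pushD Φ hLa).mem c (f x) (inn_sub Φ (hin x hx))
      ((muD_pos Φ hLa (inn_sub Φ (hin x hx))).2 ((hLaf x hx).2 c))).1
  -- `Psi ∘ f`
  have hPsi : ContinuousOn (fun x => Φ.Psi (f x)) A := by
    refine ContinuousOn.comp ((pushD Φ hLa).cont.mono ?_) hf hLaf
    rintro y ⟨hy, hh⟩
    obtain ⟨c', hc'⟩ := FF.cov y hy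
    exact ⟨hy, (muD_pos Φ hLa hc').2 (hh c')⟩
  have hlev : ∀ c' : Φ.F, ContinuousOn (fun x => Φ.lev c' (f x)) A := fun c' =>
    (continuousOn_sc_apply FF c').comp hPsi fun x hx => FF.sub c (hPm x hx)
  have hgau : ContinuousOn (fun x => gau c.1 (Φ.B c).lo (f x)) A := by
    have : (fun x => gau c.1 (Φ.B c).lo (f x)) = fun x => Ng (Φ.B c).lo c.1.set (f x) :=
      funext fun x => Pse_316.gau_eq _ _ _
    rw [this]
    exact hb.continuous.comp_continuousOn hf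
  -- the sizes of the neighbours
  have hN := finite_N Φ hLa c
  obtain ⟨s, hs, hs'⟩ : ∃ s > 0, ∀ c' ∈ {c' : Φ.F | (Pc Φ.F c' ∩ Pc Φ.F c).Nonempty},
      s ≤ c'.1.sz := by
    rcases Set.eq_empty_or_nonempty {c' : Φ.F | (Pc Φ.F c' ∩ Pc Φ.F c).Nonempty} with h0 | h0
    · exact ⟨1, one_pos, fun c' hc' => by rw [h0] at hc'; exact hc'.elim⟩
    · obtain ⟨c1, hc1, hmin⟩ := hN.exists_minimalFor (fun c' : Φ.F => c'.1.sz) _ h0
      refine ⟨c1.1.sz, Bx.sz_pos (Φ.bf.pos _ c1.2), fun c' hc' => ?_⟩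
      rcases le_total c1.1.sz c'.1.sz with h1 | h1
      · exact h1
      · exact hmin hc' h1
  -- moduli
  have hu : ∀ {g : E3 → ℝ}, ContinuousOn g A → ∀ r > 0, ∀ᶠ μ in 𝓝[>] (0:ℝ), ∀ x ∈ A, ∀ y ∈ A,
      ‖x - y‖ ≤ μ → |g x - g y| ≤ r := by
    intro g hg r hr
    obtain ⟨μ, hμ, h1⟩ := Metric.uniformContinuousOn_iff.1
      (hA.uniformContinuousOn_of_continuous hg) r hr
    filter_upwards [Ioo_mem_nhdsGT hμ] with μ' hμ' x hx y hy hxy
    have := h1 x hx y hy (by rw [dist_eq_norm]; exact lt_of_le_of_lt hxy hμ'.2)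
    rw [Real.dist_eq] at this
    exact this.le
  have hu3 : ∀ r > 0, ∀ᶠ μ in 𝓝[>] (0:ℝ), ∀ x ∈ A, ∀ y ∈ A,
      ‖x - y‖ ≤ μ → ‖Φ.Psi (f x) - Φ.Psi (f y)‖ ≤ r := by
    intro r hr
    obtain ⟨μ, hμ, h1⟩ := Metric.uniformContinuousOn_iff.1
      (hA.uniformContinuousOn_of_continuous hPsi) r hr
    filter_upwards [Ioo_mem_nhdsGT hμ] with μ' hμ' x hx y hy hxy
    have := h1 x hx y hy (by rw [dist_eq_norm]; exact lt_of_le_of_lt hxy hμ'.2)
    rw [dist_eq_norm] at this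
    exact this.le
  have hfinal := (((hu hgau e he).and (hu3 (min e (e * s)) (lt_min he (mul_pos he hs)))).and
    ((Filter.eventually_all_finite hN).2 fun c' _ => hu (hlev c') e he)).and
      (self_mem_nhdsWithin (s := Ioi (0:ℝ)) (a := (0:ℝ)))
  obtain ⟨μ, ⟨⟨h1, h2⟩, h3⟩, hμ⟩ := hfinal.exists
  refine ⟨μ, hμ, fun x hx y hy hxy => ⟨h1 x hx y hy hxy, (h2 x hx y hy hxy).trans (min_le_left _ _),
    fun c' => ⟨?_, fun hc' => ?_⟩⟩⟩
  · by_cases hc' : (Pc Φ.F c' ∩ Pc Φ.F c).Nonempty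
    · exact h3 c' hc' x hx y hy hxy
    · have e1 : Φ.lev c' (f x) = 1 := Dic2_582.sc_eq_one_of_not_touch FF hc' (hPm x hx)
      have e2 : Φ.lev c' (f y) = 1 := Dic2_582.sc_eq_one_of_not_touch FF hc' (hPm y hy)
      rw [e1, e2, sub_self, abs_zero]
      exact he.le
  · have h4 : (Pc Φ.F c' ∩ Pc Φ.F c).Nonempty := ⟨_, hc', hPm x hx⟩
    have h5 := (h2 x hx y hy hxy).trans (min_le_right _ _)
    rw [norm_sub_rev] at h5
    exact h5.trans (mul_le_mul_of_nonneg_left (hs' c' h4) he.le)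

end Crest.Agent.R096.Tl_4
end

-- ▼ part R096/Exs3_260
section

/-!
# R096 (row 96), EXA-3 (560): a PL map is affine on every convex set which is not cut by finitely many
hyperplanes (helper260)
-/

set_option autoImplicit false

open Set Metric Filter Topology Module
open scoped Classical

namespace Crest.Agent.R096.Exs_260

variable {E F : Type*} [NormedAddCommGroup E] [NormedSpace ℝ E]
  [NormedAddCommGroup F] [NormedSpace ℝ F]

/-- a convex set which is on one side of finitely many hyperplanes has a point which is on such a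
hyperplane only if the whole set is -/
theorem exists_pt {Z : Set E} (hZ : Convex ℝ Z) (hne : Z.Nonempty)
    (G : Finset ((E →L[ℝ] ℝ) × ℝ)) :
    (∀ h ∈ G, (∀ z ∈ Z, h.1 z ≤ h.2) ∨ ∀ z ∈ Z, h.2 ≤ h.1 z) →
    ∃ z0 ∈ Z, ∀ h ∈ G, h.1 z0 = h.2 → ∀ z ∈ Z, h.1 z = h.2 := by
  induction G using Finset.induction_on with
  | empty =>
    intro _
    obtain ⟨z, hz⟩ := hne
    exact ⟨z, hz, by simp⟩
  | insert φ G _ ih =>
    intro hs
    obtain ⟨z1, hz1, h1⟩ := ih fun h hh => hs h (Finset.mem_insert_of_mem hh)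
    by_cases hφ : ∀ z ∈ Z, φ.1 z = φ.2
    · refine ⟨z1, hz1, fun h hh e => ?_⟩
      rcases Finset.mem_insert.1 hh with rfl | hh
      · exact hφ
      · exact h1 h hh e
    · push Not at hφ
      obtain ⟨z2, hz2, h2⟩ := hφ
      refine ⟨(1 / 2 : ℝ) • z1 + (1 / 2 : ℝ) • z2,
        hZ hz1 hz2 (by norm_num) (by norm_num) (by norm_num), fun h hh e => ?_⟩
      have e' : h.1 z1 + h.1 z2 = 2 * h.2 := by
        rw [map_add, map_smul, map_smul, smul_eq_mul, smul_eq_mul] at e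
        linarith
      have ez : h.1 z1 = h.2 ∧ h.1 z2 = h.2 := by
        rcases hs h hh with hc | hc
        · have a := hc z1 hz1
          have b := hc z2 hz2
          constructor <;> linarith
        · have a := hc z1 hz1
          have b := hc z2 hz2
          constructor <;> linarith
      rcases Finset.mem_insert.1 hh with rfl | hh
      · exact absurd ez.2 h2
      · exact h1 h hh ez.1

/-- **EXA-3**: a PL map is affine on every convex set which is not cut by finitely many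
hyperplanes -/
theorem exists_planes [FiniteDimensional ℝ E] {K : Set E} {u : E → F} (hu : Ce_537.PLOn u K) :
    ∃ D : Finset ((E →L[ℝ] ℝ) × ℝ), (∀ h ∈ D, h.1 ≠ 0) ∧ ∀ Z ⊆ K, Convex ℝ Z →
      (∀ h ∈ D, (∀ z ∈ Z, h.1 z ≤ h.2) ∨ ∀ z ∈ Z, h.2 ≤ h.1 z) →
      ∃ g : E →ᵃ[ℝ] F, EqOn u g Z := by
  obtain ⟨hc, S, hS⟩ := hu
  let b := Basis.ofVectorSpace ℝ F
  let e := finBasis ℝ E
  let l : (E →ᵃ[ℝ] F) × (E →ᵃ[ℝ] F) → Basis.ofVectorSpaceIndex ℝ F → E →L[ℝ] ℝ := fun p k =>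
    LinearMap.toContinuousLinearMap ((b.coord k).comp (p.1.linear - p.2.linear))
  let c : (E →ᵃ[ℝ] F) × (E →ᵃ[ℝ] F) → Basis.ofVectorSpaceIndex ℝ F → ℝ := fun p k =>
    -(b.repr (p.1 0 - p.2 0) k)
  let N : (E →ᵃ[ℝ] F) × (E →ᵃ[ℝ] F) → Finset (Basis.ofVectorSpaceIndex ℝ F) := fun p =>
    (b.repr (p.1 0 - p.2 0)).support ∪
      Finset.univ.biUnion fun j => (b.repr ((p.1.linear - p.2.linear) (e j))).support
  have hval : ∀ p k (x : E), b.repr (p.1 x - p.2 x) k = l p k x - c p k := by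
    intro p k x
    have e1 : ∀ g : E →ᵃ[ℝ] F, g x = g.linear x + g 0 := by
      intro g
      have := g.map_vadd 0 x
      simpa using this
    have e2 : p.1 x - p.2 x = (p.1.linear - p.2.linear) x + (p.1 0 - p.2 0) := by
      rw [e1 p.1, e1 p.2, LinearMap.sub_apply]
      abel
    rw [e2, map_add, Finsupp.add_apply]
    simp only [l, c, LinearMap.coe_toContinuousLinearMap', LinearMap.comp_apply, Basis.coord_apply]
    ring
  have hout : ∀ p k, k ∉ N p → ∀ x : E, b.repr (p.1 x - p.2 x) k = 0 := by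
    intro p k hk x
    rw [Finset.mem_union, not_or] at hk
    obtain ⟨hk1, hk2⟩ := hk
    have hk3 : ∀ j, b.repr ((p.1.linear - p.2.linear) (e j)) k = 0 := by
      intro j
      by_contra hcon
      exact hk2 (Finset.mem_biUnion.2 ⟨j, Finset.mem_univ _, Finsupp.mem_support_iff.2 hcon⟩)
    have hl : l p k = 0 := by
      ext y
      have : ((b.coord k).comp (p.1.linear - p.2.linear)) = 0 := by
        refine e.ext fun j => ?_
        simpa using hk3 j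
      show ((b.coord k).comp (p.1.linear - p.2.linear)) y = 0
      rw [this]
      rfl
    rw [hval, hl]
    have : c p k = 0 := by
      simp only [c]
      rw [Finsupp.notMem_support_iff.1 hk1, neg_zero]
    rw [this]
    simp
  let D' : Finset ((E →L[ℝ] ℝ) × ℝ) := (S ×ˢ S).biUnion fun p => (N p).image fun k => (l p k, c p k)
  refine ⟨D'.filter fun h => h.1 ≠ 0, fun h hh => (Finset.mem_filter.1 hh).2, ?_⟩
  intro Z hZK hZ hs
  rcases Z.eq_empty_or_nonempty with rfl | hne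
  · exact ⟨AffineMap.const ℝ E 0, by simp⟩
  have hs' : ∀ h ∈ D', (∀ z ∈ Z, h.1 z ≤ h.2) ∨ ∀ z ∈ Z, h.2 ≤ h.1 z := by
    intro h hh
    by_cases h0 : h.1 = 0
    · rcases le_total 0 h.2 with h1 | h1
      · exact Or.inl fun z _ => by rw [h0]; simpa using h1
      · exact Or.inr fun z _ => by rw [h0]; simpa using h1
    · exact hs h (Finset.mem_filter.2 ⟨hh, h0⟩)
  obtain ⟨z0, hz0, hz0'⟩ := exists_pt hZ hne D' hs'
  -- the good points
  let Z' : Set E := {z | z ∈ Z ∧ ∀ h ∈ D', h.1 z = h.2 → ∀ w ∈ Z, h.1 w = h.2}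
  have hz0m : z0 ∈ Z' := ⟨hz0, hz0'⟩
  have hmix : ∀ z ∈ Z, ∀ w ∈ Z', ∀ s t : ℝ, 0 ≤ s → 0 < t → s + t = 1 → s • z + t • w ∈ Z' := by
    intro z hz w hw s t hs0 ht0 hst
    refine ⟨hZ hz hw.1 hs0 ht0.le hst, fun h hh eh => hw.2 h hh ?_⟩
    rw [map_add, map_smul, map_smul, smul_eq_mul, smul_eq_mul] at eh
    have e1 : s * (h.1 z - h.2) + t * (h.1 w - h.2) = 0 := by
      have : h.2 = (s + t) * h.2 := by rw [hst, one_mul]
      nlinarith
    rcases hs' h hh with hc | hc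
    · have a := hc z hz
      have b := hc w hw.1
      have a' : s * (h.1 z - h.2) ≤ 0 := mul_nonpos_of_nonneg_of_nonpos hs0 (by linarith)
      have b' : 0 ≤ t * (h.1 w - h.2) := by linarith
      have := nonneg_of_mul_nonneg_right b' ht0
      linarith
    · have a := hc z hz
      have b := hc w hw.1
      have a' : 0 ≤ s * (h.1 z - h.2) := mul_nonneg hs0 (by linarith)
      have b' : t * (h.1 w - h.2) ≤ 0 := by linarith
      have := nonpos_of_mul_nonpos_right b' ht0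
      linarith
  have hconv : Convex ℝ Z' := by
    intro z hz w hw s t hs0 ht0 hst
    rcases eq_or_lt_of_le ht0 with h | h
    · subst h
      have : s = 1 := by linarith
      subst this
      simpa using hz
    · exact hmix z hz.1 w hw s t hs0 h hst
  -- two maps of S which agree at a good point agree on Z
  have hagree : ∀ g ∈ S, ∀ g' ∈ S, ∀ z ∈ Z', g z = g' z → EqOn g g' Z := by
    intro g hg g' hg' z hz hzz w hw
    have : b.repr (g w - g' w) = 0 := by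
      ext k
      by_cases hk : k ∈ N (g, g')
      · have hm : (l (g, g') k, c (g, g') k) ∈ D' :=
          Finset.mem_biUnion.2 ⟨(g, g'), Finset.mem_product.2 ⟨hg, hg'⟩,
            Finset.mem_image.2 ⟨k, hk, rfl⟩⟩
        have h1 : l (g, g') k z = c (g, g') k := by
          have := hval (g, g') k z
          simp only [hzz, sub_self, map_zero, Finsupp.coe_zero, Pi.zero_apply] at this
          linarith
        have h2 := hz.2 _ hm h1 w hw
        have h3 := hval (g, g') k w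
        simp only at h2 h3
        rw [h3, h2]
        simp
      · exact hout (g, g') k hk w
    have h0 : g w - g' w = 0 := b.repr.map_eq_zero_iff.1 this
    exact sub_eq_zero.1 h0
  obtain ⟨g, hg, hgz⟩ := hS z0 (hZK hz0)
  refine ⟨g, ?_⟩
  have hcg : ∀ g : E →ᵃ[ℝ] F, Continuous g := fun g => AffineMap.continuous_of_finiteDimensional g
  have hcZ' : ContinuousOn u Z' := hc.mono fun z hz => hZK hz.1
  have hcr : Continuous (fun w : Z' => u w) := continuousOn_iff_continuous_domRestrict.1 hcZ'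
  have : PreconnectedSpace Z' := isPreconnected_iff_preconnectedSpace.1 hconv.isPreconnected
  let A : Set Z' := {w | u w = g w}
  have hAc : IsClosed A := isClosed_eq hcr ((hcg g).comp continuous_subtype_val)
  have hAeq : A = ⋂ g' ∈ (S.filter fun g' : E →ᵃ[ℝ] F => ¬ EqOn g' g Z), {w : Z' | u w ≠ g' w} := by
    ext w
    simp only [mem_iInter, Finset.mem_filter, mem_ofPred_eq, A]
    constructor
    · intro hw g' hg' e'
      exact hg'.2 (hagree g' hg'.1 g hg w.1 w.2 (by rw [← e', hw]))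
    · intro hw
      obtain ⟨g'', hg'', e''⟩ := hS w.1 (hZK w.2.1)
      by_cases he : EqOn g'' g Z
      · rw [e'', he w.2.1]
      · exact absurd e'' (hw g'' ⟨hg'', he⟩)
  have hAo : IsOpen A := by
    rw [hAeq]
    refine isOpen_biInter_finset fun g' _ => ?_
    exact isOpen_ne_fun hcr ((hcg g').comp continuous_subtype_val)
  have hAu : A = univ := IsClopen.eq_univ ⟨hAc, hAo⟩ ⟨⟨z0, hz0m⟩, hgz⟩
  have hZ' : ∀ w ∈ Z', u w = g w := by
    intro w hw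
    have : (⟨w, hw⟩ : Z') ∈ A := by rw [hAu]; trivial
    exact this
  -- density
  intro z hz
  have hsub : Z' ⊆ {w | w ∈ Z} := fun w hw => hw.1
  have hcl : z ∈ closure Z' := by
    have hcont : Continuous fun t : ℝ => (1 - t) • z + t • z0 := by fun_prop
    have h0 : (fun t : ℝ => (1 - t) • z + t • z0) 0 = z := by simp
    have ht : Tendsto (fun t : ℝ => (1 - t) • z + t • z0) (𝓝[>] 0) (𝓝 z) := by
      have := (hcont.tendsto 0).mono_left (nhdsWithin_le_nhds (s := Ioi (0 : ℝ)))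
      simpa using this
    refine mem_closure_of_tendsto ht ?_
    have : Ioo (0 : ℝ) 1 ∈ 𝓝[>] (0 : ℝ) := Ioo_mem_nhdsGT one_pos
    filter_upwards [this] with t htt
    exact hmix z hz z0 hz0m (1 - t) t (by linarith [htt.2]) htt.1 (by ring)
  have hne' : (𝓝[Z'] z).NeBot := mem_closure_iff_nhdsWithin_neBot.1 hcl
  have h1 : Tendsto u (𝓝[Z'] z) (𝓝 (u z)) :=
    (hc z (hZK hz)).mono_left (nhdsWithin_mono z fun w hw => hZK hw.1)
  have h2 : Tendsto g (𝓝[Z'] z) (𝓝 (g z)) := ((hcg g).tendsto z).mono_left nhdsWithin_le_nhds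
  have h3 : Tendsto u (𝓝[Z'] z) (𝓝 (g z)) :=
    h2.congr' (eventually_nhdsWithin_of_forall fun w hw => (hZ' w hw).symm)
  exact tendsto_nhds_unique h1 h3

end Crest.Agent.R096.Exs_260
end

-- ▼ part R096/Tlo2_715
section

/-!
# R096 (row 96), TMESH-T2 (helper715), part 2: the finite mesh of a tiny core and its transfer to
every tiling which looks like it in the zone (interface #10623 of helper4)
-/

set_option autoImplicit false
set_option linter.unusedSectionVars false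

open Set Metric Filter Topology Module
open scoped Classical

namespace Crest.Agent.R096.Tlo_715

open Crest.Agent.R096.Msh_715 Crest.Agent.R096.Msh_810 Crest.Agent.R096.Tms_582
open Crest.Agent.R096.SkC1_961 (E3)
open Crest.Agent.R096.Ce_537 (PLOn PLEquiv IsBall)
open Crest.Agent.R096.Mbf_337 (KJ)

/-- **what the machine needs at a tiny core** (`w` = translation, `t` = level, `J` = tiles of the core) -/
structure ZoneOK {Om : Set E3} {ι : Type} (T : Tiling Om ι) (J : Set ι) (φ : E3 → ℝ)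
    (Fs : Finset (E3 → ℝ)) (x₀ : E3) (R : ℝ) (k : ℕ) (w : E3) (a' t : ℝ) : Prop where
  KJ_eq : KJ T J = {x | φ (x - w) ≤ t}
  fr : frontier (KJ T J) = {x | φ (x - w) = t}
  cc_sub : ∀ x, φ (x - w) = t → T.cc x ⊆ {y | φ (y - w) = t}
  aff : ∀ F ∈ Fs, ∀ x, φ (x - w) = t → ∃ g : E3 →ᵃ[ℝ] ℝ, ∀ y ∈ T.cc x, F (y - w) = g y
  tr : ∀ x, φ (x - w) ≤ t → φ (x - w) ≠ t → (∃ y ∈ T.cc x, φ (y - w) = t) →
    ∃ y, φ (y - w) = t ∧ T.cc x ∩ {y | φ (y - w) = t} = T.cc y ∧ T.dim y + 1 = T.dim x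
  st : ∀ z, φ (z - w) = t → ∃ x, φ (x - w) < t ∧ z ∈ T.cc x ∧ T.dim x = T.dim z + 1 ∧
    ∀ y, φ (y - w) < t → z ∈ T.cc y → x ∈ T.cc y
  sl1 : ∀ i ∈ J, ∃ g : E3 →ᵃ[ℝ] ℝ, EqOn (fun x => φ (x - w)) g (P (T.H i))
  sl2 : ∀ v, φ (v - w) ≤ t → T.dim v = 0 → φ (v - w) ≤ a' ∨ φ (v - w) = t
  far : ∀ i, (P (T.H i) ∩ closedBall x₀ R).Nonempty → ∀ x ∈ P (T.H i), ∀ y ∈ P (T.H i),
    dist x y ≤ (2 : ℝ)⁻¹ ^ k

theorem dist_Cu {a : E3} {k : ℕ} {z : Fin 3 → ℤ} {x y : E3} (hx : x ∈ Cu a k z) (hy : y ∈ Cu a k z) :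
    dist x y ≤ (2 : ℝ)⁻¹ ^ k := by
  have h := dist_le_of_mem_Cu hx hy
  rw [inv_pow, inv_eq_one_div, le_div_iff₀' (by positivity)]
  exact h

/-- the cubes near a ball -/
theorem exists_Zc (x₀ : E3) {R : ℝ} {k : ℕ} (hk : (2 : ℝ)⁻¹ ^ k < R / 8) :
    ∃ Zc : Finset (Fin 3 → ℤ), (∀ z ∈ Zc, Cu (0 : E3) k z ⊆ ball x₀ (R / 4)) ∧
      closedBall x₀ (R / 8) ⊆ ⋃ z ∈ Zc, Cu (0 : E3) k z := by
  have hfin : {z | (P ((lat k).H z) ∩ closedBall x₀ (R / 8)).Nonempty}.Finite :=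
    (lat k).finite_tiles (isCompact_closedBall x₀ (R / 8)) (subset_univ _)
  refine ⟨hfin.toFinset, fun z hz x hx => ?_, fun x hx => ?_⟩
  · obtain ⟨y, hy1, hy2⟩ := hfin.mem_toFinset.1 hz
    rw [P_lat] at hy1
    have h1 := dist_Cu hx hy1
    have h2 : dist y x₀ ≤ R / 8 := hy2
    rw [mem_ball]
    linarith [dist_triangle x y x₀]
  · obtain ⟨z, hz⟩ := (lat k).cov x (mem_univ x)
    refine mem_biUnion (hfin.mem_toFinset.2 ⟨x, hz, hx⟩) ?_
    rw [← P_lat]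
    exact hz

theorem mem_KJ {Om : Set E3} {ι : Type} {T : Tiling Om ι} {J : Set ι} {x : E3} :
    x ∈ KJ T J ↔ ∃ i ∈ J, x ∈ P (T.H i) := by
  unfold KJ
  simp only [mem_iUnion, exists_prop]

/-- **the mesh of a tiny core** -/
theorem exists_mesh_loc (x₀ : E3) {R : ℝ} (hR : 0 < R) {a b : ℝ} (hab : a < b) {φ : E3 → ℝ}
    (hφ : PLOn φ univ) (hsub : {x | φ x ≤ b} ⊆ ball x₀ (R / 8)) (Fs : Finset (E3 → ℝ))
    (hFs : ∀ F ∈ Fs, PLOn F {x | a ≤ φ x ∧ φ x ≤ b}) :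
    ∃ k0 : ℕ, ∀ k : ℕ, k0 ≤ k → ∃ (Zc : Finset (Fin 3 → ℤ)) (κ : Type)
      (H : κ → Finset ((E3 →L[ℝ] ℝ) × ℝ)) (J : Set κ) (a' t : ℝ),
      a ≤ a' ∧ a' < t ∧ t < b ∧ LatRepl k Zc H ∧ (∀ z ∈ Zc, Cu (0 : E3) k z ⊆ ball x₀ (R / 4)) ∧
      (∀ j, ∃ z ∈ Zc, P (H j) ⊆ Cu 0 k z) ∧
      (∀ j ∈ J, ∀ x ∈ P (H j), φ x ≤ t) ∧ (∀ j, j ∉ J → ∀ x ∈ P (H j), t ≤ φ x) ∧
      (⋃ j ∈ J, P (H j)) = {x | φ x ≤ t} ∧
      ∀ w : E3, (∀ i, 0 ≤ w i ∧ w i ≤ (2 : ℝ)⁻¹ ^ k) → ∀ (Om : Set E3) (ι : Type) (T : Tiling Om ι)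
        (e : κ → ι), closedBall x₀ R ⊆ Om → InZone T x₀ R k w Zc H e →
        ZoneOK T (e '' J) φ Fs x₀ R k w a' t := by
  obtain ⟨k0, hk0⟩ := exists_pow_lt_of_lt_one (by positivity : (0 : ℝ) < R / 8)
    (by norm_num : (2 : ℝ)⁻¹ < 1)
  refine ⟨k0, fun k hk => ?_⟩
  have hk' : (2 : ℝ)⁻¹ ^ k < R / 8 := lt_of_le_of_lt
    (pow_le_pow_of_le_one (by norm_num) (by norm_num) hk) hk0
  obtain ⟨Zc, hZc1, hZc2⟩ := exists_Zc x₀ hk'
  -- the planes
  have hpl : ∀ F : E3 → ℝ, ∃ D : Finset ((E3 →L[ℝ] ℝ) × ℝ), F ∈ Fs →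
      ∀ Z ⊆ {x | a ≤ φ x ∧ φ x ≤ b}, Convex ℝ Z →
      (∀ h ∈ D, (∀ z ∈ Z, h.1 z ≤ h.2) ∨ ∀ z ∈ Z, h.2 ≤ h.1 z) →
      ∃ g : E3 →ᵃ[ℝ] ℝ, EqOn F g Z := by
    intro F
    by_cases hF : F ∈ Fs
    · obtain ⟨D, -, hD⟩ := Exs_260.exists_planes (hFs F hF)
      exact ⟨D, fun _ => hD⟩
    · exact ⟨∅, fun h => absurd h hF⟩
  choose D hD using hpl
  have hφc : Continuous φ := continuousOn_univ.1 hφ.1
  obtain ⟨C⟩ := exists_cut (T := lat k) (κ := Unit) (W := fun _ => (Zc : Set (Fin 3 → ℤ)))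
    (fun _ => Zc.finite_toSet) (fun c c' h => absurd (Subsingleton.elim c c') h)
    (ε := fun _ => 1) (fun _ => one_pos) (fun _ => Fs.biUnion D) (φ := fun _ => φ)
    (fun _ i _ => hφ.mono (subset_univ _)) (a := fun _ => a) (b := fun _ => b) (fun _ => hab)
  have hsubW : {x | φ x < b} ⊆ ⋃ i ∈ (Zc : Set (Fin 3 → ℤ)), P ((lat k).H i) := by
    intro x hx
    have h1 := hZc2 (ball_subset_closedBall (hsub (show φ x ≤ b from le_of_lt hx)))
    obtain ⟨z, hz, hxz⟩ := mem_iUnion₂.1 h1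
    refine mem_biUnion (show z ∈ (Zc : Set _) from hz) ?_
    rw [P_lat]; exact hxz
  set t := C.t () with ht
  have hta : C.a' () < t := C.hat ()
  have htb : t < b := (C.htb ()).trans_le (C.hbb ())
  let κ : Type := {p : C.J // C.π p ∈ Zc}
  let H : κ → Finset ((E3 →L[ℝ] ℝ) × ℝ) := fun p => C.T'.H p.1
  let J : Set κ := {j | j.1 ∈ C.In ()}
  have hKK : C.K () = ⋃ p ∈ C.In (), P (C.T'.H p) := C.K_eq () hsubW
  have hKset : C.K () = {x | φ x ≤ t} := rfl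
  have hcube : ∀ j : κ, P (H j) ⊆ Cu 0 k (C.π j.1) := fun j => by
    have := C.sub j.1
    rwa [P_lat] at this
  have hRepl : LatRepl k Zc H := by
    refine ⟨?_, fun j => C.T'.cpt j.1, fun j => C.T'.ne j.1, fun i j hij => C.T'.dis _ _ fun h =>
      hij (Subtype.ext h), ?_⟩
    · have h1 : (⋃ z ∈ (Zc : Set (Fin 3 → ℤ)), {p | C.π p = z}).Finite :=
        Zc.finite_toSet.biUnion fun z _ => C.fin z
      have h2 : {p | C.π p ∈ Zc}.Finite := h1.subset fun p hp => mem_biUnion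
        (show C.π p ∈ (Zc : Set _) from hp) rfl
      exact h2.to_subtype
    · apply Subset.antisymm
      · exact iUnion_subset fun j => (hcube j).trans (subset_biUnion_of_mem (u := fun z => Cu (0 : E3) k z) j.2)
      · refine iUnion₂_subset fun z hz x hx => ?_
        obtain ⟨p, hp, hxp⟩ := C.cov z x (by rw [P_lat]; exact hx)
        exact mem_iUnion.2 ⟨⟨p, by rw [hp]; exact hz⟩, hxp⟩
  have hJu : (⋃ j ∈ J, P (H j)) = {x | φ x ≤ t} := by
    rw [← hKset, hKK]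
    apply Subset.antisymm
    · exact iUnion₂_subset fun j hj => subset_biUnion_of_mem (u := fun p => P (C.T'.H p)) hj
    · refine iUnion₂_subset fun p hp => ?_
      have h1 : C.π p ∈ Zc := hp.1
      exact subset_biUnion_of_mem (u := fun j : κ => P (H j)) (show (⟨p, h1⟩ : κ) ∈ J from hp)
  refine ⟨Zc, κ, H, J, C.a' (), t, C.haa (), hta, htb, hRepl, hZc1,
    fun j => ⟨C.π j.1, j.2, hcube j⟩, fun j hj x hx => hj.2 hx, fun j hj x hx => ?_, hJu, ?_⟩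
  · exact (C.notMem_In_iff () hsubW hφc).1 hj x hx
  intro w hw Om ι T e hOm hZ
  have hOm' : ball x₀ R ⊆ Om := ball_subset_closedBall.trans hOm
  have hwn : ‖w‖ ≤ (2 : ℝ)⁻¹ ^ k := by
    rw [pi_norm_le_iff_of_nonneg (by positivity)]
    intro i
    rw [Real.norm_eq_abs, abs_of_nonneg (hw i).1]
    exact (hw i).2
  have hS : ∀ x ∈ ball x₀ R, Same T C.T' w x := fun x hx =>
    same_of_zone (π := C.π) hRepl (fun j => ⟨j.1, rfl⟩) (fun p hp => ⟨⟨p, hp⟩, rfl⟩)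
      (fun p hp => by
        obtain ⟨p', h1, h2, h3⟩ := C.off (C.π p) (fun _ h => hp h)
        rw [← h3 p rfl] at h2; exact h2)
      (fun z hz => by
        obtain ⟨p', h1, -, -⟩ := C.off z (fun _ h => hz h)
        exact ⟨p', h1⟩) hZ hOm' hx
  have hSK : ∀ x, φ (x - w) ≤ b → x ∈ ball x₀ R := by
    intro x hx
    have h1 : dist (x - w) x₀ < R / 8 := hsub hx
    have h2 : dist x (x - w) ≤ (2 : ℝ)⁻¹ ^ k := by
      rw [dist_eq_norm]; simpa using hwn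
    rw [mem_ball]
    linarith [dist_triangle x (x - w) x₀]
  have hfrK : frontier (C.K ()) = {x | φ x = t} := C.frontier_K () hφc hsubW
  have hccK : ∀ x, φ x = t → C.T'.cc x ⊆ {y | φ y = t} := by
    intro x hx
    have h1 := C.T'.frontier_tiles hKK (C.isClosed_K () hφc)
    rw [hfrK] at h1
    exact h1 x hx
  have hKJ : KJ T (e '' J) = {x | φ (x - w) ≤ t} := by
    ext x
    rw [mem_KJ]
    have h1 : φ (x - w) ≤ t ↔ x - w ∈ ⋃ j ∈ J, P (H j) := by rw [hJu]; rfl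
    rw [mem_ofPred_eq, h1]
    simp only [mem_iUnion, exists_prop]
    constructor
    · rintro ⟨_, ⟨j, hj, rfl⟩, hx⟩
      rw [hZ.loc, mem_P_trH] at hx
      exact ⟨j, hj, hx⟩
    · rintro ⟨j, hj, hx⟩
      refine ⟨e j, ⟨j, hj, rfl⟩, ?_⟩
      rw [hZ.loc, mem_P_trH]
      exact hx
  have htrans : Continuous fun x : E3 => x - w := by fun_prop
  have hfr : frontier (KJ T (e '' J)) = {x | φ (x - w) = t} := by
    have h1 : KJ T (e '' J) = (Homeomorph.subRight w) ⁻¹' (C.K ()) := by rw [hKJ]; rfl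
    rw [h1, ← Homeomorph.preimage_frontier, hfrK]
    rfl
  refine ⟨hKJ, hfr, ?_, ?_, ?_, ?_, ?_, ?_, ?_⟩
  · intro x hx y hy
    have hxb : x ∈ ball x₀ R := hSK x (by rw [hx]; exact htb.le)
    exact hccK _ hx ((hS x hxb).mem_cc.1 hy)
  · intro F hF x hx
    have hxb : x ∈ ball x₀ R := hSK x (by rw [hx]; exact htb.le)
    -- the tile of the core
    have h1 : x - w ∈ ⋃ p ∈ C.In (), P (C.T'.H p) := by
      rw [← hKK, hKset]; exact hx.le
    obtain ⟨p, hp, hxp⟩ := mem_iUnion₂.1 h1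
    have hpat : p ∈ C.T'.at_ (x - w) := hxp
    obtain ⟨g, hg⟩ := hD F hF (C.T'.cc (x - w)) (fun y hy => by
        have h2 : φ y = t := hccK _ hx hy
        show a ≤ φ y ∧ φ y ≤ b
        rw [h2]
        exact ⟨(C.haa ()).trans hta.le, htb.le⟩) (C.T'.convex_cc _) (fun h hh => by
        have h3 := C.data () p hp.1 h (Finset.mem_biUnion.2 ⟨F, hF, hh⟩)
        rcases h3 with h3 | h3
        · exact Or.inl fun y hy => h3 y (C.T'.cc_sub_tile hpat hy)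
        · exact Or.inr fun y hy => h3 y (C.T'.cc_sub_tile hpat hy))
    refine ⟨g.comp (AffineMap.id ℝ E3 - AffineMap.const ℝ E3 w), fun y hy => ?_⟩
    have h4 := hg ((hS x hxb).mem_cc.1 hy)
    simpa using h4
  · rintro x hx hxn ⟨y, hy, hyt⟩
    have hxb : x ∈ ball x₀ R := hSK x (hx.trans htb.le)
    have hy' := (hS x hxb).mem_cc.1 hy
    obtain ⟨z, hz1, hz2, hz3, hz4⟩ := C.tr_K () hφc hsubW (x := x - w) (y := y - w) hx
      (by rw [hfrK]; exact hxn) hy' (by rw [hfrK]; exact hyt)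
    rw [hfrK] at hz2 hz4
    have hz2' : φ z = t := hz2
    have hzw : z + w - w = z := by simp
    have hzb : z + w ∈ ball x₀ R := hSK _ (by rw [hzw, hz2']; exact htb.le)
    have hSz := hS _ hzb
    refine ⟨z + w, by rw [hzw]; exact hz2, ?_, ?_⟩
    · ext u
      rw [hSz.mem_cc, hzw, ← hz4]
      constructor
      · rintro ⟨hu1, hu2⟩
        exact ⟨(hS x hxb).mem_cc.1 hu1, hu2⟩
      · rintro ⟨hu1, hu2⟩
        exact ⟨(hS x hxb).mem_cc.2 hu1, hu2⟩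
    · rw [hSz.dim_eq, hzw, (hS x hxb).dim_eq]
      exact hz3
  · intro z hz
    have hzb : z ∈ ball x₀ R := hSK z (by rw [hz]; exact htb.le)
    obtain ⟨x, hx1, hx2, hx3, hx4, hx5⟩ := C.st_K () hφc hsubW (z := z - w) (by rw [hfrK]; exact hz)
    rw [hfrK] at hx2 hx5
    have hx1' : φ x ≤ t := hx1
    have hlt : φ x < t := lt_of_le_of_ne hx1' fun h => hx2 h
    have hxw : x + w - w = x := by simp
    have hxb : x + w ∈ ball x₀ R := hSK _ (by rw [hxw]; exact (hlt.trans htb).le)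
    refine ⟨x + w, by rw [hxw]; exact hlt, ?_, ?_, fun y hy hzy => ?_⟩
    · rw [(hS _ hxb).mem_cc, hxw]; exact hx3
    · rw [(hS _ hxb).dim_eq, hxw, (hS z hzb).dim_eq]; exact hx4
    · have hyb : y ∈ ball x₀ R := hSK y (hy.trans htb).le
      rw [(hS y hyb).mem_cc] at hzy ⊢
      rw [hxw]
      exact hx5 (y - w) (le_of_lt hy) (fun h => hy.ne h) hzy
  · rintro _ ⟨j, hj, rfl⟩
    obtain ⟨g, hg⟩ := C.aff () j.1 j.2
    refine ⟨g.comp (AffineMap.id ℝ E3 - AffineMap.const ℝ E3 w), fun y hy => ?_⟩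
    rw [hZ.loc, mem_P_trH] at hy
    have h4 := hg hy
    simpa using h4
  · intro v hv hv0
    have hvb : v ∈ ball x₀ R := hSK v (hv.trans htb.le)
    rw [(hS v hvb).dim_eq] at hv0
    exact C.vert_K () hsubW (show v - w ∈ C.K () from hv) hv0
  · intro i hi x hx y hy
    by_cases hie : i ∈ range e
    · obtain ⟨j, rfl⟩ := hie
      rw [hZ.loc, mem_P_trH] at hx hy
      have h1 := dist_Cu (hcube j hx) (hcube j hy)
      simpa using h1
    · obtain ⟨z, -, he⟩ := hZ.lat i hi hie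
      rw [he, P_Hc] at hx hy
      exact dist_Cu (a := w) (k := k) (z := z) hx hy

end Crest.Agent.R096.Tlo_715
end

-- ▼ part R096/Exs2_647
section

/-!
# Row 96 (S0127), EXA-2 of helper560 (task 2464): the foam coordinates are PL on every closed cell

`plon_sc (F : Foam La P b N) (c a : I) : PLOn (fun y => sc P b y a) (P c)`.

On a chain `𝔄` of faces `T` of the convex weights `w` is `∑ w A • b A` (`T_U`), the barycentres of a
chain are affinely independent (`ker_zero`), so the coordinate is one of finitely many affine maps.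
-/

set_option autoImplicit false
set_option linter.unusedSectionVars false
set_option linter.style.longLine false

open Set Filter Topology MeasureTheory

namespace Crest.Agent.R096.Exs2_647

open Crest.Agent.R096.Brk1_582 Crest.Agent.R096.Brk2_582

variable {E : Type*} [NormedAddCommGroup E] [NormedSpace ℝ E] {I : Type*}

open Classical in
/-- the coordinates of the weights `w` on the chain `𝔄` -/
noncomputable def U (𝔄 : Finset (Set I)) (w : Set I → ℝ) (a : I) : ℝ :=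
  ∑ A ∈ 𝔄, if a ∈ A then 0 else w A

theorem U_nonneg {𝔄 : Finset (Set I)} {w : Set I → ℝ} (hw : ∀ A ∈ 𝔄, 0 ≤ w A) (a : I) :
    0 ≤ U 𝔄 w a := by
  classical
  refine Finset.sum_nonneg fun A hA => ?_
  split_ifs
  · exact le_rfl
  · exact hw A hA

theorem U_le {𝔄 : Finset (Set I)} {w : Set I → ℝ} (hw : ∀ A ∈ 𝔄, 0 ≤ w A) (a : I) :
    U 𝔄 w a ≤ ∑ A ∈ 𝔄, w A := by
  classical
  refine Finset.sum_le_sum fun A hA => ?_
  split_ifs
  · exact hw A hA
  · exact le_rfl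

/-- greatest element of a nonempty finite chain -/
theorem exists_top {𝔄 : Finset (Set I)} (hch : IsChain (· ⊆ ·) (𝔄 : Set (Set I)))
    (hne : 𝔄.Nonempty) : ∃ M ∈ 𝔄, ∀ A ∈ 𝔄, A ⊆ M := by
  obtain ⟨M, hM⟩ := 𝔄.exists_maximal hne
  refine ⟨M, hM.1, fun A hA => ?_⟩
  by_cases h : A = M
  · exact h.le
  · rcases hch (Finset.mem_coe.2 hA) (Finset.mem_coe.2 hM.1) h with h1 | h1
    · exact h1
    · exact hM.2 hA h1

/-- smallest element of a nonempty finite chain -/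
theorem exists_bot {𝔄 : Finset (Set I)} (hch : IsChain (· ⊆ ·) (𝔄 : Set (Set I)))
    (hne : 𝔄.Nonempty) : ∃ M ∈ 𝔄, ∀ A ∈ 𝔄, M ⊆ A := by
  obtain ⟨M, hM⟩ := 𝔄.exists_minimal hne
  refine ⟨M, hM.1, fun A hA => ?_⟩
  by_cases h : M = A
  · exact h.le
  · rcases hch (Finset.mem_coe.2 hM.1) (Finset.mem_coe.2 hA) h with h1 | h1
    · exact h1
    · exact hM.2 hA h1

/-- the step function of a chain with weights: integrability and integral -/
theorem integral_U [CompleteSpace E] (b : Set I → E) (w : Set I → ℝ) : ∀ (n : ℕ) (𝔄 : Finset (Set I)), 𝔄.card = n →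
    IsChain (· ⊆ ·) (𝔄 : Set (Set I)) → (∀ A ∈ 𝔄, 0 ≤ w A) →
    IntervalIntegrable (fun τ : ℝ => b {c | U 𝔄 w c ≤ τ}) volume 0 (∑ A ∈ 𝔄, w A) ∧
    ∫ τ in (0 : ℝ)..(∑ A ∈ 𝔄, w A), b {c | U 𝔄 w c ≤ τ} = ∑ A ∈ 𝔄, w A • b A := by
  classical
  intro n
  induction n with
  | zero =>
    intro 𝔄 h0 _ _
    rw [Finset.card_eq_zero] at h0
    subst h0
    simp
  | succ n ih =>
    intro 𝔄 hn hch hw
    have hne : 𝔄.Nonempty := by rw [← Finset.card_pos, hn]; exact Nat.succ_pos _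
    obtain ⟨M, hM, htop⟩ := exists_top hch hne
    set 𝔅 := 𝔄.erase M with h𝔅
    have hsub : 𝔅 ⊆ 𝔄 := Finset.erase_subset _ _
    have hBc : IsChain (· ⊆ ·) (𝔅 : Set (Set I)) := hch.mono (by exact_mod_cast hsub)
    have hBw : ∀ A ∈ 𝔅, 0 ≤ w A := fun A hA => hw A (hsub hA)
    obtain ⟨i1, i2⟩ := ih 𝔅 (by rw [h𝔅, Finset.card_erase_of_mem hM, hn]; rfl) hBc hBw
    set s := ∑ A ∈ 𝔅, w A with hs
    have hs0 : 0 ≤ s := Finset.sum_nonneg hBw
    have e0 : ∑ A ∈ 𝔄, w A = s + w M := by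
      rw [← Finset.insert_erase hM, Finset.sum_insert (Finset.notMem_erase _ _), add_comm]
    have e1 : ∀ c, U 𝔄 w c = U 𝔅 w c + (if c ∈ M then 0 else w M) := by
      intro c
      rw [U, U, ← Finset.insert_erase hM, Finset.sum_insert (Finset.notMem_erase _ _), add_comm]
    have hout : ∀ c, c ∉ M → U 𝔅 w c = s := by
      intro c hc
      rw [U, hs]
      refine Finset.sum_congr rfl fun A hA => ?_
      rw [if_neg fun h => hc (htop A (hsub hA) h)]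
    have g1 : ∀ τ ∈ Ioo (0 : ℝ) s, {c | U 𝔄 w c ≤ τ} = {c | U 𝔅 w c ≤ τ} := by
      intro τ hτ
      ext c
      simp only [mem_ofPred_eq, e1]
      by_cases hc : c ∈ M
      · simp [hc]
      · rw [if_neg hc, hout c hc]
        have := hw M hM
        constructor
        · intro h; linarith
        · intro h; exact absurd h (not_le.2 hτ.2)
    have g2 : ∀ τ ∈ Ioo s (s + w M), {c | U 𝔄 w c ≤ τ} = M := by
      intro τ hτ
      ext c
      simp only [mem_ofPred_eq, e1]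
      by_cases hc : c ∈ M
      · simp only [hc, if_true, add_zero, iff_true]
        exact (U_le hBw c).trans hτ.1.le
      · rw [if_neg hc, hout c hc]
        simp only [hc, iff_false, not_le]
        exact hτ.2
    have hwM := hw M hM
    have j1 : IntervalIntegrable (fun τ : ℝ => b {c | U 𝔄 w c ≤ τ}) volume 0 s := by
      refine i1.congr_uIoo fun τ hτ => ?_
      rw [uIoo_of_le hs0] at hτ
      simp only [g1 τ hτ]
    have j2 : IntervalIntegrable (fun τ : ℝ => b {c | U 𝔄 w c ≤ τ}) volume s (s + w M) := by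
      refine (intervalIntegrable_const (c := b M)).congr_uIoo fun τ hτ => ?_
      rw [uIoo_of_le (by linarith)] at hτ
      simp only [g2 τ hτ]
    rw [e0]
    refine ⟨j1.trans j2, ?_⟩
    have k1 : ∫ τ in (0 : ℝ)..s, b {c | U 𝔄 w c ≤ τ} = ∫ τ in (0 : ℝ)..s, b {c | U 𝔅 w c ≤ τ} :=
      intervalIntegral.integral_congr_Ioo_of_le hs0 (fun τ hτ => by simp only [g1 τ hτ])
    have k2 : ∫ τ in s..(s + w M), b {c | U 𝔄 w c ≤ τ} = ∫ _τ in s..(s + w M), b M :=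
      intervalIntegral.integral_congr_Ioo_of_le (by linarith) (fun τ hτ => by simp only [g2 τ hτ])
    rw [← intervalIntegral.integral_add_adjacent_intervals j1 j2, k1, k2, i2,
      intervalIntegral.integral_const, ← Finset.insert_erase hM,
      Finset.sum_insert (Finset.notMem_erase _ _), add_comm]
    congr 2
    ring

theorem T_U [CompleteSpace E] {b : Set I → E} {w : Set I → ℝ} {𝔄 : Finset (Set I)}
    (hch : IsChain (· ⊆ ·) (𝔄 : Set (Set I))) (hw : ∀ A ∈ 𝔄, 0 ≤ w A)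
    (h1 : ∑ A ∈ 𝔄, w A = 1) : T b (U 𝔄 w) = ∑ A ∈ 𝔄, w A • b A := by
  have := (integral_U b w _ 𝔄 rfl hch hw).2
  rw [h1] at this
  exact this

/-- chain of faces -/
structure Good (P : I → Set E) (𝔄 : Finset (Set I)) : Prop where
  chain : IsChain (· ⊆ ·) (𝔄 : Set (Set I))
  ne : ∀ A ∈ 𝔄, A.Nonempty
  fcn : ∀ A ∈ 𝔄, (fc P A).Nonempty

theorem U_mem_K {P : I → Set E} {𝔄 : Finset (Set I)} (hG : Good P 𝔄) {w : Set I → ℝ}
    (hw : ∀ A ∈ 𝔄, 0 ≤ w A) (h1 : ∑ A ∈ 𝔄, w A = 1) : U 𝔄 w ∈ K P := by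
  classical
  have hne : 𝔄.Nonempty := by
    by_contra h
    rw [Finset.not_nonempty_iff_eq_empty] at h
    subst h
    simp at h1
  refine ⟨fun c => ⟨U_nonneg hw c, h1 ▸ U_le hw c⟩, ?_, ?_⟩
  · obtain ⟨M, hM, hbot⟩ := exists_bot hG.chain hne
    obtain ⟨c, hc⟩ := hG.ne M hM
    refine ⟨c, Finset.sum_eq_zero fun A hA => ?_⟩
    rw [if_pos (hbot A hA hc)]
  · obtain ⟨M, hM, htop⟩ := exists_top hG.chain hne
    refine (hG.fcn M hM).mono (fc_anti fun c hc => ?_)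
    by_contra hcM
    have hlt : U 𝔄 w c < 1 := hc
    have : U 𝔄 w c = 1 := by
      rw [← h1, U]
      refine Finset.sum_congr rfl fun A hA => ?_
      rw [if_neg fun h => hcM (htop A hA h)]
    linarith

/-- a weight on a chain of nonempty sets is determined by the sums over the sets containing a
point -/
theorem zero_of_sums : ∀ (n : ℕ) (𝔄 : Finset (Set I)) (w : Set I → ℝ), 𝔄.card = n →
    IsChain (· ⊆ ·) (𝔄 : Set (Set I)) → (∀ A ∈ 𝔄, A.Nonempty) →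
    (∀ a, U 𝔄 w a = ∑ A ∈ 𝔄, w A) → ∀ A ∈ 𝔄, w A = 0 := by
  classical
  intro n
  induction n with
  | zero =>
    intro 𝔄 w h0 _ _ _ A hA
    rw [Finset.card_eq_zero] at h0
    subst h0
    simp at hA
  | succ n ih =>
    intro 𝔄 w hn hch hne' h
    have hne : 𝔄.Nonempty := by rw [← Finset.card_pos, hn]; exact Nat.succ_pos _
    obtain ⟨M, hM, htop⟩ := exists_top hch hne
    set 𝔅 := 𝔄.erase M with h𝔅
    have hsub : 𝔅 ⊆ 𝔄 := Finset.erase_subset _ _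
    have hBc : IsChain (· ⊆ ·) (𝔅 : Set (Set I)) := hch.mono (by exact_mod_cast hsub)
    -- a point of `M` in no other member
    obtain ⟨a, haM, ha⟩ : ∃ a ∈ M, ∀ A ∈ 𝔅, a ∉ A := by
      by_cases hB : 𝔅.Nonempty
      · obtain ⟨M', hM', htop'⟩ := exists_top hBc hB
        have h1 : M' ⊆ M := htop M' (hsub hM')
        have h2 : ¬ M ⊆ M' := fun h2 => (Finset.mem_erase.1 hM').1 (subset_antisymm h1 h2)
        obtain ⟨a, ha, ha'⟩ := not_subset.1 h2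
        exact ⟨a, ha, fun A hA h => ha' (htop' A hA h)⟩
      · rw [Finset.not_nonempty_iff_eq_empty] at hB
        obtain ⟨a, ha⟩ := hne' M hM
        exact ⟨a, ha, fun A hA => by rw [hB] at hA; simp at hA⟩
    have hwM : w M = 0 := by
      have h3 := h a
      rw [U, ← Finset.insert_erase hM, Finset.sum_insert (Finset.notMem_erase _ _),
        Finset.sum_insert (Finset.notMem_erase _ _), if_pos haM] at h3
      have h4 : (∑ A ∈ 𝔄.erase M, if a ∈ A then 0 else w A) = ∑ A ∈ 𝔄.erase M, w A :=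
        Finset.sum_congr rfl fun A hA => if_neg (ha A hA)
      rw [h4] at h3
      linarith
    have hB := ih 𝔅 w (by rw [h𝔅, Finset.card_erase_of_mem hM, hn]; rfl) hBc
      (fun A hA => hne' A (hsub hA)) (fun c => by
        have h3 := h c
        rw [U, ← Finset.insert_erase hM, Finset.sum_insert (Finset.notMem_erase _ _),
          Finset.sum_insert (Finset.notMem_erase _ _), hwM, ite_self, zero_add, zero_add] at h3
        exact h3)
    intro A hA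
    by_cases hAM : A = M
    · rw [hAM]; exact hwM
    · exact hB A (Finset.mem_erase.2 ⟨hAM, hA⟩)

theorem U_add (𝔄 : Finset (Set I)) (v w : Set I → ℝ) (δ : ℝ) (a : I) :
    U 𝔄 (fun A => v A + δ * w A) a = U 𝔄 v a + δ * U 𝔄 w a := by
  classical
  rw [U, U, U, Finset.mul_sum, ← Finset.sum_add_distrib]
  refine Finset.sum_congr rfl fun A _ => ?_
  split_ifs <;> simp

variable [CompleteSpace E]
variable {La : Set E} {P : I → Set E} {b : Set I → E} {N : ℕ}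

/-- **the barycentres of a chain of faces are affinely independent** -/
theorem ker_zero (F : Foam La P b N) {𝔄 : Finset (Set I)} (hG : Good P 𝔄) {w : Set I → ℝ}
    (h0 : ∑ A ∈ 𝔄, w A = 0) (h1 : ∑ A ∈ 𝔄, w A • b A = 0) : ∀ A ∈ 𝔄, w A = 0 := by
  classical
  by_cases hne : 𝔄.Nonempty
  swap
  · rw [Finset.not_nonempty_iff_eq_empty] at hne
    subst hne
    intro A hA; simp at hA
  have hn : (0 : ℝ) < 𝔄.card := by exact_mod_cast Finset.card_pos.2 hne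
  set S := ∑ A ∈ 𝔄, |w A| with hS
  have hS0 : 0 ≤ S := Finset.sum_nonneg fun _ _ => abs_nonneg _
  set δ : ℝ := 1 / (𝔄.card * (1 + S)) with hδ
  have hδ0 : 0 < δ := by positivity
  let v : Set I → ℝ := fun _ => 1 / 𝔄.card
  have hv0 : ∀ A ∈ 𝔄, 0 ≤ v A := fun A _ => by positivity
  have hv1 : ∑ A ∈ 𝔄, v A = 1 := by
    simp only [v, Finset.sum_const, nsmul_eq_mul]
    field_simp
  have hw0 : ∀ A ∈ 𝔄, 0 ≤ v A + δ * w A := by
    intro A hA
    have h2 : |w A| ≤ S := Finset.single_le_sum (f := fun A => |w A|) (fun _ _ => abs_nonneg _) hA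
    have h3 : -(1 + S) ≤ w A := by
      have := neg_abs_le (w A)
      linarith
    have h4 : δ * (-(1 + S)) ≤ δ * w A := mul_le_mul_of_nonneg_left h3 hδ0.le
    have h5 : δ * (-(1 + S)) = - (1 / 𝔄.card) := by
      rw [hδ]; field_simp
    simp only [v]
    linarith
  have hw1 : ∑ A ∈ 𝔄, (v A + δ * w A) = 1 := by
    rw [Finset.sum_add_distrib, ← Finset.mul_sum, h0, hv1]; simp
  have t1 := T_U (b := b) hG.chain hv0 hv1
  have t2 := T_U (b := b) (w := fun A => v A + δ * w A) hG.chain hw0 hw1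
  have t3 : ∑ A ∈ 𝔄, (v A + δ * w A) • b A = ∑ A ∈ 𝔄, v A • b A := by
    have t4 : ∑ A ∈ 𝔄, (δ * w A) • b A = 0 := by
      simp only [mul_smul]
      rw [← Finset.smul_sum, h1, smul_zero]
    rw [← add_zero (∑ A ∈ 𝔄, v A • b A), ← t4, ← Finset.sum_add_distrib]
    simp only [add_smul]
  have k1 := U_mem_K hG hv0 hv1
  have k2 := U_mem_K (w := fun A => v A + δ * w A) hG hw0 hw1
  have e : U 𝔄 (fun A => v A + δ * w A) = U 𝔄 v :=
    F.T_injOn k2 k1 (by rw [t1, t2, t3])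
  refine zero_of_sums _ 𝔄 w rfl hG.chain hG.ne fun a => ?_
  have h6 := congrFun e a
  rw [U_add] at h6
  have h7 : δ * U 𝔄 w a = 0 := by linarith
  rw [h0]
  exact (mul_eq_zero.1 h7).resolve_left hδ0.ne'

/-- an affine function with prescribed values at the barycentres of a chain of faces -/
theorem exists_affine (F : Foam La P b N) {𝔄 : Finset (Set I)} (hG : Good P 𝔄) (val : Set I → ℝ) :
    ∃ g : E →ᵃ[ℝ] ℝ, ∀ A ∈ 𝔄, g (b A) = val A := by
  classical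
  let f : (𝔄 → ℝ) →ₗ[ℝ] E × ℝ :=
    { toFun := fun w => (∑ A : 𝔄, w A • b A, ∑ A : 𝔄, w A)
      map_add' := fun w w' => by
        simp only [Pi.add_apply, add_smul, Finset.sum_add_distrib, Prod.mk_add_mk]
      map_smul' := fun r w => by
        simp only [Pi.smul_apply, smul_eq_mul, mul_smul, ← Finset.smul_sum, ← Finset.mul_sum,
          RingHom.id_apply, Prod.smul_mk] }
  have hf : LinearMap.ker f = ⊥ := by
    rw [LinearMap.ker_eq_bot']
    intro w hw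
    have h1 : ∑ A : 𝔄, w A • b A = 0 := congrArg Prod.fst hw
    have h2 : ∑ A : 𝔄, w A = 0 := congrArg Prod.snd hw
    let w' : Set I → ℝ := fun A => if h : A ∈ 𝔄 then w ⟨A, h⟩ else 0
    have hw' : ∀ A : 𝔄, w' A = w A := fun A => by simp [w']
    have h3 := ker_zero F hG (w := w') (by
      rw [← Finset.sum_coe_sort]; simpa only [hw'] using h2) (by
      rw [← Finset.sum_coe_sort]; simpa only [hw'] using h1)
    funext A
    rw [← hw' A, h3 A A.2]; rfl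
  obtain ⟨g, hg⟩ := f.exists_leftInverse_of_injective hf
  have hgf : ∀ w, g (f w) = w := fun w => by
    have := LinearMap.congr_fun hg w
    simpa using this
  let φ : E × ℝ →ₗ[ℝ] ℝ := (∑ A : 𝔄, (val A) • (LinearMap.proj A : (𝔄 → ℝ) →ₗ[ℝ] ℝ)) ∘ₗ g
  refine ⟨(φ ∘ₗ LinearMap.inl ℝ E ℝ).toAffineMap + AffineMap.const ℝ E (φ (0, 1)), fun A hA => ?_⟩
  have h4 : f (Pi.single ⟨A, hA⟩ 1) = (b A, 1) := by
    simp [f, Pi.single_apply, ite_smul]
  have h5 : φ (b A, 1) = val A := by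
    simp only [φ, LinearMap.comp_apply]
    rw [← h4, hgf]
    simp [Pi.single_apply]
  have h6 : φ (b A, 0) + φ (0, 1) = φ (b A, 1) := by
    rw [← map_add]; simp
  simpa using h6.trans h5

/-! ### the weights of a point of the cube complex -/

/-- the chain of the sublevel sets -/
theorem exists_weights {u : I → ℝ} (hfin : {c | u c < 1}.Finite) (hu : ∀ c, 0 ≤ u c ∧ u c ≤ 1)
    : ∃ (𝔄 : Finset (Set I)) (w : Set I → ℝ),
      IsChain (· ⊆ ·) (𝔄 : Set (Set I)) ∧ (∀ A ∈ 𝔄, {c | u c = 0} ⊆ A ∧ A ⊆ {c | u c < 1}) ∧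
      (∀ A ∈ 𝔄, 0 ≤ w A) ∧ ∑ A ∈ 𝔄, w A = 1 ∧ u = U 𝔄 w := by
  classical
  have hsub : ∀ τ ∈ Ioo (0 : ℝ) 1, {c | u c = 0} ⊆ {c | u c ≤ τ} ∧ {c | u c ≤ τ} ⊆ {c | u c < 1} := by
    intro τ hτ
    refine ⟨fun c (hc : u c = 0) => ?_, fun c (hc : u c ≤ τ) => hc.trans_lt hτ.2⟩
    show u c ≤ τ
    rw [hc]; exact hτ.1.le
  have hf : ((fun τ : ℝ => {c | u c ≤ τ}) '' Ioo (0 : ℝ) 1).Finite := by
    refine hfin.finite_subsets.subset ?_
    rintro _ ⟨τ, hτ, rfl⟩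
    exact (hsub τ hτ).2
  let J : Set I → Set ℝ := fun A => {τ | τ ∈ Ioo (0 : ℝ) 1 ∧ {c | u c ≤ τ} = A}
  have hJm : ∀ A, MeasurableSet (J A) := by
    intro A
    refine OrdConnected.measurableSet ⟨?_⟩
    rintro x ⟨hx, hxA⟩ y ⟨hy, hyA⟩ z ⟨hz1, hz2⟩
    refine ⟨⟨hx.1.trans_le hz1, hz2.trans_lt hy.2⟩, subset_antisymm ?_ ?_⟩
    · rw [← hyA]; exact fun c (hc : u c ≤ z) => hc.trans hz2
    · rw [← hxA]; exact fun c (hc : u c ≤ x) => hc.trans hz1
  have hJd : ∀ A B, A ≠ B → Disjoint (J A) (J B) := by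
    intro A B hAB
    rw [Set.disjoint_left]
    rintro τ ⟨-, h1⟩ ⟨-, h2⟩
    exact hAB (h1.symm.trans h2)
  have hJt : ∀ A, volume (J A) ≠ ⊤ := fun A =>
    ((measure_mono (fun τ hτ => hτ.1)).trans_lt (by simp : volume (Ioo (0 : ℝ) 1) < ⊤)).ne
  -- the key count
  have key : ∀ (𝔅 : Finset (Set I)), ∑ A ∈ 𝔅, volume.real (J A) = volume.real (⋃ A ∈ 𝔅, J A) := by
    intro 𝔅
    rw [measureReal_biUnion_finset (fun A _ B _ h => hJd A B h) (fun A _ => hJm A)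
      (fun A _ => hJt A)]
  refine ⟨hf.toFinset, fun A => volume.real (J A), ?_, ?_, fun _ _ => measureReal_nonneg, ?_, ?_⟩
  · intro A hA B hB _
    simp only [Finite.coe_toFinset] at hA hB
    obtain ⟨x, -, rfl⟩ := hA
    obtain ⟨y, -, rfl⟩ := hB
    rcases le_total x y with h | h
    · exact Or.inl fun c (hc : u c ≤ x) => hc.trans h
    · exact Or.inr fun c (hc : u c ≤ y) => hc.trans h
  · intro A hA
    simp only [Finite.mem_toFinset] at hA
    obtain ⟨x, hx, rfl⟩ := hA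
    exact hsub x hx
  · rw [key]
    have : (⋃ A ∈ hf.toFinset, J A) = Ioo (0 : ℝ) 1 := by
      ext τ
      simp only [mem_iUnion, exists_prop, Finite.mem_toFinset]
      constructor
      · rintro ⟨A, -, h, -⟩; exact h
      · intro h; exact ⟨_, ⟨τ, h, rfl⟩, h, rfl⟩
    rw [this]
    simp
  · funext a
    have e1 : U hf.toFinset (fun A => volume.real (J A)) a =
        ∑ A ∈ hf.toFinset.filter (fun A => a ∉ A), volume.real (J A) := by
      rw [U, Finset.sum_filter]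
      refine Finset.sum_congr rfl fun A _ => ?_
      split_ifs <;> simp_all
    rw [e1, key]
    have : (⋃ A ∈ hf.toFinset.filter (fun A => a ∉ A), J A) = Ioo (0 : ℝ) (u a) := by
      ext τ
      simp only [mem_iUnion, exists_prop, Finset.mem_filter, Finite.mem_toFinset]
      constructor
      · rintro ⟨A, ⟨-, ha⟩, h, rfl⟩
        exact ⟨h.1, by simpa using ha⟩
      · intro h
        have h' : τ ∈ Ioo (0 : ℝ) 1 := ⟨h.1, h.2.trans_le (hu a).2⟩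
        exact ⟨_, ⟨⟨τ, h', rfl⟩, by simpa using h.2⟩, h', rfl⟩
    rw [this]
    simp [(hu a).1]

open Classical in
/-- the chosen affine function of a chain -/
noncomputable def G (b : Set I → E) (a : I) (𝔄 : Finset (Set I)) : E →ᵃ[ℝ] ℝ :=
  if h : ∃ g : E →ᵃ[ℝ] ℝ, ∀ A ∈ 𝔄, g (b A) = if a ∈ A then 0 else 1 then h.choose else 0

/-- the coordinate `a` at `y` is the affine function of the chain of `y` -/
theorem sc_eq_G (F : Foam La P b N) {y : E} (hy : y ∈ La) (a : I) :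
    ∃ 𝔄 : Finset (Set I), (∀ A ∈ 𝔄, act P y ⊆ A ∧ (fc P A).Nonempty) ∧ sc P b y a = G b a 𝔄 y := by
  classical
  have hK := F.sc_mem_K hy
  obtain ⟨𝔄, w, hch, hA, hw0, hw1, e⟩ := exists_weights (F.K_finite hK) hK.1
  have hact : act P y = {c | sc P b y c = 0} := F.act_eq hy
  have hfc : ∀ A ∈ 𝔄, (fc P A).Nonempty := fun A h => hK.2.2.mono (fc_anti (hA A h).2)
  have hG : Good P 𝔄 := ⟨hch, fun A h => (F.K_zero_nonempty hK).mono (hA A h).1, hfc⟩
  refine ⟨𝔄, fun A h => ⟨by rw [hact]; exact (hA A h).1, hfc A h⟩, ?_⟩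
  have hex : ∃ g : E →ᵃ[ℝ] ℝ, ∀ A ∈ 𝔄, g (b A) = if a ∈ A then 0 else 1 :=
    exists_affine F hG _
  have hg : ∀ A ∈ 𝔄, G b a 𝔄 (b A) = if a ∈ A then 0 else 1 := by
    rw [G, dif_pos hex]; exact hex.choose_spec
  set g := G b a 𝔄 with hgdef
  have hT : y = ∑ A ∈ 𝔄, w A • b A := by
    rw [← T_U hch hw0 hw1, ← e, F.T_sc hy]
  have hlin : ∀ z, g z = g.linear z + g 0 := fun z => by
    have := g.map_vadd 0 z
    simpa using this
  have h1 : g y = ∑ A ∈ 𝔄, w A * g (b A) := by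
    conv_lhs => rw [hlin, hT, map_sum]
    simp only [map_smul, smul_eq_mul]
    have h3 : ∑ A ∈ 𝔄, w A * g 0 = g 0 := by rw [← Finset.sum_mul, hw1, one_mul]
    calc ∑ A ∈ 𝔄, w A * g.linear (b A) + g 0
        = ∑ A ∈ 𝔄, w A * g.linear (b A) + ∑ A ∈ 𝔄, w A * g 0 := by rw [h3]
      _ = ∑ A ∈ 𝔄, w A * g (b A) := by
        rw [← Finset.sum_add_distrib]
        refine Finset.sum_congr rfl fun A _ => ?_
        rw [hlin (b A)]
        ring
  rw [h1]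
  have h2 : sc P b y a = U 𝔄 w a := congrFun e a
  rw [h2, U]
  refine Finset.sum_congr rfl fun A hA' => ?_
  rw [hg A hA']
  split_ifs <;> simp

/-- **the foam coordinates are PL on every closed cell** -/
theorem plon_sc (F : Foam La P b N) (c a : I) : Ce_537.PLOn (fun y => sc P b y a) (P c) := by
  classical
  refine ⟨(continuousOn_sc_apply F a).mono (F.sub c), ?_⟩
  have hC : {c' | (P c' ∩ P c).Nonempty}.Finite := finite_touch F c
  have hS : {𝔄 : Finset (Set I) | (𝔄 : Set (Set I)) ⊆ {A | A ⊆ {c' | (P c' ∩ P c).Nonempty}}}.Finite := by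
    have h1 : {A : Set I | A ⊆ {c' | (P c' ∩ P c).Nonempty}}.Finite := hC.finite_subsets
    have h2 := h1.finite_subsets
    exact h2.preimage Finset.coe_injective.injOn
  refine ⟨hS.toFinset.image (G b a), fun y hy => ?_⟩
  obtain ⟨𝔄, h1, h2⟩ := sc_eq_G F (F.sub c hy) a
  refine ⟨G b a 𝔄, Finset.mem_image.2 ⟨𝔄, ?_, rfl⟩, h2⟩
  rw [Finite.mem_toFinset]
  intro A hA c' hc'
  obtain ⟨h3, z, hz⟩ := h1 A hA
  exact ⟨z, mem_fc.1 hz c' hc', mem_fc.1 hz c (h3 hy)⟩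


end Crest.Agent.R096.Exs2_647
end

-- ▼ part R096/Tl2_4
section

/-! # Row 96, TINY-LOC (helper4), part 2: the function side of a tiny core. -/

set_option autoImplicit false
set_option linter.unusedSectionVars false

open Set Filter Topology Metric MeasureTheory

namespace Crest.Agent.R096.Tl_4

open Crest.Agent.R096.Brk1_582 Crest.Agent.R096.Brk2_582 Crest.Agent.R096.Brk3_582
open Crest.Agent.R096.Brk5_582 Crest.Agent.R096.Bsp_628
open Crest.Agent.R096.SkC1_961 (E3 Hom3 FoamD)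
open Crest.Agent.R096.Msh_715 Crest.Agent.R096.Vb_965
open Crest.Agent.R096.Mbf_337 (gau KJ RayTo Tiny sb)
open Crest.Agent.R096.Ce_537 (PLOn PLEquiv IsBall)
open Crest.Agent.R096.Sphg_316 Crest.Agent.R096.Tms_582 Crest.Agent.R096.Msh_810
open Crest.Agent.R096.Tlo_715
open Crest.Agent.R96.Push_899

variable {δ κ0 Rc c0 : ℝ} {La Om : Set E3}

/-- SPHERE data in `E3` (539 #10454 (A)) -/
structure SphE (Φ : FoamD δ κ0 Rc c0 La) (c : Φ.F) (Om : Set E3) (f : E3 → E3) (ρ₁ ρ₂ ε : ℝ)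
    (φ : E3 → ℝ) (a b : ℝ) (Θ : E3 → E3) : Prop where
  ab : a < b
  pl : PLOn φ univ
  plT : PLOn Θ {x | a ≤ φ x ∧ φ x ≤ b}
  lt : ∀ x, φ x ≤ b → x ∈ Om ∧ gau c.1 (Φ.B c).lo (f x) < ρ₂
  inn : ∀ x ∈ Om, gau c.1 (Φ.B c).lo (f x) ≤ ρ₁ → φ x < a
  near : ∀ x, a ≤ φ x → φ x ≤ b → ‖Θ x - Φ.Psi (f x)‖ ≤ ε
  ball : ∀ t ∈ Icc a b, IsBall 3 {x | φ x ≤ t} {x | φ x = t}
  bij : ∀ t ∈ Icc a b, ∃ θ : PLEquiv {x | φ x = t} (frontier c.1.set), EqOn θ.f Θ {x | φ x = t}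

section tr

/-- translation as a PL equivalence -/
def trE (w : E3) (A : Set E3) : PLEquiv ((fun x => x - w) ⁻¹' A) A where
  f x := x - w
  g y := y + w
  pf := by
    have := Ce_537.plOn_affine (AffineMap.id ℝ E3 - AffineMap.const ℝ E3 w) ((fun x => x - w) ⁻¹' A)
    exact this
  pg := by
    have := Ce_537.plOn_affine (AffineMap.id ℝ E3 + AffineMap.const ℝ E3 w) A
    exact this
  mf _ hx := hx
  mg y hy := by
    show y + w - w ∈ A
    rw [add_sub_cancel_right]; exact hy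
  li x _ := sub_add_cancel x w
  ri y _ := add_sub_cancel_right y w

theorem isBall_tr {k : ℕ} {K dK : Set E3} (h : IsBall k K dK) (w : E3) :
    IsBall k ((fun x => x - w) ⁻¹' K) ((fun x => x - w) ⁻¹' dK) := by
  have h1 := h.map (trE w K).symm
  have h2 : (trE w K).symm.f '' dK = (fun x => x - w) ⁻¹' dK := by
    ext x
    constructor
    · rintro ⟨y, hy, rfl⟩
      show y + w - w ∈ dK
      rw [add_sub_cancel_right]; exact hy
    · intro hx
      exact ⟨x - w, hx, sub_add_cancel x w⟩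
  rwa [h2] at h1

end tr

/-- small sublevels of the gauge are near `x₀` -/
theorem small_gau (Φ : FoamD δ κ0 Rc c0 La) (hLa : IsOpen La) {f : E3 → E3} (hf : Hom3 f Om La)
    {c : Φ.F} (hpt : (Φ.B c).lo = (Φ.B c).hi) {x₀ : E3} (hx₀ : x₀ ∈ Om)
    (hfx : f x₀ = (Φ.B c).lo) {r : ℝ} (hr : 0 < r) :
    ∃ s > 0, ∀ x ∈ Om, gau c.1 (Φ.B c).lo (f x) ≤ s → x ∈ ball x₀ r := by
  obtain ⟨fi, a1, a2, a3, a4, a5, a6⟩ := hf
  have hlo : (Φ.B c).lo ∈ La := hfx ▸ a1 hx₀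
  have hc : ContinuousAt fi (Φ.B c).lo := a6.continuousAt (hLa.mem_nhds hlo)
  have hfi : fi (Φ.B c).lo = x₀ := by rw [← hfx, a3 x₀ hx₀]
  have hU : fi ⁻¹' ball x₀ r ∈ 𝓝 (Φ.B c).lo :=
    hc.preimage_mem_nhds (by rw [hfi]; exact ball_mem_nhds _ hr)
  obtain ⟨s, hs, -, h⟩ := (Pse_316.bod_brick Φ c hpt).small hU
  refine ⟨s, hs, fun x hx hxs => ?_⟩
  have h1 : f x ∈ fi ⁻¹' ball x₀ r := h s le_rfl (by
    show Ng (Φ.B c).lo c.1.set (f x) ≤ s
    rw [← Pse_316.gau_eq]; exact hxs)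
  rw [mem_preimage, a3 x hx] at h1
  exact h1

end Crest.Agent.R096.Tl_4
end

-- ▼ part R096/Tl3_4

/-! # Row 96, TINY-LOC (helper4), part 3: `TinyLoc` from SPHERE in `E3`. -/

set_option autoImplicit false
set_option linter.unusedSectionVars false

open Set Filter Topology Metric MeasureTheory

namespace Crest.Agent.R096.Tl_4

open Crest.Agent.R096.Brk1_582 Crest.Agent.R096.Brk2_582 Crest.Agent.R096.Brk3_582
open Crest.Agent.R096.Brk5_582 Crest.Agent.R096.Bsp_628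
open Crest.Agent.R096.SkC1_961 (E3 Hom3 FoamD)
open Crest.Agent.R096.Msh_715 Crest.Agent.R096.Vb_965
open Crest.Agent.R096.Mbf_337 (gau KJ RayTo Tiny sb)
open Crest.Agent.R096.Ce_537 (PLOn PLEquiv IsBall)
open Crest.Agent.R096.Sphg_316 Crest.Agent.R096.Tms_582 Crest.Agent.R096.Msh_810
open Crest.Agent.R096.Tlo_715
open Crest.Agent.R96.Push_899

variable {δ κ0 Rc c0 : ℝ} {La Om : Set E3}

/-- the functions which must be affine on the cells of the boundary of the core -/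
theorem exists_Fs (Φ : FoamD δ κ0 Rc c0 La) (hLa : IsOpen La) {f : E3 → E3} {c : Φ.F}
    {ρ₁ ρ₂ ε a b : ℝ} {φ : E3 → ℝ} {Θ : E3 → E3} (hS : SphE Φ c Om f ρ₁ ρ₂ ε φ a b Θ) :
    ∃ Fs : Finset (E3 → ℝ), (∀ F ∈ Fs, PLOn F {x | a ≤ φ x ∧ φ x ≤ b}) ∧
      (∀ k, (fun y => Θ y k) ∈ Fs) ∧
      ∀ a' : Φ.F, (fun y => sb Φ (Θ y) a') ∈ Fs ∨ ∀ x ∈ {x | a ≤ φ x ∧ φ x ≤ b}, sb Φ (Θ x) a' = 1 := by
  classical
  have FF := foam Φ.bf hLa
  have hN := finite_N Φ hLa c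
  have hm : ∀ x ∈ {x | a ≤ φ x ∧ φ x ≤ b}, Θ x ∈ Pc Φ.F c := by
    intro x hx
    obtain ⟨θ, hθ⟩ := hS.bij (φ x) hx
    have h1 := θ.mf (show x ∈ {y | φ y = φ x} from rfl)
    rw [hθ (show x ∈ {y | φ y = φ x} from rfl)] at h1
    exact (FF.cpt c).isClosed.frontier_subset h1
  refine ⟨Finset.univ.image (fun k : Fin 3 => fun y => Θ y k) ∪
    hN.toFinset.image (fun a' : Φ.F => fun y => sb Φ (Θ y) a'), ?_, ?_, ?_⟩
  · intro F hF
    rcases Finset.mem_union.1 hF with h | h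
    · obtain ⟨k, -, rfl⟩ := Finset.mem_image.1 h
      have h1 : PLOn (fun y : E3 => y k) univ := Ce_537.plOn_affine
        (ContinuousLinearMap.proj (R := ℝ) (φ := fun _ : Fin 3 => ℝ) k).toLinearMap.toAffineMap univ
      exact h1.comp hS.plT (mapsTo_univ _ _)
    · obtain ⟨a', -, rfl⟩ := Finset.mem_image.1 h
      exact (Exs2_647.plon_sc FF c a').comp hS.plT hm
  · intro k
    exact Finset.mem_union_left _ (Finset.mem_image_of_mem _ (Finset.mem_univ k))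
  · intro a'
    by_cases h : (Pc Φ.F a' ∩ Pc Φ.F c).Nonempty
    · left
      exact Finset.mem_union_right _ (Finset.mem_image_of_mem _ (hN.mem_toFinset.2 h))
    · right
      intro x hx
      exact Dic2_582.sc_eq_one_of_not_touch FF h (hm x hx)

/-- the data of a tiny core on the side of the function -/
structure Core (Φ : FoamD δ κ0 Rc c0 La) (Om : Set E3) (f : E3 → E3) (κ1 : ℝ) (c : Φ.F) (x₀ : E3)
    (R ρ d η μ a b : ℝ) (φ : E3 → ℝ) (Θ : E3 → E3) : Prop where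
  hR : 0 < R
  hOm : closedBall x₀ R ⊆ Om
  pt : (Φ.B c).lo = (Φ.B c).hi
  fx : f x₀ = (Φ.B c).lo
  inn : ∀ x ∈ closedBall x₀ R, f x ∈ inn Φ c
  d0 : 0 < d
  dκ : d ≤ κ1
  dρ : d ≤ ρ / 256
  ρ0 : 0 < ρ
  ρ1 : ρ < 1
  ray : RayTo Φ c ρ
  sm : ∀ x ∈ Om, gau c.1 (Φ.B c).lo (f x) ≤ ρ → x ∈ ball x₀ (R / 16)
  S : SphE Φ c Om f (5 * ρ / 16) (7 * ρ / 16) (d * c.1.sz / 2) φ a b Θ
  η0 : 0 < η
  ηR : 4 * η ≤ R / 8
  ηg : ∀ x ∈ closedBall x₀ (4 * η), gau c.1 (Φ.B c).lo (f x) < ρ / 8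
  μ0 : 0 < μ
  osc : ∀ x ∈ closedBall x₀ R \ ball x₀ (η / 2), ∀ y ∈ closedBall x₀ R \ ball x₀ (η / 2),
    ‖x - y‖ ≤ μ →
      |gau c.1 (Φ.B c).lo (f x) - gau c.1 (Φ.B c).lo (f y)| ≤ d ∧
      ‖Φ.Psi (f x) - Φ.Psi (f y)‖ ≤ d * c.1.sz / 2 ∧ ∀ c' : Φ.F, |Φ.lev c' (f x) - Φ.lev c' (f y)| ≤ d ∧
        (Φ.Psi (f x) ∈ c'.1.set → ‖Φ.Psi (f y) - Φ.Psi (f x)‖ ≤ d * c'.1.sz)

theorem exists_core (Φ : FoamD δ κ0 Rc c0 La) (hLa : IsOpen La) {f : E3 → E3} (hf : Hom3 f Om La)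
    {c : Φ.F} (hpt : (Φ.B c).lo = (Φ.B c).hi) {x₀ : E3} (hfx : f x₀ = (Φ.B c).lo)
    {R : ℝ} (hR : 0 < R) (hOm : closedBall x₀ R ⊆ Om) (hin : ∀ x ∈ closedBall x₀ R, f x ∈ inn Φ c)
    {κ1 : ℝ} (hκ : 0 < κ1)
    (SPH : ∃ r > 0, ∀ ρ₁ ρ₂ ε : ℝ, 0 < ρ₁ → ρ₁ < ρ₂ → ρ₂ ≤ r → 0 < ε →
      ∃ φ a b Θ, SphE Φ c Om f ρ₁ ρ₂ ε φ a b Θ) :
    ∃ ρ d η μ a b φ Θ, Core Φ Om f κ1 c x₀ R ρ d η μ a b φ Θ := by
  have hx₀R : x₀ ∈ closedBall x₀ R := mem_closedBall_self hR.le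
  have hx₀ : x₀ ∈ Om := hOm hx₀R
  have hsz : 0 < c.1.sz := Bx.sz_pos (Φ.bf.pos _ c.2)
  obtain ⟨r0, hr0, hr01, hray⟩ := Pse_316.rayTo Φ hLa c hpt
  obtain ⟨r, hr, hSPH⟩ := SPH
  obtain ⟨r1, hr1, hsm⟩ := small_gau Φ hLa hf hpt hx₀ hfx (show 0 < R / 16 by positivity)
  set ρ := min (min r0 r) (min r1 (1 / 2)) with hρd
  have hρ : 0 < ρ := lt_min (lt_min hr0 hr) (lt_min hr1 (by norm_num))
  have hρ0 : ρ ≤ r0 := (min_le_left _ _).trans (min_le_left _ _)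
  have hρr : ρ ≤ r := (min_le_left _ _).trans (min_le_right _ _)
  have hρ1 : ρ ≤ r1 := (min_le_right _ _).trans (min_le_left _ _)
  have hρh : ρ ≤ 1 / 2 := (min_le_right _ _).trans (min_le_right _ _)
  set d := min κ1 (ρ / 256) with hd
  have hd0 : 0 < d := lt_min hκ (by positivity)
  obtain ⟨φ, a, b, Θ, hS⟩ := hSPH (5 * ρ / 16) (7 * ρ / 16) (d * c.1.sz / 2) (by positivity)
    (by linarith) (by linarith) (by positivity)
  -- continuity
  obtain ⟨fi, a1, a2, a3, a4, a5, a6⟩ := id hf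
  have hfc : ContinuousOn f (closedBall x₀ R) := a5.mono hOm
  have hb := Pse_316.bod_brick Φ c hpt
  have hg0 : gau c.1 (Φ.B c).lo (f x₀) < ρ / 8 := by
    rw [Pse_316.gau_eq, hfx, Ng_self]; positivity
  have hgc : ContinuousOn (fun x => gau c.1 (Φ.B c).lo (f x)) (closedBall x₀ R) := by
    have : (fun x => gau c.1 (Φ.B c).lo (f x)) = fun x => Ng (Φ.B c).lo c.1.set (f x) :=
      funext fun x => Pse_316.gau_eq _ _ _
    rw [this]
    exact hb.continuous.comp_continuousOn hfc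
  have hgx : ContinuousAt (fun x => gau c.1 (Φ.B c).lo (f x)) x₀ :=
    hgc.continuousAt (closedBall_mem_nhds x₀ hR)
  obtain ⟨q, hq, hq'⟩ := Metric.mem_nhds_iff.1 (hgx.preimage_mem_nhds (Iio_mem_nhds hg0))
  set η := min (q / 8) (R / 32) with hη
  have hη0 : 0 < η := lt_min (by positivity) (by positivity)
  have hηq : η ≤ q / 8 := min_le_left _ _
  have hηR : η ≤ R / 32 := min_le_right _ _
  -- the compact set
  have hA : IsCompact (closedBall x₀ R \ ball x₀ (η / 2)) :=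
    (isCompact_closedBall x₀ R).diff isOpen_ball
  obtain ⟨μ, hμ, hosc⟩ := exists_osc Φ hLa hpt hA (hfc.mono sdiff_subset) (fun x hx => hin x hx.1)
    (fun x hx hxe => hx.2 (by
      have : x = x₀ := by rw [← a3 x (hOm hx.1), hxe, ← hfx, a3 x₀ hx₀]
      rw [this]; exact mem_ball_self (by positivity)))
    (show 0 < min d (d * c.1.sz / 2) from lt_min hd0 (by positivity))
  refine ⟨ρ, d, η, μ, a, b, φ, Θ, ⟨hR, hOm, hpt, hfx, hin, hd0, min_le_left _ _, min_le_right _ _, hρ,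
    by linarith, fun y hy hyr => hray ρ hρ hρ0 y hy hyr, fun x hx hxr => hsm x hx (hxr.trans hρ1),
    hS, hη0, by linarith, fun x hx => hq' ?_, hμ, fun x hx y hy hxy => ?_⟩⟩
  · rw [mem_ball]
    rw [mem_closedBall] at hx
    linarith
  · obtain ⟨h1, h2, h3⟩ := hosc x hx y hy hxy
    exact ⟨h1.trans (min_le_left _ _), h2.trans (min_le_right _ _), fun c' =>
      ⟨(h3 c').1.trans (min_le_left _ _), fun hc' => ((h3 c').2 hc').trans
        (mul_le_mul_of_nonneg_right (min_le_left _ _) (Bx.sz_pos (Φ.bf.pos _ c'.2)).le)⟩⟩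

section zone

variable {Φ : FoamD δ κ0 Rc c0 La} {f : E3 → E3} {κ1 : ℝ} {c : Φ.F} {x₀ : E3}
    {R ρ d η μ a b : ℝ} {φ : E3 → ℝ} {Θ : E3 → E3}

theorem Core.lt_a (C : Core Φ Om f κ1 c x₀ R ρ d η μ a b φ Θ) {x : E3}
    (hx : x ∈ closedBall x₀ (4 * η)) : φ x < a := by
  have h0 := C.ηR
  have hR := C.hR
  have hx' : x ∈ closedBall x₀ R := closedBall_subset_closedBall (by linarith) hx
  have h1 := C.ηg x hx
  have h2 := C.ρ0
  exact C.S.inn x (C.hOm hx') (by linarith)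

theorem Core.sub (C : Core Φ Om f κ1 c x₀ R ρ d η μ a b φ Θ) {x : E3} (hx : φ x ≤ b) :
    x ∈ ball x₀ (R / 16) := by
  have h1 := C.S.lt x hx
  have h2 := C.ρ0
  exact C.sm x h1.1 (by linarith [h1.2])

theorem Core.sub8 (C : Core Φ Om f κ1 c x₀ R ρ d η μ a b φ Θ) : {x | φ x ≤ b} ⊆ ball x₀ (R / 8) :=
  fun _ hx => ball_subset_ball (by linarith [C.hR]) (C.sub hx)

variable {ι : Type} {T : Tiling Om ι} {κ : Type} {H : κ → Finset ((E3 →L[ℝ] ℝ) × ℝ)}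
  {Zc : Finset (Fin 3 → ℤ)} {e : κ → ι} {k : ℕ} {w : E3} {Fs : Finset (E3 → ℝ)} {a' t : ℝ}
  {J : Set κ}

theorem norm_w (hw : ∀ i, 0 ≤ w i ∧ w i ≤ (2 : ℝ)⁻¹ ^ k) : ‖w‖ ≤ (2 : ℝ)⁻¹ ^ k := by
  rw [pi_norm_le_iff_of_nonneg (by positivity)]
  intro i
  rw [Real.norm_eq_abs, abs_of_nonneg (hw i).1]
  exact (hw i).2

/-- the tiles near the hole -/
def JJ0 (H : κ → Finset ((E3 →L[ℝ] ℝ) × ℝ)) (J : Set κ) (x₀ : E3) (η : ℝ) : Set κ :=
  {j | j ∈ J ∧ (P (H j) ∩ closedBall x₀ η).Nonempty}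

/-- open tiles near `x₀` are in `J0` -/
theorem Core.mem_J0 (C : Core Φ Om f κ1 c x₀ R ρ d η μ a b φ Θ)
    (hkη : (2 : ℝ)⁻¹ ^ k ≤ η / 4) (hw : ‖w‖ ≤ (2 : ℝ)⁻¹ ^ k)
    (hZ : InZone T x₀ R k w Zc H e) (Z : ZoneOK T (e '' J) φ Fs x₀ R k w a' t) (hta : a ≤ t)
    {i : ι} {x : E3} (hxi : x ∈ I (T.H i)) (hx : x ∈ ball x₀ (η / 2)) :
    i ∈ e '' (JJ0 H J x₀ η) := by
  have hη := C.η0
  have hxw : ‖x - w - x₀‖ < η / 2 + η / 4 := by
    have : x - w - x₀ = (x - x₀) - w := by abel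
    rw [this]
    have h1 : ‖x - x₀‖ < η / 2 := by rwa [mem_ball, dist_eq_norm] at hx
    linarith [norm_sub_le (x - x₀) w]
  have h1 : φ (x - w) < a := C.lt_a (by rw [mem_closedBall, dist_eq_norm]; linarith)
  have h2 : x ∈ KJ T (e '' J) := by rw [Z.KJ_eq]; exact h1.le.trans hta
  obtain ⟨i', ⟨j, hj, rfl⟩, hxi'⟩ := mem_KJ.1 h2
  have h3 := T.at_eq_singleton hxi
  have h4 : e j ∈ T.at_ x := hxi'
  rw [h3] at h4
  have h5 : e j = i := h4
  refine ⟨j, ⟨hj, x - w, ?_, ?_⟩, h5⟩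
  · rw [hZ.loc j] at hxi'
    exact mem_P_trH.1 hxi'
  · rw [mem_closedBall, dist_eq_norm]; linarith

/-- tiles in the ball off `J0` are off the small ball -/
theorem Core.tile_A (C : Core Φ Om f κ1 c x₀ R ρ d η μ a b φ Θ)
    (hkη : (2 : ℝ)⁻¹ ^ k ≤ η / 4) (hw : ‖w‖ ≤ (2 : ℝ)⁻¹ ^ k)
    (hZ : InZone T x₀ R k w Zc H e) (Z : ZoneOK T (e '' J) φ Fs x₀ R k w a' t) (hta : a ≤ t)
    {i : ι} (hi : i ∉ e '' (JJ0 H J x₀ η)) (hiR : P (T.H i) ⊆ closedBall x₀ R)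
    {x : E3} (hx : x ∈ P (T.H i)) : x ∈ closedBall x₀ R \ ball x₀ (η / 2) := by
  refine ⟨hiR hx, fun hxb => hi ?_⟩
  have h1 := P_sub_closure_I (T.ne i) hx
  obtain ⟨y, hy1, hy2⟩ := mem_closure_iff.1 h1 _ isOpen_ball hxb
  exact C.mem_J0 hkη hw hZ Z hta hy2 hy1

/-- estimates on a tile off `J0` -/
theorem Core.tile_osc (C : Core Φ Om f κ1 c x₀ R ρ d η μ a b φ Θ) (hkμ : (2 : ℝ)⁻¹ ^ k ≤ μ)
    (hkη : (2 : ℝ)⁻¹ ^ k ≤ η / 4) (hw : ‖w‖ ≤ (2 : ℝ)⁻¹ ^ k)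
    (hZ : InZone T x₀ R k w Zc H e) (Z : ZoneOK T (e '' J) φ Fs x₀ R k w a' t) (hta : a ≤ t)
    {i : ι} (hi : i ∉ e '' (JJ0 H J x₀ η)) (hiR : P (T.H i) ⊆ closedBall x₀ R)
    {x y : E3} (hx : x ∈ P (T.H i)) (hy : y ∈ P (T.H i)) :
      |gau c.1 (Φ.B c).lo (f x) - gau c.1 (Φ.B c).lo (f y)| ≤ d ∧
      ‖Φ.Psi (f x) - Φ.Psi (f y)‖ ≤ d * c.1.sz / 2 ∧ ∀ c' : Φ.F, |Φ.lev c' (f x) - Φ.lev c' (f y)| ≤ d ∧
        (Φ.Psi (f x) ∈ c'.1.set → ‖Φ.Psi (f y) - Φ.Psi (f x)‖ ≤ d * c'.1.sz) :=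
  C.osc x (C.tile_A hkη hw hZ Z hta hi hiR hx) y (C.tile_A hkη hw hZ Z hta hi hiR hy)
    (by
      have := Z.far i ⟨x, hx, hiR hx⟩ x hx y hy
      rw [dist_eq_norm] at this
      exact this.trans hkμ)

/-- estimates on the slices -/
theorem Core.slice_osc (C : Core Φ Om f κ1 c x₀ R ρ d η μ a b φ Θ) (hkμ : (2 : ℝ)⁻¹ ^ k ≤ μ)
    (hkη : (2 : ℝ)⁻¹ ^ k ≤ η / 4) (hw : ‖w‖ ≤ (2 : ℝ)⁻¹ ^ k) {x : E3} (hxa : a ≤ φ (x - w))
    (hxb : φ (x - w) ≤ b) :
      (ρ / 4 ≤ gau c.1 (Φ.B c).lo (f x) ∧ gau c.1 (Φ.B c).lo (f x) ≤ ρ / 2) ∧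
      ‖Θ (x - w) - Φ.Psi (f x)‖ ≤ d * c.1.sz := by
  have hη := C.η0
  have hηR := C.ηR
  have hR := C.hR
  have hρ := C.ρ0
  have hdρ := C.dρ
  have h1 := C.sub hxb
  rw [mem_ball, dist_eq_norm] at h1
  have h2 : 4 * η < ‖x - w - x₀‖ := by
    by_contra h
    have h3 := C.lt_a (x := x - w) (by rw [mem_closedBall, dist_eq_norm]; linarith)
    linarith
  have h3 : x - x₀ = (x - w - x₀) + w := by abel
  have h4 : ‖x - x₀‖ ≤ R / 16 + η / 4 := by
    rw [h3]; linarith [norm_add_le (x - w - x₀) w]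
  have h5 : η / 2 ≤ ‖x - x₀‖ := by
    rw [h3]
    have := norm_sub_norm_le (x - w - x₀) (-w)
    rw [sub_neg_eq_add, norm_neg] at this
    linarith
  have hxA : x ∈ closedBall x₀ R \ ball x₀ (η / 2) :=
    ⟨by rw [mem_closedBall, dist_eq_norm]; linarith, by rw [mem_ball, dist_eq_norm]; linarith⟩
  have hxA' : x - w ∈ closedBall x₀ R \ ball x₀ (η / 2) :=
    ⟨by rw [mem_closedBall, dist_eq_norm]; linarith, by rw [mem_ball, dist_eq_norm]; linarith⟩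
  obtain ⟨o1, o2, -⟩ := C.osc x hxA (x - w) hxA' (by rw [sub_sub_cancel]; exact hw.trans hkμ)
  have l1 := (C.S.lt (x - w) hxb).2
  have l2 : 5 * ρ / 16 < gau c.1 (Φ.B c).lo (f (x - w)) := by
    by_contra h
    have := C.S.inn (x - w) (C.hOm hxA'.1) (not_lt.1 h)
    linarith
  rw [abs_le] at o1
  refine ⟨⟨by linarith [o1.1], by linarith [o1.2]⟩, ?_⟩
  have h6 := C.S.near (x - w) hxa hxb
  have h7 : Θ (x - w) - Φ.Psi (f x) = (Θ (x - w) - Φ.Psi (f (x - w))) -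
      (Φ.Psi (f x) - Φ.Psi (f (x - w))) := by abel
  rw [h7]
  linarith [norm_sub_le (Θ (x - w) - Φ.Psi (f (x - w))) (Φ.Psi (f x) - Φ.Psi (f (x - w)))]

theorem Core.tiny (C : Core Φ Om f κ1 c x₀ R ρ d η μ a b φ Θ)
    (hkμ : (2 : ℝ)⁻¹ ^ k ≤ μ)
    (hkη : (2 : ℝ)⁻¹ ^ k ≤ η / 4) (hw : ‖w‖ ≤ (2 : ℝ)⁻¹ ^ k) (hzc : ∀ j, ∀ x ∈ P (H j), ∀ y ∈ P (H j),
      dist x y ≤ (2 : ℝ)⁻¹ ^ k)
    (hFs1 : ∀ i, (fun y => Θ y i) ∈ Fs) (hFs2 : ∀ a' : Φ.F, (fun y => sb Φ (Θ y) a') ∈ Fs ∨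
      ∀ x ∈ {x | a ≤ φ x ∧ φ x ≤ b}, sb Φ (Θ x) a' = 1)
    (haa : a ≤ a') (hat : a' < t) (htb : t < b)
    (hZ : InZone T x₀ R k w Zc H e) (Z : ZoneOK T (e '' J) φ Fs x₀ R k w a' t)
    {V : Set ι} (hVe : range e ⊆ V) (hVR : ∀ i ∈ V, P (T.H i) ⊆ closedBall x₀ R)
    (hVR' : ∀ i, (P (T.H i) ∩ closedBall x₀ (R / 2)).Nonempty → i ∈ V)
    (hreg : RegV T f V) (hx₀ : ∃ i, x₀ ∈ I (T.H i)) :
    Tiny Φ T f κ1 c (e '' JJ0 H J x₀ η) (e '' J) V (fun x => Θ (x - w)) (fun x => φ (x - w)) := by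
  have hR := C.hR
  have hη := C.η0
  have hηR := C.ηR
  have hρ := C.ρ0
  have hρ1 := C.ρ1
  have hd0 := C.d0
  have hdρ := C.dρ
  have hta : a ≤ t := haa.trans hat.le
  have htI : t ∈ Icc a b := ⟨hta, htb.le⟩
  have hsz : 0 < c.1.sz := Bx.sz_pos (Φ.bf.pos _ c.2)
  have hfr : ∀ x, x ∈ frontier (KJ T (e '' J)) ↔ φ (x - w) = t := fun x => by
    rw [Z.fr]; rfl
  have hKJ : ∀ x, x ∈ KJ T (e '' J) ↔ φ (x - w) ≤ t := fun x => by
    rw [Z.KJ_eq]; rfl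
  have hccf : ∀ x, φ (x - w) = t → ∀ y ∈ T.cc x, φ (y - w) = t := fun x hx y hy => Z.cc_sub x hx hy
  refine
  { pt := C.pt
    finV := (T.finite_tiles (isCompact_closedBall x₀ R) C.hOm).subset fun i hi => by
      obtain ⟨z, hz⟩ := T.ne i
      exact ⟨z, I_sub_P _ hz, hVR i hi (I_sub_P _ hz)⟩
    sub0 := image_mono fun j hj => hj.1
    sub := (image_subset_range e J).trans hVe
    ball := ?_, mem := ?_, inside := ?_, room := ?_, bij := ?_, aff := ?_, lin := ?_, tr := ?_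
    st := ?_, reg := hreg, slice := ?_ }
  · -- ball
    rw [Z.fr, Z.KJ_eq]
    exact isBall_tr (C.S.ball t htI) w
  · -- mem
    obtain ⟨i, hi⟩ := hx₀
    exact ⟨i, C.mem_J0 hkη hw hZ Z hta hi (mem_ball_self (by positivity)), x₀, hi, C.fx⟩
  · -- inside
    intro x hx
    obtain ⟨i, hi, hxi⟩ := mem_KJ.1 hx
    exact C.inn x (hVR i hi hxi)
  · -- room
    refine ⟨ρ / 8, ρ / 4, ρ / 2, ρ, d, hd0, C.dκ, by positivity, by linarith, by linarith, by linarith,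
      hρ1, C.ray, ?_, ?_, ?_, ?_, ?_⟩
    · intro x hx
      obtain ⟨-, ⟨j, ⟨hj, y, hy1, hy2⟩, rfl⟩, hxj⟩ := mem_KJ.1 hx
      apply C.ηg
      rw [hZ.loc j, mem_P_trH] at hxj
      have h1 := hzc j _ hxj _ hy1
      rw [dist_eq_norm] at h1
      rw [mem_closedBall, dist_eq_norm] at hy2 ⊢
      have h2 : x - x₀ = (x - w - y) + (y - x₀) + w := by abel
      rw [h2]
      have h3 := norm_add_le ((x - w - y) + (y - x₀)) w
      have h4 := norm_add_le (x - w - y) (y - x₀)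
      linarith
    · intro x hx
      rw [hfr] at hx
      exact (C.slice_osc hkμ hkη hw (x := x) (by rw [hx]; exact hta) (by rw [hx]; exact htb.le)).1
    · rintro i ⟨x, hx, hxρ⟩
      have h1 := C.sm x (T.sub i hx) hxρ
      exact hVR' i ⟨x, hx, (ball_subset_ball (by linarith)).trans ball_subset_closedBall h1⟩
    · intro i hi hi0 x hx y hy
      obtain ⟨o1, o2, o3⟩ := C.tile_osc hkμ hkη hw hZ Z hta hi0 (hVR i hi) hx hy
      exact ⟨o1, by linarith [mul_pos hd0 hsz], fun c' => (o3 c').1⟩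
    · intro x hx
      rw [hfr] at hx
      exact (C.slice_osc hkμ hkη hw (x := x) (by rw [hx]; exact hta) (by rw [hx]; exact htb.le)).2
  · -- bij
    obtain ⟨θ, hθ⟩ := C.S.bij t htI
    rw [Z.fr]
    exact ⟨(trE w {x | φ x = t}).trans θ, fun x hx => hθ hx⟩
  · -- aff
    intro x hx _
    rw [hfr] at hx
    have h1 : ∀ i : Fin 3, ∃ g : E3 →ᵃ[ℝ] ℝ, ∀ y ∈ T.cc x, Θ (y - w) i = g y :=
      fun i => Z.aff _ (hFs1 i) x hx
    choose g hg using h1
    refine ⟨AffineMap.pi g, fun y hy => ?_⟩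
    funext i
    exact hg i y hy
  · -- lin
    intro x hx _ a₁
    rw [hfr] at hx
    rcases hFs2 a₁ with h | h
    · exact Z.aff _ h x hx
    · refine ⟨AffineMap.const ℝ E3 1, fun y hy => ?_⟩
      have h1 := hccf x hx y hy
      exact h (y - w) ⟨by rw [h1]; exact hta, by rw [h1]; exact htb.le⟩
  · -- tr
    intro x hx _ hne
    rw [hKJ] at hx
    by_cases hxt : φ (x - w) = t
    · left
      intro y hy
      rw [hfr]
      exact hccf x hxt y hy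
    · right
      obtain ⟨y, hy, hyf⟩ := hne
      rw [hfr] at hyf
      obtain ⟨z, hz1, hz2, hz3⟩ := Z.tr x hx hxt ⟨y, hy, hyf⟩
      refine ⟨z, (hfr z).2 hz1, ?_, hz3⟩
      rw [Z.fr]; exact hz2
  · -- st
    intro z hz
    rw [hfr] at hz
    obtain ⟨x, h1, h2, h3, h4⟩ := Z.st z hz
    refine ⟨x, (hKJ x).2 h1.le, fun h => h1.ne ((hfr x).1 h), h2, h3, fun y hy hyf hzy => ?_⟩
    rw [hKJ] at hy
    rw [hfr] at hyf
    exact h4 y (lt_of_le_of_ne hy hyf) hzy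
  · -- slice
    have hφc : Continuous φ := continuousOn_univ.1 C.S.pl.1
    refine ⟨a', t, hat, (hφc.comp (continuous_id.sub continuous_const)).continuousOn, Z.sl1,
      fun x hx => ⟨(hKJ x).1 hx, (hfr x).symm⟩, fun v hv hv0 => Z.sl2 v ((hKJ v).1 hv) hv0⟩

end zone

/-- **TINY-LOC from SPHERE in `E3`** -/
theorem tiny_loc_of (Φ : FoamD δ κ0 Rc c0 La) (hLa : IsOpen La) {f : E3 → E3} (hf : Hom3 f Om La)
    {c : Φ.F} (hpt : (Φ.B c).lo = (Φ.B c).hi) {x₀ : E3} (hfx : f x₀ = (Φ.B c).lo)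
    {R : ℝ} (hR : 0 < R) (hOm : closedBall x₀ R ⊆ Om)
    (hin : ∀ x ∈ closedBall x₀ R, ∀ k, c.1.lo k < f x k ∧ f x k < c.1.hi k)
    {κ1 : ℝ} (hκ : 0 < κ1)
    (SPH : ∃ r > 0, ∀ ρ₁ ρ₂ ε : ℝ, 0 < ρ₁ → ρ₁ < ρ₂ → ρ₂ ≤ r → 0 < ε →
      ∃ φ a b Θ, SphE Φ c Om f ρ₁ ρ₂ ε φ a b Θ) : TinyLoc Φ Om f κ1 c x₀ R := by
  obtain ⟨ρ, d, η, μ, a, b, φ, Θ, C⟩ := exists_core Φ hLa hf hpt hfx hR hOm hin hκ SPH
  obtain ⟨Fs, hFs, hFs1, hFs2⟩ := exists_Fs Φ hLa C.S
  obtain ⟨k0, hk0⟩ := exists_mesh_loc x₀ hR C.S.ab C.S.pl C.sub8 Fs hFs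
  obtain ⟨k1, hk1⟩ := exists_pow_lt_of_lt_one (lt_min C.μ0 (show 0 < η / 4 by linarith [C.η0]))
    (by norm_num : (2 : ℝ)⁻¹ < 1)
  refine ⟨max k0 k1, fun k hk => ?_⟩
  have hk' : (2 : ℝ)⁻¹ ^ k ≤ min μ (η / 4) :=
    (pow_le_pow_of_le_one (by norm_num) (by norm_num) ((le_max_right _ _).trans hk)).trans hk1.le
  have hkμ := hk'.trans (min_le_left _ _)
  have hkη := hk'.trans (min_le_right _ _)
  obtain ⟨Zc, κ, H, J, a', t, haa, hat, htb, hrepl, hcu, hjz, -, -, -, hZZ⟩ :=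
    hk0 k ((le_max_left _ _).trans hk)
  refine ⟨Zc, κ, H, JJ0 H J x₀ η, J, Θ, φ, hrepl, hcu, fun w hw ι T e hZ V hVe hVR hVR' hreg hx₀ => ?_⟩
  have Z := hZZ w hw Om ι T e hOm hZ
  have hwn := norm_w hw
  have hta : a ≤ t := haa.trans hat.le
  refine ⟨C.tiny hkμ hkη hwn ?_ hFs1 hFs2 haa hat htb hZ Z hVe hVR hVR' hreg hx₀,
    fun i hi hi0 x hx y hy c' => ?_⟩
  · intro j x hx y hy
    obtain ⟨z, -, hz⟩ := hjz j
    exact dist_Cu (hz hx) (hz hy)
  · obtain ⟨-, -, o3⟩ := C.tile_osc hkμ hkη hwn hZ Z hta hi0 (hVR i hi) hx hy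
    refine ⟨fun hc' => ((o3 c').2 hc').trans (mul_le_mul_of_nonneg_right C.dκ
      (Bx.sz_pos (Φ.bf.pos _ c'.2)).le), ?_⟩
    rw [abs_sub_comm]
    exact (o3 c').1.trans C.dκ

end Crest.Agent.R096.Tl_4
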