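import Crest.Agent.R096.Sphs3_4
import Crest.Agent.R096.Lm7_117
import Crest.Agent.R096.Sph2_560
import Crest.Agent.R096.Spg5_560
import Crest.Agent.R096.Sph1_560
import Crest.Agent.R096.Spp5_333
import Crest.Agent.R096.Spf1_923
import Crest.Agent.R096.Sps4_333
import Crest.Agent.R096.Sphg1_316
import Crest.Agent.R096.Sphs1_4
import Crest.Agent.R096.Sphf2_316
import Crest.Agent.R096.Sphm1_976
import Crest.Agent.R096.Sphg3_316
import Crest.Agent.R096.Agl8_543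
import Crest.Agent.R096.Pb1_812
import Crest.Agent.R096.GpZ_702
import Crest.Agent.R096.Mbf_337
import Crest.Agent.R096.Sk0_962
import Crest.Agent.R096.Er1_594
import Mathlib
import Crest.Agent.R096.Pse3_316
import Crest.Agent.R096.Tl3_4
import Crest.Agent.R096.Er4_594

-- ▼ part R096/Sphs4_4
section

/-! # Row 96, SPHERE (helper4), part 4: the extra clauses of the ball of the main class: PL function
`φ`, the frontier lies in tiles of the pattern, connected sets which miss the frontier. -/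

set_option autoImplicit false

open Set Filter Topology Metric Module

namespace Crest.Agent.R096.Sphs_4

open Crest.Agent.R096.Msh_715 Crest.Agent.R096.Agl4_543 Crest.Agent.R096.Agl5_543
  Crest.Agent.R096.Coh_184 Crest.Agent.R096.Main_4 Crest.Agent.R096.Ginv_543
  Crest.Agent.R096.Lab_184 Crest.Agent.R096.Seq_213 Crest.Agent.R096.Cm_117
  Crest.Agent.R096.Bd_416 Crest.Agent.R096.Shp_334 Crest.Agent.R096.Ce_537

open scoped Classical

section cells

variable {E : Type} [NormedAddCommGroup E] [NormedSpace ℝ E] [FiniteDimensional ℝ E]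
variable {Om : Set E} {ι : Type} {T : Tiling Om ι} {h3 : finrank ℝ E = 3}
variable {s : GSt (meshC T h3) (fun _ : Unit => ())}
variable {h : LF s} {hon : ∀ w ∈ s.P, w ∈ Om ∧ T.dim w = 1} {Lam : Unit → E → ZMod 2}
  {hLam : ∀ j, ∀ e ∈ Om, T.dim e = 1 → ∀ a b, T.cc e = segment ℝ a b →
      Lam j a + Lam j b = (((gPts s j : Set E) ∩ T.cc e).ncard : ZMod 2)}
variable {g : Gd E Unit} {P : ∀ q, (cmb h hon Lam hLam).I q → Set E}
  {c : ∀ q, (cmb h hon Lam hLam).I q → E → ℝ}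


/-- `G` is PL on compact sets -/
theorem plOn_G (H : Inv (cmb h hon Lam hLam) (fun c : T.Cell => c.set) univ g P c) {K : Set E}
    (hK : IsCompact K) (hKO : K ⊆ Om) : PLOn (g.G ()) K := by
  have hfin := T.finite_tiles hK hKO
  refine (plOn_biUnion (K := fun q => Msh_715.P (T.H q)) _ hfin (fun q _ => ?_)
    (fun q _ => (isClosed_P _))).mono fun z hz => ?_
  · have := (H.is (tcell T q) (mem_univ _)).pG ()
    rwa [tcell_set] at this
  · obtain ⟨q, hq⟩ := T.cov z (hKO hz)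
    exact mem_biUnion (show q ∈ {q | (Msh_715.P (T.H q) ∩ K).Nonempty} from ⟨z, hq, hz⟩) hq

end cells

/-- a connected set which meets the interior of a closed set and misses its frontier -/
theorem sub_interior {X : Type*} [TopologicalSpace X] {A K : Set X} (hA : IsPreconnected A)
    (hK : IsClosed K) (hd : ∀ x ∈ A, x ∉ frontier K) {x₀ : X} (hx : x₀ ∈ A)
    (hx' : x₀ ∈ interior K) : A ⊆ interior K := by
  have h1 : A ⊆ interior K ∪ Kᶜ := by
    intro x hxA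
    by_cases hxK : x ∈ K
    · left
      by_contra hcon
      exact hd x hxA (by rw [hK.frontier_eq]; exact ⟨hxK, hcon⟩)
    · exact Or.inr hxK
  exact hA.subset_left_of_subset_union isOpen_interior hK.isOpen_compl
    (disjoint_compl_right.mono_left interior_subset) h1 ⟨x₀, hx, hx'⟩

section ball

open Crest.AnalysisR.VecCalc3 Crest.AnalysisR.Sobolev

variable {f : R3 → R3} {Om La : Set R3} {ι : Type} {T : Tiling Om ι} {h3 : finrank ℝ R3 = 3}
variable {s : GSt (meshC T h3) (fun _ : Unit => ())}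
variable {h : LF s} {hon : ∀ w ∈ s.P, w ∈ Om ∧ T.dim w = 1} {lam : R3 → ZMod 2}
  {hLam : ∀ j : Unit, ∀ e ∈ Om, T.dim e = 1 → ∀ a b, T.cc e = segment ℝ a b →
      (fun _ : Unit => lam) j a + (fun _ : Unit => lam) j b =
        (((gPts s j : Set R3) ∩ T.cc e).ncard : ZMod 2)}
variable {g : Gd R3 Unit} {P : ∀ q, (cmb h hon (fun _ => lam) hLam).I q → Set R3}
  {c : ∀ q, (cmb h hon (fun _ => lam) hLam).I q → R3 → ℝ}


end ball

end Crest.Agent.R096.Sphs_4
end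

-- ▼ part R096/Sphs5_4
section

/-! # Row 96, SPHERE (helper4), part 5: every locally finite state over a tiling is realised by a
band structure whose sheets are made of balls. -/

set_option autoImplicit false

open Set Filter Topology Metric Module

namespace Crest.Agent.R096.Sphs_4

open Crest.Agent.R096.Msh_715 Crest.Agent.R096.Agl5_543 Crest.Agent.R096.Cm_117
  Crest.Agent.R096.Bd_416 Crest.Agent.R096.Shp_334 Crest.Agent.R096.Ce_537
  Crest.Agent.R096.Arc_778 Crest.Agent.R096.Seq_213 Crest.Agent.R096.Lm_117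
  Crest.Agent.R096.Lab_184 Crest.Agent.R096.Coh_184

open scoped Classical

variable {E : Type} [NormedAddCommGroup E] [NormedSpace ℝ E] [FiniteDimensional ℝ E]
variable {Om : Set E} {ι : Type} {T : Tiling Om ι} {h3 : finrank ℝ E = 3} {J C : Type}
variable {fam : J → C} {s : GSt (meshC T h3) fam}

/-- **realisation of a state over a tiling (no given part)** -/
theorem exists_state (h : LF s) (hon : ∀ w ∈ s.P, w ∈ Om ∧ T.dim w = 1) (Lam : J → E → ZMod 2)
    (hLam : ∀ j, ∀ e ∈ Om, T.dim e = 1 → ∀ a b, T.cc e = segment ℝ a b →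
      Lam j a + Lam j b = (((gPts s j : Set E) ∩ T.cc e).ncard : ZMod 2)) :
    ∃ g P c, Inv (cmb h hon Lam hLam) (fun c : T.Cell => c.set) univ g P c ∧
      ∀ j, Bls (cmb h hon Lam hLam) (fun c : T.Cell => c.set) c j := by
  refine exists_inv_bls T.cplx (fun q => ?_) (k := ek h)
    (cmbG_T h hon Lam hLam fun q _ hd => ek_inj h q hd) fun τ hd x x' hne _ =>
      cmb_ord h hon Lam hLam τ hd x x' hne
  show q.dim ≤ 3
  rw [← h3]
  exact T.dim_le_finrank q.pt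

end Crest.Agent.R096.Sphs_4
end

-- ▼ part R096/Spq1_976
section

/-!
# R096 (row 96), DOORS (D6) / SPH-ABS1 (helper976): `Place S G → PEmb S G`

* `SPath ends P W a b` : simple path (possibly trivial) from `a` to `b` with edge set `P`, vertex set `W`.
* `exists_sp`          : simple path between two sets inside a connected set.
* `tripod`             : three legs in a connected set.
* `exists_pemb`        : **SPH-ABS1**.
-/

set_option autoImplicit false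

open Set

namespace Crest.Agent.R096.Spq_976

open Crest.Agent.R096.Sph_560

section Graph

variable {α β : Type*} {ends : β → Sym2 α}

open Classical in
/-- simple paths, the trivial path included -/
inductive SPath (ends : β → Sym2 α) : Finset β → Finset α → α → α → Prop
  | nil (a : α) : SPath ends ∅ {a} a a
  | cons (e : β) (P : Finset β) (W : Finset α) (a v b : α) (h : ends e = s(a, v)) (ha : a ∉ W)
      (hP : SPath ends P W v b) : SPath ends (insert e P) (insert a W) a b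

variable {P P' : Finset β} {W W' : Finset α} {a b c : α}

theorem SPath.left_mem (h : SPath ends P W a b) : a ∈ W := by
  classical
  cases h with
  | nil => exact Finset.mem_singleton_self _
  | cons => exact Finset.mem_insert_self _ _

theorem SPath.right_mem (h : SPath ends P W a b) : b ∈ W := by
  classical
  induction h with
  | nil => exact Finset.mem_singleton_self _
  | cons e P W a v b h ha hP ih => exact Finset.mem_insert_of_mem ih

theorem SPath.edge_mem (h : SPath ends P W a b) : ∀ e ∈ P, ∀ v ∈ ends e, v ∈ W := by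
  classical
  induction h with
  | nil => intro e he; exact absurd he (Finset.notMem_empty e)
  | cons e P W a v b h ha hP ih =>
    intro e' he' u hu
    rcases Finset.mem_insert.1 he' with rfl | he'
    · rw [h, Sym2.mem_iff] at hu
      rcases hu with rfl | rfl
      · exact Finset.mem_insert_self _ _
      · exact Finset.mem_insert_of_mem hP.left_mem
    · exact Finset.mem_insert_of_mem (ih e' he' u hu)

theorem SPath.pathI (h : SPath ends P W a b) (hab : a ≠ b) : PathI ends P a b := by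
  classical
  induction h with
  | nil => exact absurd rfl hab
  | cons e P W a v b h ha hP ih =>
    by_cases hvb : v = b
    · subst hvb
      cases hP with
      | nil =>
        rw [show (insert e (∅ : Finset β)) = {e} from rfl]
        exact PathI.single e a v h hab
      | cons e' P' W' _ u _ h' ha' hP' =>
        exact absurd hP'.right_mem ha'
    · refine PathI.cons e P a v b h ?_ (ih hvb) ?_ hab
      · rintro rfl; exact ha hP.left_mem
      · intro e' he' hae'; exact ha (hP.edge_mem e' he' a hae')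

theorem SPath.mem_iff (h : SPath ends P W a b) (hab : a ≠ b) (v : α) :
    v ∈ W ↔ ∃ e ∈ P, v ∈ ends e := by
  classical
  constructor
  · intro hv
    induction h with
    | nil => exact absurd rfl hab
    | cons e P W a u b h ha hP ih =>
      rcases Finset.mem_insert.1 hv with rfl | hv
      · exact ⟨e, Finset.mem_insert_self _ _, by rw [h]; exact Sym2.mem_mk_left _ _⟩
      · by_cases hub : u = b
        · subst hub
          cases hP with
          | nil =>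
            rw [Finset.mem_singleton] at hv
            subst hv
            exact ⟨e, Finset.mem_insert_self _ _, by rw [h]; exact Sym2.mem_mk_right _ _⟩
          | cons e' P' W' _ w _ h' ha' hP' => exact absurd hP'.right_mem ha'
        · obtain ⟨e', he', hv'⟩ := ih hub hv
          exact ⟨e', Finset.mem_insert_of_mem he', hv'⟩
  · rintro ⟨e, he, hv⟩
    exact h.edge_mem e he v hv

/-- a simple path is connected -/
theorem SPath.pconn (h : SPath ends P W a b) : ∀ Q : Finset β, Q ⊆ P → Q.Nonempty →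
    (∀ e ∈ Q, ∀ v ∈ ends e, ∀ e' ∈ P, v ∈ ends e' → e' ∈ Q) → Q = P := by
  classical
  induction h with
  | nil => intro Q hQ hne _; rw [Finset.subset_empty.1 hQ] at hne; exact absurd hne (by simp)
  | cons e P W a v b h ha hP ih =>
    intro Q hQ hne hcl
    -- an edge of the tail at `v`
    by_cases hPe : P = ∅
    · subst hPe
      refine Finset.Subset.antisymm hQ ?_
      obtain ⟨x, hx⟩ := hne
      have := hQ hx
      intro y hy
      rw [show (insert e (∅ : Finset β)) = {e} from rfl, Finset.mem_singleton] at this hy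
      rw [hy, ← this]; exact hx
    · have hvb : v ≠ b := by
        rintro rfl
        cases hP with
        | nil => exact hPe rfl
        | cons e' P' W' _ w _ h' ha' hP' => exact ha' hP'.right_mem
      obtain ⟨e', he', hve'⟩ := (hP.mem_iff hvb v).1 hP.left_mem
      have hve : v ∈ ends e := by rw [h]; exact Sym2.mem_mk_right _ _
      have key : (Q ∩ P).Nonempty → Q = insert e P := by
        intro hne'
        have h1 : Q ∩ P = P := by
          refine ih (Q ∩ P) Finset.inter_subset_right hne' ?_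
          intro x hx u hu y hy huy
          rw [Finset.mem_inter] at hx ⊢
          exact ⟨hcl x hx.1 u hu y (Finset.mem_insert_of_mem hy) huy, hy⟩
        have h2 : P ⊆ Q := by rw [← h1]; exact Finset.inter_subset_left
        refine Finset.Subset.antisymm hQ (Finset.insert_subset ?_ h2)
        exact hcl e' (h2 he') v hve' e (Finset.mem_insert_self _ _) hve
      obtain ⟨x, hx⟩ := hne
      rcases Finset.mem_insert.1 (hQ hx) with rfl | hxP
      · refine key ⟨e', Finset.mem_inter.2 ⟨?_, he'⟩⟩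
        exact hcl x hx v hve e' (Finset.mem_insert_of_mem he') hve'
      · exact key ⟨x, Finset.mem_inter.2 ⟨hx, hxP⟩⟩

open Classical in
theorem SPath.snoc (h : SPath ends P W a b) {e : β} (he : ends e = s(b, c)) (hc : c ∉ W) :
    SPath ends (insert e P) (insert c W) a c := by
  induction h with
  | nil b =>
    have h1 : b ∉ ({c} : Finset α) := by
      rw [Finset.mem_singleton]; rintro rfl; exact hc (Finset.mem_singleton_self _)
    have := SPath.cons (ends := ends) e ∅ {c} b c c he h1 (SPath.nil c)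
    rwa [show insert c ({b} : Finset α) = insert b {c} from Finset.pair_comm c b]
  | cons e' P W a v b h ha hP ih =>
    have hc' : c ∉ W := fun h' => hc (Finset.mem_insert_of_mem h')
    have hac : a ≠ c := by rintro rfl; exact hc (Finset.mem_insert_self _ _)
    have h1 := ih he hc'
    rw [Finset.insert_comm e e' P, Finset.insert_comm c a W]
    refine SPath.cons e' _ _ a v c h ?_ h1
    rw [Finset.mem_insert]
    rintro (h' | h')
    · exact hac h'
    · exact ha h'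

theorem SPath.rev (h : SPath ends P W a b) : SPath ends P W b a := by
  classical
  induction h with
  | nil a => exact SPath.nil a
  | cons e P W a v b h ha hP ih => exact ih.snoc (by rw [h, Sym2.eq_swap]) ha

open Classical in
theorem SPath.append (h : SPath ends P W a b) (h' : SPath ends P' W' b c)
    (hW : ∀ v ∈ W, v ∈ W' → v = b) : SPath ends (P ∪ P') (W ∪ W') a c := by
  induction h with
  | nil a =>
    have h1 : ({a} : Finset α) ∪ W' = W' := by
      rw [Finset.union_eq_right, Finset.singleton_subset_iff]; exact h'.left_mem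
    rw [Finset.empty_union, h1]; exact h'
  | cons e P W a v b h ha hP ih =>
    rw [Finset.insert_union, Finset.insert_union]
    refine SPath.cons e _ _ a v c h ?_ (ih h' fun u hu hu' => hW u (Finset.mem_insert_of_mem hu) hu')
    rw [Finset.mem_union]
    rintro (h1 | h1)
    · exact ha h1
    · have := hW a (Finset.mem_insert_self _ _) h1
      rw [this] at ha
      exact ha hP.right_mem

/-- the part of a path behind a vertex -/
theorem SPath.split (h : SPath ends P W a b) : ∀ m ∈ W, ∃ P1 W1 P2 W2, SPath ends P1 W1 a m ∧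
    SPath ends P2 W2 m b ∧ P1 ⊆ P ∧ W1 ⊆ W ∧ P2 ⊆ P ∧ W2 ⊆ W ∧ ∀ v ∈ W1, v ∈ W2 → v = m := by
  classical
  induction h with
  | nil a =>
    intro m hm
    rw [Finset.mem_singleton] at hm
    subst hm
    exact ⟨∅, {m}, ∅, {m}, SPath.nil m, SPath.nil m, Finset.Subset.refl _, Finset.Subset.refl _,
      Finset.Subset.refl _, Finset.Subset.refl _, fun v hv _ => Finset.mem_singleton.1 hv⟩
  | cons e P W a v b h ha hP ih =>
    intro m hm
    rcases Finset.mem_insert.1 hm with rfl | hm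
    · refine ⟨∅, {m}, insert e P, insert m W, SPath.nil m, SPath.cons e P W m v b h ha hP,
        Finset.empty_subset _, ?_, Finset.Subset.refl _, Finset.Subset.refl _,
        fun v hv _ => Finset.mem_singleton.1 hv⟩
      rw [Finset.singleton_subset_iff]; exact Finset.mem_insert_self _ _
    · obtain ⟨P1, W1, P2, W2, h1, h2, s1, s2, s3, s4, h3⟩ := ih m hm
      refine ⟨insert e P1, insert a W1, P2, W2,
        SPath.cons e P1 W1 a v m h (fun h' => ha (s2 h')) h1, h2, Finset.insert_subset_insert _ s1,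
        Finset.insert_subset_insert _ s2, s3.trans (Finset.subset_insert _ _),
        s4.trans (Finset.subset_insert _ _), ?_⟩
      intro u hu hu'
      rcases Finset.mem_insert.1 hu with rfl | hu
      · exact absurd (s4 hu') ha
      · exact h3 u hu hu'

/-- the part of a path behind its last vertex in `A` -/
theorem SPath.last (h : SPath ends P W a b) (A : Set α) : (∃ x ∈ W, x ∈ A) →
    ∃ a' ∈ A, ∃ P1 W1, SPath ends P1 W1 a' b ∧ W1 ⊆ W ∧ ∀ x ∈ W1, x ∈ A → x = a' := by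
  classical
  induction h with
  | nil a =>
    rintro ⟨x, hx, hxA⟩
    rw [Finset.mem_singleton] at hx
    subst hx
    exact ⟨x, hxA, ∅, {x}, SPath.nil x, Finset.Subset.refl _,
      fun y hy _ => Finset.mem_singleton.1 hy⟩
  | cons e P W a v b h ha hP ih =>
    rintro ⟨x, hx, hxA⟩
    by_cases hex : ∃ y ∈ W, y ∈ A
    · obtain ⟨a', ha', P1, W1, h1, h2, h3⟩ := ih hex
      exact ⟨a', ha', P1, W1, h1, h2.trans (Finset.subset_insert _ _), h3⟩
    · push Not at hex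
      rcases Finset.mem_insert.1 hx with rfl | hx
      · refine ⟨x, hxA, _, _, SPath.cons e P W x v b h ha hP, Finset.Subset.refl _, ?_⟩
        intro y hy hyA
        rcases Finset.mem_insert.1 hy with rfl | hy
        · rfl
        · exact absurd hyA (hex y hy)
      · exact absurd hxA (hex x hx)

end Graph

section Surface

variable {V E T : Type*} [Fintype E] {S : Surf V E T}

/-- simple path between two sets inside a connected set -/
theorem exists_sp {Y A B : Set V} (hY : S.ConnIn Y Y) {a0 b0 : V} (ha : a0 ∈ Y) (haA : a0 ∈ A)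
    (hb : b0 ∈ Y) (hbB : b0 ∈ B) : ∃ a ∈ A, ∃ b ∈ B, ∃ P W, SPath S.ends P W a b ∧
      (∀ v ∈ W, v ∈ Y) ∧ (∀ v ∈ W, v ∈ A → v = a) ∧ ∀ v ∈ W, v ∈ B → v = b := by
  classical
  have key : a0 ∈ {v | ∃ b ∈ B, ∃ P W, SPath S.ends P W v b ∧ (∀ v ∈ W, v ∈ Y) ∧
      ∀ v ∈ W, v ∈ B → v = b} := by
    refine hY _ ?_ b0 hb ?_ a0 ha
    · rintro e u v hev hu hv ⟨b, hbB, P, W, hP, hWY, hWB⟩
      by_cases hvW : v ∈ W
      · obtain ⟨-, -, P2, W2, -, h2, -, -, -, s4, -⟩ := hP.split v hvW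
        exact ⟨b, hbB, P2, W2, h2, fun x hx => hWY x (s4 hx), fun x hx => hWB x (s4 hx)⟩
      · by_cases hvB : v ∈ B
        · exact ⟨v, hvB, ∅, {v}, SPath.nil v, fun x hx => by rwa [Finset.mem_singleton.1 hx],
            fun x hx _ => Finset.mem_singleton.1 hx⟩
        · refine ⟨b, hbB, insert e P, insert v W, SPath.cons e P W v u b (by rw [hev, Sym2.eq_swap])
            hvW hP, ?_, ?_⟩
          · intro x hx
            rcases Finset.mem_insert.1 hx with rfl | hx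
            · exact hv
            · exact hWY x hx
          · intro x hx hxB
            rcases Finset.mem_insert.1 hx with rfl | hx
            · exact absurd hxB hvB
            · exact hWB x hx hxB
    · exact ⟨b0, hbB, ∅, {b0}, SPath.nil b0, fun x hx => by rwa [Finset.mem_singleton.1 hx],
        fun x hx _ => Finset.mem_singleton.1 hx⟩
  obtain ⟨b, hbB, P, W, hP, hWY, hWB⟩ := key
  obtain ⟨a, haA', P1, W1, h1, h2, h3⟩ := hP.last A ⟨a0, hP.left_mem, haA⟩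
  exact ⟨a, haA', b, hbB, P1, W1, h1, fun v hv => hWY v (h2 hv), h3, fun v hv => hWB v (h2 hv)⟩

/-- three legs in a connected set -/
theorem tripod {C : Set V} (hC : S.ConnIn C C) {x1 x2 x3 : V} (h1 : x1 ∈ C) (h2 : x2 ∈ C)
    (h3 : x3 ∈ C) : ∃ m ∈ C, ∃ P1 W1 P2 W2 P3 W3, SPath S.ends P1 W1 m x1 ∧
      SPath S.ends P2 W2 m x2 ∧ SPath S.ends P3 W3 m x3 ∧ (∀ v ∈ W1, v ∈ C) ∧ (∀ v ∈ W2, v ∈ C) ∧
      (∀ v ∈ W3, v ∈ C) ∧ (∀ v ∈ W1, v ∈ W2 → v = m) ∧ (∀ v ∈ W1, v ∈ W3 → v = m) ∧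
      ∀ v ∈ W2, v ∈ W3 → v = m := by
  classical
  obtain ⟨a, ha, b, hb, P, W, hP, hWC, -, -⟩ :=
    exists_sp (A := {x1}) (B := {x2}) hC h1 rfl h2 rfl
  rw [mem_singleton_iff] at ha hb
  subst ha; subst hb
  obtain ⟨a', ha', m, hm, P3, W3, hP3, hW3, -, hW3m⟩ :=
    exists_sp (A := {x3}) (B := {v | v ∈ W}) hC h3 rfl h1 hP.left_mem
  rw [mem_singleton_iff] at ha'
  subst ha'
  obtain ⟨Q1, U1, Q2, U2, hQ1, hQ2, -, s2, -, s4, hU⟩ := hP.split m hm
  refine ⟨m, hWC m hm, Q1, U1, Q2, U2, P3, W3, hQ1.rev, hQ2, hP3.rev, fun v hv => hWC v (s2 hv),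
    fun v hv => hWC v (s4 hv), hW3, hU, fun v hv hv' => hW3m v hv' (s2 hv),
    fun v hv hv' => hW3m v hv' (s4 hv)⟩

/-- the component of `Z` in `Z'` -/
def comp (S : Surf V E T) (Z Z' : Set V) : Set V :=
  {v | ∀ X : Set V, (∀ e u v, S.ends e = s(u, v) → u ∈ Z' → v ∈ Z' → u ∈ X → v ∈ X) →
    Z ⊆ X → v ∈ X}

theorem comp_sub {Z Z' : Set V} (h : Z ⊆ Z') : comp S Z Z' ⊆ Z' := fun v hv =>
  hv Z' (fun _ _ _ _ _ hv _ => hv) h

theorem sub_comp (Z Z' : Set V) : Z ⊆ comp S Z Z' := fun _ hv _ _ hX => hX hv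

theorem comp_closed {Z Z' : Set V} {e : E} {u v : V} (he : S.ends e = s(u, v)) (hu : u ∈ Z')
    (hv : v ∈ Z') (huc : u ∈ comp S Z Z') : v ∈ comp S Z Z' := fun X hX hZ =>
  hX e u v he hu hv (huc X hX hZ)

theorem comp_conn {Z Z' : Set V} (h : Z ⊆ Z') (hc : S.ConnIn Z Z') :
    S.ConnIn (comp S Z Z') (comp S Z Z') := by
  intro X hX u hu huX v hv
  have hsub := comp_sub (S := S) h
  -- `X ∩ comp` is closed
  have h1 : ∀ e u v, S.ends e = s(u, v) → u ∈ Z' → v ∈ Z' → u ∈ X ∩ comp S Z Z' →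
      v ∈ X ∩ comp S Z Z' := by
    intro e u v he hu hv ⟨huX, huc⟩
    have hvc := comp_closed he hu hv huc
    exact ⟨hX e u v he huc hvc huX, hvc⟩
  have h2 : ∃ z ∈ Z, z ∈ X ∩ comp S Z Z' := by
    by_contra hne
    push Not at hne
    have := hu {w | w ∉ X ∩ comp S Z Z'} (by
      intro e u v he hu hv hw hv'
      exact hw (h1 e v u (by rw [he, Sym2.eq_swap]) hv hu hv')) (fun z hz => hne z hz)
    exact this ⟨huX, hu⟩
  obtain ⟨z, hz, hzX⟩ := h2
  have h3 : Z ⊆ X ∩ comp S Z Z' := fun w hw => hc _ h1 z hz hzX w hw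
  exact (hv _ h1 h3).1

end Surface

section Main

variable {V E T N R X : Type*} [Fintype E] {S : Surf V E T} {G : Cub N R X}

/-- **SPH-ABS1** -/
theorem exists_pemb (Pl : Place S G) : ∃ M : PEmb S G, ∀ r, ∀ v ∈ M.vs r,
    v ∈ Pl.Y r ∨ ∃ a ∈ G.ends r, v ∈ Pl.Z' a := by
  classical
  set C : N → Set V := fun a => comp S (Pl.Z a) (Pl.Z' a) with hCdef
  have hCsub : ∀ a, C a ⊆ Pl.Z' a := fun a => comp_sub (Pl.sub a)
  have hZC : ∀ a, Pl.Z a ⊆ C a := fun a => sub_comp _ _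
  have hCc : ∀ a, S.ConnIn (C a) (C a) := fun a => comp_conn (Pl.sub a) (Pl.zc a)
  have hCd : ∀ a b v, v ∈ C a → v ∈ C b → a = b := by
    intro a b v ha hb
    by_contra hab
    exact Set.disjoint_left.1 (Pl.zd a b hab) (hCsub a ha) (hCsub b hb)
  have hYC : ∀ r a v, v ∈ Pl.Y r → v ∈ C a → a ∈ G.ends r := by
    intro r a v hv ha
    by_contra hn
    exact Set.disjoint_left.1 (Pl.yz r a hn) hv (hCsub a ha)
  -- the middle paths
  have hN : ∀ r, ∃ (α β : N) (xa xb : V) (P : Finset E) (W : Finset V), G.ends r = s(α, β) ∧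
      α ≠ β ∧ xa ∈ C α ∧ xb ∈ C β ∧ SPath S.ends P W xa xb ∧ (∀ v ∈ W, v ∈ Pl.Y r) ∧
      (∀ v ∈ W, v ∈ C α → v = xa) ∧ ∀ v ∈ W, v ∈ C β → v = xb := by
    intro r
    obtain ⟨α, β, hαβ⟩ : ∃ α β, G.ends r = s(α, β) := by
      induction h : G.ends r with
      | h x y => exact ⟨x, y, rfl⟩
    have hne : α ≠ β := by
      rintro rfl
      exact G.nd r (by rw [hαβ]; exact Sym2.mk_isDiag_iff.2 rfl)
    obtain ⟨a0, ha0, ha0'⟩ := Pl.meet r α (by rw [hαβ]; exact Sym2.mem_mk_left _ _)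
    obtain ⟨b0, hb0, hb0'⟩ := Pl.meet r β (by rw [hαβ]; exact Sym2.mem_mk_right _ _)
    obtain ⟨xa, hxa, xb, hxb, P, W, hP, h1, h2, h3⟩ :=
      exists_sp (Pl.yc r) ha0 (hZC α ha0') hb0 (hZC β hb0')
    exact ⟨α, β, xa, xb, P, W, hαβ, hne, hxa, hxb, hP, h1, h2, h3⟩
  choose α β xa xb PN WN hends hne hxa hxb hPN hWY hWa hWb using hN
  have hmem : ∀ r a, a ∈ G.ends r ↔ a = α r ∨ a = β r := fun r a => by
    rw [hends, Sym2.mem_iff]
  -- the attaching points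
  set x : R → N → V := fun r c => if c = α r then xa r else xb r with hx
  have hxα : ∀ r, x r (α r) = xa r := fun r => by simp [hx]
  have hxβ : ∀ r, x r (β r) = xb r := fun r => by simp [hx, (hne r).symm]
  have hxC : ∀ r a, a ∈ G.ends r → x r a ∈ C a := by
    intro r a ha
    rcases (hmem r a).1 ha with rfl | rfl
    · rw [hxα]; exact hxa r
    · rw [hxβ]; exact hxb r
  have hWx : ∀ r a, a ∈ G.ends r → ∀ v ∈ WN r, v ∈ C a → v = x r a := by
    intro r a ha v hv hva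
    rcases (hmem r a).1 ha with rfl | rfl
    · rw [hxα]; exact hWa r v hv hva
    · rw [hxβ]; exact hWb r v hv hva
  have hxW : ∀ r a, a ∈ G.ends r → x r a ∈ WN r := by
    intro r a ha
    rcases (hmem r a).1 ha with rfl | rfl
    · rw [hxα]; exact (hPN r).left_mem
    · rw [hxβ]; exact (hPN r).right_mem
  -- the legs
  have hL : ∀ a : N, ∃ (m : V) (P : R → Finset E) (W : R → Finset V), m ∈ C a ∧
      (∀ r, a ∈ G.ends r → SPath S.ends (P r) (W r) m (x r a) ∧ ∀ v ∈ W r, v ∈ C a) ∧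
      ∀ r r', a ∈ G.ends r → a ∈ G.ends r' → r ≠ r' → ∀ v ∈ W r, v ∈ W r' → v = m := by
    intro a
    obtain ⟨r1, r2, r3, h12, h13, h23, hset⟩ := Set.ncard_eq_three.1 (G.three a)
    have hr : ∀ r, a ∈ G.ends r ↔ r = r1 ∨ r = r2 ∨ r = r3 := by
      intro r
      have : r ∈ {r | a ∈ G.ends r} ↔ r ∈ ({r1, r2, r3} : Set R) := by rw [hset]
      simpa using this
    have e1 := (hr r1).2 (Or.inl rfl)
    have e2 := (hr r2).2 (Or.inr (Or.inl rfl))
    have e3 := (hr r3).2 (Or.inr (Or.inr rfl))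
    obtain ⟨m, hm, P1, W1, P2, W2, P3, W3, p1, p2, p3, c1, c2, c3, d12, d13, d23⟩ :=
      tripod (hCc a) (hxC r1 a e1) (hxC r2 a e2) (hxC r3 a e3)
    refine ⟨m, fun r => if r = r1 then P1 else if r = r2 then P2 else P3,
      fun r => if r = r1 then W1 else if r = r2 then W2 else W3, hm, ?_, ?_⟩
    · intro r har
      rcases (hr r).1 har with rfl | rfl | rfl
      · simp only [if_true]; exact ⟨p1, c1⟩
      · simp only [if_neg h12.symm, if_true]; exact ⟨p2, c2⟩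
      · simp only [if_neg h13.symm, if_neg h23.symm]; exact ⟨p3, c3⟩
    · intro r r' har har' hrr v
      rcases (hr r).1 har with rfl | rfl | rfl <;> rcases (hr r').1 har' with rfl | rfl | rfl
      · exact absurd rfl hrr
      · simp only [if_true, if_neg h12.symm]; exact d12 v
      · simp only [if_true, if_neg h13.symm, if_neg h23.symm]; exact d13 v
      · simp only [if_true, if_neg h12.symm]; exact fun h h' => d12 v h' h
      · exact absurd rfl hrr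
      · simp only [if_true, if_neg h12.symm, if_neg h13.symm, if_neg h23.symm]; exact d23 v
      · simp only [if_true, if_neg h13.symm, if_neg h23.symm]; exact fun h h' => d13 v h' h
      · simp only [if_true, if_neg h12.symm, if_neg h13.symm, if_neg h23.symm]
        exact fun h h' => d23 v h' h
      · exact absurd rfl hrr
  choose m LP LW hm hLP hLd using hL
  have hα : ∀ r, α r ∈ G.ends r := fun r => (hmem r _).2 (Or.inl rfl)
  have hβ : ∀ r, β r ∈ G.ends r := fun r => (hmem r _).2 (Or.inr rfl)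
  -- the paths
  have hP1 : ∀ r, SPath S.ends (LP (α r) r ∪ PN r) (LW (α r) r ∪ WN r) (m (α r)) (xb r) := by
    intro r
    have h1 := (hLP (α r) r (hα r)).1
    rw [hxα] at h1
    refine h1.append (hPN r) fun v hv hv' => ?_
    exact hWa r v hv' ((hLP (α r) r (hα r)).2 v hv)
  have hP2 : ∀ r, SPath S.ends (LP (α r) r ∪ PN r ∪ LP (β r) r) (LW (α r) r ∪ WN r ∪ LW (β r) r)
      (m (α r)) (m (β r)) := by
    intro r
    have h1 := (hLP (β r) r (hβ r)).1
    rw [hxβ] at h1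
    refine (hP1 r).append h1.rev fun v hv hv' => ?_
    have hvβ := (hLP (β r) r (hβ r)).2 v hv'
    rcases Finset.mem_union.1 hv with hv | hv
    · have hvα := (hLP (α r) r (hα r)).2 v hv
      exact absurd (hCd _ _ v hvα hvβ) (hne r)
    · exact hWb r v hv hvβ
  have hmne : ∀ r, m (α r) ≠ m (β r) := fun r h =>
    hne r (hCd _ _ (m (α r)) (hm _) (by rw [h]; exact hm _))
  have hW : ∀ r v, v ∈ LW (α r) r ∪ WN r ∪ LW (β r) r ↔
      v ∈ WN r ∨ ∃ a ∈ G.ends r, v ∈ LW a r := by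
    intro r v
    rw [Finset.mem_union, Finset.mem_union]
    constructor
    · rintro ((h | h) | h)
      · exact Or.inr ⟨_, hα r, h⟩
      · exact Or.inl h
      · exact Or.inr ⟨_, hβ r, h⟩
    · rintro (h | ⟨a, ha, h⟩)
      · exact Or.inl (Or.inr h)
      · rcases (hmem r a).1 ha with rfl | rfl
        · exact Or.inl (Or.inl h)
        · exact Or.inr h
  have hdeg := fun r => ((hP2 r).pathI (hmne r)).deg
  refine ⟨{ pt := m
            inj := fun a b hab => hCd a b (m a) (hm a) (by rw [hab]; exact hm b)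
            P := fun r => LP (α r) r ∪ PN r ∪ LP (β r) r
            vs := fun r => LW (α r) r ∪ WN r ∪ LW (β r) r
            vs_iff := fun r v => (hP2 r).mem_iff (hmne r) v
            ends_mem := ?_
            deg_end := ?_
            deg_in := ?_
            pconn := fun r => (hP2 r).pconn
            meet := ?_ }, ?_⟩
  · intro r a ha
    exact (hW r _).2 (Or.inr ⟨a, ha, (hLP a r ha).1.left_mem⟩)
  · intro r a ha
    rcases (hmem r a).1 ha with rfl | rfl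
    · exact (hdeg r).1
    · exact (hdeg r).2.1
  · intro r v hv hva
    rcases (hdeg r).2.2 v (hva _ (hα r)) (hva _ (hβ r)) with h | h
    · exfalso
      obtain ⟨e, he, hve⟩ := ((hP2 r).mem_iff (hmne r) v).1 hv
      have : e ∈ star S.ends (LP (α r) r ∪ PN r ∪ LP (β r) r) v := ⟨he, hve⟩
      exact Set.ncard_ne_zero_of_mem this (star_finite _ _) h
    · exact h
  · intro r r' hrr v hv hv'
    -- a leg of `r` at `a` and the middle of `r'`
    have key : ∀ r r', r ≠ r' → ∀ a ∈ G.ends r, ∀ v ∈ LW a r, v ∈ WN r' →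
        a ∈ G.ends r' ∧ v = m a := by
      intro r r' hrr a ha v hv hv'
      have hvC := (hLP a r ha).2 v hv
      have ha' := hYC r' a v (hWY r' v hv') hvC
      refine ⟨ha', ?_⟩
      have h1 := hWx r' a ha' v hv' hvC
      have h2 : v ∈ LW a r' := by rw [h1]; exact (hLP a r' ha').1.right_mem
      exact hLd a r r' ha ha' hrr v hv h2
    rcases (hW r v).1 hv with h1 | ⟨a, ha, h1⟩ <;> rcases (hW r' v).1 hv' with h2 | ⟨b, hb, h2⟩
    · obtain ⟨c, hc, hc', hvc⟩ := Pl.yy r r' hrr v (hWY r v h1) (hWY r' v h2)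
      have e1 := hWx r c hc v h1 (hZC c hvc)
      have e2 := hWx r' c hc' v h2 (hZC c hvc)
      have m1 : v ∈ LW c r := by rw [e1]; exact (hLP c r hc).1.right_mem
      have m2 : v ∈ LW c r' := by rw [e2]; exact (hLP c r' hc').1.right_mem
      exact ⟨c, hc, hc', hLd c r r' hc hc' hrr v m1 m2⟩
    · obtain ⟨h3, h4⟩ := key r' r hrr.symm b hb v h2 h1
      exact ⟨b, h3, hb, h4⟩
    · obtain ⟨h3, h4⟩ := key r r' hrr a ha v h1 h2
      exact ⟨a, ha, h3, h4⟩
    · have hab : a = b := hCd a b v ((hLP a r ha).2 v h1) ((hLP b r' hb).2 v h2)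
      subst hab
      exact ⟨a, ha, hb, hLd a r r' ha hb hrr v h1 h2⟩
  · intro r v hv
    rcases (hW r v).1 hv with h | ⟨a, ha, h⟩
    · exact Or.inl (hWY r v h)
    · exact Or.inr ⟨a, ha, hCsub a ((hLP a r ha).2 v h)⟩

end Main

end Crest.Agent.R096.Spq_976
end

-- ▼ part R096/Spg6_560
section

/-!
# R096 (row 96), DOORS (D6) / SPH, (G2) part 6 (helper560): fine cubic structure on a PL sphere

`exists_small_disc` : a PL sphere is the union of a disc and a small disc.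
`exists_fine` : on every PL sphere there is a realisation `Lay G Sg` of a finite cubic graph with
small faces.
-/

set_option autoImplicit false

open Set Metric

namespace Crest.Agent.R096.Sph_560

open Crest.Agent.R096.Ce_537 Crest.Agent.R096.Cb_609 Crest.Agent.R096.Pl Msh_715

variable {F : Type*} [NormedAddCommGroup F] [NormedSpace ℝ F]

/-- the circle of latitude `-1 + d` -/
theorem circle_lat {d : ℝ} (hd : 0 < d) :
    Nonempty (PLEquiv (S1 ℝ) {p : (ℝ × ℝ) × ℝ | ‖p.1‖ = d ∧ p.2 = -1 + d}) := by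
  obtain ⟨c⟩ := circle_of_disc isBall_real2
  let a : (ℝ × ℝ) →ᵃ[ℝ] (ℝ × ℝ) × ℝ :=
    (((d • LinearMap.id : (ℝ × ℝ) →ₗ[ℝ] (ℝ × ℝ)).prod (0 : (ℝ × ℝ) →ₗ[ℝ] ℝ)).toAffineMap) +
      AffineMap.const ℝ (ℝ × ℝ) (((0 : ℝ × ℝ), (-1 + d : ℝ)) : (ℝ × ℝ) × ℝ)
  let b : (ℝ × ℝ) × ℝ →ᵃ[ℝ] (ℝ × ℝ) :=
    ((d⁻¹ • LinearMap.fst ℝ (ℝ × ℝ) ℝ : (ℝ × ℝ) × ℝ →ₗ[ℝ] (ℝ × ℝ))).toAffineMap
  have ha : ∀ x, a x = (d • x, -1 + d) := by
    intro x
    simp [a]
  have hb : ∀ p, b p = d⁻¹ • p.1 := by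
    intro p
    simp [b]
  refine ⟨c.trans ⟨fun x => a x, fun p => b p, plOn_affine a _, plOn_affine b _, ?_, ?_, ?_, ?_⟩⟩
  · intro x hx
    rw [mem_sphere_zero_iff_norm] at hx
    show ‖(a x).1‖ = d ∧ (a x).2 = -1 + d
    rw [ha]
    refine ⟨?_, rfl⟩
    rw [norm_smul, Real.norm_eq_abs, abs_of_pos hd, hx, mul_one]
  · rintro p ⟨hp, -⟩
    show b p ∈ sphere 0 1
    rw [mem_sphere_zero_iff_norm, hb, norm_smul, Real.norm_eq_abs, abs_of_pos (inv_pos.2 hd), hp,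
      inv_mul_cancel₀ hd.ne']
  · intro x _
    show b (a x) = x
    rw [hb, ha, smul_smul, inv_mul_cancel₀ hd.ne', one_smul]
  · rintro p ⟨-, hp⟩
    show a (b p) = p
    rw [ha, hb, smul_smul, mul_inv_cancel₀ hd.ne', one_smul, ← hp]

/-- **a PL sphere is a disc and a small disc** -/
theorem exists_small_disc {K Sg : Set F} (hK : IsBall 3 K Sg) {η : ℝ} (hη : 0 < η) :
    ∃ A B Γ : Set F, A ∪ B = Sg ∧ A ∩ B = Γ ∧ IsBall 2 A Γ ∧ IsBall 2 B Γ ∧
      ∀ y ∈ B, ∀ z ∈ B, dist y z ≤ η := by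
  obtain ⟨e, he, he'⟩ := isBall_space.exists_equiv hK
  have hc : IsCompact {p : (ℝ × ℝ) × ℝ | N1 p ≤ 1} := isBall_space.isCompact
  have hu := hc.uniformContinuousOn_of_continuous e.pf.1
  rw [Metric.uniformContinuousOn_iff] at hu
  obtain ⟨δ, hδ, hδe⟩ := hu η hη
  set d : ℝ := min (δ / 3) (1 / 2) with hd
  have hd0 : 0 < d := lt_min (by positivity) (by norm_num)
  have hd1 : d ≤ δ / 3 := min_le_left _ _
  have hd2 : d ≤ 1 / 2 := min_le_right _ _
  set A0 : Set ((ℝ × ℝ) × ℝ) := {p | p ∈ S1 (ℝ × ℝ) ∧ -1 + d ≤ p.2} with hA0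
  set B0 : Set ((ℝ × ℝ) × ℝ) := {p | p ∈ S1 (ℝ × ℝ) ∧ p.2 ≤ -1 + d} with hB0
  set Γ0 : Set ((ℝ × ℝ) × ℝ) := {p | ‖p.1‖ = d ∧ p.2 = -1 + d} with hΓ0
  have hS : ∀ p : (ℝ × ℝ) × ℝ, p ∈ S1 (ℝ × ℝ) ↔ ‖p.1‖ + |p.2| = 1 := fun p => Iff.rfl
  have hclS : IsClosed (S1 (ℝ × ℝ)) := isBall_space.isClosed_bdry
  have hAc : IsClosed A0 := hclS.inter (isClosed_le continuous_const continuous_snd)
  have hBc : IsClosed B0 := hclS.inter (isClosed_le continuous_snd continuous_const)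
  have hun : A0 ∪ B0 = S1 (ℝ × ℝ) := by
    ext p
    constructor
    · rintro (h | h) <;> exact h.1
    · intro h
      rcases le_total (-1 + d) p.2 with h' | h'
      · exact Or.inl ⟨h, h'⟩
      · exact Or.inr ⟨h, h'⟩
  have hin : A0 ∩ B0 = Γ0 := by
    ext p
    constructor
    · rintro ⟨⟨h1, h2⟩, -, h3⟩
      have h4 : p.2 = -1 + d := le_antisymm h3 h2
      rw [hS, h4, abs_of_nonpos (by linarith)] at h1
      exact ⟨by linarith, h4⟩
    · rintro ⟨h1, h2⟩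
      have h3 : p ∈ S1 (ℝ × ℝ) := by
        rw [hS, h1, h2, abs_of_nonpos (by linarith)]; ring
      exact ⟨⟨h3, h2.ge⟩, h3, h2.le⟩
  have hn1 : (A0 \ Γ0).Nonempty := by
    refine ⟨((0, 0), 1), ⟨by rw [hS]; simp, by show -1 + d ≤ 1; linarith⟩, fun h => ?_⟩
    have : (1 : ℝ) = -1 + d := h.2
    linarith
  have hn2 : (B0 \ Γ0).Nonempty := by
    refine ⟨((0, 0), -1), ⟨by rw [hS]; simp, by show (-1 : ℝ) ≤ -1 + d; linarith⟩, fun h => ?_⟩
    have : (-1 : ℝ) = -1 + d := h.2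
    linarith
  have hA := disc_of_split isBall_space (circle_lat hd0) hAc hBc hun hin hn1 hn2
  have hB := disc_of_split isBall_space (circle_lat hd0) hBc hAc (by rw [union_comm]; exact hun)
    (by rw [inter_comm]; exact hin) hn2 hn1
  have hAs : A0 ⊆ {p : (ℝ × ℝ) × ℝ | N1 p ≤ 1} := fun p hp => isBall_space.subset hp.1
  have hBs : B0 ⊆ {p : (ℝ × ℝ) × ℝ | N1 p ≤ 1} := fun p hp => isBall_space.subset hp.1
  refine ⟨e.f '' A0, e.f '' B0, e.f '' Γ0, ?_, ?_, hA.map (e.restrImage hAs),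
    hB.map (e.restrImage hBs), ?_⟩
  · rw [← image_union, hun, he]
  · rw [← hin, e.injOn.image_inter hAs hBs]
  · rintro _ ⟨p, hp, rfl⟩ _ ⟨q, hq, rfl⟩
    refine (hδe p (hBs hp) q (hBs hq) ?_).le
    have key : ∀ p ∈ B0, ‖p.1‖ ≤ d ∧ -1 ≤ p.2 ∧ p.2 ≤ -1 + d := by
      rintro p ⟨h1, h2⟩
      rw [hS, abs_of_nonpos (by linarith)] at h1
      have := norm_nonneg p.1
      exact ⟨by linarith, by linarith, h2⟩
    obtain ⟨p1, p2, p3⟩ := key p hp
    obtain ⟨q1, q2, q3⟩ := key q hq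
    rw [Prod.dist_eq, dist_eq_norm, Real.dist_eq]
    refine max_lt ?_ ?_
    · calc ‖p.1 - q.1‖ ≤ ‖p.1‖ + ‖q.1‖ := norm_sub_le _ _
        _ ≤ 2 * d := by linarith
        _ < δ := by linarith
    · refine lt_of_le_of_lt (abs_le.2 ⟨?_, ?_⟩) (show d < δ by linarith) <;> linarith

namespace Msh

variable {T0 T1 : Set (ℝ × ℝ)}

theorem sg_sub_T0 (M : Msh T0 T1) (r : M.R) : M.D.sg r ⊆ T0 := by
  obtain ⟨u, v, huv, hall⟩ := M.G.twoF r
  have : ∃ w, w ≠ M.x0 ∧ r ∈ M.G.bd w := by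
    by_cases hu : u = M.x0
    · exact ⟨v, fun hv => huv (hu.trans hv.symm), (hall v).2 (Or.inr rfl)⟩
    · exact ⟨u, hu, (hall u).2 (Or.inl rfl)⟩
  obtain ⟨w, hw0, hw⟩ := this
  refine ((M.D.sg_sub hw0 hw).trans sdiff_subset).trans (Subset.trans ?_ M.D.cov.symm.subset)
  exact subset_biUnion_of_mem (u := fun x => P (M.D.H x)) (show w ∈ {x | x ≠ M.x0} from hw0)

theorem P_sub_T0 (M : Msh T0 T1) {x : M.X} (hx : x ≠ M.x0) : P (M.D.H x) ⊆ T0 := by
  refine Subset.trans ?_ M.D.cov.symm.subset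
  exact subset_biUnion_of_mem (u := fun x => P (M.D.H x)) (show x ∈ {x | x ≠ M.x0} from hx)

open Classical in
/-- a drawing on a sphere -/
noncomputable def lay (M : Msh T0 T1) {A B Γ Sg : Set F} (hu : A ∪ B = Sg) (hi : A ∩ B = Γ)
    (hB : IsBall 2 B Γ) (e : PLEquiv T0 A) (he : e.f '' T1 = Γ) : Lay M.G Sg where
  pt := fun a => e.f (M.D.pt a)
  arc := fun r => e.f '' M.D.sg r
  disc := fun x => if x = M.x0 then B else e.f '' P (M.D.H x)
  inj := by
    intro a b h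
    obtain ⟨r, hr⟩ := Lay.exists_edge M.G a
    obtain ⟨r', hr'⟩ := Lay.exists_edge M.G b
    exact M.D.inj (e.injOn (M.sg_sub_T0 r (pt_mem_seg hr)) (M.sg_sub_T0 r' (pt_mem_seg hr')) h)
  arc_ball := by
    intro r
    obtain ⟨a, b, hab⟩ : ∃ a b, M.G.ends r = s(a, b) := by
      induction h : M.G.ends r using Sym2.ind with
      | _ a b => exact ⟨a, b, rfl⟩
    have hne : M.D.pt a ≠ M.D.pt b := by
      intro h
      have := M.D.inj h
      exact M.G.nd r (by rw [hab, this]; exact Sym2.mk_isDiag_iff.2 rfl)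
    have h1 : IsBall 1 (M.D.sg r) {M.D.pt a, M.D.pt b} := by
      rw [Drw.sg, seg_eq hab]; exact isBall_segment hne
    have h2 := h1.map (e.restrImage (M.sg_sub_T0 r))
    have h3 : (e.restrImage (M.sg_sub_T0 r)).f '' {M.D.pt a, M.D.pt b} =
        (fun a => e.f (M.D.pt a)) '' {a | a ∈ M.G.ends r} := by
      rw [image_ends hab, image_pair]
      rfl
    rw [h3] at h2
    exact h2
  disc_ball := by
    intro x
    by_cases hx : x = M.x0
    · rw [if_pos hx]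
      have : (⋃ r ∈ M.G.bd x, e.f '' M.D.sg r) = Γ := by
        have h1 : e.f '' T1 = e.f '' ⋃ r ∈ M.G.bd M.x0, M.D.sg r :=
          congrArg (fun s => e.f '' s) M.D.fr0
        rw [image_iUnion₂, he] at h1
        rw [h1, hx]
      rw [this]; exact hB
    · rw [if_neg hx]
      have h1 := isBall_P_top (M.D.H x) (M.D.cpt x hx) (M.D.int x hx)
      have h0 : Module.finrank ℝ (ℝ × ℝ) = 2 := by simp
      rw [h0, M.D.fr x hx] at h1
      have h2 := h1.map (e.restrImage (M.P_sub_T0 hx))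
      have h3 : (e.restrImage (M.P_sub_T0 hx)).f '' (⋃ r ∈ M.G.bd x, seg M.G.ends M.D.pt r) =
          ⋃ r ∈ M.G.bd x, e.f '' M.D.sg r := by
        rw [image_iUnion₂]
        rfl
      rw [h3] at h2
      exact h2
  pt_arc := by
    rintro a r ⟨w, hw, hwa⟩
    obtain ⟨r', hr'⟩ := Lay.exists_edge M.G a
    have := e.injOn (M.sg_sub_T0 r hw) (M.sg_sub_T0 r' (pt_mem_seg hr')) hwa
    rw [this] at hw
    exact M.D.pt_seg a r hw
  arc_arc := by
    rintro r r' hrr _ ⟨w, hw, rfl⟩ ⟨w', hw', hww⟩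
    have := e.injOn (M.sg_sub_T0 r' hw') (M.sg_sub_T0 r hw) hww
    rw [this] at hw'
    obtain ⟨a, ha⟩ := M.D.seg_seg r r' hrr w hw hw'
    exact ⟨a, M.D.pt_seg a r (by rw [← ha]; exact hw), by rw [ha]⟩
  disc_disc := by
    intro x x' hxx y hy hy'
    have hTA : e.f '' T0 = A := e.image_eq
    have h10 : T1 ⊆ T0 := by
      have := M.D.fr0
      intro w hw
      rw [this] at hw
      obtain ⟨r, -, hr⟩ := mem_iUnion₂.1 hw
      exact M.sg_sub_T0 r hr
    by_cases hx : x = M.x0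
    · rw [if_pos hx] at hy
      have hx' : x' ≠ M.x0 := fun h => hxx (hx.trans h.symm)
      rw [if_neg hx'] at hy'
      have hyA : y ∈ A := by
        rw [← hTA]; exact image_mono (M.P_sub_T0 hx') hy'
      have hyΓ : y ∈ Γ := by rw [← hi]; exact ⟨hyA, hy⟩
      rw [← he, M.D.fr0, image_iUnion₂] at hyΓ
      rw [hx]; exact hyΓ
    · rw [if_neg hx] at hy
      obtain ⟨w, hw, rfl⟩ := hy
      have hfr : w ∈ P (M.D.H x) \ I (M.D.H x) := by
        by_cases hx' : x' = M.x0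
        · rw [if_pos hx'] at hy'
          have hyA : e.f w ∈ A := e.mf (M.P_sub_T0 hx hw)
          have hyΓ : e.f w ∈ Γ := by rw [← hi]; exact ⟨hyA, hy'⟩
          rw [← he] at hyΓ
          obtain ⟨w', hw', hww⟩ := hyΓ
          have h1 := e.injOn (h10 hw') (M.P_sub_T0 hx hw) hww
          rw [h1, M.D.fr0] at hw'
          obtain ⟨r, -, hr⟩ := mem_iUnion₂.1 hw'
          exact M.D.mem_fr hx hw hr
        · rw [if_neg hx'] at hy'
          obtain ⟨w', hw', hww⟩ := hy'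
          have h1 := e.injOn (M.P_sub_T0 hx' hw') (M.P_sub_T0 hx hw) hww
          rw [h1] at hw'
          exact ⟨hw, fun hI => Set.disjoint_left.1 (M.D.disj x hx x' hx' hxx) hI hw'⟩
      rw [M.D.fr x hx] at hfr
      obtain ⟨r, hr, hwr⟩ := mem_iUnion₂.1 hfr
      exact mem_biUnion (x := r) hr ⟨w, hwr, rfl⟩
  cov := by
    rw [← hu]
    ext y
    constructor
    · rintro (h | h)
      · rw [← e.image_eq] at h
        obtain ⟨w, hw, rfl⟩ := h
        have := M.D.cov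
        rw [this] at hw
        obtain ⟨x, hx, hwx⟩ := mem_iUnion₂.1 hw
        have hx : x ≠ M.x0 := hx
        refine mem_iUnion.2 ⟨x, ?_⟩
        rw [if_neg hx]
        exact ⟨w, hwx, rfl⟩
      · refine mem_iUnion.2 ⟨M.x0, ?_⟩
        rw [if_pos rfl]
        exact h
    · intro h
      obtain ⟨x, hx⟩ := mem_iUnion.1 h
      by_cases hx0 : x = M.x0
      · rw [if_pos hx0] at hx
        exact Or.inr hx
      · rw [if_neg hx0] at hx
        obtain ⟨w, hw, rfl⟩ := hx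
        exact Or.inl (e.mf (M.P_sub_T0 hx0 hw))

end Msh

/-- **(G2): a fine cubic structure on a PL sphere** -/
theorem exists_fine {K Sg : Set F} (hK : IsBall 3 K Sg) {ε : ℝ} (hε : 0 < ε) :
    ∃ (N R X : Type) (_ : Finite N) (_ : Finite R) (_ : Finite X) (G : Cub N R X) (L : Lay G Sg),
      G.Share ∧ ∀ x, ∀ y ∈ L.disc x, ∀ z ∈ L.disc x, dist y z ≤ ε := by
  classical
  obtain ⟨A, B, Γ, hu, hi, hA, hB, hsm⟩ := exists_small_disc hK hε
  have hT : IsBall 2 K4.T0 K4.T1 := by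
    have h1 := isBall_P_top (K4.H 3) K4.isCompact_T0
      ⟨(1 / 3, 1 / 3), (K4.mem_I 3 _).2 ⟨by norm_num, by norm_num, by norm_num⟩⟩
    have h0 : Module.finrank ℝ (ℝ × ℝ) = 2 := by simp
    rw [h0] at h1
    exact h1
  obtain ⟨e, he, -⟩ := hT.exists_equiv hA
  have hun := K4.isCompact_T0.uniformContinuousOn_of_continuous e.pf.1
  rw [Metric.uniformContinuousOn_iff] at hun
  obtain ⟨δ, hδ, hδe⟩ := hun ε hε
  obtain ⟨M, hM⟩ := Msh.exists_fine K4.isCompact_T0 K4.msh (ε := δ / 2) (by positivity)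
  refine ⟨M.N, M.R, M.X, M.fN, M.fR, M.fX, M.G, M.lay hu hi hB e he, M.share, ?_⟩
  intro x y hy z hz
  by_cases hx : x = M.x0
  · have e1 : (M.lay hu hi hB e he).disc x = B := if_pos hx
    rw [e1] at hy hz
    exact hsm y hy z hz
  · have e1 : (M.lay hu hi hB e he).disc x = e.f '' P (M.D.H x) := if_neg hx
    rw [e1] at hy hz
    obtain ⟨w, hw, rfl⟩ := hy
    obtain ⟨w', hw', rfl⟩ := hz
    refine (hδe w (M.P_sub_T0 hx hw) w' (M.P_sub_T0 hx hw') ?_).le
    exact lt_of_le_of_lt (hM x hx w hw w' hw') (by linarith)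

end Crest.Agent.R096.Sph_560
end

-- ▼ part R096/Spg7_560
section

/-!
# R096 (row 96), DOORS (D6) / SPH, part 7 (helper560): the sphere lemma, unconditional

333's `sph_of` with 976's paths (`exists_pemb`), 923's faces (`exists_emb`) and the fine cubic
structures of `Spg6_560` (`exists_fine`).
-/

set_option autoImplicit false

open Set Metric

namespace Crest.Agent.R096.Sph_560

open Crest.Agent.R096.Ce_537 Crest.Agent.R096.Spp_333

theorem abs1 : ABS1 := fun {_ _ _ _ _ _} _ _ _ _ P => Spq_976.exists_pemb P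

theorem abs2 : ABS2 := fun {_ _ _ _ _ _} _ _ _ _ _ _ _ M hev => Spf_923.exists_emb M hev

theorem fine_560 (F : Type*) [NormedAddCommGroup F] [NormedSpace ℝ F] : FINE F := by
  intro K' Sg' hK ε hε
  obtain ⟨N, R, X, h1, h2, h3, G, L, -, h⟩ := exists_fine hK hε
  exact ⟨N, R, X, h1, h2, h3, G, L, h⟩

variable {F : Type*} [NormedAddCommGroup F] [NormedSpace ℝ F]
  {Em : Type*} [NormedAddCommGroup Em] [NormedSpace ℝ Em]

/-- **SPH, the sphere lemma** -/
theorem sph {K' Sg' : Set F} (hK' : IsBall 3 K' Sg') {ε : ℝ} (hε : 0 < ε) :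
    ∃ δ₀ > 0, ∀ {V E T : Type} [Fintype E] [Finite V] [Finite T] (S : Surf V E T), EvenT S →
      ∀ {K Sg : Set Em} (A : Real S Sg), IsBall 3 K Sg → ∀ (gv : V → F), Carry S gv Sg' δ₀ →
      ∀ (g : Em → F), (∀ f e, S.On f e → ∀ v ∈ S.ends e, ∀ p ∈ A.tile f,
        dist (gv v) (g p) ≤ δ₀) →
      ∃ θ : PLEquiv Sg Sg', ∀ p ∈ Sg, dist (θ.f p) (g p) ≤ ε :=
  sph_of abs1 abs2 (fine_560 F) hK' hε

end Crest.Agent.R096.Sph_560
end

-- ▼ part R096/Sps5_333
section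

/-!
# R096 (row 96), DOORS / SPH (helper333), part s5: `θ` for a realised sheet

* `Del Em Sg ε δ₀`   : the conclusion of the sphere lemma for the constant `δ₀`;
* `exists_del`       : it holds for some `δ₀ > 0` (560's `sph`);
* `theta_of_sheet`   : a sheet of 416's band structure which realises the main class of a level
  surface `S`, with cells of `G`-oscillation at most `δ₀`, has a PL equivalence `θ` onto `Sg` which
  is `ε`-near to `G`.
-/

set_option autoImplicit false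

open Set Metric

namespace Crest.Agent.R096.Spp_333

open Crest.Agent.R096.Sph_560 Crest.Agent.R096.Ce_537 Crest.Agent.R096.Bd_416
  Crest.Agent.R096.Shp_334 Crest.Agent.R096.Coh_184 Crest.Agent.R096.Jn_890
  Crest.Agent.R096.Seq_213 Crest.Agent.R096.St_147

/-- the sphere lemma holds with the constant `δ₀` -/
def Del (Em : Type*) [NormedAddCommGroup Em] [NormedSpace ℝ Em] {F : Type*}
    [NormedAddCommGroup F] [NormedSpace ℝ F] (Sg' : Set F) (ε δ₀ : ℝ) : Prop :=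
  ∀ {V E T : Type} [Fintype E] [Finite V] [Finite T] (S : Surf V E T), EvenT S →
    ∀ {K Sg : Set Em} (A : Real S Sg), IsBall 3 K Sg → ∀ (gv : V → F), Carry S gv Sg' δ₀ →
    ∀ (g : Em → F), (∀ f e, S.On f e → ∀ v ∈ S.ends e, ∀ p ∈ A.tile f,
      dist (gv v) (g p) ≤ δ₀) →
    ∃ θ : PLEquiv Sg Sg', ∀ p ∈ Sg, dist (θ.f p) (g p) ≤ ε

theorem exists_del (Em : Type*) [NormedAddCommGroup Em] [NormedSpace ℝ Em] {F : Type*}
    [NormedAddCommGroup F] [NormedSpace ℝ F] {K' Sg' : Set F} (hK' : IsBall 3 K' Sg') {ε : ℝ}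
    (hε : 0 < ε) : ∃ δ₀ > 0, Del Em Sg' ε δ₀ := by
  obtain ⟨δ₀, h1, h2⟩ := sph (Em := Em) hK' hε
  exact ⟨δ₀, h1, h2⟩

section finite

variable {Q : Type} [PartialOrder Q] {dim : Q → ℕ} {J Fam : Type}
variable {E' : Type*} [NormedAddCommGroup E'] [NormedSpace ℝ E']
variable {C : Cmb Q dim J Fam} {K : Q → Set E'} {Ω : Set E'} {j : J}

/-- finitely many chords -/
theorem finite_chords (X : Cplx Ω Q dim K) (htop : Top3 Q dim) [Finite (Pce C j 3)] :
    Finite (Pce C j 2) := by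
  have h4 : (univ : Set (Pce C j 2)).Finite := by
    have h3 : (univ : Set (Pce C j 2)) ⊆ ⋃ t : Pce C j 3, {y | Sub C y t} := by
      intro y _
      obtain ⟨q', hle, hd⟩ := htop y.1.1
      have hlt : y.1.1 < q' := lt_of_le_of_ne hle (fun h => by
        have h2 := y.2.1
        rw [h, hd] at h2
        omega)
      exact mem_iUnion.2 ⟨upP y hlt hd, sub_upP y hlt hd⟩
    exact (Set.finite_iUnion fun t => finite_sub X t).subset h3
  exact finite_univ_iff.1 h4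

end finite

section sheet

open Crest.Agent.R096.Msh_715 Crest.Agent.R096.Agl4_543 Crest.Agent.R096.Agl5_543
  Crest.Agent.R096.Main_4

variable {E : Type} [NormedAddCommGroup E] [NormedSpace ℝ E] [FiniteDimensional ℝ E]
variable {Om : Set E} {ι : Type} {T : Tiling Om ι} (h3 : Module.finrank ℝ E = 3)
variable {J Fam : Type} {fam : J → Fam} {s : GSt (meshC T h3) fam}
variable {Q : Type} [PartialOrder Q] {dim : Q → ℕ}
variable {E' : Type*} [NormedAddCommGroup E'] [NormedSpace ℝ E']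
variable {C : Cmb Q dim J Fam} {K : Q → Set E'} {g : Gd E' J}
  {P' : ∀ q, C.I q → Set E'} {c' : ∀ q, C.I q → E' → ℝ} {Ω : Set E'}
variable (H : Inv C K univ g P' c') (X : Cplx Ω Q dim K) {j : J} (hB : Bls C K c' j)
variable (hM : Mfd Q dim) (htop : Top3 Q dim)
variable {F : Type*} [NormedAddCommGroup F] [NormedSpace ℝ F]

include H X hB hM htop

/-- **`θ` for a realised sheet** -/
theorem theta_of_sheet (h1 : SH1 C j) (hc : SConn C j) (D : Dic C s j)
    {Sg : Set F} {ε δ : ℝ} (hdel : Del E' Sg ε δ)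
    {Kb : Set E'} (hKb : IsBall 3 Kb {z | z ∈ Ω ∧ g.G j z = 1/2})
    {u : E → ℝ} {t : ℝ} {S : Set E} (hS : RegLevel T u t S) {P : Finset E}
    (hP : ∀ x, x ∈ P ↔ x ∈ S ∧ T.dim x ≤ 1) (htriv : TrivAll Bool (ZMod 2) S)
    (hsP : ∀ w ∈ s.P, s.lab w = j → w ∈ S)
    (hstep : ∀ a b, a ∈ s.P → s.lab a = j → a ≠ b → St T S P a b → ∃ F, s.At F a ∧ b = s.mu F a)
    (hcls : ∀ a b, a ∈ s.P → s.lab a = j → b ∈ s.P → s.lab b = j →
      Relation.ReflTransGen (St T S P) a b)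
    {G : E → F} {G' : F → E} (hG : MapsTo G S Sg)
    (hG' : ContinuousOn G' Sg) (hG'S : MapsTo G' Sg S) (hGG' : ∀ y ∈ Sg, G (G' y) = y)
    (hG'G : ∀ x ∈ S, G' (G x) = x)
    (hosc : ∀ q, ∀ x ∈ S, ∀ y ∈ S, x ∈ Msh_715.P (T.H q) → y ∈ Msh_715.P (T.H q) →
      dist (G x) (G y) ≤ δ)
    (hdense : ∀ y ∈ Sg, ∃ w ∈ s.P, s.lab w = j ∧ dist (G w) y ≤ δ)
    {Gm : E' → F} (hGm : ∀ (τ : Pce C j 3) (v : Pce C j 1), Sub C v τ → ∀ p ∈ K τ.1.1,
      dist (G (D.pt v)) (Gm p) ≤ δ) :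
    ∃ θ : PLEquiv {z | z ∈ Ω ∧ g.G j z = 1/2} Sg,
      ∀ p ∈ {z | z ∈ Ω ∧ g.G j z = 1/2}, dist (θ.f p) (Gm p) ≤ ε := by
  have f1 : Finite (Pce C j 1) := D.finite1
  have f3 : Finite (Pce C j 3) := finite3 H X hB
  have f2 : Finite (Pce C j 2) := finite_chords X htop
  have : Fintype (Pce C j 2) := Fintype.ofFinite _
  refine hdel (sheetPoly H X hB hM h1 hc).surf (sheetPoly H X hB hM h1 hc).evenT
    (sheetReal H X hB hM h1 hc htop) hKb (fun v => G (D.pt v))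
    (sheet_carry h3 H X hB hM h1 hc D hS hP htriv hsP hstep hcls hG hG' hG'S hGG' hG'G hosc
      hdense) Gm ?_
  intro τ y hy v hv p hp
  have hv' : Sub C v y := (mem_cends H X hB).1 hv
  exact hGm τ v (hv'.trans hy) p hp.1

end sheet

end Crest.Agent.R096.Spp_333
end

-- ▼ part R096/Sps6_333
section

/-!
# R096 (row 96), SPHERE (helper333), part s6: `θ` for the main class of a gauge level of a
homeomorphism (the state `s1` of helper4)

* `Gau z C`       : the facts about the gauge and the radial projection (316's (g1)-(g3));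
* `dense_s1`      : the points of the main class are dense over `frontier C`;
* `theta_s1`      : `θ` near `e₀ ∘ pj z C ∘ f`.
-/

set_option autoImplicit false

open Set Metric

namespace Crest.Agent.R096.Spp_333

open Crest.Agent.R096.Sph_560 Crest.Agent.R096.Ce_537 Crest.Agent.R096.Bd_416
  Crest.Agent.R096.Shp_334 Crest.Agent.R096.Coh_184 Crest.Agent.R096.Jn_890
  Crest.Agent.R096.Seq_213 Crest.Agent.R096.St_147 Crest.Agent.R096.Sphg_316
  Crest.Agent.R096.Msh_715 Crest.Agent.R096.Agl4_543 Crest.Agent.R096.Agl5_543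
  Crest.Agent.R096.Main_4 Crest.Agent.R096.Sphs_4 Crest.Agent.R096.Cm_117
  Crest.AnalysisR.VecCalc3 Crest.AnalysisR.Sobolev Crest.Agent.R096.Ginv_543
  Crest.Agent.R096.Lab_184

/-- facts about the gauge and the radial projection -/
structure Gau (z : R3) (C : Set R3) : Prop where
  pf : ∀ y, y ≠ z → pj z C y ∈ frontier C
  ray : ∀ w ∈ frontier C, ∀ s : ℝ, 0 < s → pj z C (z + s • (w - z)) = w
  one : ∀ w ∈ frontier C, Ng z C w = 1
  eq : ∀ y, ∀ r : ℝ, 0 < r → Ng z C y = r → y = z + r • (pj z C y - z)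

variable {f : R3 → R3} {Om La : Set R3} {ι : Type} {T : Tiling Om ι}

/-- `pj` is near on nearby points, away from `z` -/
def Near (z : R3) (C : Set R3) {F : Type*} [NormedAddCommGroup F] (e₀ : R3 → F) (r ε₁ δ : ℝ) :
    Prop :=
  ∀ a b : R3, Ng z C a = r → ‖a - b‖ ≤ ε₁ → b ≠ z ∧ ‖e₀ (pj z C a) - e₀ (pj z C b)‖ ≤ δ

section dense

/-- the tiles which meet `f⁻¹ C` have small images -/
def Fine1 (T : Tiling Om ι) (f : R3 → R3) (C : Set R3) (ε₁ : ℝ) : Prop :=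
  ∀ q, (∃ x ∈ Msh_715.P (T.H q), f x ∈ C) → ∀ x ∈ Msh_715.P (T.H q), ∀ y ∈ Msh_715.P (T.H q),
    ‖f x - f y‖ ≤ ε₁

/-- **density of the main class** -/
theorem dense_s1 (hf : IsHomeomorphOn f Om La) {C : Set R3} (hC : IsClosed C)
    (hcv : Convex ℝ C) (hCL : C ⊆ La) {z : R3} (hz : z ∈ C) (hG : Gau z C) {F : Type*}
    [NormedAddCommGroup F] {e₀ : R3 → F} {r ε₁ δ : ℝ}
    (hNear : Near z C e₀ r ε₁ δ) (hfine : Fine1 T f C ε₁)
    {Q : Finset R3} (hQ : ∀ w ∈ Q, Ng z C (f w) = r) {lam : R3 → ZMod 2}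
    (hl : FarLab T f C Q lam) {x₀ v₀ : R3} {q₀ : ι} (hx₀ : x₀ ∈ Msh_715.P (T.H q₀))
    (hfx : f x₀ = z) (hv₀ : v₀ ∈ Msh_715.P (T.H q₀)) (hd₀ : T.dim v₀ = 0) (h0 : lam v₀ = 1)
    {y : R3} (hy : y ∈ frontier C) : ∃ w ∈ Q, ‖e₀ (pj z C (f w)) - e₀ y‖ ≤ δ := by
  have hyC : y ∈ C := hC.frontier_subset hy
  obtain ⟨x₁, hx₁, hfx₁⟩ := exists_preimage hf (hCL hyC)
  obtain ⟨q₁, hq₁⟩ := T.cov x₁ hx₁
  have hq₁' : ¬ Msh_715.P (T.H q₁) ⊆ f ⁻¹' interior C := by
    intro h4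
    have h5 : f x₁ ∈ interior C := h4 hq₁
    rw [hfx₁] at h5
    rw [hC.frontier_eq] at hy
    exact hy.2 h5
  obtain ⟨v₁, hv₁, hd₁⟩ := exists_vertex_tile hq₁
  have hseg : segment ℝ z y ⊆ C := hcv.segment_subset hz hyC
  obtain ⟨w, hw, q, hwq, a, ⟨x, hxq, rfl⟩, ha⟩ := hl.reach_target hf (G := segment ℝ z y)
    (convex_segment z y).isPreconnected (hseg.trans hCL) hx₀
    (by rw [hfx]; exact left_mem_segment ℝ z y) hv₀ hd₀ hq₁
    (by rw [hfx₁]; exact right_mem_segment ℝ z y) hv₁ hd₁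
    (by rw [h0, hl.far q₁ hq₁' v₁ hv₁]; exact one_ne_zero)
  refine ⟨w, hw, ?_⟩
  have hxC : f x ∈ C := hseg ha
  have h1 := hfine q ⟨x, hxq, hxC⟩ w hwq x hxq
  obtain ⟨h2, h3⟩ := hNear (f w) (f x) (hQ w hw) h1
  -- the point of the segment
  rw [segment_eq_image'] at ha
  obtain ⟨t, ht, hta⟩ := ha
  have ht0 : 0 < t := by
    rcases lt_or_eq_of_le ht.1 with h | h
    · exact h
    · exfalso
      apply h2
      rw [← hta]
      simp [← h]
  have h4 : pj z C (f x) = y := by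
    rw [← hta]
    exact hG.ray y hy t ht0
  rwa [h4] at h3

end dense

section theta

variable {h3 : Module.finrank ℝ R3 = 3}
variable {Q : Type} [PartialOrder Q] {dim : Q → ℕ}
variable {C : Cmb Q dim Unit Unit} {K : Q → Set R3} {g : Gd R3 Unit}
  {P' : ∀ q, C.I q → Set R3} {c' : ∀ q, C.I q → R3 → ℝ} {Ω : Set R3}
variable (H : Inv C K univ g P' c') (X : Cplx Ω Q dim K) (hB : Bls C K c' ())
variable (hM : Mfd Q dim) (htop : Top3 Q dim)
variable {F : Type*} [NormedAddCommGroup F] [NormedSpace ℝ F]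

include H X hB hM htop

/-- **`θ` for the main class** -/
theorem theta_s1 (hf : IsHomeomorphOn f Om La) {D : Set R3} (hDc : IsClosed D)
    (hcv : Convex ℝ D) (hDL : D ⊆ La) {z : R3} (hz : z ∈ D) (hG : Gau z D)
    {Sg : Set F} {e₀ : R3 → F} {e₁ : F → R3} (he₀ : MapsTo e₀ (frontier D) Sg)
    (he₁ : MapsTo e₁ Sg (frontier D)) (hec : ContinuousOn e₁ Sg)
    (h01 : ∀ y ∈ Sg, e₀ (e₁ y) = y) (h10 : ∀ w ∈ frontier D, e₁ (e₀ w) = w)
    {r ε₁ ε δ : ℝ} (hr : 0 < r) (hr1 : r ≤ 1) (hNear : Near z D e₀ r ε₁ δ)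
    (hfine : Fine1 T f D ε₁) (hdel : Del R3 Sg ε δ)
    {Kb : Set R3} (hKb : IsBall 3 Kb {z | z ∈ Ω ∧ g.G () z = 1/2})
    {u : R3 → ℝ} {t : ℝ} (h : RegLevel T u t {x | x ∈ Om ∧ Ng z D (f x) = r})
    (htriv : TrivF (ZMod 2) {x | x ∈ Om ∧ Ng z D (f x) = r})
    {b : R3} (hb : b ∈ Om) (hbr : Ng z D (f b) = r) (hb1 : T.dim b ≤ 1)
    {lam : R3 → ZMod 2} (hl : FarLab T f D (gPts (s1 h h3 b) ()) lam) {x₀ v₀ : R3} {q₀ : ι}
    (hx₀ : x₀ ∈ Msh_715.P (T.H q₀)) (hfx : f x₀ = z) (hv₀ : v₀ ∈ Msh_715.P (T.H q₀))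
    (hd₀ : T.dim v₀ = 0) (h0 : lam v₀ = 1)
    (h1 : SH1 C ()) (hc : SConn C ()) (Dc : Dic C (s1 h h3 b) ())
    (hcell : ∀ (τ : Pce C () 3) (v : Pce C () 1), Sub C v τ →
      ∃ q, Dc.pt v ∈ Msh_715.P (T.H q) ∧ K τ.1.1 ⊆ Msh_715.P (T.H q)) :
    ∃ θ : PLEquiv {z | z ∈ Ω ∧ g.G () z = 1/2} Sg,
      ∀ p ∈ {z | z ∈ Ω ∧ g.G () z = 1/2}, dist (θ.f p) (e₀ (pj z D (f p))) ≤ ε := by
  classical
  obtain ⟨fi, a1, a2, a3, a4, a5, a6⟩ := id hf
  set S : Set R3 := {x | x ∈ Om ∧ Ng z D (f x) = r} with hS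
  have hfin := h.finite_P h3
  have hP : ∀ x, x ∈ hfin.toFinset ↔ x ∈ S ∧ T.dim x ≤ 1 := fun x => by
    rw [Set.Finite.mem_toFinset]; rfl
  have hne : ∀ x ∈ S, f x ≠ z := by
    rintro x ⟨-, hx⟩ hxz
    rw [hxz, Ng_self] at hx
    exact hr.ne hx
  have hseg : ∀ w ∈ D, z + r • (w - z) ∈ D := by
    intro w hw
    have := hcv hz hw (show (0 : ℝ) ≤ 1 - r by linarith) hr.le (by ring)
    convert this using 1
    module
  have hSD : ∀ x ∈ S, f x ∈ D := by
    intro x hx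
    rw [hG.eq (f x) r hr hx.2]
    exact hseg _ (hDc.frontier_subset (hG.pf _ (hne x hx)))
  have hpj : ∀ w ∈ frontier D, Ng z D (z + r • (w - z)) = r := fun w hw => by
    rw [Ng_ray z D hr.le, hG.one w hw, mul_one]
  have hPS : ∀ w, w ∈ (s1 h h3 b).P → w ∈ S := fun w hw => (s1_mem h h3 b hw).1
  have hkey := fun w => s1_P h h3 b (w := w) ⟨hb, hbr⟩ hb1 hP
  refine theta_of_sheet h3 H X hB hM htop (s := s1 h h3 b) h1 hc Dc hdel hKb h hP
    (htriv.all Bool) (fun w hw _ => hPS w hw) ?_ ?_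
    (G := fun x => e₀ (pj z D (f x))) (G' := fun y => fi (z + r • (e₁ y - z))) ?_ ?_ ?_ ?_ ?_ ?_
    ?_ ?_
  · -- steps
    intro a a' ha _ hne' hst
    obtain ⟨F0, hAt, hmu⟩ := gstep_of_st (gfam1 h) h3 (i := ()) hP hne' hst
    exact ⟨F0, ⟨ha, hAt.2⟩, hmu⟩
  · -- one class
    intro a a' ha _ ha' _
    have e1 := (hkey a).1 ha
    have e2 := (hkey a').1 ha'
    exact (path_symm (mem_cls.1 e1).2).trans (mem_cls.1 e2).2
  · intro x hx
    exact he₀ (hG.pf _ (hne x hx))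
  · refine a6.comp ?_ ?_
    · exact continuousOn_const.add ((hec.sub continuousOn_const).const_smul r)
    · intro y hy
      exact hDL (hseg _ (hDc.frontier_subset (he₁ hy)))
  · intro y hy
    have hyD := hseg _ (hDc.frontier_subset (he₁ hy))
    refine ⟨a2 (hDL hyD), ?_⟩
    show Ng z D (f (fi (z + r • (e₁ y - z)))) = r
    rw [a4 _ (hDL hyD)]
    exact hpj _ (he₁ hy)
  · intro y hy
    have hyD := hseg _ (hDc.frontier_subset (he₁ hy))
    show e₀ (pj z D (f (fi (z + r • (e₁ y - z))))) = y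
    rw [a4 _ (hDL hyD), hG.ray _ (he₁ hy) r hr, h01 y hy]
  · intro x hx
    show fi (z + r • (e₁ (e₀ (pj z D (f x))) - z)) = x
    rw [h10 _ (hG.pf _ (hne x hx)), ← hG.eq (f x) r hr hx.2, a3 x hx.1]
  · intro q x hx y hy hxq hyq
    rw [dist_eq_norm]
    exact (hNear _ _ hx.2 (hfine q ⟨x, hxq, hSD x hx⟩ x hxq y hyq)).2
  · intro y hy
    obtain ⟨w, hw, hd⟩ := dense_s1 hf hDc hcv hDL hz hG hNear hfine
      (fun w hw => (hPS w (mem_gPts.1 hw).1).2) hl hx₀ hfx hv₀ hd₀ h0 (he₁ hy)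
    refine ⟨w, (mem_gPts.1 hw).1, Subsingleton.elim _ _, ?_⟩
    rw [h01 y hy] at hd
    rw [dist_eq_norm]
    exact hd
  · intro τ v hv p hp
    obtain ⟨q, hvq, hKq⟩ := hcell τ v hv
    have hvS : Dc.pt v ∈ S := hPS _ (Dc.mem v).1
    rw [dist_eq_norm]
    exact (hNear _ _ hvS.2 (hfine q ⟨_, hvq, hSD _ hvS⟩ _ hvq p (hKq hp))).2

end theta

section cmb

variable {h3 : Module.finrank ℝ R3 = 3} {s : GSt (meshC T h3) (fun _ : Unit => ())}

/-- the points of a tile of helper117's `cmb` lie in the tile -/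
theorem cmb_cell (h : LF s) (hon : ∀ w ∈ s.P, w ∈ Om ∧ T.dim w = 1) (Lam : Unit → R3 → ZMod 2)
    (hLam : ∀ j, ∀ e ∈ Om, T.dim e = 1 → ∀ a b, T.cc e = segment ℝ a b →
      Lam j a + Lam j b = (((gPts s j : Set R3) ∩ T.cc e).ncard : ZMod 2))
    (τ : Pce (cmb h hon Lam hLam) () 3) (v : Pce (cmb h hon Lam hLam) () 1) (hv : Sub _ v τ) :
    ∃ q, (cmb_dic h hon Lam hLam ()).pt v ∈ Msh_715.P (T.H q) ∧
      (τ.1.1).set ⊆ Msh_715.P (T.H q) := by
  obtain ⟨q, hq⟩ := exists_tcell h3 τ.2.1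
  obtain ⟨hlt, -⟩ := hv
  refine ⟨q, ?_, ?_⟩
  · have h1 : rep h (c := v.1.1) v.1.2 ∈ v.1.1.set := (mem_pts.1 (rep_mem h (c := v.1.1) v.1.2)).1.2.1
    have h2 := Tiling.Cell.le_def.1 hlt.le h1
    rw [hq, tcell_set] at h2
    exact h2
  · rw [hq, tcell_set]

end cmb

end Crest.Agent.R096.Spp_333
end

-- ▼ part R096/Sphs6_4
section

/-! # Row 96, SPHERE (helper4), part 6: **THE THEOREM** -/

set_option autoImplicit false

open Set Filter Topology Metric Module NNReal MeasureTheory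

namespace Crest.Agent.R096.Sphs_4

open Crest.Agent.R096.Msh_715 Crest.Agent.R096.Agl4_543 Crest.Agent.R096.Agl5_543
  Crest.Agent.R096.Coh_184 Crest.Agent.R096.Main_4 Crest.Agent.R096.Ginv_543
  Crest.Agent.R096.Lab_184 Crest.Agent.R096.Seq_213 Crest.Agent.R096.Cm_117
  Crest.Agent.R096.Bd_416 Crest.Agent.R096.Shp_334 Crest.Agent.R096.Ce_537
  Crest.Agent.R096.Spp_333 Crest.Agent.R096.Sphf_316 Crest.Agent.R096.Sphg_316
  Crest.AnalysisR.VecCalc3 Crest.AnalysisR.Sobolev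

open scoped Classical

theorem gau {z : R3} {C : Set R3} (hC : Bod z C) : Gau z C where
  pf _ hy := hC.pj_mem hy
  ray _ hw _ hs := hC.pj_ray hw hs
  one _ hw := hC.eq_one_iff.2 hw
  eq _ _ hr hy := hC.eq_ray hr hy

theorem exists_near {z : R3} {C : Set R3} (hC : Bod z C) {F : Type*} [NormedAddCommGroup F]
    {e₀ : R3 → F} (he₀ : ContinuousOn e₀ (frontier C)) {r₀ : ℝ} (hr₀ : 0 < r₀) {δ : ℝ}
    (hδ : 0 < δ) : ∃ ε₁ > 0, ∀ r, r₀ ≤ r → r ≤ 1 → Near z C e₀ r ε₁ δ := by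
  obtain ⟨L, hL⟩ := hC.lipschitz
  have hfc : IsCompact (frontier C) := hC.cpt.of_isClosed_subset isClosed_frontier
    hC.cpt.isClosed.frontier_subset
  obtain ⟨η, hη, hu⟩ := Metric.uniformContinuousOn_iff.1
    (hfc.uniformContinuousOn_of_continuous he₀) δ hδ
  obtain ⟨ε, hε, h1⟩ := hC.pj_unif hr₀ (half_pos hη)
  have hL0 : (0:ℝ) ≤ L := L.2
  refine ⟨min ε (r₀ / (2 * (L + 1))), by positivity, fun r hr hr1 a b ha hab => ?_⟩
  have hb : b ≠ z := by
    rintro rfl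
    have h2 := hL.dist_le_mul a b
    rw [ha, Ng_self, Real.dist_eq, sub_zero, dist_eq_norm, abs_of_pos (lt_of_lt_of_le hr₀ hr)] at h2
    have h3 : (L:ℝ) * ‖a - b‖ ≤ L * (r₀ / (2 * (L + 1))) :=
      mul_le_mul_of_nonneg_left (hab.trans (min_le_right _ _)) hL0
    have h4 : (L:ℝ) * (r₀ / (2 * (L + 1))) ≤ r₀ / 2 := by
      have : (L:ℝ) * (r₀ / (2 * (L + 1))) = r₀ / 2 * (L / (L + 1)) := by field_simp
      rw [this]
      refine mul_le_of_le_one_right (by positivity) ?_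
      rw [div_le_one (by positivity)]; linarith
    linarith
  refine ⟨hb, ?_⟩
  have haz : a ≠ z := by
    rintro rfl
    rw [Ng_self] at ha
    linarith
  have h5 := h1 a b (by rw [ha]; exact hr) (by rw [ha]; exact hr1) (hab.trans (min_le_left _ _))
  have h6 := hu _ (hC.pj_mem haz) _ (hC.pj_mem hb) (by rw [dist_eq_norm]; linarith)
  rw [dist_eq_norm] at h6
  exact h6.le

theorem FarLab.mono {f : R3 → R3} {Om : Set R3} {ι : Type} {T : Tiling Om ι} {D D' : Set R3}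
    {Q : Finset R3} {lam : R3 → ZMod 2} (h : FarLab T f D Q lam) (hD : D ⊆ D') :
    FarLab T f D' Q lam where
  lab := h.lab
  out v hv := h.out v fun h1 => hv ⟨h1.1, hD h1.2⟩
  far q hq v hv := h.far q (fun h4 => hq (h4.trans (preimage_mono (interior_mono hD)))) v hv


end Crest.Agent.R096.Sphs_4
end

-- ▼ part R096/Sphs7_4
section

/-! # Row 96, SPHERE (helper4), part 7: all levels of the sheet of the main class: `{t ≤ G}` is a
ball for every `0 < t < 1`, and the transport of the band is a PL equivalence of the levels. -/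

set_option autoImplicit false

open Set Filter Topology Metric Module NNReal MeasureTheory

namespace Crest.Agent.R096.Sphs_4

open Crest.Agent.R096.Msh_715 Crest.Agent.R096.Agl4_543 Crest.Agent.R096.Agl5_543
  Crest.Agent.R096.Coh_184 Crest.Agent.R096.Main_4 Crest.Agent.R096.Ginv_543
  Crest.Agent.R096.Lab_184 Crest.Agent.R096.Seq_213 Crest.Agent.R096.Cm_117
  Crest.Agent.R096.Bd_416 Crest.Agent.R096.Shp_334 Crest.Agent.R096.Ce_537
  Crest.Agent.R096.Spp_333 Crest.Agent.R096.Sphf_316 Crest.Agent.R096.Sphg_316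
  Crest.AnalysisR.VecCalc3 Crest.AnalysisR.Sobolev

open scoped Classical

section transport

variable {Q : Type} [PartialOrder Q] {dim : Q → ℕ} {J Fam : Type}
variable {E : Type} [NormedAddCommGroup E] [NormedSpace ℝ E]
variable {C : Cmb Q dim J Fam} {K : Q → Set E} {g : Gd E J} {P : ∀ q, C.I q → Set E}
  {c : ∀ q, C.I q → E → ℝ}

/-- transport to the level `t` -/
noncomputable def trl (g : Gd E J) (j : J) (t : ℝ) (z : E) : E := g.tr j (z, t - 1/2)

variable (H : Inv C K univ g P c) {j : J} {q : Q} {z : E} {t t' t'' : ℝ}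
include H

theorem mem_B_lev (hz : z ∈ K q) (ht : t ∈ Ioo (0:ℝ) 1) (hG : g.G j z = t) : z ∈ g.B j := by
  refine (H.is q (mem_univ q)).nB j z hz fun hi => ?_
  obtain ⟨n, hn⟩ := mem_Zs.1 hi
  rw [hG] at hn
  have h1 : (0:ℝ) < n := by rw [← hn]; exact ht.1
  have h2 : (n:ℝ) < 1 := by rw [← hn]; exact ht.2
  have h3 : (0:ℤ) < n := by exact_mod_cast h1
  have h4 : n < 1 := by exact_mod_cast h2
  omega

omit H in
theorem sub_mem_I2 (ht : t ∈ Icc (0:ℝ) 1) : t - 1/2 ∈ I2 := by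
  constructor
  · have := ht.1; linarith
  · have := ht.2; linarith

theorem trl_mem (hz : z ∈ K q) (hB : z ∈ g.B j) (ht : t ∈ Icc (0:ℝ) 1) : trl g j t z ∈ K q :=
  (H.is q (mem_univ q)).tZ j z hz hB _ (sub_mem_I2 ht)


theorem trl_G (hz : z ∈ K q) (hB : z ∈ g.B j) (ht : t ∈ Icc (0:ℝ) 1) :
    g.G j (trl g j t z) = t := by
  have h1 := (H.is q (mem_univ q)).tG j z hz hB _ (sub_mem_I2 ht)
  rw [H.lev0 (mem_univ q) j hz hB] at h1
  show g.G j (g.tr j (z, t - 1/2)) = t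
  rw [h1]; ring

theorem trl_trl (hz : z ∈ K q) (hB : z ∈ g.B j) (ht : t ∈ Icc (0:ℝ) 1) (ht' : t' ∈ Icc (0:ℝ) 1) :
    trl g j t' (trl g j t z) = trl g j t' z :=
  (H.is q (mem_univ q)).tt j z hz hB _ (sub_mem_I2 ht) _ (sub_mem_I2 ht')

theorem trl_self (hz : z ∈ K q) (hB : z ∈ g.B j) (hG : g.G j z = t) : trl g j t z = z := by
  have h1 := (H.is q (mem_univ q)).ts j z hz hB
  rw [H.lev0 (mem_univ q) j hz hB, hG, sub_zero] at h1
  exact h1

theorem plOn_trl (ht : t ∈ Icc (0:ℝ) 1) [FiniteDimensional ℝ E] :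
    PLOn (trl g j t) (K q ∩ g.B j) := by
  have h1 := (H.is q (mem_univ q)).pt j
  have h2 : PLOn (fun z : E => (z, t - 1/2)) (K q ∩ g.B j) := by
    have := plOn_affine ((AffineMap.id ℝ E).prod (AffineMap.const ℝ E (t - 1/2))) (K q ∩ g.B j)
    exact this
  exact h1.comp h2 fun z hz => ⟨hz, sub_mem_I2 ht⟩

/-- **the levels of a band are PL equivalent** -/
theorem exists_levEquiv [FiniteDimensional ℝ E] {Om : Set E} (hcov : ∀ z ∈ Om, ∃ q, z ∈ K q)
    (hsub : ∀ q, K q ⊆ Om)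
    (ht : t ∈ Ioo (0:ℝ) 1) (ht' : t' ∈ Ioo (0:ℝ) 1) {s : Set Q} (hs : s.Finite)
    (hsc : ∀ z ∈ Om, g.G j z ∈ Ioo (0:ℝ) 1 → ∃ q ∈ s, z ∈ K q) :
    ∃ e : PLEquiv {z | z ∈ Om ∧ g.G j z = t} {z | z ∈ Om ∧ g.G j z = t'},
      (∀ z ∈ Om, g.G j z = t → ∀ q, z ∈ K q → e.f z ∈ K q) ∧
      (∀ z ∈ Om, g.G j z = t' → ∀ q, z ∈ K q → e.g z ∈ K q) ∧
      ∀ z, e.f z = trl g j t' z := by
  have key : ∀ {a b : ℝ}, a ∈ Ioo (0:ℝ) 1 → b ∈ Ioo (0:ℝ) 1 →
      PLOn (trl g j b) {z | z ∈ Om ∧ g.G j z = a} := by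
    intro a b ha hb
    refine (plOn_biUnion (K := fun q => K q ∩ g.B j) s hs
      (fun q _ => plOn_trl H (Ioo_subset_Icc_self hb))
      (fun q _ => (H.is q (mem_univ q)).cB j)).mono ?_
    rintro z ⟨hz, hG⟩
    obtain ⟨q, hq, hzq⟩ := hsc z hz (by rw [hG]; exact ha)
    exact mem_biUnion hq ⟨hzq, mem_B_lev H hzq ha hG⟩
  have hm : ∀ {a b : ℝ}, a ∈ Ioo (0:ℝ) 1 → b ∈ Ioo (0:ℝ) 1 → ∀ z ∈ Om, g.G j z = a →
      ∀ q, z ∈ K q → trl g j b z ∈ K q := fun ha hb z _ hG q hq =>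
    trl_mem H hq (mem_B_lev H hq ha hG) (Ioo_subset_Icc_self hb)
  have hmaps : ∀ {a b : ℝ}, a ∈ Ioo (0:ℝ) 1 → b ∈ Ioo (0:ℝ) 1 →
      MapsTo (trl g j b) {z | z ∈ Om ∧ g.G j z = a} {z | z ∈ Om ∧ g.G j z = b} := by
    rintro a b ha hb z ⟨hz, hG⟩
    obtain ⟨q, hq⟩ := hcov z hz
    exact ⟨hsub q (hm ha hb z hz hG q hq),
      trl_G H hq (mem_B_lev H hq ha hG) (Ioo_subset_Icc_self hb)⟩
  have hinv : ∀ {a b : ℝ}, a ∈ Ioo (0:ℝ) 1 → b ∈ Ioo (0:ℝ) 1 →
      ∀ z ∈ {z | z ∈ Om ∧ g.G j z = a}, trl g j a (trl g j b z) = z := by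
    rintro a b ha hb z ⟨hz, hG⟩
    obtain ⟨q, hq⟩ := hcov z hz
    have hB := mem_B_lev H hq ha hG
    rw [trl_trl H hq hB (Ioo_subset_Icc_self hb) (Ioo_subset_Icc_self ha), trl_self H hq hB hG]
  exact ⟨⟨trl g j t', trl g j t, key ht ht', key ht' ht, hmaps ht ht', hmaps ht' ht,
    hinv ht ht', hinv ht' ht⟩, hm ht ht', hm ht' ht, fun _ => rfl⟩

/-- the transport is PL on the open band -/
theorem plOn_trl_mid [FiniteDimensional ℝ E] {Om : Set E} (ht : t ∈ Icc (0:ℝ) 1) {s : Set Q}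
    (hs : s.Finite) (hsc : ∀ z ∈ Om, g.G j z ∈ Ioo (0:ℝ) 1 → ∃ q ∈ s, z ∈ K q) :
    PLOn (trl g j t) {z | z ∈ Om ∧ g.G j z ∈ Ioo (0:ℝ) 1} := by
  refine (plOn_biUnion (K := fun q => K q ∩ g.B j) s hs
    (fun q _ => plOn_trl H ht) (fun q _ => (H.is q (mem_univ q)).cB j)).mono ?_
  rintro z ⟨hz, hG⟩
  obtain ⟨q, hq, hzq⟩ := hsc z hz hG
  exact mem_biUnion hq ⟨hzq, mem_B_lev H hzq hG rfl⟩

end transport

section cells

variable {E : Type} [NormedAddCommGroup E] [NormedSpace ℝ E] [FiniteDimensional ℝ E]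
variable {Om : Set E} {ι : Type} {T : Tiling Om ι} {h3 : finrank ℝ E = 3}
variable {s : GSt (meshC T h3) (fun _ : Unit => ())}
variable {h : LF s} {hon : ∀ w ∈ s.P, w ∈ Om ∧ T.dim w = 1} {Lam : Unit → E → ZMod 2}
  {hLam : ∀ j, ∀ e ∈ Om, T.dim e = 1 → ∀ a b, T.cc e = segment ℝ a b →
      Lam j a + Lam j b = (((gPts s j : Set E) ∩ T.cc e).ncard : ZMod 2)}
variable {g : Gd E Unit} {P : ∀ q, (cmb h hon Lam hLam).I q → Set E}
  {c : ∀ q, (cmb h hon Lam hLam).I q → E → ℝ}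

/-- a tile with a point of `{0 < G < 1}` contains a point of the pattern -/
theorem pt_of_mid (H : Inv (cmb h hon Lam hLam) (fun c : T.Cell => c.set) univ g P c) {q : ι}
    {z : E} (hz : z ∈ Msh_715.P (T.H q)) (hG : g.G () z ∈ Ioo (0:ℝ) 1) :
    ∃ w ∈ s.P, w ∈ Msh_715.P (T.H q) := by
  by_contra hcon
  push Not at hcon
  have h1 := G_of_empty H (q := q) (fun w hw => hcon w hw) hz
  have h2 := sg_sq (Lam () (bv (tcell T q)))
  rw [h1] at hG
  have h3' := hG.1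
  have h4 := hG.2
  have h5 : sg (Lam () (bv (tcell T q))) < 1 := by linarith
  have h6 : -1 < sg (Lam () (bv (tcell T q))) := by linarith
  nlinarith

end cells

section ball

variable {f : R3 → R3} {Om La : Set R3} {ι : Type} {T : Tiling Om ι} {h3 : finrank ℝ R3 = 3}
variable {s : GSt (meshC T h3) (fun _ : Unit => ())}
variable {h : LF s} {hon : ∀ w ∈ s.P, w ∈ Om ∧ T.dim w = 1} {lam : R3 → ZMod 2}
  {hLam : ∀ j : Unit, ∀ e ∈ Om, T.dim e = 1 → ∀ a b, T.cc e = segment ℝ a b →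
      (fun _ : Unit => lam) j a + (fun _ : Unit => lam) j b =
        (((gPts s j : Set R3) ∩ T.cc e).ncard : ZMod 2)}
variable {g : Gd R3 Unit} {P : ∀ q, (cmb h hon (fun _ => lam) hLam).I q → Set R3}
  {c : ∀ q, (cmb h hon (fun _ => lam) hLam).I q → R3 → ℝ}

/-- **THE BALLS OF ALL LEVELS** -/
theorem balls_of_state (hBL : BallLvl R3) (hOm : IsOpen Om) (hf : IsHomeomorphOn f Om La)
    (hE : Gp_702.ExistStmt) (hN : Gp_702.NormStmt)
    (H : Inv (cmb h hon (fun _ => lam) hLam) (fun c : T.Cell => c.set) univ g P c)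
    (hB : Bls (cmb h hon (fun _ => lam) hLam) (fun c : T.Cell => c.set) c ())
    (h1 : s.H1 ()) (hc : s.Conn ()) {D : Set R3} (hD : IsCompact D) (hDL : D ⊆ La)
    (hl : FarLab T f D (gPts s ()) lam)
    (hsupp : ∀ w ∈ s.P, ∀ q, w ∈ Msh_715.P (T.H q) → Msh_715.P (T.H q) ⊆ f ⁻¹' interior D)
    {q : ι} (hq : ∀ w ∈ s.P, w ∉ Msh_715.P (T.H q)) {v₀ : R3}
    (hv₀ : v₀ ∈ Msh_715.P (T.H q)) (hd₀ : T.dim v₀ = 0) (h0 : lam v₀ = 1) :
    ∀ t ∈ Ioo (0:ℝ) 1, ∃ K : Set R3, K = {z | z ∈ Om ∧ t ≤ g.G () z} ∧ IsBall 3 K (frontier K) ∧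
      frontier K = {z | z ∈ Om ∧ g.G () z = t} ∧ Msh_715.P (T.H q) ⊆ interior K ∧
      (∀ z ∈ K, f z ∈ interior D) ∧ K ⊆ Om ∧ IsCompact K ∧
      (∀ z ∈ frontier K, ∀ i, z ∈ Msh_715.P (T.H i) → ∃ w ∈ s.P, w ∈ Msh_715.P (T.H i)) ∧
      (∀ A : Set R3, IsPreconnected A → (∀ x ∈ A, x ∉ frontier K) →
        (A ∩ Msh_715.P (T.H q)).Nonempty → A ⊆ interior K) ∧
      ∃ e : PLEquiv {z | z ∈ Om ∧ g.G () z = t} {z | z ∈ Om ∧ g.G () z = 1/2},
        (∀ z ∈ Om, g.G () z = t → ∀ i, z ∈ Msh_715.P (T.H i) → e.f z ∈ Msh_715.P (T.H i)) ∧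
        ∀ z, e.f z = trl g () (1/2) z := by
  intro t ht
  have X := T.cplx
  have Dc : Dic (cmb h hon (fun _ => lam) hLam) s () := cmb_dic h hon (fun _ => lam) hLam ()
  have hfar : ∀ z ∈ Om, ∀ i, z ∈ Msh_715.P (T.H i) → g.G () z ≠ 0 →
      Msh_715.P (T.H i) ⊆ f ⁻¹' interior D := by
    intro z _ i hzi hG
    by_contra hcon
    exact hG (G_far H hl hsupp hcon hzi)
  have f1 : Finite (Pce (cmb h hon (fun _ => lam) hLam) () 1) := Dc.finite1
  have f3 : Finite (Pce (cmb h hon (fun _ => lam) hLam) () 3) := finite3 H X hB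
  have hS := sheet_sphere hE hN h3 hOm H X hB (Spp_333.top3_cell h3) (Dc.sh1 h1) (Dc.sconn hc)
  obtain ⟨fi, a1, a2, a3, a4, a5, a6⟩ := hf
  have hBc : IsCompact (fi '' D) := hD.image_of_continuousOn (a6.mono hDL)
  have hBO : fi '' D ⊆ Om := by
    rintro _ ⟨y, hy, rfl⟩; exact a2 (hDL hy)
  have hG1 : ∀ z ∈ Msh_715.P (T.H q), g.G () z = 1 := fun z hz =>
    G_core H hl.lab hq hv₀ hd₀ h0 hz
  have hoff : ∀ z ∈ Om, z ∉ fi '' D → g.G () z = 0 := by
    intro z hz hzB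
    by_contra hG
    obtain ⟨i, hi⟩ := T.cov z hz
    have h4 := hfar z hz i hi hG hi
    exact hzB ⟨f z, interior_subset h4, a3 z hz⟩
  -- the transport
  have hfin := T.finite_tiles hBc hBO
  have hlv := exists_levEquiv H (j := ()) (Om := Om) (t := t) (t' := 1/2)
    (fun z hz => by
      obtain ⟨i, hi⟩ := T.cov z hz
      exact ⟨tcell T i, by rw [tcell_set]; exact hi⟩)
    (fun q => X.sub q) ht ⟨by norm_num, by norm_num⟩ (s := tcell T '' {i | (Msh_715.P (T.H i) ∩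
      fi '' D).Nonempty}) (hfin.image _) (fun z hz hG => by
      obtain ⟨i, hi⟩ := T.cov z hz
      refine ⟨tcell T i, ⟨i, ⟨z, hi, ?_⟩, rfl⟩, by rw [tcell_set]; exact hi⟩
      by_contra hcon
      exact hG.1.ne' (hoff z hz hcon))
  obtain ⟨e, he1, he2, he3⟩ := hlv
  have ht0 := ht.1
  have hset : ∀ z : R3, g.G () z / (2 * t) = 1/2 ↔ g.G () z = t := fun z => by
    rw [div_eq_iff (by positivity)]
    constructor <;> intro h5 <;> linarith
  have hsetle : ∀ z : R3, 1/2 ≤ g.G () z / (2 * t) ↔ t ≤ g.G () z := fun z => by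
    rw [le_div_iff₀ (by positivity)]
    constructor <;> intro h5 <;> linarith
  have hsetlt : ∀ z : R3, 1/2 < g.G () z / (2 * t) ↔ t < g.G () z := fun z => by
    rw [lt_div_iff₀ (by positivity)]
    constructor <;> intro h5 <;> linarith
  obtain ⟨b1, b2, b3⟩ := hBL hOm (G := fun z => g.G () z / (2 * t))
    ((continuousOn_G H).div_const _) hBc hBO (by
      intro z hz hzB
      show g.G () z / (2 * t) = 0
      rw [hoff z hz hzB, zero_div]) (by
      simp only [hset]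
      exact hS.map fun e' => e'.trans e.symm)
    ⟨v₀, T.sub q hv₀, by
      rw [hsetlt, hG1 v₀ hv₀]; exact ht.2⟩
  simp only [hset, hsetle, hsetlt] at b1 b2 b3
  set K : Set R3 := {z | z ∈ Om ∧ t ≤ g.G () z} with hK
  have hKball : IsBall 3 K (frontier K) := by rw [b2]; exact b1
  have hKc : IsCompact K := hKball.isCompact
  have hqK : Msh_715.P (T.H q) ⊆ interior K := by
    rw [b3]
    intro z hz
    exact ⟨T.sub q hz, by rw [hG1 z hz]; exact ht.2⟩
  refine ⟨K, rfl, hKball, b2, hqK, ?_, fun z hz => hz.1, hKc, ?_, ?_, e, ?_, he3⟩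
  · intro z hz
    obtain ⟨i, hi⟩ := T.cov z hz.1
    refine hfar z hz.1 i hi ?_ hi
    intro h4
    have := hz.2
    rw [h4] at this
    linarith
  · intro z hz i hi
    rw [b2] at hz
    exact pt_of_mid H hi (by rw [hz.2]; exact ht)
  · intro A hA hd hne
    obtain ⟨x, hxA, hxq⟩ := hne
    exact sub_interior hA hKc.isClosed hd hxA (hqK hxq)
  · intro z hz hG i hi
    have := he1 z hz hG (tcell T i) (by rw [tcell_set]; exact hi)
    rwa [tcell_set] at this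

end ball

end Crest.Agent.R096.Sphs_4
end

-- ▼ part R096/Sphs8_4
section

/-! # Row 96, SPHERE (helper4), part 8: **THE THEOREM WITH ALL LEVELS** (`t₀` may be chosen generic
with respect to the mesh on which `φ` is affine). -/

set_option autoImplicit false

open Set Filter Topology Metric Module NNReal MeasureTheory

namespace Crest.Agent.R096.Sphs_4

open Crest.Agent.R096.Msh_715 Crest.Agent.R096.Agl4_543 Crest.Agent.R096.Agl5_543
  Crest.Agent.R096.Coh_184 Crest.Agent.R096.Main_4 Crest.Agent.R096.Ginv_543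
  Crest.Agent.R096.Lab_184 Crest.Agent.R096.Seq_213 Crest.Agent.R096.Cm_117
  Crest.Agent.R096.Bd_416 Crest.Agent.R096.Shp_334 Crest.Agent.R096.Ce_537
  Crest.Agent.R096.Spp_333 Crest.Agent.R096.Sphf_316 Crest.Agent.R096.Sphg_316
  Crest.AnalysisR.VecCalc3 Crest.AnalysisR.Sobolev

open scoped Classical

/-- the data of one level -/
structure SphLev (Om : Set R3) (f : R3 → R3) (C : Set R3) (z x₀ : R3) (ρ₁ ρ₂ ε : ℝ)
    {F : Type*} [NormedAddCommGroup F] [NormedSpace ℝ F] (Sg' : Set F) (e₀ : R3 → F)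
    (K : Set R3) (θ : PLEquiv (frontier K) Sg') : Prop where
  ball : IsBall 3 K (frontier K)
  sub : K ⊆ Om
  mem : x₀ ∈ interior K
  lt : ∀ x ∈ K, Ng z C (f x) < ρ₂
  gt : ∀ x ∈ frontier K, ρ₁ < Ng z C (f x)
  inn : ∀ x ∈ Om, Ng z C (f x) ≤ ρ₁ → x ∈ interior K
  near : ∀ x ∈ frontier K, ‖θ.f x - e₀ (pj z C (f x))‖ ≤ ε

theorem del_mono {Em : Type*} [NormedAddCommGroup Em] [NormedSpace ℝ Em] {F : Type*}
    [NormedAddCommGroup F] [NormedSpace ℝ F] {Sg' : Set F} {ε δ δ' : ℝ} (h : Del Em Sg' ε δ)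
    (hd : δ' ≤ δ) : Del Em Sg' ε δ' := by
  intro V E T _ _ _ S hS K Sg A hK gv hc g hg
  exact h S hS A hK gv (hc.mono hd) g fun f e he v hv p hp => (hg f e he v hv p hp).trans hd


end Crest.Agent.R096.Sphs_4
end

-- ▼ part R096/Sps7_333
section

/-!
# R096 (row 96), SPHERE (helper333), part s7: the order of the constants
-/

set_option autoImplicit false

open Set Metric Filter Topology

namespace Crest.Agent.R096.Spp_333

open Crest.Agent.R096.Sph_560 Crest.Agent.R096.Ce_537 Crest.Agent.R096.Bd_416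
  Crest.Agent.R096.Shp_334 Crest.Agent.R096.Coh_184 Crest.Agent.R096.Jn_890
  Crest.Agent.R096.Seq_213 Crest.Agent.R096.St_147 Crest.Agent.R096.Sphg_316
  Crest.Agent.R096.Msh_715 Crest.Agent.R096.Agl4_543 Crest.Agent.R096.Agl5_543
  Crest.Agent.R096.Main_4 Crest.Agent.R096.Sphs_4 Crest.Agent.R096.Cm_117
  Crest.AnalysisR.VecCalc3 Crest.AnalysisR.Sobolev Crest.Agent.R096.Ginv_543
  Crest.Agent.R096.Lab_184

/-! ### scaling of the body -/

section scale

variable {C : Set R3} {z : R3}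

/-- the sublevel of the gauge is a body -/
theorem bod_le (hC : Bod z C) {ρ : ℝ} (hρ : 0 < ρ) : Bod z {y | Ng z C y ≤ ρ} where
  cpt := hC.isCompact_le ρ
  cvx := hC.convex_le ρ
  int := by
    rw [hC.interior_le hρ]
    show Ng z C z < ρ
    rw [Ng_self]; exact hρ

/-- the gauge of the sublevel -/
theorem Ng_le (hC : Bod z C) {ρ : ℝ} (hρ : 0 < ρ) (y : R3) :
    Ng z {y | Ng z C y ≤ ρ} y = Ng z C y / ρ := by
  have hD := bod_le hC hρ
  rcases eq_or_ne y z with rfl | hy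
  · rw [Ng_self, Ng_self, zero_div]
  · have h1 := hD.pj_mem hy
    rw [hC.frontier_le hρ] at h1
    have h2 : Ng z C (z + (Ng z {y | Ng z C y ≤ ρ} y)⁻¹ • (y - z)) = ρ := h1
    have h3 := hD.pos.2 hy
    rw [Ng_ray z C (inv_nonneg.2 h3.le)] at h2
    field_simp at h2
    field_simp
    linarith

theorem pj_le (hC : Bod z C) {ρ : ℝ} (hρ : 0 < ρ) {y : R3} (hy : y ≠ z) :
    pj z C (pj z {y | Ng z C y ≤ ρ} y) = pj z C y := by
  have hD := bod_le hC hρ
  exact pj_of_ray z C (inv_pos.2 (hD.pos.2 hy)) y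

end scale

/-- the facts about the gauge -/
theorem gau (z : R3) {C : Set R3} (hC : Bod z C) : Gau z C where
  pf _ hy := hC.pj_mem hy
  ray _ hw _ hs := hC.pj_ray hw hs
  one _ hw := hC.eq_one_iff.2 hw
  eq _ _ hr h := hC.eq_ray hr h

/-- `e₀` is uniformly continuous -/
theorem unif_e {F : Type*} [NormedAddCommGroup F] {A : Set R3} (hA : IsCompact A) {e₀ : R3 → F}
    (he : ContinuousOn e₀ A) {δ : ℝ} (hδ : 0 < δ) :
    ∃ δ' > 0, ∀ w ∈ A, ∀ w' ∈ A, ‖w - w'‖ ≤ δ' → ‖e₀ w - e₀ w'‖ ≤ δ := by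
  have h1 := hA.uniformContinuousOn_of_continuous he
  rw [Metric.uniformContinuousOn_iff] at h1
  obtain ⟨η, hη, h2⟩ := h1 δ hδ
  refine ⟨η / 2, half_pos hη, fun w hw w' hw' h => ?_⟩
  rw [← dist_eq_norm]
  refine (h2 w hw w' hw' ?_).le
  rw [dist_eq_norm]; linarith

/-- **the choice of the mesh size** -/
theorem exists_near {z : R3} {C : Set R3} (hC : Bod z C) {F : Type*} [NormedAddCommGroup F]
    {e₀ : R3 → F} (he : ContinuousOn e₀ (frontier C)) {ρ δ : ℝ} (hρ : 0 < ρ) (hρ1 : ρ < 1)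
    (hδ : 0 < δ) :
    ∃ ε₁ > 0, (∀ a b : R3, ‖a - b‖ ≤ ε₁ → |Ng z C a - Ng z C b| < (1 - ρ) / 3) ∧
      ∀ r, (2 * ρ + 1) / 3 < r → r < (ρ + 2) / 3 → Near z C e₀ r ε₁ δ := by
  obtain ⟨δ', hδ', h1⟩ := unif_e (hC.cpt.of_isClosed_subset isClosed_frontier
    hC.cpt.isClosed.frontier_subset) he hδ
  obtain ⟨ε₂, hε₂, h2⟩ := hC.pj_unif hρ hδ'
  obtain ⟨L, hL⟩ := hC.lipschitz
  have hL0 : (0 : ℝ) ≤ L := L.2
  set η : ℝ := (1 - ρ) / (6 * (L + 1)) with hη
  have hη0 : 0 < η := by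
    have : 0 < 1 - ρ := by linarith
    positivity
  have hLη : L * η < (1 - ρ) / 3 := by
    have h5 : (L + 1) * η = (1 - ρ) / 6 := by
      rw [hη]; field_simp
    nlinarith
  have hN : ∀ a b : R3, ‖a - b‖ ≤ min ε₂ η → |Ng z C a - Ng z C b| < (1 - ρ) / 3 := by
    intro a b hab
    have h3 := hL.dist_le_mul a b
    rw [Real.dist_eq, dist_eq_norm] at h3
    have h4 : ‖a - b‖ ≤ η := hab.trans (min_le_right _ _)
    refine lt_of_le_of_lt h3 (lt_of_le_of_lt ?_ hLη)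
    exact mul_le_mul_of_nonneg_left h4 hL0
  refine ⟨min ε₂ η, lt_min hε₂ hη0, hN, fun r hr1 hr2 a b ha hab => ?_⟩
  have h3 := abs_lt.1 (hN a b hab)
  have hb : ρ < Ng z C b := by rw [ha] at h3; linarith [h3.2]
  have hbz : b ≠ z := hC.pos.1 (hρ.trans hb)
  have haz : a ≠ z := hC.pos.1 (by rw [ha]; linarith)
  refine ⟨hbz, h1 _ (hC.pj_mem haz) _ (hC.pj_mem hbz) ?_⟩
  exact h2 a b (by rw [ha]; linarith) (by rw [ha]; linarith) (hab.trans (min_le_left _ _))


/-! ### the three clauses on `K` -/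

section clauses

variable {f : R3 → R3} {Om La : Set R3} {ι : Type} {T : Tiling Om ι} {h3 : Module.finrank ℝ R3 = 3}
variable {s : GSt (meshC T h3) (fun _ : Unit => ())}
variable {h : LF s} {hon : ∀ w ∈ s.P, w ∈ Om ∧ T.dim w = 1} {Lam : Unit → R3 → ZMod 2}
  {hLam : ∀ j, ∀ e ∈ Om, T.dim e = 1 → ∀ a b, T.cc e = segment ℝ a b →
      Lam j a + Lam j b = (((gPts s j : Set R3) ∩ T.cc e).ncard : ZMod 2)}
variable {g : Gd R3 Unit} {P : ∀ q, (cmb h hon Lam hLam).I q → Set R3}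
  {c : ∀ q, (cmb h hon Lam hLam).I q → R3 → ℝ}

/-- the tiles which meet the level `1/2` have points of the state -/
theorem exists_pt_of_half
    (H : Inv (cmb h hon Lam hLam) (fun c : T.Cell => c.set) univ g P c) {z : R3}
    (hz : g.G () z = 1/2) {q : ι} (hq : z ∈ Msh_715.P (T.H q)) :
    ∃ w ∈ s.P, w ∈ Msh_715.P (T.H q) := by
  by_contra hcon
  push Not at hcon
  have h1 := G_of_empty H hcon hq
  rw [hz] at h1
  unfold sg at h1
  split_ifs at h1 <;> norm_num at h1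

/-- `G` is PL on a compact set -/
theorem plOn_G (H : Inv (cmb h hon Lam hLam) (fun c : T.Cell => c.set) univ g P c)
    {K : Set R3} (hK : IsCompact K) (hKO : K ⊆ Om) : PLOn (g.G ()) K := by
  classical
  have X := T.cplx
  have hfin := X.finite_meet hK hKO
  have h1 : ∀ q : T.Cell, ∃ S : Finset (R3 →ᵃ[ℝ] ℝ), ∀ x ∈ q.set, ∃ a ∈ S, g.G () x = a x :=
    fun q => ((H.is q (mem_univ q)).pG ()).2
  choose S hS using h1
  refine ⟨(continuousOn_G H).mono hKO, hfin.toFinset.biUnion S, fun x hx => ?_⟩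
  obtain ⟨q, hq⟩ := X.cover x (hKO hx)
  obtain ⟨a, ha, hxa⟩ := hS q x hq
  exact ⟨a, Finset.mem_biUnion.2 ⟨q, hfin.mem_toFinset.2 ⟨x, hq, hx⟩, ha⟩, hxa⟩

end clauses

/-- a preconnected set which meets the interior of `K` and misses its frontier -/
theorem sub_interior {X : Type*} [TopologicalSpace X] {A K : Set X} (hA : IsPreconnected A)
    (h1 : (A ∩ interior K).Nonempty) (h2 : Disjoint A (frontier K)) : A ⊆ interior K := by
  refine hA.subset_left_of_subset_union isOpen_interior (isClosed_closure (s := K)).isOpen_compl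
    ?_ ?_ h1
  · rw [disjoint_compl_right_iff_subset]
    exact interior_subset_closure
  · intro x hx
    by_cases hx1 : x ∈ closure K
    · left
      by_contra hx2
      exact disjoint_left.1 h2 hx ⟨hx1, hx2⟩
    · exact Or.inr hx1


/-! ### the sphere -/

section final

variable {f : R3 → R3} {Om La : Set R3} {G : Fin 3 → R3 → R3} {p : ℝ}

/-- **SPHERE, normalised** (`ρ₂ = 1`) -/
theorem sphere1 (hBL : BallLvl R3) (hE : Gp_702.ExistStmt) (hN : Gp_702.NormStmt) (hp : 1 ≤ p)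
    (hO : IsOpen Om) (hL : IsOpen La) (hS : Sk_962.SH p Om La f G) {C : Set R3} {z x₀ : R3}
    (hC : Bod z C) (hCL : C ⊆ La) (hx₀ : x₀ ∈ Om) (hz : f x₀ = z)
    {F : Type*} [NormedAddCommGroup F] [NormedSpace ℝ F] {K' Sg' : Set F} (hK' : IsBall 3 K' Sg')
    {e₀ : R3 → F} {e₁ : F → R3} (he₀ : ContinuousOn e₀ (frontier C))
    (he₀m : MapsTo e₀ (frontier C) Sg') (he₁ : ContinuousOn e₁ Sg')
    (he₁m : MapsTo e₁ Sg' (frontier C)) (h01 : ∀ y ∈ Sg', e₀ (e₁ y) = y)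
    (h10 : ∀ y ∈ frontier C, e₁ (e₀ y) = y) {ρ ε : ℝ} (hρ : 0 < ρ) (hρ1 : ρ < 1) (hε : 0 < ε) :
    ∃ (K : Set R3) (θ : PLEquiv (frontier K) Sg') (φ : R3 → ℝ), IsBall 3 K (frontier K) ∧
      K ⊆ Om ∧ x₀ ∈ interior K ∧ (∀ x ∈ K, Ng z C (f x) < 1) ∧
      (∀ x ∈ frontier K, ρ < Ng z C (f x)) ∧
      (∀ x ∈ Om, Ng z C (f x) ≤ ρ → x ∈ interior K) ∧
      (∀ x ∈ frontier K, ‖θ.f x - e₀ (pj z C (f x))‖ ≤ ε) ∧
      PLOn φ K ∧ (∀ x ∈ K, φ x ≤ 0) ∧ (∀ x ∈ K, φ x = 0 ↔ x ∈ frontier K) := by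
  classical
  have h3 := finrank_R3
  have hf := hS.homeo
  have hfc : ContinuousOn f Om := by
    obtain ⟨_, _, _, _, _, h, _⟩ := id hf
    exact h
  -- the constants
  obtain ⟨δ, hδ, hdel⟩ := exists_del R3 hK' hε
  obtain ⟨ε₁, hε₁, hn1, hn2⟩ := exists_near hC he₀ hρ hρ1 hδ
  -- the mesh
  obtain ⟨hKc, -, -⟩ := hC.g7' hf hCL le_rfl
  obtain ⟨ι, T, hT1, hT2⟩ := Sphm_976.exists_mesh1 hp hO hS hKc (fun x hx => hx.1) hε₁
  have htile : ∀ q, ∀ x ∈ Msh_715.P (T.H q), Ng z C (f x) ≤ 1 → ∀ y ∈ Msh_715.P (T.H q),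
      |Ng z C (f x) - Ng z C (f y)| < (1 - ρ) / 3 := fun q x hx hx1 y hy =>
    hn1 _ _ (hT1 q ⟨x, hx, T.sub q hx, hx1⟩ x hx y hy).2
  have hfine : Fine1 T f C ε₁ := by
    rintro q ⟨x, hx, hxC⟩ a ha b hb
    exact (hT1 q ⟨x, hx, T.sub q hx, hC.le_one_iff.2 hxC⟩ a ha b hb).2
  -- the level
  have huc : ContinuousOn (fun x => Ng z C (f x)) Om := hC.continuous.comp_continuousOn hfc
  obtain ⟨L, hLip⟩ := hC.lipschitz
  have hae := Agl8_543.ae_regLevel T huc (fun x hx hd => hT2 _ L hLip x hx hd)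
  obtain ⟨r, ⟨hr1, hr2⟩, hreg⟩ : ∃ r ∈ Ioo ((2 * ρ + 1) / 3) ((ρ + 2) / 3),
      IsCompact {x | x ∈ Om ∧ Ng z C (f x) = r} →
        RegLevel T (fun x => Ng z C (f x)) r {x | x ∈ Om ∧ Ng z C (f x) = r} := by
    by_contra hcon
    push Not at hcon
    have h1 : MeasureTheory.volume (Ioo ((2 * ρ + 1) / 3) ((ρ + 2) / 3)) = 0 := by
      refine MeasureTheory.measure_mono_null (fun r hr => ?_) hae
      intro h2
      exact (hcon r hr).2 (h2 (hcon r hr).1)
    rw [Real.volume_Ioo, ENNReal.ofReal_eq_zero] at h1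
    linarith
  have hr0 : 0 < r := by linarith
  have hr1' : r ≤ 1 := by linarith
  obtain ⟨hcpt, htriv, -, -⟩ := hC.g7 hf hCL hr0 hr1'
  have h := hreg hcpt
  -- the tiles which meet the level
  have hlevT : ∀ w ∈ {x | x ∈ Om ∧ Ng z C (f x) = r}, ∀ q, w ∈ Msh_715.P (T.H q) →
      ∀ x ∈ Msh_715.P (T.H q), ρ < Ng z C (f x) ∧ Ng z C (f x) < 1 := by
    rintro w ⟨-, hw⟩ q hwq x hx
    have h5 := abs_lt.1 (htile q w hwq (hw.le.trans hr1') x hx)
    rw [hw] at h5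
    constructor <;> linarith [h5.1, h5.2]
  have hsupp : ∀ w ∈ {x | x ∈ Om ∧ Ng z C (f x) = r}, ∀ q, w ∈ Msh_715.P (T.H q) →
      Msh_715.P (T.H q) ⊆ f ⁻¹' interior C := fun w hw q hwq x hx =>
    hC.lt_one_iff.1 (hlevT w hw q hwq x hx).2
  have hout : ∀ q, ¬ Msh_715.P (T.H q) ⊆ f ⁻¹' interior C → ∀ v ∈ Msh_715.P (T.H q),
      r ≤ Ng z C (f v) := by
    intro q hq v hv
    by_contra hcon
    push Not at hcon
    refine hq fun x hx => hC.lt_one_iff.1 ?_
    have h5 := abs_lt.1 (htile q v hv (by linarith) x hx)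
    show Ng z C (f x) < 1
    linarith [h5.1]
  obtain ⟨q₀, hq₀⟩ := T.cov x₀ hx₀
  obtain ⟨v₀, hv₀, hd₀⟩ := exists_vertex_tile hq₀
  have hN0 : Ng z C (f x₀) = 0 := by rw [hz, Ng_self]
  have htile0 : ∀ x ∈ Msh_715.P (T.H q₀), Ng z C (f x) < r := by
    intro x hx
    have h5 := abs_lt.1 (htile q₀ x₀ hq₀ (by rw [hN0]; norm_num) x hx)
    rw [hN0] at h5
    linarith [h5.1]
  -- the class
  obtain ⟨b, hb, hb1, lam, hl, hlv⟩ := exists_base1 hL hf hC.cpt hC.cvx ⟨z, hC.int⟩ hCL h huc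
    (fun x hx hx' => ⟨hx, hx'⟩) hsupp hout (T.sub q₀ hv₀) hd₀ (htile0 v₀ hv₀) h3
  -- the combinatorial sheet
  have hLam : ∀ j : Unit, ∀ e ∈ Om, T.dim e = 1 → ∀ a b', T.cc e = segment ℝ a b' →
      (fun _ : Unit => lam) j a + (fun _ : Unit => lam) j b' =
        (((gPts (s1 h h3 b) j : Set R3) ∩ T.cc e).ncard : ZMod 2) := by
    intro j e he hd a b' hab
    exact lam_of_isLab hl.lab he hd hab
  have hon := fun w (hw : w ∈ (s1 h h3 b).P) => s1_on h h3 b hw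
  have hLF : LF (s1 h h3 b) := s1_LF h h3 b
  obtain ⟨g, P, c, H, hB⟩ := exists_inv_bls (C := cmb hLF hon (fun _ => lam) hLam) T.cplx
    (fun c => (T.dim_le_finrank c.pt).trans h3.le) (k := ek hLF)
    (Lm_117.cmbG_T hLF hon (fun _ => lam) hLam (R := ∅) fun q _ hq => ek_inj hLF q hq)
    (fun τ hτ x x' hne _ => cmb_ord hLF hon (fun _ => lam) hLam τ hτ x x' hne)
  have hPS : ∀ w, w ∈ (s1 h h3 b).P → w ∈ {x | x ∈ Om ∧ Ng z C (f x) = r} := fun w hw =>
    (s1_mem h h3 b hw).1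
  have hH1 := s1_H1 h h3 b htriv
  have hCo := s1_Conn h h3 b hb hb1
  obtain ⟨K, hKe, hKb, hKf, hK0, hKD, hKO⟩ := ball_of_state hBL hO hf hE hN H (hB ()) hH1 hCo
    hC.cpt hCL hl (fun w hw => hsupp w (hPS w hw)) (q := q₀)
    (fun w hw hwq => by
      have h5 := htile0 w hwq
      have h6 := (hPS w hw).2
      linarith) hv₀ hd₀ hlv
  -- the map
  have hKb' : IsBall 3 K {z | z ∈ Om ∧ g.G () z = 1/2} := by rw [← hKf]; exact hKb
  have key : ∃ θ : PLEquiv (frontier K) Sg',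
      ∀ p ∈ frontier K, dist (θ.f p) (e₀ (pj z C (f p))) ≤ ε := by
    rw [hKf]
    exact theta_s1 (h3 := h3) H T.cplx (hB ()) (mfd_cell h3) (top3_cell h3) hf
      hC.cpt.isClosed hC.cvx hCL (interior_subset hC.int) (gau z hC) he₀m he₁m he₁ h01 h10 hr0 hr1'
      (hn2 r hr1 hr2) hfine hdel hKb' h htriv hb.1 hb.2 hb1 hl hq₀ hz hv₀ hd₀ hlv
      ((cmb_dic hLF hon (fun _ => lam) hLam ()).sh1 hH1)
      ((cmb_dic hLF hon (fun _ => lam) hLam ()).sconn hCo)
      (cmb_dic hLF hon (fun _ => lam) hLam ()) (cmb_cell hLF hon (fun _ => lam) hLam)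
  obtain ⟨θ, hθ⟩ := key
  have hfr : ∀ x ∈ frontier K, ρ < Ng z C (f x) := by
    intro x hx
    rw [hKf] at hx
    obtain ⟨q, hq⟩ := T.cov x hx.1
    obtain ⟨w, hw, hwq⟩ := exists_pt_of_half H hx.2 hq
    exact (hlevT w (hPS w hw) q hwq x hq).1
  have hx₀K : x₀ ∈ interior K := hK0 hq₀
  refine ⟨K, θ, fun x => 1/2 - g.G () x, hKb, hKO, hx₀K, fun x hx => ?_, hfr, ?_,
    fun x hx => ?_, ?_, fun x hx => ?_, fun x hx => ?_⟩
  · obtain ⟨q, hq⟩ := T.cov x (hKO hx)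
    exact hC.lt_one_iff.2 (hKD x hx q hq hq)
  · have h5 := (hC.g7' hf hCL hρ1.le).2.1
    have h6 : {x | x ∈ Om ∧ Ng z C (f x) ≤ ρ} ⊆ interior K := by
      refine sub_interior h5 ⟨x₀, ⟨hx₀, by rw [hN0]; exact hρ.le⟩, hx₀K⟩ ?_
      rw [disjoint_left]
      exact fun x hx hx' => absurd (hfr x hx') (not_lt.2 hx.2)
    exact fun x hx hx' => h6 ⟨hx, hx'⟩
  · rw [← dist_eq_norm]; exact hθ x hx
  · have h5 := plOn_G H hKb.isCompact hKO
    exact (pl_sub (plOn_const (1/2) K) h5)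
  · have h5 : x ∈ {z | z ∈ Om ∧ 1/2 ≤ g.G () z} := hKe ▸ hx
    have := h5.2
    show 1/2 - g.G () x ≤ 0
    linarith
  · rw [hKf]
    constructor
    · intro h5
      have h6 : 1/2 - g.G () x = 0 := h5
      exact ⟨hKO hx, by linarith⟩
    · rintro ⟨-, h5⟩
      show 1/2 - g.G () x = 0
      rw [h5]; norm_num

/-- **SPHERE** -/
theorem sphere_of (hBL : BallLvl R3) (hE : Gp_702.ExistStmt) (hN : Gp_702.NormStmt) (hp : 1 ≤ p)
    (hO : IsOpen Om) (hL : IsOpen La) (hS : Sk_962.SH p Om La f G) {C : Set R3} {z x₀ : R3}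
    (hC : Bod z C) (hCL : C ⊆ La) (hx₀ : x₀ ∈ Om) (hz : f x₀ = z)
    {F : Type*} [NormedAddCommGroup F] [NormedSpace ℝ F] {K' Sg' : Set F} (hK' : IsBall 3 K' Sg')
    {e₀ : R3 → F} {e₁ : F → R3} (he₀ : ContinuousOn e₀ (frontier C))
    (he₀m : MapsTo e₀ (frontier C) Sg') (he₁ : ContinuousOn e₁ Sg')
    (he₁m : MapsTo e₁ Sg' (frontier C)) (h01 : ∀ y ∈ Sg', e₀ (e₁ y) = y)
    (h10 : ∀ y ∈ frontier C, e₁ (e₀ y) = y) {ρ₁ ρ₂ ε : ℝ} (hρ₁ : 0 < ρ₁) (hρ : ρ₁ < ρ₂)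
    (hρ₂ : ρ₂ ≤ 1) (hε : 0 < ε) :
    ∃ (K : Set R3) (θ : PLEquiv (frontier K) Sg') (φ : R3 → ℝ), IsBall 3 K (frontier K) ∧
      K ⊆ Om ∧ x₀ ∈ interior K ∧ (∀ x ∈ K, Ng z C (f x) < ρ₂) ∧
      (∀ x ∈ frontier K, ρ₁ < Ng z C (f x)) ∧
      (∀ x ∈ Om, Ng z C (f x) ≤ ρ₁ → x ∈ interior K) ∧
      (∀ x ∈ frontier K, ‖θ.f x - e₀ (pj z C (f x))‖ ≤ ε) ∧
      PLOn φ K ∧ (∀ x ∈ K, φ x ≤ 0) ∧ (∀ x ∈ K, φ x = 0 ↔ x ∈ frontier K) := by
  have h2 : 0 < ρ₂ := hρ₁.trans hρ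
  have hD := bod_le hC h2
  have hfr := hC.frontier_le h2
  have hne : ∀ w ∈ frontier {y | Ng z C y ≤ ρ₂}, w ≠ z := by
    intro w hw hwz
    rw [hfr] at hw
    have h5 : Ng z C w = ρ₂ := hw
    rw [hwz, Ng_self] at h5
    exact h2.ne h5
  obtain ⟨K, θ, φ, a1, a2, a3, a4, a5, a6, a7, a8, a9, a10⟩ := sphere1 hBL hE hN hp hO hL hS hD
    ((hC.le_sub hρ₂).trans hCL) hx₀ hz hK' (e₀ := fun w => e₀ (pj z C w))
    (e₁ := fun y => z + ρ₂ • (e₁ y - z)) (he₀.comp (hC.continuousOn_pj.mono fun w hw => hne w hw)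
      fun w hw => hC.pj_mem (hne w hw)) (fun w hw => he₀m (hC.pj_mem (hne w hw)))
    (continuousOn_const.add ((he₁.sub continuousOn_const).const_smul ρ₂))
    (fun y hy => by
      rw [hfr]
      show Ng z C (z + ρ₂ • (e₁ y - z)) = ρ₂
      rw [Ng_ray z C h2.le, hC.eq_one_iff.2 (he₁m hy), mul_one])
    (fun y hy => by
      show e₀ (pj z C (z + ρ₂ • (e₁ y - z))) = y
      rw [hC.pj_ray (he₁m hy) h2, h01 y hy])
    (fun w hw => by
      show z + ρ₂ • (e₁ (e₀ (pj z C w)) - z) = w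
      rw [h10 _ (hC.pj_mem (hne w hw))]
      rw [hfr] at hw
      exact (hC.eq_ray h2 hw).symm)
    (ρ := ρ₁ / ρ₂) (div_pos hρ₁ h2) ((div_lt_one h2).2 hρ) hε
  refine ⟨K, θ, φ, a1, a2, a3, fun x hx => ?_, fun x hx => ?_, fun x hx hx' => ?_,
    fun x hx => ?_, a8, a9, a10⟩
  · have h5 := a4 x hx
    rwa [Ng_le hC h2, div_lt_one h2] at h5
  · have h5 := a5 x hx
    rwa [Ng_le hC h2, div_lt_div_iff_of_pos_right h2] at h5
  · exact a6 x hx (by rw [Ng_le hC h2]; exact (div_le_div_iff_of_pos_right h2).2 hx')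
  · have h5 := a7 x hx
    have h6 : f x ≠ z := hC.pos.1 (hρ₁.trans (by
      have h7 := a5 x hx
      rwa [Ng_le hC h2, div_lt_div_iff_of_pos_right h2] at h7))
    rwa [pj_le hC h2 h6] at h5

end final

end Crest.Agent.R096.Spp_333
end

-- ▼ part R096/Sps8_333
section

/-!
# R096 (row 96), SPHERE (helper333), part s8: the side of a PL sphere given by a level function is
a ball (`BallLvl`), `sphere` without hypotheses
-/

set_option autoImplicit false

open Set Metric Filter Topology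

namespace Crest.Agent.R096.Spp_333

open Crest.Agent.R096.Ce_537 Crest.Agent.R096.Pl Crest.Agent.R096.Gp_702

section std

variable {E : Type} [NormedAddCommGroup E] [NormedSpace ℝ E] [FiniteDimensional ℝ E]

/-- a PL 2-sphere of a 3-dimensional space is standard -/
theorem exists_std (hE : ExistStmt) (hN : NormStmt) (h3 : Module.finrank ℝ E = 3) {S : Set E}
    (φ : PLEquiv (sph 3) S) :
    ∃ H : (Fin 3 → ℝ) ≃ₜ E, IsBall 3 (H '' closedBall 0 1) S ∧ H '' sphere 0 1 = S := by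
  have L : E ≃L[ℝ] (Fin 3 → ℝ) := ContinuousLinearEquiv.ofFinrankEq (by simp [h3])
  have hst := Pb_812.stdC_of_sphere hE hN (φ.trans (Shp_334.linEquiv L S))
  obtain ⟨A, H, -, -, hH, hHA, hHS, -⟩ := StdC.fin3' hst
  have hS : (H.trans L.symm.toHomeomorph) '' sphere 0 1 = S := by
    have h5 : (H.trans L.symm.toHomeomorph) '' sphere 0 1 = L.symm '' (H '' sphere 0 1) := by
      rw [image_image]; rfl
    rw [h5, hHS, image_image]
    simp
  refine ⟨H.trans L.symm.toHomeomorph, ?_, hS⟩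
  have h1 := (isBall_cube 3).plh hH
  have h2 := h1.image_injOn (f := L.symm)
    (Bd_416.pl_clm (plOn_id _) (L.symm : (Fin 3 → ℝ) →L[ℝ] E)) L.symm.injective.injOn
  rw [← image_comp, ← image_comp] at h2
  have h5 : IsBall 3 ((H.trans L.symm.toHomeomorph) '' closedBall 0 1)
      ((H.trans L.symm.toHomeomorph) '' sphere 0 1) := h2
  rwa [hS] at h5

end std

/-- the outside of the unit ball is connected -/
theorem preconn_out : IsPreconnected ((closedBall (0 : Fin 3 → ℝ) 1)ᶜ) := by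
  have h1 : 1 < Module.rank ℝ (Fin 3 → ℝ) := by
    rw [rank_fin_fun]; norm_num
  have h2 := ((isConnected_sphere h1 0 zero_le_one).isPreconnected.prod
    (isPreconnected_Ioi (a := (1 : ℝ)))).image (fun p : (Fin 3 → ℝ) × ℝ => p.2 • p.1)
    (by fun_prop)
  convert h2 using 1
  ext x
  rw [mem_compl_iff, mem_closedBall, dist_zero_right, not_le]
  constructor
  · intro hx
    have h0 : ‖x‖ ≠ 0 := by positivity
    refine ⟨(‖x‖⁻¹ • x, ‖x‖), ⟨?_, hx⟩, ?_⟩
    · show ‖x‖⁻¹ • x ∈ sphere (0 : Fin 3 → ℝ) 1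
      rw [mem_sphere, dist_zero_right, norm_smul, norm_inv, norm_norm, inv_mul_cancel₀ h0]
    · show ‖x‖ • ‖x‖⁻¹ • x = x
      rw [smul_smul, mul_inv_cancel₀ h0, one_smul]
  · rintro ⟨⟨s, t⟩, ⟨hs, ht⟩, rfl⟩
    have hs' : ‖s‖ = 1 := by simpa using hs
    have ht' : 1 < t := ht
    show 1 < ‖t • s‖
    rw [norm_smul, hs', mul_one, Real.norm_eq_abs, abs_of_pos (by linarith)]
    exact ht'

/-- **(B)**: the side of a PL sphere given by a level function is a ball -/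
theorem ballLvl_of (hE : ExistStmt) (hN : NormStmt) {E : Type} [NormedAddCommGroup E]
    [NormedSpace ℝ E] [FiniteDimensional ℝ E] (h3 : Module.finrank ℝ E = 3) :
    Sphs_4.BallLvl E := by
  intro Om hOm G hG B hB hBO h0 ⟨φ⟩ ⟨x₀, hx₀, hGx₀⟩
  obtain ⟨H, hK, hS⟩ := exists_std hE hN h3 φ
  set S : Set E := {z | z ∈ Om ∧ G z = 1/2} with hSdef
  set K : Set E := H '' closedBall 0 1 with hKdef
  have hKi : interior K = H '' ball 0 1 := by
    rw [hKdef, ← H.image_interior, interior_closedBall _ one_ne_zero]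
  have hKf : frontier K = S := by
    rw [hKdef, ← H.image_frontier, frontier_closedBall _ one_ne_zero, hS]
  have hKc : IsCompact K := (isCompact_closedBall (0 : Fin 3 → ℝ) 1).image H.continuous
  -- the two open sets
  have hU : IsOpen {z | z ∈ Om ∧ 1/2 < G z} := by
    have h5 := hG.isOpen_inter_preimage hOm (isOpen_Ioi (a := (1/2 : ℝ)))
    exact h5
  have hV : IsOpen ({z | z ∈ Om ∧ G z < 1/2} ∪ Bᶜ) := by
    refine IsOpen.union ?_ hB.isClosed.isOpen_compl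
    exact hG.isOpen_inter_preimage hOm (isOpen_Iio (a := (1/2 : ℝ)))
  set U : Set E := {z | z ∈ Om ∧ 1/2 < G z} with hUdef
  set V : Set E := {z | z ∈ Om ∧ G z < 1/2} ∪ Bᶜ with hVdef
  have hUB : U ⊆ B := by
    rintro z ⟨hz, hz'⟩
    by_contra hzB
    rw [h0 z hz hzB] at hz'
    norm_num at hz'
  have hUV : Disjoint U V := by
    rw [disjoint_left]
    rintro z hz (hz' | hz')
    · exact absurd hz.2 (not_lt.2 hz'.2.le)
    · exact hz' (hUB hz)
  have hcov : ∀ z, z ∉ S → z ∈ U ∪ V := by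
    intro z hz
    by_cases hzB : z ∈ B
    · rcases lt_trichotomy (G z) (1/2) with h | h | h
      · exact Or.inr (Or.inl ⟨hBO hzB, h⟩)
      · exact absurd ⟨hBO hzB, h⟩ hz
      · exact Or.inl ⟨hBO hzB, h⟩
    · exact Or.inr (Or.inr hzB)
  -- the outside
  have hout : Kᶜ ⊆ V := by
    have h5 : IsPreconnected Kᶜ := by
      rw [hKdef, ← image_compl_eq H.bijective]
      exact preconn_out.image _ H.continuous.continuousOn
    have h9 : Kᶜ ⊆ U ∪ V := fun z hz => hcov z fun hzS => by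
      rw [← hKf] at hzS
      exact hz (hKc.isClosed.frontier_subset hzS)
    rcases h5.subset_or_subset hU hV hUV h9 with h6 | h6
    · exfalso
      have h7 : (univ : Set E) ⊆ K ∪ B := by
        intro z _
        by_cases hz : z ∈ K
        · exact Or.inl hz
        · exact Or.inr (hUB (h6 hz))
      have : Nontrivial E := Module.nontrivial_of_finrank_pos (R := ℝ) (by omega)
      have h8 : IsCompact (univ : Set E) := (hKc.union hB).of_isClosed_subset isClosed_univ h7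
      have : NoncompactSpace E := NormedSpace.noncompactSpace ℝ E
      exact noncompact_univ E h8
    · exact h6
  have hin : interior K ⊆ U := by
    have h5 : IsPreconnected (interior K) := by
      rw [hKi]
      exact (convex_ball (0 : Fin 3 → ℝ) 1).isPreconnected.image _ H.continuous.continuousOn
    refine h5.subset_left_of_subset_union hU hV hUV (fun z hz => hcov z (fun hzS => ?_)) ?_
    · rw [← hKf] at hzS
      exact hzS.2 hz
    · refine ⟨x₀, ?_, hx₀, hGx₀⟩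
      by_contra hcon
      by_cases hxK : x₀ ∈ K
      · have h6 : x₀ ∈ frontier K := ⟨subset_closure hxK, hcon⟩
        rw [hKf] at h6
        rw [h6.2] at hGx₀
        exact lt_irrefl _ hGx₀
      · exact disjoint_left.1 hUV ⟨hx₀, hGx₀⟩ (hout hxK)
  have hUi : U = interior K := by
    refine Subset.antisymm (fun z hz => ?_) hin
    by_contra hcon
    by_cases hzK : z ∈ K
    · have h6 : z ∈ frontier K := ⟨subset_closure hzK, hcon⟩
      rw [hKf] at h6
      have h7 := hz.2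
      rw [h6.2] at h7
      exact lt_irrefl _ h7
    · exact disjoint_left.1 hUV hz (hout hzK)
  have hKe : {z | z ∈ Om ∧ 1/2 ≤ G z} = K := by
    ext z
    constructor
    · rintro ⟨h5, h6⟩
      rcases lt_or_eq_of_le h6 with h7 | h7
      · exact interior_subset (hUi ▸ (⟨h5, h7⟩ : z ∈ U))
      · have h8 : z ∈ S := ⟨h5, h7.symm⟩
        rw [← hKf] at h8
        exact hKc.isClosed.frontier_subset h8
    · intro hz
      by_cases h5 : z ∈ interior K
      · rw [← hUi] at h5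
        exact ⟨h5.1, h5.2.le⟩
      · have h6 : z ∈ frontier K := ⟨subset_closure hz, h5⟩
        rw [hKf] at h6
        exact ⟨h6.1, h6.2.ge⟩
  rw [hKe]
  exact ⟨hK, hKf, hUi.symm⟩


/-- **(B) in `R3`, no hypotheses** -/
theorem ballLvl : Sphs_4.BallLvl Crest.AnalysisR.VecCalc3.R3 :=
  ballLvl_of existStmt normStmt Sphg_316.finrank_R3

section final

open Crest.AnalysisR.VecCalc3 Crest.Agent.R096.Sphg_316

variable {f : R3 → R3} {Om La : Set R3} {G : Fin 3 → R3 → R3} {p : ℝ}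

/-- **SPHERE**, no hypotheses -/
theorem sphere (hp : 1 ≤ p)
    (hO : IsOpen Om) (hL : IsOpen La) (hS : Sk_962.SH p Om La f G) {C : Set R3} {z x₀ : R3}
    (hC : Bod z C) (hCL : C ⊆ La) (hx₀ : x₀ ∈ Om) (hz : f x₀ = z)
    {F : Type*} [NormedAddCommGroup F] [NormedSpace ℝ F] {K' Sg' : Set F} (hK' : IsBall 3 K' Sg')
    {e₀ : R3 → F} {e₁ : F → R3} (he₀ : ContinuousOn e₀ (frontier C))
    (he₀m : MapsTo e₀ (frontier C) Sg') (he₁ : ContinuousOn e₁ Sg')
    (he₁m : MapsTo e₁ Sg' (frontier C)) (h01 : ∀ y ∈ Sg', e₀ (e₁ y) = y)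
    (h10 : ∀ y ∈ frontier C, e₁ (e₀ y) = y) {ρ₁ ρ₂ ε : ℝ} (hρ₁ : 0 < ρ₁) (hρ : ρ₁ < ρ₂)
    (hρ₂ : ρ₂ ≤ 1) (hε : 0 < ε) :
    ∃ (K : Set R3) (θ : PLEquiv (frontier K) Sg') (φ : R3 → ℝ), IsBall 3 K (frontier K) ∧
      K ⊆ Om ∧ x₀ ∈ interior K ∧ (∀ x ∈ K, Ng z C (f x) < ρ₂) ∧
      (∀ x ∈ frontier K, ρ₁ < Ng z C (f x)) ∧
      (∀ x ∈ Om, Ng z C (f x) ≤ ρ₁ → x ∈ interior K) ∧
      (∀ x ∈ frontier K, ‖θ.f x - e₀ (pj z C (f x))‖ ≤ ε) ∧
      PLOn φ K ∧ (∀ x ∈ K, φ x ≤ 0) ∧ (∀ x ∈ K, φ x = 0 ↔ x ∈ frontier K) :=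
  sphere_of ballLvl existStmt normStmt hp hO hL hS hC hCL hx₀ hz hK' he₀ he₀m he₁ he₁m h01 h10
    hρ₁ hρ hρ₂ hε

end final

end Crest.Agent.R096.Spp_333
end

-- ▼ part R096/Sphs9_4
section

/-! # Row 96, SPHERE (helper4), part 9: **THE THEOREM IN THE FORM OF 539 #10454**: `φ` PL on the whole
space, ONE PL map `Θ` on the collar `{-1/4 ≤ φ ≤ 1/4}`, all levels; no hypotheses left. -/

set_option autoImplicit false

open Set Filter Topology Metric Module NNReal MeasureTheory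

namespace Crest.Agent.R096.Sphs_4

open Crest.Agent.R096.Msh_715 Crest.Agent.R096.Agl4_543 Crest.Agent.R096.Agl5_543
  Crest.Agent.R096.Coh_184 Crest.Agent.R096.Main_4 Crest.Agent.R096.Ginv_543
  Crest.Agent.R096.Lab_184 Crest.Agent.R096.Seq_213 Crest.Agent.R096.Cm_117
  Crest.Agent.R096.Bd_416 Crest.Agent.R096.Shp_334 Crest.Agent.R096.Ce_537
  Crest.Agent.R096.Spp_333 Crest.Agent.R096.Sphf_316 Crest.Agent.R096.Sphg_316
  Crest.AnalysisR.VecCalc3 Crest.AnalysisR.Sobolev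

open scoped Classical

/-- the data of one `φ`: all levels `a ≤ t ≤ b` are spheres carrying the map `Θ` -/
structure SphFull (Om : Set R3) (f : R3 → R3) (C : Set R3) (z : R3) (ρ₁ ρ₂ ε : ℝ)
    {F : Type*} [NormedAddCommGroup F] [NormedSpace ℝ F] (Sg' : Set F) (e₀ : R3 → F)
    (φ : R3 → ℝ) (a b : ℝ) (Θ : R3 → F) : Prop where
  ab : a < b
  pl : PLOn φ univ
  plT : PLOn Θ {x | a ≤ φ x ∧ φ x ≤ b}
  lt : ∀ x, φ x ≤ b → x ∈ Om ∧ Ng z C (f x) < ρ₂
  inn : ∀ x ∈ Om, Ng z C (f x) ≤ ρ₁ → φ x < a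
  near : ∀ x, a ≤ φ x → φ x ≤ b → ‖Θ x - e₀ (pj z C (f x))‖ ≤ ε
  ball : ∀ t ∈ Icc a b, IsBall 3 {x | φ x ≤ t} {x | φ x = t}
  fr : ∀ t ∈ Icc a b, frontier {x | φ x ≤ t} = {x | φ x = t}
  bij : ∀ t ∈ Icc a b, ∃ θ : PLEquiv {x | φ x = t} Sg', EqOn θ.f Θ {x | φ x = t}

/-- **SPHERE IN FULL** -/
theorem sphere_full {p : ℝ} (hp : 1 ≤ p) {Om La : Set R3} {f : R3 → R3} {G : Fin 3 → R3 → R3}
    (hO : IsOpen Om) (hLa : IsOpen La) (hS : Sk_962.SH p Om La f G)
    {C : Set R3} {z x₀ : R3} (hC : Bod z C) (hCL : C ⊆ La) (hx₀ : x₀ ∈ Om) (hz : f x₀ = z)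
    {F : Type*} [NormedAddCommGroup F] [NormedSpace ℝ F] {K' Sg' : Set F}
    (hK' : IsBall 3 K' Sg') {e₀ : R3 → F} {e₁ : F → R3} (he₀ : ContinuousOn e₀ (frontier C))
    (he₀m : MapsTo e₀ (frontier C) Sg') (he₁ : ContinuousOn e₁ Sg')
    (he₁m : MapsTo e₁ Sg' (frontier C)) (h01 : ∀ y ∈ Sg', e₀ (e₁ y) = y)
    (h10 : ∀ y ∈ frontier C, e₁ (e₀ y) = y)
    {ρ₁ ρ₂ ε : ℝ} (hρ₁ : 0 < ρ₁) (hρ : ρ₁ < ρ₂) (hρ₂ : ρ₂ ≤ 1) (hε : 0 < ε) :
    ∃ (φ : R3 → ℝ) (a b : ℝ) (Θ : R3 → F), SphFull Om f C z ρ₁ ρ₂ ε Sg' e₀ φ a b Θ := by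
  have hBL : BallLvl R3 := Spp_333.ballLvl
  have hE : Gp_702.ExistStmt := Gp_702.existStmt
  have hN : Gp_702.NormStmt := Gp_702.normStmt
  have hf := hS.homeo
  obtain ⟨gi, Hm⟩ := Init_543.exists_hm hf
  obtain ⟨δ₁, hδ₁, hdel₁⟩ := exists_del R3 hK' (half_pos hε)
  set δ₀ : ℝ := min δ₁ (ε / 4) with hδ₀'
  have hδ₀ : 0 < δ₀ := by positivity
  have hdel : Del R3 Sg' (ε / 2) δ₀ := del_mono hdel₁ (min_le_left _ _)
  obtain ⟨ε₁, hε₁, hnear⟩ := exists_near hC he₀ hρ₁ hδ₀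
  obtain ⟨L, hL⟩ := hC.lipschitz
  have hL0 : (0:ℝ) ≤ L := L.2
  have hd : 0 < ρ₂ - ρ₁ := sub_pos.2 hρ
  set ε₂ : ℝ := min ε₁ ((ρ₂ - ρ₁) / (12 * (L + 1))) with hε₂
  have hε₂0 : 0 < ε₂ := by positivity
  have hLε : (L:ℝ) * ε₂ ≤ (ρ₂ - ρ₁) / 12 := by
    have h1 : (L:ℝ) * ε₂ ≤ L * ((ρ₂ - ρ₁) / (12 * (L + 1))) :=
      mul_le_mul_of_nonneg_left (min_le_right _ _) hL0
    have h2 : (L:ℝ) * ((ρ₂ - ρ₁) / (12 * (L + 1))) = (ρ₂ - ρ₁) / 12 * (L / (L + 1)) := by
      field_simp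
    have h3 : (ρ₂ - ρ₁) / 12 * ((L:ℝ) / (L + 1)) ≤ (ρ₂ - ρ₁) / 12 := by
      refine mul_le_of_le_one_right (by positivity) ?_
      rw [div_le_one (by positivity)]; linarith
    linarith
  obtain ⟨ι, T, hfine, hfin⟩ := Sphm_976.exists_mesh1 hp hO hS
    (K := {x | x ∈ Om ∧ Ng z C (f x) ≤ 1}) (hC.isCompact_levle Hm hCL le_rfl)
    (fun x hx => hx.1) hε₂0
  have hM1 : FMesh T f {x | x ∈ Om ∧ Ng z C (f x) ≤ 1} ε₂ := ⟨hfine, hfin⟩
  have hM : FMesh T f {x | x ∈ Om ∧ Ng z C (f x) ≤ ρ₂} ε₂ :=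
    ⟨fun q hq => hfine q (hq.mono (inter_subset_inter_right _ fun x hx => ⟨hx.1, hx.2.trans hρ₂⟩)),
      hfin⟩
  obtain ⟨t, ht, h, htriv, -, hsupp, b, hb, hb1, lam, hlam, hin⟩ := front hLa hf hC hCL hx₀ hz
    (r0 := (ρ₁ + ρ₂) / 2) (r1 := ρ₂) (by linarith) (by linarith) hρ₂ hL hε₂0.le (by linarith) hM
    finrank_R3
  have ht0 : 0 < t := by have := ht.1; linarith
  have ht1 : t ≤ 1 := by have := ht.2; linarith
  have hsS : ∀ w ∈ (s1 h finrank_R3 b).P, w ∈ {x | x ∈ Om ∧ Ng z C (f x) = t} := fun w hw =>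
    (s1_mem h finrank_R3 b hw).1
  have hLam : ∀ j : Unit, ∀ e ∈ Om, T.dim e = 1 → ∀ a b', T.cc e = segment ℝ a b' →
      (fun _ : Unit => lam) j a + (fun _ : Unit => lam) j b' =
        (((gPts (s1 h finrank_R3 b) j : Set R3) ∩ T.cc e).ncard : ZMod 2) :=
    fun j e he hd a b' hab => lam_of_isLab hlam.lab he hd hab
  obtain ⟨g, P, c, H, hB⟩ := exists_state (s1_LF h finrank_R3 b)
    (fun w hw => s1_on h finrank_R3 b hw) (fun _ => lam) hLam
  -- the core tile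
  obtain ⟨q₀, hq₀⟩ := T.cov x₀ hx₀
  obtain ⟨v₀, hv₀, hd₀⟩ := exists_vertex_tile hq₀
  have hux₀ : Ng z C (f x₀) = 0 := by rw [hz, Ng_self]
  have h0 : lam v₀ = 1 := hin v₀ (mem_VM hq₀ (show x₀ ∈ {x | x ∈ Om ∧ Ng z C (f x) < (ρ₁ + ρ₂) / 2}
    from ⟨hx₀, by show Ng z C (f x₀) < _; rw [hux₀]; linarith⟩) hv₀ hd₀)
  have hqe : ∀ w ∈ (s1 h finrank_R3 b).P, w ∉ Msh_715.P (T.H q₀) := by
    intro w hw hwq
    have h1 := osc_u hL hM (q := q₀) ⟨x₀, hq₀, hx₀, by
      show Ng z C (f x₀) ≤ ρ₂; rw [hux₀]; linarith⟩ hq₀ hwq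
    rw [hux₀, (hsS w hw).2] at h1
    have := ht.1
    linarith
  have hballs := balls_of_state hBL hO hf hE hN H
    (hB ()) (s1_H1 h finrank_R3 b htriv) (s1_Conn h finrank_R3 b hb hb1)
    (D := {y | Ng z C y ≤ ρ₂}) (hC.isCompact_le ρ₂) ((hC.le_sub hρ₂).trans hCL) hlam
    (fun w hw q hq => hsupp w (hsS w hw) q hq) hqe hv₀ hd₀ h0
  have hint : interior {y | Ng z C y ≤ ρ₂} = {y | Ng z C y < ρ₂} := hC.interior_le (hρ₁.trans hρ)
  have hcK : IsCompact {x | x ∈ Om ∧ Ng z C (f x) ≤ ρ₂} := hC.isCompact_levle Hm hCL hρ₂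
  -- θ at the middle level
  obtain ⟨K0, k1, k2, k3, -⟩ := hballs (1/2) ⟨by norm_num, by norm_num⟩
  obtain ⟨θ₀, hθ₀⟩ := theta_s1 (h3 := finrank_R3) H T.cplx (hB ()) (mfd_cell finrank_R3)
    (top3_cell finrank_R3) hf hC.cpt.isClosed hC.cvx hCL (interior_subset hC.int) (gau hC)
    (Sg := Sg') (e₀ := e₀) (e₁ := e₁) he₀m he₁m he₁ h01 h10 (r := t) (ε₁ := ε₁) (ε := ε / 2)
    (δ := δ₀) ht0 ht1
    (hnear t (by have := ht.1; linarith) ht1)
    (by
      rintro q ⟨x, hx, hxC⟩ y hy y' hy'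
      have h1 := (hM1.fine q ⟨x, hx, T.sub q hx, hC.le_one_iff.2 hxC⟩ y hy y' hy').2
      exact h1.trans (min_le_left _ _))
    hdel (Kb := K0) (by rw [← k3]; exact k2) h htriv hb.1 hb.2 hb1
    (FarLab.mono hlam (hC.le_sub hρ₂)) hq₀ hz hv₀ hd₀ h0
    ((cmb_dic _ _ _ hLam ()).sh1 (s1_H1 h finrank_R3 b htriv))
    ((cmb_dic _ _ _ hLam ()).sconn (s1_Conn h finrank_R3 b hb hb1))
    (cmb_dic _ _ _ hLam ()) (cmb_cell _ _ _ hLam)
  -- values off the tiles of the pattern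
  have hfar : ∀ x ∈ Om, g.G () x ≠ 0 → Ng z C (f x) < ρ₂ := by
    intro x hx hG
    obtain ⟨i, hi⟩ := T.cov x hx
    by_contra hcon
    refine hG (G_far H hlam (fun w hw q hq => hsupp w (hsS w hw) q hq) (q := i) ?_ hi)
    intro h4
    have h5 := h4 hi
    rw [mem_preimage, hint] at h5
    exact hcon h5
  set φ : R3 → ℝ := fun x => if x ∈ Om then 1/2 - g.G () x else 1/2 with hφdef
  have hφO : ∀ x ∈ Om, φ x = 1/2 - g.G () x := fun x hx => if_pos hx
  have hφN : ∀ x, x ∉ Om → φ x = 1/2 := fun x hx => if_neg hx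
  have hφm : ∀ x, φ x < 1/2 → x ∈ Om := fun x hx => by
    by_contra hcon
    rw [hφN x hcon] at hx
    exact lt_irrefl _ hx
  have hsle : ∀ t < (1/2 : ℝ), {x | φ x ≤ t} = {x | x ∈ Om ∧ 1/2 - t ≤ g.G () x} := by
    intro t ht
    ext x
    constructor
    · intro hx
      have hx' : φ x ≤ t := hx
      have hxO := hφm x (by linarith)
      rw [hφO x hxO] at hx'
      exact ⟨hxO, by linarith⟩
    · rintro ⟨hxO, hx⟩
      show φ x ≤ t
      rw [hφO x hxO]; linarith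
  have hseq : ∀ t < (1/2 : ℝ), {x | φ x = t} = {x | x ∈ Om ∧ g.G () x = 1/2 - t} := by
    intro t ht
    ext x
    constructor
    · intro hx
      have hx' : φ x = t := hx
      have hxO := hφm x (by linarith)
      rw [hφO x hxO] at hx'
      exact ⟨hxO, by linarith⟩
    · rintro ⟨hxO, hx⟩
      show φ x = t
      rw [hφO x hxO]; linarith
  have hfT := T.finite_tiles hcK (fun x hx => hx.1)
  have hsc : ∀ x ∈ Om, g.G () x ∈ Ioo (0:ℝ) 1 → ∃ q ∈ tcell T '' {i | (Msh_715.P (T.H i) ∩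
      {x | x ∈ Om ∧ Ng z C (f x) ≤ ρ₂}).Nonempty}, x ∈ q.set := by
    intro x hx hG
    obtain ⟨i, hi⟩ := T.cov x hx
    exact ⟨tcell T i, ⟨i, ⟨x, hi, hx, (hfar x hx hG.1.ne').le⟩, rfl⟩, by rw [tcell_set]; exact hi⟩
  have hlev : ∀ t ∈ Icc (-1/4 : ℝ) (1/4), 1/2 - t ∈ Ioo (0:ℝ) 1 := fun t ht =>
    ⟨by have := ht.2; linarith, by have := ht.1; linarith⟩
  have hcol : ∀ x, (-1/4 : ℝ) ≤ φ x → φ x ≤ 1/4 → x ∈ Om ∧ g.G () x ∈ Ioo (0:ℝ) 1 := by
    intro x h5 h6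
    have hxO := hφm x (by linarith)
    rw [hφO x hxO] at h5 h6
    exact ⟨hxO, by linarith, by linarith⟩
  refine ⟨φ, -1/4, 1/4, fun x => θ₀.f (trl g () (1/2) x), ⟨by norm_num, ?_, ?_, ?_, ?_, ?_, ?_, ?_,
    ?_⟩⟩
  · -- PL on the whole space
    have h5 := plOn_G H hcK (fun x hx => hx.1)
    have h6 : PLOn (fun t : ℝ => 1/2 - t) univ := by
      have := plOn_affine (AffineMap.const ℝ ℝ (1/2 : ℝ) - AffineMap.id ℝ ℝ) (univ : Set ℝ)
      exact this
    have h7 : PLOn φ {x | x ∈ Om ∧ Ng z C (f x) ≤ ρ₂} :=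
      (h6.comp h5 (fun _ _ => mem_univ _)).congr fun x hx => hφO x hx.1
    have h8 : PLOn φ (closure {x | x ∈ Om ∧ Ng z C (f x) ≤ ρ₂}ᶜ) := by
      refine (plOn_const (1/2 : ℝ) _).congr fun x hx => ?_
      by_cases hxO : x ∈ Om
      · rw [hφO x hxO]
        by_contra hcon
        have hG : g.G () x ≠ 0 := fun h9 => hcon (by rw [h9, sub_zero])
        have h9 := hfar x hxO hG
        have hc : ContinuousAt (fun x => Ng z C (f x)) x :=
          (continuousOn_u hf hC).continuousAt (hO.mem_nhds hxO)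
        have h10 : {x | x ∈ Om ∧ Ng z C (f x) ≤ ρ₂} ∈ 𝓝 x := by
          filter_upwards [hO.mem_nhds hxO, hc.eventually_lt_const h9] with y hy hy'
          exact ⟨hy, hy'.le⟩
        rw [closure_compl] at hx
        exact hx (mem_interior_iff_mem_nhds.2 h10)
      · exact hφN x hxO
    refine (h7.union h8 hcK.isClosed isClosed_closure).mono fun x _ => ?_
    by_cases h9 : x ∈ {x | x ∈ Om ∧ Ng z C (f x) ≤ ρ₂}
    · exact Or.inl h9
    · exact Or.inr (subset_closure h9)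
  · -- the map on the collar
    have h5 := plOn_trl_mid H (j := ()) (Om := Om) (t := 1/2) ⟨by norm_num, by norm_num⟩
      (hfT.image (tcell T)) hsc
    refine θ₀.pf.comp (h5.mono fun x hx => hcol x hx.1 hx.2) fun x hx => ?_
    obtain ⟨hxO, hG⟩ := hcol x hx.1 hx.2
    obtain ⟨i, hi⟩ := T.cov x hxO
    have hi' : x ∈ (tcell T i).set := by rw [tcell_set]; exact hi
    have hBx := mem_B_lev H (q := tcell T i) hi' hG rfl
    have hm := trl_mem H (q := tcell T i) (t := 1/2) hi' hBx ⟨by norm_num, by norm_num⟩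
    exact ⟨T.cplx.sub _ hm, trl_G H (q := tcell T i) hi' hBx ⟨by norm_num, by norm_num⟩⟩
  · intro x hx
    have hxO := hφm x (by linarith)
    refine ⟨hxO, hfar x hxO fun h5 => ?_⟩
    rw [hφO x hxO, h5] at hx
    linarith
  · -- inner part
    intro x hx hxr
    obtain ⟨K, k1, k2, k3, k4, k5, k6, k7, k8, k9, -⟩ := hballs (1/2 - (-1/4)) (hlev _
      ⟨le_rfl, by norm_num⟩)
    have h5 : x ∈ interior K := by
      refine k9 {x | x ∈ Om ∧ Ng z C (f x) ≤ ρ₁} (hC.preconn_levle Hm hCL (by linarith))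
        (fun y hy hyf => ?_) ⟨x₀, ⟨hx₀, by show Ng z C (f x₀) ≤ ρ₁; rw [hux₀]; exact hρ₁.le⟩, hq₀⟩
        ⟨hx, hxr⟩
      have hyO : y ∈ Om := hy.1
      obtain ⟨i, hi⟩ := T.cov y hyO
      obtain ⟨w, hw, hwi⟩ := k8 y hyf i hi
      have h1 := osc_u hL hM (q := i) (x := y) (y := w) ⟨w, hwi, (hsS w hw).1, by
        show Ng z C (f w) ≤ ρ₂
        rw [(hsS w hw).2]; exact ht.2.le⟩ hi hwi
      rw [(hsS w hw).2] at h1
      have h2 := ht.1
      have h3 : Ng z C (f y) ≤ ρ₁ := hy.2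
      linarith
    have h6 : x ∈ K := interior_subset h5
    have h7 : x ∉ frontier K := by
      rw [k7.isClosed.frontier_eq]
      exact fun h8 => h8.2 h5
    rw [k3] at h7
    rw [k1] at h6
    rw [hφO x hx]
    have h8 : g.G () x ≠ 1/2 - (-1/4) := fun h9 => h7 ⟨hx, h9⟩
    have h9 : 1/2 - (-1/4 : ℝ) < g.G () x := lt_of_le_of_ne h6.2 (Ne.symm h8)
    linarith
  · -- near
    intro x h5 h6
    obtain ⟨hxO, hG⟩ := hcol x h5 h6
    obtain ⟨i, hi⟩ := T.cov x hxO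
    obtain ⟨w, hw, hwi⟩ := pt_of_mid H hi hG
    have hi' : x ∈ (tcell T i).set := by rw [tcell_set]; exact hi
    have hBx := mem_B_lev H (q := tcell T i) hi' hG rfl
    have hex : trl g () (1/2) x ∈ Msh_715.P (T.H i) := by
      have := trl_mem H (q := tcell T i) (t := 1/2) hi' hBx ⟨by norm_num, by norm_num⟩
      rwa [tcell_set] at this
    have hem : trl g () (1/2) x ∈ {z | z ∈ Om ∧ g.G () z = 1/2} :=
      ⟨T.sub i hex, trl_G H (q := tcell T i) hi' hBx ⟨by norm_num, by norm_num⟩⟩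
    have h1 := hθ₀ _ hem
    rw [dist_eq_norm] at h1
    have hN := hnear t (by have := ht.1; linarith) ht1
    have hwC : (Msh_715.P (T.H i) ∩ {x | x ∈ Om ∧ Ng z C (f x) ≤ 1}).Nonempty :=
      ⟨w, hwi, (hsS w hw).1, by
        show Ng z C (f w) ≤ 1
        rw [(hsS w hw).2]; exact ht1⟩
    have h2 := (hN (f w) (f x) (hsS w hw).2
      ((hM1.fine i hwC w hwi x hi).2.trans (min_le_left _ _))).2
    have h3 := (hN (f w) (f (trl g () (1/2) x)) (hsS w hw).2
      ((hM1.fine i hwC w hwi _ hex).2.trans (min_le_left _ _))).2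
    have h4 : δ₀ ≤ ε / 4 := min_le_right _ _
    have e1 : θ₀.f (trl g () (1/2) x) - e₀ (pj z C (f x)) =
        (θ₀.f (trl g () (1/2) x) - e₀ (pj z C (f (trl g () (1/2) x)))) +
        ((e₀ (pj z C (f w)) - e₀ (pj z C (f x))) -
          (e₀ (pj z C (f w)) - e₀ (pj z C (f (trl g () (1/2) x))))) := by abel
    show ‖θ₀.f (trl g () (1/2) x) - e₀ (pj z C (f x))‖ ≤ ε
    rw [e1]
    calc _ ≤ ‖θ₀.f (trl g () (1/2) x) - e₀ (pj z C (f (trl g () (1/2) x)))‖ +
          ‖(e₀ (pj z C (f w)) - e₀ (pj z C (f x))) -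
            (e₀ (pj z C (f w)) - e₀ (pj z C (f (trl g () (1/2) x))))‖ := norm_add_le _ _
      _ ≤ ε / 2 + (δ₀ + δ₀) := add_le_add h1 ((norm_sub_le _ _).trans (add_le_add h2 h3))
      _ ≤ ε := by linarith
  · intro t' ht'
    obtain ⟨K, k1, k2, k3, -⟩ := hballs (1/2 - t') (hlev t' ht')
    rw [hsle t' (by have := ht'.2; linarith), hseq t' (by have := ht'.2; linarith), ← k1, ← k3]
    exact k2
  · intro t' ht'
    obtain ⟨K, k1, k2, k3, -⟩ := hballs (1/2 - t') (hlev t' ht')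
    rw [hsle t' (by have := ht'.2; linarith), hseq t' (by have := ht'.2; linarith), ← k1, ← k3]
  · intro t' ht'
    obtain ⟨K, k1, k2, k3, k4, k5, k6, k7, k8, k9, e, he, hef⟩ := hballs (1/2 - t') (hlev t' ht')
    rw [hseq t' (by have := ht'.2; linarith)]
    exact ⟨e.trans θ₀, fun x _ => by
      show θ₀.f (e.f x) = θ₀.f (trl g () (1/2) x)
      rw [hef]⟩

end Crest.Agent.R096.Sphs_4
end

-- ▼ part R096/SkT_539
section

/-!
Row 96 (S0127), helper539.  **`SPHERE`**: the interface at the tiny cores (`p < 3`), definitions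
only (form of record: 335 #10410, #10429 (D1)).  From the Sobolev homeomorphism `f` to a PL ball `K`
round the preimage of the hole with a PL homeomorphism `θ` of its boundary onto the boundary of the
brick, near `Psi ∘ f`.
-/

set_option autoImplicit false
set_option linter.style.longLine false

open MeasureTheory Set Filter Topology Metric
open scoped ENNReal NNReal

namespace Crest.Agent.R096.SkT_539

open Crest.Agent.R096.Bsp_628 Crest.Agent.R096.Brk1_582 Crest.Agent.R096.Brk3_582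
open Crest.Agent.R096.Brk5_582 Crest.Agent.R096.Msh_715 Crest.Agent.R96.Push_899
open Crest.Agent.R096.Sk_962 Crest.Agent.R096.Er_594
open Crest.Agent.R096.SkC1_961 (E3 Hom3 IsPush FoamD)
open Crest.Agent.R096.Ce_537 (PLOn PLEquiv IsBall)
open Crest.Agent.R096.Mbf_337 (gau)
open Crest.Agent.R96.En10_199 (P3)
open Crest.AnalysisR.VecCalc3

noncomputable section

variable {δ κ0 R c0 : ℝ} {La : Set E3}

/-- the straight gauge of the brick `c` round its hole (one point): `0` there, `1` on the walls -/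
def ga (Φ : FoamD δ κ0 R c0 La) (c : Φ.F) (y : E3) : ℝ := gau c.1 (Φ.B c).lo y

/-- on `{ga ≤ r}` the push is constant along the straight rays from the hole -/
def RayTo (Φ : FoamD δ κ0 R c0 La) (c : Φ.F) (r : ℝ) : Prop :=
  ∀ y : E3, y ≠ (Φ.B c).lo → ga Φ c y ≤ r →
    Φ.Psi y = Φ.Psi ((Φ.B c).lo + (r / ga Φ c y) • (y - (Φ.B c).lo))

/-- **SPHERE** (levels and meshes do not occur). -/
def SPHERE : Prop :=
  ∀ (p : ℝ), 1 ≤ p → ∀ (Om La : Set R3) (f : R3 → R3) (G : Fin 3 → R3 → R3),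
    IsOpen Om → IsOpen La → SH p Om La f G →
  ∀ (δ κ0 R c0 : ℝ), 0 < δ → 1 ≤ κ0 → 1 ≤ R → 0 < c0 →
  ∀ (Φ : FoamD δ κ0 R c0 (P3 ⁻¹' La)) (c : Φ.F), (Φ.B c).lo = (Φ.B c).hi →
  ∃ r : ℝ, 0 < r ∧ r < 1 ∧ RayTo Φ c r ∧
  ∀ ρ₁ ρ₂ ε : ℝ, 0 < ρ₁ → ρ₁ < ρ₂ → ρ₂ ≤ r → 0 < ε →
  ∃ (K : Set E3) (θ : PLEquiv (frontier K) (frontier c.1.set)),
    IsBall 3 K (frontier K) ∧ K ⊆ P3 ⁻¹' Om ∧
    (∀ x ∈ K, ga Φ c (e3 f x) < ρ₂) ∧
    (∀ x ∈ frontier K, ρ₁ < ga Φ c (e3 f x)) ∧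
    (∀ x ∈ P3 ⁻¹' Om, ga Φ c (e3 f x) ≤ ρ₁ → x ∈ interior K) ∧
    (∀ x ∈ frontier K, ‖θ.f x - Φ.Psi (e3 f x)‖ ≤ ε)

end

end Crest.Agent.R096.SkT_539
end

-- ▼ part R096/Pse4_316
section

/-! # Row 96, seam SPHERE → tiny cores (helper316), part 4: the theorem SPHERE IN FULL
(`Sphs_4.sphere_full`: all levels, one PL map on the collar) for a point hole of a foam, in `E3`.
`sphere : SPHERE` (539's Prop) as a corollary. -/

set_option autoImplicit false
set_option linter.unusedSectionVars false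

open Set Filter Topology Metric NNReal MeasureTheory

namespace Crest.Agent.R096.Pse_316

open Crest.Agent.R096.Sphg_316 Crest.Agent.R96.Push_899
open Crest.Agent.R096.Bsp_628 Crest.Agent.R096.Brk3_582
open Crest.Agent.R096.SkC1_961 (E3 FoamD IsPush)
open Crest.Agent.R096.Ce_537
open Crest.Agent.R96.En10_199 (P3)
open Crest.Agent.R096.Er_594 (e3)
open Crest.Agent.R096.SkT_539 (ga RayTo SPHERE)
open Crest.AnalysisR.VecCalc3

variable {δ κ0 R c0 : ℝ}

/-- 4's `SphFull` in `E3`, for a point hole of a foam (539 #10454 (A) literally) -/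
structure SphE {La : Set E3} (Om : Set E3) (f : E3 → E3) (Φ : FoamD δ κ0 R c0 La) (c : Φ.F)
    (ρ₁ ρ₂ ε : ℝ) (φ : E3 → ℝ) (a b : ℝ) (Θ : E3 → E3) : Prop where
  ab : a < b
  pl : PLOn φ univ
  plT : PLOn Θ {x | a ≤ φ x ∧ φ x ≤ b}
  lt : ∀ x, φ x ≤ b → x ∈ Om ∧ ga Φ c (f x) < ρ₂
  inn : ∀ x ∈ Om, ga Φ c (f x) ≤ ρ₁ → φ x < a
  near : ∀ x, a ≤ φ x → φ x ≤ b → ‖Θ x - Φ.Psi (f x)‖ ≤ ε
  ball : ∀ t ∈ Icc a b, IsBall 3 {x | φ x ≤ t} {x | φ x = t}
  fr : ∀ t ∈ Icc a b, frontier {x | φ x ≤ t} = {x | φ x = t}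
  bij : ∀ t ∈ Icc a b, ∃ θ : PLEquiv {x | φ x = t} (frontier c.1.set), EqOn θ.f Θ {x | φ x = t}

/-- **SPHERE IN FULL, `E3` version** -/
theorem sphere_fullE {p : ℝ} (hp : 1 ≤ p) {Om La : Set R3} {f : R3 → R3} {G : Fin 3 → R3 → R3}
    (hO : IsOpen Om) (hLa : IsOpen La) (hS : Sk_962.SH p Om La f G)
    (Φ : FoamD δ κ0 R c0 (P3 ⁻¹' La)) (c : Φ.F) (hpt : (Φ.B c).lo = (Φ.B c).hi) :
    ∃ r : ℝ, 0 < r ∧ r < 1 ∧ (∀ r', 0 < r' → r' ≤ r → RayTo Φ c r') ∧
    ∀ ρ₁ ρ₂ ε : ℝ, 0 < ρ₁ → ρ₁ < ρ₂ → ρ₂ ≤ r → 0 < ε →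
    ∃ (φ : E3 → ℝ) (a b : ℝ) (Θ : E3 → E3),
      SphE (P3 ⁻¹' Om) (e3 f) Φ c ρ₁ ρ₂ ε φ a b Θ := by
  obtain ⟨r1, h1, h1', H1⟩ := exists_e0R Φ hLa c hpt
  obtain ⟨r2, h2, h2', H2⟩ := rayTo Φ (hLa.preimage P3.continuous) c hpt
  set r : ℝ := min r1 r2 with hr
  have hr0 : 0 < r := lt_min h1 h2
  have hr1 : r ≤ r1 := min_le_left _ _
  have hr2 : r ≤ r2 := min_le_right _ _
  have hrlt : r < 1 := lt_of_le_of_lt hr2 h2'
  refine ⟨r, hr0, hrlt, ?_, ?_⟩
  · intro r' hr' hrr y hy hyr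
    exact H2 r' hr' (hrr.trans hr2) y hy hyr
  intro ρ₁ ρ₂ ε hρ₁ hρ hρ₂ hε
  obtain ⟨e₀, e₁, a1, a2, a3, a4, a5, a6, a7⟩ := H1 r hr0 hr1
  -- the preimage of the hole
  have hzLa : P3 (Φ.B c).lo ∈ La :=
    sbR_sub_La Φ c hpt hrlt.le (interior_subset (bod_sbR Φ c hpt hr0).int)
  obtain ⟨x₀, hx₀, hz⟩ : ∃ x₀ ∈ Om, f x₀ = P3 (Φ.B c).lo := by
    obtain ⟨gi, Hm⟩ := Init_543.exists_hm hS.homeo
    exact ⟨gi (P3 (Φ.B c).lo), Hm.gm hzLa, Hm.fg _ hzLa⟩
  obtain ⟨φ, a, b, Θ, S⟩ := Sphs_4.sphere_full hp hO hLa hS (bod_sbR Φ c hpt hr0)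
    (sbR_sub_La Φ c hpt hrlt.le) hx₀ hz (isBall_brick Φ c) a1 a2 a3 a4 a5 a6
    (ρ₁ := ρ₁ / r) (ρ₂ := ρ₂ / r) (ε := ε) (div_pos hρ₁ hr0)
    (div_lt_div_of_pos_right hρ hr0) ((div_le_one hr0).2 hρ₂) hε
  have hNg : ∀ x : E3, Ng (P3 (Φ.B c).lo) (sbR Φ c r) (f (P3 x)) = ga Φ c (e3 f x) / r :=
    fun x => Ng_sbR' Φ c hpt hr0 (f (P3 x))
  refine ⟨fun x => φ (P3 x), a, b, fun x => Θ (P3 x), ⟨S.ab, ?_, ?_, ?_, ?_, ?_, ?_, ?_, ?_⟩⟩
  · exact plOn_pre_univ P3 S.pl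
  · exact plOn_pre P3 S.plT
  · intro x hx
    obtain ⟨b1, b2⟩ := S.lt (P3 x) hx
    rw [hNg] at b2
    exact ⟨b1, (div_lt_div_iff_of_pos_right hr0).1 b2⟩
  · intro x hx hxr
    refine S.inn (P3 x) hx ?_
    rw [hNg]
    exact (div_le_div_iff_of_pos_right hr0).2 hxr
  · intro x b1 b2
    have b3 := S.near (P3 x) b1 b2
    obtain ⟨b4, b5⟩ := S.lt (P3 x) b2
    rw [hNg] at b5
    have b6 : ga Φ c (e3 f x) < ρ₂ := (div_lt_div_iff_of_pos_right hr0).1 b5
    have b7 : f (P3 x) ≠ P3 (Φ.B c).lo := by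
      intro he
      have b8 : Ng (P3 (Φ.B c).lo) (sbR Φ c r) (f (P3 x)) ≤ ρ₁ / r := by
        rw [he, Ng_self]
        positivity
      exact absurd b1 (not_le.2 (S.inn (P3 x) b4 b8))
    have b9 : e₀ (pj (P3 (Φ.B c).lo) (sbR Φ c r) (f (P3 x))) = Φ.Psi (P3.symm (f (P3 x))) := by
      refine a7 _ ?_ b7
      have : Mbf_337.gau c.1 (Φ.B c).lo (P3.symm (f (P3 x))) < ρ₂ := b6
      linarith
    rw [b9] at b3
    exact b3
  · intro t ht
    exact isBall_pre P3 (S.ball t ht)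
  · intro t ht
    have b1 := S.fr t ht
    have b2 := frontier_pre P3 {x | φ x ≤ t}
    rw [b1] at b2
    exact b2
  · intro t ht
    obtain ⟨θ, hθ⟩ := S.bij t ht
    refine ⟨(plPre P3 {x | φ x = t}).trans θ, ?_⟩
    intro x hx
    exact hθ hx

/-- the one-ball form -/
theorem SphE.one {La : Set E3} {Om : Set E3} {f : E3 → E3} {Φ : FoamD δ κ0 R c0 La} {c : Φ.F}
    {ρ₁ ρ₂ ε : ℝ} {φ : E3 → ℝ} {a b : ℝ} {Θ : E3 → E3} (S : SphE Om f Φ c ρ₁ ρ₂ ε φ a b Θ)
    {t : ℝ} (ht : t ∈ Icc a b) :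
    ∃ (K : Set E3) (θ : PLEquiv (frontier K) (frontier c.1.set)),
    IsBall 3 K (frontier K) ∧ K ⊆ Om ∧
    (∀ x ∈ K, ga Φ c (f x) < ρ₂) ∧
    (∀ x ∈ frontier K, ρ₁ < ga Φ c (f x)) ∧
    (∀ x ∈ Om, ga Φ c (f x) ≤ ρ₁ → x ∈ interior K) ∧
    (∀ x ∈ frontier K, ‖θ.f x - Φ.Psi (f x)‖ ≤ ε) := by
  have hfr := S.fr t ht
  obtain ⟨θ, hθ⟩ := S.bij t ht
  refine ⟨{x | φ x ≤ t}, hfr ▸ θ, ?_, ?_, ?_, ?_, ?_, ?_⟩
  · rw [hfr]; exact S.ball t ht
  · intro x hx
    exact (S.lt x (le_trans hx ht.2)).1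
  · intro x hx
    exact (S.lt x (le_trans hx ht.2)).2
  · intro x hx
    rw [hfr] at hx
    have hx' : φ x = t := hx
    have hxO := (S.lt x (hx'.le.trans ht.2)).1
    by_contra hcon
    have := S.inn x hxO (not_lt.1 hcon)
    have := ht.1
    linarith
  · intro x hx hxr
    have h1 := S.inn x hx hxr
    have hcl : IsClosed {x | φ x ≤ t} := (S.ball t ht).isCompact.isClosed
    by_contra hcon
    have h2 : x ∈ frontier {x | φ x ≤ t} := by
      rw [hcl.frontier_eq]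
      refine ⟨?_, hcon⟩
      show φ x ≤ t
      have := ht.1
      linarith
    rw [hfr] at h2
    have h3 : φ x = t := h2
    have := ht.1
    linarith
  · intro x hx
    rw [hfr] at hx
    have hx' : φ x = t := hx
    have h1 := S.near x (by rw [hx']; exact ht.1) (by rw [hx']; exact ht.2)
    have key : ∀ (A B : Set E3) (h : A = B) (θ : PLEquiv B (frontier c.1.set)),
        (h ▸ θ : PLEquiv A (frontier c.1.set)).f = θ.f := by
      intro A B h θ
      subst h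
      rfl
    rw [key _ _ hfr θ, hθ hx]
    exact h1

/-- **539's Prop `SPHERE`** -/
theorem sphere : SPHERE := by
  intro p hp Om La f G hO hLa hS δ κ0 R c0 _ _ _ _ Φ c hpt
  obtain ⟨r, hr, hr1, hray, H⟩ := sphere_fullE hp hO hLa hS Φ c hpt
  refine ⟨r, hr, hr1, hray r hr le_rfl, fun ρ₁ ρ₂ ε hρ₁ hρ hρ₂ hε => ?_⟩
  obtain ⟨φ, a, b, Θ, S⟩ := H ρ₁ ρ₂ ε hρ₁ hρ hρ₂ hε
  exact S.one (t := a) ⟨le_rfl, S.ab.le⟩

end Crest.Agent.R096.Pse_316
end

-- ▼ part R096/Tl4_4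

/-! # Row 96, TINY-LOC (helper4), part 4: `TinyLoc` without hypotheses, and `SH3 → SH`. -/

set_option autoImplicit false
set_option linter.unusedSectionVars false

open Set Filter Topology Metric MeasureTheory
open scoped ENNReal

namespace Crest.Agent.R096.Tl_4

open Crest.Agent.R096.Brk1_582 Crest.Agent.R096.Brk2_582 Crest.Agent.R096.Brk3_582
open Crest.Agent.R096.Brk5_582 Crest.Agent.R096.Bsp_628
open Crest.Agent.R096.SkC1_961 (E3 Hom3 FoamD)
open Crest.Agent.R096.Tms_582 (TinyLoc)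
open Crest.Agent.R96.En10_199 (P3 P3_mp)
open Crest.Agent.R96.Sob7_199 (grad_of_wd)
open Crest.Agent.R096.Er_594
open Crest.Agent.R096.Sk_962 (SH)
open Crest.AnalysisR.VecCalc3 Crest.AnalysisR.Sobolev
open Crest.Agent.R96.Acl_392

variable {δ κ0 Rc c0 : ℝ}

theorem sh_of3 {p : ℝ} (hp : 1 ≤ p) {Om La : Set E3} (hO : IsOpen Om) {f : E3 → E3}
    {D : E3 → E3 →L[ℝ] E3} (h : SH3 p Om La f D) :
    SH p (P3.symm ⁻¹' Om) (P3.symm ⁻¹' La) (r3 f) (fun j y => row (D (P3.symm y)) j) := by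
  have hp0 : 0 < p := by linarith
  have hmp : MeasurePreserving P3.symm (volume : Measure R3) (volume : Measure E3) :=
    PiLp.volume_preserving_ofLp (Fin 3)
  have hem : MeasurableEmbedding P3.symm := P3.symm.toHomeomorph.measurableEmbedding
  have hOs := isOpen_symm_pre hO
  have hae : ∀ {F : Type} [TopologicalSpace F] {u : E3 → F},
      AEStronglyMeasurable u (volume.restrict Om) →
      AEStronglyMeasurable (fun y => u (P3.symm y)) (volume.restrict (P3.symm ⁻¹' Om)) := by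
    intro F _ u hu
    have h1 : Measure.map P3.symm (volume.restrict (P3.symm ⁻¹' Om)) = volume.restrict Om := by
      rw [← hem.restrict_map, hmp.map_eq]
    rw [← h1] at hu
    exact (hem.aestronglyMeasurable_map_iff).1 hu
  have hml : ∀ {u : R3 → R3}, AEStronglyMeasurable u (volume.restrict (P3.symm ⁻¹' Om)) →
      ∫⁻ y in P3.symm ⁻¹' Om, ‖u y‖ₑ ^ p ≠ ∞ →
      MemLp u (ENNReal.ofReal p) (volume.restrict (P3.symm ⁻¹' Om)) := by
    intro u h1 h2
    refine ⟨h1, ?_⟩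
    rw [eLpNorm_lt_top_iff_lintegral_rpow_enorm_lt_top (by simpa using hp0) (by simp)]
    rw [ENNReal.toReal_ofReal hp0.le]
    exact lt_top_iff_ne_top.2 h2
  have h22 : (2:ℝ≥0∞) ^ p ≠ ∞ := ENNReal.rpow_ne_top_of_nonneg hp0.le (by norm_num)
  refine ⟨homeo_of' h.homeo, hml ?_ ?_, fun j => grad_of_wd fun i => ?_, fun j => hml ?_ ?_⟩
  · have h1 := hae ((hom3_cont h.homeo).aestronglyMeasurable hO.measurableSet)
    exact P3.continuous.comp_aestronglyMeasurable h1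
  · have h1 : ∫⁻ y in P3.symm ⁻¹' Om, ‖r3 f y‖ₑ ^ p ≤
        2 ^ p * ∫⁻ y in P3.symm ⁻¹' Om, ‖f (P3.symm y)‖ₑ ^ p := by
      rw [← lintegral_const_mul' _ _ h22]
      apply lintegral_mono
      intro y
      change ‖P3 (f (P3.symm y))‖ₑ ^ p ≤ 2 ^ p * ‖f (P3.symm y)‖ₑ ^ p
      rw [← ENNReal.mul_rpow_of_nonneg _ _ hp0.le]
      apply ENNReal.rpow_le_rpow _ hp0.le
      rw [← ofReal_norm, ← ofReal_norm]
      refine (ENNReal.ofReal_le_ofReal (norm_P3_le _)).trans (le_of_eq ?_)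
      rw [ENNReal.ofReal_mul (by norm_num)]
      norm_num
    refine ne_top_of_le_ne_top (ENNReal.mul_ne_top h22 ?_) h1
    rw [← lint_P3_symm Om (fun x => ‖f x‖ₑ ^ p)]
    exact h.lp
  · have h1 := Crest.Agent.R96.En10_199.wd_comp_equiv (h.vwd i j) P3.symm hmp
    have h2 : (P3.symm.symm (Pi.single i (1:ℝ)) : R3) = EuclideanSpace.single i 1 := by
      rw [← Crest.Agent.R96.En10_199.P3_symm_single]
      exact P3.apply_symm_apply _
    rw [h2] at h1
    exact h1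
  · have h1 := hae h.aesm
    have h2 : Continuous fun L : E3 →L[ℝ] E3 => row L j := by
      have : (fun L : E3 →L[ℝ] E3 => row L j) = fun L => P3 (fun i => L (Pi.single i 1) j) := rfl
      rw [this]
      refine P3.continuous.comp (continuous_pi fun i => ?_)
      exact (continuous_apply (A := fun _ : Fin 3 => ℝ) j).comp
        (continuous_eval_const (F := E3 →L[ℝ] E3) (Pi.single i (1:ℝ) : E3))
    exact h2.comp_aestronglyMeasurable h1
  · have h1 : ∫⁻ y in P3.symm ⁻¹' Om, ‖row (D (P3.symm y)) j‖ₑ ^ p ≤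
        2 ^ p * ∫⁻ y in P3.symm ⁻¹' Om, ‖D (P3.symm y)‖ₑ ^ p := by
      rw [← lintegral_const_mul' _ _ h22]
      apply lintegral_mono
      intro y
      change ‖P3 (fun i => D (P3.symm y) (Pi.single i 1) j)‖ₑ ^ p ≤ 2 ^ p * ‖D (P3.symm y)‖ₑ ^ p
      rw [← ENNReal.mul_rpow_of_nonneg _ _ hp0.le]
      apply ENNReal.rpow_le_rpow _ hp0.le
      rw [← ofReal_norm, ← ofReal_norm]
      refine (ENNReal.ofReal_le_ofReal (((norm_P3_le _).trans (mul_le_mul_of_nonneg_left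
        ((pi_norm_le_iff_of_nonneg (norm_nonneg (D (P3.symm y)))).2 fun i => ?_)
          (by norm_num))))).trans (le_of_eq ?_)
      · refine (norm_le_pi_norm (D (P3.symm y) (Pi.single i 1)) j).trans ?_
        have h3 := (D (P3.symm y)).le_opNorm (Pi.single i (1:ℝ))
        have h4 : ‖(Pi.single i (1:ℝ) : E3)‖ = 1 := by
          rw [Pi.norm_single]; simp
        rwa [h4, mul_one] at h3
      · rw [ENNReal.ofReal_mul (by norm_num)]
        norm_num
    refine ne_top_of_le_ne_top (ENNReal.mul_ne_top h22 ?_) h1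
    rw [← lint_P3_symm Om (fun x => ‖D x‖ₑ ^ p)]
    exact h.energy

/-- **TINY-LOC** -/
theorem tiny_loc {p : ℝ} (hp : 1 ≤ p) {Om La : Set E3} (hO : IsOpen Om) (hLa : IsOpen La)
    {f : E3 → E3} {D : E3 → E3 →L[ℝ] E3} (hS : SH3 p Om La f D) (Φ : FoamD δ κ0 Rc c0 La)
    {c : Φ.F} (hpt : (Φ.B c).lo = (Φ.B c).hi) {x₀ : E3} (hfx : f x₀ = (Φ.B c).lo)
    {R : ℝ} (hR : 0 < R) (hOm : closedBall x₀ R ⊆ Om)
    (hin : ∀ x ∈ closedBall x₀ R, ∀ k, c.1.lo k < f x k ∧ f x k < c.1.hi k)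
    {κ1 : ℝ} (hκ : 0 < κ1) : TinyLoc Φ Om f κ1 c x₀ R := by
  refine tiny_loc_of Φ hLa hS.homeo hpt hfx hR hOm hin hκ ?_
  have key := Pse_316.sphere_fullE hp (isOpen_symm_pre hO) (isOpen_symm_pre hLa) (sh_of3 hp hO hS)
    (δ := δ) (κ0 := κ0) (R := Rc) (c0 := c0)
  rw [symm_pre, symm_pre, e3_r3] at key
  obtain ⟨r, h1, -, -, H⟩ := key Φ c hpt
  refine ⟨r, h1, fun ρ₁ ρ₂ ε a1 a2 a3 a4 => ?_⟩
  obtain ⟨φ, a, b, Θ, S⟩ := H ρ₁ ρ₂ ε a1 a2 a3 a4
  exact ⟨φ, a, b, Θ, ⟨S.ab, S.pl, S.plT, S.lt, S.inn, S.near, S.ball, S.bij⟩⟩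

end Crest.Agent.R096.Tl_4
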