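import Crest.Agent.R096.Mo7_119
import Crest.Agent.R096.Fp1_812
import Crest.Agent.R096.Sk0_962
import Mathlib
import Crest.Agent.R096.Str5_696
import Crest.Agent.R096.GermT_879
import Crest.Agent.R096.StV3_119_Mg
import Crest.Agent.R096.BelF_205_Mg
import Crest.Agent.R096.Ed13_276
import Crest.Agent.R096.Sk4g_663
import Crest.Agent.R096.No1_276

-- ▼ part R096/Asm1_119
section

/-!
# P5-ASM-B, part 1 (helper119, row 96): measure theoretic choice lemmas
-/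

set_option autoImplicit false
set_option linter.unusedSectionVars false

open MeasureTheory Metric Set Filter Topology
open scoped ENNReal NNReal ContDiff

namespace Crest.Agent.R096.Asm_119

open Crest.Agent.R096.Mo_119

variable {E : Type*} [NormedAddCommGroup E] [NormedSpace ℝ E] [FiniteDimensional ℝ E]
  [MeasurableSpace E] [BorelSpace E] {μ : Measure E}

/-- on the set where two maps agree their derivatives agree a.e. -/
theorem ae_fderiv_eq_of_eq [μ.IsAddHaarMeasure] {f g : E → E} {s : Set E} (hs : MeasurableSet s)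
    (hfg : ∀ x ∈ s, f x = g x) (hf : ∀ᵐ x ∂μ, x ∈ s → DifferentiableAt ℝ f x)
    (hg : ∀ᵐ x ∂μ, x ∈ s → DifferentiableAt ℝ g x) :
    ∀ᵐ x ∂μ, x ∈ s → fderiv ℝ f x = fderiv ℝ g x := by
  set s' : Set E := s ∩ ({x | DifferentiableAt ℝ f x} ∩ {x | DifferentiableAt ℝ g x}) with hs'
  have hms : MeasurableSet s' := hs.inter
    ((measurableSet_of_differentiableAt ℝ f).inter (measurableSet_of_differentiableAt ℝ g))
  have happ : ApproximatesLinearOn (fun x => f x - g x) (0 : E →L[ℝ] E) s' 0 := by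
    intro x hx y hy
    simp [hfg x hx.1, hfg y hy.1]
  have key := happ.norm_fderiv_sub_le μ hms (fun x => fderiv ℝ f x - fderiv ℝ g x)
    (fun x hx => (hx.2.1.hasFDerivAt.sub hx.2.2.hasFDerivAt).hasFDerivWithinAt)
  rw [ae_restrict_iff' hms] at key
  filter_upwards [key, hf, hg] with x hx hfx hgx hxs
  have h1 := hx ⟨hxs, hfx hxs, hgx hxs⟩
  have h2 : ‖fderiv ℝ f x - fderiv ℝ g x‖₊ ≤ 0 := by simpa using h1
  have h3 : fderiv ℝ f x - fderiv ℝ g x = 0 := by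
    rw [← nnnorm_eq_zero]; exact le_antisymm h2 zero_le
  exact sub_eq_zero.1 h3

omit [FiniteDimensional ℝ E] [MeasurableSpace E] [BorelSpace E] [NormedSpace ℝ E] in
/-- a locally bounded function is bounded on compact sets -/
theorem exists_sup_compact {Ω K : Set E} {W : E → ℝ≥0∞}
    (hW : ∀ x ∈ Ω, ∃ r > 0, ∃ M : ℝ≥0∞, M ≠ ⊤ ∧ ∀ y ∈ ball x r ∩ Ω, W y ≤ M) (hK : IsCompact K)
    (hKΩ : K ⊆ Ω) : ∃ M : ℝ≥0∞, M ≠ ⊤ ∧ ∀ x ∈ K, W x ≤ M := by
  classical
  have h1 : ∀ x ∈ K, ∃ r > 0, ∃ M : ℝ≥0∞, M ≠ ⊤ ∧ ∀ y ∈ ball x r ∩ Ω, W y ≤ M :=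
    fun x hx => hW x (hKΩ hx)
  choose! r hr M hM hWM using h1
  obtain ⟨t, htK, ht⟩ := hK.elim_nhds_subcover (fun x => ball x (r x))
    (fun x hx => ball_mem_nhds x (hr x hx))
  refine ⟨∑ x ∈ t, M x, ENNReal.sum_ne_top.2 fun x hx => hM x (htK x hx), fun x hx => ?_⟩
  obtain ⟨y, hy, hxy⟩ := mem_iUnion₂.1 (ht hx)
  exact (hWM y (htK y hy) x ⟨hxy, hKΩ hx⟩).trans
    (Finset.single_le_sum (f := M) (fun _ _ => zero_le) hy)

omit [FiniteDimensional ℝ E] [MeasurableSpace E] [BorelSpace E] [NormedSpace ℝ E] in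
/-- a locally bounded below function below a given sequence along an exhaustion -/
theorem exists_lbb_le {Ω : Set E} {m : E → ℕ} (hmb : LBB Ω (fun x => 1 / ((m x : ℝ) + 1)))
    {T : ℕ → ℝ} (hT0 : ∀ n, 0 < T n) : ∃ b : E → ℝ, LBB Ω b ∧ ∀ x, b x ≤ T (m x) := by
  have hne : ∀ n : ℕ, (Finset.range (n + 1)).Nonempty := fun n => ⟨0, by simp⟩
  set T' : ℕ → ℝ := fun n => (Finset.range (n + 1)).inf' (hne n) T with hT'
  have hT'0 : ∀ n, 0 < T' n := fun n =>
    (Finset.lt_inf'_iff (hne n)).2 fun k _ => hT0 k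
  have hT'anti : ∀ n k, n ≤ k → T' k ≤ T' n := fun n k hnk => by
    refine Finset.inf'_mono _ (fun j hj => ?_) _
    simp only [Finset.mem_range] at hj ⊢; omega
  refine ⟨fun x => T' (m x), ?_, fun x => Finset.inf'_le _ (by simp)⟩
  intro x hx
  obtain ⟨c, hc, hcy⟩ := hmb x hx
  obtain ⟨M, hM⟩ := exists_nat_gt (1 / c)
  refine ⟨T' M, hT'0 M, hcy.mono fun y hy hyΩ => hT'anti _ _ ?_⟩
  have h2 := hy hyΩ
  rw [le_div_iff₀ (by positivity)] at h2
  rw [div_lt_iff₀ hc] at hM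
  have h3 : ((m y : ℕ) : ℝ) + 1 < (M : ℝ) + 1 := by
    by_contra hcon
    push Not at hcon
    nlinarith
  have h4 : ((m y : ℕ) : ℝ) ≤ (M : ℝ) := by linarith
  exact_mod_cast h4

/-- small neighbourhoods of a relatively closed null set -/
theorem exists_small_nbhd [μ.IsAddHaarMeasure] {Ω Z : Set E} (hΩ : IsOpen Ω)
    (hZne : Z.Nonempty) (hZc : ∀ x ∈ Ω, x ∉ Z → ∃ r > 0, ∀ y ∈ ball x r, y ∉ Z) (hZ0 : μ Z = 0)
    {W : E → ℝ≥0∞}
    (hW : ∀ x ∈ Ω, ∃ r > 0, ∃ M : ℝ≥0∞, M ≠ ⊤ ∧ ∀ y ∈ ball x r ∩ Ω, W y ≤ M)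
    {ε : ℝ≥0∞} (hε : ε ≠ 0) :
    ∃ b : E → ℝ, LBB Ω b ∧ ∀ (D : Set E) (f : E → ℝ≥0∞),
      (∀ x ∈ D, x ∈ Ω ∧ infDist x Z ≤ b x ∧ f x ≤ W x) → ∫⁻ x in D, f x ∂μ ≤ ε := by
  have hprop : ProperSpace E := FiniteDimensional.proper_real E
  obtain ⟨K, hKc, hKΩ, m, hmK, hmb⟩ := exists_exhaustion hΩ
  obtain ⟨ε', hε', hsum⟩ := ENNReal.exists_pos_sum_of_countable' hε ℕ
  have h1 : ∀ n, ∃ t : ℝ, 0 < t ∧ ∃ M : ℝ≥0∞, (∀ x ∈ K n, W x ≤ M) ∧
      M * μ (cthickening t Z ∩ K n) ≤ ε' n := by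
    intro n
    obtain ⟨M, hM, hWM⟩ := exists_sup_compact hW (hKc n) (hKΩ n)
    obtain ⟨d, hd, hdM⟩ := ENNReal.exists_nnreal_pos_mul_lt hM (hε' n).ne'
    have hfin : IsFiniteMeasure (μ.restrict (K n)) := ⟨by
      rw [Measure.restrict_apply_univ]; exact (hKc n).measure_lt_top⟩
    have ht : Tendsto (fun r => (μ.restrict (K n)) (cthickening r Z)) (𝓝 0)
        (𝓝 ((μ.restrict (K n)) (closure Z))) :=
      tendsto_measure_cthickening ⟨1, one_pos, measure_ne_top _ _⟩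
    have h0 : (μ.restrict (K n)) (closure Z) = 0 := by
      rw [Measure.restrict_apply isClosed_closure.measurableSet]
      refine measure_mono_null ?_ hZ0
      rintro x ⟨hx1, hx2⟩
      by_contra hxZ
      obtain ⟨r, hr, hball⟩ := hZc x (hKΩ n hx2) hxZ
      obtain ⟨y, hy, hxy⟩ := Metric.mem_closure_iff.1 hx1 r hr
      exact hball y (by rw [mem_ball, dist_comm]; exact hxy) hy
    rw [h0] at ht
    have hd' : (0 : ℝ≥0∞) < (d : ℝ≥0∞) := by exact_mod_cast hd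
    have h2 : ∀ᶠ t : ℝ in 𝓝 0, (μ.restrict (K n)) (cthickening t Z) < d :=
      ht.eventually_lt_const hd'
    obtain ⟨t, ht1, ht2⟩ := ((h2.filter_mono nhdsWithin_le_nhds).and
      (self_mem_nhdsWithin : Ioi (0:ℝ) ∈ 𝓝[>] 0)).exists
    refine ⟨t, ht2, M, hWM, ?_⟩
    rw [Measure.restrict_apply isClosed_cthickening.measurableSet] at ht1
    calc M * μ (cthickening t Z ∩ K n) ≤ M * d := by gcongr
      _ = d * M := mul_comm _ _
      _ ≤ ε' n := hdM.le
  choose t ht M hWM hMt using h1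
  obtain ⟨b, hb, hbT⟩ := exists_lbb_le hmb ht
  refine ⟨b, hb, fun D f hD => ?_⟩
  set S : ℕ → Set E := fun n => {x | x ∈ D ∧ m x = n} with hS
  have hcov : D ⊆ ⋃ n, S n := fun x hx => mem_iUnion.2 ⟨m x, hx, rfl⟩
  calc ∫⁻ x in D, f x ∂μ ≤ ∫⁻ x in ⋃ n, S n, f x ∂μ := lintegral_mono_set hcov
    _ ≤ ∑' n, ∫⁻ x in S n, f x ∂μ := lintegral_iUnion_le _ _
    _ ≤ ∑' n, ε' n := by
        refine ENNReal.tsum_le_tsum fun n => ?_
        calc ∫⁻ x in S n, f x ∂μ ≤ ∫⁻ x in S n, M n ∂μ := by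
              refine setLIntegral_mono_ae aemeasurable_const (Eventually.of_forall fun x hx => ?_)
              obtain ⟨hxΩ, -, hfW⟩ := hD x hx.1
              have : x ∈ K n := by rw [← hx.2]; exact hmK x hxΩ
              exact hfW.trans (hWM n x this)
          _ = M n * μ (S n) := setLIntegral_const _ _
          _ ≤ M n * μ (cthickening (t n) Z ∩ K n) := by
              gcongr
              intro x hx
              obtain ⟨hxΩ, hdist, -⟩ := hD x hx.1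
              refine ⟨?_, by rw [← hx.2]; exact hmK x hxΩ⟩
              have h5 : infDist x Z ≤ t n := by rw [← hx.2]; exact hdist.trans (hbT x)
              rw [mem_cthickening_iff, ← ENNReal.ofReal_toReal (infEDist_ne_top hZne)]
              exact ENNReal.ofReal_le_ofReal h5
          _ ≤ ε' n := hMt n
    _ ≤ ε := hsum.le

/-- a locally finite (discrete, relatively closed) set is countable -/
theorem countable_of_discrete {Ω V : Set E} (hV : V ⊆ Ω)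
    (hVd : ∀ x ∈ Ω, ∃ r > 0, ball x r ∩ V ⊆ {x}) : V.Countable := by
  have hprop : ProperSpace E := FiniteDimensional.proper_real E
  have hdisc : DiscreteTopology V := by
    rw [discreteTopology_subtype_iff]
    intro x hx
    obtain ⟨r, hr, h⟩ := hVd x (hV hx)
    rw [← disjoint_iff]
    rw [disjoint_principal_right]
    rw [mem_nhdsWithin]
    refine ⟨ball x r, isOpen_ball, mem_ball_self hr, ?_⟩
    rintro y ⟨hy1, hy2⟩ hyV
    exact hy2 (h ⟨hy1, hyV⟩)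
  have : SecondCountableTopology E := inferInstance
  have : Countable V := TopologicalSpace.separableSpace_iff_countable.1 inferInstance
  exact this.to_set

/-- small neighbourhoods of a discrete set -/
theorem exists_small_pts [Nontrivial E] [μ.IsAddHaarMeasure] {Ω V : Set E} (hV : V ⊆ Ω)
    (hVd : ∀ x ∈ Ω, ∃ r > 0, ball x r ∩ V ⊆ {x}) {W : E → E → ℝ≥0∞}
    (hW : ∀ v ∈ V, ∃ r > 0, ∃ M : ℝ≥0∞, M ≠ ⊤ ∧ ∀ y ∈ ball v r, W v y ≤ M)
    {ε : ℝ≥0∞} (hε : ε ≠ 0) :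
    ∃ b : E → ℝ, LBB Ω b ∧ ∀ (D : Set E) (f : E → ℝ≥0∞),
      (∀ x ∈ D, ∃ v ∈ V, ‖x - v‖ ≤ b v ∧ f x ≤ W v x) → ∫⁻ x in D, f x ∂μ ≤ ε := by
  classical
  have hprop : ProperSpace E := FiniteDimensional.proper_real E
  have hVc : V.Countable := countable_of_discrete hV hVd
  have : Countable V := hVc.to_subtype
  obtain ⟨ε', hε', hsum⟩ := ENNReal.exists_pos_sum_of_countable' hε V
  have h1 : ∀ v : V, ∃ t : ℝ, 0 < t ∧ ∃ M : ℝ≥0∞, (∀ y ∈ closedBall (v : E) t, W v y ≤ M) ∧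
      M * μ (closedBall (v : E) t) ≤ ε' v := by
    intro v
    obtain ⟨r, hr, M, hM, hWM⟩ := hW v v.2
    obtain ⟨d, hd, hdM⟩ := ENNReal.exists_nnreal_pos_mul_lt hM (hε' v).ne'
    have ht : Tendsto (fun r => μ (cthickening r {(v : E)})) (𝓝 0) (𝓝 (μ (closure {(v : E)}))) :=
      tendsto_measure_cthickening ⟨1, one_pos, by
        rw [cthickening_singleton _ zero_le_one]; exact measure_closedBall_lt_top.ne⟩
    rw [closure_singleton, measure_singleton] at ht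
    have hd' : (0 : ℝ≥0∞) < (d : ℝ≥0∞) := by exact_mod_cast hd
    have h2 : ∀ᶠ t : ℝ in 𝓝 0, μ (cthickening t {(v : E)}) < d := ht.eventually_lt_const hd'
    have h3 : ∀ᶠ t : ℝ in 𝓝 0, t < r := eventually_lt_nhds hr
    obtain ⟨t, ⟨ht1, ht3⟩, ht2⟩ := (((h2.and h3).filter_mono nhdsWithin_le_nhds).and
      (self_mem_nhdsWithin : Ioi (0:ℝ) ∈ 𝓝[>] 0)).exists
    refine ⟨t, ht2, M, fun y hy => hWM y (closedBall_subset_ball ht3 hy), ?_⟩
    rw [cthickening_singleton _ (le_of_lt ht2)] at ht1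
    calc M * μ (closedBall (v : E) t) ≤ M * d := by gcongr
      _ = d * M := mul_comm _ _
      _ ≤ ε' v := hdM.le
  choose t ht M hWM hMt using h1
  refine ⟨fun x => if hx : x ∈ V then t ⟨x, hx⟩ else 1, ?_, fun D f hD => ?_⟩
  · intro x hx
    obtain ⟨r, hr, hrV⟩ := hVd x hx
    refine ⟨if hx : x ∈ V then min (t ⟨x, hx⟩) 1 else 1, ?_, ?_⟩
    · split_ifs with h
      · exact lt_min (ht _) one_pos
      · exact one_pos
    · filter_upwards [ball_mem_nhds x hr] with y hy _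
      by_cases hyV : y ∈ V
      · have hyx : y = x := hrV ⟨hy, hyV⟩
        subst hyx
        simp only [hyV, dif_pos]
        exact min_le_left _ _
      · simp only [hyV, dif_neg, not_false_eq_true]
        split_ifs with h
        · exact min_le_right _ _
        · exact le_rfl
  · set S : V → Set E := fun v => {x | x ∈ D ∧ ‖x - v‖ ≤ t v ∧ f x ≤ W v x} with hS
    have hcov : D ⊆ ⋃ v, S v := fun x hx => by
      obtain ⟨v, hv, h5, h6⟩ := hD x hx
      simp only [hv, dif_pos] at h5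
      exact mem_iUnion.2 ⟨⟨v, hv⟩, hx, h5, h6⟩
    calc ∫⁻ x in D, f x ∂μ ≤ ∫⁻ x in ⋃ n, S n, f x ∂μ := lintegral_mono_set hcov
      _ ≤ ∑' n, ∫⁻ x in S n, f x ∂μ := lintegral_iUnion_le _ _
      _ ≤ ∑' n, ε' n := by
          refine ENNReal.tsum_le_tsum fun n => ?_
          calc ∫⁻ x in S n, f x ∂μ ≤ ∫⁻ x in S n, M n ∂μ := by
                refine setLIntegral_mono_ae aemeasurable_const
                  (Eventually.of_forall fun x hx => ?_)
                refine hx.2.2.trans (hWM n x ?_)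
                rw [mem_closedBall, dist_eq_norm]; exact hx.2.1
            _ = M n * μ (S n) := setLIntegral_const _ _
            _ ≤ M n * μ (closedBall (n : E) (t n)) := by
                gcongr
                intro x hx
                rw [mem_closedBall, dist_eq_norm]; exact hx.2.1
            _ ≤ ε' n := hMt n
      _ ≤ ε := hsum.le

end Crest.Agent.R096.Asm_119
end

-- ▼ part R096/Asm2_119
section

/-!
# P5-ASM-B, part 2 (helper119, row 96): GERM + StageEdge + StageVertex + MOLL ⟹ P5 (raw form)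
-/

set_option autoImplicit false
set_option linter.unusedSectionVars false

open MeasureTheory Metric Set Filter Topology
open scoped ENNReal NNReal ContDiff

namespace Crest.Agent.R096.Asm_119

open Crest.Agent.R096.Mo_119
open Crest.Agent.R096.P5Spec_205 (HomeoOn Germs StageEdge StageVertex Conic)

section
variable {E : Type*} [NormedAddCommGroup E] [NormedSpace ℝ E]

/-- a continuous selection of finitely many linear maps is Lipschitz -/
theorem lip_of_sel {H : E → E} (hc : Continuous H) {S : Finset (E →L[ℝ] E)}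
    (hS : ∀ x, ∃ A ∈ S, H x = A x) : ∃ M : ℝ≥0, LipschitzWith M H := by
  refine ⟨∑ A ∈ S, ‖A‖₊, LipschitzWith.of_dist_le_mul ?_⟩
  have key := Fp_812.dist_le_of_cover (fun A : S => {x | H x = A.1 x})
    (fun A => isClosed_eq hc A.1.continuous) (fun x => by
      obtain ⟨A, hA, h⟩ := hS x
      exact ⟨⟨A, hA⟩, h⟩) H (∑ A ∈ S, ‖A‖) (fun A x hx y hy => by
      simp only [mem_ofPred_eq] at hx hy
      rw [hx, hy, dist_eq_norm, ← map_sub, dist_eq_norm]
      refine (A.1.le_opNorm _).trans (mul_le_mul_of_nonneg_right ?_ (norm_nonneg _))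
      exact Finset.single_le_sum (f := fun A : E →L[ℝ] E => ‖A‖) (fun _ _ => norm_nonneg _) A.2)
  intro x y
  refine (key x y).trans (le_of_eq ?_)
  congr 1
  push_cast
  rfl

end

section
variable {E : Type*} [NormedAddCommGroup E] [InnerProductSpace ℝ E] [FiniteDimensional ℝ E]
  [MeasureSpace E] [BorelSpace E] [(volume : Measure E).IsAddHaarMeasure]

theorem ae_diff_of_moll {h : E → E} {Om V : Set E}
    (hm : ∀ x ∈ Om, x ∉ V → P5Spec_205.MollAt h x) (hV : volume V = 0) :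
    ∀ᵐ x ∂(volume : Measure E), x ∈ Om → DifferentiableAt ℝ h x := by
  set N : Set E := {x | x ∈ Om ∧ x ∉ V ∧ ¬ DifferentiableAt ℝ h x} with hN
  have h0 : volume N = 0 := by
    refine measure_null_of_locally_null N fun x hx => ?_
    obtain ⟨r, hr, hae⟩ := (mollAt_iff.2 (hm x hx.1 hx.2.1)).ae_differentiable
    refine ⟨ball x r ∩ N, inter_mem (mem_nhdsWithin_of_mem_nhds (ball_mem_nhds x hr))
      self_mem_nhdsWithin, ?_⟩
    refine measure_mono_null ?_ (ae_iff.1 hae)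
    rintro y ⟨hy1, hy2⟩
    simp only [mem_ofPred_eq, Classical.not_imp]
    exact ⟨hy1, hy2.2.2⟩
  have h1 : ∀ᵐ x ∂(volume : Measure E), x ∉ N := measure_eq_zero_iff_ae_notMem.1 h0
  have h2 : ∀ᵐ x ∂(volume : Measure E), x ∉ V := measure_eq_zero_iff_ae_notMem.1 hV
  filter_upwards [h1, h2] with x hx1 hx2 hx
  by_contra hcon
  exact hx1 ⟨hx, hx2, hcon⟩

/-- local Lipschitz bound from the germs -/
theorem germs_lip {h : E → E} {Om V Z : Set E} {G : E → E → E} {e : E → E}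
    (hG : Germs h Om V Z G e) : ∀ x ∈ Om, ∃ r > 0, ∃ M : ℝ≥0, LipschitzOnWith M h (ball x r) := by
  intro p hp
  obtain ⟨r, hr, hball, hr2⟩ := hG.germ p hp
  obtain ⟨S, hS⟩ := hG.pl p hp
  obtain ⟨M, hM⟩ := lip_of_sel (hG.homeo p hp).continuous hS
  refine ⟨r, hr, M, LipschitzOnWith.of_dist_le_mul fun y hy z hz => ?_⟩
  have h1 := hr2 (y - p) (by rw [← dist_eq_norm]; exact hy)
  have h2 := hr2 (z - p) (by rw [← dist_eq_norm]; exact hz)
  rw [add_sub_cancel] at h1 h2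
  rw [h1, h2, dist_add_left]
  refine (hM.dist_le_mul _ _).trans (le_of_eq ?_)
  rw [dist_sub_right]

theorem germs_discrete {h : E → E} {Om V Z : Set E} {G : E → E → E} {e : E → E}
    (hG : Germs h Om V Z G e) : ∀ x ∈ Om, ∃ r > 0, ball x r ∩ V ⊆ {x} := by
  intro q hq
  obtain ⟨r, hr, hball, hr2⟩ := hG.germ q hq
  refine ⟨r, hr, ?_⟩
  rintro y ⟨hy1, hy2⟩
  by_contra hne
  have hne' : y - q ≠ 0 := sub_ne_zero.2 hne
  have := (hG.cone q hq r hr hball hr2 (y - q) hne' (by rw [← dist_eq_norm]; exact hy1)).1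
  rw [add_sub_cancel] at this
  exact this hy2


theorem germs_null (hdim : 2 ≤ Module.finrank ℝ E) {h : E → E} {Om V Z : Set E}
    {G : E → E → E} {e : E → E} (hG : Germs h Om V Z G e) : volume Z = 0 := by
  have : Nontrivial E := Module.nontrivial_of_finrank_pos (R := ℝ) (by omega)
  have hV0 : volume V = 0 :=
    (countable_of_discrete (hG.V_sub.trans hG.Z_sub) (germs_discrete hG)).measure_zero _
  have h1 : volume (Z \ V) = 0 := by
    refine measure_null_of_locally_null _ fun p hp => ?_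
    have hpO := hG.Z_sub hp.1
    obtain ⟨r, hr, hball, hr2⟩ := hG.germ p hpO
    refine ⟨ball p r ∩ (Z \ V), inter_mem (mem_nhdsWithin_of_mem_nhds (ball_mem_nhds p hr))
      self_mem_nhdsWithin, ?_⟩
    set A : AffineSubspace ℝ E := AffineSubspace.mk' p (Submodule.span ℝ {e p}) with hA
    have hAt : A ≠ ⊤ := by
      intro htop
      have h3 : A.direction = ⊤ := by rw [htop]; exact AffineSubspace.direction_top ℝ E E
      rw [hA, AffineSubspace.direction_mk'] at h3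
      have h4 : Module.finrank ℝ (Submodule.span ℝ {e p}) ≤ 1 := by
        have := finrank_span_le_card (R := ℝ) ({e p} : Set E)
        simpa using this
      rw [h3, finrank_top] at h4
      omega
    refine measure_mono_null ?_ (Measure.addHaar_affineSubspace volume A hAt)
    rintro y ⟨hy1, hy2⟩
    have h5 := (hG.edge_line p hp.1 hp.2 r hr hball hr2 (y - p)
      (by rw [← dist_eq_norm]; exact hy1)).1
    rw [add_sub_cancel] at h5
    obtain ⟨s, hs⟩ := h5.1 hy2.1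
    rw [hA, SetLike.mem_coe, AffineSubspace.mem_mk', vsub_eq_sub, hs]
    exact Submodule.smul_mem _ _ (Submodule.mem_span_singleton_self _)
  exact measure_mono_null (fun x hx => by
    by_cases hxV : x ∈ V
    · exact Or.inl hxV
    · exact Or.inr ⟨hx, hxV⟩) (measure_union_null hV0 h1)

omit [FiniteDimensional ℝ E] [MeasureSpace E] [BorelSpace E]
  [(volume : Measure E).IsAddHaarMeasure] in
theorem enorm_fderiv_le {f : E → E} {x : E} {C : ℝ}
    (h : ∃ r > 0, ∀ y ∈ ball x r, ∀ z ∈ ball x r, ‖f y - f z‖ ≤ C * ‖y - z‖) :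
    ‖fderiv ℝ f x‖ₑ ≤ ENNReal.ofReal C := by
  obtain ⟨r, hr, h⟩ := h
  have hL : LipschitzOnWith C.toNNReal f (ball x r) := by
    refine LipschitzOnWith.of_dist_le_mul fun y hy z hz => ?_
    rw [dist_eq_norm, dist_eq_norm]
    exact (h y hy z hz).trans (mul_le_mul_of_nonneg_right (Real.le_coe_toNNReal C) (norm_nonneg _))
  have h1 := norm_fderiv_le_of_lipschitzOn ℝ (ball_mem_nhds x hr) hL
  rw [← ofReal_norm]
  exact ENNReal.ofReal_le_ofReal_iff'.2 (by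
    rw [Real.coe_toNNReal'] at h1
    rcases le_max_iff.1 h1 with h2 | h2
    · exact Or.inl h2
    · exact Or.inr h2)

omit [FiniteDimensional ℝ E] [MeasureSpace E] [BorelSpace E]
  [(volume : Measure E).IsAddHaarMeasure] in
theorem enorm_sub_rpow_le {p : ℝ} (hp : 1 ≤ p) (a b c : E →L[ℝ] E) :
    ‖a - c‖ₑ ^ p ≤ 2 ^ (p - 1) * (‖a - b‖ₑ ^ p + ‖b - c‖ₑ ^ p) := by
  have h1 : ‖a - c‖ₑ ≤ ‖a - b‖ₑ + ‖b - c‖ₑ := by
    have : a - c = (a - b) + (b - c) := by abel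
    rw [this]; exact enorm_add_le (a - b) (b - c)
  exact (ENNReal.rpow_le_rpow h1 (by linarith)).trans
    (ENNReal.rpow_add_le_mul_rpow_add_rpow _ _ hp)

/-- integral of the difference of the derivatives is carried by the set where the maps differ -/
theorem lintegral_diff_le {f g : E → E} {Om : Set E} (hOm : IsOpen Om)
    (hf : ContinuousOn f Om) (hg : ContinuousOn g Om)
    (hfd : ∀ᵐ x ∂(volume : Measure E), x ∈ Om → DifferentiableAt ℝ f x)
    (hgd : ∀ᵐ x ∂(volume : Measure E), x ∈ Om → DifferentiableAt ℝ g x) {p : ℝ} (hp : 1 ≤ p) :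
    ∫⁻ x in Om, ‖fderiv ℝ f x - fderiv ℝ g x‖ₑ ^ p ≤
      ∫⁻ x in {x | x ∈ Om ∧ f x ≠ g x}, ‖fderiv ℝ f x - fderiv ℝ g x‖ₑ ^ p := by
  set D : Set E := {x | x ∈ Om ∧ f x ≠ g x} with hD
  set D' : Set E := {x | x ∈ Om ∧ f x = g x} with hD'
  have hDo : IsOpen D := by
    have h1 : IsOpen (Om ∩ (fun x => (f x, g x)) ⁻¹' {q : E × E | q.1 ≠ q.2}) :=
      (hf.prodMk hg).isOpen_inter_preimage hOm (isOpen_ne_fun continuous_fst continuous_snd)
    exact h1
  have hD'm : MeasurableSet D' := by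
    have : D' = Om \ D := by
      ext x; simp only [hD', hD, mem_ofPred_eq, Set.mem_sdiff, ne_eq, not_and, not_not]
      tauto
    rw [this]; exact hOm.measurableSet.diff hDo.measurableSet
  have hun : Om ⊆ D' ∪ D := fun x hx => by
    by_cases h : f x = g x
    · exact Or.inl ⟨hx, h⟩
    · exact Or.inr ⟨hx, h⟩
  have h0 : ∫⁻ x in D', ‖fderiv ℝ f x - fderiv ℝ g x‖ₑ ^ p = 0 := by
    have h1 := ae_fderiv_eq_of_eq (μ := volume) hD'm (fun x hx => hx.2)
      (hfd.mono fun x hx hx' => hx hx'.1) (hgd.mono fun x hx hx' => hx hx'.1)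
    rw [setLIntegral_congr_fun_ae hD'm (g := fun _ => 0) (h1.mono fun x hx hx' => by
      rw [hx hx', sub_self, enorm_zero, ENNReal.zero_rpow_of_pos (by linarith)])]
    simp
  calc ∫⁻ x in Om, ‖fderiv ℝ f x - fderiv ℝ g x‖ₑ ^ p
      ≤ ∫⁻ x in D' ∪ D, ‖fderiv ℝ f x - fderiv ℝ g x‖ₑ ^ p := lintegral_mono_set hun
    _ ≤ (∫⁻ x in D', ‖fderiv ℝ f x - fderiv ℝ g x‖ₑ ^ p) +
        ∫⁻ x in D, ‖fderiv ℝ f x - fderiv ℝ g x‖ₑ ^ p := lintegral_union_le _ _ _
    _ = _ := by rw [h0, zero_add]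

/-- the conclusion of `StageEdge` for one homeomorphism with germ data -/
def EdgeOut (h : E → E) (Om La V Z : Set E) : Prop :=
    ∃ (C : E → ℝ) (K : E → E → E), (∀ x ∈ Om, ∃ r > 0, ∃ M, ∀ y ∈ ball x r ∩ Om, C y ≤ M) ∧
    ∀ η : E → ℝ, ContinuousOn η Om → (∀ x ∈ Om, 0 < η x) →
      ∃ h₂ : E → E, HomeoOn h₂ Om La ∧
        (∀ x ∈ Om, x ∉ V → P5Spec_205.MollAt h₂ x) ∧
        (∀ v ∈ V, ∃ r > 0, ball v r ⊆ Om ∧ ∀ u, ‖u‖ < r → h₂ (v + u) = h₂ v + K v u) ∧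
        (∀ v ∈ V, IsHomeomorph (K v) ∧ Conic (K v) ∧
          ∀ x, x ≠ 0 → P5Spec_205.MollAt (K v) x) ∧
        (∀ x ∈ Om, ‖h₂ x - h x‖ ≤ η x) ∧
        (∀ x ∈ Om, h₂ x ≠ h x → infDist x Z ≤ η x) ∧
        (∀ x ∈ Om, ∃ r > 0, ∀ y ∈ ball x r, ∀ z ∈ ball x r, ‖h₂ y - h₂ z‖ ≤ C x * ‖y - z‖)

/-- **P5-ASM-B, core form**: the edge stage is only needed for the given homeomorphism. -/
theorem asm_core (hSV : StageVertex E) (hdim : 2 ≤ Module.finrank ℝ E)
    {h : E → E} {Om La V Z : Set E} {G : E → E → E} {e : E → E}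
    (hOm : IsOpen Om) (hLa : IsOpen La) (hLc : IsPreconnected La) (hh : HomeoOn h Om La)
    (hG : Germs h Om V Z G e) (hZc : ∀ x ∈ Om, x ∉ Z → ∃ r > 0, ∀ y ∈ ball x r, y ∉ Z)
    (hEO : EdgeOut h Om La V Z)
    {δ : E → ℝ} (hδc : ContinuousOn δ Om) (hδ : ∀ x ∈ Om, 0 < δ x) {p : ℝ} (hp : 1 ≤ p)
    {ε : ℝ≥0∞} (hε : ε ≠ 0) :
    ∃ g : E → E, ContDiffOn ℝ ∞ g Om ∧ (∀ x ∈ Om, 0 < (fderiv ℝ g x).det) ∧ BijOn g Om La ∧
      (∀ x ∈ Om, ‖g x - h x‖ ≤ δ x) ∧
      ∫⁻ x in Om, ‖fderiv ℝ g x - fderiv ℝ h x‖ₑ ^ p ≤ ε := by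
  have hNt : Nontrivial E := Module.nontrivial_of_finrank_pos (R := ℝ) (by omega)
  have hp0 : 0 < p := by linarith
  -- the tolerance
  set κ : ℝ≥0∞ := 2 ^ (p - 1) with hκ
  have hκt : κ ≠ ⊤ := ENNReal.rpow_ne_top_of_nonneg (by linarith) (by norm_num)
  have hκ' : κ * (1 + κ * 2) ≠ ⊤ := by
    refine ENNReal.mul_ne_top hκt (ENNReal.add_ne_top.2 ⟨ENNReal.one_ne_top,
      ENNReal.mul_ne_top hκt (by norm_num)⟩)
  obtain ⟨t, ht, htε⟩ := ENNReal.exists_nnreal_pos_mul_lt hκ' hε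
  have ht0 : (t : ℝ≥0∞) ≠ 0 := by exact_mod_cast ht.ne'
  have hδ3c : ContinuousOn (fun x => δ x / 3) Om := hδc.div_const 3
  have hδ3 : ∀ x ∈ Om, 0 < δ x / 3 := fun x hx => by have := hδ x hx; positivity
  have hVO : V ⊆ Om := hG.V_sub.trans hG.Z_sub
  have hVd := germs_discrete hG
  have hV0 : volume V = 0 := (countable_of_discrete hVO hVd).measure_zero _
  have hZ0 : volume Z = 0 := germs_null hdim hG
  by_cases hZne : Z.Nonempty
  swap
  · rw [not_nonempty_iff_eq_empty] at hZne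
    exact moll_homeoOn hOm hLa hLc hh (fun x hx => hG.moll x hx (by rw [hZne]; exact notMem_empty x))
      hδc hδ hp hε
  -- stage 1: edges
  obtain ⟨C, K, hC, hη⟩ := hEO
  have hC' : ∀ x ∈ Om, ∃ r > 0, ∃ M : ℝ≥0∞, M ≠ ⊤ ∧ ∀ y ∈ ball x r ∩ Om,
      ENNReal.ofReal (C y) ≤ M := by
    intro x hx
    obtain ⟨r, hr, M, hM⟩ := hC x hx
    exact ⟨r, hr, ENNReal.ofReal M, ENNReal.ofReal_ne_top, fun y hy =>
      ENNReal.ofReal_le_ofReal (hM y hy)⟩
  have hDh : ∀ x ∈ Om, ∃ r > 0, ∃ M : ℝ≥0, ∀ y ∈ ball x r, ‖fderiv ℝ h y‖ₑ ≤ M := by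
    intro x hx
    obtain ⟨r, hr, M, hM⟩ := germs_lip hG x hx
    refine ⟨r, hr, M, fun y hy => ?_⟩
    have h1 := norm_fderiv_le_of_lipschitzOn ℝ (isOpen_ball.mem_nhds hy) hM
    rw [← ofReal_norm, ← ENNReal.ofReal_coe_nnreal]
    exact ENNReal.ofReal_le_ofReal h1
  have stage1 : ∃ h₂ : E → E, HomeoOn h₂ Om La ∧
        (∀ x ∈ Om, x ∉ V → P5Spec_205.MollAt h₂ x) ∧
        (∀ v ∈ V, ∃ r > 0, ball v r ⊆ Om ∧ ∀ u, ‖u‖ < r → h₂ (v + u) = h₂ v + K v u) ∧
        (∀ v ∈ V, IsHomeomorph (K v) ∧ Conic (K v) ∧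
          ∀ x, x ≠ 0 → P5Spec_205.MollAt (K v) x) ∧
        (∀ x ∈ Om, ‖h₂ x - h x‖ ≤ δ x / 3) ∧
        (∀ x ∈ Om, ‖fderiv ℝ h₂ x‖ₑ ≤ ENNReal.ofReal (C x)) ∧
        ∫⁻ x in Om, ‖fderiv ℝ h₂ x - fderiv ℝ h x‖ₑ ^ p ≤ t := by
    have hdh : ∀ᵐ x ∂(volume : Measure E), x ∈ Om → DifferentiableAt ℝ h x :=
      ae_diff_of_moll hG.moll hZ0
    set W : E → ℝ≥0∞ := fun x => (ENNReal.ofReal (C x) + ‖fderiv ℝ h x‖ₑ) ^ p with hW
    have hWb : ∀ x ∈ Om, ∃ r > 0, ∃ M : ℝ≥0∞, M ≠ ⊤ ∧ ∀ y ∈ ball x r ∩ Om, W y ≤ M := by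
      intro x hx
      obtain ⟨r₁, hr₁, M₁, hM₁, h1⟩ := hC' x hx
      obtain ⟨r₂, hr₂, M₂, h2⟩ := hDh x hx
      refine ⟨min r₁ r₂, lt_min hr₁ hr₂, (M₁ + M₂) ^ p,
        ENNReal.rpow_ne_top_of_nonneg hp0.le (ENNReal.add_ne_top.2 ⟨hM₁, ENNReal.coe_ne_top⟩),
        fun y hy => ?_⟩
      have h3 := h1 y ⟨ball_subset_ball (min_le_left _ _) hy.1, hy.2⟩
      have h4 := h2 y (ball_subset_ball (min_le_right _ _) hy.1)
      simp only [hW]
      gcongr
    obtain ⟨b, hb, hbD⟩ := exists_small_nbhd (μ := volume) hOm hZne hZc hZ0 hWb ht0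
    obtain ⟨η, hηs, -, hηpos, hηb, -, -⟩ := exists_radius hOm
      (hb.inf_min (LBB.of_continuousOn hOm hδ3c hδ3))
    obtain ⟨h₂, k1, k2, k3, k4, k5, k6, k7⟩ := hη η hηs.continuous.continuousOn hηpos
    have k7' : ∀ x ∈ Om, ‖fderiv ℝ h₂ x‖ₑ ≤ ENNReal.ofReal (C x) := fun x hx =>
      enorm_fderiv_le (k7 x hx)
    refine ⟨h₂, k1, k2, k3, k4, fun x hx => (k5 x hx).trans ((hηb x hx).trans
      (min_le_right _ _)), k7', ?_⟩
    refine (lintegral_diff_le hOm k1.cont hh.cont (ae_diff_of_moll k2 hV0) hdh hp).trans ?_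
    refine hbD _ _ fun x hx => ⟨hx.1, (k6 x hx.1 hx.2).trans ((hηb x hx.1).trans
      (min_le_left _ _)), ?_⟩
    simp only [hW]
    gcongr
    exact enorm_sub_le.trans (add_le_add (k7' x hx.1) le_rfl)
  obtain ⟨h₂, k1, k2, k3, k4, k5, k6, k7⟩ := stage1
  -- stage 2: vertices
  obtain ⟨C₃, hC₃⟩ := hSV h₂ Om La V K hOm hLa k1 hVO hVd k2 k3 k4
  obtain ⟨b, hb, hbD⟩ := exists_small_pts (μ := volume) hVO hVd
    (W := fun v x => (ENNReal.ofReal (C₃ v) + (ENNReal.ofReal (C x) + indicator Omᶜ (fun _ => ⊤) x)) ^ p)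
    (fun v hv => by
      obtain ⟨r, hr, M, hM, h1⟩ := hC' v (hVO hv)
      obtain ⟨s, hs, hsO⟩ := Metric.isOpen_iff.1 hOm v (hVO hv)
      refine ⟨min r s, lt_min hr hs, (ENNReal.ofReal (C₃ v) + (M + 0)) ^ p,
        ENNReal.rpow_ne_top_of_nonneg hp0.le (ENNReal.add_ne_top.2 ⟨ENNReal.ofReal_ne_top,
          ENNReal.add_ne_top.2 ⟨hM, ENNReal.zero_ne_top⟩⟩), fun y hy => ?_⟩
      have hyO : y ∈ Om := hsO (ball_subset_ball (min_le_right _ _) hy)
      have h3 := h1 y ⟨ball_subset_ball (min_le_left _ _) hy, hyO⟩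
      rw [indicator_of_notMem (by simpa using hyO)]
      gcongr) ht0
  obtain ⟨η, hηs, -, hηpos, hηb, -, -⟩ := exists_radius hOm
    (hb.inf_min (LBB.of_continuousOn hOm hδ3c hδ3))
  obtain ⟨h₃, l1, l2, l3, l4⟩ := hC₃ η hηs.continuous.continuousOn hηpos
  have l5 : ∫⁻ x in Om, ‖fderiv ℝ h₃ x - fderiv ℝ h₂ x‖ₑ ^ p ≤ t := by
    refine (lintegral_diff_le hOm l1.cont k1.cont
      (ae_diff_of_moll (V := ∅) (fun x hx _ => l2 x hx) measure_empty)
      (ae_diff_of_moll k2 hV0) hp).trans ?_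
    refine hbD _ _ fun x hx => ?_
    obtain ⟨v, hv, -, h2, h3⟩ := l4 x hx.1 hx.2
    refine ⟨v, hv, h2.trans ((hηb v (hVO hv)).trans (min_le_left _ _)), ?_⟩
    rw [indicator_of_notMem (by simpa using hx.1), add_zero]
    gcongr
    exact enorm_sub_le.trans (add_le_add (enorm_fderiv_le h3) (k6 x hx.1))
  -- stage 3: mollification
  obtain ⟨g, g1, g2, g3, g4, g5⟩ := moll_homeoOn hOm hLa hLc l1 l2 hδ3c hδ3 hp ht0
  refine ⟨g, g1, g2, g3, fun x hx => ?_, ?_⟩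
  · have e1 := g4 x hx
    have e2 := (l3 x hx).trans ((hηb x hx).trans (min_le_right _ _))
    have e3 := k5 x hx
    calc ‖g x - h x‖ = ‖(g x - h₃ x) + (h₃ x - h₂ x) + (h₂ x - h x)‖ := by congr 1; abel
      _ ≤ ‖g x - h₃ x‖ + ‖h₃ x - h₂ x‖ + ‖h₂ x - h x‖ := norm_add₃_le
      _ ≤ δ x / 3 + δ x / 3 + δ x / 3 := by gcongr
      _ = δ x := by ring
  · have hm : ∀ f : E → E, Measurable fun x => fderiv ℝ f x := fun f => measurable_fderiv ℝ f
    have hm2 : ∀ f₁ f₂ : E → E, Measurable fun x => ‖fderiv ℝ f₁ x - fderiv ℝ f₂ x‖ₑ ^ p :=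
      fun f₁ f₂ => ((hm f₁).sub (hm f₂)).enorm.pow_const p
    calc ∫⁻ x in Om, ‖fderiv ℝ g x - fderiv ℝ h x‖ₑ ^ p
        ≤ ∫⁻ x in Om, κ * (‖fderiv ℝ g x - fderiv ℝ h₃ x‖ₑ ^ p +
            κ * (‖fderiv ℝ h₃ x - fderiv ℝ h₂ x‖ₑ ^ p +
              ‖fderiv ℝ h₂ x - fderiv ℝ h x‖ₑ ^ p)) := by
          refine lintegral_mono fun x => ?_
          refine (enorm_sub_rpow_le hp _ (fderiv ℝ h₃ x) _).trans ?_
          gcongr
          exact enorm_sub_rpow_le hp _ (fderiv ℝ h₂ x) _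
      _ = κ * ((∫⁻ x in Om, ‖fderiv ℝ g x - fderiv ℝ h₃ x‖ₑ ^ p) +
            κ * ((∫⁻ x in Om, ‖fderiv ℝ h₃ x - fderiv ℝ h₂ x‖ₑ ^ p) +
              ∫⁻ x in Om, ‖fderiv ℝ h₂ x - fderiv ℝ h x‖ₑ ^ p)) := by
          rw [lintegral_const_mul' _ _ hκt, lintegral_add_left (hm2 _ _),
            lintegral_const_mul' _ _ hκt, lintegral_add_left (hm2 _ _)]
      _ ≤ κ * (t + κ * (t + t)) := by gcongr
      _ = t * (κ * (1 + κ * 2)) := by ring
      _ ≤ ε := htε.le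

/-- **P5-ASM-B**: the P5 step from the germs, the two stages and the mollification theorem. -/
theorem asm (hSE : StageEdge E) (hSV : StageVertex E) (hdim : 2 ≤ Module.finrank ℝ E)
    {h : E → E} {Om La V Z : Set E} {G : E → E → E} {e : E → E}
    (hOm : IsOpen Om) (hLa : IsOpen La) (hLc : IsPreconnected La) (hh : HomeoOn h Om La)
    (hG : Germs h Om V Z G e) (hZc : ∀ x ∈ Om, x ∉ Z → ∃ r > 0, ∀ y ∈ ball x r, y ∉ Z)
    {δ : E → ℝ} (hδc : ContinuousOn δ Om) (hδ : ∀ x ∈ Om, 0 < δ x) {p : ℝ} (hp : 1 ≤ p)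
    {ε : ℝ≥0∞} (hε : ε ≠ 0) :
    ∃ g : E → E, ContDiffOn ℝ ∞ g Om ∧ (∀ x ∈ Om, 0 < (fderiv ℝ g x).det) ∧ BijOn g Om La ∧
      (∀ x ∈ Om, ‖g x - h x‖ ≤ δ x) ∧
      ∫⁻ x in Om, ‖fderiv ℝ g x - fderiv ℝ h x‖ₑ ^ p ≤ ε :=
  asm_core hSV hdim hOm hLa hLc hh hG hZc (hSE h Om La V Z G e hOm hLa hh hG) hδc hδ hp hε

end

end Crest.Agent.R096.Asm_119
end

-- ▼ part R096/Top1_696
section

/-!
Row 96 (S0127), helper696.  TOP: `PLA p` and `P5 p` give the statement S0127 for the exponent `p`.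
-/

set_option autoImplicit false
set_option linter.unusedSectionVars false
set_option linter.style.longLine false

open MeasureTheory Set Filter Topology Metric
open scoped ENNReal Gradient NNReal
open Crest.AnalysisR.VecCalc3 Crest.AnalysisR.Sobolev
open Crest.Agent.R096.Sk_962

namespace Crest.Agent.R096.Top_696

lemma measurable_Gr (g : R3 → R3) (j : Fin 3) : Measurable (Gr g j) := by
  have h1 : Measurable (fun x => fderiv ℝ (fun y => g y j) x) := measurable_fderiv ℝ _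
  have h2 : Measurable (fun L : R3 →L[ℝ] ℝ => (InnerProductSpace.toDual ℝ R3).symm L) :=
    (InnerProductSpace.toDual ℝ R3).symm.continuous.measurable
  exact h2.comp h1

lemma pow_sub_le {E : Type*} [NormedAddCommGroup E] {p : ℝ} (hp : 1 ≤ p) (a b c : E) :
    ‖a - c‖ₑ ^ p ≤ 2 ^ (p - 1) * (‖a - b‖ₑ ^ p + ‖b - c‖ₑ ^ p) := by
  have h1 : ‖a - c‖ₑ ≤ ‖a - b‖ₑ + ‖b - c‖ₑ := by
    have : a - c = (a - b) + (b - c) := by abel
    rw [this]; exact enorm_add_le (a - b) (b - c)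
  exact (ENNReal.rpow_le_rpow h1 (by linarith)).trans
    (ENNReal.rpow_add_le_mul_rpow_add_rpow _ _ hp)

/-- the `W^{1,p}` error density. -/
noncomputable def er (p : ℝ) (g f : R3 → R3) (A B : Fin 3 → R3 → R3) (x : R3) : ℝ≥0∞ :=
  ‖g x - f x‖ₑ ^ p + ∑ j : Fin 3, ‖A j x - B j x‖ₑ ^ p

lemma er_triangle {p : ℝ} (hp : 1 ≤ p) (g h f : R3 → R3) (A B C : Fin 3 → R3 → R3) (x : R3) :
    er p g f A C x ≤ 2 ^ (p - 1) * (er p g h A B x + er p h f B C x) := by
  unfold er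
  have h1 := pow_sub_le hp (g x) (h x) (f x)
  have h2 : ∑ j : Fin 3, ‖A j x - C j x‖ₑ ^ p ≤
      ∑ j : Fin 3, 2 ^ (p - 1) * (‖A j x - B j x‖ₑ ^ p + ‖B j x - C j x‖ₑ ^ p) :=
    Finset.sum_le_sum fun j _ => pow_sub_le hp _ _ _
  rw [← Finset.mul_sum, Finset.sum_add_distrib] at h2
  calc _ ≤ 2 ^ (p - 1) * (‖g x - h x‖ₑ ^ p + ‖h x - f x‖ₑ ^ p) +
        2 ^ (p - 1) * (∑ j : Fin 3, ‖A j x - B j x‖ₑ ^ p + ∑ j : Fin 3, ‖B j x - C j x‖ₑ ^ p) :=
        add_le_add h1 h2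
    _ = _ := by ring

lemma memLp_of_sub {E : Type*} [NormedAddCommGroup E] {p : ℝ} (hp : 1 ≤ p)
    {μ : Measure R3} {u v : R3 → E} (hu : AEStronglyMeasurable u μ)
    (hv : MemLp v (ENNReal.ofReal p) μ) (hfin : ∫⁻ x, ‖u x - v x‖ₑ ^ p ∂μ < ⊤) :
    MemLp u (ENNReal.ofReal p) μ := by
  have hp0 : 0 < p := by linarith
  have h1 : MemLp (fun x => u x - v x) (ENNReal.ofReal p) μ := by
    refine ⟨hu.sub hv.1, ?_⟩
    rw [eLpNorm_lt_top_iff_lintegral_rpow_enorm_lt_top (by simpa using hp0) ENNReal.ofReal_ne_top,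
      ENNReal.toReal_ofReal hp0.le]
    exact hfin
  have h2 := h1.add hv
  have h3 : ((fun x => u x - v x) + v) = u := by
    funext x; simp
  rwa [h3] at h2

/-- **TOP.** -/
theorem s0127_of_p {p : ℝ} (hp : 1 ≤ p) (hPLA : PLA p) (hP5 : P5 p)
    (Ω Λ : Set R3) (hΩo : IsOpen Ω) (hΩb : Bornology.IsBounded Ω) (hΩc : IsConnected Ω)
    (hΛo : IsOpen Λ) (hΛb : Bornology.IsBounded Λ) (hΛc : IsConnected Λ)
    (f : R3 → R3) (hf : IsHomeomorphOn f Ω Λ)
    (hfp : MemLp f (ENNReal.ofReal p) (volume.restrict Ω))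
    (G : Fin 3 → R3 → R3) (hG : ∀ j : Fin 3, HasWeakGradOn Ω (fun x => f x j) (G j))
    (hGp : ∀ j : Fin 3, MemLp (G j) (ENNReal.ofReal p) (volume.restrict Ω))
    (ε : ℝ≥0∞) (hε : 0 < ε) :
    ∃ g : R3 → R3, IsSmoothDiffeoOn g Ω Λ ∧ MemLp g (ENNReal.ofReal p) (volume.restrict Ω) ∧
      (∀ j : Fin 3, MemLp (fun x => ∇ (fun y => g y j) x) (ENNReal.ofReal p) (volume.restrict Ω)) ∧
      ∫⁻ x in Ω, (‖g x - f x‖ₑ ^ p + ∑ j : Fin 3, ‖∇ (fun y => g y j) x - G j x‖ₑ ^ p) < ε := by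
  have hp0 : 0 < p := by linarith
  -- the constant
  set K : ℝ≥0∞ := 2 ^ (p - 1) with hK
  have hK0 : K ≠ 0 := by
    rw [hK]
    exact (ENNReal.rpow_pos (by norm_num) (by norm_num)).ne'
  have hKt : K ≠ ⊤ := by
    rw [hK]
    exact ENNReal.rpow_ne_top_of_nonneg (by linarith) (by norm_num)
  set ε' : ℝ≥0∞ := min ε 1 with hε'
  have hε'0 : ε' ≠ 0 := (lt_min hε (by norm_num)).ne'
  have hε't : ε' ≠ ⊤ := ((min_le_right ε 1).trans_lt ENNReal.one_lt_top).ne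
  set ε₁ : ℝ≥0∞ := K⁻¹ * (ε' / 2) with hε₁
  have hε₁0 : 0 < ε₁ := by
    rw [hε₁]
    refine ENNReal.mul_pos (ENNReal.inv_ne_zero.2 hKt) (ENNReal.div_pos hε'0 (by norm_num)).ne'
  have hKε : K * (ε₁ + ε₁) = ε' := by
    rw [← two_mul, hε₁]
    calc K * (2 * (K⁻¹ * (ε' / 2))) = (K * K⁻¹) * (2 * (ε' / 2)) := by ring
      _ = ε' := by
        rw [ENNReal.mul_inv_cancel hK0 hKt, one_mul, ENNReal.mul_div_cancel (by norm_num) (by norm_num)]
  obtain ⟨h, hh, hhPL, hhε⟩ := hPLA Ω Λ f G hΩo hΩb hΩc hΛo hΛb hΛc ⟨hf, hfp, hG, hGp⟩ ε₁ hε₁0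
  obtain ⟨g, hg, hgε⟩ := hP5 Ω Λ h hΩo hΩb hΩc hΛo hΛb hΛc hh hhPL ε₁ hε₁0
  -- continuity
  have hgc : ContinuousOn g Ω := by
    obtain ⟨_, -, -, -, -, h1, -⟩ := hg
    exact h1.continuousOn
  have hhc : ContinuousOn h Ω := by
    obtain ⟨_, -, -, -, -, h1, -⟩ := hh
    exact h1
  have hgm : AEStronglyMeasurable g (volume.restrict Ω) :=
    hgc.aestronglyMeasurable hΩo.measurableSet
  have hhm : AEStronglyMeasurable h (volume.restrict Ω) :=
    hhc.aestronglyMeasurable hΩo.measurableSet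
  have hmeas : AEMeasurable (er p g h (Gr g) (Gr h)) (volume.restrict Ω) := by
    unfold er
    refine AEMeasurable.add ?_ ?_
    · exact ((hgm.sub hhm).enorm).pow_const p
    · refine Finset.aemeasurable_fun_sum _ fun j _ => ?_
      exact (((measurable_Gr g j).sub (measurable_Gr h j)).enorm.pow_const p).aemeasurable
  have htot : ∫⁻ x in Ω, er p g f (Gr g) G x < ε' := by
    calc ∫⁻ x in Ω, er p g f (Gr g) G x
        ≤ ∫⁻ x in Ω, K * (er p g h (Gr g) (Gr h) x + er p h f (Gr h) G x) :=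
          lintegral_mono fun x => er_triangle hp g h f (Gr g) (Gr h) G x
      _ = K * ((∫⁻ x in Ω, er p g h (Gr g) (Gr h) x) + ∫⁻ x in Ω, er p h f (Gr h) G x) := by
          rw [lintegral_const_mul' _ _ hKt, lintegral_add_left' hmeas]
      _ < K * (ε₁ + ε₁) := by
          refine (ENNReal.mul_lt_mul_iff_right hK0 hKt).2 ?_
          exact ENNReal.add_lt_add hgε hhε
      _ = ε' := hKε
  have hfin : ∫⁻ x in Ω, er p g f (Gr g) G x < ⊤ := htot.trans_le le_top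
  refine ⟨g, hg, ?_, ?_, ?_⟩
  · refine memLp_of_sub hp hgm hfp (lt_of_le_of_lt (lintegral_mono fun x => ?_) hfin)
    exact le_self_add
  · intro j
    refine memLp_of_sub (u := Gr g j) hp (measurable_Gr g j).aestronglyMeasurable (hGp j)
      (lt_of_le_of_lt (lintegral_mono fun x => ?_) hfin)
    unfold er
    refine le_add_left ?_
    exact Finset.single_le_sum (f := fun j : Fin 3 => ‖Gr g j x - G j x‖ₑ ^ p)
      (fun _ _ => zero_le) (Finset.mem_univ j)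
  · exact lt_of_lt_of_le htot (min_le_left _ _)

/-- S0127 from `PLA` and `P5` for all exponents. -/
theorem s0127_of (hPLA : ∀ p : ℝ, 1 ≤ p → PLA p) (hP5 : ∀ p : ℝ, 1 ≤ p → P5 p)
    (Ω Λ : Set R3) (hΩo : IsOpen Ω) (hΩb : Bornology.IsBounded Ω) (hΩc : IsConnected Ω)
    (hΛo : IsOpen Λ) (hΛb : Bornology.IsBounded Λ) (hΛc : IsConnected Λ)
    (p : ℝ) (hp : 1 ≤ p) (f : R3 → R3) (hf : IsHomeomorphOn f Ω Λ)
    (hfp : MemLp f (ENNReal.ofReal p) (volume.restrict Ω))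
    (G : Fin 3 → R3 → R3) (hG : ∀ j : Fin 3, HasWeakGradOn Ω (fun x => f x j) (G j))
    (hGp : ∀ j : Fin 3, MemLp (G j) (ENNReal.ofReal p) (volume.restrict Ω))
    (ε : ℝ≥0∞) (hε : 0 < ε) :
    ∃ g : R3 → R3, IsSmoothDiffeoOn g Ω Λ ∧ MemLp g (ENNReal.ofReal p) (volume.restrict Ω) ∧
      (∀ j : Fin 3, MemLp (fun x => ∇ (fun y => g y j) x) (ENNReal.ofReal p) (volume.restrict Ω)) ∧
      ∫⁻ x in Ω, (‖g x - f x‖ₑ ^ p + ∑ j : Fin 3, ‖∇ (fun y => g y j) x - G j x‖ₑ ^ p) < ε :=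
  s0127_of_p hp (hPLA p hp) (hP5 p hp) Ω Λ hΩo hΩb hΩc hΛo hΛb hΛc f hf hfp G hG hGp ε hε

end Crest.Agent.R096.Top_696
end

-- ▼ part R096/Glob1_816
section

/-!
Row 96, P5-GLOB (205 #7463): global bijectivity of a locally injective open map which is
C⁰-close to a homeomorphism between open sets.
-/

set_option autoImplicit false
open Set Filter Topology

namespace Crest.Agent.R096.Glob_816

section top

variable {X Y : Type*} [TopologicalSpace X] [TopologicalSpace Y]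








end top

section metric

variable {X : Type*} [TopologicalSpace X] {E : Type*} [NormedAddCommGroup E]







end metric

section smooth

variable {E F : Type*} [NormedAddCommGroup E] [NormedSpace ℝ E] [NormedAddCommGroup F]
  [NormedSpace ℝ F] [CompleteSpace E]



/-- the inverse of a bijective smooth local diffeomorphism is smooth -/
theorem contDiffOn_inv {g : E → F} {k : F → E} {Om : Set E} {La : Set F} {n : WithTop ℕ∞}
    (hn : n ≠ 0) (hOm : IsOpen Om) (hg : ContDiffOn ℝ n g Om)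
    (hd : ∀ x ∈ Om, (fderiv ℝ g x).IsInvertible)
    (hk : MapsTo k La Om) (hkg : ∀ x ∈ Om, k (g x) = x) (hgk : ∀ y ∈ La, g (k y) = y) :
    ContDiffOn ℝ n k La := by
  intro y hy
  have hx := hk hy
  obtain ⟨L, hL⟩ := hd (k y) hx
  have h1 : ContDiffAt ℝ n g (k y) := hg.contDiffAt (hOm.mem_nhds hx)
  have h2 : HasFDerivAt g (L : E →L[ℝ] F) (k y) := by
    rw [hL]; exact (h1.differentiableAt hn).hasFDerivAt
  have hs : HasStrictFDerivAt g (L : E →L[ℝ] F) (k y) := h1.hasStrictFDerivAt' h2 hn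
  have h3 := h1.to_localInverse h2 hn
  have h5 := hs.eventually_right_inverse
  have h6 := hs.localInverse_tendsto
  rw [hgk y hy] at h3 h5 h6
  refine (h3.congr_of_eventuallyEq ?_).contDiffWithinAt
  filter_upwards [h5, h6 (hOm.mem_nhds hx)] with z hz1 hz2
  change k z = hs.localInverse g L (k y) z
  conv_lhs => rw [← hz1]
  exact hkg _ hz2

variable [FiniteDimensional ℝ F]



end smooth

end Crest.Agent.R096.Glob_816
end

-- ▼ part R096/Top2_696
section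

/-!
Row 96 (S0127), helper696.  `P5 p` from `Raw p` (positively oriented locally PL homeomorphisms,
derivative form, `C⁰` tolerance a constant).
-/

set_option autoImplicit false
set_option linter.unusedSectionVars false
set_option linter.style.longLine false

open MeasureTheory Set Filter Topology Metric
open scoped ContDiff ENNReal Gradient NNReal
open Crest.AnalysisR.VecCalc3 Crest.AnalysisR.Sobolev
open Crest.Agent.R096.Sk_962 Crest.Agent.R096.Str_696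

namespace Crest.Agent.R096.Top_696

/-- output of the smoothing theorem for positively oriented locally PL homeomorphisms. -/
def Raw (p : ℝ) : Prop :=
  ∀ (Om La : Set R3) (h : R3 → R3),
    IsOpen Om → Bornology.IsBounded Om → IsConnected Om →
    IsOpen La → Bornology.IsBounded La → IsConnected La →
    IsHomeomorphOn h Om La → LocPL h Om →
    (∀ x ∈ Om, ∀ A, AffAt h x A → 0 < A.det) →
    ∀ δ : ℝ, 0 < δ → ∀ ε : ℝ≥0∞, 0 < ε →
    ∃ g : R3 → R3, ContDiffOn ℝ ∞ g Om ∧ (∀ x ∈ Om, 0 < (fderiv ℝ g x).det) ∧ InjOn g Om ∧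
      g '' Om = La ∧ (∀ x ∈ Om, ‖g x - h x‖ ≤ δ) ∧
      ∫⁻ x in Om, ‖fderiv ℝ g x - fderiv ℝ h x‖ₑ ^ p ≤ ε

lemma fderiv_comp_apply {g : R3 → R3} {x : R3} (hg : DifferentiableAt ℝ g x) (j : Fin 3) :
    fderiv ℝ (fun y => g y j) x = (EuclideanSpace.proj j : R3 →L[ℝ] ℝ).comp (fderiv ℝ g x) := by
  have h1 : HasFDerivAt (fun y => g y j)
      ((EuclideanSpace.proj j : R3 →L[ℝ] ℝ).comp (fderiv ℝ g x)) x :=
    (EuclideanSpace.proj j : R3 →L[ℝ] ℝ).hasFDerivAt.comp x hg.hasFDerivAt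
  exact h1.fderiv

lemma enorm_Gr_sub_le {g h : R3 → R3} {x : R3} (hg : DifferentiableAt ℝ g x)
    (hh : DifferentiableAt ℝ h x) (j : Fin 3) :
    ‖Gr g j x - Gr h j x‖ₑ ≤ ‖fderiv ℝ g x - fderiv ℝ h x‖ₑ := by
  rw [enorm_le_iff_norm_le]
  have h1 : Gr g j x - Gr h j x = (InnerProductSpace.toDual ℝ R3).symm
      ((EuclideanSpace.proj j : R3 →L[ℝ] ℝ).comp (fderiv ℝ g x - fderiv ℝ h x)) := by
    unfold Gr gradient
    rw [fderiv_comp_apply hg, fderiv_comp_apply hh, ← map_sub]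
    congr 1
  rw [h1, LinearIsometryEquiv.norm_map]
  refine ContinuousLinearMap.opNorm_le_bound _ (norm_nonneg _) fun v => ?_
  have h2 : ‖(fderiv ℝ g x - fderiv ℝ h x) v‖ ≤ ‖fderiv ℝ g x - fderiv ℝ h x‖ * ‖v‖ :=
    ContinuousLinearMap.le_opNorm _ _
  refine le_trans ?_ h2
  exact PiLp.norm_apply_le ((fderiv ℝ g x - fderiv ℝ h x) v) j

lemma isInvertible_of_det {A : R3 →L[ℝ] R3} (hA : A.det ≠ 0) : A.IsInvertible := by
  refine ⟨A.toContinuousLinearEquivOfDetNeZero hA, ?_⟩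
  ext v
  rfl

/-- the smooth inverse. -/
lemma isSmoothDiffeoOn_of {g : R3 → R3} {Om La : Set R3} (hOm : IsOpen Om)
    (hg : ContDiffOn ℝ ∞ g Om) (hdet : ∀ x ∈ Om, (fderiv ℝ g x).det ≠ 0) (hi : InjOn g Om)
    (him : g '' Om = La) : IsSmoothDiffeoOn g Om La := by
  by_cases hne : Om.Nonempty
  · have hm : MapsTo g Om La := fun x hx => him ▸ mem_image_of_mem g hx
    have hk : MapsTo (Function.invFunOn g Om) La Om := by
      intro y hy
      rw [← him] at hy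
      exact Function.invFunOn_mem hy
    have hgk : ∀ y ∈ La, g (Function.invFunOn g Om y) = y := by
      intro y hy
      rw [← him] at hy
      exact Function.invFunOn_eq hy
    have hkg : ∀ x ∈ Om, Function.invFunOn g Om (g x) = x := by
      intro x hx
      exact hi (hk (hm hx)) hx (hgk _ (hm hx))
    refine ⟨Function.invFunOn g Om, hm, hk, hkg, hgk, hg, ?_⟩
    exact Glob_816.contDiffOn_inv (by simp) hOm hg (fun x hx => isInvertible_of_det (hdet x hx))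
      hk hkg hgk
  · have h0 : Om = ∅ := not_nonempty_iff_eq_empty.1 hne
    subst h0
    rw [image_empty] at him
    subst him
    exact ⟨id, by simp, by simp, by simp, by simp, contDiffOn_empty, contDiffOn_empty⟩

/-- positively oriented case, `ε` finite. -/
lemma p5_pos' {p : ℝ} (hp : 1 ≤ p) (hR : Raw p) (Om La : Set R3) (h : R3 → R3)
    (hOm : IsOpen Om) (hOmb : Bornology.IsBounded Om) (hOmc : IsConnected Om)
    (hLa : IsOpen La) (hLab : Bornology.IsBounded La) (hLac : IsConnected La)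
    (hh : IsHomeomorphOn h Om La) (hPL : LocPL h Om)
    (hor : ∀ x ∈ Om, ∀ A, AffAt h x A → 0 < A.det) (ε : ℝ≥0∞) (hε : 0 < ε) (hεt : ε ≠ ⊤) :
    ∃ g : R3 → R3, IsSmoothDiffeoOn g Om La ∧
      ∫⁻ x in Om, (‖g x - h x‖ₑ ^ p + ∑ j : Fin 3, ‖Gr g j x - Gr h j x‖ₑ ^ p) < ε := by
  have hp0 : 0 < p := by linarith
  have hvol : volume Om < ⊤ := hOmb.measure_lt_top
  -- the tolerance
  obtain ⟨δ, hδ, hδε⟩ : ∃ δ : ℝ, 0 < δ ∧ ENNReal.ofReal δ ^ p * volume Om < ε / 2 := by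
    have hlim : Tendsto (fun δ : ℝ => ENNReal.ofReal δ ^ p * volume Om) (𝓝[>] 0) (𝓝 0) := by
      have h1 : Tendsto (fun δ : ℝ => ENNReal.ofReal δ ^ p) (𝓝[>] 0) (𝓝 0) := by
        have h2 : Continuous fun δ : ℝ => ENNReal.ofReal δ ^ p :=
          (ENNReal.continuous_rpow_const).comp ENNReal.continuous_ofReal
        have h3 := h2.tendsto 0
        simp only [ENNReal.ofReal_zero, ENNReal.zero_rpow_of_pos hp0] at h3
        exact h3.mono_left nhdsWithin_le_nhds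
      have h4 := ENNReal.Tendsto.mul_const h1 (Or.inr hvol.ne) (b := volume Om)
      simpa using h4
    have hε2 : (0 : ℝ≥0∞) < ε / 2 := ENNReal.div_pos hε.ne' (by norm_num)
    obtain ⟨δ, h1, h2⟩ := ((hlim.eventually (gt_mem_nhds hε2)).and self_mem_nhdsWithin).exists
    exact ⟨δ, h2, h1⟩
  obtain ⟨ε', hε', hε'ε⟩ : ∃ ε' : ℝ≥0∞, 0 < ε' ∧ 3 * ε' ≤ ε / 2 := by
    refine ⟨ε / 2 / 3, ?_, ?_⟩
    · exact ENNReal.div_pos (ENNReal.div_pos hε.ne' (by norm_num)).ne' (by norm_num)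
    · rw [ENNReal.mul_div_cancel (by norm_num) (by norm_num)]
  obtain ⟨g, hg, hdet, hi, him, hC0, hLp⟩ :=
    hR Om La h hOm hOmb hOmc hLa hLab hLac hh hPL hor δ hδ ε' hε'
  refine ⟨g, isSmoothDiffeoOn_of hOm hg (fun x hx => (hdet x hx).ne') hi him, ?_⟩
  -- a.e. differentiability of `h`
  have hae : ∀ᵐ x ∂(volume.restrict Om), DifferentiableAt ℝ h x := by
    rw [ae_restrict_iff' hOm.measurableSet]
    filter_upwards [hPL.ae_affine volume] with x hx hxO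
    obtain ⟨A, hA⟩ := hx hxO
    exact hA.hasFDerivAt.differentiableAt
  have hgd : ∀ x ∈ Om, DifferentiableAt ℝ g x := fun x hx =>
    (hg.contDiffAt (hOm.mem_nhds hx)).differentiableAt (by simp)
  have hm : Measurable fun x => ‖fderiv ℝ g x - fderiv ℝ h x‖ₑ ^ p :=
    ((measurable_fderiv ℝ g).sub (measurable_fderiv ℝ h)).enorm.pow_const p
  have hle : ∫⁻ x in Om, (‖g x - h x‖ₑ ^ p + ∑ j : Fin 3, ‖Gr g j x - Gr h j x‖ₑ ^ p) ≤
      ∫⁻ x in Om, (ENNReal.ofReal δ ^ p + 3 * ‖fderiv ℝ g x - fderiv ℝ h x‖ₑ ^ p) := by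
    refine lintegral_mono_ae ?_
    filter_upwards [hae, ae_restrict_mem hOm.measurableSet] with x hx hxO
    refine add_le_add ?_ ?_
    · refine ENNReal.rpow_le_rpow ?_ hp0.le
      rw [← ofReal_norm]
      exact ENNReal.ofReal_le_ofReal (hC0 x hxO)
    · calc ∑ j : Fin 3, ‖Gr g j x - Gr h j x‖ₑ ^ p
          ≤ ∑ _j : Fin 3, ‖fderiv ℝ g x - fderiv ℝ h x‖ₑ ^ p :=
            Finset.sum_le_sum fun j _ =>
              ENNReal.rpow_le_rpow (enorm_Gr_sub_le (hgd x hxO) hx j) hp0.le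
        _ = 3 * ‖fderiv ℝ g x - fderiv ℝ h x‖ₑ ^ p := by
            rw [Finset.sum_const, Finset.card_univ, Fintype.card_fin, nsmul_eq_mul]; norm_num
  refine hle.trans_lt ?_
  rw [lintegral_add_left measurable_const, lintegral_const_mul _ hm, lintegral_const,
    Measure.restrict_apply_univ]
  calc ENNReal.ofReal δ ^ p * volume Om + 3 * ∫⁻ x in Om, ‖fderiv ℝ g x - fderiv ℝ h x‖ₑ ^ p
      < ε / 2 + ε / 2 := by
        refine ENNReal.add_lt_add_of_lt_of_le ?_ hδε ?_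
        · exact ne_top_of_le_ne_top (ENNReal.div_ne_top hεt (by norm_num))
            ((mul_le_mul_right hLp 3).trans hε'ε)
        · exact (mul_le_mul_right hLp 3).trans hε'ε
    _ = ε := ENNReal.add_halves ε

/-- positively oriented case. -/
lemma p5_pos {p : ℝ} (hp : 1 ≤ p) (hR : Raw p) (Om La : Set R3) (h : R3 → R3)
    (hOm : IsOpen Om) (hOmb : Bornology.IsBounded Om) (hOmc : IsConnected Om)
    (hLa : IsOpen La) (hLab : Bornology.IsBounded La) (hLac : IsConnected La)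
    (hh : IsHomeomorphOn h Om La) (hPL : LocPL h Om)
    (hor : ∀ x ∈ Om, ∀ A, AffAt h x A → 0 < A.det) (ε : ℝ≥0∞) (hε : 0 < ε) :
    ∃ g : R3 → R3, IsSmoothDiffeoOn g Om La ∧
      ∫⁻ x in Om, (‖g x - h x‖ₑ ^ p + ∑ j : Fin 3, ‖Gr g j x - Gr h j x‖ₑ ^ p) < ε := by
  obtain ⟨g, hg, hlt⟩ := p5_pos' hp hR Om La h hOm hOmb hOmc hLa hLab hLac hh hPL hor (min ε 1)
    (lt_min hε (by norm_num)) ((min_le_right ε 1).trans_lt ENNReal.one_lt_top).ne
  exact ⟨g, hg, hlt.trans_le (min_le_left _ _)⟩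

lemma locPL_neg {h : R3 → R3} {Om : Set R3} (hh : LocPL h Om) : LocPL (fun x => -h x) Om := by
  classical
  intro x hx
  obtain ⟨r, hr, S, hc, hsel⟩ := hh x hx
  refine ⟨r, hr, S.image fun g => -g, hc.neg, fun y hy => ?_⟩
  obtain ⟨g, hg, hgy⟩ := hsel y hy
  exact ⟨-g, Finset.mem_image_of_mem _ hg, by show -h y = -(g y); rw [hgy]⟩

lemma affAt_neg {h : R3 → R3} {x : R3} {A : R3 →L[ℝ] R3} (hA : AffAt (fun x => -h x) x A) :
    AffAt h x (-A) := by
  unfold AffAt at *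
  filter_upwards [hA] with y hy
  have h1 : h y = -(-h x + A (y - x)) := by rw [← hy]; simp
  rw [h1]
  simp only [neg_add_rev, neg_neg, neg_apply]
  abel

lemma det_neg_R3 (A : R3 →L[ℝ] R3) : (-A).det = -A.det := by
  have h1 : ((-A : R3 →L[ℝ] R3) : R3 →ₗ[ℝ] R3) = (-1 : ℝ) • (A : R3 →ₗ[ℝ] R3) := by
    ext v; simp
  show LinearMap.det ((-A : R3 →L[ℝ] R3) : R3 →ₗ[ℝ] R3) = -LinearMap.det (A : R3 →ₗ[ℝ] R3)
  rw [h1, LinearMap.det_smul]
  have h2 : Module.finrank ℝ R3 = 3 := by simp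
  rw [h2]; ring

lemma homeo_neg {h : R3 → R3} {Om La : Set R3} (hh : IsHomeomorphOn h Om La) :
    IsHomeomorphOn (fun x => -h x) Om (-La) := by
  obtain ⟨k, h1, h2, h3, h4, h5, h6⟩ := hh
  refine ⟨fun y => k (-y), ?_, ?_, ?_, ?_, h5.neg, ?_⟩
  · intro x hx; simpa using h1 hx
  · intro y hy; exact h2 hy
  · intro x hx; simpa using h3 x hx
  · intro y hy
    have : -y ∈ La := hy
    simp [h4 _ this]
  · exact h6.comp continuous_neg.continuousOn (fun y hy => hy)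

lemma diffeo_neg {h : R3 → R3} {Om La : Set R3} (hh : IsSmoothDiffeoOn h Om (-La)) :
    IsSmoothDiffeoOn (fun x => -h x) Om La := by
  obtain ⟨k, h1, h2, h3, h4, h5, h6⟩ := hh
  refine ⟨fun y => k (-y), ?_, ?_, ?_, ?_, h5.neg, ?_⟩
  · intro x hx
    have := h1 hx
    exact this
  · intro y hy
    exact h2 (by simpa using hy)
  · intro x hx; simpa using h3 x hx
  · intro y hy
    have : -y ∈ -La := by simpa using hy
    simp [h4 _ this]
  · exact h6.comp contDiff_neg.contDiffOn (fun y hy => by simpa using hy)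

lemma Gr_neg (g : R3 → R3) (j : Fin 3) (x : R3) : Gr (fun y => -g y) j x = -Gr g j x := by
  unfold Gr gradient
  have : (fun y => (-g y) j) = fun y => -(g y j) := by funext y; simp
  rw [this, fderiv_fun_neg, map_neg]

/-- **`P5 p` from `Raw p`.** -/
theorem p5_of_raw {p : ℝ} (hp : 1 ≤ p) (hR : Raw p) : P5 p := by
  intro Om La h hOm hOmb hOmc hLa hLab hLac hh hPL ε hε
  have hi : InjOn h Om := by
    obtain ⟨k, -, -, h3, -, -, -⟩ := hh
    intro x hx y hy hxy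
    rw [← h3 x hx, ← h3 y hy, hxy]
  rcases orient hOm hOmc.isPreconnected hPL hi with hor | hor
  · exact p5_pos hp hR Om La h hOm hOmb hOmc hLa hLab hLac hh hPL hor ε hε
  · have hLa' : IsOpen (-La) := hLa.neg
    have hLab' : Bornology.IsBounded (-La) := by
      obtain ⟨C, hC⟩ := hLab.exists_norm_le
      refine isBounded_iff_forall_norm_le.2 ⟨C, fun y hy => ?_⟩
      have := hC (-y) hy
      simpa using this
    have hLac' : IsConnected (-La) := by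
      have : -La = (fun y => -y) '' La := by simp
      rw [this]
      exact hLac.image _ continuous_neg.continuousOn
    obtain ⟨g, hg, hlt⟩ := p5_pos hp hR Om (-La) (fun x => -h x) hOm hOmb hOmc hLa' hLab' hLac'
      (homeo_neg hh) (locPL_neg hPL) (by
        intro x hx A hA
        have h1 := hor x hx (-A) (affAt_neg hA)
        rw [det_neg_R3] at h1
        linarith) ε hε
    refine ⟨fun x => -g x, diffeo_neg hg, ?_⟩
    refine lt_of_le_of_lt (lintegral_mono fun x => ?_) hlt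
    have e1 : ‖-g x - h x‖ₑ = ‖g x - -h x‖ₑ := by
      rw [← enorm_neg (-g x - h x)]
      congr 1
      abel
    have e2 : ∀ j : Fin 3, ‖Gr (fun y => -g y) j x - Gr h j x‖ₑ =
        ‖Gr g j x - Gr (fun y => -h y) j x‖ₑ := by
      intro j
      rw [Gr_neg, Gr_neg, ← enorm_neg (-Gr g j x - Gr h j x)]
      congr 1
      abel
    show ‖-g x - h x‖ₑ ^ p + ∑ j : Fin 3, ‖Gr (fun y => -g y) j x - Gr h j x‖ₑ ^ p ≤
      ‖g x - -h x‖ₑ ^ p + ∑ j : Fin 3, ‖Gr g j x - Gr (fun y => -h y) j x‖ₑ ^ p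
    rw [e1]
    simp only [e2]
    exact le_rfl

end Crest.Agent.R096.Top_696
end

-- ▼ part R096/Asm4_119
section

/-!
# P5-ASM-B, part 4 (helper119, row 96): `EdgeB R3 → Core R3 → P5 p`
-/

set_option autoImplicit false

open MeasureTheory Metric Set Filter Topology
open scoped ENNReal NNReal ContDiff
open Crest.AnalysisR.VecCalc3 Crest.AnalysisR.Sobolev

namespace Crest.Agent.R096.Asm_119

open Crest.Agent.R096.P5Spec_205 (StageVertex EdgeB Core)
open Crest.Agent.R096.StE_816 (StageEdgeZ stageEdgeZ)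

/-- **`Raw p` from the two stages**, with 816's form of the edge stage. -/
theorem raw_of_stagesZ (hSE : StageEdgeZ R3) (hSV : StageVertex R3) {p : ℝ} (hp : 1 ≤ p) :
    Top_696.Raw p := by
  intro Om La h hOm _ _ hLa _ hLc hh hPL hdet δ hδ ε hε
  obtain ⟨h1, h2, h3, -, -⟩ := Germ_879.exists_germs_R3 hOm hLa hh hPL hdet
  obtain ⟨g, g1, g2, g3, g4, g5⟩ := asm_core hSV
    (by rw [show Module.finrank ℝ R3 = 3 from finrank_euclideanSpace_fin]; norm_num)
    hOm hLa hLc.isPreconnected h1 h2 h3 (hSE _ _ _ _ _ _ _ hOm hLa h1 h2 h3) (δ := fun _ => δ)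
    continuousOn_const (fun _ _ => hδ) hp hε.ne'
  exact ⟨g, g1, g2, g3.injOn, g3.image_eq, g4, g5⟩

/-- **P5 from EDGE-B and CORE3.** -/
theorem p5_of_edgeB_core (hB : EdgeB R3) (hC : Core R3) {p : ℝ} (hp : 1 ≤ p) : Sk_962.P5 p :=
  Top_696.p5_of_raw hp (raw_of_stagesZ (stageEdgeZ hB) (StV_119.stageVertex hC) hp)

end Crest.Agent.R096.Asm_119
end

-- ▼ part R096/Asm5_119
section

/-!
# P5 (row 96): `P5 p` for all `p ≥ 1` (assembly, helper119)
-/

set_option autoImplicit false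

namespace Crest.Agent.R096.Asm_119

/-- **P5**: smoothing of locally PL homeomorphisms in `W^{1,p}`, dimension three. -/
theorem p5 {p : ℝ} (hp : 1 ≤ p) : Sk_962.P5 p :=
  p5_of_edgeB_core Ed_276.edgeB (Rd_695.core_of_bel_spec BelF_205.bel) hp

open MeasureTheory Metric Set Filter Topology
open scoped ENNReal Gradient NNReal
open Crest.AnalysisR.VecCalc3 Crest.AnalysisR.Sobolev
open Crest.Agent.R096.Sk_962

/-- **S0127 from `PLA`.** -/
theorem s0127_of_pla (hPLA : ∀ p : ℝ, 1 ≤ p → PLA p)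
    (Ω Λ : Set R3) (hΩo : IsOpen Ω) (hΩb : Bornology.IsBounded Ω) (hΩc : IsConnected Ω)
    (hΛo : IsOpen Λ) (hΛb : Bornology.IsBounded Λ) (hΛc : IsConnected Λ)
    (p : ℝ) (hp : 1 ≤ p) (f : R3 → R3) (hf : IsHomeomorphOn f Ω Λ)
    (hfp : MemLp f (ENNReal.ofReal p) (volume.restrict Ω))
    (G : Fin 3 → R3 → R3) (hG : ∀ j : Fin 3, HasWeakGradOn Ω (fun x => f x j) (G j))
    (hGp : ∀ j : Fin 3, MemLp (G j) (ENNReal.ofReal p) (volume.restrict Ω))
    (ε : ℝ≥0∞) (hε : 0 < ε) :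
    ∃ g : R3 → R3, IsSmoothDiffeoOn g Ω Λ ∧ MemLp g (ENNReal.ofReal p) (volume.restrict Ω) ∧
      (∀ j : Fin 3, MemLp (fun x => ∇ (fun y => g y j) x) (ENNReal.ofReal p) (volume.restrict Ω)) ∧
      ∫⁻ x in Ω, (‖g x - f x‖ₑ ^ p + ∑ j : Fin 3, ‖∇ (fun y => g y j) x - G j x‖ₑ ^ p) < ε :=
  Top_696.s0127_of hPLA (fun _ h => p5 h) Ω Λ hΩo hΩb hΩc hΛo hΛb hΛc p hp f hf hfp G hG hGp ε hε

end Crest.Agent.R096.Asm_119
end

-- ▼ part R096/Top_961

/-!
Row 96 (S0127), helper961.  **The top of the row**: S0127 from the literal Props of the nodes.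

* `s0127_of` : from `BFs p`, `NO0 p` for all `p ≥ 1`;
* `s0127_of_nodes` : from the ranges and the machines.  The Props `MachBF : Prop`, `MachNO : ℝ → Prop`,
  `EA : ℝ → Prop` are variables here; they are instantiated in `Crest/Agent/S0127.lean`.
-/

set_option autoImplicit false
set_option linter.style.longLine false

namespace Crest.Agent.R096.Top_961

open MeasureTheory Metric Set Filter Topology
open scoped ENNReal Gradient NNReal
open Crest.AnalysisR.VecCalc3 Crest.AnalysisR.Sobolev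
open Crest.Agent.R096.Sk_962 Crest.Agent.R096.Sk4_663

/-- **S0127 from `BFs` and `NO0`.** -/
theorem s0127_of (hB : ∀ p : ℝ, 1 ≤ p → BFs p) (hN : ∀ p : ℝ, 1 ≤ p → NO0 p)
    (Ω Λ : Set R3) (hΩo : IsOpen Ω) (hΩb : Bornology.IsBounded Ω) (hΩc : IsConnected Ω)
    (hΛo : IsOpen Λ) (hΛb : Bornology.IsBounded Λ) (hΛc : IsConnected Λ)
    (p : ℝ) (hp : 1 ≤ p) (f : R3 → R3) (hf : IsHomeomorphOn f Ω Λ)
    (hfp : MemLp f (ENNReal.ofReal p) (volume.restrict Ω))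
    (G : Fin 3 → R3 → R3) (hG : ∀ j : Fin 3, HasWeakGradOn Ω (fun x => f x j) (G j))
    (hGp : ∀ j : Fin 3, MemLp (G j) (ENNReal.ofReal p) (volume.restrict Ω))
    (ε : ℝ≥0∞) (hε : 0 < ε) :
    ∃ g : R3 → R3, IsSmoothDiffeoOn g Ω Λ ∧ MemLp g (ENNReal.ofReal p) (volume.restrict Ω) ∧
      (∀ j : Fin 3, MemLp (fun x => ∇ (fun y => g y j) x) (ENNReal.ofReal p) (volume.restrict Ω)) ∧
      ∫⁻ x in Ω, (‖g x - f x‖ₑ ^ p + ∑ j : Fin 3, ‖∇ (fun y => g y j) x - G j x‖ₑ ^ p) < ε :=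
  Asm_119.s0127_of_pla (fun _ h => pla_of h (hB _ h) (hN _ h)) Ω Λ hΩo hΩb hΩc hΛo hΛb hΛc p hp f hf
    hfp G hG hGp ε hε


/-- `NO0 p` from 276's `NOS p`. -/
theorem no0_of_nos {p : ℝ} (hp : 1 ≤ p) (h : No_276.NOS p) : NO0 p :=
  Sq_477.no0_of_nol (by linarith) (No_276.nol_of_nos (by linarith) h)


end Crest.Agent.R096.Top_961
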