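import Crest.Agent.R096.Vx3_270

-- ▼ part R096/Vx4_270
section

/-!
# The segment form of the class `MollAt`

`Seg C f B` : for all `a b ∈ B` there is `A ∈ C` with `f a - f b = A (a - b)`.  For `C` convex,
compact and of positive determinant this is (locally) the same as `MollAt`, but no null set and no
derivative occurs: `seg_of_ae`, `mollAt_of_seg`.  `seg_of_sel`: continuous selections of finitely
many `C¹` maps.  `seg_phi`: the slow radial interpolation.
-/

set_option autoImplicit false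
set_option linter.unusedSectionVars false

open MeasureTheory Metric Set Filter Topology
open scoped ENNReal NNReal ContDiff

namespace Crest.Agent.R096.Vx_270

open Crest.Agent.R096.Mo_119 (MollAt)

section basic

variable {E : Type*} [NormedAddCommGroup E] [NormedSpace ℝ E]

/-- the segment condition -/
def Seg (C : Set (E →L[ℝ] E)) (f : E → E) (B : Set E) : Prop :=
  ∀ a ∈ B, ∀ b ∈ B, ∃ A ∈ C, f a - f b = A (a - b)

/-- a compact convex set of linear maps of positive determinant -/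
structure Good (C : Set (E →L[ℝ] E)) : Prop where
  conv : Convex ℝ C
  cpt : IsCompact C
  pos : ∀ A ∈ C, 0 < A.det

lemma Seg.mono {C C' : Set (E →L[ℝ] E)} {f : E → E} {B B' : Set E} (h : Seg C f B) (hC : C ⊆ C')
    (hB : B' ⊆ B) : Seg C' f B' := fun a ha b hb =>
  let ⟨A, hA, e⟩ := h a (hB ha) b (hB hb)
  ⟨A, hC hA, e⟩

lemma Seg.congr {C : Set (E →L[ℝ] E)} {f g : E → E} {B : Set E} (h : Seg C f B)
    (hfg : ∀ x ∈ B, f x = g x) : Seg C g B := fun a ha b hb => by
  rw [← hfg a ha, ← hfg b hb]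
  exact h a ha b hb

/-- values at a vector -/
lemma convex_eval {C : Set (E →L[ℝ] E)} (hC : Convex ℝ C) (v : E) :
    Convex ℝ ((fun A : E →L[ℝ] E => A v) '' C) :=
  hC.linear_image ((ContinuousLinearMap.apply ℝ E v : (E →L[ℝ] E) →L[ℝ] E) :
    (E →L[ℝ] E) →ₗ[ℝ] E)

lemma compact_eval {C : Set (E →L[ℝ] E)} (hC : IsCompact C) (v : E) :
    IsCompact ((fun A : E →L[ℝ] E => A v) '' C) :=
  hC.image (ContinuousLinearMap.apply ℝ E v).continuous

/-- the pointwise hull of `C` -/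
def star (C : Set (E →L[ℝ] E)) : Set (E →L[ℝ] E) := {D | ∀ v, ∃ A ∈ C, D v = A v}

lemma subset_star (C : Set (E →L[ℝ] E)) : C ⊆ star C := fun A hA _ => ⟨A, hA, rfl⟩

lemma convex_star {C : Set (E →L[ℝ] E)} (hC : Convex ℝ C) : Convex ℝ (star C) := by
  intro D₁ h1 D₂ h2 a b ha hb hab v
  obtain ⟨A₁, hA₁, e1⟩ := h1 v
  obtain ⟨A₂, hA₂, e2⟩ := h2 v
  refine ⟨a • A₁ + b • A₂, hC hA₁ hA₂ ha hb hab, ?_⟩
  show a • D₁ v + b • D₂ v = a • A₁ v + b • A₂ v
  rw [e1, e2]

lemma isClosed_star {C : Set (E →L[ℝ] E)} (hC : IsCompact C) : IsClosed (star C) := by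
  have : star C = ⋂ v : E, (fun D : E →L[ℝ] E => D v) ⁻¹' ((fun A : E →L[ℝ] E => A v) '' C) := by
    ext D
    simp only [star, mem_ofPred_eq, mem_iInter, mem_preimage, mem_image]
    constructor
    · intro h v
      obtain ⟨A, hA, e⟩ := h v
      exact ⟨A, hA, e.symm⟩
    · intro h v
      obtain ⟨A, hA, e⟩ := h v
      exact ⟨A, hA, e.symm⟩
  rw [this]
  exact isClosed_iInter fun v => (compact_eval hC v).isClosed.preimage
    (ContinuousLinearMap.apply ℝ E v).continuous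

lemma exists_norm_le {C : Set (E →L[ℝ] E)} (hC : IsCompact C) : ∃ L : ℝ≥0, ∀ A ∈ C, ‖A‖ ≤ L := by
  obtain ⟨M, hM⟩ := hC.isBounded.exists_norm_le
  exact ⟨⟨max M 0, le_max_right _ _⟩, fun A hA => (hM A hA).trans (le_max_left _ _)⟩

lemma norm_star_le {C : Set (E →L[ℝ] E)} {L : ℝ≥0} (hL : ∀ A ∈ C, ‖A‖ ≤ L) {D : E →L[ℝ] E}
    (hD : D ∈ star C) : ‖D‖ ≤ L := by
  refine D.opNorm_le_bound L.2 fun v => ?_
  obtain ⟨A, hA, e⟩ := hD v
  rw [e]
  exact (A.le_opNorm v).trans (mul_le_mul_of_nonneg_right (hL A hA) (norm_nonneg _))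

lemma Seg.lipschitz {C : Set (E →L[ℝ] E)} {f : E → E} {B : Set E} (h : Seg C f B) {L : ℝ≥0}
    (hL : ∀ A ∈ C, ‖A‖ ≤ L) : LipschitzOnWith L f B := by
  refine LipschitzOnWith.of_dist_le_mul fun a ha b hb => ?_
  obtain ⟨A, hA, e⟩ := h a ha b hb
  rw [dist_eq_norm, dist_eq_norm, e]
  exact (A.le_opNorm _).trans (mul_le_mul_of_nonneg_right (hL A hA) (norm_nonneg _))

/-- a derivative at an interior point lies in the pointwise hull -/
lemma Seg.deriv_mem {C : Set (E →L[ℝ] E)} (hC : IsCompact C) {f : E → E} {B : Set E}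
    (h : Seg C f B) {x : E} (hx : B ∈ 𝓝 x) {D : E →L[ℝ] E} (hD : HasFDerivAt f D x) :
    D ∈ star C := by
  intro v
  have h1 : HasDerivAt (fun t : ℝ => f (x + t • v)) (D v) 0 := by
    have h0 : HasFDerivAt f D (x + (0 : ℝ) • v) := by simpa using hD
    have hl : HasDerivAt (fun t : ℝ => x + t • v) v 0 := by
      have := ((hasDerivAt_id (0 : ℝ)).smul_const v).const_add x
      simpa using this
    exact h0.comp_hasDerivAt (0 : ℝ) hl
  have h2 := h1.tendsto_slope_zero_right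
  have hcl := (compact_eval hC v).isClosed
  have hev : ∀ᶠ t in 𝓝[>] (0 : ℝ), t⁻¹ • (f (x + (0 + t) • v) - f (x + (0 : ℝ) • v)) ∈
      (fun A : E →L[ℝ] E => A v) '' C := by
    have hc : Tendsto (fun t : ℝ => x + t • v) (𝓝 0) (𝓝 x) := by
      have : Continuous fun t : ℝ => x + t • v := by fun_prop
      simpa using this.tendsto 0
    have h3 : ∀ᶠ t in 𝓝 (0 : ℝ), x + t • v ∈ B := hc.eventually hx
    filter_upwards [h3.filter_mono nhdsWithin_le_nhds, self_mem_nhdsWithin] with t ht ht0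
    have ht0 : (0 : ℝ) < t := ht0
    obtain ⟨A, hA, e⟩ := h _ ht x (mem_of_mem_nhds hx)
    refine ⟨A, hA, ?_⟩
    rw [zero_add, zero_smul, add_zero, e, add_sub_cancel_left, map_smul, smul_smul,
      inv_mul_cancel₀ ht0.ne', one_smul]
  obtain ⟨A, hA, e⟩ := hcl.mem_of_tendsto h2 hev
  exact ⟨A, hA, e.symm⟩

/-- a rank one map with prescribed value and small norm -/
lemma exists_rank_one (v e : E) (hv : v ≠ 0) :
    ∃ B : E →L[ℝ] E, B v = e ∧ ‖B‖ ≤ ‖e‖ / ‖v‖ := by
  have hv0 : ‖v‖ ≠ 0 := norm_ne_zero_iff.2 hv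
  obtain ⟨g, hg, hgv⟩ := exists_dual_vector ℝ v hv0
  refine ⟨(‖v‖⁻¹ : ℝ) • g.smulRight e, ?_, ?_⟩
  · have : g v = ‖v‖ := by simpa using hgv
    show (‖v‖⁻¹ : ℝ) • (g v • e) = e
    rw [this, smul_smul, inv_mul_cancel₀ hv0, one_smul]
  · rw [norm_smul, norm_inv, norm_norm, ContinuousLinearMap.norm_smulRight_apply, hg, one_mul]
    rw [div_eq_inv_mul]

/-- fencing lemma: a continuous real function on `[0,1]` which at every point equals one of
finitely many functions with nonpositive derivative does not increase -/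
lemma sel_antitone {ι : Type*} [Finite ι] {u : ℝ → ℝ} {w : ι → ℝ → ℝ} {w' : ι → ℝ → ℝ}
    (hu : ContinuousOn u (Icc 0 1)) (hw : ∀ j, ∀ t ∈ Icc (0 : ℝ) 1, HasDerivAt (w j) (w' j t) t)
    (hw' : ∀ j, ∀ t ∈ Icc (0 : ℝ) 1, w' j t ≤ 0)
    (hsel : ∀ t ∈ Icc (0 : ℝ) 1, ∃ j, u t = w j t) : u 1 ≤ u 0 := by
  -- every right slope is frequently nonpositive
  have hant : ∀ j, AntitoneOn (w j) (Icc 0 1) := by
    intro j
    refine antitoneOn_of_deriv_nonpos (convex_Icc 0 1)
      (fun t ht => (hw j t ht).continuousAt.continuousWithinAt) ?_ ?_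
    · intro t ht
      rw [interior_Icc] at ht
      exact (hw j t (Ioo_subset_Icc_self ht)).differentiableAt.differentiableWithinAt
    · intro t ht
      rw [interior_Icc] at ht
      rw [(hw j t (Ioo_subset_Icc_self ht)).deriv]
      exact hw' j t (Ioo_subset_Icc_self ht)
  have key : ∀ r : ℝ, 0 < r → u 1 ≤ u 0 + r * 1 := by
    intro r hr
    have := image_le_of_liminf_slope_right_lt_deriv_boundary' (f := u) (f' := fun _ => 0)
      (a := 0) (b := 1) hu ?_ (B := fun t => u 0 + r * t) (B' := fun _ => r) (by simp)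
      (by fun_prop) ?_ ?_ (right_mem_Icc.2 zero_le_one)
    · simpa using this
    · intro x hx s hs
      -- pigeonhole
      have hx1 : x ∈ Icc (0 : ℝ) 1 := Ico_subset_Icc_self hx
      have hcov : ∀ᶠ z in 𝓝[>] x, z ∈ Icc (0 : ℝ) 1 := by
        have : Ioo x 1 ∈ 𝓝[>] x := Ioo_mem_nhdsGT hx.2
        filter_upwards [this] with z hz
        exact ⟨hx.1.trans hz.1.le, hz.2.le⟩
      have hex : ∃ j, ∃ᶠ z in 𝓝[>] x, z ∈ Icc (0 : ℝ) 1 ∧ u z = w j z := by
        by_contra hcon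
        push Not at hcon
        have h1 : ∀ j, ∀ᶠ z in 𝓝[>] x, ¬ (z ∈ Icc (0 : ℝ) 1 ∧ u z = w j z) := fun j => by
          filter_upwards [hcon j] with z hz h using hz h.1 h.2
        have h2 : ∀ᶠ z in 𝓝[>] x, ∀ j, ¬ (z ∈ Icc (0 : ℝ) 1 ∧ u z = w j z) :=
          Filter.eventually_all.2 h1
        obtain ⟨z, hz1, hz2⟩ := (hcov.and h2).exists
        obtain ⟨j, hj⟩ := hsel z hz1
        exact hz2 j ⟨hz1, hj⟩
      obtain ⟨j, hj⟩ := hex
      -- `u x = w j x` by continuity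
      have hux : u x = w j x := by
        by_contra hne
        have hcu : Tendsto (fun z => u z - w j z) (𝓝[Icc 0 1] x) (𝓝 (u x - w j x)) :=
          (hu x hx1).sub (hw j x hx1).continuousAt.continuousWithinAt
        have hne' : ∀ᶠ z in 𝓝[Icc 0 1] x, u z - w j z ≠ 0 :=
          hcu.eventually_ne (sub_ne_zero.2 hne)
        have hle : 𝓝[>] x ≤ 𝓝[Icc 0 1] x := by
          refine le_inf (nhdsWithin_le_nhds) ?_
          exact le_principal_iff.2 hcov
        obtain ⟨z, hz1, hz2⟩ := (hj.and_eventually (hne'.filter_mono hle)).exists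
        exact hz2 (sub_eq_zero.2 hz1.2)
      refine (hj.and_eventually self_mem_nhdsWithin).mono ?_
      rintro z ⟨⟨hz1, hz2⟩, hz3⟩
      have hz3 : x < z := hz3
      have h3 : slope u x z ≤ 0 := by
        rw [slope_def_field, hz2, hux]
        exact div_nonpos_of_nonpos_of_nonneg
          (sub_nonpos.2 (hant j hx1 hz1 hz3.le)) (sub_nonneg.2 hz3.le)
      exact lt_of_le_of_lt h3 hs
    · intro x _
      have h4 : HasDerivAt (fun t : ℝ => u 0 + r * t) (r * 1) x :=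
        ((hasDerivAt_id x).const_mul r).const_add (u 0)
      rw [mul_one] at h4
      exact h4.hasDerivWithinAt
    · intro x _ _
      exact hr
  have h2 : Tendsto (fun r : ℝ => u 0 + r * 1) (𝓝[>] 0) (𝓝 (u 0)) := by
    have : Continuous fun r : ℝ => u 0 + r * 1 := by fun_prop
    have h3 := this.tendsto 0
    simp only [zero_mul, add_zero] at h3
    exact h3.mono_left nhdsWithin_le_nhds
  exact ge_of_tendsto h2 (eventually_nhdsWithin_of_forall fun r hr => key r hr)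

/-- **Continuous selections of finitely many differentiable maps with derivatives in `C`.** -/
theorem seg_of_sel {ι : Type*} [Finite ι] {C : Set (E →L[ℝ] E)} (hC : Convex ℝ C)
    (hCc : IsCompact C) {B : Set E} (hB : Convex ℝ B) {f : E → E} (hf : ContinuousOn f B)
    {g : ι → E → E} {g' : ι → E → E →L[ℝ] E} (hg : ∀ j, ∀ x ∈ B, HasFDerivAt (g j) (g' j x) x)
    (hg' : ∀ j, ∀ x ∈ B, g' j x ∈ C) (hsel : ∀ x ∈ B, ∃ j, f x = g j x) : Seg C f B := by
  intro a ha b hb
  by_contra hcon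
  push Not at hcon
  have hnot : f a - f b ∉ (fun A : E →L[ℝ] E => A (a - b)) '' C := by
    rintro ⟨A, hA, e⟩
    exact hcon A hA e.symm
  obtain ⟨l, s, hs1, hs2⟩ := geometric_hahn_banach_closed_point (convex_eval hC (a - b))
    (compact_eval hCc (a - b)).isClosed hnot
  -- the fencing function
  have hseg : ∀ t ∈ Icc (0:ℝ) 1, b + t • (a - b) ∈ B := fun t ht =>
    hB.add_smul_sub_mem hb ha ht
  have hline : ∀ t : ℝ, HasDerivAt (fun t : ℝ => b + t • (a - b)) (a - b) t := by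
    intro t
    have := ((hasDerivAt_id t).smul_const (a - b)).const_add b
    simpa using this
  have hc : ContinuousOn (fun t : ℝ => b + t • (a - b)) (Icc 0 1) := by fun_prop
  have h := sel_antitone (u := fun t => l (f (b + t • (a - b))) - s * t)
    (w := fun j t => l (g j (b + t • (a - b))) - s * t)
    (w' := fun j t => l (g' j (b + t • (a - b)) (a - b)) - s)
    ((l.continuous.comp_continuousOn (hf.comp hc hseg)).sub (by fun_prop)) ?_ ?_ ?_
  · simp only [one_smul, zero_smul, add_zero, mul_one, mul_zero, sub_zero] at h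
    rw [add_sub_cancel] at h
    have h3 : l (f a - f b) ≤ s := by rw [map_sub]; linarith
    linarith
  · intro j t ht
    have h1 : HasDerivAt (fun t : ℝ => g j (b + t • (a - b)))
        (g' j (b + t • (a - b)) (a - b)) t := (hg j _ (hseg t ht)).comp_hasDerivAt t (hline t)
    have h2 : HasDerivAt (fun t : ℝ => l (g j (b + t • (a - b))))
        (l (g' j (b + t • (a - b)) (a - b))) t := l.hasFDerivAt.comp_hasDerivAt t h1
    have h3 : HasDerivAt (fun t : ℝ => s * t) s t := by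
      simpa using (hasDerivAt_id t).const_mul s
    exact h2.sub h3
  · intro j t ht
    have := hs1 _ ⟨_, hg' j _ (hseg t ht), rfl⟩
    linarith
  · intro t ht
    obtain ⟨j, hj⟩ := hsel _ (hseg t ht)
    exact ⟨j, by rw [hj]⟩

end basic

section finite

variable {E : Type*} [NormedAddCommGroup E] [NormedSpace ℝ E] [FiniteDimensional ℝ E]

lemma isCompact_star {C : Set (E →L[ℝ] E)} (hC : IsCompact C) : IsCompact (star C) := by
  have : ProperSpace (E →L[ℝ] E) := FiniteDimensional.proper_real _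
  obtain ⟨L, hL⟩ := exists_norm_le hC
  refine (isCompact_closedBall (0 : E →L[ℝ] E) L).of_isClosed_subset (isClosed_star hC) ?_
  intro D hD
  rw [mem_closedBall_zero_iff]
  exact norm_star_le hL hD

lemma injective_of_det {A : E →L[ℝ] E} (hA : 0 < A.det) : Function.Injective A := by
  intro a b hab
  apply (A.toContinuousLinearEquivOfDetNeZero hA.ne').injective
  rw [ContinuousLinearMap.toContinuousLinearEquivOfDetNeZero_apply,
    ContinuousLinearMap.toContinuousLinearEquivOfDetNeZero_apply]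
  exact hab

lemma det_ne_of_injective {A : E →L[ℝ] E} (hA : ∀ v, A v = 0 → v = 0) : A.det ≠ 0 := by
  intro h
  have h1 : LinearMap.det (A : E →ₗ[ℝ] E) = 0 := h
  have h2 := LinearMap.bot_lt_ker_of_det_eq_zero h1
  obtain ⟨v, hv, hv0⟩ := (Submodule.ne_bot_iff _).1 h2.ne'
  exact hv0 (hA v hv)

/-- the pointwise hull of a good set is good -/
lemma Good.star {C : Set (E →L[ℝ] E)} (hC : Good C) : Good (star C) := by
  refine ⟨convex_star hC.conv, isCompact_star hC.cpt, fun D hD => ?_⟩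
  have hne : ∀ D' ∈ Vx_270.star C, D'.det ≠ 0 := by
    intro D' hD'
    apply det_ne_of_injective
    intro v hv
    obtain ⟨A, hA, e⟩ := hD' v
    rw [hv] at e
    exact injective_of_det (hC.pos A hA) (by rw [← e, map_zero])
  obtain ⟨A, hA, -⟩ := hD 0
  have hA' := subset_star C hA
  by_contra hcon
  push Not at hcon
  have hcont : ContinuousOn (fun t : ℝ => ((1 - t) • D + t • A).det) (Icc 0 1) := by
    have : Continuous fun t : ℝ => ((1 - t) • D + t • A).det :=
      ContinuousLinearMap.continuous_det.comp (by fun_prop)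
    exact this.continuousOn
  have h0 : ((1 - (0:ℝ)) • D + (0:ℝ) • A).det ≤ 0 := by simpa using hcon
  have h1 : 0 ≤ ((1 - (1:ℝ)) • D + (1:ℝ) • A).det := by simpa using (hC.pos A hA).le
  obtain ⟨t, ht, h2⟩ := intermediate_value_Icc zero_le_one hcont ⟨h0, h1⟩
  exact hne _ (convex_star hC.conv hD hA' (sub_nonneg.2 ht.2) ht.1 (by ring)) h2

variable [MeasurableSpace E] [BorelSpace E]

/-- **From the segment form to `MollAt`.** -/
theorem mollAt_of_seg {μ : Measure E} [μ.IsAddHaarMeasure] {C : Set (E →L[ℝ] E)} (hC : Good C)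
    {f : E → E} {x : E} {r : ℝ} (hr : 0 < r) (h : Seg C f (ball x r)) : MollAt μ f x := by
  obtain ⟨L, hL⟩ := exists_norm_le hC.cpt
  have hlip := h.lipschitz hL
  refine ⟨r, hr, star C, hC.star.conv, hC.star.cpt, hC.star.pos, ⟨L, hlip⟩, ?_⟩
  filter_upwards [hlip.ae_differentiableWithinAt_of_mem (μ := μ)] with y hy hyb
  have hn : ball x r ∈ 𝓝 y := isOpen_ball.mem_nhds hyb
  have hd : DifferentiableAt ℝ f y := (hy hyb).differentiableAt hn
  exact h.deriv_mem hC.cpt hn hd.hasFDerivAt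

/-- **From the almost everywhere form to the segment form.** -/
theorem seg_of_ae {μ : Measure E} [μ.IsAddHaarMeasure] {C : Set (E →L[ℝ] E)} (hC : Convex ℝ C)
    (hCc : IsCompact C) {f : E → E} {L : ℝ≥0} {x : E} {R : ℝ} (hL : LipschitzOnWith L f (ball x R))
    (hae : ∀ᵐ y ∂μ, y ∈ ball x R → fderiv ℝ f y ∈ C) : Seg C f (ball x R) := by
  intro a ha b hb
  obtain ⟨ρ, hd⟩ := Mo_119.exists_dens μ
  have hk := hd.ker
  rw [mem_ball_iff_norm] at ha hb
  obtain ⟨R', hR'1, hR'2⟩ := exists_between (max_lt ha hb)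
  have ha' : a ∈ ball x R' := by
    rw [mem_ball_iff_norm]; exact (le_max_left _ _).trans_lt hR'1
  have hb' : b ∈ ball x R' := by
    rw [mem_ball_iff_norm]; exact (le_max_right _ _).trans_lt hR'1
  -- smooth approximations
  have key : ∀ δ : ℝ, 0 < δ → δ < R - R' →
      Mo_119.avg (Mo_119.kerM μ ρ) f (fun _ => δ) a - Mo_119.avg (Mo_119.kerM μ ρ) f (fun _ => δ) b
        ∈ (fun A : E →L[ℝ] E => A (a - b)) '' C := by
    intro δ hδ hδR
    have hx : ∀ z ∈ ball x R', ‖z - x‖ + (fun _ : E => δ) z < R := by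
      intro z hz
      rw [mem_ball_iff_norm] at hz
      show ‖z - x‖ + δ < R
      linarith
    obtain ⟨A, hA, e⟩ := Mo_119.exists_seg (g := Mo_119.avg (Mo_119.kerM μ ρ) f (fun _ => δ))
      (convex_ball x R') hC hCc.isClosed
      (fun z hz => (hd.contDiffAt_avg_loc hL contDiff_const (x := z) hδ (hx z hz)).of_le
        (by norm_cast)) (fun z hz => by
        have h1 := hk.fderiv_avg_loc hL (η := fun _ => δ) contDiff_const (x := z) hδ (hx z hz)
        have h2 : fderiv ℝ (fun _ : E => δ) z = 0 := by simp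
        rw [h2, norm_zero, mul_zero] at h1
        have h3 := sub_eq_zero.1 (norm_le_zero_iff.1 h1)
        rw [h3]
        exact hk.avgD_mem_loc hL hC hCc.isClosed hae hδ (hx z hz)) ha' hb'
    exact ⟨A, hA, e.symm⟩
  have hlim : ∀ z ∈ ball x R', Tendsto
      (fun δ : ℝ => Mo_119.avg (Mo_119.kerM μ ρ) f (fun _ => δ) z) (𝓝[>] 0) (𝓝 (f z)) := by
    intro z hz
    rw [mem_ball_iff_norm] at hz
    rw [tendsto_iff_norm_sub_tendsto_zero]
    have hev : ∀ᶠ δ : ℝ in 𝓝[>] 0, ‖Mo_119.avg (Mo_119.kerM μ ρ) f (fun _ => δ) z - f z‖ ≤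
        Mo_119.κE E * L * δ := by
      have : Ioo 0 (R - R') ∈ 𝓝[>] (0 : ℝ) := Ioo_mem_nhdsGT (by linarith)
      filter_upwards [this] with δ hδ
      exact hk.norm_avg_sub_le_loc hL (η := fun _ => δ) hδ.1 (by
        show ‖z - x‖ + δ < R
        linarith [hδ.2])
    have h0 : Tendsto (fun δ : ℝ => (Mo_119.κE E * L * δ : ℝ)) (𝓝[>] 0) (𝓝 0) := by
      have : Continuous fun δ : ℝ => (Mo_119.κE E * L * δ : ℝ) := by fun_prop
      have h := this.tendsto 0
      rw [mul_zero] at h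
      exact h.mono_left nhdsWithin_le_nhds
    exact squeeze_zero' (Eventually.of_forall fun _ => norm_nonneg _) hev h0
  have hmem : f a - f b ∈ (fun A : E →L[ℝ] E => A (a - b)) '' C := by
    refine (compact_eval hCc (a - b)).isClosed.mem_of_tendsto ((hlim a ha').sub (hlim b hb')) ?_
    have : Ioo 0 (R - R') ∈ 𝓝[>] (0 : ℝ) := Ioo_mem_nhdsGT (by linarith)
    filter_upwards [this] with δ hδ using key δ hδ.1 hδ.2
  obtain ⟨A, hA, e⟩ := hmem
  exact ⟨A, hA, e.symm⟩

/-- `MollAt` in segment form -/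
theorem exists_seg_of_mollAt {μ : Measure E} [μ.IsAddHaarMeasure] {f : E → E} {x : E}
    (h : MollAt μ f x) : ∃ r > 0, ∃ C : Set (E →L[ℝ] E), Good C ∧ Seg C f (ball x r) := by
  obtain ⟨r, hr, K, h1, h2, h3, ⟨L, hL⟩, h4⟩ := h
  exact ⟨r, hr, K, ⟨h1, h2, h3⟩, seg_of_ae h1 h2 hL h4⟩

end finite

/-- **The slow radial interpolation in segment form.** -/
theorem Fam.seg_phi {E : Type*} [NormedAddCommGroup E] [NormedSpace ℝ E] (F : Fam E)
    {τ : ℝ → ℝ} {ε : ℝ} (hτ : Slow τ ε) {x₀ : E} (h0 : x₀ ≠ 0) {r : ℝ} (hr : 0 < r)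
    {C : Set (E →L[ℝ] E)} (hC : ∀ t, |t - F.par τ x₀| < r → Seg C (F.K t) (ball x₀ r)) :
    ∃ r' > 0, Seg (cthickening (3 * F.M * ε) C) (F.phi τ) (ball x₀ r') := by
  have hn : 0 < ‖x₀‖ := norm_pos_iff.2 h0
  have hM := F.M_pos
  have hε := hτ.nonneg
  have hpar : ∀ᶠ y in 𝓝 x₀, |F.par τ y - F.par τ x₀| < r := by
    have := (F.continuousAt_par hτ h0).tendsto
    have h := this.eventually (Metric.ball_mem_nhds _ hr)
    filter_upwards [h] with y hy
    rwa [Real.dist_eq] at hy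
  obtain ⟨r₁, hr₁, hb⟩ := Metric.eventually_nhds_iff_ball.1 hpar
  refine ⟨min (min r r₁) (‖x₀‖ / 5), lt_min (lt_min hr hr₁) (by positivity), ?_⟩
  have hn1 : ∀ y ∈ ball x₀ (min (min r r₁) (‖x₀‖ / 5)), 4 / 5 * ‖x₀‖ ≤ ‖y‖ ∧
      ‖y‖ ≤ 6 / 5 * ‖x₀‖ := by
    intro y hy
    rw [mem_ball_iff_norm] at hy
    have hy' : ‖y - x₀‖ < ‖x₀‖ / 5 := hy.trans_le (min_le_right _ _)
    constructor
    · have : ‖x₀‖ ≤ ‖y‖ + ‖y - x₀‖ := by
        calc ‖x₀‖ = ‖y - (y - x₀)‖ := by congr 1; abel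
          _ ≤ _ := norm_sub_le _ _
      linarith
    · have : ‖y‖ ≤ ‖x₀‖ + ‖y - x₀‖ := by
        calc ‖y‖ = ‖x₀ + (y - x₀)‖ := by congr 1; abel
          _ ≤ _ := norm_add_le _ _
      linarith
  intro a ha b hb'
  have har : a ∈ ball x₀ r := ball_subset_ball ((min_le_left _ _).trans (min_le_left _ _)) ha
  have hbr : b ∈ ball x₀ r := ball_subset_ball ((min_le_left _ _).trans (min_le_left _ _)) hb'
  have har₁ : a ∈ ball x₀ r₁ := ball_subset_ball ((min_le_left _ _).trans (min_le_right _ _)) ha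
  obtain ⟨A, hA, e⟩ := hC _ (hb a har₁) a har b hbr
  rcases eq_or_ne a b with hab | hab
  · subst hab
    exact ⟨A, self_subset_cthickening C hA, by simp⟩
  have hv : a - b ≠ 0 := sub_ne_zero.2 hab
  have hv0 : 0 < ‖a - b‖ := norm_pos_iff.2 hv
  set err := F.K (F.par τ a) b - F.K (F.par τ b) b with herr
  have h1 : ‖err‖ ≤ 3 * F.M * ε * ‖a - b‖ := by
    have h2 : |F.par τ a - F.par τ b| ≤ 2 * ε * (‖a - b‖ / (4 / 5 * ‖x₀‖)) :=
      F.par_sub_le hτ (by positivity) (hn1 a ha).1 (hn1 b hb').1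
    calc ‖err‖ ≤ F.M * |F.par τ a - F.par τ b| * ‖b‖ := F.lipt _ _ _
      _ ≤ F.M * (2 * ε * (‖a - b‖ / (4 / 5 * ‖x₀‖))) * (6 / 5 * ‖x₀‖) := by
          gcongr
          exact (hn1 b hb').2
      _ = 3 * F.M * ε * ‖a - b‖ := by field_simp; ring
  obtain ⟨B, hB1, hB2⟩ := exists_rank_one (a - b) err hv
  refine ⟨A + B, ?_, ?_⟩
  · refine mem_cthickening_of_dist_le _ A _ _ hA ?_
    rw [dist_eq_norm, add_sub_cancel_left]
    refine hB2.trans ?_
    rw [div_le_iff₀ hv0]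
    exact h1
  · show F.phi τ a - F.phi τ b = A (a - b) + B (a - b)
    rw [hB1, ← e, herr]
    simp only [Fam.phi]
    abel

end Crest.Agent.R096.Vx_270
end

-- ▼ part R096/Vx5_270

/-!
# Path theorem for conic maps in the segment class

* `seg_surj` : local surjectivity of maps in the segment class;
* `Unif q K` : the segment condition with one quality `q` near the unit sphere; bounds, surjectivity,
  uniform antilipschitz constant of injective maps;
* `MPath K M` : a path of conic maps on `[0,1]`; `MPath.injective_all`.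
-/

set_option autoImplicit false
set_option linter.unusedSectionVars false

open MeasureTheory Metric Set Filter Topology
open scoped ENNReal NNReal ContDiff

namespace Crest.Agent.R096.Vx_270

open Crest.Agent.R096.Mo_119 (MollAt)

variable {E : Type*} [NormedAddCommGroup E] [NormedSpace ℝ E] [FiniteDimensional ℝ E]

section surj

variable [MeasurableSpace E] [BorelSpace E]

lemma Seg.ae_mem {μ : Measure E} [μ.IsAddHaarMeasure] {C : Set (E →L[ℝ] E)} (hC : IsCompact C)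
    {f : E → E} {x : E} {r : ℝ} (h : Seg C f (ball x r)) :
    ∀ᵐ y ∂μ, y ∈ ball x r → fderiv ℝ f y ∈ star C := by
  obtain ⟨L, hL⟩ := exists_norm_le hC
  have hlip := h.lipschitz hL
  filter_upwards [hlip.ae_differentiableWithinAt_of_mem (μ := μ)] with y hy hyb
  have hn : ball x r ∈ 𝓝 y := isOpen_ball.mem_nhds hyb
  exact h.deriv_mem hC hn ((hy hyb).differentiableAt hn).hasFDerivAt

/-- a local minimum of the distance to `z` of a map with invertible derivative is a solution -/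
lemma eq_of_isLocalMin {g : E → E} {y z : E} {D : E →L[ℝ] E} (hD : D.det ≠ 0)
    (hg : HasStrictFDerivAt g D y) (hmin : IsLocalMin (fun y => ‖g y - z‖) y) : g y = z := by
  by_contra hne
  have hn : 0 < ‖g y - z‖ := norm_pos_iff.2 (sub_ne_zero.2 hne)
  set e := D.toContinuousLinearEquivOfDetNeZero hD with he
  have hg' : HasStrictFDerivAt g (e : E →L[ℝ] E) y := by
    have : (e : E →L[ℝ] E) = D := by
      ext v; simp [he]
    rw [this]; exact hg
  have h1 := hg'.map_nhds_eq_of_equiv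
  have h2 : ∀ᶠ w in 𝓝 (g y), ‖g y - z‖ ≤ ‖w - z‖ := by
    rw [← h1, eventually_map]
    exact hmin
  have h3 : Tendsto (fun s : ℝ => g y + s • (z - g y)) (𝓝[>] 0) (𝓝 (g y)) := by
    have : Continuous fun s : ℝ => g y + s • (z - g y) := by fun_prop
    have h := this.tendsto 0
    rw [zero_smul, add_zero] at h
    exact h.mono_left nhdsWithin_le_nhds
  have h4 : ∀ᶠ s : ℝ in 𝓝[>] 0, s ∈ Ioo (0:ℝ) 1 := Ioo_mem_nhdsGT one_pos
  obtain ⟨s, hs1, hs2⟩ := ((h3.eventually h2).and h4).exists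
  have h5 : g y + s • (z - g y) - z = (1 - s) • (g y - z) := by
    rw [sub_smul, one_smul, smul_sub, smul_sub]; abel
  rw [h5, norm_smul, Real.norm_eq_abs, abs_of_pos (by linarith [hs2.2])] at hs1
  nlinarith [hs2.1]

/-- **Local surjectivity.** -/
theorem seg_surj {C : Set (E →L[ℝ] E)} (hC : Good C) {q : ℝ} (hq : 0 < q)
    (low : ∀ A ∈ C, ∀ v, q * ‖v‖ ≤ ‖A v‖) {f : E → E} {x₀ : E} {R : ℝ}
    (h : Seg C f (ball x₀ R)) {ρ : ℝ} (hρ : 0 < ρ) (hρR : ρ < R) {z : E}
    (hz : ‖z - f x₀‖ ≤ q * ρ / 4) : ∃ y ∈ closedBall x₀ ρ, f y = z := by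
  have : ProperSpace E := FiniteDimensional.proper_real _
  let μ : Measure E := Measure.addHaar
  obtain ⟨L, hL⟩ := exists_norm_le hC.cpt
  have hlip := h.lipschitz hL
  have hae : ∀ᵐ y ∂μ, y ∈ ball x₀ R → fderiv ℝ f y ∈ star C := h.ae_mem hC.cpt
  obtain ⟨dd, hd⟩ := Mo_119.exists_dens μ
  have hk := hd.ker
  obtain ⟨R', hR'1, hR'2⟩ := exists_between hρR
  set κ : ℝ := Mo_119.κE E * L with hκ
  have hκ0 : 0 ≤ κ := by positivity
  have hstar := hC.star
  have key : ∀ δ : ℝ, 0 < δ → δ < R - R' → κ * δ < q * ρ / 4 →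
      ∃ y ∈ closedBall x₀ ρ, ‖f y - z‖ ≤ κ * δ := by
    intro δ hδ hδR hδq
    set g := Mo_119.avg (Mo_119.kerM μ dd) f (fun _ => δ) with hg
    have hx : ∀ w ∈ ball x₀ R', ‖w - x₀‖ + (fun _ : E => δ) w < R := by
      intro w hw
      rw [mem_ball_iff_norm] at hw
      show ‖w - x₀‖ + δ < R
      linarith
    have hcd : ∀ w ∈ ball x₀ R', ContDiffAt ℝ 1 g w := fun w hw =>
      (hd.contDiffAt_avg_loc hlip contDiff_const (x := w) hδ (hx w hw)).of_le (by norm_cast)
    have hder : ∀ w ∈ ball x₀ R', fderiv ℝ g w ∈ star C := by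
      intro w hw
      have h1 := hk.fderiv_avg_loc hlip (η := fun _ => δ) contDiff_const (x := w) hδ (hx w hw)
      have h2 : fderiv ℝ (fun _ : E => δ) w = 0 := by simp
      rw [h2, norm_zero, mul_zero] at h1
      have h3 := sub_eq_zero.1 (norm_le_zero_iff.1 h1)
      rw [hg, h3]
      exact hk.avgD_mem_loc hlip hstar.conv hstar.cpt.isClosed hae hδ (hx w hw)
    have hclose : ∀ w ∈ ball x₀ R', ‖g w - f w‖ ≤ κ * δ := fun w hw =>
      hk.norm_avg_sub_le_loc hlip (η := fun _ => δ) hδ (hx w hw)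
    have hsub : closedBall x₀ ρ ⊆ ball x₀ R' := closedBall_subset_ball hR'1
    have hcont : ContinuousOn (fun y => ‖g y - z‖) (closedBall x₀ ρ) := fun w hw =>
      ((hcd w (hsub hw)).continuousAt.sub continuousAt_const).norm.continuousWithinAt
    obtain ⟨y, hy, hymin⟩ := (isCompact_closedBall x₀ ρ).exists_isMinOn
      ⟨x₀, mem_closedBall_self hρ.le⟩ hcont
    have hx₀m : x₀ ∈ closedBall x₀ ρ := mem_closedBall_self hρ.le
    -- the minimum is interior
    have hyint : y ∈ ball x₀ ρ := by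
      by_contra hyn
      have hyn' : ‖y - x₀‖ = ρ := by
        rw [mem_closedBall_iff_norm] at hy
        rw [mem_ball_iff_norm, not_lt] at hyn
        exact le_antisymm hy hyn
      have h1 : ‖g y - z‖ ≤ ‖g x₀ - z‖ := hymin hx₀m
      have h2 : ‖g x₀ - z‖ ≤ κ * δ + q * ρ / 4 := by
        calc ‖g x₀ - z‖ = ‖(g x₀ - f x₀) - (z - f x₀)‖ := by congr 1; abel
          _ ≤ ‖g x₀ - f x₀‖ + ‖z - f x₀‖ := norm_sub_le _ _
          _ ≤ _ := add_le_add (hclose x₀ (hsub hx₀m)) hz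
      obtain ⟨A, hA, e⟩ := Mo_119.exists_seg (convex_ball x₀ R') hstar.conv hstar.cpt.isClosed
        hcd hder (hsub hy) (hsub hx₀m)
      obtain ⟨A', hA', e'⟩ := hA (y - x₀)
      have h3 : q * ρ ≤ ‖g y - g x₀‖ := by
        rw [e, e', ← hyn']
        exact low A' hA' _
      have h4 : ‖g y - g x₀‖ ≤ ‖g y - z‖ + ‖g x₀ - z‖ := by
        calc ‖g y - g x₀‖ = ‖(g y - z) - (g x₀ - z)‖ := by congr 1; abel
          _ ≤ _ := norm_sub_le _ _
      linarith
    have hloc : IsLocalMin (fun y => ‖g y - z‖) y :=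
      hymin.isLocalMin (Filter.mem_of_superset (isOpen_ball.mem_nhds hyint) ball_subset_closedBall)
    have hyz : g y = z := by
      refine eq_of_isLocalMin (D := fderiv ℝ g y) (hstar.pos _ (hder y (hsub hy))).ne' ?_ hloc
      exact (hcd y (hsub hy)).hasStrictFDerivAt one_ne_zero
    refine ⟨y, hy, ?_⟩
    rw [← hyz, norm_sub_rev]
    exact hclose y (hsub hy)
  -- the minimum of the distance vanishes
  have hcontf : ContinuousOn (fun y => ‖f y - z‖) (closedBall x₀ ρ) :=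
    ((hlip.continuousOn.mono (closedBall_subset_ball hρR)).sub continuousOn_const).norm
  obtain ⟨y, hy, hymin⟩ := (isCompact_closedBall x₀ ρ).exists_isMinOn
    ⟨x₀, mem_closedBall_self hρ.le⟩ hcontf
  refine ⟨y, hy, ?_⟩
  have hlim : ∀ᶠ δ : ℝ in 𝓝[>] 0, ‖f y - z‖ ≤ κ * δ := by
    have h1 : Ioo 0 (R - R') ∈ 𝓝[>] (0 : ℝ) := Ioo_mem_nhdsGT (by linarith)
    have h2 : ∀ᶠ δ : ℝ in 𝓝[>] 0, κ * δ < q * ρ / 4 := by
      have : Continuous fun δ : ℝ => κ * δ := by fun_prop
      have h := this.tendsto 0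
      rw [mul_zero] at h
      exact (h.mono_left nhdsWithin_le_nhds).eventually_lt_const (by positivity)
    filter_upwards [h1, h2] with δ hδ1 hδ2
    obtain ⟨w, hw, hwz⟩ := key δ hδ1.1 hδ1.2 hδ2
    exact (hymin hw).trans hwz
  have h0 : Tendsto (fun δ : ℝ => κ * δ) (𝓝[>] 0) (𝓝 0) := by
    have : Continuous fun δ : ℝ => κ * δ := by fun_prop
    have h := this.tendsto 0
    rw [mul_zero] at h
    exact h.mono_left nhdsWithin_le_nhds
  have h1 : ‖f y - z‖ ≤ 0 := ge_of_tendsto h0 hlim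
  exact sub_eq_zero.1 (norm_le_zero_iff.1 h1)

end surj

/-! ### quality -/

/-- a good set with quality `q` -/
structure GoodQ (q : ℝ) (C : Set (E →L[ℝ] E)) : Prop where
  conv : Convex ℝ C
  cpt : IsCompact C
  thick : ∀ B ∈ cthickening q C, 0 < B.det
  low : ∀ A ∈ C, ∀ v, q * ‖v‖ ≤ ‖A v‖
  up : ∀ A ∈ C, ∀ v, q * ‖A v‖ ≤ ‖v‖

lemma GoodQ.good {q : ℝ} {C : Set (E →L[ℝ] E)} (h : GoodQ q C) : Good C :=
  ⟨h.conv, h.cpt, fun A hA => h.thick A (self_subset_cthickening C hA)⟩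

lemma GoodQ.mono {q q' : ℝ} {C : Set (E →L[ℝ] E)} (h : GoodQ q C) (hq : q' ≤ q) :
    GoodQ q' C :=
  ⟨h.conv, h.cpt, fun B hB => h.thick B (cthickening_mono hq _ hB),
    fun A hA v => (mul_le_mul_of_nonneg_right hq (norm_nonneg _)).trans (h.low A hA v),
    fun A hA v => (mul_le_mul_of_nonneg_right hq (norm_nonneg _)).trans (h.up A hA v)⟩

lemma Good.exists_q {C : Set (E →L[ℝ] E)} (hC : Good C) : ∃ q > 0, GoodQ q C := by
  obtain ⟨t, ht, h⟩ := Mo_119.exists_tol hC.cpt hC.pos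
  obtain ⟨L, hL⟩ := exists_norm_le hC.cpt
  refine ⟨min t (1 / (L + 1)), lt_min ht (by positivity), hC.conv, hC.cpt, ?_, ?_, ?_⟩
  · intro B hB
    exact (h B (cthickening_mono (min_le_left _ _) _ hB)).1
  · intro A hA v
    refine le_trans ?_ ((h A (self_subset_cthickening C hA)).2 v)
    exact mul_le_mul_of_nonneg_right (min_le_left _ _) (norm_nonneg _)
  · intro A hA v
    have h1 : ‖A v‖ ≤ (L + 1) * ‖v‖ :=
      (A.le_opNorm v).trans (mul_le_mul_of_nonneg_right ((hL A hA).trans (by simp))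
        (norm_nonneg _))
    have h2 : (0 : ℝ) < L + 1 := by positivity
    calc min t (1 / ((L : ℝ) + 1)) * ‖A v‖ ≤ 1 / ((L : ℝ) + 1) * ((L + 1) * ‖v‖) :=
          mul_le_mul (min_le_right _ _) h1 (norm_nonneg _) (by positivity)
      _ = ‖v‖ := by field_simp

/-- the segment condition near the unit sphere with quality `q` -/
def Unif (q : ℝ) (K : E → E) : Prop :=
  ∀ x₀ : E, ‖x₀‖ = 1 → ∃ C : Set (E →L[ℝ] E), GoodQ q C ∧ Seg C K (ball x₀ q)

/-- positively homogeneous of degree one -/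
def Hom (K : E → E) : Prop := ∀ (c : ℝ) x, 0 < c → K (c • x) = c • K x

lemma Hom.zero {K : E → E} (h : Hom K) : K 0 = 0 := by
  have h1 := h 2 0 two_pos
  rw [smul_zero, two_smul] at h1
  have h2 : K 0 + 0 = K 0 + K 0 := by rw [add_zero]; exact h1
  exact (add_left_cancel h2).symm

lemma Seg.scale {C : Set (E →L[ℝ] E)} {K : E → E} (hK : Hom K) {x : E} {r c : ℝ} (hc : 0 < c)
    (h : Seg C K (ball x r)) : Seg C K (ball (c • x) (c * r)) := by
  have hm : ∀ a ∈ ball (c • x) (c * r), c⁻¹ • a ∈ ball x r := by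
    intro a ha
    rw [mem_ball_iff_norm] at ha ⊢
    have : c⁻¹ • a - x = c⁻¹ • (a - c • x) := by
      rw [smul_sub, smul_smul, inv_mul_cancel₀ hc.ne', one_smul]
    rw [this, norm_smul, Real.norm_eq_abs, abs_of_pos (inv_pos.2 hc), inv_mul_lt_iff₀ hc]
    exact ha
  intro a ha b hb
  obtain ⟨A, hA, e⟩ := h _ (hm a ha) _ (hm b hb)
  refine ⟨A, hA, ?_⟩
  rw [hK _ _ (inv_pos.2 hc), hK _ _ (inv_pos.2 hc), ← smul_sub, ← smul_sub, map_smul] at e
  have := congrArg (fun z => c • z) e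
  simpa only [smul_smul, mul_inv_cancel₀ hc.ne', one_smul] using this

section unif

variable {q : ℝ} {K : E → E}

lemma Unif.at_ne (hq : 0 < q) (hK : Hom K) (h : Unif q K) {x : E} (hx : x ≠ 0) :
    ∃ C : Set (E →L[ℝ] E), GoodQ q C ∧ Seg C K (ball x (‖x‖ * q)) := by
  have hn : 0 < ‖x‖ := norm_pos_iff.2 hx
  obtain ⟨C, hC, hs⟩ := h (‖x‖⁻¹ • x) (by
    rw [norm_smul, norm_inv, norm_norm, inv_mul_cancel₀ hn.ne'])
  refine ⟨C, hC, ?_⟩
  have := hs.scale hK hn
  rwa [smul_smul, mul_inv_cancel₀ hn.ne', one_smul] at this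

lemma Unif.val (hq : 0 < q) (hq1 : q ≤ 1) (hK : Hom K) (h : Unif q K) {x : E} (hx : x ≠ 0) :
    ∃ C : Set (E →L[ℝ] E), GoodQ q C ∧ ∃ A ∈ C, K x = A x := by
  have hn : 0 < ‖x‖ := norm_pos_iff.2 hx
  obtain ⟨C, hC, hs⟩ := h.at_ne hq hK hx
  refine ⟨C, hC, ?_⟩
  have h1 : x ∈ ball x (‖x‖ * q) := mem_ball_self (by positivity)
  have h2 : (1 - q / 2) • x ∈ ball x (‖x‖ * q) := by
    rw [mem_ball_iff_norm]
    have : (1 - q / 2) • x - x = -((q / 2) • x) := by rw [sub_smul, one_smul]; abel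
    rw [this, norm_neg, norm_smul, Real.norm_eq_abs, abs_of_pos (by positivity)]
    nlinarith
  obtain ⟨A, hA, e⟩ := hs _ h1 _ h2
  refine ⟨A, hA, ?_⟩
  have e1 : x - (1 - q / 2) • x = (q / 2) • x := by rw [sub_smul, one_smul]; abel
  rw [hK _ _ (by linarith), e1, map_smul] at e
  have e2 : K x - (1 - q / 2) • K x = (q / 2) • K x := by rw [sub_smul, one_smul]; abel
  rw [e2] at e
  have := congrArg (fun z => (q / 2)⁻¹ • z) e
  simpa only [smul_smul, inv_mul_cancel₀ (half_pos hq).ne', one_smul] using this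

lemma Unif.low (hq : 0 < q) (hq1 : q ≤ 1) (hK : Hom K) (h : Unif q K) (x : E) :
    q * ‖x‖ ≤ ‖K x‖ := by
  rcases eq_or_ne x 0 with hx | hx
  · subst hx; simp
  · obtain ⟨C, hC, A, hA, e⟩ := h.val hq hq1 hK hx
    rw [e]; exact hC.low A hA x

lemma Unif.up (hq : 0 < q) (hq1 : q ≤ 1) (hK : Hom K) (h : Unif q K) (x : E) :
    q * ‖K x‖ ≤ ‖x‖ := by
  rcases eq_or_ne x 0 with hx | hx
  · subst hx; simp [hK.zero]
  · obtain ⟨C, hC, A, hA, e⟩ := h.val hq hq1 hK hx
    rw [e]; exact hC.up A hA x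

/-- reduction to `‖x‖ = 1`, `‖y‖ ≤ 1` -/
lemma Hom.reduce (hK : Hom K) {P : ℝ → ℝ → Prop} (hP : ∀ (c s t : ℝ), 0 < c → P s t →
    P (c * s) (c * t)) (hPs : ∀ x y : E, P ‖K x - K y‖ ‖x - y‖ → P ‖K y - K x‖ ‖y - x‖)
    (h0 : P 0 0) (h : ∀ x y : E, ‖x‖ = 1 → ‖y‖ ≤ 1 → P ‖K x - K y‖ ‖x - y‖) (x y : E) :
    P ‖K x - K y‖ ‖x - y‖ := by
  have main : ∀ x y : E, ‖y‖ ≤ ‖x‖ → P ‖K x - K y‖ ‖x - y‖ := by
    intro x y hxy
    rcases eq_or_ne x 0 with hx | hx
    · subst hx
      rw [norm_zero] at hxy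
      have : y = 0 := norm_le_zero_iff.1 hxy
      subst this
      simpa using h0
    · have hn : 0 < ‖x‖ := norm_pos_iff.2 hx
      have h1 := h (‖x‖⁻¹ • x) (‖x‖⁻¹ • y)
        (by rw [norm_smul, norm_inv, norm_norm, inv_mul_cancel₀ hn.ne'])
        (by rw [norm_smul, norm_inv, norm_norm, inv_mul_le_iff₀ hn, mul_one]; exact hxy)
      rw [hK _ _ (inv_pos.2 hn), hK _ _ (inv_pos.2 hn), ← smul_sub, ← smul_sub, norm_smul,
        norm_smul, norm_inv, norm_norm] at h1
      have h2 := hP ‖x‖ _ _ hn h1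
      rwa [← mul_assoc, ← mul_assoc, mul_inv_cancel₀ hn.ne', one_mul, one_mul] at h2
  rcases le_total ‖y‖ ‖x‖ with hxy | hxy
  · exact main x y hxy
  · exact hPs y x (main y x hxy)

lemma Unif.lip (hq : 0 < q) (hq1 : q ≤ 1) (hK : Hom K) (h : Unif q K) (x y : E) :
    ‖K x - K y‖ ≤ 2 / q ^ 2 * ‖x - y‖ := by
  refine hK.reduce (P := fun s t => s ≤ 2 / q ^ 2 * t) ?_ ?_ (by simp) ?_ x y
  · intro c s t hc hst
    have := mul_le_mul_of_nonneg_left hst hc.le
    linarith [mul_left_comm c (2 / q ^ 2) t]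
  · intro x y hxy
    rwa [norm_sub_rev, norm_sub_rev y x]
  · intro x y hx hy
    have hx0 : x ≠ 0 := by
      intro h; rw [h, norm_zero] at hx; norm_num at hx
    have hq2 : 1 / q ≤ 2 / q ^ 2 := by
      rw [div_le_div_iff₀ hq (by positivity)]; nlinarith
    rcases lt_or_ge ‖x - y‖ q with hxy | hxy
    · obtain ⟨C, hC, hs⟩ := h.at_ne hq hK hx0
      rw [hx, one_mul] at hs
      obtain ⟨A, hA, e⟩ := hs x (mem_ball_self hq) y (by rw [mem_ball_iff_norm, norm_sub_rev]; exact hxy)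
      rw [e]
      have h1 := hC.up A hA (x - y)
      have h2 : ‖A (x - y)‖ ≤ 1 / q * ‖x - y‖ := by
        rw [div_mul_eq_mul_div, one_mul, le_div_iff₀ hq]; linarith [mul_comm q ‖A (x - y)‖]
      exact h2.trans (mul_le_mul_of_nonneg_right hq2 (norm_nonneg _))
    · have h1 := h.up hq hq1 hK x
      have h2 := h.up hq hq1 hK y
      have h3 : ‖K x - K y‖ ≤ ‖K x‖ + ‖K y‖ := norm_sub_le _ _
      have h4 : q * ‖K x - K y‖ ≤ 2 := by nlinarith
      have h5 : ‖K x - K y‖ ≤ 2 / q := by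
        rw [le_div_iff₀ hq]; linarith [mul_comm q ‖K x - K y‖]
      refine h5.trans ?_
      calc 2 / q = 2 / q ^ 2 * q := by field_simp
        _ ≤ 2 / q ^ 2 * ‖x - y‖ := mul_le_mul_of_nonneg_left hxy (by positivity)

lemma Unif.continuous (hq : 0 < q) (hq1 : q ≤ 1) (hK : Hom K) (h : Unif q K) :
    Continuous K := by
  have : LipschitzWith ⟨2 / q ^ 2, by positivity⟩ K := LipschitzWith.of_dist_le_mul fun x y => by
    rw [dist_eq_norm, dist_eq_norm]; exact h.lip hq hq1 hK x y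
  exact this.continuous

variable [MeasurableSpace E] [BorelSpace E]

lemma Unif.surj_near (hq : 0 < q) (hK : Hom K) (h : Unif q K) {x : E} (hx : x ≠ 0) {ρ : ℝ}
    (hρ : 0 < ρ) (hρq : ρ < ‖x‖ * q) {z : E} (hz : ‖z - K x‖ ≤ q * ρ / 4) :
    ∃ y ∈ closedBall x ρ, K y = z := by
  obtain ⟨C, hC, hs⟩ := h.at_ne hq hK hx
  exact seg_surj hC.good hq hC.low hs hρ hρq hz

/-- **Surjectivity.** -/
theorem Unif.surjective (hE : 1 < Module.finrank ℝ E) (hq : 0 < q) (hq1 : q ≤ 1) (hK : Hom K)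
    (h : Unif q K) : Function.Surjective K := by
  have : ProperSpace E := FiniteDimensional.proper_real _
  have hrank : 1 < Module.rank ℝ E := by
    rw [← Module.finrank_eq_rank]
    exact_mod_cast hE
  have hconn : IsPreconnected ({0}ᶜ : Set E) :=
    (isConnected_compl_singleton_of_one_lt_rank hrank 0).isPreconnected
  have : Nontrivial E := Module.nontrivial_of_finrank_pos (R := ℝ) (by linarith)
  set U : Set E := K '' {0}ᶜ with hU
  have hne : ∀ x : E, x ≠ 0 → K x ≠ 0 := by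
    intro x hx h0
    have := h.low hq hq1 hK x
    rw [h0, norm_zero] at this
    have hn : 0 < ‖x‖ := norm_pos_iff.2 hx
    nlinarith
  have hopen : IsOpen U := by
    rw [Metric.isOpen_iff]
    rintro _ ⟨x, hx, rfl⟩
    have hx0 : x ≠ 0 := hx
    have hn : 0 < ‖x‖ := norm_pos_iff.2 hx0
    refine ⟨q * (‖x‖ * q / 2) / 4, by positivity, ?_⟩
    intro z hz
    rw [mem_ball_iff_norm] at hz
    obtain ⟨y, hy, e⟩ := h.surj_near hq hK hx0 (ρ := ‖x‖ * q / 2) (by positivity)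
      (by nlinarith [mul_pos hn hq]) hz.le
    refine ⟨y, ?_, e⟩
    rintro rfl
    rw [mem_closedBall_iff_norm, zero_sub, norm_neg] at hy
    nlinarith
  have hclosed : closure U ∩ {0}ᶜ ⊆ U := by
    rintro z ⟨hz1, hz2⟩
    obtain ⟨u, hu1, hu2⟩ := mem_closure_iff_seq_limit.1 hz1
    choose x hx1 hx2 using hu1
    -- the preimages are bounded
    obtain ⟨M, hM⟩ := (hu2.norm).bddAbove_range
    have hbd : ∀ n, x n ∈ closedBall (0 : E) (M / q) := by
      intro n
      rw [mem_closedBall_zero_iff, le_div_iff₀ hq]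
      have h1 := h.low hq hq1 hK (x n)
      rw [hx2] at h1
      have h2 : ‖u n‖ ≤ M := hM ⟨n, rfl⟩
      linarith [mul_comm q ‖x n‖]
    obtain ⟨y, -, φ, hφ, hy⟩ := (isCompact_closedBall (0 : E) (M / q)).tendsto_subseq hbd
    have h3 : Tendsto (fun n => K (x (φ n))) atTop (𝓝 (K y)) :=
      ((h.continuous hq hq1 hK).tendsto y).comp hy
    have h4 : Tendsto (fun n => K (x (φ n))) atTop (𝓝 z) := by
      have := hu2.comp hφ.tendsto_atTop
      refine this.congr fun n => ?_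
      exact (hx2 (φ n)).symm
    have h5 := tendsto_nhds_unique h3 h4
    refine ⟨y, ?_, h5⟩
    rintro rfl
    rw [hK.zero] at h5
    exact hz2 h5.symm
  have hsub : ({0}ᶜ : Set E) ⊆ U := by
    refine hconn.subset_of_closure_inter_subset hopen ?_ hclosed
    obtain ⟨x, hx⟩ := exists_ne (0 : E)
    exact ⟨K x, hne x hx, ⟨x, hx, rfl⟩⟩
  intro z
  rcases eq_or_ne z 0 with hz | hz
  · exact ⟨0, by rw [hK.zero, hz]⟩
  · obtain ⟨x, -, e⟩ := hsub hz
    exact ⟨x, e⟩

/-- separation of far points by an injective map, quantitative -/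
lemma Unif.far (hq : 0 < q) (hq1 : q ≤ 1) (hK : Hom K) (h : Unif q K)
    (hinj : Function.Injective K) {x y : E} (hx : ‖x‖ = 1) (hxy : q / 2 ≤ ‖x - y‖) :
    q ^ 2 / 16 ≤ ‖K x - K y‖ := by
  by_contra hcon
  push Not at hcon
  have hx0 : x ≠ 0 := by
    intro h; rw [h, norm_zero] at hx; norm_num at hx
  obtain ⟨w, hw, e⟩ := h.surj_near hq hK hx0 (ρ := q / 4) (by positivity) (by rw [hx]; linarith)
    (z := K y) (by rw [norm_sub_rev]; nlinarith)
  have hwy := hinj e
  subst hwy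
  rw [mem_closedBall_iff_norm, norm_sub_rev] at hw
  linarith

lemma Unif.near (hq : 0 < q) (hK : Hom K) (h : Unif q K) {x y : E} (hx : ‖x‖ = 1)
    (hxy : ‖x - y‖ < q) : q * ‖x - y‖ ≤ ‖K x - K y‖ := by
  have hx0 : x ≠ 0 := by
    intro h; rw [h, norm_zero] at hx; norm_num at hx
  obtain ⟨C, hC, hs⟩ := h.at_ne hq hK hx0
  rw [hx, one_mul] at hs
  obtain ⟨A, hA, e⟩ := hs x (mem_ball_self hq) y (by rw [mem_ball_iff_norm, norm_sub_rev]; exact hxy)
  rw [e]
  exact hC.low A hA _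

/-- **Uniform antilipschitz constant.** -/
theorem Unif.antilip (hq : 0 < q) (hq1 : q ≤ 1) (hK : Hom K) (h : Unif q K)
    (hinj : Function.Injective K) (x y : E) : q ^ 2 / 32 * ‖x - y‖ ≤ ‖K x - K y‖ := by
  refine hK.reduce (P := fun s t => q ^ 2 / 32 * t ≤ s) ?_ ?_ (by simp) ?_ x y
  · intro c s t hc hst
    have := mul_le_mul_of_nonneg_left hst hc.le
    linarith [mul_left_comm c (q ^ 2 / 32) t]
  · intro x y hxy
    rwa [norm_sub_rev, norm_sub_rev (K y)]
  · intro x y hx hy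
    rcases lt_or_ge ‖x - y‖ (q / 2) with hxy | hxy
    · refine le_trans ?_ (h.near hq hK hx (by linarith))
      exact mul_le_mul_of_nonneg_right (by nlinarith) (norm_nonneg _)
    · refine le_trans ?_ (h.far hq hq1 hK hinj hx hxy)
      have : ‖x - y‖ ≤ 2 := (norm_sub_le _ _).trans (by linarith)
      nlinarith [sq_nonneg q]

end unif

/-! ### paths -/

/-- a path of conic maps in the segment class -/
structure MPath (K : ℝ → E → E) (M : ℝ) : Prop where
  hom : ∀ t ∈ Icc (0 : ℝ) 1, Hom (K t)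
  lipt : ∀ s ∈ Icc (0 : ℝ) 1, ∀ t ∈ Icc (0 : ℝ) 1, ∀ x, ‖K s x - K t x‖ ≤ M * |s - t| * ‖x‖
  seg : ∀ t₀ ∈ Icc (0 : ℝ) 1, ∀ x₀ : E, ‖x₀‖ = 1 → ∃ r > 0, ∃ C : Set (E →L[ℝ] E), Good C ∧
    ∀ t ∈ Icc (0 : ℝ) 1, |t - t₀| < r → Seg C (K t) (ball x₀ r)

/-- one quality along the path -/
theorem MPath.unif {K : ℝ → E → E} {M : ℝ} (h : MPath K M) : ∃ q, 0 < q ∧ q ≤ 1 ∧
    ∀ t ∈ Icc (0 : ℝ) 1, ∀ x₀ : E, ‖x₀‖ = 1 → ∃ C : Set (E →L[ℝ] E), GoodQ q C ∧
      ∀ s ∈ Icc (0 : ℝ) 1, |s - t| < q → Seg C (K s) (ball x₀ q) := by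
  classical
  have : ProperSpace E := FiniteDimensional.proper_real _
  have hseg : ∀ t₀ ∈ Icc (0 : ℝ) 1, ∀ x₀ : E, ‖x₀‖ = 1 → ∃ r > 0, ∃ C : Set (E →L[ℝ] E),
      GoodQ r C ∧ ∀ t ∈ Icc (0 : ℝ) 1, |t - t₀| < r → Seg C (K t) (ball x₀ r) := by
    intro t₀ ht₀ x₀ hx₀
    obtain ⟨r, hr, C, hC, hs⟩ := h.seg t₀ ht₀ x₀ hx₀
    obtain ⟨q, hq, hCq⟩ := hC.exists_q
    refine ⟨min r q, lt_min hr hq, C, hCq.mono (min_le_right _ _), fun t ht htt => ?_⟩
    exact (hs t ht (htt.trans_le (min_le_left _ _))).mono subset_rfl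
      (ball_subset_ball (min_le_left _ _))
  choose! r hr C hC hs using hseg
  set Q : Set (ℝ × E) := Icc (0 : ℝ) 1 ×ˢ sphere (0 : E) 1 with hQ
  have hQc : IsCompact Q := isCompact_Icc.prod (isCompact_sphere 0 1)
  have hmem : ∀ q ∈ Q, q.1 ∈ Icc (0 : ℝ) 1 ∧ ‖q.2‖ = 1 := by
    rintro ⟨t, x⟩ ⟨h1, h2⟩
    exact ⟨h1, by simpa using h2⟩
  obtain ⟨s, hcov⟩ := hQc.elim_nhds_subcover' (fun q _ => ball q (r q.1 q.2 / 2))
    (fun q hq => ball_mem_nhds q (half_pos (hr _ (hmem q hq).1 _ (hmem q hq).2)))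
  obtain ⟨q₀, hq₀, hle⟩ : ∃ q₀ > 0, ∀ p ∈ s, q₀ ≤ r p.1.1 p.1.2 / 2 := by
    rcases s.eq_empty_or_nonempty with hs0 | hs0
    · exact ⟨1, one_pos, by simp [hs0]⟩
    · refine ⟨s.inf' hs0 fun p => r p.1.1 p.1.2 / 2, ?_, fun p hp => Finset.inf'_le _ hp⟩
      rw [gt_iff_lt, Finset.lt_inf'_iff]
      intro p _
      exact half_pos (hr _ (hmem p.1 p.2).1 _ (hmem p.1 p.2).2)
  refine ⟨min q₀ 1, lt_min hq₀ one_pos, min_le_right _ _, fun t ht x₀ hx₀ => ?_⟩
  have hq₁ : (t, x₀) ∈ Q := ⟨ht, by simpa using hx₀⟩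
  have hc := hcov hq₁
  simp only [mem_iUnion] at hc
  obtain ⟨p, hp, hball⟩ := hc
  rw [mem_ball, Prod.dist_eq] at hball
  have hb1 : dist t p.1.1 < r p.1.1 p.1.2 / 2 := (le_max_left _ _).trans_lt hball
  have hb2 : dist x₀ p.1.2 < r p.1.1 p.1.2 / 2 := (le_max_right _ _).trans_lt hball
  have hpm := hmem p.1 p.2
  have hrp := hr _ hpm.1 _ hpm.2
  have hple := hle p hp
  refine ⟨C p.1.1 p.1.2, (hC _ hpm.1 _ hpm.2).mono ((min_le_left _ _).trans (by linarith)), ?_⟩
  intro s' hs' hss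
  have h1 : |s' - p.1.1| < r p.1.1 p.1.2 := by
    rw [Real.dist_eq] at hb1
    calc |s' - p.1.1| = |(s' - t) + (t - p.1.1)| := by congr 1; ring
      _ ≤ |s' - t| + |t - p.1.1| := abs_add_le _ _
      _ < r p.1.1 p.1.2 / 2 + r p.1.1 p.1.2 / 2 :=
          add_lt_add ((hss.trans_le (min_le_left _ _)).trans_le hple) hb1
      _ = _ := by ring
  refine (hs _ hpm.1 _ hpm.2 s' hs' h1).mono subset_rfl ?_
  intro y hy
  rw [mem_ball] at hy ⊢
  calc dist y p.1.2 ≤ dist y x₀ + dist x₀ p.1.2 := dist_triangle _ _ _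
    _ < r p.1.1 p.1.2 / 2 + r p.1.1 p.1.2 / 2 :=
        add_lt_add ((hy.trans_le (min_le_left _ _)).trans_le hple) hb2
    _ = _ := by ring

/-- **Path theorem**: injectivity is preserved along a path. -/
theorem MPath.injective_all [MeasurableSpace E] [BorelSpace E] {K : ℝ → E → E} {M : ℝ}
    (h : MPath K M) {t₁ : ℝ} (ht₁ : t₁ ∈ Icc (0 : ℝ) 1) (hinj : Function.Injective (K t₁)) :
    ∀ t ∈ Icc (0 : ℝ) 1, Function.Injective (K t) := by
  obtain ⟨q, hq, hq1, hu⟩ := h.unif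
  have hU : ∀ t ∈ Icc (0 : ℝ) 1, Unif q (K t) := fun t ht x₀ hx₀ => by
    obtain ⟨C, hC, hs⟩ := hu t ht x₀ hx₀
    exact ⟨C, hC, hs t ht (by rw [sub_self, abs_zero]; exact hq)⟩
  set δ : ℝ := q ^ 2 / (32 * (|M| + 1)) with hδ
  have hδ0 : 0 < δ := by positivity
  -- one step
  have step : ∀ s ∈ Icc (0 : ℝ) 1, ∀ t ∈ Icc (0 : ℝ) 1, |t - s| < δ →
      Function.Injective (K s) → Function.Injective (K t) := by
    intro s hs t ht hts hinj x y hxy
    by_contra hne
    have hK := h.hom t ht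
    have hcon : ∀ x y : E, ‖x‖ = 1 → ‖y‖ ≤ 1 → x ≠ y → K t x ≠ K t y := by
      intro x y hx hy hne e
      rcases lt_or_ge ‖x - y‖ (q / 2) with h1 | h1
      · have h2 := (hU t ht).near hq hK hx (y := y) (by linarith)
        rw [e, sub_self, norm_zero] at h2
        have h3 : 0 < ‖x - y‖ := norm_pos_iff.2 (sub_ne_zero.2 hne)
        nlinarith
      · have h2 := (hU s hs).far hq hq1 (h.hom s hs) hinj hx h1
        have h3 : ‖K s x - K s y‖ ≤ 2 * (|M| * δ) := by
          have e1 : K s x - K s y = (K s x - K t x) + (K t y - K s y) := by rw [← e]; abel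
          have h4 : ‖K s x - K t x‖ ≤ |M| * δ := by
            refine (h.lipt s hs t ht x).trans ?_
            rw [hx, mul_one]
            refine (mul_le_mul_of_nonneg_right (le_abs_self M) (abs_nonneg _)).trans ?_
            rw [abs_sub_comm]
            exact mul_le_mul_of_nonneg_left hts.le (abs_nonneg _)
          have h5 : ‖K t y - K s y‖ ≤ |M| * δ := by
            refine (h.lipt t ht s hs y).trans ?_
            calc M * |t - s| * ‖y‖ ≤ |M| * |t - s| * 1 :=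
                  mul_le_mul (mul_le_mul_of_nonneg_right (le_abs_self M) (abs_nonneg _)) hy
                    (norm_nonneg _) (by positivity)
              _ ≤ |M| * δ := by
                  rw [mul_one]
                  exact mul_le_mul_of_nonneg_left hts.le (abs_nonneg _)
          rw [e1]
          exact (norm_add_le _ _).trans (by linarith)
        have h6 : 2 * (|M| * δ) < q ^ 2 / 16 := by
          have h7 : |M| * δ < q ^ 2 / 32 := by
            rw [hδ, mul_div_assoc', div_lt_div_iff₀ (by positivity) (by norm_num)]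
            have : 0 < q ^ 2 := by positivity
            nlinarith [abs_nonneg M]
          linarith
        linarith
    -- scaling
    have main : ∀ x y : E, ‖y‖ ≤ ‖x‖ → x ≠ y → K t x ≠ K t y := by
      intro x y hyx hne e
      have hx : x ≠ 0 := by
        rintro rfl
        rw [norm_zero] at hyx
        exact hne (norm_le_zero_iff.1 hyx).symm
      have hn : 0 < ‖x‖ := norm_pos_iff.2 hx
      refine hcon (‖x‖⁻¹ • x) (‖x‖⁻¹ • y)
        (by rw [norm_smul, norm_inv, norm_norm, inv_mul_cancel₀ hn.ne'])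
        (by rw [norm_smul, norm_inv, norm_norm, inv_mul_le_iff₀ hn, mul_one]; exact hyx) ?_ ?_
      · intro h1
        apply hne
        have := congrArg (fun z => ‖x‖ • z) h1
        simpa only [smul_smul, mul_inv_cancel₀ hn.ne', one_smul] using this
      · rw [hK _ _ (inv_pos.2 hn), hK _ _ (inv_pos.2 hn), e]
    rcases le_total ‖y‖ ‖x‖ with h1 | h1
    · exact main x y h1 hne hxy
    · exact main y x h1 (Ne.symm hne) hxy.symm
  -- finitely many steps
  intro t ht
  obtain ⟨N, hN⟩ := exists_nat_gt (1 / δ)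
  have hN0 : (0 : ℝ) < N := lt_trans (by positivity) hN
  have hpt : ∀ k : ℕ, k ≤ N → t₁ + (k / N : ℝ) * (t - t₁) ∈ Icc (0 : ℝ) 1 := by
    intro k hk
    have h1 : (k / N : ℝ) ∈ Icc (0 : ℝ) 1 := by
      refine ⟨by positivity, ?_⟩
      rw [div_le_one hN0]
      exact_mod_cast hk
    have := (convex_Icc (0 : ℝ) 1).add_smul_sub_mem ht₁ ht h1
    simpa [smul_eq_mul] using this
  have hind : ∀ k : ℕ, k ≤ N → Function.Injective (K (t₁ + (k / N : ℝ) * (t - t₁))) := by
    intro k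
    induction k with
    | zero => intro _; simpa using hinj
    | succ k ih =>
      intro hk
      refine step _ (hpt k (by omega)) _ (hpt (k + 1) hk) ?_ (ih (by omega))
      have e : t₁ + ((k + 1 : ℕ) / N : ℝ) * (t - t₁) - (t₁ + (k / N : ℝ) * (t - t₁)) =
          (1 / N) * (t - t₁) := by
        push_cast; field_simp; ring
      rw [e, abs_mul, abs_of_pos (by positivity)]
      have h1 : |t - t₁| ≤ 1 := by
        rw [abs_le]; constructor <;> linarith [ht.1, ht.2, ht₁.1, ht₁.2]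
      have h2 : 1 / (N : ℝ) < δ := by
        rw [div_lt_comm₀ hN0 hδ0]; exact hN
      calc 1 / (N : ℝ) * |t - t₁| ≤ 1 / (N : ℝ) * 1 := by gcongr
        _ < δ := by rw [mul_one]; exact h2
  have := hind N le_rfl
  have e : t₁ + ((N : ℝ) / N) * (t - t₁) = t := by
    rw [div_self hN0.ne']; ring
  rwa [e] at this

end Crest.Agent.R096.Vx_270
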