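import Crest.Agent.R096.Xp3_537
import Crest.Agent.R096.Ce2_537
import Crest.Agent.R096.Sk2_962

-- ▼ part R096/Xp4_537
section

/-!
# R096 (row 96), EXPLODE, part 4 (helper537)

The structure `Expl` (charts `e q : M q × cell q ≃ P q` over a convex cell complex, the fibre `M q`
a PL ball with boundary the union of the transported fibres of the larger cells) and the weights
`lam q : M q → chain weights` obtained by coning.
-/

set_option autoImplicit false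
set_option linter.unusedSectionVars false
set_option linter.unusedVariables false
set_option linter.deprecated false

open Set

namespace Crest.Agent.R096.Xp_537

open Crest.Agent.R096.Ce_537 (PLOn PLEquiv cube sph IsBall)
open Crest.Agent.R096.Bd_416

variable {E E' : Type*} [NormedAddCommGroup E] [NormedSpace ℝ E]
  [NormedAddCommGroup E'] [NormedSpace ℝ E']
variable {Q : Type*} [PartialOrder Q] {Λ : Set E}

/-- **exploded structure**: `G : Ω → Λ` is a product over every cell, with fibre `M q` = a PL ball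
whose boundary is the union of the transported fibres of the larger cells. -/
structure Expl (Ω : Set E') (C : CC Λ Q) (G : E' → E) where
  M : Q → Set E'
  P : Q → Set E'
  e : ∀ q, PLEquiv (M q ×ˢ C.cell q) (P q)
  d : Q → ℕ
  n : ℕ
  dim_le : ∀ q, C.dim q ≤ n
  e_G : ∀ q, ∀ m ∈ M q, ∀ t ∈ C.cell q, G ((e q).f (m, t)) = t
  e_b : ∀ q, ∀ m ∈ M q, (e q).f (m, C.b q) = m
  comp : ∀ {q ρ}, q < ρ → ∀ m ∈ M ρ, ∀ t ∈ C.cell q,
    (e ρ).f (m, t) = (e q).f ((e ρ).f (m, C.b q), t)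
  ball : ∀ q, IsBall (d q) (M q) (⋃ ρ ∈ {ρ | q < ρ}, (fun m => (e ρ).f (m, C.b q)) '' M ρ)
  sub : ∀ q, P q ⊆ Ω
  cover : ∀ x ∈ Ω, ∃ q, x ∈ P q
  lf : ∀ x ∈ Ω, ∃ r > 0, {q | (P q ∩ Metric.ball x r).Nonempty}.Finite
  up : ∀ {q q' x}, x ∈ P q → x ∈ P q' → ∃ ρ, q ≤ ρ ∧ q' ≤ ρ ∧ x ∈ P ρ

namespace Expl

variable {Ω : Set E'} {C : CC Λ Q} {G : E' → E} (X : Expl Ω C G)

/-- the boundary of the fibre -/
def bd (q : Q) : Set E' := ⋃ ρ ∈ {ρ | q < ρ}, (fun m => (X.e ρ).f (m, C.b q)) '' X.M ρ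

/-- the fibre coordinate -/
def pt (q : Q) (x : E') : E' := ((X.e q).g x).1

lemma isCompact_M (q : Q) : IsCompact (X.M q) := (X.ball q).isCompact

lemma isCompact_P (q : Q) : IsCompact (X.P q) := by
  rw [← (X.e q).image_eq]
  exact ((X.isCompact_M q).prod (C.cpt q)).image_of_continuousOn (X.e q).pf.1

lemma M_nonempty (q : Q) : (X.M q).Nonempty := (X.ball q).nonempty

lemma finite_meet {T : Set E'} (hT : IsCompact T) (hs : T ⊆ Ω) :
    {i | (X.P i ∩ T).Nonempty}.Finite := by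
  have h : ∀ x ∈ T, ∃ U ∈ nhdsWithin x T, {i | (X.P i ∩ U).Nonempty}.Finite := by
    intro x hx
    obtain ⟨r, hr, hf⟩ := X.lf x (hs hx)
    exact ⟨Metric.ball x r, mem_nhdsWithin_of_mem_nhds (Metric.ball_mem_nhds x hr), hf⟩
  choose! U hU hUf using h
  obtain ⟨t, ht, htc⟩ := hT.elim_nhdsWithin_subcover U hU
  refine (t.finite_toSet.biUnion (fun x hx => hUf x (ht x hx))).subset ?_
  rintro i ⟨y, hyK, hyT⟩
  obtain ⟨x, hx, hyU⟩ := mem_iUnion₂.1 (htc hyT)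
  exact mem_biUnion (Finset.mem_coe.2 hx) ⟨y, hyK, hyU⟩

lemma pt_mem {q : Q} {x : E'} (hx : x ∈ X.P q) : X.pt q x ∈ X.M q := ((X.e q).mg hx).1

lemma g_snd {q : Q} {x : E'} (hx : x ∈ X.P q) : ((X.e q).g x).2 = G x := by
  have h := X.e_G q _ ((X.e q).mg hx).1 _ ((X.e q).mg hx).2
  rw [Prod.mk.eta, (X.e q).ri x hx] at h
  exact h.symm

lemma G_mem {q : Q} {x : E'} (hx : x ∈ X.P q) : G x ∈ C.cell q := by
  rw [← X.g_snd hx]; exact ((X.e q).mg hx).2

/-- `x = e (pt x, G x)` -/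
lemma e_pt {q : Q} {x : E'} (hx : x ∈ X.P q) : (X.e q).f (X.pt q x, G x) = x := by
  rw [← X.g_snd hx]
  exact (X.e q).ri x hx

lemma e_mem {q : Q} {m : E'} {t : E} (hm : m ∈ X.M q) (ht : t ∈ C.cell q) :
    (X.e q).f (m, t) ∈ X.P q := (X.e q).mf ⟨hm, ht⟩

lemma pt_e {q : Q} {m : E'} {t : E} (hm : m ∈ X.M q) (ht : t ∈ C.cell q) :
    X.pt q ((X.e q).f (m, t)) = m := by
  unfold pt
  rw [(X.e q).li (m, t) ⟨hm, ht⟩]

lemma M_sub_P (q : Q) : X.M q ⊆ X.P q := by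
  intro m hm
  have := X.e_mem hm (C.bmem q)
  rwa [X.e_b q m hm] at this

lemma G_M {q : Q} {m : E'} (hm : m ∈ X.M q) : G m = C.b q := by
  have := X.e_G q m hm _ (C.bmem q)
  rwa [X.e_b q m hm] at this

lemma pt_M {q : Q} {m : E'} (hm : m ∈ X.M q) : X.pt q m = m := by
  have := X.pt_e hm (C.bmem q)
  rwa [X.e_b q m hm] at this

lemma bd_sub (q : Q) : X.bd q ⊆ X.M q := (X.ball q).subset

lemma tr_bd {q ρ : Q} (h : q < ρ) {m : E'} (hm : m ∈ X.M ρ) :
    (X.e ρ).f (m, C.b q) ∈ X.bd q :=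
  mem_biUnion (show ρ ∈ {ρ | q < ρ} from h) ⟨m, hm, rfl⟩

lemma tr_mem {q ρ : Q} (h : q < ρ) {m : E'} (hm : m ∈ X.M ρ) :
    (X.e ρ).f (m, C.b q) ∈ X.M q := X.bd_sub q (X.tr_bd h hm)

/-- a point of `M q` lying in `P ρ`, `q < ρ`, is in the boundary -/
lemma mem_bd {q ρ : Q} (h : q < ρ) {x : E'} (hx : x ∈ X.M q) (hxρ : x ∈ X.P ρ) :
    x ∈ X.bd q := by
  have h1 := X.e_pt hxρ
  rw [X.G_M hx] at h1
  rw [← h1]
  exact X.tr_bd h (X.pt_mem hxρ)

/-- compatibility of the fibre coordinates -/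
lemma pt_tr {q ρ : Q} (h : q < ρ) {x : E'} (hq : x ∈ X.P q) (hρ : x ∈ X.P ρ) :
    X.pt q x = (X.e ρ).f (X.pt ρ x, C.b q) := by
  have h1 := X.comp h (X.pt ρ x) (X.pt_mem hρ) (G x) (X.G_mem hq)
  rw [X.e_pt hρ] at h1
  conv_lhs => rw [h1]
  exact X.pt_e (X.tr_mem h (X.pt_mem hρ)) (X.G_mem hq)

include X in
lemma finite_up (q : Q) : {ρ | q ≤ ρ}.Finite := by
  refine (X.finite_meet (X.isCompact_P q) (X.sub q)).subset ?_
  intro ρ hρ
  rcases eq_or_lt_of_le (show q ≤ ρ from hρ) with rfl | h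
  · obtain ⟨m, hm⟩ := X.M_nonempty q
    exact ⟨m, X.M_sub_P q hm, X.M_sub_P q hm⟩
  · obtain ⟨m, hm⟩ := X.M_nonempty ρ
    exact ⟨_, X.e_mem hm (C.mono h (C.bmem q)), X.M_sub_P q (X.tr_mem h hm)⟩

/-- the finite set of cells above `q` -/
noncomputable def ups (q : Q) : Finset Q := (X.finite_up q).toFinset

lemma mem_ups {p q : Q} : p ∈ X.ups q ↔ q ≤ p := by
  simp [ups]

/-- `σ` is the largest cell whose piece contains `x` -/
def IsTop (x : E') (σ : Q) : Prop := x ∈ X.P σ ∧ ∀ q, x ∈ X.P q → q ≤ σ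

lemma IsTop.uniq {x : E'} {σ σ' : Q} (h : X.IsTop x σ) (h' : X.IsTop x σ') : σ = σ' :=
  le_antisymm (h'.2 σ h.1) (h.2 σ' h'.1)

lemma exists_top {x : E'} (hx : x ∈ Ω) : ∃ σ, X.IsTop x σ := by
  obtain ⟨r, hr, hf⟩ := X.lf x hx
  obtain ⟨q, hq⟩ := X.cover x hx
  have hfin : {q | x ∈ X.P q}.Finite :=
    hf.subset (fun q hq => ⟨x, hq, Metric.mem_ball_self hr⟩)
  obtain ⟨σ, hσ, hmax⟩ := hfin.exists_maximal ⟨q, hq⟩
  refine ⟨σ, hσ, fun q' hq' => ?_⟩
  obtain ⟨ρ, h1, h2, h3⟩ := X.up hσ hq'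
  exact h2.trans (hmax h3 h1)

/-- the chart of the fibre -/
noncomputable def a (q : Q) : PLEquiv (cube (X.d q)) (X.M q) := (X.ball q).choose

lemma a_bd (q : Q) : (X.a q).f '' sph (X.d q) = X.bd q := (X.ball q).choose_spec

lemma a_mem {q : Q} {v : Fin (X.d q) → ℝ} (hv : v ∈ sph (X.d q)) : (X.a q).f v ∈ X.bd q := by
  rw [← X.a_bd]; exact ⟨v, hv, rfl⟩

lemma a_sph {q : Q} {x : E'} (hx : x ∈ X.bd q) : (X.a q).g x ∈ sph (X.d q) := by
  rw [← X.a_bd] at hx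
  obtain ⟨v, hv, rfl⟩ := hx
  rw [(X.a q).li v (Ce_537.sph_subset_cube hv)]
  exact hv

lemma P_sub_Ω {q : Q} {x : E'} (hx : x ∈ X.P q) : x ∈ Ω := X.sub q hx

/-- the top cell of a boundary point of `M q` -/
lemma top_bd {q : Q} {x : E'} (hx : x ∈ X.bd q) : ∃ σ, q < σ ∧ X.IsTop x σ := by
  obtain ⟨ρ, hρ, m, hm, rfl⟩ := mem_iUnion₂.1 hx
  have hP : (X.e ρ).f (m, C.b q) ∈ X.P ρ := X.e_mem hm (C.mono hρ (C.bmem q))
  obtain ⟨σ, hσ⟩ := X.exists_top (X.sub _ hP)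
  exact ⟨σ, lt_of_lt_of_le hρ (hσ.2 ρ hP), hσ⟩

/-- the point of the top cell: not in the boundary -/
lemma top_pt {x : E'} {σ : Q} (h : X.IsTop x σ) : X.pt σ x ∉ X.bd σ := by
  intro hb
  obtain ⟨ρ, hρ, m, hm, he⟩ := mem_iUnion₂.1 hb
  have he' : (X.e ρ).f (m, C.b σ) = X.pt σ x := he
  have h1 := X.comp hρ m hm (G x) (X.G_mem h.1)
  rw [he', X.e_pt h.1] at h1
  have h2 : x ∈ X.P ρ := by
    rw [← h1]; exact X.e_mem hm (C.mono hρ (X.G_mem h.1))
  exact absurd (h.2 ρ h2) (not_le_of_gt hρ)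

open Classical in
/-- **the weights**, by coning -/
noncomputable def lam (X : Expl Ω C G) (q : Q) (x : E') : Q →₀ ℝ :=
  (1 - ‖(X.a q).g x‖) • Finsupp.single q 1 + ‖(X.a q).g x‖ •
    (if h : ∃ σ, q < σ ∧ X.IsTop ((X.a q).f (‖(X.a q).g x‖⁻¹ • (X.a q).g x)) σ then
      lam X h.choose (X.pt h.choose ((X.a q).f (‖(X.a q).g x‖⁻¹ • (X.a q).g x))) else 0)
termination_by X.n - C.dim q
decreasing_by
  have h1 := C.dim_lt h.choose_spec.1
  have h2 := X.dim_le h.choose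
  omega

lemma lam_center (q : Q) : X.lam q ((X.a q).f 0) = Finsupp.single q 1 := by
  rw [lam, (X.a q).li 0 (by simp [cube])]
  simp

lemma lam_cone {q : Q} {v : Fin (X.d q) → ℝ} (hv : v ∈ sph (X.d q)) {r : ℝ} (h0 : 0 < r)
    (h1 : r ≤ 1) {σ : Q} (hσ : X.IsTop ((X.a q).f v) σ) :
    X.lam q ((X.a q).f (r • v)) = (1 - r) • Finsupp.single q 1 +
      r • X.lam σ (X.pt σ ((X.a q).f v)) := by
  have hnv : ‖v‖ = 1 := by simpa using hv
  have hn : ‖r • v‖ = r := by rw [norm_smul, hnv, mul_one, Real.norm_eq_abs, abs_of_pos h0]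
  have hm : r • v ∈ cube (X.d q) := by
    simp only [cube, mem_closedBall_zero_iff]; rw [hn]; exact h1
  have hg : (X.a q).g ((X.a q).f (r • v)) = r • v := (X.a q).li _ hm
  rw [lam, hg, hn, smul_smul, inv_mul_cancel₀ h0.ne', one_smul]
  congr 2
  have hex : ∃ σ, q < σ ∧ X.IsTop ((X.a q).f v) σ := X.top_bd (X.a_mem hv)
  rw [dif_pos hex]
  have he : hex.choose = σ := IsTop.uniq X hex.choose_spec.2 hσ
  rw [he]

lemma lam_cone' {q : Q} {v : Fin (X.d q) → ℝ} (hv : v ∈ sph (X.d q)) {r : ℝ} (h0 : 0 < r)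
    (h1 : r ≤ 1) :
    X.lam q ((X.a q).f (r • v)) = (1 - r) • Finsupp.single q 1 +
      r • X.lam q ((X.a q).f v) := by
  obtain ⟨σ, hσ, ht⟩ := X.top_bd (X.a_mem hv)
  have h2 := X.lam_cone hv one_pos le_rfl ht
  rw [one_smul, sub_self, zero_smul, zero_add, one_smul] at h2
  rw [X.lam_cone hv h0 h1 ht, h2]

/-- every point of `M q` in cone coordinates -/
lemma polar {q : Q} {x : E'} (hx : x ∈ X.M q) : x = (X.a q).f 0 ∨
    ∃ v ∈ sph (X.d q), ∃ r : ℝ, 0 < r ∧ r ≤ 1 ∧ x = (X.a q).f (r • v) := by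
  by_cases h : (X.a q).g x = 0
  · left
    rw [← h, (X.a q).ri x hx]
  · right
    refine ⟨‖(X.a q).g x‖⁻¹ • (X.a q).g x, Ce_537.smul_mem_sph h, ‖(X.a q).g x‖,
      norm_pos_iff.2 h, ?_, ?_⟩
    · have := (X.a q).mg hx
      simpa [cube] using this
    · rw [smul_smul, mul_inv_cancel₀ (norm_ne_zero_iff.2 h), one_smul, (X.a q).ri x hx]

/-- (a0) on the boundary -/
lemma lam_bd_top {q : Q} {x : E'} (hx : x ∈ X.bd q) {σ : Q} (hσ : X.IsTop x σ) :
    X.lam q x = X.lam σ (X.pt σ x) := by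
  have hv := X.a_sph hx
  have he : (X.a q).f ((X.a q).g x) = x := (X.a q).ri x (X.bd_sub q hx)
  have h2 := X.lam_cone hv one_pos le_rfl (by rw [he]; exact hσ)
  rw [one_smul, sub_self, zero_smul, zero_add, one_smul, he] at h2
  exact h2

/-- (a) transport -/
theorem lam_tr (ρ : Q) : ∀ q < ρ, ∀ m ∈ X.M ρ, X.lam q ((X.e ρ).f (m, C.b q)) = X.lam ρ m := by
  induction hd : X.n - C.dim ρ using Nat.strong_induction_on generalizing ρ with
  | _ d ih =>
    intro q hq m hm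
    set x := (X.e ρ).f (m, C.b q) with hx
    have hxb : x ∈ X.bd q := X.tr_bd hq hm
    have hbρ : C.b q ∈ C.cell ρ := C.mono hq (C.bmem q)
    have hxP : x ∈ X.P ρ := X.e_mem hm hbρ
    obtain ⟨σ, hσ⟩ := X.exists_top (X.sub _ hxP)
    rw [X.lam_bd_top hxb hσ]
    have hpt : X.pt ρ x = m := X.pt_e hm hbρ
    rcases (hσ.2 ρ hxP).eq_or_lt with rfl | hlt
    · rw [hpt]
    · have h1 := C.dim_lt hlt
      have h2 := X.dim_le σ
      have h3 := ih (X.n - C.dim σ) (by omega) σ rfl ρ hlt (X.pt σ x) (X.pt_mem hσ.1)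
      rw [← h3, ← X.pt_tr hlt hxP hσ.1, hpt]

/-- (a') the weights do not depend on the cell -/
theorem lam_pt {q ρ : Q} (h : q ≤ ρ) {x : E'} (hq : x ∈ X.P q) (hρ : x ∈ X.P ρ) :
    X.lam q (X.pt q x) = X.lam ρ (X.pt ρ x) := by
  rcases h.eq_or_lt with rfl | h
  · rfl
  · rw [X.pt_tr h hq hρ]
    exact X.lam_tr ρ q h _ (X.pt_mem hρ)

/-- support and value at `q` -/
theorem lam_le (q : Q) : ∀ x ∈ X.M q, (∀ ρ ∈ (X.lam q x).support, q ≤ ρ) ∧
    X.lam q x q = 1 - ‖(X.a q).g x‖ := by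
  induction hd : X.n - C.dim q using Nat.strong_induction_on generalizing q with
  | _ d ih =>
    intro x hx
    rcases X.polar hx with rfl | ⟨v, hv, r, h0, h1, rfl⟩
    · rw [X.lam_center, (X.a q).li 0 (by simp [cube])]
      refine ⟨fun ρ hρ => ?_, by simp⟩
      have := Finsupp.support_single_subset hρ
      rw [Finset.mem_singleton] at this
      exact this.ge
    · obtain ⟨σ, hσ, ht⟩ := X.top_bd (X.a_mem hv)
      rw [X.lam_cone hv h0 h1 ht]
      have hnv : ‖v‖ = 1 := by simpa using hv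
      have hn : ‖r • v‖ = r := by rw [norm_smul, hnv, mul_one, Real.norm_eq_abs, abs_of_pos h0]
      have hm : r • v ∈ cube (X.d q) := by
        simp only [cube, mem_closedBall_zero_iff]; rw [hn]; exact h1
      rw [(X.a q).li _ hm, hn]
      have d1 := C.dim_lt hσ
      have d2 := X.dim_le σ
      obtain ⟨i1, i2⟩ := ih (X.n - C.dim σ) (by omega) σ rfl _ (X.pt_mem ht.1)
      have hz : X.lam σ (X.pt σ ((X.a q).f v)) q = 0 := by
        by_contra hne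
        exact absurd (i1 q (Finsupp.mem_support_iff.2 hne)) (not_le_of_gt hσ)
      constructor
      · intro ρ hρ
        by_contra hcon
        have e1 : (Finsupp.single q (1 : ℝ)) ρ = 0 := by
          refine Finsupp.single_eq_of_ne ?_
          rintro rfl; exact hcon le_rfl
        have e2 : X.lam σ (X.pt σ ((X.a q).f v)) ρ = 0 := by
          by_contra hne
          exact hcon (hσ.le.trans (i1 ρ (Finsupp.mem_support_iff.2 hne)))
        rw [Finsupp.mem_support_iff] at hρ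
        apply hρ
        rw [Finsupp.add_apply, Finsupp.smul_apply, Finsupp.smul_apply, e1, e2]
        simp
      · rw [Finsupp.add_apply, Finsupp.smul_apply, Finsupp.smul_apply, hz]
        simp

lemma wt_single (q : Q) : Wt (Finsupp.single q (1 : ℝ)) := by
  classical
  have hs : (Finsupp.single q (1 : ℝ)).support = {q} :=
    Finsupp.support_single_ne_zero q one_ne_zero
  refine ⟨fun ρ => ?_, ?_, ?_⟩
  · by_cases h1 : ρ = q
    · subst h1; simp
    · simp [Finsupp.single_eq_of_ne h1]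
  · rw [hs]; simp
  · rw [hs]; intro ρ hρ σ hσ
    rw [Finset.mem_singleton] at hρ hσ
    subst hρ hσ; exact Or.inl le_rfl

/-- adding mass at a smaller element -/
lemma wt_cone {q : Q} {l : Q →₀ ℝ} (hl : Wt l) (hq : ∀ ρ ∈ l.support, q < ρ) {r : ℝ}
    (h0 : 0 ≤ r) (h1 : r ≤ 1) : Wt ((1 - r) • Finsupp.single q (1 : ℝ) + r • l) := by
  classical
  have hqn : q ∉ l.support := fun h => lt_irrefl _ (hq q h)
  have hl0 : l q = 0 := by simpa using hqn
  have hv : ∀ ρ, ((1 - r) • Finsupp.single q (1 : ℝ) + r • l) ρ =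
      (if ρ = q then (1 - r) else 0) + r * l ρ := by
    intro ρ
    rw [Finsupp.add_apply, Finsupp.smul_apply, Finsupp.smul_apply, Finsupp.single_apply]
    by_cases h : ρ = q
    · subst h; simp
    · rw [if_neg h, if_neg (Ne.symm h)]; simp
  have hsub : ((1 - r) • Finsupp.single q (1 : ℝ) + r • l).support ⊆ insert q l.support := by
    intro ρ hρ
    rw [Finsupp.mem_support_iff, hv] at hρ
    by_cases h : ρ = q
    · exact Finset.mem_insert.2 (Or.inl h)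
    · refine Finset.mem_insert.2 (Or.inr (Finsupp.mem_support_iff.2 ?_))
      intro h2; rw [if_neg h, h2] at hρ; simp at hρ
  refine ⟨fun ρ => ?_, ?_, ?_⟩
  · rw [hv]
    have := hl.nn ρ
    split_ifs <;> nlinarith
  · rw [sum_support_eq hsub (fun ρ => ((1 - r) • Finsupp.single q (1 : ℝ) + r • l) ρ)
      (fun q hq => hq)]
    have : ∑ ρ ∈ insert q l.support, ((1 - r) • Finsupp.single q (1 : ℝ) + r • l) ρ =
        ∑ ρ ∈ insert q l.support, ((if ρ = q then (1 - r) else 0) + r * l ρ) :=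
      Finset.sum_congr rfl (fun ρ _ => hv ρ)
    rw [this, Finset.sum_add_distrib, ← Finset.mul_sum, Finset.sum_insert hqn, Finset.sum_insert hqn,
      hl.sum, hl0]
    have h3 : ∑ x ∈ l.support, (if x = q then (1 - r) else 0) = 0 := by
      apply Finset.sum_eq_zero
      intro x hx
      rw [if_neg]
      rintro rfl; exact hqn hx
    rw [h3]; simp
  · intro ρ hρ σ hσ
    rcases Finset.mem_insert.1 (hsub hρ) with h1 | h1
    · rcases Finset.mem_insert.1 (hsub hσ) with h2 | h2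
      · rw [h1, h2]; exact Or.inl le_rfl
      · rw [h1]; exact Or.inl (hq σ h2).le
    · rcases Finset.mem_insert.1 (hsub hσ) with h2 | h2
      · rw [h2]; exact Or.inr (hq ρ h1).le
      · exact hl.chain ρ h1 σ h2

/-- (b) the weights are weights -/
theorem lam_wt (q : Q) : ∀ x ∈ X.M q, Wt (X.lam q x) := by
  induction hd : X.n - C.dim q using Nat.strong_induction_on generalizing q with
  | _ d ih =>
    intro x hx
    rcases X.polar hx with rfl | ⟨v, hv, r, h0, h1, rfl⟩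
    · rw [X.lam_center]
      exact wt_single q
    · obtain ⟨σ, hσ, ht⟩ := X.top_bd (X.a_mem hv)
      rw [X.lam_cone hv h0 h1 ht]
      have d1 := C.dim_lt hσ
      have d2 := X.dim_le σ
      refine wt_cone (ih (X.n - C.dim σ) (by omega) σ rfl _ (X.pt_mem ht.1)) (fun ρ hρ => ?_)
        h0.le h1
      exact lt_of_lt_of_le hσ ((X.lam_le σ _ (X.pt_mem ht.1)).1 ρ hρ)

/-- the coordinate at `q` is positive off the boundary -/
lemma lam_pos {q : Q} {x : E'} (hx : x ∈ X.M q) (hb : x ∉ X.bd q) : 0 < X.lam q x q := by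
  rw [(X.lam_le q x hx).2]
  have h1 : ‖(X.a q).g x‖ ≤ 1 := by
    have := (X.a q).mg hx
    simpa [cube] using this
  rcases h1.eq_or_lt with h | h
  · exfalso
    apply hb
    have : (X.a q).g x ∈ sph (X.d q) := by simpa [sph] using h
    have h2 := X.a_mem this
    rwa [(X.a q).ri x hx] at h2
  · linarith

/-- the minimum of the support determines the top cell -/
lemma top_min {x : E'} {σ : Q} (h : X.IsTop x σ) :
    σ ∈ (X.lam σ (X.pt σ x)).support ∧ ∀ ρ ∈ (X.lam σ (X.pt σ x)).support, σ ≤ ρ :=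
  ⟨Finsupp.mem_support_iff.2 (X.lam_pos (X.pt_mem h.1) (X.top_pt h)).ne',
    (X.lam_le σ _ (X.pt_mem h.1)).1⟩

/-- (d) injectivity -/
theorem lam_inj (q : Q) : ∀ x ∈ X.M q, ∀ y ∈ X.M q, X.lam q x = X.lam q y → x = y := by
  induction hd : X.n - C.dim q using Nat.strong_induction_on generalizing q with
  | _ d ih =>
    intro x hx y hy he
    have h1 := (X.lam_le q x hx).2
    have h2 := (X.lam_le q y hy).2
    have hn : ‖(X.a q).g x‖ = ‖(X.a q).g y‖ := by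
      rw [he, h2] at h1; linarith
    rcases X.polar hx with hx0 | ⟨v, hv, r, h0, hr1, hxe⟩
    · have hx' : (X.a q).g x = 0 := by rw [hx0, (X.a q).li 0 (by simp [cube])]
      rw [hx', norm_zero] at hn
      have hy' : (X.a q).g y = 0 := norm_eq_zero.1 hn.symm
      rw [← (X.a q).ri x hx, ← (X.a q).ri y hy, hx', hy']
    · have hnv : ‖v‖ = 1 := by simpa using hv
      have hm : r • v ∈ cube (X.d q) := by
        simp only [cube, mem_closedBall_zero_iff]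
        rw [norm_smul, hnv, mul_one, Real.norm_eq_abs, abs_of_pos h0]; exact hr1
      have hgx : (X.a q).g x = r • v := by rw [hxe]; exact (X.a q).li _ hm
      have hnr : ‖(X.a q).g x‖ = r := by
        rw [hgx, norm_smul, hnv, mul_one, Real.norm_eq_abs, abs_of_pos h0]
      rcases X.polar hy with hy0 | ⟨w, hw, s, hs0, hs1, hye⟩
      · exfalso
        have hy' : (X.a q).g y = 0 := by rw [hy0, (X.a q).li 0 (by simp [cube])]
        rw [hy', norm_zero, hnr] at hn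
        linarith
      · have hnw : ‖w‖ = 1 := by simpa using hw
        have hm' : s • w ∈ cube (X.d q) := by
          simp only [cube, mem_closedBall_zero_iff]
          rw [norm_smul, hnw, mul_one, Real.norm_eq_abs, abs_of_pos hs0]; exact hs1
        have hgy : (X.a q).g y = s • w := by rw [hye]; exact (X.a q).li _ hm'
        have hns : ‖(X.a q).g y‖ = s := by
          rw [hgy, norm_smul, hnw, mul_one, Real.norm_eq_abs, abs_of_pos hs0]
        have hrs : r = s := by rw [← hnr, ← hns, hn]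
        subst hrs
        obtain ⟨σ, hσ, ht⟩ := X.top_bd (X.a_mem hv)
        obtain ⟨τ, hτ, ht'⟩ := X.top_bd (X.a_mem hw)
        rw [hxe, hye, X.lam_cone hv h0 hr1 ht, X.lam_cone hw h0 hr1 ht'] at he
        have he2 : X.lam σ (X.pt σ ((X.a q).f v)) = X.lam τ (X.pt τ ((X.a q).f w)) := by
          have h3 := add_left_cancel he
          have h4 := congrArg (fun z => r⁻¹ • z) h3
          simpa only [smul_smul, inv_mul_cancel₀ h0.ne', one_smul] using h4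
        obtain ⟨m1, m2⟩ := X.top_min ht
        obtain ⟨m3, m4⟩ := X.top_min ht'
        have hστ : σ = τ := by
          apply le_antisymm
          · exact m2 τ (by rw [he2]; exact m3)
          · exact m4 σ (by rw [← he2]; exact m1)
        subst hστ
        have d1 := C.dim_lt hσ
        have d2 := X.dim_le σ
        have h5 := ih (X.n - C.dim σ) (by omega) σ rfl _ (X.pt_mem ht.1) _ (X.pt_mem ht'.1) he2
        have h6 : (X.a q).f v = (X.a q).f w := by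
          rw [← X.e_pt ht.1, ← X.e_pt ht'.1, h5,
            X.G_M (X.bd_sub q (X.a_mem hv)), X.G_M (X.bd_sub q (X.a_mem hw))]
        have h7 : v = w := (X.a q).injOn (Ce_537.sph_subset_cube hv)
          (Ce_537.sph_subset_cube hw) h6
        rw [hxe, hye, h7]

/-- (e) surjectivity -/
theorem lam_surj (q : Q) : ∀ l : Q →₀ ℝ, Wt l → (∀ ρ ∈ l.support, q ≤ ρ) →
    ∃ x ∈ X.M q, X.lam q x = l := by
  classical
  induction hd : X.n - C.dim q using Nat.strong_induction_on generalizing q with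
  | _ d ih =>
    intro l hl hq
    have hlq : l q ≤ 1 := by
      by_cases h : q ∈ l.support
      · rw [← hl.sum]
        exact Finset.single_le_sum (fun ρ _ => hl.nn ρ) h
      · rw [Finsupp.notMem_support_iff.1 h]; exact zero_le_one
    set r : ℝ := 1 - l q with hr
    have hr1 : r ≤ 1 := by have := hl.nn q; linarith
    rcases (sub_nonneg.2 hlq : 0 ≤ 1 - l q).eq_or_lt with h0 | h0
    · -- all the mass at q
      have hq1 : l q = 1 := by linarith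
      refine ⟨(X.a q).f 0, (X.a q).mf (by simp [cube]), ?_⟩
      rw [X.lam_center]
      have hqm : q ∈ l.support := by rw [Finsupp.mem_support_iff, hq1]; exact one_ne_zero
      have h1 : ∑ ρ ∈ (l.erase q).support, (l.erase q) ρ = 0 := by
        rw [sum_erase' hqm, hl.sum, hq1, sub_self]
      have hnn : ∀ ρ, 0 ≤ (l.erase q) ρ := fun ρ => by
        by_cases hρ : ρ = q
        · subst hρ; simp
        · rw [Finsupp.erase_ne hρ]; exact hl.nn ρ
      have h2 := (Finset.sum_eq_zero_iff_of_nonneg (fun ρ _ => hnn ρ)).1 h1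
      ext ρ
      by_cases hρ : ρ = q
      · subst hρ; simp [hq1]
      · rw [Finsupp.single_eq_of_ne hρ]
        by_cases hρ2 : ρ ∈ (l.erase q).support
        · have := h2 ρ hρ2
          rw [Finsupp.erase_ne hρ] at this
          exact this.symm
        · have := Finsupp.notMem_support_iff.1 hρ2
          rw [Finsupp.erase_ne hρ] at this
          exact this.symm
    · have hr0 : 0 < r := h0
      set l' : Q →₀ ℝ := r⁻¹ • l.erase q with hl'
      have hv : ∀ ρ, ρ ≠ q → l' ρ = r⁻¹ * l ρ := fun ρ hρ => by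
        rw [hl', Finsupp.smul_apply, Finsupp.erase_ne hρ, smul_eq_mul]
      have hvq : l' q = 0 := by rw [hl', Finsupp.smul_apply, Finsupp.erase_same, smul_zero]
      have hs : l'.support = l.support.erase q := by
        rw [hl', Finsupp.support_smul_eq (inv_ne_zero hr0.ne'), Finsupp.support_erase]
      have hw' : Wt l' := by
        refine ⟨fun ρ => ?_, ?_, ?_⟩
        · by_cases hρ : ρ = q
          · subst hρ; rw [hvq]
          · rw [hv ρ hρ]; exact mul_nonneg (inv_nonneg.2 hr0.le) (hl.nn ρ)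
        · rw [hs]
          have e1 : ∑ ρ ∈ l.support.erase q, l' ρ = ∑ ρ ∈ l.support.erase q, r⁻¹ * l ρ :=
            Finset.sum_congr rfl (fun ρ hρ => hv ρ (Finset.ne_of_mem_erase hρ))
          rw [e1, ← Finset.mul_sum]
          have e2 : ∑ ρ ∈ l.support.erase q, l ρ = r := by
            by_cases hqm : q ∈ l.support
            · have := Finset.sum_erase_add l.support (fun ρ => l ρ) hqm
              rw [hl.sum] at this
              rw [hr]; linarith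
            · rw [Finset.erase_eq_of_notMem hqm, hl.sum, hr, Finsupp.notMem_support_iff.1 hqm]
              ring
          rw [e2, inv_mul_cancel₀ hr0.ne']
        · rw [hs]
          intro ρ hρ σ hσ
          exact hl.chain ρ (Finset.mem_of_mem_erase hρ) σ (Finset.mem_of_mem_erase hσ)
      obtain ⟨σ, hσ, hmin⟩ := hw'.exists_min
      have hσ2 : σ ∈ l.support.erase q := by rw [← hs]; exact hσ
      have hqσ : q < σ := lt_of_le_of_ne (hq σ (Finset.mem_of_mem_erase hσ2))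
        (Ne.symm (Finset.ne_of_mem_erase hσ2))
      have d1 := C.dim_lt hqσ
      have d2 := X.dim_le σ
      obtain ⟨m, hm, hml⟩ := ih (X.n - C.dim σ) (by omega) σ rfl l' hw' hmin
      have hω : (X.e σ).f (m, C.b q) ∈ X.bd q := X.tr_bd hqσ hm
      have hv' := X.a_sph hω
      have hav : (X.a q).f ((X.a q).g ((X.e σ).f (m, C.b q))) = (X.e σ).f (m, C.b q) :=
        (X.a q).ri _ (X.bd_sub q hω)
      have hmem : r • (X.a q).g ((X.e σ).f (m, C.b q)) ∈ cube (X.d q) := by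
        have hn1 : ‖(X.a q).g ((X.e σ).f (m, C.b q))‖ = 1 := by simpa using hv'
        simp only [cube, mem_closedBall_zero_iff]
        rw [norm_smul, hn1, mul_one, Real.norm_eq_abs, abs_of_pos hr0]; exact hr1
      refine ⟨(X.a q).f (r • (X.a q).g ((X.e σ).f (m, C.b q))), (X.a q).mf hmem, ?_⟩
      rw [X.lam_cone' hv' hr0 hr1, hav, X.lam_tr σ q hqσ m hm, hml]
      ext ρ
      rw [Finsupp.add_apply, Finsupp.smul_apply, Finsupp.smul_apply]
      by_cases hρ : ρ = q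
      · subst hρ; rw [hvq]; simp [hr]
      · rw [hv ρ hρ, Finsupp.single_eq_of_ne hρ]
        simp only [smul_eq_mul, mul_zero, zero_add]
        rw [← mul_assoc, mul_inv_cancel₀ hr0.ne', one_mul]

end Expl

end Crest.Agent.R096.Xp_537
end

-- ▼ part R096/Xp5_537
section

/-!
# R096 (row 96), EXPLODE, part 5 (helper537)

Piecewise linearity of the weights, the global weights `LAM`, the displacement fields `D ρ` and
the maps `g κ = G + ∑ κ ρ • D ρ`: for every `κ : Q → (0,1)` a PL homeomorphism `Ω → Λ`.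
-/

set_option autoImplicit false
set_option linter.unusedSectionVars false
set_option linter.unusedVariables false
set_option linter.deprecated false

open Set

namespace Crest.Agent.R096.Xp_537

open Crest.Agent.R096.Ce_537 (PLOn PLEquiv cube sph IsBall LocPL)
open Crest.Agent.R096.Bd_416

variable {E E' : Type*} [NormedAddCommGroup E] [NormedSpace ℝ E]
  [NormedAddCommGroup E'] [NormedSpace ℝ E']
variable {Q : Type*} [PartialOrder Q] {Λ : Set E}

namespace Expl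

variable {Ω : Set E'} {C : CC Λ Q} {G : E' → E} (X : Expl Ω C G)

include X in
lemma finite_lt_up (q : Q) : {ρ | q < ρ}.Finite :=
  (X.finite_up q).subset (fun ρ hρ => le_of_lt hρ)

lemma plOn_pt (q : Q) : PLOn (X.pt q) (X.P q) := pl_fst (X.e q).pg

lemma plOn_G (q : Q) : PLOn G (X.P q) :=
  (pl_snd (X.e q).pg).congr (fun x hx => (X.g_snd hx).symm)

lemma plOn_tr {q ρ : Q} (h : q < ρ) : PLOn (fun m => (X.e ρ).f (m, C.b q)) (X.M ρ) :=
  (X.e ρ).pf.comp (pl_pair (Ce_537.plOn_id _) (Ce_537.plOn_const _ _))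
    (fun m hm => ⟨hm, C.mono h (C.bmem q)⟩)

/-- (c) **the weights are PL on every fibre** -/
theorem plOn_lam (q : Q) : ∀ ρ, PLOn (fun x => X.lam q x ρ) (X.M q) := by
  induction hd : X.n - C.dim q using Nat.strong_induction_on generalizing q with
  | _ d ih =>
    intro ρ
    -- on the boundary
    have h1 : PLOn (fun x => X.lam q x ρ) (X.bd q) := by
      refine Ce_537.plOn_biUnion _ (X.finite_lt_up q) (fun σ hσ => ?_) (fun σ hσ => ?_)
      · have d1 := C.dim_lt (show q < σ from hσ)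
        have d2 := X.dim_le σ
        have h2 := ih (X.n - C.dim σ) (by omega) σ rfl ρ
        have hsub : (fun m => (X.e σ).f (m, C.b q)) '' X.M σ ⊆ X.P σ := by
          rintro _ ⟨m, hm, rfl⟩
          exact X.e_mem hm (C.mono hσ (C.bmem q))
        have h3 := h2.comp ((X.plOn_pt σ).mono hsub) (fun x hx => X.pt_mem (hsub hx))
        refine h3.congr ?_
        rintro _ ⟨m, hm, rfl⟩
        show X.lam q ((X.e σ).f (m, C.b q)) ρ = X.lam σ (X.pt σ ((X.e σ).f (m, C.b q))) ρ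
        rw [X.lam_tr σ q hσ m hm, X.pt_e hm (C.mono hσ (C.bmem q))]
      · exact ((X.isCompact_M σ).image_of_continuousOn (X.plOn_tr hσ).1).isClosed
    -- cone
    set h : (Fin (X.d q) → ℝ) → ℝ := fun v => X.lam q ((X.a q).f v) ρ with hh
    have h2 : PLOn h (sph (X.d q)) :=
      h1.comp ((X.a q).pf.mono Ce_537.sph_subset_cube) (fun v hv => X.a_mem hv)
    have h3 : PLOn (Cx_609.cone h) univ := Cx_609.plOn_iff.1 (Cx_609.plOn_iff.2 h2).cone
    have h4 : PLOn (fun v : Fin (X.d q) → ℝ => ‖v‖) univ := by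
      have h5 : PLOn (Cx_609.cone (fun _ : Fin (X.d q) → ℝ => (1 : ℝ))) univ :=
        Cx_609.plOn_iff.1 (Cx_609.plOn_iff.2 (Ce_537.plOn_const 1 (sph (X.d q)))).cone
      refine h5.congr (fun v _ => ?_)
      simp [Cx_609.cone]
    have h5 : PLOn (fun v : Fin (X.d q) → ℝ => (Finsupp.single q (1 : ℝ)) ρ * (1 - ‖v‖) +
        Cx_609.cone h v) univ := by
      have h6 : PLOn (fun v : Fin (X.d q) → ℝ => (1 : ℝ) - ‖v‖) univ :=
        pl_sub (Ce_537.plOn_const 1 _) h4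
      exact pl_add (pl_mul _ h6) h3
    have h6 := h5.comp (X.a q).pg (fun x _ => mem_univ _)
    refine h6.congr (fun x hx => ?_)
    show X.lam q x ρ = (Finsupp.single q (1 : ℝ)) ρ * (1 - ‖(X.a q).g x‖) +
      Cx_609.cone h ((X.a q).g x)
    rcases X.polar hx with rfl | ⟨v, hv, r, r0, r1, rfl⟩
    · rw [X.lam_center, (X.a q).li 0 (by simp [cube]), Cx_609.cone_zero]
      simp
    · have hnv : ‖v‖ = 1 := by simpa using hv
      have hn : ‖r • v‖ = r := by rw [norm_smul, hnv, mul_one, Real.norm_eq_abs, abs_of_pos r0]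
      have hm : r • v ∈ cube (X.d q) := by
        simp only [cube, mem_closedBall_zero_iff]; rw [hn]; exact r1
      rw [(X.a q).li _ hm, hn, X.lam_cone' hv r0 r1, Cx_609.cone_smul h r0.le,
        Cx_609.cone_of_sphere h hv, Finsupp.add_apply, Finsupp.smul_apply, Finsupp.smul_apply]
      simp only [smul_eq_mul, hh]
      ring

open Classical in
/-- **the global weights** -/
noncomputable def LAM (x : E') : Q →₀ ℝ :=
  if h : ∃ σ, X.IsTop x σ then X.lam h.choose (X.pt h.choose x) else 0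

lemma LAM_eq {q : Q} {x : E'} (hx : x ∈ X.P q) : X.LAM x = X.lam q (X.pt q x) := by
  have h : ∃ σ, X.IsTop x σ := X.exists_top (X.sub q hx)
  unfold LAM
  rw [dif_pos h]
  exact (X.lam_pt (h.choose_spec.2 q hx) hx h.choose_spec.1).symm

lemma LAM_le {q : Q} {x : E'} (hx : x ∈ X.P q) : ∀ ρ ∈ (X.LAM x).support, q ≤ ρ := by
  rw [X.LAM_eq hx]
  exact (X.lam_le q _ (X.pt_mem hx)).1

lemma LAM_wt {x : E'} (hx : x ∈ Ω) : Wt (X.LAM x) := by
  obtain ⟨q, hq⟩ := X.cover x hx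
  rw [X.LAM_eq hq]
  exact X.lam_wt q _ (X.pt_mem hq)

lemma LAM_state {x : E'} (hx : x ∈ Ω) : State C (X.LAM x) (G x) := by
  obtain ⟨σ, hσ⟩ := X.exists_top hx
  have h := X.LAM_wt hx
  exact ⟨h.nn, h.sum, h.chain, fun ρ hρ => C.mono_le (X.LAM_le hσ.1 ρ hρ) (X.G_mem hσ.1)⟩

lemma LAM_top {x : E'} {σ : Q} (h : X.IsTop x σ) :
    σ ∈ (X.LAM x).support ∧ ∀ ρ ∈ (X.LAM x).support, σ ≤ ρ := by
  rw [X.LAM_eq h.1]
  exact X.top_min h

/-- the pieces in terms of the weights -/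
lemma mem_P_iff {x : E'} (hx : x ∈ Ω) {q : Q} (hG : G x ∈ C.cell q) :
    x ∈ X.P q ↔ ∀ ρ ∈ (X.LAM x).support, q ≤ ρ := by
  refine ⟨fun h => X.LAM_le h, fun h => ?_⟩
  obtain ⟨σ, hσ⟩ := X.exists_top hx
  obtain ⟨h1, h2⟩ := X.LAM_top hσ
  rcases (h σ h1).eq_or_lt with rfl | hlt
  · exact hσ.1
  · have h3 := X.comp hlt _ (X.pt_mem hσ.1) (G x) hG
    rw [X.e_pt hσ.1] at h3
    rw [h3]
    exact X.e_mem (X.tr_mem hlt (X.pt_mem hσ.1)) hG

/-- **injectivity** -/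
theorem LAM_inj {x y : E'} (hx : x ∈ Ω) (hy : y ∈ Ω) (h : X.LAM x = X.LAM y) (hG : G x = G y) :
    x = y := by
  obtain ⟨σ, hσ⟩ := X.exists_top hx
  obtain ⟨τ, hτ⟩ := X.exists_top hy
  obtain ⟨h1, h2⟩ := X.LAM_top hσ
  obtain ⟨h3, h4⟩ := X.LAM_top hτ
  have hστ : σ = τ := le_antisymm (h2 τ (by rw [h]; exact h3)) (h4 σ (by rw [← h]; exact h1))
  subst hστ
  rw [X.LAM_eq hσ.1, X.LAM_eq hτ.1] at h
  have h5 := X.lam_inj σ _ (X.pt_mem hσ.1) _ (X.pt_mem hτ.1) h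
  rw [← X.e_pt hσ.1, ← X.e_pt hτ.1, h5, hG]

/-- **surjectivity** -/
theorem LAM_surj {l : Q →₀ ℝ} {t : E} (h : State C l t) :
    ∃ q, q ∈ l.support ∧ ∃ x ∈ X.P q, X.LAM x = l ∧ G x = t := by
  obtain ⟨q, hq, hmin⟩ := h.wt.exists_min
  obtain ⟨m, hm, hml⟩ := X.lam_surj q l h.wt hmin
  have ht : t ∈ C.cell q := h.mem q hq
  refine ⟨q, hq, (X.e q).f (m, t), X.e_mem hm ht, ?_, X.e_G q m hm t ht⟩
  rw [X.LAM_eq (X.e_mem hm ht), X.pt_e hm ht, hml]

theorem plOn_LAM (q ρ : Q) : PLOn (fun x => X.LAM x ρ) (X.P q) := by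
  refine ((X.plOn_lam q ρ).comp (X.plOn_pt q) (fun x hx => X.pt_mem hx)).congr (fun x hx => ?_)
  show X.LAM x ρ = X.lam q (X.pt q x) ρ
  rw [X.LAM_eq hx]

lemma LAM_supp {q : Q} {x : E'} (hx : x ∈ X.P q) : (X.LAM x).support ⊆ X.ups q :=
  fun ρ hρ => X.mem_ups.2 (X.LAM_le hx ρ hρ)

/-- the displacement fields -/
noncomputable def D (ρ : Q) (x : E') : E := DD C.b (mm C) (X.LAM x) (G x) ρ

/-- the maps -/
noncomputable def g (κ : Q → ℝ) (x : E') : E := gg κ C.b (mm C) (X.LAM x) (G x)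

lemma D_zero {ρ : Q} {x : E'} (h : X.LAM x ρ = 0) : X.D ρ x = 0 := DD_zero _ _ h

/-- `D ρ` lives on the pieces `P q`, `q ≤ ρ` -/
lemma D_ne {ρ : Q} {x : E'} (hx : x ∈ Ω) (h : X.D ρ x ≠ 0) : ∃ q ≤ ρ, x ∈ X.P q := by
  obtain ⟨σ, hσ⟩ := X.exists_top hx
  refine ⟨σ, ?_, hσ.1⟩
  by_contra hcon
  apply h
  apply X.D_zero
  by_contra hne
  exact hcon ((X.LAM_top hσ).2 ρ (Finsupp.mem_support_iff.2 hne))

/-- `D ρ` vanishes on `P q` unless `q ≤ ρ` -/
lemma D_eq_zero {q ρ : Q} (h : ¬ q ≤ ρ) {x : E'} (hx : x ∈ X.P q) : X.D ρ x = 0 := by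
  apply X.D_zero
  by_contra hne
  exact h (X.LAM_le hx ρ (Finsupp.mem_support_iff.2 hne))

theorem g_eq_sum (κ : Q → ℝ) {q : Q} {x : E'} (hx : x ∈ X.P q) :
    X.g κ x = G x + ∑ ρ ∈ X.ups q, κ ρ • X.D ρ x := by
  unfold g
  rw [gg_eq (mm_MM C) κ (X.LAM_state (X.sub q hx)) (C.sub q (X.G_mem hx)),
    sum_support_eq (X.LAM_supp hx) (fun ρ => κ ρ • DD C.b (mm C) (X.LAM x) (G x) ρ)
      (fun ρ hρ => by rw [DD_zero _ _ hρ, smul_zero])]
  rfl

lemma plOn_mmG [FiniteDimensional ℝ E] (q : Q) {f : E' → ℝ} (hf : PLOn f (X.P q)) :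
    PLOn (fun x => mm C (f x) (G x)) (X.P q) := by
  have h1 : PLOn (fun x => (f x, G x)) (X.P q) := pl_pair hf (X.plOn_G q)
  have h2 : MapsTo (fun x => (f x, G x)) (X.P q) (univ ×ˢ C.cell q) :=
    fun x hx => ⟨mem_univ _, X.G_mem hx⟩
  have h3 := plOn_mm C q univ
  have h4 := PLOn.comp h3 h1 h2
  exact h4

open Classical in
theorem plOn_D [FiniteDimensional ℝ E] (q ρ : Q) : PLOn (X.D ρ) (X.P q) := by
  have hL : PLOn (fun x => ∑ σ ∈ X.ups q with σ < ρ, X.LAM x σ) (X.P q) :=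
    pl_sum _ (fun σ _ => X.plOn_LAM q σ)
  have hl := X.plOn_LAM q ρ
  have h1 := X.plOn_mmG q (pl_add hL hl)
  have h2 := X.plOn_mmG q hL
  have h3 : PLOn (fun x => X.LAM x ρ • C.b ρ) (X.P q) :=
    pl_clm hl ((ContinuousLinearMap.id ℝ ℝ).smulRight (C.b ρ))
  refine (pl_sub h3 (pl_sub h1 h2)).congr (fun x hx => ?_)
  have h4 := Lo_eq (X.LAM_supp hx) ρ
  unfold D DD
  rw [h4]

theorem plOn_g [FiniteDimensional ℝ E] (κ : Q → ℝ) (q : Q) : PLOn (X.g κ) (X.P q) := by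
  refine (pl_add (X.plOn_G q) (pl_sum (X.ups q) (fun ρ _ => pl_smul (κ ρ) (X.plOn_D q ρ)))).congr
    (fun x hx => ?_)
  exact X.g_eq_sum κ hx

/-! ### the homeomorphism -/

lemma g_mem {κ : Q → ℝ} (hκ : ∀ q, 0 < κ q ∧ κ q < 1) {x : E'} (hx : x ∈ Ω) :
    ∃ ρ ∈ (X.LAM x).support, X.g κ x ∈ C.cell ρ ∧ ∀ p < ρ, X.g κ x ∉ C.cell p := by
  obtain ⟨p, hp, hst⟩ := (X.LAM_state hx).exists_top
  exact ⟨p, hp, gg_mem (mm_MM C) hκ hst hp⟩

theorem g_bijOn {κ : Q → ℝ} (hκ : ∀ q, 0 < κ q ∧ κ q < 1) : BijOn (X.g κ) Ω Λ := by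
  refine ⟨fun x hx => ?_, fun x hx y hy h => ?_, fun y hy => ?_⟩
  · obtain ⟨ρ, _, h, _⟩ := X.g_mem hκ hx
    exact C.sub ρ h
  · obtain ⟨h1, h2⟩ := gg_inj (mm_MM C) hκ (X.LAM_state hx) (X.LAM_state hy) h
    exact X.LAM_inj hx hy h1 h2
  · obtain ⟨q, hq⟩ := C.cover y hy
    obtain ⟨l, t, hst, he⟩ := gg_surj (mm_MM C) hκ hq
    obtain ⟨q', hq', x, hx, h1, h2⟩ := X.LAM_surj hst.state
    refine ⟨x, X.sub q' hx, ?_⟩
    unfold g
    rw [h1, h2, he]

/-- a locally finite closed cover by pieces on which a map is PL gives `LocPL` -/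
lemma locPL_of_pieces {V W : Type*} [NormedAddCommGroup V] [NormedSpace ℝ V]
    [NormedAddCommGroup W] [NormedSpace ℝ W] {ι : Type*} {O : Set V} (hO : IsOpen O)
    {K : ι → Set V} (hc : ∀ i, IsClosed (K i)) (hcov : ∀ x ∈ O, ∃ i, x ∈ K i)
    (hlf : ∀ x ∈ O, ∃ r > 0, {i | (K i ∩ Metric.ball x r).Nonempty}.Finite) {f : V → W}
    (hf : ∀ i, PLOn f (K i)) : LocPL f O := by
  intro x hx
  obtain ⟨r, hr, hfin⟩ := hlf x hx
  obtain ⟨s, hs, hsub⟩ := Metric.isOpen_iff.1 hO x hx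
  refine ⟨min r s, lt_min hr hs, ?_⟩
  have h1 : PLOn f (⋃ i ∈ {i | (K i ∩ Metric.ball x r).Nonempty}, K i) :=
    Ce_537.plOn_biUnion _ hfin (fun i _ => hf i) (fun i _ => hc i)
  refine h1.mono (fun y hy => ?_)
  obtain ⟨i, hi⟩ := hcov y (hsub (Metric.ball_subset_ball (min_le_right _ _) hy))
  exact mem_biUnion (show i ∈ {i | (K i ∩ Metric.ball x r).Nonempty} from
    ⟨y, hi, Metric.ball_subset_ball (min_le_left _ _) hy⟩) hi

theorem locPL_g [FiniteDimensional ℝ E] (hΩ : IsOpen Ω) (κ : Q → ℝ) : LocPL (X.g κ) Ω :=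
  locPL_of_pieces hΩ (fun q => (X.isCompact_P q).isClosed) X.cover X.lf (X.plOn_g κ)

theorem locPL_D [FiniteDimensional ℝ E] (hΩ : IsOpen Ω) (ρ : Q) : LocPL (X.D ρ) Ω :=
  locPL_of_pieces hΩ (fun q => (X.isCompact_P q).isClosed) X.cover X.lf
    (fun q => X.plOn_D q ρ)

include X in
theorem locPL_G (hΩ : IsOpen Ω) : LocPL G Ω :=
  locPL_of_pieces hΩ (fun q => (X.isCompact_P q).isClosed) X.cover X.lf X.plOn_G

/-- the images of the pieces are locally finite -/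
lemma image_lf {κ : Q → ℝ} (hκ : ∀ q, 0 < κ q ∧ κ q < 1) : ∀ y ∈ Λ, ∃ r > 0,
    {q | (X.g κ '' X.P q ∩ Metric.ball y r).Nonempty}.Finite := by
  intro y hy
  obtain ⟨r, hr, hf⟩ := C.lf y hy
  refine ⟨r, hr, (hf.biUnion (fun ρ _ => C.finite_le ρ)).subset ?_⟩
  rintro q ⟨_, ⟨x, hx, rfl⟩, hb⟩
  obtain ⟨ρ, hρ, h1, _⟩ := X.g_mem hκ (X.sub q hx)
  exact mem_biUnion (show ρ ∈ {q | (C.cell q ∩ Metric.ball y r).Nonempty} from ⟨_, h1, hb⟩)
    (X.LAM_le hx ρ hρ)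

lemma finConv_P [FiniteDimensional ℝ E] [FiniteDimensional ℝ E'] (q : Q) : Cx_609.FinConv (X.P q) := by
  obtain ⟨b, -⟩ := X.ball q
  have h1 : Cx_609.FinConv (cube (X.d q) ×ˢ C.cell q) :=
    ((convex_closedBall (0 : Fin (X.d q) → ℝ) 1).prod (C.conv q)).finConv
  have h2 : PLOn (fun p : (Fin (X.d q) → ℝ) × E => (X.e q).f (b.f p.1, p.2))
      (cube (X.d q) ×ˢ C.cell q) := by
    refine (X.e q).pf.comp (pl_pair ?_ (pl_snd (Ce_537.plOn_id _)))
      (fun p hp => ⟨b.mf hp.1, hp.2⟩)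
    exact b.pf.comp (pl_fst (Ce_537.plOn_id _)) (fun p hp => hp.1)
  have h3 := (Cx_609.plOn_iff.2 h2).finConv_image h1
  have h4 : (fun p : (Fin (X.d q) → ℝ) × E => (X.e q).f (b.f p.1, p.2)) ''
      (cube (X.d q) ×ˢ C.cell q) = X.P q := by
    ext x
    constructor
    · rintro ⟨p, hp, rfl⟩
      exact X.e_mem (b.mf hp.1) hp.2
    · intro hx
      refine ⟨(b.g (X.pt q x), G x), ⟨b.mg (X.pt_mem hx), X.G_mem hx⟩, ?_⟩
      show (X.e q).f (b.f (b.g (X.pt q x)), G x) = x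
      rw [b.ri _ (X.pt_mem hx), X.e_pt hx]
  rwa [h4] at h3

/-- **EXPLODE**: for every `κ : Q → (0,1)` the map `g κ` is a PL homeomorphism `Ω → Λ`, with PL
inverse. -/
theorem explode [FiniteDimensional ℝ E] [FiniteDimensional ℝ E'] (hΩ : IsOpen Ω)
    (hΛ : IsOpen Λ) {κ : Q → ℝ} (hκ : ∀ q, 0 < κ q ∧ κ q < 1) :
    ∃ k : E → E', LocPL (X.g κ) Ω ∧ LocPL k Λ ∧ MapsTo (X.g κ) Ω Λ ∧ MapsTo k Λ Ω ∧
      (∀ x ∈ Ω, k (X.g κ x) = x) ∧ (∀ y ∈ Λ, X.g κ (k y) = y) := by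
  classical
  have hb := X.g_bijOn hκ
  set k : E → E' := Function.invFunOn (X.g κ) Ω with hk
  have k1 : ∀ y ∈ Λ, k y ∈ Ω := fun y hy => Function.invFunOn_mem (hb.surjOn hy)
  have k2 : ∀ y ∈ Λ, X.g κ (k y) = y := fun y hy => Function.invFunOn_eq (hb.surjOn hy)
  have k3 : ∀ x ∈ Ω, k (X.g κ x) = x := fun x hx =>
    hb.injOn (k1 _ (hb.mapsTo hx)) hx (k2 _ (hb.mapsTo hx))
  refine ⟨k, X.locPL_g hΩ κ, ?_, hb.mapsTo, k1, k3, k2⟩
  refine locPL_of_pieces hΛ (K := fun q => X.g κ '' X.P q) (fun q => ?_) (fun y hy => ?_)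
    (X.image_lf hκ) (fun q => ?_)
  · exact ((X.isCompact_P q).image_of_continuousOn (X.plOn_g κ q).1).isClosed
  · obtain ⟨q, hq⟩ := X.cover _ (k1 y hy)
    exact ⟨q, k y, hq, k2 y hy⟩
  · have h1 := (Cx_609.plOn_iff.2 (X.plOn_g κ q)).inv_closed (X.finConv_P q)
      (X.isCompact_P q).isClosed (r := k) (fun x hx => k3 x (X.sub q hx))
    exact Cx_609.plOn_iff.1 h1.2

end Expl

end Crest.Agent.R096.Xp_537
end

-- ▼ part R096/Xp6_537
section

/-!
# R096 (row 96), EXPLODE, part 6 (helper537)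

Choice of `κ`: `g κ` is as close to `G` as one wants, in `C⁰` (with a continuous positive tolerance
on `Ω`) and in energy.
-/

set_option autoImplicit false
set_option linter.unusedSectionVars false
set_option linter.unusedVariables false
set_option linter.deprecated false

open Set MeasureTheory Filter Topology
open scoped ENNReal NNReal

namespace Crest.Agent.R096.Xp_537

open Crest.Agent.R096.Ce_537 (PLOn PLEquiv cube sph IsBall LocPL)
open Crest.Agent.R096.Bd_416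

/-- a continuous selection of finitely many affine maps on a convex set: explicit constant -/
theorem lip_sel {V W : Type*} [NormedAddCommGroup V] [NormedSpace ℝ V] [NormedAddCommGroup W]
    [NormedSpace ℝ W] [FiniteDimensional ℝ V] (S : Finset (V →ᵃ[ℝ] W)) :
    ∃ C : ℝ≥0, ∀ (h : V → W) (s : Set V), Convex ℝ s → ContinuousOn h s →
      (∀ y ∈ s, ∃ g ∈ S, h y = g y) → LipschitzOnWith C h s := by
  classical
  set L : (V →ᵃ[ℝ] W) → (V →L[ℝ] W) := fun g => LinearMap.toContinuousLinearMap g.linear with hL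
  set M : ℝ≥0 := ∑ g ∈ S, ‖L g‖₊ with hMdef
  have hM : ∀ g ∈ S, ‖L g‖ ≤ M := by
    intro g hg
    have h1 : ‖L g‖₊ ≤ M := Finset.single_le_sum (f := fun g => ‖L g‖₊) (fun _ _ => zero_le) hg
    exact_mod_cast h1
  refine ⟨M, fun h s hs hc hsel => LipschitzOnWith.of_dist_le_mul fun y hy z hz => ?_⟩
  set φ : ℝ → W := fun t => h (z + t • (y - z)) with hφ
  have hmem : ∀ t ∈ Icc (0 : ℝ) 1, z + t • (y - z) ∈ s := by
    intro t ht
    exact hs.add_smul_sub_mem hz hy ht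
  have h1 := Sk_962.sel_one (φ := φ) S (fun g => g z) (fun g => L g (y - z)) (M := M * ‖y - z‖)
    (fun g hg => ((L g).le_opNorm _).trans (mul_le_mul_of_nonneg_right (hM g hg) (norm_nonneg _)))
    (hc.comp (by fun_prop) hmem) (fun t ht => by
      obtain ⟨g, hg, hg'⟩ := hsel _ (hmem t ht)
      refine ⟨g, hg, ?_⟩
      simp only [hφ, hg', hL, LinearMap.coe_toContinuousLinearMap']
      have h2 : g (z + t • (y - z)) = g z + g.linear (t • (y - z)) := by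
        have := g.map_vadd z (t • (y - z))
        simp only [vadd_eq_add] at this
        rw [add_comm z, this, add_comm]
      rw [h2, map_smul])
  simp only [hφ, one_smul, zero_smul, add_zero, add_sub_cancel] at h1
  rw [dist_eq_norm, dist_eq_norm]
  exact h1

lemma locPL_iff {V W : Type*} [NormedAddCommGroup V] [NormedSpace ℝ V] [NormedAddCommGroup W]
    [NormedSpace ℝ W] {h : V → W} {O : Set V} : LocPL h O ↔ Str_696.LocPL h O := by
  constructor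
  · intro H x hx
    obtain ⟨r, hr, hc, S, hS⟩ := H x hx
    exact ⟨r, hr, S, hc, hS⟩
  · intro H x hx
    obtain ⟨r, hr, S, hc, hS⟩ := H x hx
    exact ⟨r, hr, hc, S, hS⟩

lemma locPL_ll {V W : Type*} [NormedAddCommGroup V] [NormedSpace ℝ V] [NormedAddCommGroup W]
    [NormedSpace ℝ W] [FiniteDimensional ℝ V] {h : V → W} {O : Set V} (H : LocPL h O) :
    Sk_962.LL h O := by
  intro x hx
  obtain ⟨r, hr, hc, S, hS⟩ := H x hx
  exact ⟨r, hr, Sk_962.lipschitzOn_of_sel (convex_ball x r) hc hS⟩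

lemma locPL_continuousOn {V W : Type*} [NormedAddCommGroup V] [NormedSpace ℝ V]
    [NormedAddCommGroup W] [NormedSpace ℝ W] {h : V → W} {O : Set V} (H : LocPL h O) :
    ContinuousOn h O := by
  intro x hx
  obtain ⟨r, hr, hc, S, hS⟩ := H x hx
  exact ((hc x (Metric.mem_ball_self hr)).continuousAt (Metric.ball_mem_nhds x hr)).continuousWithinAt

variable {E E' : Type*} [NormedAddCommGroup E] [NormedSpace ℝ E]
  [NormedAddCommGroup E'] [NormedSpace ℝ E']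
variable {Q : Type*} [PartialOrder Q] {Λ : Set E}

namespace Expl

variable {Ω : Set E'} {C : CC Λ Q} {G : E' → E} (X : Expl Ω C G)

/-- the support of `D ρ` -/
def K (ρ : Q) : Set E' := ⋃ q ∈ {q | q ≤ ρ}, X.P q

lemma isCompact_K (ρ : Q) : IsCompact (X.K ρ) :=
  (C.finite_le ρ).isCompact_biUnion (fun q _ => X.isCompact_P q)

lemma K_sub (ρ : Q) : X.K ρ ⊆ Ω := by
  intro x hx
  obtain ⟨q, -, hq⟩ := mem_iUnion₂.1 hx
  exact X.sub q hq

lemma P_nonempty (q : Q) : (X.P q).Nonempty := by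
  obtain ⟨m, hm⟩ := X.M_nonempty q
  exact ⟨m, X.M_sub_P q hm⟩

lemma K_nonempty (ρ : Q) : (X.K ρ).Nonempty := by
  obtain ⟨x, hx⟩ := X.P_nonempty ρ
  exact ⟨x, mem_biUnion (show ρ ∈ {q | q ≤ ρ} from le_rfl) hx⟩

lemma D_notMem {ρ : Q} {x : E'} (hx : x ∈ Ω) (h : x ∉ X.K ρ) : X.D ρ x = 0 := by
  by_contra hne
  obtain ⟨q, hq, hqx⟩ := X.D_ne hx hne
  exact h (mem_biUnion (show q ∈ {q | q ≤ ρ} from hq) hqx)

include X in
lemma countable [FiniteDimensional ℝ E'] : Countable Q := by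
  have h : ∀ x ∈ Ω, ∃ U ∈ nhdsWithin x Ω, {q | (X.P q ∩ U).Nonempty}.Finite := by
    intro x hx
    obtain ⟨r, hr, hf⟩ := X.lf x hx
    exact ⟨Metric.ball x r, mem_nhdsWithin_of_mem_nhds (Metric.ball_mem_nhds x hr), hf⟩
  choose! U hU hUf using h
  have : SecondCountableTopology E' := by
    have : ProperSpace E' := FiniteDimensional.proper ℝ E'
    infer_instance
  obtain ⟨s, hs, hsc, hcov⟩ := TopologicalSpace.countable_cover_nhdsWithin hU
  have h1 : (univ : Set Q) ⊆ ⋃ x ∈ s, {q | (X.P q ∩ U x).Nonempty} := by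
    intro q _
    obtain ⟨x, hx⟩ := X.P_nonempty q
    obtain ⟨y, hy, hxy⟩ := mem_iUnion₂.1 (hcov (X.sub q hx))
    exact mem_biUnion hy ⟨x, hx, hxy⟩
  exact countable_univ_iff.1
    ((hsc.biUnion (fun x hx => (hUf x (hs hx)).countable)).mono h1)

/-- `D ρ` is a selection of finitely many affine maps on all of `Ω` -/
lemma D_sel [FiniteDimensional ℝ E] (ρ : Q) : ∃ S : Finset (E' →ᵃ[ℝ] E),
    ∀ x ∈ Ω, ∃ a ∈ S, X.D ρ x = a x := by
  classical
  choose T hT using fun q => (X.plOn_D q ρ).2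
  refine ⟨insert 0 ((C.dn ρ).biUnion T), fun x hx => ?_⟩
  by_cases h : x ∈ X.K ρ
  · obtain ⟨q, hq, hqx⟩ := mem_iUnion₂.1 h
    obtain ⟨a, ha, e⟩ := hT q x hqx
    exact ⟨a, Finset.mem_insert_of_mem (Finset.mem_biUnion.2 ⟨q, C.mem_dn.2 hq, ha⟩), e⟩
  · exact ⟨0, Finset.mem_insert_self _ _, by rw [X.D_notMem hx h]; rfl⟩

/-- uniform gradient bound for `D ρ` -/
lemma D_fderiv [FiniteDimensional ℝ E] [FiniteDimensional ℝ E'] (hΩ : IsOpen Ω) (ρ : Q) :
    ∃ L : ℝ≥0, ∀ x ∈ Ω, ‖fderiv ℝ (X.D ρ) x‖ ≤ L ∧ (x ∉ X.K ρ → fderiv ℝ (X.D ρ) x = 0) := by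
  obtain ⟨S, hS⟩ := X.D_sel ρ
  obtain ⟨L, hL⟩ := lip_sel S
  refine ⟨L, fun x hx => ⟨?_, fun hK => ?_⟩⟩
  · obtain ⟨r, hr, hsub⟩ := Metric.isOpen_iff.1 hΩ x hx
    have h1 : LipschitzOnWith L (X.D ρ) (Metric.ball x r) :=
      hL _ _ (convex_ball x r) ((locPL_continuousOn (X.locPL_D hΩ ρ)).mono hsub)
        (fun y hy => hS y (hsub hy))
    exact norm_fderiv_le_of_lipschitzOn ℝ (Metric.ball_mem_nhds x hr) h1
  · have hopen : IsOpen (Ω \ X.K ρ) := hΩ.sdiff (X.isCompact_K ρ).isClosed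
    have h1 : X.D ρ =ᶠ[𝓝 x] fun _ => (0 : E) := by
      filter_upwards [hopen.mem_nhds ⟨hx, hK⟩] with y hy
      exact X.D_notMem hy.1 hy.2
    rw [h1.fderiv_eq]
    simp

lemma D_bound [FiniteDimensional ℝ E] (hΩ : IsOpen Ω) (ρ : Q) :
    ∃ B : ℝ, 0 ≤ B ∧ ∀ x ∈ Ω, ‖X.D ρ x‖ ≤ B := by
  obtain ⟨B, hB⟩ := (X.isCompact_K ρ).exists_bound_of_continuousOn
    ((locPL_continuousOn (X.locPL_D hΩ ρ)).mono (X.K_sub ρ))
  refine ⟨max B 0, le_max_right _ _, fun x hx => ?_⟩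
  by_cases h : x ∈ X.K ρ
  · exact (hB x h).trans (le_max_left _ _)
  · rw [X.D_notMem hx h, norm_zero]; exact le_max_right _ _

/-- near every point, `g κ` is a finite sum -/
lemma g_near (hΩ : IsOpen Ω) {x : E'} (hx : x ∈ Ω) : ∃ F : Finset Q,
    ∀ κ : Q → ℝ, X.g κ =ᶠ[𝓝 x] fun y => G y + ∑ ρ ∈ F, κ ρ • X.D ρ y := by
  classical
  obtain ⟨r, hr, hf⟩ := X.lf x hx
  refine ⟨hf.toFinset.biUnion X.ups, fun κ => ?_⟩
  filter_upwards [hΩ.mem_nhds hx, Metric.ball_mem_nhds x hr] with y hy hyr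
  obtain ⟨q, hq⟩ := X.cover y hy
  rw [X.g_eq_sum κ hq]
  congr 1
  refine Finset.sum_subset (fun ρ hρ => ?_) (fun ρ _ hρ => ?_)
  · exact Finset.mem_biUnion.2 ⟨q, hf.mem_toFinset.2 ⟨y, hq, hyr⟩, hρ⟩
  · rw [X.D_eq_zero (fun h => hρ (X.mem_ups.2 h)) hq, smul_zero]


/-- **choice of `κ`**: for all sufficiently small `κ` the map `g κ` is close to `G`. -/
theorem small [FiniteDimensional ℝ E] [FiniteDimensional ℝ E'] [MeasurableSpace E']
    [BorelSpace E'] (μ : Measure E') [μ.IsAddHaarMeasure] (hΩ : IsOpen Ω) {η : E' → ℝ}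
    (hη : ContinuousOn η Ω) (hη0 : ∀ x ∈ Ω, 0 < η x) {p : ℝ} (hp : 0 < p) {e : ℝ≥0∞}
    (he : e ≠ 0) :
    ∃ c : Q → ℝ, (∀ ρ, 0 < c ρ ∧ c ρ < 1) ∧ ∀ κ : Q → ℝ, (∀ ρ, 0 < κ ρ ∧ κ ρ ≤ c ρ) →
      (∀ x ∈ Ω, ‖X.g κ x - G x‖ ≤ η x) ∧
      ∫⁻ x in Ω, ‖fderiv ℝ (X.g κ) x - fderiv ℝ G x‖ₑ ^ p ∂μ ≤ e := by
  classical
  have := X.countable
  obtain ⟨ω, hω, hω1⟩ := ENNReal.exists_pos_sum_of_countable (ε := 1) one_ne_zero Q
  obtain ⟨ε, hε, hε1⟩ := ENNReal.exists_pos_sum_of_countable he Q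
  choose L hL using fun ρ => X.D_fderiv hΩ ρ
  choose B hB0 hB using fun ρ => X.D_bound hΩ ρ
  have hmin : ∀ ρ, ∃ h : ℝ, 0 < h ∧ ∀ x ∈ X.K ρ, h ≤ η x := by
    intro ρ
    obtain ⟨x, hx, hmin⟩ := (X.isCompact_K ρ).exists_isMinOn (X.K_nonempty ρ)
      (hη.mono (X.K_sub ρ))
    exact ⟨η x, hη0 x (X.K_sub ρ hx), fun y hy => hmin hy⟩
  choose h hh0 hh using hmin
  -- measure of the supports
  have hmu : ∀ ρ, μ (X.K ρ) ≠ ⊤ := fun ρ => (X.isCompact_K ρ).measure_lt_top.ne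
  set V : Q → ℝ := fun ρ => (μ (X.K ρ)).toReal with hV
  have hV0 : ∀ ρ, 0 ≤ V ρ := fun ρ => ENNReal.toReal_nonneg
  set a : Q → ℝ := fun ρ => ((ε ρ : ℝ) / (1 + V ρ)) ^ (1 / p) with ha
  have ha0 : ∀ ρ, 0 < a ρ := fun ρ => by
    have := hε ρ
    have := hV0 ρ
    exact Real.rpow_pos_of_pos (div_pos (by exact_mod_cast hε ρ) (by linarith)) _
  have hap : ∀ ρ, (a ρ) ^ p * V ρ ≤ ε ρ := fun ρ => by
    have h1 : (0 : ℝ) ≤ (ε ρ : ℝ) := (ε ρ).2
    have h2 := hV0 ρ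
    rw [ha]
    simp only
    rw [← Real.rpow_mul (div_nonneg h1 (by linarith)), one_div, inv_mul_cancel₀ hp.ne',
      Real.rpow_one, div_mul_eq_mul_div, div_le_iff₀ (by linarith)]
    nlinarith
  set c : Q → ℝ := fun ρ => min (1 / 2) (min (ω ρ * h ρ / (1 + B ρ)) (ω ρ * a ρ / (1 + L ρ)))
    with hc
  have hω' : ∀ ρ, (0 : ℝ) < ω ρ := fun ρ => by exact_mod_cast hω ρ
  have hc0 : ∀ ρ, 0 < c ρ := fun ρ => by
    have h1 := hω' ρ
    have h2 := hh0 ρ
    have h3 := ha0 ρ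
    have h4 := hB0 ρ
    have h5 : (0 : ℝ) ≤ L ρ := (L ρ).2
    exact lt_min (by norm_num) (lt_min (by positivity) (by positivity))
  refine ⟨c, fun ρ => ⟨hc0 ρ, (min_le_left _ _).trans_lt (by norm_num)⟩, fun κ hκ => ?_⟩
  have hκB : ∀ ρ, κ ρ * B ρ ≤ ω ρ * h ρ := fun ρ => by
    have h4 := hB0 ρ
    have h1 : κ ρ ≤ ω ρ * h ρ / (1 + B ρ) :=
      (hκ ρ).2.trans ((min_le_right _ _).trans (min_le_left _ _))
    rw [le_div_iff₀ (by linarith)] at h1
    have := (hκ ρ).1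
    nlinarith
  have hκL : ∀ ρ, κ ρ * L ρ ≤ ω ρ * a ρ := fun ρ => by
    have h5 : (0 : ℝ) ≤ L ρ := (L ρ).2
    have h1 : κ ρ ≤ ω ρ * a ρ / (1 + L ρ) :=
      (hκ ρ).2.trans ((min_le_right _ _).trans (min_le_right _ _))
    rw [le_div_iff₀ (by linarith)] at h1
    have := (hκ ρ).1
    nlinarith
  have hωs : ∀ F : Finset Q, ∑ ρ ∈ F, (ω ρ : ℝ) ≤ 1 := by
    intro F
    have h1 : ∑ ρ ∈ F, (ω ρ : ℝ≥0∞) ≤ 1 := (ENNReal.sum_le_tsum F).trans hω1.le
    have h2 : ((∑ ρ ∈ F, ω ρ : ℝ≥0) : ℝ≥0∞) ≤ ((1 : ℝ≥0) : ℝ≥0∞) := by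
      push_cast; exact h1
    have h3 : ∑ ρ ∈ F, ω ρ ≤ 1 := ENNReal.coe_le_coe.1 h2
    exact_mod_cast h3
  constructor
  · -- C⁰
    intro x hx
    obtain ⟨q, hq⟩ := X.cover x hx
    rw [X.g_eq_sum κ hq, add_sub_cancel_left]
    have h1 : ∀ ρ ∈ X.ups q, ‖κ ρ • X.D ρ x‖ ≤ ω ρ * η x := by
      intro ρ _
      by_cases hK : x ∈ X.K ρ
      · rw [norm_smul, Real.norm_eq_abs, abs_of_pos (hκ ρ).1]
        calc κ ρ * ‖X.D ρ x‖ ≤ κ ρ * B ρ := mul_le_mul_of_nonneg_left (hB ρ x hx) (hκ ρ).1.le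
          _ ≤ ω ρ * h ρ := hκB ρ
          _ ≤ ω ρ * η x := mul_le_mul_of_nonneg_left (hh ρ x hK) (hω' ρ).le
      · rw [X.D_notMem hx hK, smul_zero, norm_zero]
        exact mul_nonneg (hω' ρ).le (hη0 x hx).le
    calc ‖∑ ρ ∈ X.ups q, κ ρ • X.D ρ x‖ ≤ ∑ ρ ∈ X.ups q, ‖κ ρ • X.D ρ x‖ := norm_sum_le _ _
      _ ≤ ∑ ρ ∈ X.ups q, (ω ρ : ℝ) * η x := Finset.sum_le_sum h1
      _ = (∑ ρ ∈ X.ups q, (ω ρ : ℝ)) * η x := by rw [Finset.sum_mul]
      _ ≤ 1 * η x := mul_le_mul_of_nonneg_right (hωs _) (hη0 x hx).le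
      _ = η x := one_mul _
  · -- energy
    have hd : ∀ᵐ x ∂μ, x ∈ Ω → (DifferentiableAt ℝ G x ∧ ∀ ρ, DifferentiableAt ℝ (X.D ρ) x) := by
      have h1 : ∀ᵐ x ∂μ, x ∈ Ω → DifferentiableAt ℝ G x := (locPL_ll (X.locPL_G hΩ)).ae_diff
      have h2 : ∀ᵐ x ∂μ, ∀ ρ, x ∈ Ω → DifferentiableAt ℝ (X.D ρ) x :=
        ae_all_iff.2 (fun ρ => (locPL_ll (X.locPL_D hΩ ρ)).ae_diff)
      filter_upwards [h1, h2] with x hx1 hx2 hx
      exact ⟨hx1 hx, fun ρ => hx2 ρ hx⟩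
    have hpt : ∀ᵐ x ∂(μ.restrict Ω), ‖fderiv ℝ (X.g κ) x - fderiv ℝ G x‖ₑ ^ p ≤
        ∑' ρ, (X.K ρ).indicator (fun _ => ENNReal.ofReal ((a ρ) ^ p)) x := by
      rw [ae_restrict_iff' hΩ.measurableSet]
      filter_upwards [hd] with x hx hxΩ
      obtain ⟨hG, hD⟩ := hx hxΩ
      obtain ⟨F, hF⟩ := X.g_near hΩ hxΩ
      have h1 : fderiv ℝ (X.g κ) x - fderiv ℝ G x = ∑ ρ ∈ F, κ ρ • fderiv ℝ (X.D ρ) x := by
        rw [(hF κ).fderiv_eq]
        have h2 : HasFDerivAt (fun y => G y + ∑ ρ ∈ F, κ ρ • X.D ρ y)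
            (fderiv ℝ G x + ∑ ρ ∈ F, κ ρ • fderiv ℝ (X.D ρ) x) x := by
          refine hG.hasFDerivAt.add ?_
          exact HasFDerivAt.fun_sum (fun ρ _ => (hD ρ).hasFDerivAt.const_smul (κ ρ))
        rw [h2.fderiv, add_sub_cancel_left]
      -- the largest coefficient
      set F' := F.filter (fun ρ => x ∈ X.K ρ) with hF'
      have h2 : ∑ ρ ∈ F, κ ρ • fderiv ℝ (X.D ρ) x = ∑ ρ ∈ F', κ ρ • fderiv ℝ (X.D ρ) x := by
        symm
        refine Finset.sum_subset (Finset.filter_subset _ _) (fun ρ hρ hρ' => ?_)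
        have : x ∉ X.K ρ := fun hK => hρ' (Finset.mem_filter.2 ⟨hρ, hK⟩)
        rw [(hL ρ x hxΩ).2 this, smul_zero]
      rw [h1, h2]
      rcases F'.eq_empty_or_nonempty with hem | hne
      · rw [hem, Finset.sum_empty, ← ofReal_norm, norm_zero, ENNReal.ofReal_zero,
          ENNReal.zero_rpow_of_pos hp]
        exact bot_le
      · obtain ⟨σ, hσ, hmax⟩ := F'.exists_max_image a hne
        have h3 : ‖∑ ρ ∈ F', κ ρ • fderiv ℝ (X.D ρ) x‖ ≤ a σ := by
          calc ‖∑ ρ ∈ F', κ ρ • fderiv ℝ (X.D ρ) x‖ ≤ ∑ ρ ∈ F', ‖κ ρ • fderiv ℝ (X.D ρ) x‖ :=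
                norm_sum_le _ _
            _ ≤ ∑ ρ ∈ F', (ω ρ : ℝ) * a σ := by
                refine Finset.sum_le_sum (fun ρ hρ => ?_)
                rw [norm_smul, Real.norm_eq_abs, abs_of_pos (hκ ρ).1]
                calc κ ρ * ‖fderiv ℝ (X.D ρ) x‖ ≤ κ ρ * L ρ :=
                      mul_le_mul_of_nonneg_left (hL ρ x hxΩ).1 (hκ ρ).1.le
                  _ ≤ ω ρ * a ρ := hκL ρ
                  _ ≤ ω ρ * a σ := mul_le_mul_of_nonneg_left (hmax ρ hρ) (hω' ρ).le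
            _ = (∑ ρ ∈ F', (ω ρ : ℝ)) * a σ := by rw [Finset.sum_mul]
            _ ≤ 1 * a σ := mul_le_mul_of_nonneg_right (hωs _) (ha0 σ).le
            _ = a σ := one_mul _
        have hσK : x ∈ X.K σ := (Finset.mem_filter.1 hσ).2
        calc ‖∑ ρ ∈ F', κ ρ • fderiv ℝ (X.D ρ) x‖ₑ ^ p ≤ (ENNReal.ofReal (a σ)) ^ p := by
              refine ENNReal.rpow_le_rpow ?_ hp.le
              rw [← ofReal_norm]
              exact ENNReal.ofReal_le_ofReal h3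
          _ = ENNReal.ofReal ((a σ) ^ p) := ENNReal.ofReal_rpow_of_nonneg (ha0 σ).le hp.le
          _ = (X.K σ).indicator (fun _ => ENNReal.ofReal ((a σ) ^ p)) x := by
              rw [indicator_of_mem hσK]
          _ ≤ ∑' ρ, (X.K ρ).indicator (fun _ => ENNReal.ofReal ((a ρ) ^ p)) x :=
              ENNReal.le_tsum σ
    calc ∫⁻ x in Ω, ‖fderiv ℝ (X.g κ) x - fderiv ℝ G x‖ₑ ^ p ∂μ
        ≤ ∫⁻ x in Ω, ∑' ρ, (X.K ρ).indicator (fun _ => ENNReal.ofReal ((a ρ) ^ p)) x ∂μ :=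
          lintegral_mono_ae hpt
      _ ≤ ∫⁻ x, ∑' ρ, (X.K ρ).indicator (fun _ => ENNReal.ofReal ((a ρ) ^ p)) x ∂μ :=
          setLIntegral_le_lintegral _ _
      _ = ∑' ρ, ∫⁻ x, (X.K ρ).indicator (fun _ => ENNReal.ofReal ((a ρ) ^ p)) x ∂μ := by
          refine lintegral_tsum (fun ρ => ?_)
          exact (measurable_const.indicator (X.isCompact_K ρ).isClosed.measurableSet).aemeasurable
      _ = ∑' ρ, ENNReal.ofReal ((a ρ) ^ p) * μ (X.K ρ) := by
          congr 1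
          funext ρ
          rw [lintegral_indicator (X.isCompact_K ρ).isClosed.measurableSet, setLIntegral_const]
      _ ≤ ∑' ρ, (ε ρ : ℝ≥0∞) := by
          refine ENNReal.tsum_le_tsum (fun ρ => ?_)
          have h1 : μ (X.K ρ) = ENNReal.ofReal (V ρ) := (ENNReal.ofReal_toReal (hmu ρ)).symm
          rw [h1, ← ENNReal.ofReal_mul (Real.rpow_nonneg (ha0 ρ).le _)]
          have h2 : (ε ρ : ℝ≥0∞) = ENNReal.ofReal (ε ρ : ℝ) := (ENNReal.ofReal_coe_nnreal).symm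
          rw [h2]
          exact ENNReal.ofReal_le_ofReal (hap ρ)
      _ ≤ e := hε1.le

end Expl

/-! ### the version in `R3` -/

section R3

open Crest.AnalysisR.VecCalc3 Crest.AnalysisR.Sobolev Crest.Agent.R096.Sk_962
open scoped Gradient

lemma enorm_Gr_sub_le {g F : R3 → R3} {x : R3} (hg : DifferentiableAt ℝ g x)
    (hF : DifferentiableAt ℝ F x) (j : Fin 3) :
    ‖Gr g j x - Gr F j x‖ₑ ≤ ‖fderiv ℝ g x - fderiv ℝ F x‖ₑ := by
  have hc : ∀ u : R3 → R3, DifferentiableAt ℝ u x → ∀ v,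
      fderiv ℝ (fun y => u y j) x v = fderiv ℝ u x v j := by
    intro u hu v
    have h1 : HasFDerivAt (fun y => u y j)
        ((EuclideanSpace.proj (𝕜 := ℝ) j : R3 →L[ℝ] ℝ).comp (fderiv ℝ u x)) x :=
      (EuclideanSpace.proj (𝕜 := ℝ) j : R3 →L[ℝ] ℝ).hasFDerivAt.comp x hu.hasFDerivAt
    rw [h1.fderiv]
    rfl
  have h1 : Gr g j x - Gr F j x = (InnerProductSpace.toDual ℝ R3).symm
      (fderiv ℝ (fun y => g y j) x - fderiv ℝ (fun y => F y j) x) := by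
    rw [map_sub]; rfl
  have h2 : ‖Gr g j x - Gr F j x‖ ≤ ‖fderiv ℝ g x - fderiv ℝ F x‖ := by
    rw [h1, LinearIsometryEquiv.norm_map]
    refine ContinuousLinearMap.opNorm_le_bound _ (norm_nonneg _) (fun v => ?_)
    have h3 : (fderiv ℝ (fun y => g y j) x - fderiv ℝ (fun y => F y j) x) v =
        ((fderiv ℝ g x - fderiv ℝ F x) v) j := by
      rw [ContinuousLinearMap.sub_apply, hc g hg, hc F hF]; rfl
    rw [h3]
    exact (PiLp.norm_apply_le _ j).trans (ContinuousLinearMap.le_opNorm _ _)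
  rw [← ofReal_norm, ← ofReal_norm]
  exact ENNReal.ofReal_le_ofReal h2

/-- **EXPLODE in `R3`**: a map `G : Ω → Λ` with an exploded structure is approximated, in `C⁰` with a
continuous tolerance and in energy, by PL homeomorphisms `Ω → Λ` with PL inverse. -/
theorem explode_R3 {Q : Type*} [PartialOrder Q] {Ω Λ : Set R3} {C : CC Λ Q} {F : R3 → R3}
    (X : Expl Ω C F) (hΩ : IsOpen Ω) (hΛ : IsOpen Λ) {η : R3 → ℝ} (hη : ContinuousOn η Ω)
    (hη0 : ∀ x ∈ Ω, 0 < η x) {p : ℝ} (hp : 0 < p) {e : ℝ≥0∞} (he : e ≠ 0) :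
    ∃ g : R3 → R3, IsHomeomorphOn g Ω Λ ∧ Str_696.LocPL g Ω ∧
      (∃ k : R3 → R3, Str_696.LocPL k Λ ∧ MapsTo k Λ Ω ∧ (∀ x ∈ Ω, k (g x) = x) ∧
        ∀ y ∈ Λ, g (k y) = y) ∧
      (∀ x ∈ Ω, ‖g x - F x‖ ≤ η x) ∧
      ∫⁻ x in Ω, ∑ j : Fin 3, ‖Gr g j x - Gr F j x‖ₑ ^ p ≤ e := by
  obtain ⟨c, hc, hsm⟩ := X.small (volume : Measure R3) hΩ hη hη0 hp (e := e / 3)
    (by simp [he])
  obtain ⟨h1, h2⟩ := hsm c (fun ρ => ⟨(hc ρ).1, le_rfl⟩)
  obtain ⟨k, k1, k2, k3, k4, k5, k6⟩ := X.explode hΩ hΛ hc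
  refine ⟨X.g c, ⟨k, k3, k4, k5, k6, locPL_continuousOn k1, locPL_continuousOn k2⟩,
    locPL_iff.1 k1, ⟨k, locPL_iff.1 k2, k4, k5, k6⟩, h1, ?_⟩
  have hd1 : ∀ᵐ x ∂(volume : Measure R3), x ∈ Ω → DifferentiableAt ℝ (X.g c) x :=
    (locPL_ll k1).ae_diff
  have hd2 : ∀ᵐ x ∂(volume : Measure R3), x ∈ Ω → DifferentiableAt ℝ F x :=
    (locPL_ll (X.locPL_G hΩ)).ae_diff
  calc ∫⁻ x in Ω, ∑ j : Fin 3, ‖Gr (X.g c) j x - Gr F j x‖ₑ ^ p
      ≤ ∫⁻ x in Ω, 3 * ‖fderiv ℝ (X.g c) x - fderiv ℝ F x‖ₑ ^ p := by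
        refine lintegral_mono_ae ?_
        refine (ae_restrict_iff' hΩ.measurableSet).2 ?_
        filter_upwards [hd1, hd2] with x hx1 hx2 hx
        have h3 : ∀ j ∈ (Finset.univ : Finset (Fin 3)), ‖Gr (X.g c) j x - Gr F j x‖ₑ ^ p ≤
            ‖fderiv ℝ (X.g c) x - fderiv ℝ F x‖ₑ ^ p := fun j _ =>
          ENNReal.rpow_le_rpow (enorm_Gr_sub_le (hx1 hx) (hx2 hx) j) hp.le
        refine (Finset.sum_le_sum h3).trans ?_
        simp
    _ = 3 * ∫⁻ x in Ω, ‖fderiv ℝ (X.g c) x - fderiv ℝ F x‖ₑ ^ p :=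
        lintegral_const_mul' _ _ (by norm_num)
    _ ≤ 3 * (e / 3) := by gcongr
    _ = e := ENNReal.mul_div_cancel (by norm_num) (by norm_num)

end R3

end Crest.Agent.R096.Xp_537
end

-- ▼ part R096/Xp8_537

/-!
# R096 (row 96), EXPLODE, part 8 (helper537)

`Trn`: the transport form of the exploded structure.  `top x` = the cell of `x`, `tr x t` = the
point over `t ∈ cell (top x)` on the leaf of `x`.  `Trn.expl : Expl Ω C G`.
Here `M q = Ω ∩ G⁻¹{b q}` and its boundary is `{x ∈ M q | top x ≠ q}`.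
-/

set_option autoImplicit false
set_option linter.unusedSectionVars false
set_option linter.unusedVariables false
set_option linter.deprecated false

open Set

namespace Crest.Agent.R096.Xp_537

open Crest.Agent.R096.Ce_537 (PLOn PLEquiv cube sph IsBall LocPL)
open Crest.Agent.R096.Bd_416

variable {E E' : Type*} [NormedAddCommGroup E] [NormedSpace ℝ E]
  [NormedAddCommGroup E'] [NormedSpace ℝ E']
variable {Q : Type*} [PartialOrder Q] {Λ : Set E}

/-- every point of a cell lies in the open cell of a smaller one -/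
lemma CC.exists_opn (C : CC Λ Q) {y : E} : ∀ {q : Q}, y ∈ C.cell q →
    ∃ p ≤ q, y ∈ C.cell p ∧ ∀ r < p, y ∉ C.cell r := by
  intro q
  induction hd : C.dim q using Nat.strong_induction_on generalizing q with
  | _ d ih =>
    intro hy
    by_cases h : ∃ p < q, y ∈ C.cell p
    · obtain ⟨p, hp, hyp⟩ := h
      obtain ⟨r, hr, h1, h2⟩ := ih (C.dim p) (hd ▸ C.dim_lt hp) rfl hyp
      exact ⟨r, hr.trans hp.le, h1, h2⟩
    · push Not at h
      exact ⟨q, le_rfl, hy, h⟩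

/-- a cell whose open cell meets `cell q` is below `q` -/
lemma CC.le_of_opn (C : CC Λ Q) {y : E} {p q : Q} (hp : y ∈ C.cell p)
    (ho : ∀ r < p, y ∉ C.cell r) (hq : y ∈ C.cell q) : p ≤ q := by
  obtain ⟨p', hp', h1, h2⟩ := C.exists_opn hq
  have := C.disj hp ho h1 h2
  rwa [this]

lemma CC.le_of_b (C : CC Λ Q) {p q : Q} (h : C.b p ∈ C.cell q) : p ≤ q :=
  C.le_of_opn (C.bmem p) (fun _ hr => C.b_notMem hr) h

/-- **transport structure** -/
structure Trn (Ω : Set E') (C : CC Λ Q) (G : E' → E) where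
  top : E' → Q
  tr : E' → E → E'
  d : Q → ℕ
  n : ℕ
  dim_le : ∀ q, C.dim q ≤ n
  G_mem : ∀ x ∈ Ω, G x ∈ C.cell (top x)
  tr_mem : ∀ x ∈ Ω, ∀ t ∈ C.cell (top x), tr x t ∈ Ω
  tr_G : ∀ x ∈ Ω, ∀ t ∈ C.cell (top x), G (tr x t) = t
  tr_top : ∀ x ∈ Ω, ∀ t ∈ C.cell (top x), top x ≤ top (tr x t)
  tr_self : ∀ x ∈ Ω, tr x (G x) = x
  tr_tr : ∀ x ∈ Ω, ∀ t ∈ C.cell (top x), ∀ s ∈ C.cell (top x), tr (tr x t) s = tr x s
  plG : ∀ q, PLOn G {x | x ∈ Ω ∧ q ≤ top x ∧ G x ∈ C.cell q}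
  plc : ∀ q, PLOn (fun x => tr x (C.b q)) {x | x ∈ Ω ∧ q ≤ top x ∧ G x ∈ C.cell q}
  pltr : ∀ q, PLOn (fun p : E' × E => tr p.1 p.2) ({x | x ∈ Ω ∧ G x = C.b q} ×ˢ C.cell q)
  ball : ∀ q, IsBall (d q) {x | x ∈ Ω ∧ G x = C.b q} {x | x ∈ Ω ∧ G x = C.b q ∧ top x ≠ q}
  lf : ∀ x ∈ Ω, ∃ r > 0,
    {q | ({x | x ∈ Ω ∧ q ≤ top x ∧ G x ∈ C.cell q} ∩ Metric.ball x r).Nonempty}.Finite

namespace Trn

variable {Ω : Set E'} {C : CC Λ Q} {G : E' → E} (X : Trn Ω C G)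

/-- the fibre -/
def M (_X : Trn Ω C G) (q : Q) : Set E' := {x | x ∈ Ω ∧ G x = C.b q}

/-- the piece -/
def P (X : Trn Ω C G) (q : Q) : Set E' := {x | x ∈ Ω ∧ q ≤ X.top x ∧ G x ∈ C.cell q}

lemma M_top {q : Q} {x : E'} (hx : x ∈ X.M q) : q ≤ X.top x :=
  C.le_of_b (by rw [← hx.2]; exact X.G_mem x hx.1)

lemma M_cell {q : Q} {x : E'} (hx : x ∈ X.M q) {t : E} (ht : t ∈ C.cell q) :
    t ∈ C.cell (X.top x) := C.mono_le (X.M_top hx) ht

/-- the charts -/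
def e (q : Q) : PLEquiv (X.M q ×ˢ C.cell q) (X.P q) where
  f := fun p => X.tr p.1 p.2
  g := fun x => (X.tr x (C.b q), G x)
  pf := X.pltr q
  pg := pl_pair (X.plc q) (X.plG q)
  mf := by
    rintro ⟨m, t⟩ ⟨hm, ht⟩
    have h1 := X.M_cell hm ht
    refine ⟨X.tr_mem m hm.1 t h1, (X.M_top hm).trans (X.tr_top m hm.1 t h1), ?_⟩
    show G (X.tr m t) ∈ C.cell q
    rw [X.tr_G m hm.1 t h1]
    exact ht
  mg := by
    rintro x ⟨hx, hq, hG⟩
    have h1 : C.b q ∈ C.cell (X.top x) := C.mono_le hq (C.bmem q)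
    exact ⟨⟨X.tr_mem x hx _ h1, X.tr_G x hx _ h1⟩, hG⟩
  li := by
    rintro ⟨m, t⟩ ⟨hm, ht⟩
    have h1 := X.M_cell hm ht
    have h2 : C.b q ∈ C.cell (X.top m) := X.M_cell hm (C.bmem q)
    show (X.tr (X.tr m t) (C.b q), G (X.tr m t)) = (m, t)
    rw [X.tr_G m hm.1 t h1, X.tr_tr m hm.1 t h1 _ h2]
    have h3 : X.tr m (C.b q) = m := by
      have := X.tr_self m hm.1
      rwa [hm.2] at this
    rw [h3]
  ri := by
    rintro x ⟨hx, hq, hG⟩
    have h1 : C.b q ∈ C.cell (X.top x) := C.mono_le hq (C.bmem q)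
    show X.tr (X.tr x (C.b q)) (G x) = x
    rw [X.tr_tr x hx _ h1 _ (X.G_mem x hx), X.tr_self x hx]

lemma e_f (q : Q) (m : E') (t : E) : (X.e q).f (m, t) = X.tr m t := rfl

lemma bd_eq (q : Q) : {x | x ∈ Ω ∧ G x = C.b q ∧ X.top x ≠ q} =
    ⋃ ρ ∈ {ρ | q < ρ}, (fun m => (X.e ρ).f (m, C.b q)) '' X.M ρ := by
  ext x
  simp only [mem_iUnion, mem_setOf_eq, exists_prop, mem_image]
  constructor
  · rintro ⟨hx, hG, hne⟩
    have hq : q < X.top x := lt_of_le_of_ne (X.M_top ⟨hx, hG⟩) (Ne.symm hne)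
    have h1 : C.b (X.top x) ∈ C.cell (X.top x) := C.bmem _
    refine ⟨X.top x, hq, X.tr x (C.b (X.top x)), ⟨X.tr_mem x hx _ h1, X.tr_G x hx _ h1⟩, ?_⟩
    rw [X.e_f, ← hG, X.tr_tr x hx _ h1 _ (X.G_mem x hx), X.tr_self x hx]
  · rintro ⟨ρ, hρ, m, hm, rfl⟩
    rw [X.e_f]
    have h1 : C.b q ∈ C.cell (X.top m) := X.M_cell hm (C.mono hρ (C.bmem q))
    refine ⟨X.tr_mem m hm.1 _ h1, X.tr_G m hm.1 _ h1, ?_⟩
    have h2 := X.tr_top m hm.1 _ h1
    exact (hρ.trans_le ((X.M_top hm).trans h2)).ne'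

/-- **the exploded structure of a transport structure** -/
def expl : Expl Ω C G where
  M := X.M
  P := X.P
  e := X.e
  d := X.d
  n := X.n
  dim_le := X.dim_le
  e_G := fun q m hm t ht => X.tr_G m hm.1 t (X.M_cell hm ht)
  e_b := fun q m hm => by
    rw [X.e_f]
    have := X.tr_self m hm.1
    rwa [hm.2] at this
  comp := fun {q ρ} h m hm t ht => by
    rw [X.e_f, X.e_f, X.e_f]
    exact (X.tr_tr m hm.1 _ (X.M_cell hm (C.mono h (C.bmem q))) t
      (X.M_cell hm (C.mono h ht))).symm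
  ball := fun q => by
    rw [← X.bd_eq]
    exact X.ball q
  sub := fun q x hx => hx.1
  cover := fun x hx => ⟨X.top x, hx, le_rfl, X.G_mem x hx⟩
  lf := X.lf
  up := fun {q q' x} h h' => ⟨X.top x, h.2.1, h'.2.1, h.1, le_rfl, X.G_mem x h.1⟩

end Trn

/-- local finiteness of the pieces is automatic when `G` is continuous -/
lemma lf_of_cont {Ω : Set E'} {C : CC Λ Q} {G : E' → E} (hG : ContinuousOn G Ω)
    (hm : MapsTo G Ω Λ) {P : Q → Set E'} (hP : ∀ q, ∀ x ∈ P q, x ∈ Ω ∧ G x ∈ C.cell q) :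
    ∀ x ∈ Ω, ∃ r > 0, {q | (P q ∩ Metric.ball x r).Nonempty}.Finite := by
  intro x hx
  obtain ⟨s, hs, hf⟩ := C.lf (G x) (hm hx)
  obtain ⟨r, hr, hball⟩ := Metric.continuousOn_iff.1 hG x hx s hs
  refine ⟨r, hr, hf.subset ?_⟩
  rintro q ⟨y, hy, hyr⟩
  obtain ⟨h1, h2⟩ := hP q y hy
  exact ⟨G y, h2, hball y h1 hyr⟩

/-- `PLOn` on a compact set is local -/
lemma plOn_of_local {K : Set E'} {f : E' → E} (hK : IsCompact K)
    (h : ∀ x ∈ K, ∃ U ∈ nhdsWithin x K, PLOn f U) : PLOn f K := by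
  classical
  choose! U hU hf using h
  obtain ⟨t, ht, hcov⟩ := hK.elim_nhdsWithin_subcover U hU
  choose! S hS using fun x (hx : x ∈ K) => (hf x hx).2
  refine ⟨fun x hx => ?_, t.biUnion S, fun x hx => ?_⟩
  · have h1 := (hf x hx).1
    have hxU : x ∈ U x := mem_of_mem_nhdsWithin hx (hU x hx)
    have h2 : ContinuousWithinAt f (U x) x := h1 x hxU
    exact h2.mono_of_mem_nhdsWithin (hU x hx)
  · obtain ⟨y, hy, hxy⟩ := mem_iUnion₂.1 (hcov hx)
    obtain ⟨a, ha, e⟩ := hS y (ht y hy) x hxy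
    exact ⟨a, Finset.mem_biUnion.2 ⟨y, hy, ha⟩, e⟩

end Crest.Agent.R096.Xp_537
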