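import Crest.Agent.R096.Mdd6_360
import Crest.Agent.R096.Mal19_874

/-!
# Row 96 (S0127), helper874.  EA0, (f) of #11270 / 961 #11325: geometry of the blocks of EA0

* `exists_exit` : between a point of the block and a point off the block there is a wall point;
* `Hl Q k0` : the halo (compact; contains the block, its layer `Ly` and all translated blocks);
* **`tr_diff`, `diff_tr`** : a block and its translate differ only in the layer;
* **`mem_int_of_far`, `om_sub`** : off the layer, a point of the block is in all translated blocks;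
* `lyr_sub` : `infDist (ψ y) W ≤ 20 / 2^k0` describes points of the layer;
* **`hl_img`, `hl_disj`, `hl_lf`** : `f` maps the halos into the open bricks.
-/

set_option autoImplicit false
set_option linter.style.longLine false
set_option linter.unusedSectionVars false

open MeasureTheory Set Filter Topology Metric

namespace Crest.Agent.R096.Zb_874

open Crest.Agent.R096.Msh_715 Crest.Agent.R096.Mal_874 Crest.Agent.R096.Msh_810
open Crest.Agent.R096.Bsp_628 Crest.Agent.R096.Brk5_582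
open Crest.Agent.R096.SkC1_961 (E3 Hom3)
open Crest.Agent.R096.EaX_766 (cbx)
open Crest.Agent.R096.Bxs_627 (ctr CoriE)
open Crest.Agent.R096.Mdd_360 (img_open_of lin_dif)
open Crest.Agent.R096.Ea0_961 (Tw Ly Blk)

noncomputable section

/-! ### wall points -/

theorem exists_exit {N : Set E3} {x y : E3} (hx : x ∈ N) (hy : y ∉ N) :
    ∃ z ∈ frontier N, z ∈ segment ℝ x y := by
  by_contra hcon
  push Not at hcon
  have hseg : IsPreconnected (segment ℝ x y) := (convex_segment x y).isPreconnected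
  have h1 : segment ℝ x y ⊆ interior N ∪ interior Nᶜ := by
    intro z hz
    by_contra h
    rw [mem_union, not_or, interior_compl, mem_compl_iff, not_not] at h
    exact hcon z ⟨h.2, h.1⟩ hz
  have h2 : Disjoint (interior N) (interior Nᶜ) :=
    disjoint_compl_right.mono interior_subset interior_subset
  have hxs : x ∈ segment ℝ x y := left_mem_segment ℝ x y
  have hys : y ∈ segment ℝ x y := right_mem_segment ℝ x y
  have hxi : x ∈ interior N := (h1 hxs).resolve_right fun h => (interior_subset h) hx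
  have h3 := hseg.subset_left_of_subset_union isOpen_interior isOpen_interior h2 h1 ⟨x, hxs, hxi⟩
  exact hy (interior_subset (h3 hys))

/-- between a point of the block and a point off the block there is a wall point -/
theorem exists_wall (Q : CB E3 3) {x y : E3} (hx : x ∈ Q.N) (hy : y ∉ Q.N) :
    ∃ z ∈ frontier Q.N, ‖Q.ψ x - Q.ψ z‖ ≤ ‖Q.ψ x - Q.ψ y‖ ∧ ‖Q.ψ y - Q.ψ z‖ ≤ ‖Q.ψ x - Q.ψ y‖ := by
  obtain ⟨z, hz, a, b, ha, hb, hab, rfl⟩ := exists_exit hx hy
  refine ⟨_, hz, ?_, ?_⟩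
  · have e : Q.ψ x - Q.ψ (a • x + b • y) = b • (Q.ψ x - Q.ψ y) := by
      rw [map_add, map_smul, map_smul]
      have : a = 1 - b := by linarith
      rw [this, sub_smul, one_smul, smul_sub]
      abel
    rw [e, norm_smul, Real.norm_eq_abs, abs_of_nonneg hb]
    exact mul_le_of_le_one_left (norm_nonneg _) (by linarith)
  · have e : Q.ψ y - Q.ψ (a • x + b • y) = (-a) • (Q.ψ x - Q.ψ y) := by
      rw [map_add, map_smul, map_smul]
      have : b = 1 - a := by linarith
      rw [this, sub_smul, one_smul, neg_smul, smul_sub]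
      abel
    rw [e, norm_smul, Real.norm_eq_abs, abs_neg, abs_of_nonneg ha]
    exact mul_le_of_le_one_left (norm_nonneg _) (by linarith)

/-! ### the halo -/







/-- the translations of the block are short in the frame -/
theorem tw_norm {Q : CB E3 3} {k0 : ℕ} {v : E3} (hv : v ∈ Tw Q k0) : ‖Q.ψ v‖ ≤ 1 / (10 * 2 ^ k0) := by
  rw [pi_norm_le_iff_of_nonneg (by positivity)]
  intro l
  rw [Real.norm_eq_abs, abs_of_nonneg (hv l).1]
  exact (hv l).2

theorem tw_norm' {Q : CB E3 3} {k0 : ℕ} {v : E3} (hv : v ∈ Tw Q k0) {t : ℝ} (ht : 1 ≤ t) :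
    ‖Q.ψ v‖ ≤ t / 2 ^ k0 := by
  refine (tw_norm hv).trans ?_
  have hp : (0 : ℝ) < 2 ^ k0 := by positivity
  rw [div_le_div_iff₀ (by positivity) hp]
  nlinarith

/-! ### a block and its translates -/





/-- off the layer all short translations stay in the block -/
theorem mem_of_far (Q : CB E3 3) {k0 : ℕ} {x y : E3} (hx : x ∈ Q.N) (hx' : x ∉ Ly Q k0)
    (h : ‖Q.ψ x - Q.ψ y‖ ≤ 20 / 2 ^ k0) : y ∈ Q.N := by
  by_contra hy
  obtain ⟨z, hz, h1, -⟩ := exists_wall Q hx hy
  exact hx' ⟨z, hz, h1.trans h⟩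

/-- **off the layer, a point of the block is in the interior of all translated blocks** -/
theorem mem_int_of_far (Q : CB E3 3) {k0 : ℕ} {B : Set E3} (hB : ∀ s ∈ B, ‖Q.ψ s‖ ≤ 10 / 2 ^ k0)
    {x : E3} (hx : x ∈ Q.N) (hx' : x ∉ Ly Q k0) : x ∈ interior {x | ∀ s ∈ B, x - s ∈ Q.N} := by
  rw [mem_interior_iff_mem_nhds]
  have h1 : ∀ᶠ y in 𝓝 x, ‖Q.ψ y - Q.ψ x‖ < 10 / 2 ^ k0 := by
    have hc : Continuous fun y : E3 => ‖Q.ψ y - Q.ψ x‖ := (Q.ψ.continuous.sub continuous_const).norm
    refine (hc.tendsto x).eventually (gt_mem_nhds ?_)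
    rw [sub_self, norm_zero]
    positivity
  filter_upwards [h1] with y hy s hs
  refine mem_of_far Q hx hx' ?_
  have e : Q.ψ x - Q.ψ (y - s) = -(Q.ψ y - Q.ψ x) + Q.ψ s := by
    rw [map_sub]
    abel
  rw [e]
  refine (norm_add_le _ _).trans ?_
  rw [norm_neg]
  have h2 := hB s hs
  have e2 : (20 : ℝ) / 2 ^ k0 = 10 / 2 ^ k0 + 10 / 2 ^ k0 := by ring
  rw [e2]
  exact add_le_add hy.le h2


/-- **the region of the outer class** (`Bx j := Tw (Q j) (k0 j)`) -/
theorem om_sub {J : Type*} (Om : Set E3) (Q : J → CB E3 3) (k0 : J → ℕ) {B : J → Set E3}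
    (hB : ∀ j, ∀ s ∈ B j, ‖(Q j).ψ s‖ ≤ 10 / 2 ^ k0 j) :
    Om \ ⋃ j, interior {x | ∀ s ∈ B j, x - s ∈ (Q j).N} ⊆
      (Om \ ⋃ j, (Q j).N) ∪ ⋃ j, Ly (Q j) (k0 j) := by
  rintro x ⟨hx, hx'⟩
  by_cases h : x ∈ ⋃ j, (Q j).N
  · obtain ⟨j, hj⟩ := mem_iUnion.1 h
    refine Or.inr (mem_iUnion.2 ⟨j, ?_⟩)
    by_contra hl
    exact hx' (mem_iUnion.2 ⟨j, mem_int_of_far (Q j) (hB j) hj hl⟩)
  · exact Or.inl ⟨hx, h⟩





/-! ### the halo in the target -/

section tgt

variable {La Om : Set E3} {f : E3 → E3} {F : Set (Bx (Fin 3))} {δ κ0 : ℝ}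
  {u Cc κ1 κ2 κt τ lam1 : ℝ} {Bs M Nn : ℕ}







end tgt

end

end Crest.Agent.R096.Zb_874
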